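import Vale.Agent.Lib.P154.PChain.BA.R10_2

set_option linter.all false

namespace Vale.Agent.Lib.P154.PChain.BA.S11

open Vale.Agent.Lib.P154.Chain

noncomputable def pc0 : PT := (PT.nd (nat_lit 7318194) (PT.nd (nat_lit 7199712) (PT.nd (nat_lit 7081464) (PT.nd (nat_lit 7080996) (PT.nd (nat_lit 7022106) (PT.nd (nat_lit 7021638) PT.nil (PT.lf (nat_lit 9500) (nat_lit 6) (nat_lit 125) (nat_lit 3) (nat_lit 223) (nat_lit 118) (nat_lit 229))) (PT.nd (nat_lit 58812) (PT.lf (nat_lit 9500) (nat_lit 6) (nat_lit 125) (nat_lit 1) (nat_lit 229) (nat_lit 118) (nat_lit 223)) (PT.lf (nat_lit 9804) (nat_lit 6) (nat_lit 129) (nat_lit 3) (nat_lit 222) (nat_lit 119) (nat_lit 229)))) (PT.nd (nat_lit 234) (PT.nd (nat_lit 156) (PT.lf (nat_lit 9880) (nat_lit 6) (nat_lit 130) (nat_lit 3) (nat_lit 223) (nat_lit 119) (nat_lit 228)) (PT.lf (nat_lit 10032) (nat_lit 6) (nat_lit 132) (nat_lit 3) (nat_lit 225) (nat_lit 119) (nat_lit 226))) (PT.nd (nat_lit 156) (PT.lf (nat_lit 10032) (nat_lit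 6) (nat_lit 132) (nat_lit 1) (nat_lit 226) (nat_lit 119) (nat_lit 225)) (PT.lf (nat_lit 9880) (nat_lit 6) (nat_lit 130) (nat_lit 1) (nat_lit 228) (nat_lit 119) (nat_lit 223))))) (PT.nd (nat_lit 59124) (PT.nd (nat_lit 58968) (PT.nd (nat_lit 58812) (PT.lf (nat_lit 9804) (nat_lit 6) (nat_lit 129) (nat_lit 1) (nat_lit 229) (nat_lit 119) (nat_lit 222)) (PT.lf (nat_lit 10184) (nat_lit 6) (nat_lit 134) (nat_lit 3) (nat_lit 222) (nat_lit 120) (nat_lit 228))) (PT.nd (nat_lit 78) (PT.lf (nat_lit 10336) (nat_lit 6) (nat_lit 136) (nat_lit 3) (nat_lit 224) (nat_lit 120) (nat_lit 226)) (PT.lf (nat_lit 10412) (nat_lit 3) (nat_lit 137) (nat_lit 1) (nat_lit 225) (nat_lit 120) (nat_lit 225)))) (PT.nd (nat_lit 58968) (PT.nd (nat_lit 156) (PT.lf (nat_lit 10336) (nat_lit 6) (nat_lit 136) (nat_lit 1) (nat_lit 226) (nat_lit 120) (nat_lit 224)) (PT.lf (nat_lit 10184) (nat_lit 6) (nat_lit 134) (nat_lit 1) (nat_lit 228) (nat_lit 120) (nat_lit 222))) (PT.nd (nat_lit 78) (PT.lf (nat_lit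 10488) (nat_lit 6) (nat_lit 138) (nat_lit 3) (nat_lit 221) (nat_lit 121) (nat_lit 228)) (PT.lf (nat_lit 10564) (nat_lit 6) (nat_lit 139) (nat_lit 3) (nat_lit 222) (nat_lit 121) (nat_lit 227)))))) (PT.nd (nat_lit 59202) (PT.nd (nat_lit 234) (PT.nd (nat_lit 78) (PT.lf (nat_lit 10640) (nat_lit 6) (nat_lit 140) (nat_lit 3) (nat_lit 223) (nat_lit 121) (nat_lit 226)) (PT.nd (nat_lit 78) (PT.lf (nat_lit 10716) (nat_lit 6) (nat_lit 141) (nat_lit 3) (nat_lit 224) (nat_lit 121) (nat_lit 225)) (PT.lf (nat_lit 10716) (nat_lit 6) (nat_lit 141) (nat_lit 1) (nat_lit 225) (nat_lit 121) (nat_lit 224)))) (PT.nd (nat_lit 156) (PT.nd (nat_lit 78) (PT.lf (nat_lit 10640) (nat_lit 6) (nat_lit 140) (nat_lit 1) (nat_lit 226) (nat_lit 121) (nat_lit 223)) (PT.lf (nat_lit 10564) (nat_lit 6) (nat_lit 139) (nat_lit 1) (nat_lit 227) (nat_lit 121) (nat_lit 222))) (PT.nd (nat_lit 58734) (PT.lf (nat_lit 10488) (nat_lit 6) (nat_lit 138) (nat_lit 1) (nat_lit 228) (nat_lit 121) (nat_lit 221)) (PT.lf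 (nat_lit 10792) (nat_lit 6) (nat_lit 142) (nat_lit 3) (nat_lit 220) (nat_lit 122) (nat_lit 228))))) (PT.nd (nat_lit 312) (PT.nd (nat_lit 156) (PT.nd (nat_lit 78) (PT.lf (nat_lit 10868) (nat_lit 6) (nat_lit 143) (nat_lit 3) (nat_lit 221) (nat_lit 122) (nat_lit 227)) (PT.lf (nat_lit 10944) (nat_lit 6) (nat_lit 144) (nat_lit 3) (nat_lit 222) (nat_lit 122) (nat_lit 226))) (PT.nd (nat_lit 78) (PT.lf (nat_lit 11020) (nat_lit 6) (nat_lit 145) (nat_lit 3) (nat_lit 223) (nat_lit 122) (nat_lit 225)) (PT.lf (nat_lit 11096) (nat_lit 3) (nat_lit 146) (nat_lit 1) (nat_lit 224) (nat_lit 122) (nat_lit 224)))) (PT.nd (nat_lit 156) (PT.nd (nat_lit 78) (PT.lf (nat_lit 11020) (nat_lit 6) (nat_lit 145) (nat_lit 1) (nat_lit 225) (nat_lit 122) (nat_lit 223)) (PT.lf (nat_lit 10944) (nat_lit 6) (nat_lit 144) (nat_lit 1) (nat_lit 226) (nat_lit 122) (nat_lit 222))) (PT.nd (nat_lit 78) (PT.lf (nat_lit 10868) (nat_lit 6) (nat_lit 143) (nat_lit 1) (nat_lit 227) (nat_lit 122) (nat_lit 221))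 (PT.lf (nat_lit 10792) (nat_lit 6) (nat_lit 142) (nat_lit 1) (nat_lit 228) (nat_lit 122) (nat_lit 220))))))) (PT.nd (nat_lit 118560) (PT.nd (nat_lit 59358) (PT.nd (nat_lit 312) (PT.nd (nat_lit 156) (PT.lf (nat_lit 11172) (nat_lit 6) (nat_lit 147) (nat_lit 3) (nat_lit 220) (nat_lit 123) (nat_lit 227)) (PT.nd (nat_lit 78) (PT.lf (nat_lit 11324) (nat_lit 6) (nat_lit 149) (nat_lit 3) (nat_lit 222) (nat_lit 123) (nat_lit 225)) (PT.lf (nat_lit 11400) (nat_lit 6) (nat_lit 150) (nat_lit 3) (nat_lit 223) (nat_lit 123) (nat_lit 224)))) (PT.nd (nat_lit 234) (PT.nd (nat_lit 78) (PT.lf (nat_lit 11400) (nat_lit 6) (nat_lit 150) (nat_lit 1) (nat_lit 224) (nat_lit 123) (nat_lit 223)) (PT.lf (nat_lit 11324) (nat_lit 6) (nat_lit 149) (nat_lit 1) (nat_lit 225) (nat_lit 123) (nat_lit 222))) (PT.nd (nat_lit 58734) (PT.lf (nat_lit 11172) (nat_lit 6) (nat_lit 147) (nat_lit 1) (nat_lit 227) (nat_lit 123) (nat_lit 220)) (PT.lf (nat_lit 11476) (nat_lit 6) (nat_lit 151) (nat_lit 3) (nat_lit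 219) (nat_lit 124) (nat_lit 227))))) (PT.nd (nat_lit 312) (PT.nd (nat_lit 156) (PT.nd (nat_lit 78) (PT.lf (nat_lit 11552) (nat_lit 6) (nat_lit 152) (nat_lit 3) (nat_lit 220) (nat_lit 124) (nat_lit 226)) (PT.lf (nat_lit 11628) (nat_lit 6) (nat_lit 153) (nat_lit 3) (nat_lit 221) (nat_lit 124) (nat_lit 225))) (PT.nd (nat_lit 78) (PT.lf (nat_lit 11704) (nat_lit 6) (nat_lit 154) (nat_lit 3) (nat_lit 222) (nat_lit 124) (nat_lit 224)) (PT.lf (nat_lit 11780) (nat_lit 3) (nat_lit 155) (nat_lit 1) (nat_lit 223) (nat_lit 124) (nat_lit 223)))) (PT.nd (nat_lit 156) (PT.nd (nat_lit 78) (PT.lf (nat_lit 11704) (nat_lit 6) (nat_lit 154) (nat_lit 1) (nat_lit 224) (nat_lit 124) (nat_lit 222)) (PT.lf (nat_lit 11628) (nat_lit 6) (nat_lit 153) (nat_lit 1) (nat_lit 225) (nat_lit 124) (nat_lit 221))) (PT.nd (nat_lit 78) (PT.lf (nat_lit 11552) (nat_lit 6) (nat_lit 152) (nat_lit 1) (nat_lit 226) (nat_lit 124) (nat_lit 220)) (PT.lf (nat_lit 11476) (nat_lit 6) (nat_lit 151) (nat_lit 1)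 (nat_lit 227) (nat_lit 124) (nat_lit 219)))))) (PT.nd (nat_lit 624) (PT.nd (nat_lit 312) (PT.nd (nat_lit 156) (PT.nd (nat_lit 78) (PT.lf (nat_lit 11856) (nat_lit 6) (nat_lit 156) (nat_lit 3) (nat_lit 218) (nat_lit 125) (nat_lit 227)) (PT.lf (nat_lit 11932) (nat_lit 6) (nat_lit 157) (nat_lit 3) (nat_lit 219) (nat_lit 125) (nat_lit 226))) (PT.nd (nat_lit 78) (PT.lf (nat_lit 12008) (nat_lit 6) (nat_lit 158) (nat_lit 3) (nat_lit 220) (nat_lit 125) (nat_lit 225)) (PT.lf (nat_lit 12084) (nat_lit 6) (nat_lit 159) (nat_lit 3) (nat_lit 221) (nat_lit 125) (nat_lit 224)))) (PT.nd (nat_lit 156) (PT.nd (nat_lit 78) (PT.lf (nat_lit 12160) (nat_lit 6) (nat_lit 160) (nat_lit 3) (nat_lit 222) (nat_lit 125) (nat_lit 223)) (PT.lf (nat_lit 12160) (nat_lit 6) (nat_lit 160) (nat_lit 1) (nat_lit 223) (nat_lit 125) (nat_lit 222))) (PT.nd (nat_lit 78) (PT.lf (nat_lit 12084) (nat_lit 6) (nat_lit 159) (nat_lit 1) (nat_lit 224) (nat_lit 125) (nat_lit 221)) (PT.lf (nat_lit 12008) (nat_lit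 6) (nat_lit 158) (nat_lit 1) (nat_lit 225) (nat_lit 125) (nat_lit 220))))) (PT.nd (nat_lit 58890) (PT.nd (nat_lit 58734) (PT.nd (nat_lit 78) (PT.lf (nat_lit 11932) (nat_lit 6) (nat_lit 157) (nat_lit 1) (nat_lit 226) (nat_lit 125) (nat_lit 219)) (PT.lf (nat_lit 11856) (nat_lit 6) (nat_lit 156) (nat_lit 1) (nat_lit 227) (nat_lit 125) (nat_lit 218))) (PT.nd (nat_lit 78) (PT.lf (nat_lit 12236) (nat_lit 6) (nat_lit 161) (nat_lit 3) (nat_lit 218) (nat_lit 126) (nat_lit 226)) (PT.lf (nat_lit 12312) (nat_lit 6) (nat_lit 162) (nat_lit 3) (nat_lit 219) (nat_lit 126) (nat_lit 225)))) (PT.nd (nat_lit 156) (PT.nd (nat_lit 78) (PT.lf (nat_lit 12388) (nat_lit 6) (nat_lit 163) (nat_lit 3) (nat_lit 220) (nat_lit 126) (nat_lit 224)) (PT.lf (nat_lit 12464) (nat_lit 6) (nat_lit 164) (nat_lit 3) (nat_lit 221) (nat_lit 126) (nat_lit 223))) (PT.nd (nat_lit 78) (PT.lf (nat_lit 12540) (nat_lit 3) (nat_lit 165) (nat_lit 1) (nat_lit 222) (nat_lit 126) (nat_lit 222)) (PT.lf (nat_lit 12464)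 (nat_lit 6) (nat_lit 164) (nat_lit 1) (nat_lit 223) (nat_lit 126) (nat_lit 221))))))))
noncomputable def pc1 : PT := (PT.nd (nat_lit 178074) (PT.nd (nat_lit 118326) (PT.nd (nat_lit 59124) (PT.nd (nat_lit 58812) (PT.nd (nat_lit 78) (PT.lf (nat_lit 12388) (nat_lit 6) (nat_lit 163) (nat_lit 1) (nat_lit 224) (nat_lit 126) (nat_lit 220)) (PT.nd (nat_lit 78) (PT.lf (nat_lit 12312) (nat_lit 6) (nat_lit 162) (nat_lit 1) (nat_lit 225) (nat_lit 126) (nat_lit 219)) (PT.lf (nat_lit 12236) (nat_lit 6) (nat_lit 161) (nat_lit 1) (nat_lit 226) (nat_lit 126) (nat_lit 218)))) (PT.nd (nat_lit 156) (PT.nd (nat_lit 78) (PT.lf (nat_lit 12616) (nat_lit 6) (nat_lit 166) (nat_lit 3) (nat_lit 217) (nat_lit 127) (nat_lit 226)) (PT.lf (nat_lit 12692) (nat_lit 6) (nat_lit 167) (nat_lit 3) (nat_lit 218) (nat_lit 127) (nat_lit 225))) (PT.nd (nat_lit 78) (PT.lf (nat_lit 12768) (nat_lit 6) (nat_lit 168) (nat_lit 3) (nat_lit 219) (nat_lit 127) (nat_lit 224)) (PT.lf (nat_lit 12844) (nat_lit 6)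 (nat_lit 169) (nat_lit 3) (nat_lit 220) (nat_lit 127) (nat_lit 223))))) (PT.nd (nat_lit 312) (PT.nd (nat_lit 156) (PT.nd (nat_lit 78) (PT.lf (nat_lit 12920) (nat_lit 6) (nat_lit 170) (nat_lit 3) (nat_lit 221) (nat_lit 127) (nat_lit 222)) (PT.lf (nat_lit 12920) (nat_lit 6) (nat_lit 170) (nat_lit 1) (nat_lit 222) (nat_lit 127) (nat_lit 221))) (PT.nd (nat_lit 78) (PT.lf (nat_lit 12844) (nat_lit 6) (nat_lit 169) (nat_lit 1) (nat_lit 223) (nat_lit 127) (nat_lit 220)) (PT.lf (nat_lit 12768) (nat_lit 6) (nat_lit 168) (nat_lit 1) (nat_lit 224) (nat_lit 127) (nat_lit 219)))) (PT.nd (nat_lit 58734) (PT.nd (nat_lit 78) (PT.lf (nat_lit 12692) (nat_lit 6) (nat_lit 167) (nat_lit 1) (nat_lit 225) (nat_lit 127) (nat_lit 218)) (PT.lf (nat_lit 12616) (nat_lit 6) (nat_lit 166) (nat_lit 1) (nat_lit 226) (nat_lit 127) (nat_lit 217))) (PT.nd (nat_lit 78) (PT.lf (nat_lit 12996) (nat_lit 6) (nat_lit 171) (nat_lit 3) (nat_lit 217) (nat_lit 128) (nat_lit 225)) (PT.lf (nat_lit 13072) (nat_lit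 6) (nat_lit 172) (nat_lit 3) (nat_lit 218) (nat_lit 128) (nat_lit 224)))))) (PT.nd (nat_lit 59124) (PT.nd (nat_lit 234) (PT.nd (nat_lit 78) (PT.lf (nat_lit 13148) (nat_lit 6) (nat_lit 173) (nat_lit 3) (nat_lit 219) (nat_lit 128) (nat_lit 223)) (PT.nd (nat_lit 78) (PT.lf (nat_lit 13224) (nat_lit 6) (nat_lit 174) (nat_lit 3) (nat_lit 220) (nat_lit 128) (nat_lit 222)) (PT.lf (nat_lit 13300) (nat_lit 3) (nat_lit 175) (nat_lit 1) (nat_lit 221) (nat_lit 128) (nat_lit 221)))) (PT.nd (nat_lit 156) (PT.nd (nat_lit 78) (PT.lf (nat_lit 13224) (nat_lit 6) (nat_lit 174) (nat_lit 1) (nat_lit 222) (nat_lit 128) (nat_lit 220)) (PT.lf (nat_lit 13148) (nat_lit 6) (nat_lit 173) (nat_lit 1) (nat_lit 223) (nat_lit 128) (nat_lit 219))) (PT.nd (nat_lit 78) (PT.lf (nat_lit 13072) (nat_lit 6) (nat_lit 172) (nat_lit 1) (nat_lit 224) (nat_lit 128) (nat_lit 218)) (PT.lf (nat_lit 12996) (nat_lit 6) (nat_lit 171) (nat_lit 1) (nat_lit 225) (nat_lit 128) (nat_lit 217))))) (PT.nd (nat_lit 312)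 (PT.nd (nat_lit 156) (PT.nd (nat_lit 78) (PT.lf (nat_lit 13376) (nat_lit 6) (nat_lit 176) (nat_lit 3) (nat_lit 216) (nat_lit 129) (nat_lit 225)) (PT.lf (nat_lit 13452) (nat_lit 6) (nat_lit 177) (nat_lit 3) (nat_lit 217) (nat_lit 129) (nat_lit 224))) (PT.nd (nat_lit 78) (PT.lf (nat_lit 13528) (nat_lit 6) (nat_lit 178) (nat_lit 3) (nat_lit 218) (nat_lit 129) (nat_lit 223)) (PT.lf (nat_lit 13604) (nat_lit 6) (nat_lit 179) (nat_lit 3) (nat_lit 219) (nat_lit 129) (nat_lit 222)))) (PT.nd (nat_lit 156) (PT.nd (nat_lit 78) (PT.lf (nat_lit 13680) (nat_lit 6) (nat_lit 180) (nat_lit 3) (nat_lit 220) (nat_lit 129) (nat_lit 221)) (PT.lf (nat_lit 13680) (nat_lit 6) (nat_lit 180) (nat_lit 1) (nat_lit 221) (nat_lit 129) (nat_lit 220))) (PT.nd (nat_lit 78) (PT.lf (nat_lit 13604) (nat_lit 6) (nat_lit 179) (nat_lit 1) (nat_lit 222) (nat_lit 129) (nat_lit 219)) (PT.lf (nat_lit 13528) (nat_lit 6) (nat_lit 178) (nat_lit 1) (nat_lit 223) (nat_lit 129) (nat_lit 218))))))) (PT.nd (nat_lit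 118170) (PT.nd (nat_lit 59046) (PT.nd (nat_lit 58734) (PT.nd (nat_lit 78) (PT.lf (nat_lit 13452) (nat_lit 6) (nat_lit 177) (nat_lit 1) (nat_lit 224) (nat_lit 129) (nat_lit 217)) (PT.nd (nat_lit 58578) (PT.lf (nat_lit 13376) (nat_lit 6) (nat_lit 176) (nat_lit 1) (nat_lit 225) (nat_lit 129) (nat_lit 216)) (PT.lf (nat_lit 13756) (nat_lit 6) (nat_lit 181) (nat_lit 3) (nat_lit 215) (nat_lit 130) (nat_lit 225)))) (PT.nd (nat_lit 156) (PT.nd (nat_lit 78) (PT.lf (nat_lit 13832) (nat_lit 6) (nat_lit 182) (nat_lit 3) (nat_lit 216) (nat_lit 130) (nat_lit 224)) (PT.lf (nat_lit 13908) (nat_lit 6) (nat_lit 183) (nat_lit 3) (nat_lit 217) (nat_lit 130) (nat_lit 223))) (PT.nd (nat_lit 78) (PT.lf (nat_lit 13984) (nat_lit 6) (nat_lit 184) (nat_lit 3) (nat_lit 218) (nat_lit 130) (nat_lit 222)) (PT.lf (nat_lit 14060) (nat_lit 6) (nat_lit 185) (nat_lit 3) (nat_lit 219) (nat_lit 130) (nat_lit 221))))) (PT.nd (nat_lit 312) (PT.nd (nat_lit 156) (PT.nd (nat_lit 78) (PT.lf (nat_lit 14136)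 (nat_lit 3) (nat_lit 186) (nat_lit 1) (nat_lit 220) (nat_lit 130) (nat_lit 220)) (PT.lf (nat_lit 14060) (nat_lit 6) (nat_lit 185) (nat_lit 1) (nat_lit 221) (nat_lit 130) (nat_lit 219))) (PT.nd (nat_lit 78) (PT.lf (nat_lit 13984) (nat_lit 6) (nat_lit 184) (nat_lit 1) (nat_lit 222) (nat_lit 130) (nat_lit 218)) (PT.lf (nat_lit 13908) (nat_lit 6) (nat_lit 183) (nat_lit 1) (nat_lit 223) (nat_lit 130) (nat_lit 217)))) (PT.nd (nat_lit 58656) (PT.nd (nat_lit 78) (PT.lf (nat_lit 13832) (nat_lit 6) (nat_lit 182) (nat_lit 1) (nat_lit 224) (nat_lit 130) (nat_lit 216)) (PT.lf (nat_lit 13756) (nat_lit 6) (nat_lit 181) (nat_lit 1) (nat_lit 225) (nat_lit 130) (nat_lit 215))) (PT.nd (nat_lit 78) (PT.lf (nat_lit 14212) (nat_lit 6) (nat_lit 187) (nat_lit 3) (nat_lit 215) (nat_lit 131) (nat_lit 224)) (PT.lf (nat_lit 14288) (nat_lit 6) (nat_lit 188) (nat_lit 3) (nat_lit 216) (nat_lit 131) (nat_lit 223)))))) (PT.nd (nat_lit 59124) (PT.nd (nat_lit 312) (PT.nd (nat_lit 156) (PT.nd (nat_lit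 78) (PT.lf (nat_lit 14364) (nat_lit 6) (nat_lit 189) (nat_lit 3) (nat_lit 217) (nat_lit 131) (nat_lit 222)) (PT.lf (nat_lit 14440) (nat_lit 6) (nat_lit 190) (nat_lit 3) (nat_lit 218) (nat_lit 131) (nat_lit 221))) (PT.nd (nat_lit 78) (PT.lf (nat_lit 14516) (nat_lit 6) (nat_lit 191) (nat_lit 3) (nat_lit 219) (nat_lit 131) (nat_lit 220)) (PT.lf (nat_lit 14516) (nat_lit 6) (nat_lit 191) (nat_lit 1) (nat_lit 220) (nat_lit 131) (nat_lit 219)))) (PT.nd (nat_lit 156) (PT.nd (nat_lit 78) (PT.lf (nat_lit 14440) (nat_lit 6) (nat_lit 190) (nat_lit 1) (nat_lit 221) (nat_lit 131) (nat_lit 218)) (PT.lf (nat_lit 14364) (nat_lit 6) (nat_lit 189) (nat_lit 1) (nat_lit 222) (nat_lit 131) (nat_lit 217))) (PT.nd (nat_lit 78) (PT.lf (nat_lit 14288) (nat_lit 6) (nat_lit 188) (nat_lit 1) (nat_lit 223) (nat_lit 131) (nat_lit 216)) (PT.lf (nat_lit 14212) (nat_lit 6) (nat_lit 187) (nat_lit 1) (nat_lit 224) (nat_lit 131) (nat_lit 215))))) (PT.nd (nat_lit 312) (PT.nd (nat_lit 156) (PT.nd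 (nat_lit 78) (PT.lf (nat_lit 14592) (nat_lit 6) (nat_lit 192) (nat_lit 3) (nat_lit 214) (nat_lit 132) (nat_lit 224)) (PT.lf (nat_lit 14668) (nat_lit 6) (nat_lit 193) (nat_lit 3) (nat_lit 215) (nat_lit 132) (nat_lit 223))) (PT.nd (nat_lit 78) (PT.lf (nat_lit 14744) (nat_lit 6) (nat_lit 194) (nat_lit 3) (nat_lit 216) (nat_lit 132) (nat_lit 222)) (PT.lf (nat_lit 14820) (nat_lit 6) (nat_lit 195) (nat_lit 3) (nat_lit 217) (nat_lit 132) (nat_lit 221)))) (PT.nd (nat_lit 156) (PT.nd (nat_lit 78) (PT.lf (nat_lit 14896) (nat_lit 6) (nat_lit 196) (nat_lit 3) (nat_lit 218) (nat_lit 132) (nat_lit 220)) (PT.lf (nat_lit 14972) (nat_lit 3) (nat_lit 197) (nat_lit 1) (nat_lit 219) (nat_lit 132) (nat_lit 219))) (PT.nd (nat_lit 78) (PT.lf (nat_lit 14896) (nat_lit 6) (nat_lit 196) (nat_lit 1) (nat_lit 220) (nat_lit 132) (nat_lit 218)) (PT.lf (nat_lit 14820) (nat_lit 6) (nat_lit 195) (nat_lit 1) (nat_lit 221) (nat_lit 132) (nat_lit 217))))))))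
noncomputable def pc2 : PT := (PT.nd (nat_lit 177606) (PT.nd (nat_lit 118014) (PT.nd (nat_lit 58968) (PT.nd (nat_lit 58656) (PT.nd (nat_lit 78) (PT.lf (nat_lit 14744) (nat_lit 6) (nat_lit 194) (nat_lit 1) (nat_lit 222) (nat_lit 132) (nat_lit 216)) (PT.nd (nat_lit 78) (PT.lf (nat_lit 14668) (nat_lit 6) (nat_lit 193) (nat_lit 1) (nat_lit 223) (nat_lit 132) (nat_lit 215)) (PT.lf (nat_lit 14592) (nat_lit 6) (nat_lit 192) (nat_lit 1) (nat_lit 224) (nat_lit 132) (nat_lit 214)))) (PT.nd (nat_lit 156) (PT.nd (nat_lit 78) (PT.lf (nat_lit 15048) (nat_lit 6) (nat_lit 198) (nat_lit 3) (nat_lit 213) (nat_lit 133) (nat_lit 224)) (PT.lf (nat_lit 15124) (nat_lit 6) (nat_lit 199) (nat_lit 3) (nat_lit 214) (nat_lit 133) (nat_lit 223))) (PT.nd (nat_lit 78) (PT.lf (nat_lit 15200) (nat_lit 6) (nat_lit 200) (nat_lit 3) (nat_lit 215) (nat_lit 133) (nat_lit 222)) (PT.lf (nat_lit 15276) (nat_lit 6) (nat_lit 201) (nat_lit 3) (nat_lit 216) (nat_lit 133) (nat_lit 221))))) (PT.nd (nat_lit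 312) (PT.nd (nat_lit 156) (PT.nd (nat_lit 78) (PT.lf (nat_lit 15352) (nat_lit 6) (nat_lit 202) (nat_lit 3) (nat_lit 217) (nat_lit 133) (nat_lit 220)) (PT.lf (nat_lit 15428) (nat_lit 6) (nat_lit 203) (nat_lit 3) (nat_lit 218) (nat_lit 133) (nat_lit 219))) (PT.nd (nat_lit 78) (PT.lf (nat_lit 15428) (nat_lit 6) (nat_lit 203) (nat_lit 1) (nat_lit 219) (nat_lit 133) (nat_lit 218)) (PT.lf (nat_lit 15352) (nat_lit 6) (nat_lit 202) (nat_lit 1) (nat_lit 220) (nat_lit 133) (nat_lit 217)))) (PT.nd (nat_lit 156) (PT.nd (nat_lit 78) (PT.lf (nat_lit 15276) (nat_lit 6) (nat_lit 201) (nat_lit 1) (nat_lit 221) (nat_lit 133) (nat_lit 216)) (PT.lf (nat_lit 15200) (nat_lit 6) (nat_lit 200) (nat_lit 1) (nat_lit 222) (nat_lit 133) (nat_lit 215))) (PT.nd (nat_lit 78) (PT.lf (nat_lit 15124) (nat_lit 6) (nat_lit 199) (nat_lit 1) (nat_lit 223) (nat_lit 133) (nat_lit 214)) (PT.lf (nat_lit 15048) (nat_lit 6) (nat_lit 198) (nat_lit 1) (nat_lit 224) (nat_lit 133) (nat_lit 213)))))) (PT.nd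 (nat_lit 546) (PT.nd (nat_lit 234) (PT.nd (nat_lit 78) (PT.lf (nat_lit 15504) (nat_lit 6) (nat_lit 204) (nat_lit 3) (nat_lit 213) (nat_lit 134) (nat_lit 223)) (PT.nd (nat_lit 78) (PT.lf (nat_lit 15580) (nat_lit 6) (nat_lit 205) (nat_lit 3) (nat_lit 214) (nat_lit 134) (nat_lit 222)) (PT.lf (nat_lit 15656) (nat_lit 6) (nat_lit 206) (nat_lit 3) (nat_lit 215) (nat_lit 134) (nat_lit 221)))) (PT.nd (nat_lit 156) (PT.nd (nat_lit 78) (PT.lf (nat_lit 15732) (nat_lit 6) (nat_lit 207) (nat_lit 3) (nat_lit 216) (nat_lit 134) (nat_lit 220)) (PT.lf (nat_lit 15808) (nat_lit 6) (nat_lit 208) (nat_lit 3) (nat_lit 217) (nat_lit 134) (nat_lit 219))) (PT.nd (nat_lit 78) (PT.lf (nat_lit 15884) (nat_lit 3) (nat_lit 209) (nat_lit 1) (nat_lit 218) (nat_lit 134) (nat_lit 218)) (PT.lf (nat_lit 15808) (nat_lit 6) (nat_lit 208) (nat_lit 1) (nat_lit 219) (nat_lit 134) (nat_lit 217))))) (PT.nd (nat_lit 58734) (PT.nd (nat_lit 156) (PT.nd (nat_lit 78) (PT.lf (nat_lit 15732) (nat_lit 6) (nat_lit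 207) (nat_lit 1) (nat_lit 220) (nat_lit 134) (nat_lit 216)) (PT.lf (nat_lit 15656) (nat_lit 6) (nat_lit 206) (nat_lit 1) (nat_lit 221) (nat_lit 134) (nat_lit 215))) (PT.nd (nat_lit 78) (PT.lf (nat_lit 15580) (nat_lit 6) (nat_lit 205) (nat_lit 1) (nat_lit 222) (nat_lit 134) (nat_lit 214)) (PT.lf (nat_lit 15504) (nat_lit 6) (nat_lit 204) (nat_lit 1) (nat_lit 223) (nat_lit 134) (nat_lit 213)))) (PT.nd (nat_lit 156) (PT.nd (nat_lit 78) (PT.lf (nat_lit 15960) (nat_lit 6) (nat_lit 210) (nat_lit 3) (nat_lit 212) (nat_lit 135) (nat_lit 223)) (PT.lf (nat_lit 16036) (nat_lit 6) (nat_lit 211) (nat_lit 3) (nat_lit 213) (nat_lit 135) (nat_lit 222))) (PT.nd (nat_lit 78) (PT.lf (nat_lit 16112) (nat_lit 6) (nat_lit 212) (nat_lit 3) (nat_lit 214) (nat_lit 135) (nat_lit 221)) (PT.lf (nat_lit 16188) (nat_lit 6) (nat_lit 213) (nat_lit 3) (nat_lit 215) (nat_lit 135) (nat_lit 220))))))) (PT.nd (nat_lit 59514) (PT.nd (nat_lit 546) (PT.nd (nat_lit 234) (PT.nd (nat_lit 78) (PT.lf (nat_lit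 16264) (nat_lit 6) (nat_lit 214) (nat_lit 3) (nat_lit 216) (nat_lit 135) (nat_lit 219)) (PT.nd (nat_lit 78) (PT.lf (nat_lit 16340) (nat_lit 6) (nat_lit 215) (nat_lit 3) (nat_lit 217) (nat_lit 135) (nat_lit 218)) (PT.lf (nat_lit 16340) (nat_lit 6) (nat_lit 215) (nat_lit 1) (nat_lit 218) (nat_lit 135) (nat_lit 217)))) (PT.nd (nat_lit 156) (PT.nd (nat_lit 78) (PT.lf (nat_lit 16264) (nat_lit 6) (nat_lit 214) (nat_lit 1) (nat_lit 219) (nat_lit 135) (nat_lit 216)) (PT.lf (nat_lit 16188) (nat_lit 6) (nat_lit 213) (nat_lit 1) (nat_lit 220) (nat_lit 135) (nat_lit 215))) (PT.nd (nat_lit 78) (PT.lf (nat_lit 16112) (nat_lit 6) (nat_lit 212) (nat_lit 1) (nat_lit 221) (nat_lit 135) (nat_lit 214)) (PT.lf (nat_lit 16036) (nat_lit 6) (nat_lit 211) (nat_lit 1) (nat_lit 222) (nat_lit 135) (nat_lit 213))))) (PT.nd (nat_lit 58656) (PT.nd (nat_lit 58500) (PT.nd (nat_lit 58422) (PT.lf (nat_lit 15960) (nat_lit 6) (nat_lit 210) (nat_lit 1) (nat_lit 223) (nat_lit 135) (nat_lit 212)) (PT.lf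 (nat_lit 16416) (nat_lit 6) (nat_lit 216) (nat_lit 3) (nat_lit 211) (nat_lit 136) (nat_lit 223))) (PT.nd (nat_lit 78) (PT.lf (nat_lit 16492) (nat_lit 6) (nat_lit 217) (nat_lit 3) (nat_lit 212) (nat_lit 136) (nat_lit 222)) (PT.lf (nat_lit 16568) (nat_lit 6) (nat_lit 218) (nat_lit 3) (nat_lit 213) (nat_lit 136) (nat_lit 221)))) (PT.nd (nat_lit 156) (PT.nd (nat_lit 78) (PT.lf (nat_lit 16644) (nat_lit 6) (nat_lit 219) (nat_lit 3) (nat_lit 214) (nat_lit 136) (nat_lit 220)) (PT.lf (nat_lit 16720) (nat_lit 6) (nat_lit 220) (nat_lit 3) (nat_lit 215) (nat_lit 136) (nat_lit 219))) (PT.nd (nat_lit 78) (PT.lf (nat_lit 16796) (nat_lit 6) (nat_lit 221) (nat_lit 3) (nat_lit 216) (nat_lit 136) (nat_lit 218)) (PT.lf (nat_lit 16872) (nat_lit 3) (nat_lit 222) (nat_lit 1) (nat_lit 217) (nat_lit 136) (nat_lit 217)))))) (PT.nd (nat_lit 58968) (PT.nd (nat_lit 312) (PT.nd (nat_lit 156) (PT.nd (nat_lit 78) (PT.lf (nat_lit 16796) (nat_lit 6) (nat_lit 221) (nat_lit 1) (nat_lit 218) (nat_lit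 136) (nat_lit 216)) (PT.lf (nat_lit 16720) (nat_lit 6) (nat_lit 220) (nat_lit 1) (nat_lit 219) (nat_lit 136) (nat_lit 215))) (PT.nd (nat_lit 78) (PT.lf (nat_lit 16644) (nat_lit 6) (nat_lit 219) (nat_lit 1) (nat_lit 220) (nat_lit 136) (nat_lit 214)) (PT.lf (nat_lit 16568) (nat_lit 6) (nat_lit 218) (nat_lit 1) (nat_lit 221) (nat_lit 136) (nat_lit 213)))) (PT.nd (nat_lit 58500) (PT.nd (nat_lit 78) (PT.lf (nat_lit 16492) (nat_lit 6) (nat_lit 217) (nat_lit 1) (nat_lit 222) (nat_lit 136) (nat_lit 212)) (PT.lf (nat_lit 16416) (nat_lit 6) (nat_lit 216) (nat_lit 1) (nat_lit 223) (nat_lit 136) (nat_lit 211))) (PT.nd (nat_lit 78) (PT.lf (nat_lit 16948) (nat_lit 6) (nat_lit 223) (nat_lit 3) (nat_lit 211) (nat_lit 137) (nat_lit 222)) (PT.lf (nat_lit 17024) (nat_lit 6) (nat_lit 224) (nat_lit 3) (nat_lit 212) (nat_lit 137) (nat_lit 221))))) (PT.nd (nat_lit 312) (PT.nd (nat_lit 156) (PT.nd (nat_lit 78) (PT.lf (nat_lit 17100) (nat_lit 6) (nat_lit 225) (nat_lit 3) (nat_lit 213)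 (nat_lit 137) (nat_lit 220)) (PT.lf (nat_lit 17176) (nat_lit 6) (nat_lit 226) (nat_lit 3) (nat_lit 214) (nat_lit 137) (nat_lit 219))) (PT.nd (nat_lit 78) (PT.lf (nat_lit 17252) (nat_lit 6) (nat_lit 227) (nat_lit 3) (nat_lit 215) (nat_lit 137) (nat_lit 218)) (PT.lf (nat_lit 17328) (nat_lit 6) (nat_lit 228) (nat_lit 3) (nat_lit 216) (nat_lit 137) (nat_lit 217)))) (PT.nd (nat_lit 156) (PT.nd (nat_lit 78) (PT.lf (nat_lit 17328) (nat_lit 6) (nat_lit 228) (nat_lit 1) (nat_lit 217) (nat_lit 137) (nat_lit 216)) (PT.lf (nat_lit 17252) (nat_lit 6) (nat_lit 227) (nat_lit 1) (nat_lit 218) (nat_lit 137) (nat_lit 215))) (PT.nd (nat_lit 78) (PT.lf (nat_lit 17176) (nat_lit 6) (nat_lit 226) (nat_lit 1) (nat_lit 219) (nat_lit 137) (nat_lit 214)) (PT.lf (nat_lit 17100) (nat_lit 6) (nat_lit 225) (nat_lit 1) (nat_lit 220) (nat_lit 137) (nat_lit 213))))))))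
noncomputable def pc3 : PT := (PT.nd (nat_lit 177294) (PT.nd (nat_lit 117780) (PT.nd (nat_lit 58890) (PT.nd (nat_lit 58578) (PT.nd (nat_lit 78) (PT.lf (nat_lit 17024) (nat_lit 6) (nat_lit 224) (nat_lit 1) (nat_lit 221) (nat_lit 137) (nat_lit 212)) (PT.nd (nat_lit 58422) (PT.lf (nat_lit 16948) (nat_lit 6) (nat_lit 223) (nat_lit 1) (nat_lit 222) (nat_lit 137) (nat_lit 211)) (PT.lf (nat_lit 17404) (nat_lit 6) (nat_lit 229) (nat_lit 3) (nat_lit 210) (nat_lit 138) (nat_lit 222)))) (PT.nd (nat_lit 156) (PT.nd (nat_lit 78) (PT.lf (nat_lit 17480) (nat_lit 6) (nat_lit 230) (nat_lit 3) (nat_lit 211) (nat_lit 138) (nat_lit 221)) (PT.lf (nat_lit 17556) (nat_lit 6) (nat_lit 231) (nat_lit 3) (nat_lit 212) (nat_lit 138) (nat_lit 220))) (PT.nd (nat_lit 78) (PT.lf (nat_lit 17632) (nat_lit 6) (nat_lit 232) (nat_lit 3) (nat_lit 213) (nat_lit 138) (nat_lit 219)) (PT.lf (nat_lit 17708) (nat_lit 6) (nat_lit 233) (nat_lit 3) (nat_lit 214) (nat_lit 138) (nat_lit 218))))) (PT.nd (nat_lit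 312) (PT.nd (nat_lit 156) (PT.nd (nat_lit 78) (PT.lf (nat_lit 17784) (nat_lit 6) (nat_lit 234) (nat_lit 3) (nat_lit 215) (nat_lit 138) (nat_lit 217)) (PT.lf (nat_lit 17860) (nat_lit 3) (nat_lit 235) (nat_lit 1) (nat_lit 216) (nat_lit 138) (nat_lit 216))) (PT.nd (nat_lit 78) (PT.lf (nat_lit 17784) (nat_lit 6) (nat_lit 234) (nat_lit 1) (nat_lit 217) (nat_lit 138) (nat_lit 215)) (PT.lf (nat_lit 17708) (nat_lit 6) (nat_lit 233) (nat_lit 1) (nat_lit 218) (nat_lit 138) (nat_lit 214)))) (PT.nd (nat_lit 156) (PT.nd (nat_lit 78) (PT.lf (nat_lit 17632) (nat_lit 6) (nat_lit 232) (nat_lit 1) (nat_lit 219) (nat_lit 138) (nat_lit 213)) (PT.lf (nat_lit 17556) (nat_lit 6) (nat_lit 231) (nat_lit 1) (nat_lit 220) (nat_lit 138) (nat_lit 212))) (PT.nd (nat_lit 78) (PT.lf (nat_lit 17480) (nat_lit 6) (nat_lit 230) (nat_lit 1) (nat_lit 221) (nat_lit 138) (nat_lit 211)) (PT.lf (nat_lit 17404) (nat_lit 6) (nat_lit 229) (nat_lit 1) (nat_lit 222) (nat_lit 138) (nat_lit 210)))))) (PT.nd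 (nat_lit 624) (PT.nd (nat_lit 312) (PT.nd (nat_lit 156) (PT.nd (nat_lit 78) (PT.lf (nat_lit 17936) (nat_lit 6) (nat_lit 236) (nat_lit 3) (nat_lit 209) (nat_lit 139) (nat_lit 222)) (PT.lf (nat_lit 18012) (nat_lit 6) (nat_lit 237) (nat_lit 3) (nat_lit 210) (nat_lit 139) (nat_lit 221))) (PT.nd (nat_lit 78) (PT.lf (nat_lit 18088) (nat_lit 6) (nat_lit 238) (nat_lit 3) (nat_lit 211) (nat_lit 139) (nat_lit 220)) (PT.lf (nat_lit 18164) (nat_lit 6) (nat_lit 239) (nat_lit 3) (nat_lit 212) (nat_lit 139) (nat_lit 219)))) (PT.nd (nat_lit 156) (PT.nd (nat_lit 78) (PT.lf (nat_lit 18240) (nat_lit 6) (nat_lit 240) (nat_lit 3) (nat_lit 213) (nat_lit 139) (nat_lit 218)) (PT.lf (nat_lit 18316) (nat_lit 6) (nat_lit 241) (nat_lit 3) (nat_lit 214) (nat_lit 139) (nat_lit 217))) (PT.nd (nat_lit 78) (PT.lf (nat_lit 18392) (nat_lit 6) (nat_lit 242) (nat_lit 3) (nat_lit 215) (nat_lit 139) (nat_lit 216)) (PT.lf (nat_lit 18392) (nat_lit 6) (nat_lit 242) (nat_lit 1) (nat_lit 216) (nat_lit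 139) (nat_lit 215))))) (PT.nd (nat_lit 312) (PT.nd (nat_lit 156) (PT.nd (nat_lit 78) (PT.lf (nat_lit 18316) (nat_lit 6) (nat_lit 241) (nat_lit 1) (nat_lit 217) (nat_lit 139) (nat_lit 214)) (PT.lf (nat_lit 18240) (nat_lit 6) (nat_lit 240) (nat_lit 1) (nat_lit 218) (nat_lit 139) (nat_lit 213))) (PT.nd (nat_lit 78) (PT.lf (nat_lit 18164) (nat_lit 6) (nat_lit 239) (nat_lit 1) (nat_lit 219) (nat_lit 139) (nat_lit 212)) (PT.lf (nat_lit 18088) (nat_lit 6) (nat_lit 238) (nat_lit 1) (nat_lit 220) (nat_lit 139) (nat_lit 211)))) (PT.nd (nat_lit 58422) (PT.nd (nat_lit 78) (PT.lf (nat_lit 18012) (nat_lit 6) (nat_lit 237) (nat_lit 1) (nat_lit 221) (nat_lit 139) (nat_lit 210)) (PT.lf (nat_lit 17936) (nat_lit 6) (nat_lit 236) (nat_lit 1) (nat_lit 222) (nat_lit 139) (nat_lit 209))) (PT.nd (nat_lit 78) (PT.lf (nat_lit 18468) (nat_lit 6) (nat_lit 243) (nat_lit 3) (nat_lit 209) (nat_lit 140) (nat_lit 221)) (PT.lf (nat_lit 18544) (nat_lit 6) (nat_lit 244) (nat_lit 3) (nat_lit 210)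 (nat_lit 140) (nat_lit 220))))))) (PT.nd (nat_lit 59436) (PT.nd (nat_lit 546) (PT.nd (nat_lit 234) (PT.nd (nat_lit 78) (PT.lf (nat_lit 18620) (nat_lit 6) (nat_lit 245) (nat_lit 3) (nat_lit 211) (nat_lit 140) (nat_lit 219)) (PT.nd (nat_lit 78) (PT.lf (nat_lit 18696) (nat_lit 6) (nat_lit 246) (nat_lit 3) (nat_lit 212) (nat_lit 140) (nat_lit 218)) (PT.lf (nat_lit 18772) (nat_lit 6) (nat_lit 247) (nat_lit 3) (nat_lit 213) (nat_lit 140) (nat_lit 217)))) (PT.nd (nat_lit 156) (PT.nd (nat_lit 78) (PT.lf (nat_lit 18848) (nat_lit 6) (nat_lit 248) (nat_lit 3) (nat_lit 214) (nat_lit 140) (nat_lit 216)) (PT.lf (nat_lit 18924) (nat_lit 3) (nat_lit 249) (nat_lit 1) (nat_lit 215) (nat_lit 140) (nat_lit 215))) (PT.nd (nat_lit 78) (PT.lf (nat_lit 18848) (nat_lit 6) (nat_lit 248) (nat_lit 1) (nat_lit 216) (nat_lit 140) (nat_lit 214)) (PT.lf (nat_lit 18772) (nat_lit 6) (nat_lit 247) (nat_lit 1) (nat_lit 217) (nat_lit 140) (nat_lit 213))))) (PT.nd (nat_lit 58578) (PT.nd (nat_lit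 156) (PT.nd (nat_lit 78) (PT.lf (nat_lit 18696) (nat_lit 6) (nat_lit 246) (nat_lit 1) (nat_lit 218) (nat_lit 140) (nat_lit 212)) (PT.lf (nat_lit 18620) (nat_lit 6) (nat_lit 245) (nat_lit 1) (nat_lit 219) (nat_lit 140) (nat_lit 211))) (PT.nd (nat_lit 78) (PT.lf (nat_lit 18544) (nat_lit 6) (nat_lit 244) (nat_lit 1) (nat_lit 220) (nat_lit 140) (nat_lit 210)) (PT.lf (nat_lit 18468) (nat_lit 6) (nat_lit 243) (nat_lit 1) (nat_lit 221) (nat_lit 140) (nat_lit 209)))) (PT.nd (nat_lit 156) (PT.nd (nat_lit 78) (PT.lf (nat_lit 19000) (nat_lit 6) (nat_lit 250) (nat_lit 3) (nat_lit 208) (nat_lit 141) (nat_lit 221)) (PT.lf (nat_lit 19076) (nat_lit 6) (nat_lit 251) (nat_lit 3) (nat_lit 209) (nat_lit 141) (nat_lit 220))) (PT.nd (nat_lit 78) (PT.lf (nat_lit 19152) (nat_lit 6) (nat_lit 252) (nat_lit 3) (nat_lit 210) (nat_lit 141) (nat_lit 219)) (PT.lf (nat_lit 19228) (nat_lit 6) (nat_lit 253) (nat_lit 3) (nat_lit 211) (nat_lit 141) (nat_lit 218)))))) (PT.nd (nat_lit 624) (PT.nd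 (nat_lit 312) (PT.nd (nat_lit 156) (PT.nd (nat_lit 78) (PT.lf (nat_lit 19304) (nat_lit 6) (nat_lit 254) (nat_lit 3) (nat_lit 212) (nat_lit 141) (nat_lit 217)) (PT.lf (nat_lit 19380) (nat_lit 6) (nat_lit 255) (nat_lit 3) (nat_lit 213) (nat_lit 141) (nat_lit 216))) (PT.nd (nat_lit 78) (PT.lf (nat_lit 19456) (nat_lit 6) (nat_lit 256) (nat_lit 3) (nat_lit 214) (nat_lit 141) (nat_lit 215)) (PT.lf (nat_lit 19456) (nat_lit 6) (nat_lit 256) (nat_lit 1) (nat_lit 215) (nat_lit 141) (nat_lit 214)))) (PT.nd (nat_lit 156) (PT.nd (nat_lit 78) (PT.lf (nat_lit 19380) (nat_lit 6) (nat_lit 255) (nat_lit 1) (nat_lit 216) (nat_lit 141) (nat_lit 213)) (PT.lf (nat_lit 19304) (nat_lit 6) (nat_lit 254) (nat_lit 1) (nat_lit 217) (nat_lit 141) (nat_lit 212))) (PT.nd (nat_lit 78) (PT.lf (nat_lit 19228) (nat_lit 6) (nat_lit 253) (nat_lit 1) (nat_lit 218) (nat_lit 141) (nat_lit 211)) (PT.lf (nat_lit 19152) (nat_lit 6) (nat_lit 252) (nat_lit 1) (nat_lit 219) (nat_lit 141) (nat_lit 210)))))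 (PT.nd (nat_lit 58500) (PT.nd (nat_lit 58344) (PT.nd (nat_lit 78) (PT.lf (nat_lit 19076) (nat_lit 6) (nat_lit 251) (nat_lit 1) (nat_lit 220) (nat_lit 141) (nat_lit 209)) (PT.lf (nat_lit 19000) (nat_lit 6) (nat_lit 250) (nat_lit 1) (nat_lit 221) (nat_lit 141) (nat_lit 208))) (PT.nd (nat_lit 78) (PT.lf (nat_lit 19532) (nat_lit 6) (nat_lit 257) (nat_lit 3) (nat_lit 207) (nat_lit 142) (nat_lit 221)) (PT.lf (nat_lit 19608) (nat_lit 6) (nat_lit 258) (nat_lit 3) (nat_lit 208) (nat_lit 142) (nat_lit 220)))) (PT.nd (nat_lit 156) (PT.nd (nat_lit 78) (PT.lf (nat_lit 19684) (nat_lit 6) (nat_lit 259) (nat_lit 3) (nat_lit 209) (nat_lit 142) (nat_lit 219)) (PT.lf (nat_lit 19760) (nat_lit 6) (nat_lit 260) (nat_lit 3) (nat_lit 210) (nat_lit 142) (nat_lit 218))) (PT.nd (nat_lit 78) (PT.lf (nat_lit 19836) (nat_lit 6) (nat_lit 261) (nat_lit 3) (nat_lit 211) (nat_lit 142) (nat_lit 217)) (PT.lf (nat_lit 19912) (nat_lit 6) (nat_lit 262) (nat_lit 3) (nat_lit 212) (nat_lit 142) (nat_lit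 216))))))))
noncomputable def pc4 : PT := (PT.nd (nat_lit 118716) (PT.nd (nat_lit 59358) (PT.nd (nat_lit 546) (PT.nd (nat_lit 234) (PT.nd (nat_lit 78) (PT.lf (nat_lit 19988) (nat_lit 6) (nat_lit 263) (nat_lit 3) (nat_lit 213) (nat_lit 142) (nat_lit 215)) (PT.nd (nat_lit 78) (PT.lf (nat_lit 20064) (nat_lit 3) (nat_lit 264) (nat_lit 1) (nat_lit 214) (nat_lit 142) (nat_lit 214)) (PT.lf (nat_lit 19988) (nat_lit 6) (nat_lit 263) (nat_lit 1) (nat_lit 215) (nat_lit 142) (nat_lit 213)))) (PT.nd (nat_lit 156) (PT.nd (nat_lit 78) (PT.lf (nat_lit 19912) (nat_lit 6) (nat_lit 262) (nat_lit 1) (nat_lit 216) (nat_lit 142) (nat_lit 212)) (PT.lf (nat_lit 19836) (nat_lit 6) (nat_lit 261) (nat_lit 1) (nat_lit 217) (nat_lit 142) (nat_lit 211))) (PT.nd (nat_lit 78) (PT.lf (nat_lit 19760) (nat_lit 6) (nat_lit 260) (nat_lit 1) (nat_lit 218) (nat_lit 142) (nat_lit 210)) (PT.lf (nat_lit 19684) (nat_lit 6) (nat_lit 259) (nat_lit 1) (nat_lit 219) (nat_lit 142) (nat_lit 209))))) (PT.nd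 (nat_lit 58500) (PT.nd (nat_lit 58344) (PT.nd (nat_lit 78) (PT.lf (nat_lit 19608) (nat_lit 6) (nat_lit 258) (nat_lit 1) (nat_lit 220) (nat_lit 142) (nat_lit 208)) (PT.lf (nat_lit 19532) (nat_lit 6) (nat_lit 257) (nat_lit 1) (nat_lit 221) (nat_lit 142) (nat_lit 207))) (PT.nd (nat_lit 78) (PT.lf (nat_lit 20140) (nat_lit 6) (nat_lit 265) (nat_lit 3) (nat_lit 207) (nat_lit 143) (nat_lit 220)) (PT.lf (nat_lit 20216) (nat_lit 6) (nat_lit 266) (nat_lit 3) (nat_lit 208) (nat_lit 143) (nat_lit 219)))) (PT.nd (nat_lit 156) (PT.nd (nat_lit 78) (PT.lf (nat_lit 20292) (nat_lit 6) (nat_lit 267) (nat_lit 3) (nat_lit 209) (nat_lit 143) (nat_lit 218)) (PT.lf (nat_lit 20368) (nat_lit 6) (nat_lit 268) (nat_lit 3) (nat_lit 210) (nat_lit 143) (nat_lit 217))) (PT.nd (nat_lit 78) (PT.lf (nat_lit 20444) (nat_lit 6) (nat_lit 269) (nat_lit 3) (nat_lit 211) (nat_lit 143) (nat_lit 216)) (PT.lf (nat_lit 20520) (nat_lit 6) (nat_lit 270) (nat_lit 3) (nat_lit 212) (nat_lit 143) (nat_lit 215))))))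 (PT.nd (nat_lit 546) (PT.nd (nat_lit 234) (PT.nd (nat_lit 78) (PT.lf (nat_lit 20596) (nat_lit 6) (nat_lit 271) (nat_lit 3) (nat_lit 213) (nat_lit 143) (nat_lit 214)) (PT.nd (nat_lit 78) (PT.lf (nat_lit 20596) (nat_lit 6) (nat_lit 271) (nat_lit 1) (nat_lit 214) (nat_lit 143) (nat_lit 213)) (PT.lf (nat_lit 20520) (nat_lit 6) (nat_lit 270) (nat_lit 1) (nat_lit 215) (nat_lit 143) (nat_lit 212)))) (PT.nd (nat_lit 156) (PT.nd (nat_lit 78) (PT.lf (nat_lit 20444) (nat_lit 6) (nat_lit 269) (nat_lit 1) (nat_lit 216) (nat_lit 143) (nat_lit 211)) (PT.lf (nat_lit 20368) (nat_lit 6) (nat_lit 268) (nat_lit 1) (nat_lit 217) (nat_lit 143) (nat_lit 210))) (PT.nd (nat_lit 78) (PT.lf (nat_lit 20292) (nat_lit 6) (nat_lit 267) (nat_lit 1) (nat_lit 218) (nat_lit 143) (nat_lit 209)) (PT.lf (nat_lit 20216) (nat_lit 6) (nat_lit 266) (nat_lit 1) (nat_lit 219) (nat_lit 143) (nat_lit 208))))) (PT.nd (nat_lit 58500) (PT.nd (nat_lit 58344) (PT.nd (nat_lit 58266) (PT.lf (nat_lit 20140) (nat_lit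 6) (nat_lit 265) (nat_lit 1) (nat_lit 220) (nat_lit 143) (nat_lit 207)) (PT.lf (nat_lit 20672) (nat_lit 6) (nat_lit 272) (nat_lit 3) (nat_lit 206) (nat_lit 144) (nat_lit 220))) (PT.nd (nat_lit 78) (PT.lf (nat_lit 20748) (nat_lit 6) (nat_lit 273) (nat_lit 3) (nat_lit 207) (nat_lit 144) (nat_lit 219)) (PT.lf (nat_lit 20824) (nat_lit 6) (nat_lit 274) (nat_lit 3) (nat_lit 208) (nat_lit 144) (nat_lit 218)))) (PT.nd (nat_lit 156) (PT.nd (nat_lit 78) (PT.lf (nat_lit 20900) (nat_lit 6) (nat_lit 275) (nat_lit 3) (nat_lit 209) (nat_lit 144) (nat_lit 217)) (PT.lf (nat_lit 20976) (nat_lit 6) (nat_lit 276) (nat_lit 3) (nat_lit 210) (nat_lit 144) (nat_lit 216))) (PT.nd (nat_lit 78) (PT.lf (nat_lit 21052) (nat_lit 6) (nat_lit 277) (nat_lit 3) (nat_lit 211) (nat_lit 144) (nat_lit 215)) (PT.lf (nat_lit 21128) (nat_lit 6) (nat_lit 278) (nat_lit 3) (nat_lit 212) (nat_lit 144) (nat_lit 214))))))) (PT.nd (nat_lit 59280) (PT.nd (nat_lit 546) (PT.nd (nat_lit 234) (PT.nd (nat_lit 78)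 (PT.lf (nat_lit 21204) (nat_lit 3) (nat_lit 279) (nat_lit 1) (nat_lit 213) (nat_lit 144) (nat_lit 213)) (PT.nd (nat_lit 78) (PT.lf (nat_lit 21128) (nat_lit 6) (nat_lit 278) (nat_lit 1) (nat_lit 214) (nat_lit 144) (nat_lit 212)) (PT.lf (nat_lit 21052) (nat_lit 6) (nat_lit 277) (nat_lit 1) (nat_lit 215) (nat_lit 144) (nat_lit 211)))) (PT.nd (nat_lit 156) (PT.nd (nat_lit 78) (PT.lf (nat_lit 20976) (nat_lit 6) (nat_lit 276) (nat_lit 1) (nat_lit 216) (nat_lit 144) (nat_lit 210)) (PT.lf (nat_lit 20900) (nat_lit 6) (nat_lit 275) (nat_lit 1) (nat_lit 217) (nat_lit 144) (nat_lit 209))) (PT.nd (nat_lit 78) (PT.lf (nat_lit 20824) (nat_lit 6) (nat_lit 274) (nat_lit 1) (nat_lit 218) (nat_lit 144) (nat_lit 208)) (PT.lf (nat_lit 20748) (nat_lit 6) (nat_lit 273) (nat_lit 1) (nat_lit 219) (nat_lit 144) (nat_lit 207))))) (PT.nd (nat_lit 58422) (PT.nd (nat_lit 58266) (PT.nd (nat_lit 58188) (PT.lf (nat_lit 20672) (nat_lit 6) (nat_lit 272) (nat_lit 1) (nat_lit 220) (nat_lit 144)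 (nat_lit 206)) (PT.lf (nat_lit 21280) (nat_lit 6) (nat_lit 280) (nat_lit 3) (nat_lit 205) (nat_lit 145) (nat_lit 220))) (PT.nd (nat_lit 78) (PT.lf (nat_lit 21356) (nat_lit 6) (nat_lit 281) (nat_lit 3) (nat_lit 206) (nat_lit 145) (nat_lit 219)) (PT.lf (nat_lit 21432) (nat_lit 6) (nat_lit 282) (nat_lit 3) (nat_lit 207) (nat_lit 145) (nat_lit 218)))) (PT.nd (nat_lit 156) (PT.nd (nat_lit 78) (PT.lf (nat_lit 21508) (nat_lit 6) (nat_lit 283) (nat_lit 3) (nat_lit 208) (nat_lit 145) (nat_lit 217)) (PT.lf (nat_lit 21584) (nat_lit 6) (nat_lit 284) (nat_lit 3) (nat_lit 209) (nat_lit 145) (nat_lit 216))) (PT.nd (nat_lit 78) (PT.lf (nat_lit 21660) (nat_lit 6) (nat_lit 285) (nat_lit 3) (nat_lit 210) (nat_lit 145) (nat_lit 215)) (PT.lf (nat_lit 21736) (nat_lit 6) (nat_lit 286) (nat_lit 3) (nat_lit 211) (nat_lit 145) (nat_lit 214)))))) (PT.nd (nat_lit 624) (PT.nd (nat_lit 312) (PT.nd (nat_lit 156) (PT.nd (nat_lit 78) (PT.lf (nat_lit 21812) (nat_lit 6) (nat_lit 287) (nat_lit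 3) (nat_lit 212) (nat_lit 145) (nat_lit 213)) (PT.lf (nat_lit 21812) (nat_lit 6) (nat_lit 287) (nat_lit 1) (nat_lit 213) (nat_lit 145) (nat_lit 212))) (PT.nd (nat_lit 78) (PT.lf (nat_lit 21736) (nat_lit 6) (nat_lit 286) (nat_lit 1) (nat_lit 214) (nat_lit 145) (nat_lit 211)) (PT.lf (nat_lit 21660) (nat_lit 6) (nat_lit 285) (nat_lit 1) (nat_lit 215) (nat_lit 145) (nat_lit 210)))) (PT.nd (nat_lit 156) (PT.nd (nat_lit 78) (PT.lf (nat_lit 21584) (nat_lit 6) (nat_lit 284) (nat_lit 1) (nat_lit 216) (nat_lit 145) (nat_lit 209)) (PT.lf (nat_lit 21508) (nat_lit 6) (nat_lit 283) (nat_lit 1) (nat_lit 217) (nat_lit 145) (nat_lit 208))) (PT.nd (nat_lit 78) (PT.lf (nat_lit 21432) (nat_lit 6) (nat_lit 282) (nat_lit 1) (nat_lit 218) (nat_lit 145) (nat_lit 207)) (PT.lf (nat_lit 21356) (nat_lit 6) (nat_lit 281) (nat_lit 1) (nat_lit 219) (nat_lit 145) (nat_lit 206))))) (PT.nd (nat_lit 58422) (PT.nd (nat_lit 58266) (PT.nd (nat_lit 58188) (PT.lf (nat_lit 21280) (nat_lit 6) (nat_lit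 280) (nat_lit 1) (nat_lit 220) (nat_lit 145) (nat_lit 205)) (PT.lf (nat_lit 21888) (nat_lit 6) (nat_lit 288) (nat_lit 3) (nat_lit 205) (nat_lit 146) (nat_lit 219))) (PT.nd (nat_lit 78) (PT.lf (nat_lit 21964) (nat_lit 6) (nat_lit 289) (nat_lit 3) (nat_lit 206) (nat_lit 146) (nat_lit 218)) (PT.lf (nat_lit 22040) (nat_lit 6) (nat_lit 290) (nat_lit 3) (nat_lit 207) (nat_lit 146) (nat_lit 217)))) (PT.nd (nat_lit 156) (PT.nd (nat_lit 78) (PT.lf (nat_lit 22116) (nat_lit 6) (nat_lit 291) (nat_lit 3) (nat_lit 208) (nat_lit 146) (nat_lit 216)) (PT.lf (nat_lit 22192) (nat_lit 6) (nat_lit 292) (nat_lit 3) (nat_lit 209) (nat_lit 146) (nat_lit 215))) (PT.nd (nat_lit 78) (PT.lf (nat_lit 22268) (nat_lit 6) (nat_lit 293) (nat_lit 3) (nat_lit 210) (nat_lit 146) (nat_lit 214)) (PT.lf (nat_lit 22344) (nat_lit 6) (nat_lit 294) (nat_lit 3) (nat_lit 211) (nat_lit 146) (nat_lit 213))))))))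
noncomputable def pc5 : PT := (PT.nd (nat_lit 118482) (PT.nd (nat_lit 59280) (PT.nd (nat_lit 546) (PT.nd (nat_lit 234) (PT.nd (nat_lit 78) (PT.lf (nat_lit 22420) (nat_lit 3) (nat_lit 295) (nat_lit 1) (nat_lit 212) (nat_lit 146) (nat_lit 212)) (PT.nd (nat_lit 78) (PT.lf (nat_lit 22344) (nat_lit 6) (nat_lit 294) (nat_lit 1) (nat_lit 213) (nat_lit 146) (nat_lit 211)) (PT.lf (nat_lit 22268) (nat_lit 6) (nat_lit 293) (nat_lit 1) (nat_lit 214) (nat_lit 146) (nat_lit 210)))) (PT.nd (nat_lit 156) (PT.nd (nat_lit 78) (PT.lf (nat_lit 22192) (nat_lit 6) (nat_lit 292) (nat_lit 1) (nat_lit 215) (nat_lit 146) (nat_lit 209)) (PT.lf (nat_lit 22116) (nat_lit 6) (nat_lit 291) (nat_lit 1) (nat_lit 216) (nat_lit 146) (nat_lit 208))) (PT.nd (nat_lit 78) (PT.lf (nat_lit 22040) (nat_lit 6) (nat_lit 290) (nat_lit 1) (nat_lit 217) (nat_lit 146) (nat_lit 207)) (PT.lf (nat_lit 21964) (nat_lit 6) (nat_lit 289) (nat_lit 1) (nat_lit 218) (nat_lit 146) (nat_lit 206))))) (PT.nd (nat_lit 58422)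 (PT.nd (nat_lit 58266) (PT.nd (nat_lit 58188) (PT.lf (nat_lit 21888) (nat_lit 6) (nat_lit 288) (nat_lit 1) (nat_lit 219) (nat_lit 146) (nat_lit 205)) (PT.lf (nat_lit 22496) (nat_lit 6) (nat_lit 296) (nat_lit 3) (nat_lit 204) (nat_lit 147) (nat_lit 219))) (PT.nd (nat_lit 78) (PT.lf (nat_lit 22572) (nat_lit 6) (nat_lit 297) (nat_lit 3) (nat_lit 205) (nat_lit 147) (nat_lit 218)) (PT.lf (nat_lit 22648) (nat_lit 6) (nat_lit 298) (nat_lit 3) (nat_lit 206) (nat_lit 147) (nat_lit 217)))) (PT.nd (nat_lit 156) (PT.nd (nat_lit 78) (PT.lf (nat_lit 22724) (nat_lit 6) (nat_lit 299) (nat_lit 3) (nat_lit 207) (nat_lit 147) (nat_lit 216)) (PT.lf (nat_lit 22800) (nat_lit 6) (nat_lit 300) (nat_lit 3) (nat_lit 208) (nat_lit 147) (nat_lit 215))) (PT.nd (nat_lit 78) (PT.lf (nat_lit 22876) (nat_lit 6) (nat_lit 301) (nat_lit 3) (nat_lit 209) (nat_lit 147) (nat_lit 214)) (PT.lf (nat_lit 22952) (nat_lit 6) (nat_lit 302) (nat_lit 3) (nat_lit 210) (nat_lit 147) (nat_lit 213)))))) (PT.nd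 (nat_lit 546) (PT.nd (nat_lit 234) (PT.nd (nat_lit 78) (PT.lf (nat_lit 23028) (nat_lit 6) (nat_lit 303) (nat_lit 3) (nat_lit 211) (nat_lit 147) (nat_lit 212)) (PT.nd (nat_lit 78) (PT.lf (nat_lit 23028) (nat_lit 6) (nat_lit 303) (nat_lit 1) (nat_lit 212) (nat_lit 147) (nat_lit 211)) (PT.lf (nat_lit 22952) (nat_lit 6) (nat_lit 302) (nat_lit 1) (nat_lit 213) (nat_lit 147) (nat_lit 210)))) (PT.nd (nat_lit 156) (PT.nd (nat_lit 78) (PT.lf (nat_lit 22876) (nat_lit 6) (nat_lit 301) (nat_lit 1) (nat_lit 214) (nat_lit 147) (nat_lit 209)) (PT.lf (nat_lit 22800) (nat_lit 6) (nat_lit 300) (nat_lit 1) (nat_lit 215) (nat_lit 147) (nat_lit 208))) (PT.nd (nat_lit 78) (PT.lf (nat_lit 22724) (nat_lit 6) (nat_lit 299) (nat_lit 1) (nat_lit 216) (nat_lit 147) (nat_lit 207)) (PT.lf (nat_lit 22648) (nat_lit 6) (nat_lit 298) (nat_lit 1) (nat_lit 217) (nat_lit 147) (nat_lit 206))))) (PT.nd (nat_lit 58344) (PT.nd (nat_lit 58188) (PT.nd (nat_lit 78) (PT.lf (nat_lit 22572) (nat_lit 6) (nat_lit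 297) (nat_lit 1) (nat_lit 218) (nat_lit 147) (nat_lit 205)) (PT.lf (nat_lit 22496) (nat_lit 6) (nat_lit 296) (nat_lit 1) (nat_lit 219) (nat_lit 147) (nat_lit 204))) (PT.nd (nat_lit 78) (PT.lf (nat_lit 23104) (nat_lit 6) (nat_lit 304) (nat_lit 3) (nat_lit 203) (nat_lit 148) (nat_lit 219)) (PT.lf (nat_lit 23180) (nat_lit 6) (nat_lit 305) (nat_lit 3) (nat_lit 204) (nat_lit 148) (nat_lit 218)))) (PT.nd (nat_lit 156) (PT.nd (nat_lit 78) (PT.lf (nat_lit 23256) (nat_lit 6) (nat_lit 306) (nat_lit 3) (nat_lit 205) (nat_lit 148) (nat_lit 217)) (PT.lf (nat_lit 23332) (nat_lit 6) (nat_lit 307) (nat_lit 3) (nat_lit 206) (nat_lit 148) (nat_lit 216))) (PT.nd (nat_lit 78) (PT.lf (nat_lit 23408) (nat_lit 6) (nat_lit 308) (nat_lit 3) (nat_lit 207) (nat_lit 148) (nat_lit 215)) (PT.lf (nat_lit 23484) (nat_lit 6) (nat_lit 309) (nat_lit 3) (nat_lit 208) (nat_lit 148) (nat_lit 214))))))) (PT.nd (nat_lit 59202) (PT.nd (nat_lit 546) (PT.nd (nat_lit 234) (PT.nd (nat_lit 78) (PT.lf (nat_lit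 23560) (nat_lit 6) (nat_lit 310) (nat_lit 3) (nat_lit 209) (nat_lit 148) (nat_lit 213)) (PT.nd (nat_lit 78) (PT.lf (nat_lit 23636) (nat_lit 6) (nat_lit 311) (nat_lit 3) (nat_lit 210) (nat_lit 148) (nat_lit 212)) (PT.lf (nat_lit 23712) (nat_lit 3) (nat_lit 312) (nat_lit 1) (nat_lit 211) (nat_lit 148) (nat_lit 211)))) (PT.nd (nat_lit 156) (PT.nd (nat_lit 78) (PT.lf (nat_lit 23636) (nat_lit 6) (nat_lit 311) (nat_lit 1) (nat_lit 212) (nat_lit 148) (nat_lit 210)) (PT.lf (nat_lit 23560) (nat_lit 6) (nat_lit 310) (nat_lit 1) (nat_lit 213) (nat_lit 148) (nat_lit 209))) (PT.nd (nat_lit 78) (PT.lf (nat_lit 23484) (nat_lit 6) (nat_lit 309) (nat_lit 1) (nat_lit 214) (nat_lit 148) (nat_lit 208)) (PT.lf (nat_lit 23408) (nat_lit 6) (nat_lit 308) (nat_lit 1) (nat_lit 215) (nat_lit 148) (nat_lit 207))))) (PT.nd (nat_lit 58344) (PT.nd (nat_lit 156) (PT.nd (nat_lit 78) (PT.lf (nat_lit 23332) (nat_lit 6) (nat_lit 307) (nat_lit 1) (nat_lit 216) (nat_lit 148) (nat_lit 206)) (PT.lf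 (nat_lit 23256) (nat_lit 6) (nat_lit 306) (nat_lit 1) (nat_lit 217) (nat_lit 148) (nat_lit 205))) (PT.nd (nat_lit 78) (PT.lf (nat_lit 23180) (nat_lit 6) (nat_lit 305) (nat_lit 1) (nat_lit 218) (nat_lit 148) (nat_lit 204)) (PT.lf (nat_lit 23104) (nat_lit 6) (nat_lit 304) (nat_lit 1) (nat_lit 219) (nat_lit 148) (nat_lit 203)))) (PT.nd (nat_lit 156) (PT.nd (nat_lit 78) (PT.lf (nat_lit 23788) (nat_lit 6) (nat_lit 313) (nat_lit 3) (nat_lit 203) (nat_lit 149) (nat_lit 218)) (PT.lf (nat_lit 23864) (nat_lit 6) (nat_lit 314) (nat_lit 3) (nat_lit 204) (nat_lit 149) (nat_lit 217))) (PT.nd (nat_lit 78) (PT.lf (nat_lit 23940) (nat_lit 6) (nat_lit 315) (nat_lit 3) (nat_lit 205) (nat_lit 149) (nat_lit 216)) (PT.lf (nat_lit 24016) (nat_lit 6) (nat_lit 316) (nat_lit 3) (nat_lit 206) (nat_lit 149) (nat_lit 215)))))) (PT.nd (nat_lit 624) (PT.nd (nat_lit 312) (PT.nd (nat_lit 156) (PT.nd (nat_lit 78) (PT.lf (nat_lit 24092) (nat_lit 6) (nat_lit 317) (nat_lit 3) (nat_lit 207) (nat_lit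 149) (nat_lit 214)) (PT.lf (nat_lit 24168) (nat_lit 6) (nat_lit 318) (nat_lit 3) (nat_lit 208) (nat_lit 149) (nat_lit 213))) (PT.nd (nat_lit 78) (PT.lf (nat_lit 24244) (nat_lit 6) (nat_lit 319) (nat_lit 3) (nat_lit 209) (nat_lit 149) (nat_lit 212)) (PT.lf (nat_lit 24320) (nat_lit 6) (nat_lit 320) (nat_lit 3) (nat_lit 210) (nat_lit 149) (nat_lit 211)))) (PT.nd (nat_lit 156) (PT.nd (nat_lit 78) (PT.lf (nat_lit 24320) (nat_lit 6) (nat_lit 320) (nat_lit 1) (nat_lit 211) (nat_lit 149) (nat_lit 210)) (PT.lf (nat_lit 24244) (nat_lit 6) (nat_lit 319) (nat_lit 1) (nat_lit 212) (nat_lit 149) (nat_lit 209))) (PT.nd (nat_lit 78) (PT.lf (nat_lit 24168) (nat_lit 6) (nat_lit 318) (nat_lit 1) (nat_lit 213) (nat_lit 149) (nat_lit 208)) (PT.lf (nat_lit 24092) (nat_lit 6) (nat_lit 317) (nat_lit 1) (nat_lit 214) (nat_lit 149) (nat_lit 207))))) (PT.nd (nat_lit 58344) (PT.nd (nat_lit 156) (PT.nd (nat_lit 78) (PT.lf (nat_lit 24016) (nat_lit 6) (nat_lit 316) (nat_lit 1) (nat_lit 215)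 (nat_lit 149) (nat_lit 206)) (PT.lf (nat_lit 23940) (nat_lit 6) (nat_lit 315) (nat_lit 1) (nat_lit 216) (nat_lit 149) (nat_lit 205))) (PT.nd (nat_lit 78) (PT.lf (nat_lit 23864) (nat_lit 6) (nat_lit 314) (nat_lit 1) (nat_lit 217) (nat_lit 149) (nat_lit 204)) (PT.lf (nat_lit 23788) (nat_lit 6) (nat_lit 313) (nat_lit 1) (nat_lit 218) (nat_lit 149) (nat_lit 203)))) (PT.nd (nat_lit 156) (PT.nd (nat_lit 78) (PT.lf (nat_lit 24396) (nat_lit 6) (nat_lit 321) (nat_lit 3) (nat_lit 202) (nat_lit 150) (nat_lit 218)) (PT.lf (nat_lit 24472) (nat_lit 6) (nat_lit 322) (nat_lit 3) (nat_lit 203) (nat_lit 150) (nat_lit 217))) (PT.nd (nat_lit 78) (PT.lf (nat_lit 24548) (nat_lit 6) (nat_lit 323) (nat_lit 3) (nat_lit 204) (nat_lit 150) (nat_lit 216)) (PT.lf (nat_lit 24624) (nat_lit 6) (nat_lit 324) (nat_lit 3) (nat_lit 205) (nat_lit 150) (nat_lit 215))))))))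
noncomputable def pc6 : PT := (PT.nd (nat_lit 60294) (PT.nd (nat_lit 59124) (PT.nd (nat_lit 546) (PT.nd (nat_lit 234) (PT.nd (nat_lit 78) (PT.lf (nat_lit 24700) (nat_lit 6) (nat_lit 325) (nat_lit 3) (nat_lit 206) (nat_lit 150) (nat_lit 214)) (PT.nd (nat_lit 78) (PT.lf (nat_lit 24776) (nat_lit 6) (nat_lit 326) (nat_lit 3) (nat_lit 207) (nat_lit 150) (nat_lit 213)) (PT.lf (nat_lit 24852) (nat_lit 6) (nat_lit 327) (nat_lit 3) (nat_lit 208) (nat_lit 150) (nat_lit 212)))) (PT.nd (nat_lit 156) (PT.nd (nat_lit 78) (PT.lf (nat_lit 24928) (nat_lit 6) (nat_lit 328) (nat_lit 3) (nat_lit 209) (nat_lit 150) (nat_lit 211)) (PT.lf (nat_lit 25004) (nat_lit 3) (nat_lit 329) (nat_lit 1) (nat_lit 210) (nat_lit 150) (nat_lit 210))) (PT.nd (nat_lit 78) (PT.lf (nat_lit 24928) (nat_lit 6) (nat_lit 328) (nat_lit 1) (nat_lit 211) (nat_lit 150) (nat_lit 209)) (PT.lf (nat_lit 24852) (nat_lit 6) (nat_lit 327) (nat_lit 1) (nat_lit 212) (nat_lit 150) (nat_lit 208))))) (PT.nd (nat_lit 312)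 (PT.nd (nat_lit 156) (PT.nd (nat_lit 78) (PT.lf (nat_lit 24776) (nat_lit 6) (nat_lit 326) (nat_lit 1) (nat_lit 213) (nat_lit 150) (nat_lit 207)) (PT.lf (nat_lit 24700) (nat_lit 6) (nat_lit 325) (nat_lit 1) (nat_lit 214) (nat_lit 150) (nat_lit 206))) (PT.nd (nat_lit 78) (PT.lf (nat_lit 24624) (nat_lit 6) (nat_lit 324) (nat_lit 1) (nat_lit 215) (nat_lit 150) (nat_lit 205)) (PT.lf (nat_lit 24548) (nat_lit 6) (nat_lit 323) (nat_lit 1) (nat_lit 216) (nat_lit 150) (nat_lit 204)))) (PT.nd (nat_lit 58110) (PT.nd (nat_lit 78) (PT.lf (nat_lit 24472) (nat_lit 6) (nat_lit 322) (nat_lit 1) (nat_lit 217) (nat_lit 150) (nat_lit 203)) (PT.lf (nat_lit 24396) (nat_lit 6) (nat_lit 321) (nat_lit 1) (nat_lit 218) (nat_lit 150) (nat_lit 202))) (PT.nd (nat_lit 78) (PT.lf (nat_lit 25080) (nat_lit 6) (nat_lit 330) (nat_lit 3) (nat_lit 201) (nat_lit 151) (nat_lit 218)) (PT.lf (nat_lit 25156) (nat_lit 6) (nat_lit 331) (nat_lit 3) (nat_lit 202) (nat_lit 151) (nat_lit 217)))))) (PT.nd (nat_lit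 546) (PT.nd (nat_lit 234) (PT.nd (nat_lit 78) (PT.lf (nat_lit 25232) (nat_lit 6) (nat_lit 332) (nat_lit 3) (nat_lit 203) (nat_lit 151) (nat_lit 216)) (PT.nd (nat_lit 78) (PT.lf (nat_lit 25308) (nat_lit 6) (nat_lit 333) (nat_lit 3) (nat_lit 204) (nat_lit 151) (nat_lit 215)) (PT.lf (nat_lit 25384) (nat_lit 6) (nat_lit 334) (nat_lit 3) (nat_lit 205) (nat_lit 151) (nat_lit 214)))) (PT.nd (nat_lit 156) (PT.nd (nat_lit 78) (PT.lf (nat_lit 25460) (nat_lit 6) (nat_lit 335) (nat_lit 3) (nat_lit 206) (nat_lit 151) (nat_lit 213)) (PT.lf (nat_lit 25536) (nat_lit 6) (nat_lit 336) (nat_lit 3) (nat_lit 207) (nat_lit 151) (nat_lit 212))) (PT.nd (nat_lit 78) (PT.lf (nat_lit 25612) (nat_lit 6) (nat_lit 337) (nat_lit 3) (nat_lit 208) (nat_lit 151) (nat_lit 211)) (PT.lf (nat_lit 25688) (nat_lit 6) (nat_lit 338) (nat_lit 3) (nat_lit 209) (nat_lit 151) (nat_lit 210))))) (PT.nd (nat_lit 312) (PT.nd (nat_lit 156) (PT.nd (nat_lit 78) (PT.lf (nat_lit 25688) (nat_lit 6) (nat_lit 338) (nat_lit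 1) (nat_lit 210) (nat_lit 151) (nat_lit 209)) (PT.lf (nat_lit 25612) (nat_lit 6) (nat_lit 337) (nat_lit 1) (nat_lit 211) (nat_lit 151) (nat_lit 208))) (PT.nd (nat_lit 78) (PT.lf (nat_lit 25536) (nat_lit 6) (nat_lit 336) (nat_lit 1) (nat_lit 212) (nat_lit 151) (nat_lit 207)) (PT.lf (nat_lit 25460) (nat_lit 6) (nat_lit 335) (nat_lit 1) (nat_lit 213) (nat_lit 151) (nat_lit 206)))) (PT.nd (nat_lit 156) (PT.nd (nat_lit 78) (PT.lf (nat_lit 25384) (nat_lit 6) (nat_lit 334) (nat_lit 1) (nat_lit 214) (nat_lit 151) (nat_lit 205)) (PT.lf (nat_lit 25308) (nat_lit 6) (nat_lit 333) (nat_lit 1) (nat_lit 215) (nat_lit 151) (nat_lit 204))) (PT.nd (nat_lit 78) (PT.lf (nat_lit 25232) (nat_lit 6) (nat_lit 332) (nat_lit 1) (nat_lit 216) (nat_lit 151) (nat_lit 203)) (PT.lf (nat_lit 25156) (nat_lit 6) (nat_lit 331) (nat_lit 1) (nat_lit 217) (nat_lit 151) (nat_lit 202))))))) (PT.nd (nat_lit 59046) (PT.nd (nat_lit 58422) (PT.nd (nat_lit 58110) (PT.nd (nat_lit 57954) (PT.lf (nat_lit 25080)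 (nat_lit 6) (nat_lit 330) (nat_lit 1) (nat_lit 218) (nat_lit 151) (nat_lit 201)) (PT.nd (nat_lit 78) (PT.lf (nat_lit 25764) (nat_lit 6) (nat_lit 339) (nat_lit 3) (nat_lit 200) (nat_lit 152) (nat_lit 218)) (PT.lf (nat_lit 25840) (nat_lit 6) (nat_lit 340) (nat_lit 3) (nat_lit 201) (nat_lit 152) (nat_lit 217)))) (PT.nd (nat_lit 156) (PT.nd (nat_lit 78) (PT.lf (nat_lit 25916) (nat_lit 6) (nat_lit 341) (nat_lit 3) (nat_lit 202) (nat_lit 152) (nat_lit 216)) (PT.lf (nat_lit 25992) (nat_lit 6) (nat_lit 342) (nat_lit 3) (nat_lit 203) (nat_lit 152) (nat_lit 215))) (PT.nd (nat_lit 78) (PT.lf (nat_lit 26068) (nat_lit 6) (nat_lit 343) (nat_lit 3) (nat_lit 204) (nat_lit 152) (nat_lit 214)) (PT.lf (nat_lit 26144) (nat_lit 6) (nat_lit 344) (nat_lit 3) (nat_lit 205) (nat_lit 152) (nat_lit 213))))) (PT.nd (nat_lit 312) (PT.nd (nat_lit 156) (PT.nd (nat_lit 78) (PT.lf (nat_lit 26220) (nat_lit 6) (nat_lit 345) (nat_lit 3) (nat_lit 206) (nat_lit 152) (nat_lit 212)) (PT.lf (nat_lit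 26296) (nat_lit 6) (nat_lit 346) (nat_lit 3) (nat_lit 207) (nat_lit 152) (nat_lit 211))) (PT.nd (nat_lit 78) (PT.lf (nat_lit 26372) (nat_lit 6) (nat_lit 347) (nat_lit 3) (nat_lit 208) (nat_lit 152) (nat_lit 210)) (PT.lf (nat_lit 26448) (nat_lit 3) (nat_lit 348) (nat_lit 1) (nat_lit 209) (nat_lit 152) (nat_lit 209)))) (PT.nd (nat_lit 156) (PT.nd (nat_lit 78) (PT.lf (nat_lit 26372) (nat_lit 6) (nat_lit 347) (nat_lit 1) (nat_lit 210) (nat_lit 152) (nat_lit 208)) (PT.lf (nat_lit 26296) (nat_lit 6) (nat_lit 346) (nat_lit 1) (nat_lit 211) (nat_lit 152) (nat_lit 207))) (PT.nd (nat_lit 78) (PT.lf (nat_lit 26220) (nat_lit 6) (nat_lit 345) (nat_lit 1) (nat_lit 212) (nat_lit 152) (nat_lit 206)) (PT.lf (nat_lit 26144) (nat_lit 6) (nat_lit 344) (nat_lit 1) (nat_lit 213) (nat_lit 152) (nat_lit 205)))))) (PT.nd (nat_lit 58500) (PT.nd (nat_lit 312) (PT.nd (nat_lit 156) (PT.nd (nat_lit 78) (PT.lf (nat_lit 26068) (nat_lit 6) (nat_lit 343) (nat_lit 1) (nat_lit 214) (nat_lit 152)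 (nat_lit 204)) (PT.lf (nat_lit 25992) (nat_lit 6) (nat_lit 342) (nat_lit 1) (nat_lit 215) (nat_lit 152) (nat_lit 203))) (PT.nd (nat_lit 78) (PT.lf (nat_lit 25916) (nat_lit 6) (nat_lit 341) (nat_lit 1) (nat_lit 216) (nat_lit 152) (nat_lit 202)) (PT.lf (nat_lit 25840) (nat_lit 6) (nat_lit 340) (nat_lit 1) (nat_lit 217) (nat_lit 152) (nat_lit 201)))) (PT.nd (nat_lit 58032) (PT.nd (nat_lit 57954) (PT.lf (nat_lit 25764) (nat_lit 6) (nat_lit 339) (nat_lit 1) (nat_lit 218) (nat_lit 152) (nat_lit 200)) (PT.lf (nat_lit 26524) (nat_lit 6) (nat_lit 349) (nat_lit 3) (nat_lit 200) (nat_lit 153) (nat_lit 217))) (PT.nd (nat_lit 78) (PT.lf (nat_lit 26600) (nat_lit 6) (nat_lit 350) (nat_lit 3) (nat_lit 201) (nat_lit 153) (nat_lit 216)) (PT.lf (nat_lit 26676) (nat_lit 6) (nat_lit 351) (nat_lit 3) (nat_lit 202) (nat_lit 153) (nat_lit 215))))) (PT.nd (nat_lit 312) (PT.nd (nat_lit 156) (PT.nd (nat_lit 78) (PT.lf (nat_lit 26752) (nat_lit 6) (nat_lit 352) (nat_lit 3) (nat_lit 203)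 (nat_lit 153) (nat_lit 214)) (PT.lf (nat_lit 26828) (nat_lit 6) (nat_lit 353) (nat_lit 3) (nat_lit 204) (nat_lit 153) (nat_lit 213))) (PT.nd (nat_lit 78) (PT.lf (nat_lit 26904) (nat_lit 6) (nat_lit 354) (nat_lit 3) (nat_lit 205) (nat_lit 153) (nat_lit 212)) (PT.lf (nat_lit 26980) (nat_lit 6) (nat_lit 355) (nat_lit 3) (nat_lit 206) (nat_lit 153) (nat_lit 211)))) (PT.nd (nat_lit 156) (PT.nd (nat_lit 78) (PT.lf (nat_lit 27056) (nat_lit 6) (nat_lit 356) (nat_lit 3) (nat_lit 207) (nat_lit 153) (nat_lit 210)) (PT.lf (nat_lit 27132) (nat_lit 6) (nat_lit 357) (nat_lit 3) (nat_lit 208) (nat_lit 153) (nat_lit 209))) (PT.nd (nat_lit 78) (PT.lf (nat_lit 27132) (nat_lit 6) (nat_lit 357) (nat_lit 1) (nat_lit 209) (nat_lit 153) (nat_lit 208)) (PT.lf (nat_lit 27056) (nat_lit 6) (nat_lit 356) (nat_lit 1) (nat_lit 210) (nat_lit 153) (nat_lit 207))))))))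
noncomputable def pc7 : PT := (PT.nd (nat_lit 118092) (PT.nd (nat_lit 59046) (PT.nd (nat_lit 58422) (PT.nd (nat_lit 234) (PT.nd (nat_lit 78) (PT.lf (nat_lit 26980) (nat_lit 6) (nat_lit 355) (nat_lit 1) (nat_lit 211) (nat_lit 153) (nat_lit 206)) (PT.nd (nat_lit 78) (PT.lf (nat_lit 26904) (nat_lit 6) (nat_lit 354) (nat_lit 1) (nat_lit 212) (nat_lit 153) (nat_lit 205)) (PT.lf (nat_lit 26828) (nat_lit 6) (nat_lit 353) (nat_lit 1) (nat_lit 213) (nat_lit 153) (nat_lit 204)))) (PT.nd (nat_lit 156) (PT.nd (nat_lit 78) (PT.lf (nat_lit 26752) (nat_lit 6) (nat_lit 352) (nat_lit 1) (nat_lit 214) (nat_lit 153) (nat_lit 203)) (PT.lf (nat_lit 26676) (nat_lit 6) (nat_lit 351) (nat_lit 1) (nat_lit 215) (nat_lit 153) (nat_lit 202))) (PT.nd (nat_lit 78) (PT.lf (nat_lit 26600) (nat_lit 6) (nat_lit 350) (nat_lit 1) (nat_lit 216) (nat_lit 153) (nat_lit 201)) (PT.lf (nat_lit 26524) (nat_lit 6) (nat_lit 349) (nat_lit 1) (nat_lit 217) (nat_lit 153) (nat_lit 200))))) (PT.nd (nat_lit 312)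 (PT.nd (nat_lit 156) (PT.nd (nat_lit 78) (PT.lf (nat_lit 27208) (nat_lit 6) (nat_lit 358) (nat_lit 3) (nat_lit 199) (nat_lit 154) (nat_lit 217)) (PT.lf (nat_lit 27284) (nat_lit 6) (nat_lit 359) (nat_lit 3) (nat_lit 200) (nat_lit 154) (nat_lit 216))) (PT.nd (nat_lit 78) (PT.lf (nat_lit 27360) (nat_lit 6) (nat_lit 360) (nat_lit 3) (nat_lit 201) (nat_lit 154) (nat_lit 215)) (PT.lf (nat_lit 27436) (nat_lit 6) (nat_lit 361) (nat_lit 3) (nat_lit 202) (nat_lit 154) (nat_lit 214)))) (PT.nd (nat_lit 156) (PT.nd (nat_lit 78) (PT.lf (nat_lit 27512) (nat_lit 6) (nat_lit 362) (nat_lit 3) (nat_lit 203) (nat_lit 154) (nat_lit 213)) (PT.lf (nat_lit 27588) (nat_lit 6) (nat_lit 363) (nat_lit 3) (nat_lit 204) (nat_lit 154) (nat_lit 212))) (PT.nd (nat_lit 78) (PT.lf (nat_lit 27664) (nat_lit 6) (nat_lit 364) (nat_lit 3) (nat_lit 205) (nat_lit 154) (nat_lit 211)) (PT.lf (nat_lit 27740) (nat_lit 6) (nat_lit 365) (nat_lit 3) (nat_lit 206) (nat_lit 154) (nat_lit 210)))))) (PT.nd (nat_lit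 624) (PT.nd (nat_lit 312) (PT.nd (nat_lit 156) (PT.nd (nat_lit 78) (PT.lf (nat_lit 27816) (nat_lit 6) (nat_lit 366) (nat_lit 3) (nat_lit 207) (nat_lit 154) (nat_lit 209)) (PT.lf (nat_lit 27892) (nat_lit 3) (nat_lit 367) (nat_lit 1) (nat_lit 208) (nat_lit 154) (nat_lit 208))) (PT.nd (nat_lit 78) (PT.lf (nat_lit 27816) (nat_lit 6) (nat_lit 366) (nat_lit 1) (nat_lit 209) (nat_lit 154) (nat_lit 207)) (PT.lf (nat_lit 27740) (nat_lit 6) (nat_lit 365) (nat_lit 1) (nat_lit 210) (nat_lit 154) (nat_lit 206)))) (PT.nd (nat_lit 156) (PT.nd (nat_lit 78) (PT.lf (nat_lit 27664) (nat_lit 6) (nat_lit 364) (nat_lit 1) (nat_lit 211) (nat_lit 154) (nat_lit 205)) (PT.lf (nat_lit 27588) (nat_lit 6) (nat_lit 363) (nat_lit 1) (nat_lit 212) (nat_lit 154) (nat_lit 204))) (PT.nd (nat_lit 78) (PT.lf (nat_lit 27512) (nat_lit 6) (nat_lit 362) (nat_lit 1) (nat_lit 213) (nat_lit 154) (nat_lit 203)) (PT.lf (nat_lit 27436) (nat_lit 6) (nat_lit 361) (nat_lit 1) (nat_lit 214) (nat_lit 154) (nat_lit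 202))))) (PT.nd (nat_lit 58110) (PT.nd (nat_lit 156) (PT.nd (nat_lit 78) (PT.lf (nat_lit 27360) (nat_lit 6) (nat_lit 360) (nat_lit 1) (nat_lit 215) (nat_lit 154) (nat_lit 201)) (PT.lf (nat_lit 27284) (nat_lit 6) (nat_lit 359) (nat_lit 1) (nat_lit 216) (nat_lit 154) (nat_lit 200))) (PT.nd (nat_lit 57876) (PT.lf (nat_lit 27208) (nat_lit 6) (nat_lit 358) (nat_lit 1) (nat_lit 217) (nat_lit 154) (nat_lit 199)) (PT.lf (nat_lit 27968) (nat_lit 6) (nat_lit 368) (nat_lit 3) (nat_lit 198) (nat_lit 155) (nat_lit 217)))) (PT.nd (nat_lit 156) (PT.nd (nat_lit 78) (PT.lf (nat_lit 28044) (nat_lit 6) (nat_lit 369) (nat_lit 3) (nat_lit 199) (nat_lit 155) (nat_lit 216)) (PT.lf (nat_lit 28120) (nat_lit 6) (nat_lit 370) (nat_lit 3) (nat_lit 200) (nat_lit 155) (nat_lit 215))) (PT.nd (nat_lit 78) (PT.lf (nat_lit 28196) (nat_lit 6) (nat_lit 371) (nat_lit 3) (nat_lit 201) (nat_lit 155) (nat_lit 214)) (PT.lf (nat_lit 28272) (nat_lit 6) (nat_lit 372) (nat_lit 3) (nat_lit 202) (nat_lit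 155) (nat_lit 213))))))) (PT.nd (nat_lit 58890) (PT.nd (nat_lit 546) (PT.nd (nat_lit 234) (PT.nd (nat_lit 78) (PT.lf (nat_lit 28348) (nat_lit 6) (nat_lit 373) (nat_lit 3) (nat_lit 203) (nat_lit 155) (nat_lit 212)) (PT.nd (nat_lit 78) (PT.lf (nat_lit 28424) (nat_lit 6) (nat_lit 374) (nat_lit 3) (nat_lit 204) (nat_lit 155) (nat_lit 211)) (PT.lf (nat_lit 28500) (nat_lit 6) (nat_lit 375) (nat_lit 3) (nat_lit 205) (nat_lit 155) (nat_lit 210)))) (PT.nd (nat_lit 156) (PT.nd (nat_lit 78) (PT.lf (nat_lit 28576) (nat_lit 6) (nat_lit 376) (nat_lit 3) (nat_lit 206) (nat_lit 155) (nat_lit 209)) (PT.lf (nat_lit 28652) (nat_lit 6) (nat_lit 377) (nat_lit 3) (nat_lit 207) (nat_lit 155) (nat_lit 208))) (PT.nd (nat_lit 78) (PT.lf (nat_lit 28652) (nat_lit 6) (nat_lit 377) (nat_lit 1) (nat_lit 208) (nat_lit 155) (nat_lit 207)) (PT.lf (nat_lit 28576) (nat_lit 6) (nat_lit 376) (nat_lit 1) (nat_lit 209) (nat_lit 155) (nat_lit 206))))) (PT.nd (nat_lit 312) (PT.nd (nat_lit 156) (PT.nd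 (nat_lit 78) (PT.lf (nat_lit 28500) (nat_lit 6) (nat_lit 375) (nat_lit 1) (nat_lit 210) (nat_lit 155) (nat_lit 205)) (PT.lf (nat_lit 28424) (nat_lit 6) (nat_lit 374) (nat_lit 1) (nat_lit 211) (nat_lit 155) (nat_lit 204))) (PT.nd (nat_lit 78) (PT.lf (nat_lit 28348) (nat_lit 6) (nat_lit 373) (nat_lit 1) (nat_lit 212) (nat_lit 155) (nat_lit 203)) (PT.lf (nat_lit 28272) (nat_lit 6) (nat_lit 372) (nat_lit 1) (nat_lit 213) (nat_lit 155) (nat_lit 202)))) (PT.nd (nat_lit 156) (PT.nd (nat_lit 78) (PT.lf (nat_lit 28196) (nat_lit 6) (nat_lit 371) (nat_lit 1) (nat_lit 214) (nat_lit 155) (nat_lit 201)) (PT.lf (nat_lit 28120) (nat_lit 6) (nat_lit 370) (nat_lit 1) (nat_lit 215) (nat_lit 155) (nat_lit 200))) (PT.nd (nat_lit 78) (PT.lf (nat_lit 28044) (nat_lit 6) (nat_lit 369) (nat_lit 1) (nat_lit 216) (nat_lit 155) (nat_lit 199)) (PT.lf (nat_lit 27968) (nat_lit 6) (nat_lit 368) (nat_lit 1) (nat_lit 217) (nat_lit 155) (nat_lit 198)))))) (PT.nd (nat_lit 624) (PT.nd (nat_lit 312)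 (PT.nd (nat_lit 156) (PT.nd (nat_lit 78) (PT.lf (nat_lit 28728) (nat_lit 6) (nat_lit 378) (nat_lit 3) (nat_lit 197) (nat_lit 156) (nat_lit 217)) (PT.lf (nat_lit 28804) (nat_lit 6) (nat_lit 379) (nat_lit 3) (nat_lit 198) (nat_lit 156) (nat_lit 216))) (PT.nd (nat_lit 78) (PT.lf (nat_lit 28880) (nat_lit 6) (nat_lit 380) (nat_lit 3) (nat_lit 199) (nat_lit 156) (nat_lit 215)) (PT.lf (nat_lit 28956) (nat_lit 6) (nat_lit 381) (nat_lit 3) (nat_lit 200) (nat_lit 156) (nat_lit 214)))) (PT.nd (nat_lit 156) (PT.nd (nat_lit 78) (PT.lf (nat_lit 29032) (nat_lit 6) (nat_lit 382) (nat_lit 3) (nat_lit 201) (nat_lit 156) (nat_lit 213)) (PT.lf (nat_lit 29108) (nat_lit 6) (nat_lit 383) (nat_lit 3) (nat_lit 202) (nat_lit 156) (nat_lit 212))) (PT.nd (nat_lit 78) (PT.lf (nat_lit 29184) (nat_lit 6) (nat_lit 384) (nat_lit 3) (nat_lit 203) (nat_lit 156) (nat_lit 211)) (PT.lf (nat_lit 29260) (nat_lit 6) (nat_lit 385) (nat_lit 3) (nat_lit 204) (nat_lit 156) (nat_lit 210))))) (PT.nd (nat_lit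 312) (PT.nd (nat_lit 156) (PT.nd (nat_lit 78) (PT.lf (nat_lit 29336) (nat_lit 6) (nat_lit 386) (nat_lit 3) (nat_lit 205) (nat_lit 156) (nat_lit 209)) (PT.lf (nat_lit 29412) (nat_lit 6) (nat_lit 387) (nat_lit 3) (nat_lit 206) (nat_lit 156) (nat_lit 208))) (PT.nd (nat_lit 78) (PT.lf (nat_lit 29488) (nat_lit 3) (nat_lit 388) (nat_lit 1) (nat_lit 207) (nat_lit 156) (nat_lit 207)) (PT.lf (nat_lit 29412) (nat_lit 6) (nat_lit 387) (nat_lit 1) (nat_lit 208) (nat_lit 156) (nat_lit 206)))) (PT.nd (nat_lit 156) (PT.nd (nat_lit 78) (PT.lf (nat_lit 29336) (nat_lit 6) (nat_lit 386) (nat_lit 1) (nat_lit 209) (nat_lit 156) (nat_lit 205)) (PT.lf (nat_lit 29260) (nat_lit 6) (nat_lit 385) (nat_lit 1) (nat_lit 210) (nat_lit 156) (nat_lit 204))) (PT.nd (nat_lit 78) (PT.lf (nat_lit 29184) (nat_lit 6) (nat_lit 384) (nat_lit 1) (nat_lit 211) (nat_lit 156) (nat_lit 203)) (PT.lf (nat_lit 29108) (nat_lit 6) (nat_lit 383) (nat_lit 1) (nat_lit 212) (nat_lit 156) (nat_lit 202))))))))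
noncomputable def pc8 : PT := (PT.nd (nat_lit 117780) (PT.nd (nat_lit 58890) (PT.nd (nat_lit 58266) (PT.nd (nat_lit 234) (PT.nd (nat_lit 78) (PT.lf (nat_lit 29032) (nat_lit 6) (nat_lit 382) (nat_lit 1) (nat_lit 213) (nat_lit 156) (nat_lit 201)) (PT.nd (nat_lit 78) (PT.lf (nat_lit 28956) (nat_lit 6) (nat_lit 381) (nat_lit 1) (nat_lit 214) (nat_lit 156) (nat_lit 200)) (PT.lf (nat_lit 28880) (nat_lit 6) (nat_lit 380) (nat_lit 1) (nat_lit 215) (nat_lit 156) (nat_lit 199)))) (PT.nd (nat_lit 57876) (PT.nd (nat_lit 78) (PT.lf (nat_lit 28804) (nat_lit 6) (nat_lit 379) (nat_lit 1) (nat_lit 216) (nat_lit 156) (nat_lit 198)) (PT.lf (nat_lit 28728) (nat_lit 6) (nat_lit 378) (nat_lit 1) (nat_lit 217) (nat_lit 156) (nat_lit 197))) (PT.nd (nat_lit 78) (PT.lf (nat_lit 29564) (nat_lit 6) (nat_lit 389) (nat_lit 3) (nat_lit 197) (nat_lit 157) (nat_lit 216)) (PT.lf (nat_lit 29640) (nat_lit 6) (nat_lit 390) (nat_lit 3) (nat_lit 198) (nat_lit 157) (nat_lit 215))))) (PT.nd (nat_lit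 312) (PT.nd (nat_lit 156) (PT.nd (nat_lit 78) (PT.lf (nat_lit 29716) (nat_lit 6) (nat_lit 391) (nat_lit 3) (nat_lit 199) (nat_lit 157) (nat_lit 214)) (PT.lf (nat_lit 29792) (nat_lit 6) (nat_lit 392) (nat_lit 3) (nat_lit 200) (nat_lit 157) (nat_lit 213))) (PT.nd (nat_lit 78) (PT.lf (nat_lit 29868) (nat_lit 6) (nat_lit 393) (nat_lit 3) (nat_lit 201) (nat_lit 157) (nat_lit 212)) (PT.lf (nat_lit 29944) (nat_lit 6) (nat_lit 394) (nat_lit 3) (nat_lit 202) (nat_lit 157) (nat_lit 211)))) (PT.nd (nat_lit 156) (PT.nd (nat_lit 78) (PT.lf (nat_lit 30020) (nat_lit 6) (nat_lit 395) (nat_lit 3) (nat_lit 203) (nat_lit 157) (nat_lit 210)) (PT.lf (nat_lit 30096) (nat_lit 6) (nat_lit 396) (nat_lit 3) (nat_lit 204) (nat_lit 157) (nat_lit 209))) (PT.nd (nat_lit 78) (PT.lf (nat_lit 30172) (nat_lit 6) (nat_lit 397) (nat_lit 3) (nat_lit 205) (nat_lit 157) (nat_lit 208)) (PT.lf (nat_lit 30248) (nat_lit 6) (nat_lit 398) (nat_lit 3) (nat_lit 206) (nat_lit 157) (nat_lit 207)))))) (PT.nd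 (nat_lit 546) (PT.nd (nat_lit 234) (PT.nd (nat_lit 78) (PT.lf (nat_lit 30248) (nat_lit 6) (nat_lit 398) (nat_lit 1) (nat_lit 207) (nat_lit 157) (nat_lit 206)) (PT.nd (nat_lit 78) (PT.lf (nat_lit 30172) (nat_lit 6) (nat_lit 397) (nat_lit 1) (nat_lit 208) (nat_lit 157) (nat_lit 205)) (PT.lf (nat_lit 30096) (nat_lit 6) (nat_lit 396) (nat_lit 1) (nat_lit 209) (nat_lit 157) (nat_lit 204)))) (PT.nd (nat_lit 156) (PT.nd (nat_lit 78) (PT.lf (nat_lit 30020) (nat_lit 6) (nat_lit 395) (nat_lit 1) (nat_lit 210) (nat_lit 157) (nat_lit 203)) (PT.lf (nat_lit 29944) (nat_lit 6) (nat_lit 394) (nat_lit 1) (nat_lit 211) (nat_lit 157) (nat_lit 202))) (PT.nd (nat_lit 78) (PT.lf (nat_lit 29868) (nat_lit 6) (nat_lit 393) (nat_lit 1) (nat_lit 212) (nat_lit 157) (nat_lit 201)) (PT.lf (nat_lit 29792) (nat_lit 6) (nat_lit 392) (nat_lit 1) (nat_lit 213) (nat_lit 157) (nat_lit 200))))) (PT.nd (nat_lit 58032) (PT.nd (nat_lit 156) (PT.nd (nat_lit 78) (PT.lf (nat_lit 29716) (nat_lit 6) (nat_lit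 391) (nat_lit 1) (nat_lit 214) (nat_lit 157) (nat_lit 199)) (PT.lf (nat_lit 29640) (nat_lit 6) (nat_lit 390) (nat_lit 1) (nat_lit 215) (nat_lit 157) (nat_lit 198))) (PT.nd (nat_lit 57798) (PT.lf (nat_lit 29564) (nat_lit 6) (nat_lit 389) (nat_lit 1) (nat_lit 216) (nat_lit 157) (nat_lit 197)) (PT.lf (nat_lit 30324) (nat_lit 6) (nat_lit 399) (nat_lit 3) (nat_lit 196) (nat_lit 158) (nat_lit 216)))) (PT.nd (nat_lit 156) (PT.nd (nat_lit 78) (PT.lf (nat_lit 30400) (nat_lit 6) (nat_lit 400) (nat_lit 3) (nat_lit 197) (nat_lit 158) (nat_lit 215)) (PT.lf (nat_lit 30476) (nat_lit 6) (nat_lit 401) (nat_lit 3) (nat_lit 198) (nat_lit 158) (nat_lit 214))) (PT.nd (nat_lit 78) (PT.lf (nat_lit 30552) (nat_lit 6) (nat_lit 402) (nat_lit 3) (nat_lit 199) (nat_lit 158) (nat_lit 213)) (PT.lf (nat_lit 30628) (nat_lit 6) (nat_lit 403) (nat_lit 3) (nat_lit 200) (nat_lit 158) (nat_lit 212))))))) (PT.nd (nat_lit 1170) (PT.nd (nat_lit 546) (PT.nd (nat_lit 234) (PT.nd (nat_lit 78) (PT.lf (nat_lit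 30704) (nat_lit 6) (nat_lit 404) (nat_lit 3) (nat_lit 201) (nat_lit 158) (nat_lit 211)) (PT.nd (nat_lit 78) (PT.lf (nat_lit 30780) (nat_lit 6) (nat_lit 405) (nat_lit 3) (nat_lit 202) (nat_lit 158) (nat_lit 210)) (PT.lf (nat_lit 30856) (nat_lit 6) (nat_lit 406) (nat_lit 3) (nat_lit 203) (nat_lit 158) (nat_lit 209)))) (PT.nd (nat_lit 156) (PT.nd (nat_lit 78) (PT.lf (nat_lit 30932) (nat_lit 6) (nat_lit 407) (nat_lit 3) (nat_lit 204) (nat_lit 158) (nat_lit 208)) (PT.lf (nat_lit 31008) (nat_lit 6) (nat_lit 408) (nat_lit 3) (nat_lit 205) (nat_lit 158) (nat_lit 207))) (PT.nd (nat_lit 78) (PT.lf (nat_lit 31084) (nat_lit 3) (nat_lit 409) (nat_lit 1) (nat_lit 206) (nat_lit 158) (nat_lit 206)) (PT.lf (nat_lit 31008) (nat_lit 6) (nat_lit 408) (nat_lit 1) (nat_lit 207) (nat_lit 158) (nat_lit 205))))) (PT.nd (nat_lit 312) (PT.nd (nat_lit 156) (PT.nd (nat_lit 78) (PT.lf (nat_lit 30932) (nat_lit 6) (nat_lit 407) (nat_lit 1) (nat_lit 208) (nat_lit 158) (nat_lit 204)) (PT.lf (nat_lit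 30856) (nat_lit 6) (nat_lit 406) (nat_lit 1) (nat_lit 209) (nat_lit 158) (nat_lit 203))) (PT.nd (nat_lit 78) (PT.lf (nat_lit 30780) (nat_lit 6) (nat_lit 405) (nat_lit 1) (nat_lit 210) (nat_lit 158) (nat_lit 202)) (PT.lf (nat_lit 30704) (nat_lit 6) (nat_lit 404) (nat_lit 1) (nat_lit 211) (nat_lit 158) (nat_lit 201)))) (PT.nd (nat_lit 156) (PT.nd (nat_lit 78) (PT.lf (nat_lit 30628) (nat_lit 6) (nat_lit 403) (nat_lit 1) (nat_lit 212) (nat_lit 158) (nat_lit 200)) (PT.lf (nat_lit 30552) (nat_lit 6) (nat_lit 402) (nat_lit 1) (nat_lit 213) (nat_lit 158) (nat_lit 199))) (PT.nd (nat_lit 78) (PT.lf (nat_lit 30476) (nat_lit 6) (nat_lit 401) (nat_lit 1) (nat_lit 214) (nat_lit 158) (nat_lit 198)) (PT.lf (nat_lit 30400) (nat_lit 6) (nat_lit 400) (nat_lit 1) (nat_lit 215) (nat_lit 158) (nat_lit 197)))))) (PT.nd (nat_lit 58266) (PT.nd (nat_lit 57954) (PT.nd (nat_lit 57798) (PT.nd (nat_lit 57720) (PT.lf (nat_lit 30324) (nat_lit 6) (nat_lit 399) (nat_lit 1) (nat_lit 216) (nat_lit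 158) (nat_lit 196)) (PT.lf (nat_lit 31160) (nat_lit 6) (nat_lit 410) (nat_lit 3) (nat_lit 195) (nat_lit 159) (nat_lit 216))) (PT.nd (nat_lit 78) (PT.lf (nat_lit 31236) (nat_lit 6) (nat_lit 411) (nat_lit 3) (nat_lit 196) (nat_lit 159) (nat_lit 215)) (PT.lf (nat_lit 31312) (nat_lit 6) (nat_lit 412) (nat_lit 3) (nat_lit 197) (nat_lit 159) (nat_lit 214)))) (PT.nd (nat_lit 156) (PT.nd (nat_lit 78) (PT.lf (nat_lit 31388) (nat_lit 6) (nat_lit 413) (nat_lit 3) (nat_lit 198) (nat_lit 159) (nat_lit 213)) (PT.lf (nat_lit 31464) (nat_lit 6) (nat_lit 414) (nat_lit 3) (nat_lit 199) (nat_lit 159) (nat_lit 212))) (PT.nd (nat_lit 78) (PT.lf (nat_lit 31540) (nat_lit 6) (nat_lit 415) (nat_lit 3) (nat_lit 200) (nat_lit 159) (nat_lit 211)) (PT.lf (nat_lit 31616) (nat_lit 6) (nat_lit 416) (nat_lit 3) (nat_lit 201) (nat_lit 159) (nat_lit 210))))) (PT.nd (nat_lit 312) (PT.nd (nat_lit 156) (PT.nd (nat_lit 78) (PT.lf (nat_lit 31692) (nat_lit 6) (nat_lit 417) (nat_lit 3) (nat_lit 202)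 (nat_lit 159) (nat_lit 209)) (PT.lf (nat_lit 31768) (nat_lit 6) (nat_lit 418) (nat_lit 3) (nat_lit 203) (nat_lit 159) (nat_lit 208))) (PT.nd (nat_lit 78) (PT.lf (nat_lit 31844) (nat_lit 6) (nat_lit 419) (nat_lit 3) (nat_lit 204) (nat_lit 159) (nat_lit 207)) (PT.lf (nat_lit 31920) (nat_lit 6) (nat_lit 420) (nat_lit 3) (nat_lit 205) (nat_lit 159) (nat_lit 206)))) (PT.nd (nat_lit 156) (PT.nd (nat_lit 78) (PT.lf (nat_lit 31920) (nat_lit 6) (nat_lit 420) (nat_lit 1) (nat_lit 206) (nat_lit 159) (nat_lit 205)) (PT.lf (nat_lit 31844) (nat_lit 6) (nat_lit 419) (nat_lit 1) (nat_lit 207) (nat_lit 159) (nat_lit 204))) (PT.nd (nat_lit 78) (PT.lf (nat_lit 31768) (nat_lit 6) (nat_lit 418) (nat_lit 1) (nat_lit 208) (nat_lit 159) (nat_lit 203)) (PT.lf (nat_lit 31692) (nat_lit 6) (nat_lit 417) (nat_lit 1) (nat_lit 209) (nat_lit 159) (nat_lit 202))))))))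
noncomputable def pc9 : PT := (PT.nd (nat_lit 117390) (PT.nd (nat_lit 58734) (PT.nd (nat_lit 58110) (PT.nd (nat_lit 234) (PT.nd (nat_lit 78) (PT.lf (nat_lit 31616) (nat_lit 6) (nat_lit 416) (nat_lit 1) (nat_lit 210) (nat_lit 159) (nat_lit 201)) (PT.nd (nat_lit 78) (PT.lf (nat_lit 31540) (nat_lit 6) (nat_lit 415) (nat_lit 1) (nat_lit 211) (nat_lit 159) (nat_lit 200)) (PT.lf (nat_lit 31464) (nat_lit 6) (nat_lit 414) (nat_lit 1) (nat_lit 212) (nat_lit 159) (nat_lit 199)))) (PT.nd (nat_lit 156) (PT.nd (nat_lit 78) (PT.lf (nat_lit 31388) (nat_lit 6) (nat_lit 413) (nat_lit 1) (nat_lit 213) (nat_lit 159) (nat_lit 198)) (PT.lf (nat_lit 31312) (nat_lit 6) (nat_lit 412) (nat_lit 1) (nat_lit 214) (nat_lit 159) (nat_lit 197))) (PT.nd (nat_lit 78) (PT.lf (nat_lit 31236) (nat_lit 6) (nat_lit 411) (nat_lit 1) (nat_lit 215) (nat_lit 159) (nat_lit 196)) (PT.lf (nat_lit 31160) (nat_lit 6) (nat_lit 410) (nat_lit 1) (nat_lit 216) (nat_lit 159) (nat_lit 195))))) (PT.nd (nat_lit 312)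 (PT.nd (nat_lit 156) (PT.nd (nat_lit 78) (PT.lf (nat_lit 31996) (nat_lit 6) (nat_lit 421) (nat_lit 3) (nat_lit 194) (nat_lit 160) (nat_lit 216)) (PT.lf (nat_lit 32072) (nat_lit 6) (nat_lit 422) (nat_lit 3) (nat_lit 195) (nat_lit 160) (nat_lit 215))) (PT.nd (nat_lit 78) (PT.lf (nat_lit 32148) (nat_lit 6) (nat_lit 423) (nat_lit 3) (nat_lit 196) (nat_lit 160) (nat_lit 214)) (PT.lf (nat_lit 32224) (nat_lit 6) (nat_lit 424) (nat_lit 3) (nat_lit 197) (nat_lit 160) (nat_lit 213)))) (PT.nd (nat_lit 156) (PT.nd (nat_lit 78) (PT.lf (nat_lit 32300) (nat_lit 6) (nat_lit 425) (nat_lit 3) (nat_lit 198) (nat_lit 160) (nat_lit 212)) (PT.lf (nat_lit 32376) (nat_lit 6) (nat_lit 426) (nat_lit 3) (nat_lit 199) (nat_lit 160) (nat_lit 211))) (PT.nd (nat_lit 78) (PT.lf (nat_lit 32452) (nat_lit 6) (nat_lit 427) (nat_lit 3) (nat_lit 200) (nat_lit 160) (nat_lit 210)) (PT.lf (nat_lit 32528) (nat_lit 6) (nat_lit 428) (nat_lit 3) (nat_lit 201) (nat_lit 160) (nat_lit 209)))))) (PT.nd (nat_lit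 546) (PT.nd (nat_lit 234) (PT.nd (nat_lit 78) (PT.lf (nat_lit 32604) (nat_lit 6) (nat_lit 429) (nat_lit 3) (nat_lit 202) (nat_lit 160) (nat_lit 208)) (PT.nd (nat_lit 78) (PT.lf (nat_lit 32680) (nat_lit 6) (nat_lit 430) (nat_lit 3) (nat_lit 203) (nat_lit 160) (nat_lit 207)) (PT.lf (nat_lit 32756) (nat_lit 6) (nat_lit 431) (nat_lit 3) (nat_lit 204) (nat_lit 160) (nat_lit 206)))) (PT.nd (nat_lit 156) (PT.nd (nat_lit 78) (PT.lf (nat_lit 32832) (nat_lit 3) (nat_lit 432) (nat_lit 1) (nat_lit 205) (nat_lit 160) (nat_lit 205)) (PT.lf (nat_lit 32756) (nat_lit 6) (nat_lit 431) (nat_lit 1) (nat_lit 206) (nat_lit 160) (nat_lit 204))) (PT.nd (nat_lit 78) (PT.lf (nat_lit 32680) (nat_lit 6) (nat_lit 430) (nat_lit 1) (nat_lit 207) (nat_lit 160) (nat_lit 203)) (PT.lf (nat_lit 32604) (nat_lit 6) (nat_lit 429) (nat_lit 1) (nat_lit 208) (nat_lit 160) (nat_lit 202))))) (PT.nd (nat_lit 312) (PT.nd (nat_lit 156) (PT.nd (nat_lit 78) (PT.lf (nat_lit 32528) (nat_lit 6) (nat_lit 428) (nat_lit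 1) (nat_lit 209) (nat_lit 160) (nat_lit 201)) (PT.lf (nat_lit 32452) (nat_lit 6) (nat_lit 427) (nat_lit 1) (nat_lit 210) (nat_lit 160) (nat_lit 200))) (PT.nd (nat_lit 78) (PT.lf (nat_lit 32376) (nat_lit 6) (nat_lit 426) (nat_lit 1) (nat_lit 211) (nat_lit 160) (nat_lit 199)) (PT.lf (nat_lit 32300) (nat_lit 6) (nat_lit 425) (nat_lit 1) (nat_lit 212) (nat_lit 160) (nat_lit 198)))) (PT.nd (nat_lit 156) (PT.nd (nat_lit 78) (PT.lf (nat_lit 32224) (nat_lit 6) (nat_lit 424) (nat_lit 1) (nat_lit 213) (nat_lit 160) (nat_lit 197)) (PT.lf (nat_lit 32148) (nat_lit 6) (nat_lit 423) (nat_lit 1) (nat_lit 214) (nat_lit 160) (nat_lit 196))) (PT.nd (nat_lit 78) (PT.lf (nat_lit 32072) (nat_lit 6) (nat_lit 422) (nat_lit 1) (nat_lit 215) (nat_lit 160) (nat_lit 195)) (PT.lf (nat_lit 31996) (nat_lit 6) (nat_lit 421) (nat_lit 1) (nat_lit 216) (nat_lit 160) (nat_lit 194))))))) (PT.nd (nat_lit 1170) (PT.nd (nat_lit 546) (PT.nd (nat_lit 234) (PT.nd (nat_lit 78) (PT.lf (nat_lit 32908) (nat_lit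 6) (nat_lit 433) (nat_lit 3) (nat_lit 193) (nat_lit 161) (nat_lit 216)) (PT.nd (nat_lit 78) (PT.lf (nat_lit 32984) (nat_lit 6) (nat_lit 434) (nat_lit 3) (nat_lit 194) (nat_lit 161) (nat_lit 215)) (PT.lf (nat_lit 33060) (nat_lit 6) (nat_lit 435) (nat_lit 3) (nat_lit 195) (nat_lit 161) (nat_lit 214)))) (PT.nd (nat_lit 156) (PT.nd (nat_lit 78) (PT.lf (nat_lit 33136) (nat_lit 6) (nat_lit 436) (nat_lit 3) (nat_lit 196) (nat_lit 161) (nat_lit 213)) (PT.lf (nat_lit 33212) (nat_lit 6) (nat_lit 437) (nat_lit 3) (nat_lit 197) (nat_lit 161) (nat_lit 212))) (PT.nd (nat_lit 78) (PT.lf (nat_lit 33288) (nat_lit 6) (nat_lit 438) (nat_lit 3) (nat_lit 198) (nat_lit 161) (nat_lit 211)) (PT.lf (nat_lit 33364) (nat_lit 6) (nat_lit 439) (nat_lit 3) (nat_lit 199) (nat_lit 161) (nat_lit 210))))) (PT.nd (nat_lit 312) (PT.nd (nat_lit 156) (PT.nd (nat_lit 78) (PT.lf (nat_lit 33440) (nat_lit 6) (nat_lit 440) (nat_lit 3) (nat_lit 200) (nat_lit 161) (nat_lit 209)) (PT.lf (nat_lit 33516) (nat_lit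 6) (nat_lit 441) (nat_lit 3) (nat_lit 201) (nat_lit 161) (nat_lit 208))) (PT.nd (nat_lit 78) (PT.lf (nat_lit 33592) (nat_lit 6) (nat_lit 442) (nat_lit 3) (nat_lit 202) (nat_lit 161) (nat_lit 207)) (PT.lf (nat_lit 33668) (nat_lit 6) (nat_lit 443) (nat_lit 3) (nat_lit 203) (nat_lit 161) (nat_lit 206)))) (PT.nd (nat_lit 156) (PT.nd (nat_lit 78) (PT.lf (nat_lit 33744) (nat_lit 6) (nat_lit 444) (nat_lit 3) (nat_lit 204) (nat_lit 161) (nat_lit 205)) (PT.lf (nat_lit 33744) (nat_lit 6) (nat_lit 444) (nat_lit 1) (nat_lit 205) (nat_lit 161) (nat_lit 204))) (PT.nd (nat_lit 78) (PT.lf (nat_lit 33668) (nat_lit 6) (nat_lit 443) (nat_lit 1) (nat_lit 206) (nat_lit 161) (nat_lit 203)) (PT.lf (nat_lit 33592) (nat_lit 6) (nat_lit 442) (nat_lit 1) (nat_lit 207) (nat_lit 161) (nat_lit 202)))))) (PT.nd (nat_lit 624) (PT.nd (nat_lit 312) (PT.nd (nat_lit 156) (PT.nd (nat_lit 78) (PT.lf (nat_lit 33516) (nat_lit 6) (nat_lit 441) (nat_lit 1) (nat_lit 208) (nat_lit 161) (nat_lit 201)) (PT.lf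 (nat_lit 33440) (nat_lit 6) (nat_lit 440) (nat_lit 1) (nat_lit 209) (nat_lit 161) (nat_lit 200))) (PT.nd (nat_lit 78) (PT.lf (nat_lit 33364) (nat_lit 6) (nat_lit 439) (nat_lit 1) (nat_lit 210) (nat_lit 161) (nat_lit 199)) (PT.lf (nat_lit 33288) (nat_lit 6) (nat_lit 438) (nat_lit 1) (nat_lit 211) (nat_lit 161) (nat_lit 198)))) (PT.nd (nat_lit 156) (PT.nd (nat_lit 78) (PT.lf (nat_lit 33212) (nat_lit 6) (nat_lit 437) (nat_lit 1) (nat_lit 212) (nat_lit 161) (nat_lit 197)) (PT.lf (nat_lit 33136) (nat_lit 6) (nat_lit 436) (nat_lit 1) (nat_lit 213) (nat_lit 161) (nat_lit 196))) (PT.nd (nat_lit 78) (PT.lf (nat_lit 33060) (nat_lit 6) (nat_lit 435) (nat_lit 1) (nat_lit 214) (nat_lit 161) (nat_lit 195)) (PT.lf (nat_lit 32984) (nat_lit 6) (nat_lit 434) (nat_lit 1) (nat_lit 215) (nat_lit 161) (nat_lit 194))))) (PT.nd (nat_lit 57798) (PT.nd (nat_lit 57642) (PT.nd (nat_lit 57564) (PT.lf (nat_lit 32908) (nat_lit 6) (nat_lit 433) (nat_lit 1) (nat_lit 216) (nat_lit 161) (nat_lit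 193)) (PT.lf (nat_lit 33820) (nat_lit 6) (nat_lit 445) (nat_lit 3) (nat_lit 193) (nat_lit 162) (nat_lit 215))) (PT.nd (nat_lit 78) (PT.lf (nat_lit 33896) (nat_lit 6) (nat_lit 446) (nat_lit 3) (nat_lit 194) (nat_lit 162) (nat_lit 214)) (PT.lf (nat_lit 33972) (nat_lit 6) (nat_lit 447) (nat_lit 3) (nat_lit 195) (nat_lit 162) (nat_lit 213)))) (PT.nd (nat_lit 156) (PT.nd (nat_lit 78) (PT.lf (nat_lit 34048) (nat_lit 6) (nat_lit 448) (nat_lit 3) (nat_lit 196) (nat_lit 162) (nat_lit 212)) (PT.lf (nat_lit 34124) (nat_lit 6) (nat_lit 449) (nat_lit 3) (nat_lit 197) (nat_lit 162) (nat_lit 211))) (PT.nd (nat_lit 78) (PT.lf (nat_lit 34200) (nat_lit 6) (nat_lit 450) (nat_lit 3) (nat_lit 198) (nat_lit 162) (nat_lit 210)) (PT.lf (nat_lit 34276) (nat_lit 6) (nat_lit 451) (nat_lit 3) (nat_lit 199) (nat_lit 162) (nat_lit 209))))))))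
noncomputable def pc10 : PT := (PT.nd (nat_lit 59826) (PT.nd (nat_lit 1170) (PT.nd (nat_lit 546) (PT.nd (nat_lit 234) (PT.nd (nat_lit 78) (PT.lf (nat_lit 34352) (nat_lit 6) (nat_lit 452) (nat_lit 3) (nat_lit 200) (nat_lit 162) (nat_lit 208)) (PT.nd (nat_lit 78) (PT.lf (nat_lit 34428) (nat_lit 6) (nat_lit 453) (nat_lit 3) (nat_lit 201) (nat_lit 162) (nat_lit 207)) (PT.lf (nat_lit 34504) (nat_lit 6) (nat_lit 454) (nat_lit 3) (nat_lit 202) (nat_lit 162) (nat_lit 206)))) (PT.nd (nat_lit 156) (PT.nd (nat_lit 78) (PT.lf (nat_lit 34580) (nat_lit 6) (nat_lit 455) (nat_lit 3) (nat_lit 203) (nat_lit 162) (nat_lit 205)) (PT.lf (nat_lit 34656) (nat_lit 3) (nat_lit 456) (nat_lit 1) (nat_lit 204) (nat_lit 162) (nat_lit 204))) (PT.nd (nat_lit 78) (PT.lf (nat_lit 34580) (nat_lit 6) (nat_lit 455) (nat_lit 1) (nat_lit 205) (nat_lit 162) (nat_lit 203)) (PT.lf (nat_lit 34504) (nat_lit 6) (nat_lit 454) (nat_lit 1) (nat_lit 206) (nat_lit 162) (nat_lit 202))))) (PT.nd (nat_lit 312)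 (PT.nd (nat_lit 156) (PT.nd (nat_lit 78) (PT.lf (nat_lit 34428) (nat_lit 6) (nat_lit 453) (nat_lit 1) (nat_lit 207) (nat_lit 162) (nat_lit 201)) (PT.lf (nat_lit 34352) (nat_lit 6) (nat_lit 452) (nat_lit 1) (nat_lit 208) (nat_lit 162) (nat_lit 200))) (PT.nd (nat_lit 78) (PT.lf (nat_lit 34276) (nat_lit 6) (nat_lit 451) (nat_lit 1) (nat_lit 209) (nat_lit 162) (nat_lit 199)) (PT.lf (nat_lit 34200) (nat_lit 6) (nat_lit 450) (nat_lit 1) (nat_lit 210) (nat_lit 162) (nat_lit 198)))) (PT.nd (nat_lit 156) (PT.nd (nat_lit 78) (PT.lf (nat_lit 34124) (nat_lit 6) (nat_lit 449) (nat_lit 1) (nat_lit 211) (nat_lit 162) (nat_lit 197)) (PT.lf (nat_lit 34048) (nat_lit 6) (nat_lit 448) (nat_lit 1) (nat_lit 212) (nat_lit 162) (nat_lit 196))) (PT.nd (nat_lit 78) (PT.lf (nat_lit 33972) (nat_lit 6) (nat_lit 447) (nat_lit 1) (nat_lit 213) (nat_lit 162) (nat_lit 195)) (PT.lf (nat_lit 33896) (nat_lit 6) (nat_lit 446) (nat_lit 1) (nat_lit 214) (nat_lit 162) (nat_lit 194)))))) (PT.nd (nat_lit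 58032) (PT.nd (nat_lit 57720) (PT.nd (nat_lit 57564) (PT.lf (nat_lit 33820) (nat_lit 6) (nat_lit 445) (nat_lit 1) (nat_lit 215) (nat_lit 162) (nat_lit 193)) (PT.nd (nat_lit 78) (PT.lf (nat_lit 34732) (nat_lit 6) (nat_lit 457) (nat_lit 3) (nat_lit 192) (nat_lit 163) (nat_lit 215)) (PT.lf (nat_lit 34808) (nat_lit 6) (nat_lit 458) (nat_lit 3) (nat_lit 193) (nat_lit 163) (nat_lit 214)))) (PT.nd (nat_lit 156) (PT.nd (nat_lit 78) (PT.lf (nat_lit 34884) (nat_lit 6) (nat_lit 459) (nat_lit 3) (nat_lit 194) (nat_lit 163) (nat_lit 213)) (PT.lf (nat_lit 34960) (nat_lit 6) (nat_lit 460) (nat_lit 3) (nat_lit 195) (nat_lit 163) (nat_lit 212))) (PT.nd (nat_lit 78) (PT.lf (nat_lit 35036) (nat_lit 6) (nat_lit 461) (nat_lit 3) (nat_lit 196) (nat_lit 163) (nat_lit 211)) (PT.lf (nat_lit 35112) (nat_lit 6) (nat_lit 462) (nat_lit 3) (nat_lit 197) (nat_lit 163) (nat_lit 210))))) (PT.nd (nat_lit 312) (PT.nd (nat_lit 156) (PT.nd (nat_lit 78) (PT.lf (nat_lit 35188) (nat_lit 6) (nat_lit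 463) (nat_lit 3) (nat_lit 198) (nat_lit 163) (nat_lit 209)) (PT.lf (nat_lit 35264) (nat_lit 6) (nat_lit 464) (nat_lit 3) (nat_lit 199) (nat_lit 163) (nat_lit 208))) (PT.nd (nat_lit 78) (PT.lf (nat_lit 35340) (nat_lit 6) (nat_lit 465) (nat_lit 3) (nat_lit 200) (nat_lit 163) (nat_lit 207)) (PT.lf (nat_lit 35416) (nat_lit 6) (nat_lit 466) (nat_lit 3) (nat_lit 201) (nat_lit 163) (nat_lit 206)))) (PT.nd (nat_lit 156) (PT.nd (nat_lit 78) (PT.lf (nat_lit 35492) (nat_lit 6) (nat_lit 467) (nat_lit 3) (nat_lit 202) (nat_lit 163) (nat_lit 205)) (PT.lf (nat_lit 35568) (nat_lit 6) (nat_lit 468) (nat_lit 3) (nat_lit 203) (nat_lit 163) (nat_lit 204))) (PT.nd (nat_lit 78) (PT.lf (nat_lit 35568) (nat_lit 6) (nat_lit 468) (nat_lit 1) (nat_lit 204) (nat_lit 163) (nat_lit 203)) (PT.lf (nat_lit 35492) (nat_lit 6) (nat_lit 467) (nat_lit 1) (nat_lit 205) (nat_lit 163) (nat_lit 202))))))) (PT.nd (nat_lit 58578) (PT.nd (nat_lit 546) (PT.nd (nat_lit 234) (PT.nd (nat_lit 78) (PT.lf (nat_lit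 35416) (nat_lit 6) (nat_lit 466) (nat_lit 1) (nat_lit 206) (nat_lit 163) (nat_lit 201)) (PT.nd (nat_lit 78) (PT.lf (nat_lit 35340) (nat_lit 6) (nat_lit 465) (nat_lit 1) (nat_lit 207) (nat_lit 163) (nat_lit 200)) (PT.lf (nat_lit 35264) (nat_lit 6) (nat_lit 464) (nat_lit 1) (nat_lit 208) (nat_lit 163) (nat_lit 199)))) (PT.nd (nat_lit 156) (PT.nd (nat_lit 78) (PT.lf (nat_lit 35188) (nat_lit 6) (nat_lit 463) (nat_lit 1) (nat_lit 209) (nat_lit 163) (nat_lit 198)) (PT.lf (nat_lit 35112) (nat_lit 6) (nat_lit 462) (nat_lit 1) (nat_lit 210) (nat_lit 163) (nat_lit 197))) (PT.nd (nat_lit 78) (PT.lf (nat_lit 35036) (nat_lit 6) (nat_lit 461) (nat_lit 1) (nat_lit 211) (nat_lit 163) (nat_lit 196)) (PT.lf (nat_lit 34960) (nat_lit 6) (nat_lit 460) (nat_lit 1) (nat_lit 212) (nat_lit 163) (nat_lit 195))))) (PT.nd (nat_lit 57720) (PT.nd (nat_lit 156) (PT.nd (nat_lit 78) (PT.lf (nat_lit 34884) (nat_lit 6) (nat_lit 459) (nat_lit 1) (nat_lit 213) (nat_lit 163) (nat_lit 194)) (PT.lf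 (nat_lit 34808) (nat_lit 6) (nat_lit 458) (nat_lit 1) (nat_lit 214) (nat_lit 163) (nat_lit 193))) (PT.nd (nat_lit 57486) (PT.lf (nat_lit 34732) (nat_lit 6) (nat_lit 457) (nat_lit 1) (nat_lit 215) (nat_lit 163) (nat_lit 192)) (PT.lf (nat_lit 35644) (nat_lit 6) (nat_lit 469) (nat_lit 3) (nat_lit 191) (nat_lit 164) (nat_lit 215)))) (PT.nd (nat_lit 156) (PT.nd (nat_lit 78) (PT.lf (nat_lit 35720) (nat_lit 6) (nat_lit 470) (nat_lit 3) (nat_lit 192) (nat_lit 164) (nat_lit 214)) (PT.lf (nat_lit 35796) (nat_lit 6) (nat_lit 471) (nat_lit 3) (nat_lit 193) (nat_lit 164) (nat_lit 213))) (PT.nd (nat_lit 78) (PT.lf (nat_lit 35872) (nat_lit 6) (nat_lit 472) (nat_lit 3) (nat_lit 194) (nat_lit 164) (nat_lit 212)) (PT.lf (nat_lit 35948) (nat_lit 6) (nat_lit 473) (nat_lit 3) (nat_lit 195) (nat_lit 164) (nat_lit 211)))))) (PT.nd (nat_lit 624) (PT.nd (nat_lit 312) (PT.nd (nat_lit 156) (PT.nd (nat_lit 78) (PT.lf (nat_lit 36024) (nat_lit 6) (nat_lit 474) (nat_lit 3) (nat_lit 196) (nat_lit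 164) (nat_lit 210)) (PT.lf (nat_lit 36100) (nat_lit 6) (nat_lit 475) (nat_lit 3) (nat_lit 197) (nat_lit 164) (nat_lit 209))) (PT.nd (nat_lit 78) (PT.lf (nat_lit 36176) (nat_lit 6) (nat_lit 476) (nat_lit 3) (nat_lit 198) (nat_lit 164) (nat_lit 208)) (PT.lf (nat_lit 36252) (nat_lit 6) (nat_lit 477) (nat_lit 3) (nat_lit 199) (nat_lit 164) (nat_lit 207)))) (PT.nd (nat_lit 156) (PT.nd (nat_lit 78) (PT.lf (nat_lit 36328) (nat_lit 6) (nat_lit 478) (nat_lit 3) (nat_lit 200) (nat_lit 164) (nat_lit 206)) (PT.lf (nat_lit 36404) (nat_lit 6) (nat_lit 479) (nat_lit 3) (nat_lit 201) (nat_lit 164) (nat_lit 205))) (PT.nd (nat_lit 78) (PT.lf (nat_lit 36480) (nat_lit 6) (nat_lit 480) (nat_lit 3) (nat_lit 202) (nat_lit 164) (nat_lit 204)) (PT.lf (nat_lit 36556) (nat_lit 3) (nat_lit 481) (nat_lit 1) (nat_lit 203) (nat_lit 164) (nat_lit 203))))) (PT.nd (nat_lit 312) (PT.nd (nat_lit 156) (PT.nd (nat_lit 78) (PT.lf (nat_lit 36480) (nat_lit 6) (nat_lit 480) (nat_lit 1) (nat_lit 204)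 (nat_lit 164) (nat_lit 202)) (PT.lf (nat_lit 36404) (nat_lit 6) (nat_lit 479) (nat_lit 1) (nat_lit 205) (nat_lit 164) (nat_lit 201))) (PT.nd (nat_lit 78) (PT.lf (nat_lit 36328) (nat_lit 6) (nat_lit 478) (nat_lit 1) (nat_lit 206) (nat_lit 164) (nat_lit 200)) (PT.lf (nat_lit 36252) (nat_lit 6) (nat_lit 477) (nat_lit 1) (nat_lit 207) (nat_lit 164) (nat_lit 199)))) (PT.nd (nat_lit 156) (PT.nd (nat_lit 78) (PT.lf (nat_lit 36176) (nat_lit 6) (nat_lit 476) (nat_lit 1) (nat_lit 208) (nat_lit 164) (nat_lit 198)) (PT.lf (nat_lit 36100) (nat_lit 6) (nat_lit 475) (nat_lit 1) (nat_lit 209) (nat_lit 164) (nat_lit 197))) (PT.nd (nat_lit 78) (PT.lf (nat_lit 36024) (nat_lit 6) (nat_lit 474) (nat_lit 1) (nat_lit 210) (nat_lit 164) (nat_lit 196)) (PT.lf (nat_lit 35948) (nat_lit 6) (nat_lit 473) (nat_lit 1) (nat_lit 211) (nat_lit 164) (nat_lit 195))))))))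
noncomputable def pc11 : PT := (PT.nd (nat_lit 117000) (PT.nd (nat_lit 58500) (PT.nd (nat_lit 57876) (PT.nd (nat_lit 234) (PT.nd (nat_lit 78) (PT.lf (nat_lit 35872) (nat_lit 6) (nat_lit 472) (nat_lit 1) (nat_lit 212) (nat_lit 164) (nat_lit 194)) (PT.nd (nat_lit 78) (PT.lf (nat_lit 35796) (nat_lit 6) (nat_lit 471) (nat_lit 1) (nat_lit 213) (nat_lit 164) (nat_lit 193)) (PT.lf (nat_lit 35720) (nat_lit 6) (nat_lit 470) (nat_lit 1) (nat_lit 214) (nat_lit 164) (nat_lit 192)))) (PT.nd (nat_lit 57486) (PT.nd (nat_lit 57408) (PT.lf (nat_lit 35644) (nat_lit 6) (nat_lit 469) (nat_lit 1) (nat_lit 215) (nat_lit 164) (nat_lit 191)) (PT.lf (nat_lit 36784) (nat_lit 6) (nat_lit 484) (nat_lit 3) (nat_lit 190) (nat_lit 165) (nat_lit 215))) (PT.nd (nat_lit 78) (PT.lf (nat_lit 36860) (nat_lit 6) (nat_lit 485) (nat_lit 3) (nat_lit 191) (nat_lit 165) (nat_lit 214)) (PT.lf (nat_lit 36936) (nat_lit 6) (nat_lit 486) (nat_lit 3) (nat_lit 192) (nat_lit 165) (nat_lit 213))))) (PT.nd (nat_lit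 312) (PT.nd (nat_lit 156) (PT.nd (nat_lit 78) (PT.lf (nat_lit 37012) (nat_lit 6) (nat_lit 487) (nat_lit 3) (nat_lit 193) (nat_lit 165) (nat_lit 212)) (PT.lf (nat_lit 37088) (nat_lit 6) (nat_lit 488) (nat_lit 3) (nat_lit 194) (nat_lit 165) (nat_lit 211))) (PT.nd (nat_lit 78) (PT.lf (nat_lit 37164) (nat_lit 6) (nat_lit 489) (nat_lit 3) (nat_lit 195) (nat_lit 165) (nat_lit 210)) (PT.lf (nat_lit 37240) (nat_lit 6) (nat_lit 490) (nat_lit 3) (nat_lit 196) (nat_lit 165) (nat_lit 209)))) (PT.nd (nat_lit 156) (PT.nd (nat_lit 78) (PT.lf (nat_lit 37316) (nat_lit 6) (nat_lit 491) (nat_lit 3) (nat_lit 197) (nat_lit 165) (nat_lit 208)) (PT.lf (nat_lit 37392) (nat_lit 6) (nat_lit 492) (nat_lit 3) (nat_lit 198) (nat_lit 165) (nat_lit 207))) (PT.nd (nat_lit 78) (PT.lf (nat_lit 37468) (nat_lit 6) (nat_lit 493) (nat_lit 3) (nat_lit 199) (nat_lit 165) (nat_lit 206)) (PT.lf (nat_lit 37544) (nat_lit 6) (nat_lit 494) (nat_lit 3) (nat_lit 200) (nat_lit 165) (nat_lit 205)))))) (PT.nd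 (nat_lit 624) (PT.nd (nat_lit 312) (PT.nd (nat_lit 156) (PT.nd (nat_lit 78) (PT.lf (nat_lit 37620) (nat_lit 6) (nat_lit 495) (nat_lit 3) (nat_lit 201) (nat_lit 165) (nat_lit 204)) (PT.lf (nat_lit 37696) (nat_lit 6) (nat_lit 496) (nat_lit 3) (nat_lit 202) (nat_lit 165) (nat_lit 203))) (PT.nd (nat_lit 78) (PT.lf (nat_lit 37696) (nat_lit 6) (nat_lit 496) (nat_lit 1) (nat_lit 203) (nat_lit 165) (nat_lit 202)) (PT.lf (nat_lit 37620) (nat_lit 6) (nat_lit 495) (nat_lit 1) (nat_lit 204) (nat_lit 165) (nat_lit 201)))) (PT.nd (nat_lit 156) (PT.nd (nat_lit 78) (PT.lf (nat_lit 37544) (nat_lit 6) (nat_lit 494) (nat_lit 1) (nat_lit 205) (nat_lit 165) (nat_lit 200)) (PT.lf (nat_lit 37468) (nat_lit 6) (nat_lit 493) (nat_lit 1) (nat_lit 206) (nat_lit 165) (nat_lit 199))) (PT.nd (nat_lit 78) (PT.lf (nat_lit 37392) (nat_lit 6) (nat_lit 492) (nat_lit 1) (nat_lit 207) (nat_lit 165) (nat_lit 198)) (PT.lf (nat_lit 37316) (nat_lit 6) (nat_lit 491) (nat_lit 1) (nat_lit 208) (nat_lit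 165) (nat_lit 197))))) (PT.nd (nat_lit 312) (PT.nd (nat_lit 156) (PT.nd (nat_lit 78) (PT.lf (nat_lit 37240) (nat_lit 6) (nat_lit 490) (nat_lit 1) (nat_lit 209) (nat_lit 165) (nat_lit 196)) (PT.lf (nat_lit 37164) (nat_lit 6) (nat_lit 489) (nat_lit 1) (nat_lit 210) (nat_lit 165) (nat_lit 195))) (PT.nd (nat_lit 78) (PT.lf (nat_lit 37088) (nat_lit 6) (nat_lit 488) (nat_lit 1) (nat_lit 211) (nat_lit 165) (nat_lit 194)) (PT.lf (nat_lit 37012) (nat_lit 6) (nat_lit 487) (nat_lit 1) (nat_lit 212) (nat_lit 165) (nat_lit 193)))) (PT.nd (nat_lit 156) (PT.nd (nat_lit 78) (PT.lf (nat_lit 36936) (nat_lit 6) (nat_lit 486) (nat_lit 1) (nat_lit 213) (nat_lit 165) (nat_lit 192)) (PT.lf (nat_lit 36860) (nat_lit 6) (nat_lit 485) (nat_lit 1) (nat_lit 214) (nat_lit 165) (nat_lit 191))) (PT.nd (nat_lit 57330) (PT.lf (nat_lit 36784) (nat_lit 6) (nat_lit 484) (nat_lit 1) (nat_lit 215) (nat_lit 165) (nat_lit 190)) (PT.lf (nat_lit 36708) (nat_lit 6) (nat_lit 483) (nat_lit 3) (nat_lit 189)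 (nat_lit 166) (nat_lit 215))))))) (PT.nd (nat_lit 1170) (PT.nd (nat_lit 546) (PT.nd (nat_lit 234) (PT.nd (nat_lit 78) (PT.lf (nat_lit 38684) (nat_lit 6) (nat_lit 509) (nat_lit 3) (nat_lit 190) (nat_lit 166) (nat_lit 214)) (PT.nd (nat_lit 78) (PT.lf (nat_lit 38760) (nat_lit 6) (nat_lit 510) (nat_lit 3) (nat_lit 191) (nat_lit 166) (nat_lit 213)) (PT.lf (nat_lit 38836) (nat_lit 6) (nat_lit 511) (nat_lit 3) (nat_lit 192) (nat_lit 166) (nat_lit 212)))) (PT.nd (nat_lit 156) (PT.nd (nat_lit 78) (PT.lf (nat_lit 38912) (nat_lit 6) (nat_lit 512) (nat_lit 3) (nat_lit 193) (nat_lit 166) (nat_lit 211)) (PT.lf (nat_lit 38988) (nat_lit 6) (nat_lit 513) (nat_lit 3) (nat_lit 194) (nat_lit 166) (nat_lit 210))) (PT.nd (nat_lit 78) (PT.lf (nat_lit 39064) (nat_lit 6) (nat_lit 514) (nat_lit 3) (nat_lit 195) (nat_lit 166) (nat_lit 209)) (PT.lf (nat_lit 39140) (nat_lit 6) (nat_lit 515) (nat_lit 3) (nat_lit 196) (nat_lit 166) (nat_lit 208))))) (PT.nd (nat_lit 312) (PT.nd (nat_lit 156)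 (PT.nd (nat_lit 78) (PT.lf (nat_lit 39216) (nat_lit 6) (nat_lit 516) (nat_lit 3) (nat_lit 197) (nat_lit 166) (nat_lit 207)) (PT.lf (nat_lit 39292) (nat_lit 6) (nat_lit 517) (nat_lit 3) (nat_lit 198) (nat_lit 166) (nat_lit 206))) (PT.nd (nat_lit 78) (PT.lf (nat_lit 39368) (nat_lit 6) (nat_lit 518) (nat_lit 3) (nat_lit 199) (nat_lit 166) (nat_lit 205)) (PT.lf (nat_lit 39444) (nat_lit 6) (nat_lit 519) (nat_lit 3) (nat_lit 200) (nat_lit 166) (nat_lit 204)))) (PT.nd (nat_lit 156) (PT.nd (nat_lit 78) (PT.lf (nat_lit 39520) (nat_lit 6) (nat_lit 520) (nat_lit 3) (nat_lit 201) (nat_lit 166) (nat_lit 203)) (PT.lf (nat_lit 39596) (nat_lit 3) (nat_lit 521) (nat_lit 1) (nat_lit 202) (nat_lit 166) (nat_lit 202))) (PT.nd (nat_lit 78) (PT.lf (nat_lit 39520) (nat_lit 6) (nat_lit 520) (nat_lit 1) (nat_lit 203) (nat_lit 166) (nat_lit 201)) (PT.lf (nat_lit 39444) (nat_lit 6) (nat_lit 519) (nat_lit 1) (nat_lit 204) (nat_lit 166) (nat_lit 200)))))) (PT.nd (nat_lit 624) (PT.nd (nat_lit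 312) (PT.nd (nat_lit 156) (PT.nd (nat_lit 78) (PT.lf (nat_lit 39368) (nat_lit 6) (nat_lit 518) (nat_lit 1) (nat_lit 205) (nat_lit 166) (nat_lit 199)) (PT.lf (nat_lit 39292) (nat_lit 6) (nat_lit 517) (nat_lit 1) (nat_lit 206) (nat_lit 166) (nat_lit 198))) (PT.nd (nat_lit 78) (PT.lf (nat_lit 39216) (nat_lit 6) (nat_lit 516) (nat_lit 1) (nat_lit 207) (nat_lit 166) (nat_lit 197)) (PT.lf (nat_lit 39140) (nat_lit 6) (nat_lit 515) (nat_lit 1) (nat_lit 208) (nat_lit 166) (nat_lit 196)))) (PT.nd (nat_lit 156) (PT.nd (nat_lit 78) (PT.lf (nat_lit 39064) (nat_lit 6) (nat_lit 514) (nat_lit 1) (nat_lit 209) (nat_lit 166) (nat_lit 195)) (PT.lf (nat_lit 38988) (nat_lit 6) (nat_lit 513) (nat_lit 1) (nat_lit 210) (nat_lit 166) (nat_lit 194))) (PT.nd (nat_lit 78) (PT.lf (nat_lit 38912) (nat_lit 6) (nat_lit 512) (nat_lit 1) (nat_lit 211) (nat_lit 166) (nat_lit 193)) (PT.lf (nat_lit 38836) (nat_lit 6) (nat_lit 511) (nat_lit 1) (nat_lit 212) (nat_lit 166) (nat_lit 192))))) (PT.nd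 (nat_lit 57486) (PT.nd (nat_lit 156) (PT.nd (nat_lit 78) (PT.lf (nat_lit 38760) (nat_lit 6) (nat_lit 510) (nat_lit 1) (nat_lit 213) (nat_lit 166) (nat_lit 191)) (PT.lf (nat_lit 38684) (nat_lit 6) (nat_lit 509) (nat_lit 1) (nat_lit 214) (nat_lit 166) (nat_lit 190))) (PT.nd (nat_lit 57252) (PT.lf (nat_lit 36708) (nat_lit 6) (nat_lit 483) (nat_lit 1) (nat_lit 215) (nat_lit 166) (nat_lit 189)) (PT.lf (nat_lit 36632) (nat_lit 6) (nat_lit 482) (nat_lit 3) (nat_lit 188) (nat_lit 167) (nat_lit 215)))) (PT.nd (nat_lit 156) (PT.nd (nat_lit 78) (PT.lf (nat_lit 38608) (nat_lit 6) (nat_lit 508) (nat_lit 3) (nat_lit 189) (nat_lit 167) (nat_lit 214)) (PT.lf (nat_lit 40508) (nat_lit 6) (nat_lit 533) (nat_lit 3) (nat_lit 190) (nat_lit 167) (nat_lit 213))) (PT.nd (nat_lit 78) (PT.lf (nat_lit 40584) (nat_lit 6) (nat_lit 534) (nat_lit 3) (nat_lit 191) (nat_lit 167) (nat_lit 212)) (PT.lf (nat_lit 40660) (nat_lit 6) (nat_lit 535) (nat_lit 3) (nat_lit 192) (nat_lit 167) (nat_lit 211))))))))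
noncomputable def pc12 : PT := (PT.nd (nat_lit 59514) (PT.nd (nat_lit 1170) (PT.nd (nat_lit 546) (PT.nd (nat_lit 234) (PT.nd (nat_lit 78) (PT.lf (nat_lit 40736) (nat_lit 6) (nat_lit 536) (nat_lit 3) (nat_lit 193) (nat_lit 167) (nat_lit 210)) (PT.nd (nat_lit 78) (PT.lf (nat_lit 40812) (nat_lit 6) (nat_lit 537) (nat_lit 3) (nat_lit 194) (nat_lit 167) (nat_lit 209)) (PT.lf (nat_lit 40888) (nat_lit 6) (nat_lit 538) (nat_lit 3) (nat_lit 195) (nat_lit 167) (nat_lit 208)))) (PT.nd (nat_lit 156) (PT.nd (nat_lit 78) (PT.lf (nat_lit 40964) (nat_lit 6) (nat_lit 539) (nat_lit 3) (nat_lit 196) (nat_lit 167) (nat_lit 207)) (PT.lf (nat_lit 41040) (nat_lit 6) (nat_lit 540) (nat_lit 3) (nat_lit 197) (nat_lit 167) (nat_lit 206))) (PT.nd (nat_lit 78) (PT.lf (nat_lit 41116) (nat_lit 6) (nat_lit 541) (nat_lit 3) (nat_lit 198) (nat_lit 167) (nat_lit 205)) (PT.lf (nat_lit 41192) (nat_lit 6) (nat_lit 542) (nat_lit 3) (nat_lit 199) (nat_lit 167) (nat_lit 204))))) (PT.nd (nat_lit 312)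 (PT.nd (nat_lit 156) (PT.nd (nat_lit 78) (PT.lf (nat_lit 41268) (nat_lit 6) (nat_lit 543) (nat_lit 3) (nat_lit 200) (nat_lit 167) (nat_lit 203)) (PT.lf (nat_lit 41344) (nat_lit 6) (nat_lit 544) (nat_lit 3) (nat_lit 201) (nat_lit 167) (nat_lit 202))) (PT.nd (nat_lit 78) (PT.lf (nat_lit 41344) (nat_lit 6) (nat_lit 544) (nat_lit 1) (nat_lit 202) (nat_lit 167) (nat_lit 201)) (PT.lf (nat_lit 41268) (nat_lit 6) (nat_lit 543) (nat_lit 1) (nat_lit 203) (nat_lit 167) (nat_lit 200)))) (PT.nd (nat_lit 156) (PT.nd (nat_lit 78) (PT.lf (nat_lit 41192) (nat_lit 6) (nat_lit 542) (nat_lit 1) (nat_lit 204) (nat_lit 167) (nat_lit 199)) (PT.lf (nat_lit 41116) (nat_lit 6) (nat_lit 541) (nat_lit 1) (nat_lit 205) (nat_lit 167) (nat_lit 198))) (PT.nd (nat_lit 78) (PT.lf (nat_lit 41040) (nat_lit 6) (nat_lit 540) (nat_lit 1) (nat_lit 206) (nat_lit 167) (nat_lit 197)) (PT.lf (nat_lit 40964) (nat_lit 6) (nat_lit 539) (nat_lit 1) (nat_lit 207) (nat_lit 167) (nat_lit 196)))))) (PT.nd (nat_lit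 546) (PT.nd (nat_lit 234) (PT.nd (nat_lit 78) (PT.lf (nat_lit 40888) (nat_lit 6) (nat_lit 538) (nat_lit 1) (nat_lit 208) (nat_lit 167) (nat_lit 195)) (PT.nd (nat_lit 78) (PT.lf (nat_lit 40812) (nat_lit 6) (nat_lit 537) (nat_lit 1) (nat_lit 209) (nat_lit 167) (nat_lit 194)) (PT.lf (nat_lit 40736) (nat_lit 6) (nat_lit 536) (nat_lit 1) (nat_lit 210) (nat_lit 167) (nat_lit 193)))) (PT.nd (nat_lit 156) (PT.nd (nat_lit 78) (PT.lf (nat_lit 40660) (nat_lit 6) (nat_lit 535) (nat_lit 1) (nat_lit 211) (nat_lit 167) (nat_lit 192)) (PT.lf (nat_lit 40584) (nat_lit 6) (nat_lit 534) (nat_lit 1) (nat_lit 212) (nat_lit 167) (nat_lit 191))) (PT.nd (nat_lit 78) (PT.lf (nat_lit 40508) (nat_lit 6) (nat_lit 533) (nat_lit 1) (nat_lit 213) (nat_lit 167) (nat_lit 190)) (PT.lf (nat_lit 38608) (nat_lit 6) (nat_lit 508) (nat_lit 1) (nat_lit 214) (nat_lit 167) (nat_lit 189))))) (PT.nd (nat_lit 57486) (PT.nd (nat_lit 57330) (PT.nd (nat_lit 57252) (PT.lf (nat_lit 36632) (nat_lit 6) (nat_lit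 482) (nat_lit 1) (nat_lit 215) (nat_lit 167) (nat_lit 188)) (PT.lf (nat_lit 38532) (nat_lit 6) (nat_lit 507) (nat_lit 3) (nat_lit 188) (nat_lit 168) (nat_lit 214))) (PT.nd (nat_lit 78) (PT.lf (nat_lit 40432) (nat_lit 6) (nat_lit 532) (nat_lit 3) (nat_lit 189) (nat_lit 168) (nat_lit 213)) (PT.lf (nat_lit 42256) (nat_lit 6) (nat_lit 556) (nat_lit 3) (nat_lit 190) (nat_lit 168) (nat_lit 212)))) (PT.nd (nat_lit 156) (PT.nd (nat_lit 78) (PT.lf (nat_lit 42332) (nat_lit 6) (nat_lit 557) (nat_lit 3) (nat_lit 191) (nat_lit 168) (nat_lit 211)) (PT.lf (nat_lit 42408) (nat_lit 6) (nat_lit 558) (nat_lit 3) (nat_lit 192) (nat_lit 168) (nat_lit 210))) (PT.nd (nat_lit 78) (PT.lf (nat_lit 42484) (nat_lit 6) (nat_lit 559) (nat_lit 3) (nat_lit 193) (nat_lit 168) (nat_lit 209)) (PT.lf (nat_lit 42560) (nat_lit 6) (nat_lit 560) (nat_lit 3) (nat_lit 194) (nat_lit 168) (nat_lit 208))))))) (PT.nd (nat_lit 1170) (PT.nd (nat_lit 546) (PT.nd (nat_lit 234) (PT.nd (nat_lit 78) (PT.lf (nat_lit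 42636) (nat_lit 6) (nat_lit 561) (nat_lit 3) (nat_lit 195) (nat_lit 168) (nat_lit 207)) (PT.nd (nat_lit 78) (PT.lf (nat_lit 42712) (nat_lit 6) (nat_lit 562) (nat_lit 3) (nat_lit 196) (nat_lit 168) (nat_lit 206)) (PT.lf (nat_lit 42788) (nat_lit 6) (nat_lit 563) (nat_lit 3) (nat_lit 197) (nat_lit 168) (nat_lit 205)))) (PT.nd (nat_lit 156) (PT.nd (nat_lit 78) (PT.lf (nat_lit 42864) (nat_lit 6) (nat_lit 564) (nat_lit 3) (nat_lit 198) (nat_lit 168) (nat_lit 204)) (PT.lf (nat_lit 42940) (nat_lit 6) (nat_lit 565) (nat_lit 3) (nat_lit 199) (nat_lit 168) (nat_lit 203))) (PT.nd (nat_lit 78) (PT.lf (nat_lit 43016) (nat_lit 6) (nat_lit 566) (nat_lit 3) (nat_lit 200) (nat_lit 168) (nat_lit 202)) (PT.lf (nat_lit 43092) (nat_lit 3) (nat_lit 567) (nat_lit 1) (nat_lit 201) (nat_lit 168) (nat_lit 201))))) (PT.nd (nat_lit 312) (PT.nd (nat_lit 156) (PT.nd (nat_lit 78) (PT.lf (nat_lit 43016) (nat_lit 6) (nat_lit 566) (nat_lit 1) (nat_lit 202) (nat_lit 168) (nat_lit 200)) (PT.lf (nat_lit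 42940) (nat_lit 6) (nat_lit 565) (nat_lit 1) (nat_lit 203) (nat_lit 168) (nat_lit 199))) (PT.nd (nat_lit 78) (PT.lf (nat_lit 42864) (nat_lit 6) (nat_lit 564) (nat_lit 1) (nat_lit 204) (nat_lit 168) (nat_lit 198)) (PT.lf (nat_lit 42788) (nat_lit 6) (nat_lit 563) (nat_lit 1) (nat_lit 205) (nat_lit 168) (nat_lit 197)))) (PT.nd (nat_lit 156) (PT.nd (nat_lit 78) (PT.lf (nat_lit 42712) (nat_lit 6) (nat_lit 562) (nat_lit 1) (nat_lit 206) (nat_lit 168) (nat_lit 196)) (PT.lf (nat_lit 42636) (nat_lit 6) (nat_lit 561) (nat_lit 1) (nat_lit 207) (nat_lit 168) (nat_lit 195))) (PT.nd (nat_lit 78) (PT.lf (nat_lit 42560) (nat_lit 6) (nat_lit 560) (nat_lit 1) (nat_lit 208) (nat_lit 168) (nat_lit 194)) (PT.lf (nat_lit 42484) (nat_lit 6) (nat_lit 559) (nat_lit 1) (nat_lit 209) (nat_lit 168) (nat_lit 193)))))) (PT.nd (nat_lit 57798) (PT.nd (nat_lit 312) (PT.nd (nat_lit 156) (PT.nd (nat_lit 78) (PT.lf (nat_lit 42408) (nat_lit 6) (nat_lit 558) (nat_lit 1) (nat_lit 210) (nat_lit 168)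 (nat_lit 192)) (PT.lf (nat_lit 42332) (nat_lit 6) (nat_lit 557) (nat_lit 1) (nat_lit 211) (nat_lit 168) (nat_lit 191))) (PT.nd (nat_lit 78) (PT.lf (nat_lit 42256) (nat_lit 6) (nat_lit 556) (nat_lit 1) (nat_lit 212) (nat_lit 168) (nat_lit 190)) (PT.lf (nat_lit 40432) (nat_lit 6) (nat_lit 532) (nat_lit 1) (nat_lit 213) (nat_lit 168) (nat_lit 189)))) (PT.nd (nat_lit 57330) (PT.nd (nat_lit 57252) (PT.lf (nat_lit 38532) (nat_lit 6) (nat_lit 507) (nat_lit 1) (nat_lit 214) (nat_lit 168) (nat_lit 188)) (PT.lf (nat_lit 38456) (nat_lit 6) (nat_lit 506) (nat_lit 3) (nat_lit 187) (nat_lit 169) (nat_lit 214))) (PT.nd (nat_lit 78) (PT.lf (nat_lit 40356) (nat_lit 6) (nat_lit 531) (nat_lit 3) (nat_lit 188) (nat_lit 169) (nat_lit 213)) (PT.lf (nat_lit 42180) (nat_lit 6) (nat_lit 555) (nat_lit 3) (nat_lit 189) (nat_lit 169) (nat_lit 212))))) (PT.nd (nat_lit 312) (PT.nd (nat_lit 156) (PT.nd (nat_lit 78) (PT.lf (nat_lit 43928) (nat_lit 6) (nat_lit 578) (nat_lit 3) (nat_lit 190)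 (nat_lit 169) (nat_lit 211)) (PT.lf (nat_lit 44004) (nat_lit 6) (nat_lit 579) (nat_lit 3) (nat_lit 191) (nat_lit 169) (nat_lit 210))) (PT.nd (nat_lit 78) (PT.lf (nat_lit 44080) (nat_lit 6) (nat_lit 580) (nat_lit 3) (nat_lit 192) (nat_lit 169) (nat_lit 209)) (PT.lf (nat_lit 44156) (nat_lit 6) (nat_lit 581) (nat_lit 3) (nat_lit 193) (nat_lit 169) (nat_lit 208)))) (PT.nd (nat_lit 156) (PT.nd (nat_lit 78) (PT.lf (nat_lit 44232) (nat_lit 6) (nat_lit 582) (nat_lit 3) (nat_lit 194) (nat_lit 169) (nat_lit 207)) (PT.lf (nat_lit 44308) (nat_lit 6) (nat_lit 583) (nat_lit 3) (nat_lit 195) (nat_lit 169) (nat_lit 206))) (PT.nd (nat_lit 78) (PT.lf (nat_lit 44384) (nat_lit 6) (nat_lit 584) (nat_lit 3) (nat_lit 196) (nat_lit 169) (nat_lit 205)) (PT.lf (nat_lit 44460) (nat_lit 6) (nat_lit 585) (nat_lit 3) (nat_lit 197) (nat_lit 169) (nat_lit 204))))))))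
noncomputable def pc13 : PT := (PT.nd (nat_lit 59436) (PT.nd (nat_lit 1170) (PT.nd (nat_lit 546) (PT.nd (nat_lit 234) (PT.nd (nat_lit 78) (PT.lf (nat_lit 44536) (nat_lit 6) (nat_lit 586) (nat_lit 3) (nat_lit 198) (nat_lit 169) (nat_lit 203)) (PT.nd (nat_lit 78) (PT.lf (nat_lit 44612) (nat_lit 6) (nat_lit 587) (nat_lit 3) (nat_lit 199) (nat_lit 169) (nat_lit 202)) (PT.lf (nat_lit 44688) (nat_lit 6) (nat_lit 588) (nat_lit 3) (nat_lit 200) (nat_lit 169) (nat_lit 201)))) (PT.nd (nat_lit 156) (PT.nd (nat_lit 78) (PT.lf (nat_lit 44688) (nat_lit 6) (nat_lit 588) (nat_lit 1) (nat_lit 201) (nat_lit 169) (nat_lit 200)) (PT.lf (nat_lit 44612) (nat_lit 6) (nat_lit 587) (nat_lit 1) (nat_lit 202) (nat_lit 169) (nat_lit 199))) (PT.nd (nat_lit 78) (PT.lf (nat_lit 44536) (nat_lit 6) (nat_lit 586) (nat_lit 1) (nat_lit 203) (nat_lit 169) (nat_lit 198)) (PT.lf (nat_lit 44460) (nat_lit 6) (nat_lit 585) (nat_lit 1) (nat_lit 204) (nat_lit 169) (nat_lit 197))))) (PT.nd (nat_lit 312)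 (PT.nd (nat_lit 156) (PT.nd (nat_lit 78) (PT.lf (nat_lit 44384) (nat_lit 6) (nat_lit 584) (nat_lit 1) (nat_lit 205) (nat_lit 169) (nat_lit 196)) (PT.lf (nat_lit 44308) (nat_lit 6) (nat_lit 583) (nat_lit 1) (nat_lit 206) (nat_lit 169) (nat_lit 195))) (PT.nd (nat_lit 78) (PT.lf (nat_lit 44232) (nat_lit 6) (nat_lit 582) (nat_lit 1) (nat_lit 207) (nat_lit 169) (nat_lit 194)) (PT.lf (nat_lit 44156) (nat_lit 6) (nat_lit 581) (nat_lit 1) (nat_lit 208) (nat_lit 169) (nat_lit 193)))) (PT.nd (nat_lit 156) (PT.nd (nat_lit 78) (PT.lf (nat_lit 44080) (nat_lit 6) (nat_lit 580) (nat_lit 1) (nat_lit 209) (nat_lit 169) (nat_lit 192)) (PT.lf (nat_lit 44004) (nat_lit 6) (nat_lit 579) (nat_lit 1) (nat_lit 210) (nat_lit 169) (nat_lit 191))) (PT.nd (nat_lit 78) (PT.lf (nat_lit 43928) (nat_lit 6) (nat_lit 578) (nat_lit 1) (nat_lit 211) (nat_lit 169) (nat_lit 190)) (PT.lf (nat_lit 42180) (nat_lit 6) (nat_lit 555) (nat_lit 1) (nat_lit 212) (nat_lit 169) (nat_lit 189)))))) (PT.nd (nat_lit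 57642) (PT.nd (nat_lit 57330) (PT.nd (nat_lit 78) (PT.lf (nat_lit 40356) (nat_lit 6) (nat_lit 531) (nat_lit 1) (nat_lit 213) (nat_lit 169) (nat_lit 188)) (PT.nd (nat_lit 57174) (PT.lf (nat_lit 38456) (nat_lit 6) (nat_lit 506) (nat_lit 1) (nat_lit 214) (nat_lit 169) (nat_lit 187)) (PT.lf (nat_lit 38380) (nat_lit 6) (nat_lit 505) (nat_lit 3) (nat_lit 186) (nat_lit 170) (nat_lit 214)))) (PT.nd (nat_lit 156) (PT.nd (nat_lit 78) (PT.lf (nat_lit 40280) (nat_lit 6) (nat_lit 530) (nat_lit 3) (nat_lit 187) (nat_lit 170) (nat_lit 213)) (PT.lf (nat_lit 42104) (nat_lit 6) (nat_lit 554) (nat_lit 3) (nat_lit 188) (nat_lit 170) (nat_lit 212))) (PT.nd (nat_lit 78) (PT.lf (nat_lit 43852) (nat_lit 6) (nat_lit 577) (nat_lit 3) (nat_lit 189) (nat_lit 170) (nat_lit 211)) (PT.lf (nat_lit 45524) (nat_lit 6) (nat_lit 599) (nat_lit 3) (nat_lit 190) (nat_lit 170) (nat_lit 210))))) (PT.nd (nat_lit 312) (PT.nd (nat_lit 156) (PT.nd (nat_lit 78) (PT.lf (nat_lit 45600) (nat_lit 6) (nat_lit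 600) (nat_lit 3) (nat_lit 191) (nat_lit 170) (nat_lit 209)) (PT.lf (nat_lit 45676) (nat_lit 6) (nat_lit 601) (nat_lit 3) (nat_lit 192) (nat_lit 170) (nat_lit 208))) (PT.nd (nat_lit 78) (PT.lf (nat_lit 45752) (nat_lit 6) (nat_lit 602) (nat_lit 3) (nat_lit 193) (nat_lit 170) (nat_lit 207)) (PT.lf (nat_lit 45828) (nat_lit 6) (nat_lit 603) (nat_lit 3) (nat_lit 194) (nat_lit 170) (nat_lit 206)))) (PT.nd (nat_lit 156) (PT.nd (nat_lit 78) (PT.lf (nat_lit 45904) (nat_lit 6) (nat_lit 604) (nat_lit 3) (nat_lit 195) (nat_lit 170) (nat_lit 205)) (PT.lf (nat_lit 45980) (nat_lit 6) (nat_lit 605) (nat_lit 3) (nat_lit 196) (nat_lit 170) (nat_lit 204))) (PT.nd (nat_lit 78) (PT.lf (nat_lit 46056) (nat_lit 6) (nat_lit 606) (nat_lit 3) (nat_lit 197) (nat_lit 170) (nat_lit 203)) (PT.lf (nat_lit 46132) (nat_lit 6) (nat_lit 607) (nat_lit 3) (nat_lit 198) (nat_lit 170) (nat_lit 202))))))) (PT.nd (nat_lit 1170) (PT.nd (nat_lit 546) (PT.nd (nat_lit 234) (PT.nd (nat_lit 78) (PT.lf (nat_lit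 46208) (nat_lit 6) (nat_lit 608) (nat_lit 3) (nat_lit 199) (nat_lit 170) (nat_lit 201)) (PT.nd (nat_lit 78) (PT.lf (nat_lit 46284) (nat_lit 3) (nat_lit 609) (nat_lit 1) (nat_lit 200) (nat_lit 170) (nat_lit 200)) (PT.lf (nat_lit 46208) (nat_lit 6) (nat_lit 608) (nat_lit 1) (nat_lit 201) (nat_lit 170) (nat_lit 199)))) (PT.nd (nat_lit 156) (PT.nd (nat_lit 78) (PT.lf (nat_lit 46132) (nat_lit 6) (nat_lit 607) (nat_lit 1) (nat_lit 202) (nat_lit 170) (nat_lit 198)) (PT.lf (nat_lit 46056) (nat_lit 6) (nat_lit 606) (nat_lit 1) (nat_lit 203) (nat_lit 170) (nat_lit 197))) (PT.nd (nat_lit 78) (PT.lf (nat_lit 45980) (nat_lit 6) (nat_lit 605) (nat_lit 1) (nat_lit 204) (nat_lit 170) (nat_lit 196)) (PT.lf (nat_lit 45904) (nat_lit 6) (nat_lit 604) (nat_lit 1) (nat_lit 205) (nat_lit 170) (nat_lit 195))))) (PT.nd (nat_lit 312) (PT.nd (nat_lit 156) (PT.nd (nat_lit 78) (PT.lf (nat_lit 45828) (nat_lit 6) (nat_lit 603) (nat_lit 1) (nat_lit 206) (nat_lit 170) (nat_lit 194)) (PT.lf (nat_lit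 45752) (nat_lit 6) (nat_lit 602) (nat_lit 1) (nat_lit 207) (nat_lit 170) (nat_lit 193))) (PT.nd (nat_lit 78) (PT.lf (nat_lit 45676) (nat_lit 6) (nat_lit 601) (nat_lit 1) (nat_lit 208) (nat_lit 170) (nat_lit 192)) (PT.lf (nat_lit 45600) (nat_lit 6) (nat_lit 600) (nat_lit 1) (nat_lit 209) (nat_lit 170) (nat_lit 191)))) (PT.nd (nat_lit 156) (PT.nd (nat_lit 78) (PT.lf (nat_lit 45524) (nat_lit 6) (nat_lit 599) (nat_lit 1) (nat_lit 210) (nat_lit 170) (nat_lit 190)) (PT.lf (nat_lit 43852) (nat_lit 6) (nat_lit 577) (nat_lit 1) (nat_lit 211) (nat_lit 170) (nat_lit 189))) (PT.nd (nat_lit 78) (PT.lf (nat_lit 42104) (nat_lit 6) (nat_lit 554) (nat_lit 1) (nat_lit 212) (nat_lit 170) (nat_lit 188)) (PT.lf (nat_lit 40280) (nat_lit 6) (nat_lit 530) (nat_lit 1) (nat_lit 213) (nat_lit 170) (nat_lit 187)))))) (PT.nd (nat_lit 57642) (PT.nd (nat_lit 57330) (PT.nd (nat_lit 57174) (PT.nd (nat_lit 57096) (PT.lf (nat_lit 38380) (nat_lit 6) (nat_lit 505) (nat_lit 1) (nat_lit 214) (nat_lit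 170) (nat_lit 186)) (PT.lf (nat_lit 38304) (nat_lit 6) (nat_lit 504) (nat_lit 3) (nat_lit 185) (nat_lit 171) (nat_lit 214))) (PT.nd (nat_lit 78) (PT.lf (nat_lit 40204) (nat_lit 6) (nat_lit 529) (nat_lit 3) (nat_lit 186) (nat_lit 171) (nat_lit 213)) (PT.lf (nat_lit 42028) (nat_lit 6) (nat_lit 553) (nat_lit 3) (nat_lit 187) (nat_lit 171) (nat_lit 212)))) (PT.nd (nat_lit 156) (PT.nd (nat_lit 78) (PT.lf (nat_lit 43776) (nat_lit 6) (nat_lit 576) (nat_lit 3) (nat_lit 188) (nat_lit 171) (nat_lit 211)) (PT.lf (nat_lit 45448) (nat_lit 6) (nat_lit 598) (nat_lit 3) (nat_lit 189) (nat_lit 171) (nat_lit 210))) (PT.nd (nat_lit 78) (PT.lf (nat_lit 47044) (nat_lit 6) (nat_lit 619) (nat_lit 3) (nat_lit 190) (nat_lit 171) (nat_lit 209)) (PT.lf (nat_lit 47120) (nat_lit 6) (nat_lit 620) (nat_lit 3) (nat_lit 191) (nat_lit 171) (nat_lit 208))))) (PT.nd (nat_lit 312) (PT.nd (nat_lit 156) (PT.nd (nat_lit 78) (PT.lf (nat_lit 47196) (nat_lit 6) (nat_lit 621) (nat_lit 3) (nat_lit 192)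 (nat_lit 171) (nat_lit 207)) (PT.lf (nat_lit 47272) (nat_lit 6) (nat_lit 622) (nat_lit 3) (nat_lit 193) (nat_lit 171) (nat_lit 206))) (PT.nd (nat_lit 78) (PT.lf (nat_lit 47348) (nat_lit 6) (nat_lit 623) (nat_lit 3) (nat_lit 194) (nat_lit 171) (nat_lit 205)) (PT.lf (nat_lit 47424) (nat_lit 6) (nat_lit 624) (nat_lit 3) (nat_lit 195) (nat_lit 171) (nat_lit 204)))) (PT.nd (nat_lit 156) (PT.nd (nat_lit 78) (PT.lf (nat_lit 47500) (nat_lit 6) (nat_lit 625) (nat_lit 3) (nat_lit 196) (nat_lit 171) (nat_lit 203)) (PT.lf (nat_lit 47576) (nat_lit 6) (nat_lit 626) (nat_lit 3) (nat_lit 197) (nat_lit 171) (nat_lit 202))) (PT.nd (nat_lit 78) (PT.lf (nat_lit 47652) (nat_lit 6) (nat_lit 627) (nat_lit 3) (nat_lit 198) (nat_lit 171) (nat_lit 201)) (PT.lf (nat_lit 47728) (nat_lit 6) (nat_lit 628) (nat_lit 3) (nat_lit 199) (nat_lit 171) (nat_lit 200))))))))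
noncomputable def pc14 : PT := (PT.nd (nat_lit 59280) (PT.nd (nat_lit 58110) (PT.nd (nat_lit 546) (PT.nd (nat_lit 234) (PT.nd (nat_lit 78) (PT.lf (nat_lit 47728) (nat_lit 6) (nat_lit 628) (nat_lit 1) (nat_lit 200) (nat_lit 171) (nat_lit 199)) (PT.nd (nat_lit 78) (PT.lf (nat_lit 47652) (nat_lit 6) (nat_lit 627) (nat_lit 1) (nat_lit 201) (nat_lit 171) (nat_lit 198)) (PT.lf (nat_lit 47576) (nat_lit 6) (nat_lit 626) (nat_lit 1) (nat_lit 202) (nat_lit 171) (nat_lit 197)))) (PT.nd (nat_lit 156) (PT.nd (nat_lit 78) (PT.lf (nat_lit 47500) (nat_lit 6) (nat_lit 625) (nat_lit 1) (nat_lit 203) (nat_lit 171) (nat_lit 196)) (PT.lf (nat_lit 47424) (nat_lit 6) (nat_lit 624) (nat_lit 1) (nat_lit 204) (nat_lit 171) (nat_lit 195))) (PT.nd (nat_lit 78) (PT.lf (nat_lit 47348) (nat_lit 6) (nat_lit 623) (nat_lit 1) (nat_lit 205) (nat_lit 171) (nat_lit 194)) (PT.lf (nat_lit 47272) (nat_lit 6) (nat_lit 622) (nat_lit 1) (nat_lit 206) (nat_lit 171) (nat_lit 193))))) (PT.nd (nat_lit 312)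 (PT.nd (nat_lit 156) (PT.nd (nat_lit 78) (PT.lf (nat_lit 47196) (nat_lit 6) (nat_lit 621) (nat_lit 1) (nat_lit 207) (nat_lit 171) (nat_lit 192)) (PT.lf (nat_lit 47120) (nat_lit 6) (nat_lit 620) (nat_lit 1) (nat_lit 208) (nat_lit 171) (nat_lit 191))) (PT.nd (nat_lit 78) (PT.lf (nat_lit 47044) (nat_lit 6) (nat_lit 619) (nat_lit 1) (nat_lit 209) (nat_lit 171) (nat_lit 190)) (PT.lf (nat_lit 45448) (nat_lit 6) (nat_lit 598) (nat_lit 1) (nat_lit 210) (nat_lit 171) (nat_lit 189)))) (PT.nd (nat_lit 156) (PT.nd (nat_lit 78) (PT.lf (nat_lit 43776) (nat_lit 6) (nat_lit 576) (nat_lit 1) (nat_lit 211) (nat_lit 171) (nat_lit 188)) (PT.lf (nat_lit 42028) (nat_lit 6) (nat_lit 553) (nat_lit 1) (nat_lit 212) (nat_lit 171) (nat_lit 187))) (PT.nd (nat_lit 78) (PT.lf (nat_lit 40204) (nat_lit 6) (nat_lit 529) (nat_lit 1) (nat_lit 213) (nat_lit 171) (nat_lit 186)) (PT.lf (nat_lit 38304) (nat_lit 6) (nat_lit 504) (nat_lit 1) (nat_lit 214) (nat_lit 171) (nat_lit 185)))))) (PT.nd (nat_lit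 546) (PT.nd (nat_lit 234) (PT.nd (nat_lit 78) (PT.lf (nat_lit 38228) (nat_lit 6) (nat_lit 503) (nat_lit 3) (nat_lit 184) (nat_lit 172) (nat_lit 214)) (PT.nd (nat_lit 78) (PT.lf (nat_lit 40128) (nat_lit 6) (nat_lit 528) (nat_lit 3) (nat_lit 185) (nat_lit 172) (nat_lit 213)) (PT.lf (nat_lit 41952) (nat_lit 6) (nat_lit 552) (nat_lit 3) (nat_lit 186) (nat_lit 172) (nat_lit 212)))) (PT.nd (nat_lit 156) (PT.nd (nat_lit 78) (PT.lf (nat_lit 43700) (nat_lit 6) (nat_lit 575) (nat_lit 3) (nat_lit 187) (nat_lit 172) (nat_lit 211)) (PT.lf (nat_lit 45372) (nat_lit 6) (nat_lit 597) (nat_lit 3) (nat_lit 188) (nat_lit 172) (nat_lit 210))) (PT.nd (nat_lit 78) (PT.lf (nat_lit 46968) (nat_lit 6) (nat_lit 618) (nat_lit 3) (nat_lit 189) (nat_lit 172) (nat_lit 209)) (PT.lf (nat_lit 48488) (nat_lit 6) (nat_lit 638) (nat_lit 3) (nat_lit 190) (nat_lit 172) (nat_lit 208))))) (PT.nd (nat_lit 312) (PT.nd (nat_lit 156) (PT.nd (nat_lit 78) (PT.lf (nat_lit 48564) (nat_lit 6) (nat_lit 639) (nat_lit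 3) (nat_lit 191) (nat_lit 172) (nat_lit 207)) (PT.lf (nat_lit 48640) (nat_lit 6) (nat_lit 640) (nat_lit 3) (nat_lit 192) (nat_lit 172) (nat_lit 206))) (PT.nd (nat_lit 78) (PT.lf (nat_lit 48716) (nat_lit 6) (nat_lit 641) (nat_lit 3) (nat_lit 193) (nat_lit 172) (nat_lit 205)) (PT.lf (nat_lit 48792) (nat_lit 6) (nat_lit 642) (nat_lit 3) (nat_lit 194) (nat_lit 172) (nat_lit 204)))) (PT.nd (nat_lit 156) (PT.nd (nat_lit 78) (PT.lf (nat_lit 48868) (nat_lit 6) (nat_lit 643) (nat_lit 3) (nat_lit 195) (nat_lit 172) (nat_lit 203)) (PT.lf (nat_lit 48944) (nat_lit 6) (nat_lit 644) (nat_lit 3) (nat_lit 196) (nat_lit 172) (nat_lit 202))) (PT.nd (nat_lit 78) (PT.lf (nat_lit 49020) (nat_lit 6) (nat_lit 645) (nat_lit 3) (nat_lit 197) (nat_lit 172) (nat_lit 201)) (PT.lf (nat_lit 49096) (nat_lit 6) (nat_lit 646) (nat_lit 3) (nat_lit 198) (nat_lit 172) (nat_lit 200))))))) (PT.nd (nat_lit 1170) (PT.nd (nat_lit 546) (PT.nd (nat_lit 234) (PT.nd (nat_lit 78) (PT.lf (nat_lit 49172) (nat_lit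 3) (nat_lit 647) (nat_lit 1) (nat_lit 199) (nat_lit 172) (nat_lit 199)) (PT.nd (nat_lit 78) (PT.lf (nat_lit 49096) (nat_lit 6) (nat_lit 646) (nat_lit 1) (nat_lit 200) (nat_lit 172) (nat_lit 198)) (PT.lf (nat_lit 49020) (nat_lit 6) (nat_lit 645) (nat_lit 1) (nat_lit 201) (nat_lit 172) (nat_lit 197)))) (PT.nd (nat_lit 156) (PT.nd (nat_lit 78) (PT.lf (nat_lit 48944) (nat_lit 6) (nat_lit 644) (nat_lit 1) (nat_lit 202) (nat_lit 172) (nat_lit 196)) (PT.lf (nat_lit 48868) (nat_lit 6) (nat_lit 643) (nat_lit 1) (nat_lit 203) (nat_lit 172) (nat_lit 195))) (PT.nd (nat_lit 78) (PT.lf (nat_lit 48792) (nat_lit 6) (nat_lit 642) (nat_lit 1) (nat_lit 204) (nat_lit 172) (nat_lit 194)) (PT.lf (nat_lit 48716) (nat_lit 6) (nat_lit 641) (nat_lit 1) (nat_lit 205) (nat_lit 172) (nat_lit 193))))) (PT.nd (nat_lit 312) (PT.nd (nat_lit 156) (PT.nd (nat_lit 78) (PT.lf (nat_lit 48640) (nat_lit 6) (nat_lit 640) (nat_lit 1) (nat_lit 206) (nat_lit 172) (nat_lit 192)) (PT.lf (nat_lit 48564) (nat_lit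 6) (nat_lit 639) (nat_lit 1) (nat_lit 207) (nat_lit 172) (nat_lit 191))) (PT.nd (nat_lit 78) (PT.lf (nat_lit 48488) (nat_lit 6) (nat_lit 638) (nat_lit 1) (nat_lit 208) (nat_lit 172) (nat_lit 190)) (PT.lf (nat_lit 46968) (nat_lit 6) (nat_lit 618) (nat_lit 1) (nat_lit 209) (nat_lit 172) (nat_lit 189)))) (PT.nd (nat_lit 156) (PT.nd (nat_lit 78) (PT.lf (nat_lit 45372) (nat_lit 6) (nat_lit 597) (nat_lit 1) (nat_lit 210) (nat_lit 172) (nat_lit 188)) (PT.lf (nat_lit 43700) (nat_lit 6) (nat_lit 575) (nat_lit 1) (nat_lit 211) (nat_lit 172) (nat_lit 187))) (PT.nd (nat_lit 78) (PT.lf (nat_lit 41952) (nat_lit 6) (nat_lit 552) (nat_lit 1) (nat_lit 212) (nat_lit 172) (nat_lit 186)) (PT.lf (nat_lit 40128) (nat_lit 6) (nat_lit 528) (nat_lit 1) (nat_lit 213) (nat_lit 172) (nat_lit 185)))))) (PT.nd (nat_lit 57486) (PT.nd (nat_lit 57174) (PT.nd (nat_lit 57018) (PT.nd (nat_lit 56940) (PT.lf (nat_lit 38228) (nat_lit 6) (nat_lit 503) (nat_lit 1) (nat_lit 214) (nat_lit 172) (nat_lit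 184)) (PT.lf (nat_lit 38152) (nat_lit 6) (nat_lit 502) (nat_lit 3) (nat_lit 183) (nat_lit 173) (nat_lit 214))) (PT.nd (nat_lit 78) (PT.lf (nat_lit 40052) (nat_lit 6) (nat_lit 527) (nat_lit 3) (nat_lit 184) (nat_lit 173) (nat_lit 213)) (PT.lf (nat_lit 41876) (nat_lit 6) (nat_lit 551) (nat_lit 3) (nat_lit 185) (nat_lit 173) (nat_lit 212)))) (PT.nd (nat_lit 156) (PT.nd (nat_lit 78) (PT.lf (nat_lit 43624) (nat_lit 6) (nat_lit 574) (nat_lit 3) (nat_lit 186) (nat_lit 173) (nat_lit 211)) (PT.lf (nat_lit 45296) (nat_lit 6) (nat_lit 596) (nat_lit 3) (nat_lit 187) (nat_lit 173) (nat_lit 210))) (PT.nd (nat_lit 78) (PT.lf (nat_lit 46892) (nat_lit 6) (nat_lit 617) (nat_lit 3) (nat_lit 188) (nat_lit 173) (nat_lit 209)) (PT.lf (nat_lit 48412) (nat_lit 6) (nat_lit 637) (nat_lit 3) (nat_lit 189) (nat_lit 173) (nat_lit 208))))) (PT.nd (nat_lit 312) (PT.nd (nat_lit 156) (PT.nd (nat_lit 78) (PT.lf (nat_lit 49856) (nat_lit 6) (nat_lit 656) (nat_lit 3) (nat_lit 190) (nat_lit 173)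 (nat_lit 207)) (PT.lf (nat_lit 49932) (nat_lit 6) (nat_lit 657) (nat_lit 3) (nat_lit 191) (nat_lit 173) (nat_lit 206))) (PT.nd (nat_lit 78) (PT.lf (nat_lit 50008) (nat_lit 6) (nat_lit 658) (nat_lit 3) (nat_lit 192) (nat_lit 173) (nat_lit 205)) (PT.lf (nat_lit 50084) (nat_lit 6) (nat_lit 659) (nat_lit 3) (nat_lit 193) (nat_lit 173) (nat_lit 204)))) (PT.nd (nat_lit 156) (PT.nd (nat_lit 78) (PT.lf (nat_lit 50160) (nat_lit 6) (nat_lit 660) (nat_lit 3) (nat_lit 194) (nat_lit 173) (nat_lit 203)) (PT.lf (nat_lit 50236) (nat_lit 6) (nat_lit 661) (nat_lit 3) (nat_lit 195) (nat_lit 173) (nat_lit 202))) (PT.nd (nat_lit 78) (PT.lf (nat_lit 50312) (nat_lit 6) (nat_lit 662) (nat_lit 3) (nat_lit 196) (nat_lit 173) (nat_lit 201)) (PT.lf (nat_lit 50388) (nat_lit 6) (nat_lit 663) (nat_lit 3) (nat_lit 197) (nat_lit 173) (nat_lit 200))))))))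
noncomputable def pc15 : PT := (PT.nd (nat_lit 59202) (PT.nd (nat_lit 1170) (PT.nd (nat_lit 546) (PT.nd (nat_lit 234) (PT.nd (nat_lit 78) (PT.lf (nat_lit 50464) (nat_lit 6) (nat_lit 664) (nat_lit 3) (nat_lit 198) (nat_lit 173) (nat_lit 199)) (PT.nd (nat_lit 78) (PT.lf (nat_lit 50464) (nat_lit 6) (nat_lit 664) (nat_lit 1) (nat_lit 199) (nat_lit 173) (nat_lit 198)) (PT.lf (nat_lit 50388) (nat_lit 6) (nat_lit 663) (nat_lit 1) (nat_lit 200) (nat_lit 173) (nat_lit 197)))) (PT.nd (nat_lit 156) (PT.nd (nat_lit 78) (PT.lf (nat_lit 50312) (nat_lit 6) (nat_lit 662) (nat_lit 1) (nat_lit 201) (nat_lit 173) (nat_lit 196)) (PT.lf (nat_lit 50236) (nat_lit 6) (nat_lit 661) (nat_lit 1) (nat_lit 202) (nat_lit 173) (nat_lit 195))) (PT.nd (nat_lit 78) (PT.lf (nat_lit 50160) (nat_lit 6) (nat_lit 660) (nat_lit 1) (nat_lit 203) (nat_lit 173) (nat_lit 194)) (PT.lf (nat_lit 50084) (nat_lit 6) (nat_lit 659) (nat_lit 1) (nat_lit 204) (nat_lit 173) (nat_lit 193))))) (PT.nd (nat_lit 312)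 (PT.nd (nat_lit 156) (PT.nd (nat_lit 78) (PT.lf (nat_lit 50008) (nat_lit 6) (nat_lit 658) (nat_lit 1) (nat_lit 205) (nat_lit 173) (nat_lit 192)) (PT.lf (nat_lit 49932) (nat_lit 6) (nat_lit 657) (nat_lit 1) (nat_lit 206) (nat_lit 173) (nat_lit 191))) (PT.nd (nat_lit 78) (PT.lf (nat_lit 49856) (nat_lit 6) (nat_lit 656) (nat_lit 1) (nat_lit 207) (nat_lit 173) (nat_lit 190)) (PT.lf (nat_lit 48412) (nat_lit 6) (nat_lit 637) (nat_lit 1) (nat_lit 208) (nat_lit 173) (nat_lit 189)))) (PT.nd (nat_lit 156) (PT.nd (nat_lit 78) (PT.lf (nat_lit 46892) (nat_lit 6) (nat_lit 617) (nat_lit 1) (nat_lit 209) (nat_lit 173) (nat_lit 188)) (PT.lf (nat_lit 45296) (nat_lit 6) (nat_lit 596) (nat_lit 1) (nat_lit 210) (nat_lit 173) (nat_lit 187))) (PT.nd (nat_lit 78) (PT.lf (nat_lit 43624) (nat_lit 6) (nat_lit 574) (nat_lit 1) (nat_lit 211) (nat_lit 173) (nat_lit 186)) (PT.lf (nat_lit 41876) (nat_lit 6) (nat_lit 551) (nat_lit 1) (nat_lit 212) (nat_lit 173) (nat_lit 185)))))) (PT.nd (nat_lit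 57408) (PT.nd (nat_lit 57096) (PT.nd (nat_lit 56940) (PT.nd (nat_lit 78) (PT.lf (nat_lit 40052) (nat_lit 6) (nat_lit 527) (nat_lit 1) (nat_lit 213) (nat_lit 173) (nat_lit 184)) (PT.lf (nat_lit 38152) (nat_lit 6) (nat_lit 502) (nat_lit 1) (nat_lit 214) (nat_lit 173) (nat_lit 183))) (PT.nd (nat_lit 78) (PT.lf (nat_lit 38076) (nat_lit 6) (nat_lit 501) (nat_lit 3) (nat_lit 182) (nat_lit 174) (nat_lit 214)) (PT.lf (nat_lit 39976) (nat_lit 6) (nat_lit 526) (nat_lit 3) (nat_lit 183) (nat_lit 174) (nat_lit 213)))) (PT.nd (nat_lit 156) (PT.nd (nat_lit 78) (PT.lf (nat_lit 41800) (nat_lit 6) (nat_lit 550) (nat_lit 3) (nat_lit 184) (nat_lit 174) (nat_lit 212)) (PT.lf (nat_lit 43548) (nat_lit 6) (nat_lit 573) (nat_lit 3) (nat_lit 185) (nat_lit 174) (nat_lit 211))) (PT.nd (nat_lit 78) (PT.lf (nat_lit 45220) (nat_lit 6) (nat_lit 595) (nat_lit 3) (nat_lit 186) (nat_lit 174) (nat_lit 210)) (PT.lf (nat_lit 46816) (nat_lit 6) (nat_lit 616) (nat_lit 3) (nat_lit 187) (nat_lit 174)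 (nat_lit 209))))) (PT.nd (nat_lit 312) (PT.nd (nat_lit 156) (PT.nd (nat_lit 78) (PT.lf (nat_lit 48336) (nat_lit 6) (nat_lit 636) (nat_lit 3) (nat_lit 188) (nat_lit 174) (nat_lit 208)) (PT.lf (nat_lit 49780) (nat_lit 6) (nat_lit 655) (nat_lit 3) (nat_lit 189) (nat_lit 174) (nat_lit 207))) (PT.nd (nat_lit 78) (PT.lf (nat_lit 51148) (nat_lit 6) (nat_lit 673) (nat_lit 3) (nat_lit 190) (nat_lit 174) (nat_lit 206)) (PT.lf (nat_lit 51224) (nat_lit 6) (nat_lit 674) (nat_lit 3) (nat_lit 191) (nat_lit 174) (nat_lit 205)))) (PT.nd (nat_lit 156) (PT.nd (nat_lit 78) (PT.lf (nat_lit 51300) (nat_lit 6) (nat_lit 675) (nat_lit 3) (nat_lit 192) (nat_lit 174) (nat_lit 204)) (PT.lf (nat_lit 51376) (nat_lit 6) (nat_lit 676) (nat_lit 3) (nat_lit 193) (nat_lit 174) (nat_lit 203))) (PT.nd (nat_lit 78) (PT.lf (nat_lit 51452) (nat_lit 6) (nat_lit 677) (nat_lit 3) (nat_lit 194) (nat_lit 174) (nat_lit 202)) (PT.lf (nat_lit 51528) (nat_lit 6) (nat_lit 678) (nat_lit 3) (nat_lit 195) (nat_lit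 174) (nat_lit 201))))))) (PT.nd (nat_lit 1170) (PT.nd (nat_lit 546) (PT.nd (nat_lit 234) (PT.nd (nat_lit 78) (PT.lf (nat_lit 51604) (nat_lit 6) (nat_lit 679) (nat_lit 3) (nat_lit 196) (nat_lit 174) (nat_lit 200)) (PT.nd (nat_lit 78) (PT.lf (nat_lit 51680) (nat_lit 6) (nat_lit 680) (nat_lit 3) (nat_lit 197) (nat_lit 174) (nat_lit 199)) (PT.lf (nat_lit 51756) (nat_lit 3) (nat_lit 681) (nat_lit 1) (nat_lit 198) (nat_lit 174) (nat_lit 198)))) (PT.nd (nat_lit 156) (PT.nd (nat_lit 78) (PT.lf (nat_lit 51680) (nat_lit 6) (nat_lit 680) (nat_lit 1) (nat_lit 199) (nat_lit 174) (nat_lit 197)) (PT.lf (nat_lit 51604) (nat_lit 6) (nat_lit 679) (nat_lit 1) (nat_lit 200) (nat_lit 174) (nat_lit 196))) (PT.nd (nat_lit 78) (PT.lf (nat_lit 51528) (nat_lit 6) (nat_lit 678) (nat_lit 1) (nat_lit 201) (nat_lit 174) (nat_lit 195)) (PT.lf (nat_lit 51452) (nat_lit 6) (nat_lit 677) (nat_lit 1) (nat_lit 202) (nat_lit 174) (nat_lit 194))))) (PT.nd (nat_lit 312) (PT.nd (nat_lit 156) (PT.nd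 (nat_lit 78) (PT.lf (nat_lit 51376) (nat_lit 6) (nat_lit 676) (nat_lit 1) (nat_lit 203) (nat_lit 174) (nat_lit 193)) (PT.lf (nat_lit 51300) (nat_lit 6) (nat_lit 675) (nat_lit 1) (nat_lit 204) (nat_lit 174) (nat_lit 192))) (PT.nd (nat_lit 78) (PT.lf (nat_lit 51224) (nat_lit 6) (nat_lit 674) (nat_lit 1) (nat_lit 205) (nat_lit 174) (nat_lit 191)) (PT.lf (nat_lit 51148) (nat_lit 6) (nat_lit 673) (nat_lit 1) (nat_lit 206) (nat_lit 174) (nat_lit 190)))) (PT.nd (nat_lit 156) (PT.nd (nat_lit 78) (PT.lf (nat_lit 49780) (nat_lit 6) (nat_lit 655) (nat_lit 1) (nat_lit 207) (nat_lit 174) (nat_lit 189)) (PT.lf (nat_lit 48336) (nat_lit 6) (nat_lit 636) (nat_lit 1) (nat_lit 208) (nat_lit 174) (nat_lit 188))) (PT.nd (nat_lit 78) (PT.lf (nat_lit 46816) (nat_lit 6) (nat_lit 616) (nat_lit 1) (nat_lit 209) (nat_lit 174) (nat_lit 187)) (PT.lf (nat_lit 45220) (nat_lit 6) (nat_lit 595) (nat_lit 1) (nat_lit 210) (nat_lit 174) (nat_lit 186)))))) (PT.nd (nat_lit 57330) (PT.nd (nat_lit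 57018) (PT.nd (nat_lit 156) (PT.nd (nat_lit 78) (PT.lf (nat_lit 43548) (nat_lit 6) (nat_lit 573) (nat_lit 1) (nat_lit 211) (nat_lit 174) (nat_lit 185)) (PT.lf (nat_lit 41800) (nat_lit 6) (nat_lit 550) (nat_lit 1) (nat_lit 212) (nat_lit 174) (nat_lit 184))) (PT.nd (nat_lit 78) (PT.lf (nat_lit 39976) (nat_lit 6) (nat_lit 526) (nat_lit 1) (nat_lit 213) (nat_lit 174) (nat_lit 183)) (PT.lf (nat_lit 38076) (nat_lit 6) (nat_lit 501) (nat_lit 1) (nat_lit 214) (nat_lit 174) (nat_lit 182)))) (PT.nd (nat_lit 156) (PT.nd (nat_lit 78) (PT.lf (nat_lit 38000) (nat_lit 6) (nat_lit 500) (nat_lit 3) (nat_lit 181) (nat_lit 175) (nat_lit 214)) (PT.lf (nat_lit 39900) (nat_lit 6) (nat_lit 525) (nat_lit 3) (nat_lit 182) (nat_lit 175) (nat_lit 213))) (PT.nd (nat_lit 78) (PT.lf (nat_lit 41724) (nat_lit 6) (nat_lit 549) (nat_lit 3) (nat_lit 183) (nat_lit 175) (nat_lit 212)) (PT.lf (nat_lit 43472) (nat_lit 6) (nat_lit 572) (nat_lit 3) (nat_lit 184) (nat_lit 175) (nat_lit 211))))) (PT.nd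 (nat_lit 312) (PT.nd (nat_lit 156) (PT.nd (nat_lit 78) (PT.lf (nat_lit 45144) (nat_lit 6) (nat_lit 594) (nat_lit 3) (nat_lit 185) (nat_lit 175) (nat_lit 210)) (PT.lf (nat_lit 46740) (nat_lit 6) (nat_lit 615) (nat_lit 3) (nat_lit 186) (nat_lit 175) (nat_lit 209))) (PT.nd (nat_lit 78) (PT.lf (nat_lit 48260) (nat_lit 6) (nat_lit 635) (nat_lit 3) (nat_lit 187) (nat_lit 175) (nat_lit 208)) (PT.lf (nat_lit 49704) (nat_lit 6) (nat_lit 654) (nat_lit 3) (nat_lit 188) (nat_lit 175) (nat_lit 207)))) (PT.nd (nat_lit 156) (PT.nd (nat_lit 78) (PT.lf (nat_lit 51072) (nat_lit 6) (nat_lit 672) (nat_lit 3) (nat_lit 189) (nat_lit 175) (nat_lit 206)) (PT.lf (nat_lit 52364) (nat_lit 6) (nat_lit 689) (nat_lit 3) (nat_lit 190) (nat_lit 175) (nat_lit 205))) (PT.nd (nat_lit 78) (PT.lf (nat_lit 52440) (nat_lit 6) (nat_lit 690) (nat_lit 3) (nat_lit 191) (nat_lit 175) (nat_lit 204)) (PT.lf (nat_lit 52516) (nat_lit 6) (nat_lit 691) (nat_lit 3) (nat_lit 192) (nat_lit 175) (nat_lit 203))))))))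
noncomputable def pc16 : PT := (PT.nd (nat_lit 58968) (PT.nd (nat_lit 1170) (PT.nd (nat_lit 546) (PT.nd (nat_lit 234) (PT.nd (nat_lit 78) (PT.lf (nat_lit 52592) (nat_lit 6) (nat_lit 692) (nat_lit 3) (nat_lit 193) (nat_lit 175) (nat_lit 202)) (PT.nd (nat_lit 78) (PT.lf (nat_lit 52668) (nat_lit 6) (nat_lit 693) (nat_lit 3) (nat_lit 194) (nat_lit 175) (nat_lit 201)) (PT.lf (nat_lit 52744) (nat_lit 6) (nat_lit 694) (nat_lit 3) (nat_lit 195) (nat_lit 175) (nat_lit 200)))) (PT.nd (nat_lit 156) (PT.nd (nat_lit 78) (PT.lf (nat_lit 52820) (nat_lit 6) (nat_lit 695) (nat_lit 3) (nat_lit 196) (nat_lit 175) (nat_lit 199)) (PT.lf (nat_lit 52896) (nat_lit 6) (nat_lit 696) (nat_lit 3) (nat_lit 197) (nat_lit 175) (nat_lit 198))) (PT.nd (nat_lit 78) (PT.lf (nat_lit 52896) (nat_lit 6) (nat_lit 696) (nat_lit 1) (nat_lit 198) (nat_lit 175) (nat_lit 197)) (PT.lf (nat_lit 52820) (nat_lit 6) (nat_lit 695) (nat_lit 1) (nat_lit 199) (nat_lit 175) (nat_lit 196))))) (PT.nd (nat_lit 312)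 (PT.nd (nat_lit 156) (PT.nd (nat_lit 78) (PT.lf (nat_lit 52744) (nat_lit 6) (nat_lit 694) (nat_lit 1) (nat_lit 200) (nat_lit 175) (nat_lit 195)) (PT.lf (nat_lit 52668) (nat_lit 6) (nat_lit 693) (nat_lit 1) (nat_lit 201) (nat_lit 175) (nat_lit 194))) (PT.nd (nat_lit 78) (PT.lf (nat_lit 52592) (nat_lit 6) (nat_lit 692) (nat_lit 1) (nat_lit 202) (nat_lit 175) (nat_lit 193)) (PT.lf (nat_lit 52516) (nat_lit 6) (nat_lit 691) (nat_lit 1) (nat_lit 203) (nat_lit 175) (nat_lit 192)))) (PT.nd (nat_lit 156) (PT.nd (nat_lit 78) (PT.lf (nat_lit 52440) (nat_lit 6) (nat_lit 690) (nat_lit 1) (nat_lit 204) (nat_lit 175) (nat_lit 191)) (PT.lf (nat_lit 52364) (nat_lit 6) (nat_lit 689) (nat_lit 1) (nat_lit 205) (nat_lit 175) (nat_lit 190))) (PT.nd (nat_lit 78) (PT.lf (nat_lit 51072) (nat_lit 6) (nat_lit 672) (nat_lit 1) (nat_lit 206) (nat_lit 175) (nat_lit 189)) (PT.lf (nat_lit 49704) (nat_lit 6) (nat_lit 654) (nat_lit 1) (nat_lit 207) (nat_lit 175) (nat_lit 188)))))) (PT.nd (nat_lit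 57174) (PT.nd (nat_lit 234) (PT.nd (nat_lit 78) (PT.lf (nat_lit 48260) (nat_lit 6) (nat_lit 635) (nat_lit 1) (nat_lit 208) (nat_lit 175) (nat_lit 187)) (PT.nd (nat_lit 78) (PT.lf (nat_lit 46740) (nat_lit 6) (nat_lit 615) (nat_lit 1) (nat_lit 209) (nat_lit 175) (nat_lit 186)) (PT.lf (nat_lit 45144) (nat_lit 6) (nat_lit 594) (nat_lit 1) (nat_lit 210) (nat_lit 175) (nat_lit 185)))) (PT.nd (nat_lit 156) (PT.nd (nat_lit 78) (PT.lf (nat_lit 43472) (nat_lit 6) (nat_lit 572) (nat_lit 1) (nat_lit 211) (nat_lit 175) (nat_lit 184)) (PT.lf (nat_lit 41724) (nat_lit 6) (nat_lit 549) (nat_lit 1) (nat_lit 212) (nat_lit 175) (nat_lit 183))) (PT.nd (nat_lit 78) (PT.lf (nat_lit 39900) (nat_lit 6) (nat_lit 525) (nat_lit 1) (nat_lit 213) (nat_lit 175) (nat_lit 182)) (PT.lf (nat_lit 38000) (nat_lit 6) (nat_lit 500) (nat_lit 1) (nat_lit 214) (nat_lit 175) (nat_lit 181))))) (PT.nd (nat_lit 312) (PT.nd (nat_lit 156) (PT.nd (nat_lit 78) (PT.lf (nat_lit 37924) (nat_lit 6) (nat_lit 499)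 (nat_lit 3) (nat_lit 180) (nat_lit 176) (nat_lit 214)) (PT.lf (nat_lit 39824) (nat_lit 6) (nat_lit 524) (nat_lit 3) (nat_lit 181) (nat_lit 176) (nat_lit 213))) (PT.nd (nat_lit 78) (PT.lf (nat_lit 41648) (nat_lit 6) (nat_lit 548) (nat_lit 3) (nat_lit 182) (nat_lit 176) (nat_lit 212)) (PT.lf (nat_lit 43396) (nat_lit 6) (nat_lit 571) (nat_lit 3) (nat_lit 183) (nat_lit 176) (nat_lit 211)))) (PT.nd (nat_lit 156) (PT.nd (nat_lit 78) (PT.lf (nat_lit 45068) (nat_lit 6) (nat_lit 593) (nat_lit 3) (nat_lit 184) (nat_lit 176) (nat_lit 210)) (PT.lf (nat_lit 46664) (nat_lit 6) (nat_lit 614) (nat_lit 3) (nat_lit 185) (nat_lit 176) (nat_lit 209))) (PT.nd (nat_lit 78) (PT.lf (nat_lit 48184) (nat_lit 6) (nat_lit 634) (nat_lit 3) (nat_lit 186) (nat_lit 176) (nat_lit 208)) (PT.lf (nat_lit 49628) (nat_lit 6) (nat_lit 653) (nat_lit 3) (nat_lit 187) (nat_lit 176) (nat_lit 207))))))) (PT.nd (nat_lit 1170) (PT.nd (nat_lit 546) (PT.nd (nat_lit 234) (PT.nd (nat_lit 78) (PT.lf (nat_lit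 50996) (nat_lit 6) (nat_lit 671) (nat_lit 3) (nat_lit 188) (nat_lit 176) (nat_lit 206)) (PT.nd (nat_lit 78) (PT.lf (nat_lit 52288) (nat_lit 6) (nat_lit 688) (nat_lit 3) (nat_lit 189) (nat_lit 176) (nat_lit 205)) (PT.lf (nat_lit 53504) (nat_lit 6) (nat_lit 704) (nat_lit 3) (nat_lit 190) (nat_lit 176) (nat_lit 204)))) (PT.nd (nat_lit 156) (PT.nd (nat_lit 78) (PT.lf (nat_lit 53580) (nat_lit 6) (nat_lit 705) (nat_lit 3) (nat_lit 191) (nat_lit 176) (nat_lit 203)) (PT.lf (nat_lit 53656) (nat_lit 6) (nat_lit 706) (nat_lit 3) (nat_lit 192) (nat_lit 176) (nat_lit 202))) (PT.nd (nat_lit 78) (PT.lf (nat_lit 53732) (nat_lit 6) (nat_lit 707) (nat_lit 3) (nat_lit 193) (nat_lit 176) (nat_lit 201)) (PT.lf (nat_lit 53808) (nat_lit 6) (nat_lit 708) (nat_lit 3) (nat_lit 194) (nat_lit 176) (nat_lit 200))))) (PT.nd (nat_lit 312) (PT.nd (nat_lit 156) (PT.nd (nat_lit 78) (PT.lf (nat_lit 53884) (nat_lit 6) (nat_lit 709) (nat_lit 3) (nat_lit 195) (nat_lit 176) (nat_lit 199)) (PT.lf (nat_lit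 53960) (nat_lit 6) (nat_lit 710) (nat_lit 3) (nat_lit 196) (nat_lit 176) (nat_lit 198))) (PT.nd (nat_lit 78) (PT.lf (nat_lit 54036) (nat_lit 3) (nat_lit 711) (nat_lit 1) (nat_lit 197) (nat_lit 176) (nat_lit 197)) (PT.lf (nat_lit 53960) (nat_lit 6) (nat_lit 710) (nat_lit 1) (nat_lit 198) (nat_lit 176) (nat_lit 196)))) (PT.nd (nat_lit 156) (PT.nd (nat_lit 78) (PT.lf (nat_lit 53884) (nat_lit 6) (nat_lit 709) (nat_lit 1) (nat_lit 199) (nat_lit 176) (nat_lit 195)) (PT.lf (nat_lit 53808) (nat_lit 6) (nat_lit 708) (nat_lit 1) (nat_lit 200) (nat_lit 176) (nat_lit 194))) (PT.nd (nat_lit 78) (PT.lf (nat_lit 53732) (nat_lit 6) (nat_lit 707) (nat_lit 1) (nat_lit 201) (nat_lit 176) (nat_lit 193)) (PT.lf (nat_lit 53656) (nat_lit 6) (nat_lit 706) (nat_lit 1) (nat_lit 202) (nat_lit 176) (nat_lit 192)))))) (PT.nd (nat_lit 624) (PT.nd (nat_lit 312) (PT.nd (nat_lit 156) (PT.nd (nat_lit 78) (PT.lf (nat_lit 53580) (nat_lit 6) (nat_lit 705) (nat_lit 1) (nat_lit 203) (nat_lit 176)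 (nat_lit 191)) (PT.lf (nat_lit 53504) (nat_lit 6) (nat_lit 704) (nat_lit 1) (nat_lit 204) (nat_lit 176) (nat_lit 190))) (PT.nd (nat_lit 78) (PT.lf (nat_lit 52288) (nat_lit 6) (nat_lit 688) (nat_lit 1) (nat_lit 205) (nat_lit 176) (nat_lit 189)) (PT.lf (nat_lit 50996) (nat_lit 6) (nat_lit 671) (nat_lit 1) (nat_lit 206) (nat_lit 176) (nat_lit 188)))) (PT.nd (nat_lit 156) (PT.nd (nat_lit 78) (PT.lf (nat_lit 49628) (nat_lit 6) (nat_lit 653) (nat_lit 1) (nat_lit 207) (nat_lit 176) (nat_lit 187)) (PT.lf (nat_lit 48184) (nat_lit 6) (nat_lit 634) (nat_lit 1) (nat_lit 208) (nat_lit 176) (nat_lit 186))) (PT.nd (nat_lit 78) (PT.lf (nat_lit 46664) (nat_lit 6) (nat_lit 614) (nat_lit 1) (nat_lit 209) (nat_lit 176) (nat_lit 185)) (PT.lf (nat_lit 45068) (nat_lit 6) (nat_lit 593) (nat_lit 1) (nat_lit 210) (nat_lit 176) (nat_lit 184))))) (PT.nd (nat_lit 56862) (PT.nd (nat_lit 156) (PT.nd (nat_lit 78) (PT.lf (nat_lit 43396) (nat_lit 6) (nat_lit 571) (nat_lit 1) (nat_lit 211) (nat_lit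 176) (nat_lit 183)) (PT.lf (nat_lit 41648) (nat_lit 6) (nat_lit 548) (nat_lit 1) (nat_lit 212) (nat_lit 176) (nat_lit 182))) (PT.nd (nat_lit 78) (PT.lf (nat_lit 39824) (nat_lit 6) (nat_lit 524) (nat_lit 1) (nat_lit 213) (nat_lit 176) (nat_lit 181)) (PT.lf (nat_lit 37924) (nat_lit 6) (nat_lit 499) (nat_lit 1) (nat_lit 214) (nat_lit 176) (nat_lit 180)))) (PT.nd (nat_lit 156) (PT.nd (nat_lit 78) (PT.lf (nat_lit 37848) (nat_lit 6) (nat_lit 498) (nat_lit 3) (nat_lit 179) (nat_lit 177) (nat_lit 214)) (PT.lf (nat_lit 39748) (nat_lit 6) (nat_lit 523) (nat_lit 3) (nat_lit 180) (nat_lit 177) (nat_lit 213))) (PT.nd (nat_lit 78) (PT.lf (nat_lit 41572) (nat_lit 6) (nat_lit 547) (nat_lit 3) (nat_lit 181) (nat_lit 177) (nat_lit 212)) (PT.lf (nat_lit 43320) (nat_lit 6) (nat_lit 570) (nat_lit 3) (nat_lit 182) (nat_lit 177) (nat_lit 211))))))))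
noncomputable def pc17 : PT := (PT.nd (nat_lit 2340) (PT.nd (nat_lit 1170) (PT.nd (nat_lit 546) (PT.nd (nat_lit 234) (PT.nd (nat_lit 78) (PT.lf (nat_lit 44992) (nat_lit 6) (nat_lit 592) (nat_lit 3) (nat_lit 183) (nat_lit 177) (nat_lit 210)) (PT.nd (nat_lit 78) (PT.lf (nat_lit 46588) (nat_lit 6) (nat_lit 613) (nat_lit 3) (nat_lit 184) (nat_lit 177) (nat_lit 209)) (PT.lf (nat_lit 48108) (nat_lit 6) (nat_lit 633) (nat_lit 3) (nat_lit 185) (nat_lit 177) (nat_lit 208)))) (PT.nd (nat_lit 156) (PT.nd (nat_lit 78) (PT.lf (nat_lit 49552) (nat_lit 6) (nat_lit 652) (nat_lit 3) (nat_lit 186) (nat_lit 177) (nat_lit 207)) (PT.lf (nat_lit 50920) (nat_lit 6) (nat_lit 670) (nat_lit 3) (nat_lit 187) (nat_lit 177) (nat_lit 206))) (PT.nd (nat_lit 78) (PT.lf (nat_lit 52212) (nat_lit 6) (nat_lit 687) (nat_lit 3) (nat_lit 188) (nat_lit 177) (nat_lit 205)) (PT.lf (nat_lit 53428) (nat_lit 6) (nat_lit 703) (nat_lit 3) (nat_lit 189) (nat_lit 177) (nat_lit 204))))) (PT.nd (nat_lit 312)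 (PT.nd (nat_lit 156) (PT.nd (nat_lit 78) (PT.lf (nat_lit 54568) (nat_lit 6) (nat_lit 718) (nat_lit 3) (nat_lit 190) (nat_lit 177) (nat_lit 203)) (PT.lf (nat_lit 54644) (nat_lit 6) (nat_lit 719) (nat_lit 3) (nat_lit 191) (nat_lit 177) (nat_lit 202))) (PT.nd (nat_lit 78) (PT.lf (nat_lit 54720) (nat_lit 6) (nat_lit 720) (nat_lit 3) (nat_lit 192) (nat_lit 177) (nat_lit 201)) (PT.lf (nat_lit 54796) (nat_lit 6) (nat_lit 721) (nat_lit 3) (nat_lit 193) (nat_lit 177) (nat_lit 200)))) (PT.nd (nat_lit 156) (PT.nd (nat_lit 78) (PT.lf (nat_lit 54872) (nat_lit 6) (nat_lit 722) (nat_lit 3) (nat_lit 194) (nat_lit 177) (nat_lit 199)) (PT.lf (nat_lit 54948) (nat_lit 6) (nat_lit 723) (nat_lit 3) (nat_lit 195) (nat_lit 177) (nat_lit 198))) (PT.nd (nat_lit 78) (PT.lf (nat_lit 55024) (nat_lit 6) (nat_lit 724) (nat_lit 3) (nat_lit 196) (nat_lit 177) (nat_lit 197)) (PT.lf (nat_lit 55024) (nat_lit 6) (nat_lit 724) (nat_lit 1) (nat_lit 197) (nat_lit 177) (nat_lit 196)))))) (PT.nd (nat_lit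 546) (PT.nd (nat_lit 234) (PT.nd (nat_lit 78) (PT.lf (nat_lit 54948) (nat_lit 6) (nat_lit 723) (nat_lit 1) (nat_lit 198) (nat_lit 177) (nat_lit 195)) (PT.nd (nat_lit 78) (PT.lf (nat_lit 54872) (nat_lit 6) (nat_lit 722) (nat_lit 1) (nat_lit 199) (nat_lit 177) (nat_lit 194)) (PT.lf (nat_lit 54796) (nat_lit 6) (nat_lit 721) (nat_lit 1) (nat_lit 200) (nat_lit 177) (nat_lit 193)))) (PT.nd (nat_lit 156) (PT.nd (nat_lit 78) (PT.lf (nat_lit 54720) (nat_lit 6) (nat_lit 720) (nat_lit 1) (nat_lit 201) (nat_lit 177) (nat_lit 192)) (PT.lf (nat_lit 54644) (nat_lit 6) (nat_lit 719) (nat_lit 1) (nat_lit 202) (nat_lit 177) (nat_lit 191))) (PT.nd (nat_lit 78) (PT.lf (nat_lit 54568) (nat_lit 6) (nat_lit 718) (nat_lit 1) (nat_lit 203) (nat_lit 177) (nat_lit 190)) (PT.lf (nat_lit 53428) (nat_lit 6) (nat_lit 703) (nat_lit 1) (nat_lit 204) (nat_lit 177) (nat_lit 189))))) (PT.nd (nat_lit 312) (PT.nd (nat_lit 156) (PT.nd (nat_lit 78) (PT.lf (nat_lit 52212) (nat_lit 6) (nat_lit 687) (nat_lit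 1) (nat_lit 205) (nat_lit 177) (nat_lit 188)) (PT.lf (nat_lit 50920) (nat_lit 6) (nat_lit 670) (nat_lit 1) (nat_lit 206) (nat_lit 177) (nat_lit 187))) (PT.nd (nat_lit 78) (PT.lf (nat_lit 49552) (nat_lit 6) (nat_lit 652) (nat_lit 1) (nat_lit 207) (nat_lit 177) (nat_lit 186)) (PT.lf (nat_lit 48108) (nat_lit 6) (nat_lit 633) (nat_lit 1) (nat_lit 208) (nat_lit 177) (nat_lit 185)))) (PT.nd (nat_lit 156) (PT.nd (nat_lit 78) (PT.lf (nat_lit 46588) (nat_lit 6) (nat_lit 613) (nat_lit 1) (nat_lit 209) (nat_lit 177) (nat_lit 184)) (PT.lf (nat_lit 44992) (nat_lit 6) (nat_lit 592) (nat_lit 1) (nat_lit 210) (nat_lit 177) (nat_lit 183))) (PT.nd (nat_lit 78) (PT.lf (nat_lit 43320) (nat_lit 6) (nat_lit 570) (nat_lit 1) (nat_lit 211) (nat_lit 177) (nat_lit 182)) (PT.lf (nat_lit 41572) (nat_lit 6) (nat_lit 547) (nat_lit 1) (nat_lit 212) (nat_lit 177) (nat_lit 181))))))) (PT.nd (nat_lit 57642) (PT.nd (nat_lit 57018) (PT.nd (nat_lit 56706) (PT.nd (nat_lit 78) (PT.lf (nat_lit 39748)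 (nat_lit 6) (nat_lit 523) (nat_lit 1) (nat_lit 213) (nat_lit 177) (nat_lit 180)) (PT.nd (nat_lit 56550) (PT.lf (nat_lit 37848) (nat_lit 6) (nat_lit 498) (nat_lit 1) (nat_lit 214) (nat_lit 177) (nat_lit 179)) (PT.lf (nat_lit 37772) (nat_lit 3) (nat_lit 497) (nat_lit 3) (nat_lit 178) (nat_lit 178) (nat_lit 214)))) (PT.nd (nat_lit 156) (PT.nd (nat_lit 78) (PT.lf (nat_lit 39672) (nat_lit 6) (nat_lit 522) (nat_lit 3) (nat_lit 179) (nat_lit 178) (nat_lit 213)) (PT.lf (nat_lit 41496) (nat_lit 6) (nat_lit 546) (nat_lit 3) (nat_lit 180) (nat_lit 178) (nat_lit 212))) (PT.nd (nat_lit 78) (PT.lf (nat_lit 43244) (nat_lit 6) (nat_lit 569) (nat_lit 3) (nat_lit 181) (nat_lit 178) (nat_lit 211)) (PT.lf (nat_lit 44916) (nat_lit 6) (nat_lit 591) (nat_lit 3) (nat_lit 182) (nat_lit 178) (nat_lit 210))))) (PT.nd (nat_lit 312) (PT.nd (nat_lit 156) (PT.nd (nat_lit 78) (PT.lf (nat_lit 46512) (nat_lit 6) (nat_lit 612) (nat_lit 3) (nat_lit 183) (nat_lit 178) (nat_lit 209)) (PT.lf (nat_lit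 48032) (nat_lit 6) (nat_lit 632) (nat_lit 3) (nat_lit 184) (nat_lit 178) (nat_lit 208))) (PT.nd (nat_lit 78) (PT.lf (nat_lit 49476) (nat_lit 6) (nat_lit 651) (nat_lit 3) (nat_lit 185) (nat_lit 178) (nat_lit 207)) (PT.lf (nat_lit 50844) (nat_lit 6) (nat_lit 669) (nat_lit 3) (nat_lit 186) (nat_lit 178) (nat_lit 206)))) (PT.nd (nat_lit 156) (PT.nd (nat_lit 78) (PT.lf (nat_lit 52136) (nat_lit 6) (nat_lit 686) (nat_lit 3) (nat_lit 187) (nat_lit 178) (nat_lit 205)) (PT.lf (nat_lit 53352) (nat_lit 6) (nat_lit 702) (nat_lit 3) (nat_lit 188) (nat_lit 178) (nat_lit 204))) (PT.nd (nat_lit 78) (PT.lf (nat_lit 54492) (nat_lit 6) (nat_lit 717) (nat_lit 3) (nat_lit 189) (nat_lit 178) (nat_lit 203)) (PT.lf (nat_lit 55556) (nat_lit 6) (nat_lit 731) (nat_lit 3) (nat_lit 190) (nat_lit 178) (nat_lit 202)))))) (PT.nd (nat_lit 624) (PT.nd (nat_lit 312) (PT.nd (nat_lit 156) (PT.nd (nat_lit 78) (PT.lf (nat_lit 55632) (nat_lit 6) (nat_lit 732) (nat_lit 3) (nat_lit 191) (nat_lit 178)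 (nat_lit 201)) (PT.lf (nat_lit 55708) (nat_lit 6) (nat_lit 733) (nat_lit 3) (nat_lit 192) (nat_lit 178) (nat_lit 200))) (PT.nd (nat_lit 78) (PT.lf (nat_lit 55784) (nat_lit 6) (nat_lit 734) (nat_lit 3) (nat_lit 193) (nat_lit 178) (nat_lit 199)) (PT.lf (nat_lit 55860) (nat_lit 6) (nat_lit 735) (nat_lit 3) (nat_lit 194) (nat_lit 178) (nat_lit 198)))) (PT.nd (nat_lit 156) (PT.nd (nat_lit 78) (PT.lf (nat_lit 55936) (nat_lit 6) (nat_lit 736) (nat_lit 3) (nat_lit 195) (nat_lit 178) (nat_lit 197)) (PT.lf (nat_lit 56012) (nat_lit 3) (nat_lit 737) (nat_lit 1) (nat_lit 196) (nat_lit 178) (nat_lit 196))) (PT.nd (nat_lit 78) (PT.lf (nat_lit 55936) (nat_lit 6) (nat_lit 736) (nat_lit 1) (nat_lit 197) (nat_lit 178) (nat_lit 195)) (PT.lf (nat_lit 55860) (nat_lit 6) (nat_lit 735) (nat_lit 1) (nat_lit 198) (nat_lit 178) (nat_lit 194))))) (PT.nd (nat_lit 312) (PT.nd (nat_lit 156) (PT.nd (nat_lit 78) (PT.lf (nat_lit 55784) (nat_lit 6) (nat_lit 734) (nat_lit 1) (nat_lit 199) (nat_lit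 178) (nat_lit 193)) (PT.lf (nat_lit 55708) (nat_lit 6) (nat_lit 733) (nat_lit 1) (nat_lit 200) (nat_lit 178) (nat_lit 192))) (PT.nd (nat_lit 78) (PT.lf (nat_lit 55632) (nat_lit 6) (nat_lit 732) (nat_lit 1) (nat_lit 201) (nat_lit 178) (nat_lit 191)) (PT.lf (nat_lit 55556) (nat_lit 6) (nat_lit 731) (nat_lit 1) (nat_lit 202) (nat_lit 178) (nat_lit 190)))) (PT.nd (nat_lit 156) (PT.nd (nat_lit 78) (PT.lf (nat_lit 54492) (nat_lit 6) (nat_lit 717) (nat_lit 1) (nat_lit 203) (nat_lit 178) (nat_lit 189)) (PT.lf (nat_lit 53352) (nat_lit 6) (nat_lit 702) (nat_lit 1) (nat_lit 204) (nat_lit 178) (nat_lit 188))) (PT.nd (nat_lit 78) (PT.lf (nat_lit 52136) (nat_lit 6) (nat_lit 686) (nat_lit 1) (nat_lit 205) (nat_lit 178) (nat_lit 187)) (PT.lf (nat_lit 50844) (nat_lit 6) (nat_lit 669) (nat_lit 1) (nat_lit 206) (nat_lit 178) (nat_lit 186))))))))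
noncomputable def pc18 : PT := (PT.nd (nat_lit 58734) (PT.nd (nat_lit 57564) (PT.nd (nat_lit 546) (PT.nd (nat_lit 234) (PT.nd (nat_lit 78) (PT.lf (nat_lit 49476) (nat_lit 6) (nat_lit 651) (nat_lit 1) (nat_lit 207) (nat_lit 178) (nat_lit 185)) (PT.nd (nat_lit 78) (PT.lf (nat_lit 48032) (nat_lit 6) (nat_lit 632) (nat_lit 1) (nat_lit 208) (nat_lit 178) (nat_lit 184)) (PT.lf (nat_lit 46512) (nat_lit 6) (nat_lit 612) (nat_lit 1) (nat_lit 209) (nat_lit 178) (nat_lit 183)))) (PT.nd (nat_lit 156) (PT.nd (nat_lit 78) (PT.lf (nat_lit 44916) (nat_lit 6) (nat_lit 591) (nat_lit 1) (nat_lit 210) (nat_lit 178) (nat_lit 182)) (PT.lf (nat_lit 43244) (nat_lit 6) (nat_lit 569) (nat_lit 1) (nat_lit 211) (nat_lit 178) (nat_lit 181))) (PT.nd (nat_lit 78) (PT.lf (nat_lit 41496) (nat_lit 6) (nat_lit 546) (nat_lit 1) (nat_lit 212) (nat_lit 178) (nat_lit 180)) (PT.lf (nat_lit 39672) (nat_lit 6) (nat_lit 522) (nat_lit 1) (nat_lit 213) (nat_lit 178) (nat_lit 179))))) (PT.nd (nat_lit 56706)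 (PT.nd (nat_lit 56550) (PT.nd (nat_lit 56472) (PT.lf (nat_lit 37772) (nat_lit 3) (nat_lit 497) (nat_lit 0) (nat_lit 214) (nat_lit 178) (nat_lit 178)) (PT.lf (nat_lit 37848) (nat_lit 6) (nat_lit 498) (nat_lit 5) (nat_lit 177) (nat_lit 179) (nat_lit 214))) (PT.nd (nat_lit 78) (PT.lf (nat_lit 39672) (nat_lit 6) (nat_lit 522) (nat_lit 5) (nat_lit 178) (nat_lit 179) (nat_lit 213)) (PT.lf (nat_lit 41420) (nat_lit 3) (nat_lit 545) (nat_lit 3) (nat_lit 179) (nat_lit 179) (nat_lit 212)))) (PT.nd (nat_lit 156) (PT.nd (nat_lit 78) (PT.lf (nat_lit 43168) (nat_lit 6) (nat_lit 568) (nat_lit 3) (nat_lit 180) (nat_lit 179) (nat_lit 211)) (PT.lf (nat_lit 44840) (nat_lit 6) (nat_lit 590) (nat_lit 3) (nat_lit 181) (nat_lit 179) (nat_lit 210))) (PT.nd (nat_lit 78) (PT.lf (nat_lit 46436) (nat_lit 6) (nat_lit 611) (nat_lit 3) (nat_lit 182) (nat_lit 179) (nat_lit 209)) (PT.lf (nat_lit 47956) (nat_lit 6) (nat_lit 631) (nat_lit 3) (nat_lit 183) (nat_lit 179) (nat_lit 208)))))) (PT.nd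 (nat_lit 546) (PT.nd (nat_lit 234) (PT.nd (nat_lit 78) (PT.lf (nat_lit 49400) (nat_lit 6) (nat_lit 650) (nat_lit 3) (nat_lit 184) (nat_lit 179) (nat_lit 207)) (PT.nd (nat_lit 78) (PT.lf (nat_lit 50768) (nat_lit 6) (nat_lit 668) (nat_lit 3) (nat_lit 185) (nat_lit 179) (nat_lit 206)) (PT.lf (nat_lit 52060) (nat_lit 6) (nat_lit 685) (nat_lit 3) (nat_lit 186) (nat_lit 179) (nat_lit 205)))) (PT.nd (nat_lit 156) (PT.nd (nat_lit 78) (PT.lf (nat_lit 53276) (nat_lit 6) (nat_lit 701) (nat_lit 3) (nat_lit 187) (nat_lit 179) (nat_lit 204)) (PT.lf (nat_lit 54416) (nat_lit 6) (nat_lit 716) (nat_lit 3) (nat_lit 188) (nat_lit 179) (nat_lit 203))) (PT.nd (nat_lit 78) (PT.lf (nat_lit 55480) (nat_lit 6) (nat_lit 730) (nat_lit 3) (nat_lit 189) (nat_lit 179) (nat_lit 202)) (PT.lf (nat_lit 56468) (nat_lit 6) (nat_lit 743) (nat_lit 3) (nat_lit 190) (nat_lit 179) (nat_lit 201))))) (PT.nd (nat_lit 312) (PT.nd (nat_lit 156) (PT.nd (nat_lit 78) (PT.lf (nat_lit 56544) (nat_lit 6) (nat_lit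 744) (nat_lit 3) (nat_lit 191) (nat_lit 179) (nat_lit 200)) (PT.lf (nat_lit 56620) (nat_lit 6) (nat_lit 745) (nat_lit 3) (nat_lit 192) (nat_lit 179) (nat_lit 199))) (PT.nd (nat_lit 78) (PT.lf (nat_lit 56696) (nat_lit 6) (nat_lit 746) (nat_lit 3) (nat_lit 193) (nat_lit 179) (nat_lit 198)) (PT.lf (nat_lit 56772) (nat_lit 6) (nat_lit 747) (nat_lit 3) (nat_lit 194) (nat_lit 179) (nat_lit 197)))) (PT.nd (nat_lit 156) (PT.nd (nat_lit 78) (PT.lf (nat_lit 56848) (nat_lit 6) (nat_lit 748) (nat_lit 3) (nat_lit 195) (nat_lit 179) (nat_lit 196)) (PT.lf (nat_lit 56848) (nat_lit 6) (nat_lit 748) (nat_lit 1) (nat_lit 196) (nat_lit 179) (nat_lit 195))) (PT.nd (nat_lit 78) (PT.lf (nat_lit 56772) (nat_lit 6) (nat_lit 747) (nat_lit 1) (nat_lit 197) (nat_lit 179) (nat_lit 194)) (PT.lf (nat_lit 56696) (nat_lit 6) (nat_lit 746) (nat_lit 1) (nat_lit 198) (nat_lit 179) (nat_lit 193))))))) (PT.nd (nat_lit 1170) (PT.nd (nat_lit 546) (PT.nd (nat_lit 234) (PT.nd (nat_lit 78) (PT.lf (nat_lit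 56620) (nat_lit 6) (nat_lit 745) (nat_lit 1) (nat_lit 199) (nat_lit 179) (nat_lit 192)) (PT.nd (nat_lit 78) (PT.lf (nat_lit 56544) (nat_lit 6) (nat_lit 744) (nat_lit 1) (nat_lit 200) (nat_lit 179) (nat_lit 191)) (PT.lf (nat_lit 56468) (nat_lit 6) (nat_lit 743) (nat_lit 1) (nat_lit 201) (nat_lit 179) (nat_lit 190)))) (PT.nd (nat_lit 156) (PT.nd (nat_lit 78) (PT.lf (nat_lit 55480) (nat_lit 6) (nat_lit 730) (nat_lit 1) (nat_lit 202) (nat_lit 179) (nat_lit 189)) (PT.lf (nat_lit 54416) (nat_lit 6) (nat_lit 716) (nat_lit 1) (nat_lit 203) (nat_lit 179) (nat_lit 188))) (PT.nd (nat_lit 78) (PT.lf (nat_lit 53276) (nat_lit 6) (nat_lit 701) (nat_lit 1) (nat_lit 204) (nat_lit 179) (nat_lit 187)) (PT.lf (nat_lit 52060) (nat_lit 6) (nat_lit 685) (nat_lit 1) (nat_lit 205) (nat_lit 179) (nat_lit 186))))) (PT.nd (nat_lit 312) (PT.nd (nat_lit 156) (PT.nd (nat_lit 78) (PT.lf (nat_lit 50768) (nat_lit 6) (nat_lit 668) (nat_lit 1) (nat_lit 206) (nat_lit 179) (nat_lit 185)) (PT.lf (nat_lit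 49400) (nat_lit 6) (nat_lit 650) (nat_lit 1) (nat_lit 207) (nat_lit 179) (nat_lit 184))) (PT.nd (nat_lit 78) (PT.lf (nat_lit 47956) (nat_lit 6) (nat_lit 631) (nat_lit 1) (nat_lit 208) (nat_lit 179) (nat_lit 183)) (PT.lf (nat_lit 46436) (nat_lit 6) (nat_lit 611) (nat_lit 1) (nat_lit 209) (nat_lit 179) (nat_lit 182)))) (PT.nd (nat_lit 156) (PT.nd (nat_lit 78) (PT.lf (nat_lit 44840) (nat_lit 6) (nat_lit 590) (nat_lit 1) (nat_lit 210) (nat_lit 179) (nat_lit 181)) (PT.lf (nat_lit 43168) (nat_lit 6) (nat_lit 568) (nat_lit 1) (nat_lit 211) (nat_lit 179) (nat_lit 180))) (PT.nd (nat_lit 78) (PT.lf (nat_lit 41420) (nat_lit 3) (nat_lit 545) (nat_lit 0) (nat_lit 212) (nat_lit 179) (nat_lit 179)) (PT.lf (nat_lit 39672) (nat_lit 6) (nat_lit 522) (nat_lit 0) (nat_lit 213) (nat_lit 179) (nat_lit 178)))))) (PT.nd (nat_lit 56940) (PT.nd (nat_lit 56628) (PT.nd (nat_lit 56472) (PT.nd (nat_lit 56394) (PT.lf (nat_lit 37848) (nat_lit 6) (nat_lit 498) (nat_lit 0) (nat_lit 214) (nat_lit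 179) (nat_lit 177)) (PT.lf (nat_lit 37924) (nat_lit 6) (nat_lit 499) (nat_lit 5) (nat_lit 176) (nat_lit 180) (nat_lit 214))) (PT.nd (nat_lit 78) (PT.lf (nat_lit 39748) (nat_lit 6) (nat_lit 523) (nat_lit 5) (nat_lit 177) (nat_lit 180) (nat_lit 213)) (PT.lf (nat_lit 41496) (nat_lit 6) (nat_lit 546) (nat_lit 5) (nat_lit 178) (nat_lit 180) (nat_lit 212)))) (PT.nd (nat_lit 156) (PT.nd (nat_lit 78) (PT.lf (nat_lit 43168) (nat_lit 6) (nat_lit 568) (nat_lit 5) (nat_lit 179) (nat_lit 180) (nat_lit 211)) (PT.lf (nat_lit 44764) (nat_lit 3) (nat_lit 589) (nat_lit 3) (nat_lit 180) (nat_lit 180) (nat_lit 210))) (PT.nd (nat_lit 78) (PT.lf (nat_lit 46360) (nat_lit 6) (nat_lit 610) (nat_lit 3) (nat_lit 181) (nat_lit 180) (nat_lit 209)) (PT.lf (nat_lit 47880) (nat_lit 6) (nat_lit 630) (nat_lit 3) (nat_lit 182) (nat_lit 180) (nat_lit 208))))) (PT.nd (nat_lit 312) (PT.nd (nat_lit 156) (PT.nd (nat_lit 78) (PT.lf (nat_lit 49324) (nat_lit 6) (nat_lit 649) (nat_lit 3) (nat_lit 183)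 (nat_lit 180) (nat_lit 207)) (PT.lf (nat_lit 50692) (nat_lit 6) (nat_lit 667) (nat_lit 3) (nat_lit 184) (nat_lit 180) (nat_lit 206))) (PT.nd (nat_lit 78) (PT.lf (nat_lit 51984) (nat_lit 6) (nat_lit 684) (nat_lit 3) (nat_lit 185) (nat_lit 180) (nat_lit 205)) (PT.lf (nat_lit 53200) (nat_lit 6) (nat_lit 700) (nat_lit 3) (nat_lit 186) (nat_lit 180) (nat_lit 204)))) (PT.nd (nat_lit 156) (PT.nd (nat_lit 78) (PT.lf (nat_lit 54340) (nat_lit 6) (nat_lit 715) (nat_lit 3) (nat_lit 187) (nat_lit 180) (nat_lit 203)) (PT.lf (nat_lit 55404) (nat_lit 6) (nat_lit 729) (nat_lit 3) (nat_lit 188) (nat_lit 180) (nat_lit 202))) (PT.nd (nat_lit 78) (PT.lf (nat_lit 56392) (nat_lit 6) (nat_lit 742) (nat_lit 3) (nat_lit 189) (nat_lit 180) (nat_lit 201)) (PT.lf (nat_lit 57304) (nat_lit 6) (nat_lit 754) (nat_lit 3) (nat_lit 190) (nat_lit 180) (nat_lit 200))))))))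
noncomputable def pc19 : PT := (PT.nd (nat_lit 58656) (PT.nd (nat_lit 1170) (PT.nd (nat_lit 546) (PT.nd (nat_lit 234) (PT.nd (nat_lit 78) (PT.lf (nat_lit 57380) (nat_lit 6) (nat_lit 755) (nat_lit 3) (nat_lit 191) (nat_lit 180) (nat_lit 199)) (PT.nd (nat_lit 78) (PT.lf (nat_lit 57456) (nat_lit 6) (nat_lit 756) (nat_lit 3) (nat_lit 192) (nat_lit 180) (nat_lit 198)) (PT.lf (nat_lit 57532) (nat_lit 6) (nat_lit 757) (nat_lit 3) (nat_lit 193) (nat_lit 180) (nat_lit 197)))) (PT.nd (nat_lit 156) (PT.nd (nat_lit 78) (PT.lf (nat_lit 57608) (nat_lit 6) (nat_lit 758) (nat_lit 3) (nat_lit 194) (nat_lit 180) (nat_lit 196)) (PT.lf (nat_lit 57684) (nat_lit 3) (nat_lit 759) (nat_lit 1) (nat_lit 195) (nat_lit 180) (nat_lit 195))) (PT.nd (nat_lit 78) (PT.lf (nat_lit 57608) (nat_lit 6) (nat_lit 758) (nat_lit 1) (nat_lit 196) (nat_lit 180) (nat_lit 194)) (PT.lf (nat_lit 57532) (nat_lit 6) (nat_lit 757) (nat_lit 1) (nat_lit 197) (nat_lit 180) (nat_lit 193))))) (PT.nd (nat_lit 312)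 (PT.nd (nat_lit 156) (PT.nd (nat_lit 78) (PT.lf (nat_lit 57456) (nat_lit 6) (nat_lit 756) (nat_lit 1) (nat_lit 198) (nat_lit 180) (nat_lit 192)) (PT.lf (nat_lit 57380) (nat_lit 6) (nat_lit 755) (nat_lit 1) (nat_lit 199) (nat_lit 180) (nat_lit 191))) (PT.nd (nat_lit 78) (PT.lf (nat_lit 57304) (nat_lit 6) (nat_lit 754) (nat_lit 1) (nat_lit 200) (nat_lit 180) (nat_lit 190)) (PT.lf (nat_lit 56392) (nat_lit 6) (nat_lit 742) (nat_lit 1) (nat_lit 201) (nat_lit 180) (nat_lit 189)))) (PT.nd (nat_lit 156) (PT.nd (nat_lit 78) (PT.lf (nat_lit 55404) (nat_lit 6) (nat_lit 729) (nat_lit 1) (nat_lit 202) (nat_lit 180) (nat_lit 188)) (PT.lf (nat_lit 54340) (nat_lit 6) (nat_lit 715) (nat_lit 1) (nat_lit 203) (nat_lit 180) (nat_lit 187))) (PT.nd (nat_lit 78) (PT.lf (nat_lit 53200) (nat_lit 6) (nat_lit 700) (nat_lit 1) (nat_lit 204) (nat_lit 180) (nat_lit 186)) (PT.lf (nat_lit 51984) (nat_lit 6) (nat_lit 684) (nat_lit 1) (nat_lit 205) (nat_lit 180) (nat_lit 185)))))) (PT.nd (nat_lit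 624) (PT.nd (nat_lit 312) (PT.nd (nat_lit 156) (PT.nd (nat_lit 78) (PT.lf (nat_lit 50692) (nat_lit 6) (nat_lit 667) (nat_lit 1) (nat_lit 206) (nat_lit 180) (nat_lit 184)) (PT.lf (nat_lit 49324) (nat_lit 6) (nat_lit 649) (nat_lit 1) (nat_lit 207) (nat_lit 180) (nat_lit 183))) (PT.nd (nat_lit 78) (PT.lf (nat_lit 47880) (nat_lit 6) (nat_lit 630) (nat_lit 1) (nat_lit 208) (nat_lit 180) (nat_lit 182)) (PT.lf (nat_lit 46360) (nat_lit 6) (nat_lit 610) (nat_lit 1) (nat_lit 209) (nat_lit 180) (nat_lit 181)))) (PT.nd (nat_lit 156) (PT.nd (nat_lit 78) (PT.lf (nat_lit 44764) (nat_lit 3) (nat_lit 589) (nat_lit 0) (nat_lit 210) (nat_lit 180) (nat_lit 180)) (PT.lf (nat_lit 43168) (nat_lit 6) (nat_lit 568) (nat_lit 0) (nat_lit 211) (nat_lit 180) (nat_lit 179))) (PT.nd (nat_lit 78) (PT.lf (nat_lit 41496) (nat_lit 6) (nat_lit 546) (nat_lit 0) (nat_lit 212) (nat_lit 180) (nat_lit 178)) (PT.lf (nat_lit 39748) (nat_lit 6) (nat_lit 523) (nat_lit 0) (nat_lit 213) (nat_lit 180) (nat_lit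 177))))) (PT.nd (nat_lit 56550) (PT.nd (nat_lit 56394) (PT.nd (nat_lit 56316) (PT.lf (nat_lit 37924) (nat_lit 6) (nat_lit 499) (nat_lit 0) (nat_lit 214) (nat_lit 180) (nat_lit 176)) (PT.lf (nat_lit 38000) (nat_lit 6) (nat_lit 500) (nat_lit 5) (nat_lit 175) (nat_lit 181) (nat_lit 214))) (PT.nd (nat_lit 78) (PT.lf (nat_lit 39824) (nat_lit 6) (nat_lit 524) (nat_lit 5) (nat_lit 176) (nat_lit 181) (nat_lit 213)) (PT.lf (nat_lit 41572) (nat_lit 6) (nat_lit 547) (nat_lit 5) (nat_lit 177) (nat_lit 181) (nat_lit 212)))) (PT.nd (nat_lit 156) (PT.nd (nat_lit 78) (PT.lf (nat_lit 43244) (nat_lit 6) (nat_lit 569) (nat_lit 5) (nat_lit 178) (nat_lit 181) (nat_lit 211)) (PT.lf (nat_lit 44840) (nat_lit 6) (nat_lit 590) (nat_lit 5) (nat_lit 179) (nat_lit 181) (nat_lit 210))) (PT.nd (nat_lit 78) (PT.lf (nat_lit 46360) (nat_lit 6) (nat_lit 610) (nat_lit 5) (nat_lit 180) (nat_lit 181) (nat_lit 209)) (PT.lf (nat_lit 47804) (nat_lit 3) (nat_lit 629) (nat_lit 3) (nat_lit 181) (nat_lit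 181) (nat_lit 208))))))) (PT.nd (nat_lit 1170) (PT.nd (nat_lit 546) (PT.nd (nat_lit 234) (PT.nd (nat_lit 78) (PT.lf (nat_lit 49248) (nat_lit 6) (nat_lit 648) (nat_lit 3) (nat_lit 182) (nat_lit 181) (nat_lit 207)) (PT.nd (nat_lit 78) (PT.lf (nat_lit 50616) (nat_lit 6) (nat_lit 666) (nat_lit 3) (nat_lit 183) (nat_lit 181) (nat_lit 206)) (PT.lf (nat_lit 51908) (nat_lit 6) (nat_lit 683) (nat_lit 3) (nat_lit 184) (nat_lit 181) (nat_lit 205)))) (PT.nd (nat_lit 156) (PT.nd (nat_lit 78) (PT.lf (nat_lit 53124) (nat_lit 6) (nat_lit 699) (nat_lit 3) (nat_lit 185) (nat_lit 181) (nat_lit 204)) (PT.lf (nat_lit 54264) (nat_lit 6) (nat_lit 714) (nat_lit 3) (nat_lit 186) (nat_lit 181) (nat_lit 203))) (PT.nd (nat_lit 78) (PT.lf (nat_lit 55328) (nat_lit 6) (nat_lit 728) (nat_lit 3) (nat_lit 187) (nat_lit 181) (nat_lit 202)) (PT.lf (nat_lit 56316) (nat_lit 6) (nat_lit 741) (nat_lit 3) (nat_lit 188) (nat_lit 181) (nat_lit 201))))) (PT.nd (nat_lit 312) (PT.nd (nat_lit 156) (PT.nd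 (nat_lit 78) (PT.lf (nat_lit 57228) (nat_lit 6) (nat_lit 753) (nat_lit 3) (nat_lit 189) (nat_lit 181) (nat_lit 200)) (PT.lf (nat_lit 58064) (nat_lit 6) (nat_lit 764) (nat_lit 3) (nat_lit 190) (nat_lit 181) (nat_lit 199))) (PT.nd (nat_lit 78) (PT.lf (nat_lit 58140) (nat_lit 6) (nat_lit 765) (nat_lit 3) (nat_lit 191) (nat_lit 181) (nat_lit 198)) (PT.lf (nat_lit 58216) (nat_lit 6) (nat_lit 766) (nat_lit 3) (nat_lit 192) (nat_lit 181) (nat_lit 197)))) (PT.nd (nat_lit 156) (PT.nd (nat_lit 78) (PT.lf (nat_lit 58292) (nat_lit 6) (nat_lit 767) (nat_lit 3) (nat_lit 193) (nat_lit 181) (nat_lit 196)) (PT.lf (nat_lit 58368) (nat_lit 6) (nat_lit 768) (nat_lit 3) (nat_lit 194) (nat_lit 181) (nat_lit 195))) (PT.nd (nat_lit 78) (PT.lf (nat_lit 58368) (nat_lit 6) (nat_lit 768) (nat_lit 1) (nat_lit 195) (nat_lit 181) (nat_lit 194)) (PT.lf (nat_lit 58292) (nat_lit 6) (nat_lit 767) (nat_lit 1) (nat_lit 196) (nat_lit 181) (nat_lit 193)))))) (PT.nd (nat_lit 624) (PT.nd (nat_lit 312)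 (PT.nd (nat_lit 156) (PT.nd (nat_lit 78) (PT.lf (nat_lit 58216) (nat_lit 6) (nat_lit 766) (nat_lit 1) (nat_lit 197) (nat_lit 181) (nat_lit 192)) (PT.lf (nat_lit 58140) (nat_lit 6) (nat_lit 765) (nat_lit 1) (nat_lit 198) (nat_lit 181) (nat_lit 191))) (PT.nd (nat_lit 78) (PT.lf (nat_lit 58064) (nat_lit 6) (nat_lit 764) (nat_lit 1) (nat_lit 199) (nat_lit 181) (nat_lit 190)) (PT.lf (nat_lit 57228) (nat_lit 6) (nat_lit 753) (nat_lit 1) (nat_lit 200) (nat_lit 181) (nat_lit 189)))) (PT.nd (nat_lit 156) (PT.nd (nat_lit 78) (PT.lf (nat_lit 56316) (nat_lit 6) (nat_lit 741) (nat_lit 1) (nat_lit 201) (nat_lit 181) (nat_lit 188)) (PT.lf (nat_lit 55328) (nat_lit 6) (nat_lit 728) (nat_lit 1) (nat_lit 202) (nat_lit 181) (nat_lit 187))) (PT.nd (nat_lit 78) (PT.lf (nat_lit 54264) (nat_lit 6) (nat_lit 714) (nat_lit 1) (nat_lit 203) (nat_lit 181) (nat_lit 186)) (PT.lf (nat_lit 53124) (nat_lit 6) (nat_lit 699) (nat_lit 1) (nat_lit 204) (nat_lit 181) (nat_lit 185))))) (PT.nd (nat_lit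 312) (PT.nd (nat_lit 156) (PT.nd (nat_lit 78) (PT.lf (nat_lit 51908) (nat_lit 6) (nat_lit 683) (nat_lit 1) (nat_lit 205) (nat_lit 181) (nat_lit 184)) (PT.lf (nat_lit 50616) (nat_lit 6) (nat_lit 666) (nat_lit 1) (nat_lit 206) (nat_lit 181) (nat_lit 183))) (PT.nd (nat_lit 78) (PT.lf (nat_lit 49248) (nat_lit 6) (nat_lit 648) (nat_lit 1) (nat_lit 207) (nat_lit 181) (nat_lit 182)) (PT.lf (nat_lit 47804) (nat_lit 3) (nat_lit 629) (nat_lit 0) (nat_lit 208) (nat_lit 181) (nat_lit 181)))) (PT.nd (nat_lit 156) (PT.nd (nat_lit 78) (PT.lf (nat_lit 46360) (nat_lit 6) (nat_lit 610) (nat_lit 0) (nat_lit 209) (nat_lit 181) (nat_lit 180)) (PT.lf (nat_lit 44840) (nat_lit 6) (nat_lit 590) (nat_lit 0) (nat_lit 210) (nat_lit 181) (nat_lit 179))) (PT.nd (nat_lit 78) (PT.lf (nat_lit 43244) (nat_lit 6) (nat_lit 569) (nat_lit 0) (nat_lit 211) (nat_lit 181) (nat_lit 178)) (PT.lf (nat_lit 41572) (nat_lit 6) (nat_lit 547) (nat_lit 0) (nat_lit 212) (nat_lit 181) (nat_lit 177))))))))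
noncomputable def pc20 : PT := (PT.nd (nat_lit 58500) (PT.nd (nat_lit 57330) (PT.nd (nat_lit 56706) (PT.nd (nat_lit 56394) (PT.nd (nat_lit 78) (PT.lf (nat_lit 39824) (nat_lit 6) (nat_lit 524) (nat_lit 0) (nat_lit 213) (nat_lit 181) (nat_lit 176)) (PT.nd (nat_lit 56238) (PT.lf (nat_lit 38000) (nat_lit 6) (nat_lit 500) (nat_lit 0) (nat_lit 214) (nat_lit 181) (nat_lit 175)) (PT.lf (nat_lit 38076) (nat_lit 6) (nat_lit 501) (nat_lit 5) (nat_lit 174) (nat_lit 182) (nat_lit 214)))) (PT.nd (nat_lit 156) (PT.nd (nat_lit 78) (PT.lf (nat_lit 39900) (nat_lit 6) (nat_lit 525) (nat_lit 5) (nat_lit 175) (nat_lit 182) (nat_lit 213)) (PT.lf (nat_lit 41648) (nat_lit 6) (nat_lit 548) (nat_lit 5) (nat_lit 176) (nat_lit 182) (nat_lit 212))) (PT.nd (nat_lit 78) (PT.lf (nat_lit 43320) (nat_lit 6) (nat_lit 570) (nat_lit 5) (nat_lit 177) (nat_lit 182) (nat_lit 211)) (PT.lf (nat_lit 44916) (nat_lit 6) (nat_lit 591) (nat_lit 5) (nat_lit 178) (nat_lit 182) (nat_lit 210))))) (PT.nd (nat_lit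 312) (PT.nd (nat_lit 156) (PT.nd (nat_lit 78) (PT.lf (nat_lit 46436) (nat_lit 6) (nat_lit 611) (nat_lit 5) (nat_lit 179) (nat_lit 182) (nat_lit 209)) (PT.lf (nat_lit 47880) (nat_lit 6) (nat_lit 630) (nat_lit 5) (nat_lit 180) (nat_lit 182) (nat_lit 208))) (PT.nd (nat_lit 78) (PT.lf (nat_lit 49248) (nat_lit 6) (nat_lit 648) (nat_lit 5) (nat_lit 181) (nat_lit 182) (nat_lit 207)) (PT.lf (nat_lit 50540) (nat_lit 3) (nat_lit 665) (nat_lit 3) (nat_lit 182) (nat_lit 182) (nat_lit 206)))) (PT.nd (nat_lit 156) (PT.nd (nat_lit 78) (PT.lf (nat_lit 51832) (nat_lit 6) (nat_lit 682) (nat_lit 3) (nat_lit 183) (nat_lit 182) (nat_lit 205)) (PT.lf (nat_lit 53048) (nat_lit 6) (nat_lit 698) (nat_lit 3) (nat_lit 184) (nat_lit 182) (nat_lit 204))) (PT.nd (nat_lit 78) (PT.lf (nat_lit 54188) (nat_lit 6) (nat_lit 713) (nat_lit 3) (nat_lit 185) (nat_lit 182) (nat_lit 203)) (PT.lf (nat_lit 55252) (nat_lit 6) (nat_lit 727) (nat_lit 3) (nat_lit 186) (nat_lit 182) (nat_lit 202)))))) (PT.nd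 (nat_lit 546) (PT.nd (nat_lit 234) (PT.nd (nat_lit 78) (PT.lf (nat_lit 56240) (nat_lit 6) (nat_lit 740) (nat_lit 3) (nat_lit 187) (nat_lit 182) (nat_lit 201)) (PT.nd (nat_lit 78) (PT.lf (nat_lit 57152) (nat_lit 6) (nat_lit 752) (nat_lit 3) (nat_lit 188) (nat_lit 182) (nat_lit 200)) (PT.lf (nat_lit 57988) (nat_lit 6) (nat_lit 763) (nat_lit 3) (nat_lit 189) (nat_lit 182) (nat_lit 199)))) (PT.nd (nat_lit 156) (PT.nd (nat_lit 78) (PT.lf (nat_lit 58748) (nat_lit 6) (nat_lit 773) (nat_lit 3) (nat_lit 190) (nat_lit 182) (nat_lit 198)) (PT.lf (nat_lit 58824) (nat_lit 6) (nat_lit 774) (nat_lit 3) (nat_lit 191) (nat_lit 182) (nat_lit 197))) (PT.nd (nat_lit 78) (PT.lf (nat_lit 58900) (nat_lit 6) (nat_lit 775) (nat_lit 3) (nat_lit 192) (nat_lit 182) (nat_lit 196)) (PT.lf (nat_lit 58976) (nat_lit 6) (nat_lit 776) (nat_lit 3) (nat_lit 193) (nat_lit 182) (nat_lit 195))))) (PT.nd (nat_lit 312) (PT.nd (nat_lit 156) (PT.nd (nat_lit 78) (PT.lf (nat_lit 59052) (nat_lit 3) (nat_lit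 777) (nat_lit 1) (nat_lit 194) (nat_lit 182) (nat_lit 194)) (PT.lf (nat_lit 58976) (nat_lit 6) (nat_lit 776) (nat_lit 1) (nat_lit 195) (nat_lit 182) (nat_lit 193))) (PT.nd (nat_lit 78) (PT.lf (nat_lit 58900) (nat_lit 6) (nat_lit 775) (nat_lit 1) (nat_lit 196) (nat_lit 182) (nat_lit 192)) (PT.lf (nat_lit 58824) (nat_lit 6) (nat_lit 774) (nat_lit 1) (nat_lit 197) (nat_lit 182) (nat_lit 191)))) (PT.nd (nat_lit 156) (PT.nd (nat_lit 78) (PT.lf (nat_lit 58748) (nat_lit 6) (nat_lit 773) (nat_lit 1) (nat_lit 198) (nat_lit 182) (nat_lit 190)) (PT.lf (nat_lit 57988) (nat_lit 6) (nat_lit 763) (nat_lit 1) (nat_lit 199) (nat_lit 182) (nat_lit 189))) (PT.nd (nat_lit 78) (PT.lf (nat_lit 57152) (nat_lit 6) (nat_lit 752) (nat_lit 1) (nat_lit 200) (nat_lit 182) (nat_lit 188)) (PT.lf (nat_lit 56240) (nat_lit 6) (nat_lit 740) (nat_lit 1) (nat_lit 201) (nat_lit 182) (nat_lit 187))))))) (PT.nd (nat_lit 57252) (PT.nd (nat_lit 546) (PT.nd (nat_lit 234) (PT.nd (nat_lit 78) (PT.lf (nat_lit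 55252) (nat_lit 6) (nat_lit 727) (nat_lit 1) (nat_lit 202) (nat_lit 182) (nat_lit 186)) (PT.nd (nat_lit 78) (PT.lf (nat_lit 54188) (nat_lit 6) (nat_lit 713) (nat_lit 1) (nat_lit 203) (nat_lit 182) (nat_lit 185)) (PT.lf (nat_lit 53048) (nat_lit 6) (nat_lit 698) (nat_lit 1) (nat_lit 204) (nat_lit 182) (nat_lit 184)))) (PT.nd (nat_lit 156) (PT.nd (nat_lit 78) (PT.lf (nat_lit 51832) (nat_lit 6) (nat_lit 682) (nat_lit 1) (nat_lit 205) (nat_lit 182) (nat_lit 183)) (PT.lf (nat_lit 50540) (nat_lit 3) (nat_lit 665) (nat_lit 0) (nat_lit 206) (nat_lit 182) (nat_lit 182))) (PT.nd (nat_lit 78) (PT.lf (nat_lit 49248) (nat_lit 6) (nat_lit 648) (nat_lit 0) (nat_lit 207) (nat_lit 182) (nat_lit 181)) (PT.lf (nat_lit 47880) (nat_lit 6) (nat_lit 630) (nat_lit 0) (nat_lit 208) (nat_lit 182) (nat_lit 180))))) (PT.nd (nat_lit 312) (PT.nd (nat_lit 156) (PT.nd (nat_lit 78) (PT.lf (nat_lit 46436) (nat_lit 6) (nat_lit 611) (nat_lit 0) (nat_lit 209) (nat_lit 182) (nat_lit 179)) (PT.lf (nat_lit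 44916) (nat_lit 6) (nat_lit 591) (nat_lit 0) (nat_lit 210) (nat_lit 182) (nat_lit 178))) (PT.nd (nat_lit 78) (PT.lf (nat_lit 43320) (nat_lit 6) (nat_lit 570) (nat_lit 0) (nat_lit 211) (nat_lit 182) (nat_lit 177)) (PT.lf (nat_lit 41648) (nat_lit 6) (nat_lit 548) (nat_lit 0) (nat_lit 212) (nat_lit 182) (nat_lit 176)))) (PT.nd (nat_lit 56238) (PT.nd (nat_lit 78) (PT.lf (nat_lit 39900) (nat_lit 6) (nat_lit 525) (nat_lit 0) (nat_lit 213) (nat_lit 182) (nat_lit 175)) (PT.lf (nat_lit 38076) (nat_lit 6) (nat_lit 501) (nat_lit 0) (nat_lit 214) (nat_lit 182) (nat_lit 174))) (PT.nd (nat_lit 78) (PT.lf (nat_lit 38152) (nat_lit 6) (nat_lit 502) (nat_lit 5) (nat_lit 173) (nat_lit 183) (nat_lit 214)) (PT.lf (nat_lit 39976) (nat_lit 6) (nat_lit 526) (nat_lit 5) (nat_lit 174) (nat_lit 183) (nat_lit 213)))))) (PT.nd (nat_lit 624) (PT.nd (nat_lit 312) (PT.nd (nat_lit 156) (PT.nd (nat_lit 78) (PT.lf (nat_lit 41724) (nat_lit 6) (nat_lit 549) (nat_lit 5) (nat_lit 175) (nat_lit 183)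 (nat_lit 212)) (PT.lf (nat_lit 43396) (nat_lit 6) (nat_lit 571) (nat_lit 5) (nat_lit 176) (nat_lit 183) (nat_lit 211))) (PT.nd (nat_lit 78) (PT.lf (nat_lit 44992) (nat_lit 6) (nat_lit 592) (nat_lit 5) (nat_lit 177) (nat_lit 183) (nat_lit 210)) (PT.lf (nat_lit 46512) (nat_lit 6) (nat_lit 612) (nat_lit 5) (nat_lit 178) (nat_lit 183) (nat_lit 209)))) (PT.nd (nat_lit 156) (PT.nd (nat_lit 78) (PT.lf (nat_lit 47956) (nat_lit 6) (nat_lit 631) (nat_lit 5) (nat_lit 179) (nat_lit 183) (nat_lit 208)) (PT.lf (nat_lit 49324) (nat_lit 6) (nat_lit 649) (nat_lit 5) (nat_lit 180) (nat_lit 183) (nat_lit 207))) (PT.nd (nat_lit 78) (PT.lf (nat_lit 50616) (nat_lit 6) (nat_lit 666) (nat_lit 5) (nat_lit 181) (nat_lit 183) (nat_lit 206)) (PT.lf (nat_lit 51832) (nat_lit 6) (nat_lit 682) (nat_lit 5) (nat_lit 182) (nat_lit 183) (nat_lit 205))))) (PT.nd (nat_lit 312) (PT.nd (nat_lit 156) (PT.nd (nat_lit 78) (PT.lf (nat_lit 52972) (nat_lit 3) (nat_lit 697) (nat_lit 3) (nat_lit 183) (nat_lit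 183) (nat_lit 204)) (PT.lf (nat_lit 54112) (nat_lit 6) (nat_lit 712) (nat_lit 3) (nat_lit 184) (nat_lit 183) (nat_lit 203))) (PT.nd (nat_lit 78) (PT.lf (nat_lit 55176) (nat_lit 6) (nat_lit 726) (nat_lit 3) (nat_lit 185) (nat_lit 183) (nat_lit 202)) (PT.lf (nat_lit 56164) (nat_lit 6) (nat_lit 739) (nat_lit 3) (nat_lit 186) (nat_lit 183) (nat_lit 201)))) (PT.nd (nat_lit 156) (PT.nd (nat_lit 78) (PT.lf (nat_lit 57076) (nat_lit 6) (nat_lit 751) (nat_lit 3) (nat_lit 187) (nat_lit 183) (nat_lit 200)) (PT.lf (nat_lit 57912) (nat_lit 6) (nat_lit 762) (nat_lit 3) (nat_lit 188) (nat_lit 183) (nat_lit 199))) (PT.nd (nat_lit 78) (PT.lf (nat_lit 58672) (nat_lit 6) (nat_lit 772) (nat_lit 3) (nat_lit 189) (nat_lit 183) (nat_lit 198)) (PT.lf (nat_lit 59356) (nat_lit 6) (nat_lit 781) (nat_lit 3) (nat_lit 190) (nat_lit 183) (nat_lit 197))))))))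
noncomputable def pc21 : PT := (PT.nd (nat_lit 58344) (PT.nd (nat_lit 1170) (PT.nd (nat_lit 546) (PT.nd (nat_lit 234) (PT.nd (nat_lit 78) (PT.lf (nat_lit 59432) (nat_lit 6) (nat_lit 782) (nat_lit 3) (nat_lit 191) (nat_lit 183) (nat_lit 196)) (PT.nd (nat_lit 78) (PT.lf (nat_lit 59508) (nat_lit 6) (nat_lit 783) (nat_lit 3) (nat_lit 192) (nat_lit 183) (nat_lit 195)) (PT.lf (nat_lit 59584) (nat_lit 6) (nat_lit 784) (nat_lit 3) (nat_lit 193) (nat_lit 183) (nat_lit 194)))) (PT.nd (nat_lit 156) (PT.nd (nat_lit 78) (PT.lf (nat_lit 59584) (nat_lit 6) (nat_lit 784) (nat_lit 1) (nat_lit 194) (nat_lit 183) (nat_lit 193)) (PT.lf (nat_lit 59508) (nat_lit 6) (nat_lit 783) (nat_lit 1) (nat_lit 195) (nat_lit 183) (nat_lit 192))) (PT.nd (nat_lit 78) (PT.lf (nat_lit 59432) (nat_lit 6) (nat_lit 782) (nat_lit 1) (nat_lit 196) (nat_lit 183) (nat_lit 191)) (PT.lf (nat_lit 59356) (nat_lit 6) (nat_lit 781) (nat_lit 1) (nat_lit 197) (nat_lit 183) (nat_lit 190))))) (PT.nd (nat_lit 312)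 (PT.nd (nat_lit 156) (PT.nd (nat_lit 78) (PT.lf (nat_lit 58672) (nat_lit 6) (nat_lit 772) (nat_lit 1) (nat_lit 198) (nat_lit 183) (nat_lit 189)) (PT.lf (nat_lit 57912) (nat_lit 6) (nat_lit 762) (nat_lit 1) (nat_lit 199) (nat_lit 183) (nat_lit 188))) (PT.nd (nat_lit 78) (PT.lf (nat_lit 57076) (nat_lit 6) (nat_lit 751) (nat_lit 1) (nat_lit 200) (nat_lit 183) (nat_lit 187)) (PT.lf (nat_lit 56164) (nat_lit 6) (nat_lit 739) (nat_lit 1) (nat_lit 201) (nat_lit 183) (nat_lit 186)))) (PT.nd (nat_lit 156) (PT.nd (nat_lit 78) (PT.lf (nat_lit 55176) (nat_lit 6) (nat_lit 726) (nat_lit 1) (nat_lit 202) (nat_lit 183) (nat_lit 185)) (PT.lf (nat_lit 54112) (nat_lit 6) (nat_lit 712) (nat_lit 1) (nat_lit 203) (nat_lit 183) (nat_lit 184))) (PT.nd (nat_lit 78) (PT.lf (nat_lit 52972) (nat_lit 3) (nat_lit 697) (nat_lit 0) (nat_lit 204) (nat_lit 183) (nat_lit 183)) (PT.lf (nat_lit 51832) (nat_lit 6) (nat_lit 682) (nat_lit 0) (nat_lit 205) (nat_lit 183) (nat_lit 182)))))) (PT.nd (nat_lit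 546) (PT.nd (nat_lit 234) (PT.nd (nat_lit 78) (PT.lf (nat_lit 50616) (nat_lit 6) (nat_lit 666) (nat_lit 0) (nat_lit 206) (nat_lit 183) (nat_lit 181)) (PT.nd (nat_lit 78) (PT.lf (nat_lit 49324) (nat_lit 6) (nat_lit 649) (nat_lit 0) (nat_lit 207) (nat_lit 183) (nat_lit 180)) (PT.lf (nat_lit 47956) (nat_lit 6) (nat_lit 631) (nat_lit 0) (nat_lit 208) (nat_lit 183) (nat_lit 179)))) (PT.nd (nat_lit 156) (PT.nd (nat_lit 78) (PT.lf (nat_lit 46512) (nat_lit 6) (nat_lit 612) (nat_lit 0) (nat_lit 209) (nat_lit 183) (nat_lit 178)) (PT.lf (nat_lit 44992) (nat_lit 6) (nat_lit 592) (nat_lit 0) (nat_lit 210) (nat_lit 183) (nat_lit 177))) (PT.nd (nat_lit 78) (PT.lf (nat_lit 43396) (nat_lit 6) (nat_lit 571) (nat_lit 0) (nat_lit 211) (nat_lit 183) (nat_lit 176)) (PT.lf (nat_lit 41724) (nat_lit 6) (nat_lit 549) (nat_lit 0) (nat_lit 212) (nat_lit 183) (nat_lit 175))))) (PT.nd (nat_lit 56316) (PT.nd (nat_lit 56160) (PT.nd (nat_lit 78) (PT.lf (nat_lit 39976) (nat_lit 6) (nat_lit 526)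 (nat_lit 0) (nat_lit 213) (nat_lit 183) (nat_lit 174)) (PT.lf (nat_lit 38152) (nat_lit 6) (nat_lit 502) (nat_lit 0) (nat_lit 214) (nat_lit 183) (nat_lit 173))) (PT.nd (nat_lit 78) (PT.lf (nat_lit 38228) (nat_lit 6) (nat_lit 503) (nat_lit 5) (nat_lit 172) (nat_lit 184) (nat_lit 214)) (PT.lf (nat_lit 40052) (nat_lit 6) (nat_lit 527) (nat_lit 5) (nat_lit 173) (nat_lit 184) (nat_lit 213)))) (PT.nd (nat_lit 156) (PT.nd (nat_lit 78) (PT.lf (nat_lit 41800) (nat_lit 6) (nat_lit 550) (nat_lit 5) (nat_lit 174) (nat_lit 184) (nat_lit 212)) (PT.lf (nat_lit 43472) (nat_lit 6) (nat_lit 572) (nat_lit 5) (nat_lit 175) (nat_lit 184) (nat_lit 211))) (PT.nd (nat_lit 78) (PT.lf (nat_lit 45068) (nat_lit 6) (nat_lit 593) (nat_lit 5) (nat_lit 176) (nat_lit 184) (nat_lit 210)) (PT.lf (nat_lit 46588) (nat_lit 6) (nat_lit 613) (nat_lit 5) (nat_lit 177) (nat_lit 184) (nat_lit 209))))))) (PT.nd (nat_lit 1170) (PT.nd (nat_lit 546) (PT.nd (nat_lit 234) (PT.nd (nat_lit 78) (PT.lf (nat_lit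 48032) (nat_lit 6) (nat_lit 632) (nat_lit 5) (nat_lit 178) (nat_lit 184) (nat_lit 208)) (PT.nd (nat_lit 78) (PT.lf (nat_lit 49400) (nat_lit 6) (nat_lit 650) (nat_lit 5) (nat_lit 179) (nat_lit 184) (nat_lit 207)) (PT.lf (nat_lit 50692) (nat_lit 6) (nat_lit 667) (nat_lit 5) (nat_lit 180) (nat_lit 184) (nat_lit 206)))) (PT.nd (nat_lit 156) (PT.nd (nat_lit 78) (PT.lf (nat_lit 51908) (nat_lit 6) (nat_lit 683) (nat_lit 5) (nat_lit 181) (nat_lit 184) (nat_lit 205)) (PT.lf (nat_lit 53048) (nat_lit 6) (nat_lit 698) (nat_lit 5) (nat_lit 182) (nat_lit 184) (nat_lit 204))) (PT.nd (nat_lit 78) (PT.lf (nat_lit 54112) (nat_lit 6) (nat_lit 712) (nat_lit 5) (nat_lit 183) (nat_lit 184) (nat_lit 203)) (PT.lf (nat_lit 55100) (nat_lit 3) (nat_lit 725) (nat_lit 3) (nat_lit 184) (nat_lit 184) (nat_lit 202))))) (PT.nd (nat_lit 312) (PT.nd (nat_lit 156) (PT.nd (nat_lit 78) (PT.lf (nat_lit 56088) (nat_lit 6) (nat_lit 738) (nat_lit 3) (nat_lit 185) (nat_lit 184) (nat_lit 201)) (PT.lf (nat_lit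 57000) (nat_lit 6) (nat_lit 750) (nat_lit 3) (nat_lit 186) (nat_lit 184) (nat_lit 200))) (PT.nd (nat_lit 78) (PT.lf (nat_lit 57836) (nat_lit 6) (nat_lit 761) (nat_lit 3) (nat_lit 187) (nat_lit 184) (nat_lit 199)) (PT.lf (nat_lit 58596) (nat_lit 6) (nat_lit 771) (nat_lit 3) (nat_lit 188) (nat_lit 184) (nat_lit 198)))) (PT.nd (nat_lit 156) (PT.nd (nat_lit 78) (PT.lf (nat_lit 59280) (nat_lit 6) (nat_lit 780) (nat_lit 3) (nat_lit 189) (nat_lit 184) (nat_lit 197)) (PT.lf (nat_lit 59888) (nat_lit 6) (nat_lit 788) (nat_lit 3) (nat_lit 190) (nat_lit 184) (nat_lit 196))) (PT.nd (nat_lit 78) (PT.lf (nat_lit 59964) (nat_lit 6) (nat_lit 789) (nat_lit 3) (nat_lit 191) (nat_lit 184) (nat_lit 195)) (PT.lf (nat_lit 60040) (nat_lit 6) (nat_lit 790) (nat_lit 3) (nat_lit 192) (nat_lit 184) (nat_lit 194)))))) (PT.nd (nat_lit 624) (PT.nd (nat_lit 312) (PT.nd (nat_lit 156) (PT.nd (nat_lit 78) (PT.lf (nat_lit 60116) (nat_lit 3) (nat_lit 791) (nat_lit 1) (nat_lit 193) (nat_lit 184)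 (nat_lit 193)) (PT.lf (nat_lit 60040) (nat_lit 6) (nat_lit 790) (nat_lit 1) (nat_lit 194) (nat_lit 184) (nat_lit 192))) (PT.nd (nat_lit 78) (PT.lf (nat_lit 59964) (nat_lit 6) (nat_lit 789) (nat_lit 1) (nat_lit 195) (nat_lit 184) (nat_lit 191)) (PT.lf (nat_lit 59888) (nat_lit 6) (nat_lit 788) (nat_lit 1) (nat_lit 196) (nat_lit 184) (nat_lit 190)))) (PT.nd (nat_lit 156) (PT.nd (nat_lit 78) (PT.lf (nat_lit 59280) (nat_lit 6) (nat_lit 780) (nat_lit 1) (nat_lit 197) (nat_lit 184) (nat_lit 189)) (PT.lf (nat_lit 58596) (nat_lit 6) (nat_lit 771) (nat_lit 1) (nat_lit 198) (nat_lit 184) (nat_lit 188))) (PT.nd (nat_lit 78) (PT.lf (nat_lit 57836) (nat_lit 6) (nat_lit 761) (nat_lit 1) (nat_lit 199) (nat_lit 184) (nat_lit 187)) (PT.lf (nat_lit 57000) (nat_lit 6) (nat_lit 750) (nat_lit 1) (nat_lit 200) (nat_lit 184) (nat_lit 186))))) (PT.nd (nat_lit 312) (PT.nd (nat_lit 156) (PT.nd (nat_lit 78) (PT.lf (nat_lit 56088) (nat_lit 6) (nat_lit 738) (nat_lit 1) (nat_lit 201) (nat_lit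 184) (nat_lit 185)) (PT.lf (nat_lit 55100) (nat_lit 3) (nat_lit 725) (nat_lit 0) (nat_lit 202) (nat_lit 184) (nat_lit 184))) (PT.nd (nat_lit 78) (PT.lf (nat_lit 54112) (nat_lit 6) (nat_lit 712) (nat_lit 0) (nat_lit 203) (nat_lit 184) (nat_lit 183)) (PT.lf (nat_lit 53048) (nat_lit 6) (nat_lit 698) (nat_lit 0) (nat_lit 204) (nat_lit 184) (nat_lit 182)))) (PT.nd (nat_lit 156) (PT.nd (nat_lit 78) (PT.lf (nat_lit 51908) (nat_lit 6) (nat_lit 683) (nat_lit 0) (nat_lit 205) (nat_lit 184) (nat_lit 181)) (PT.lf (nat_lit 50692) (nat_lit 6) (nat_lit 667) (nat_lit 0) (nat_lit 206) (nat_lit 184) (nat_lit 180))) (PT.nd (nat_lit 78) (PT.lf (nat_lit 49400) (nat_lit 6) (nat_lit 650) (nat_lit 0) (nat_lit 207) (nat_lit 184) (nat_lit 179)) (PT.lf (nat_lit 48032) (nat_lit 6) (nat_lit 632) (nat_lit 0) (nat_lit 208) (nat_lit 184) (nat_lit 178))))))))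
noncomputable def pc22 : PT := (PT.nd (nat_lit 58266) (PT.nd (nat_lit 57096) (PT.nd (nat_lit 56472) (PT.nd (nat_lit 234) (PT.nd (nat_lit 78) (PT.lf (nat_lit 46588) (nat_lit 6) (nat_lit 613) (nat_lit 0) (nat_lit 209) (nat_lit 184) (nat_lit 177)) (PT.nd (nat_lit 78) (PT.lf (nat_lit 45068) (nat_lit 6) (nat_lit 593) (nat_lit 0) (nat_lit 210) (nat_lit 184) (nat_lit 176)) (PT.lf (nat_lit 43472) (nat_lit 6) (nat_lit 572) (nat_lit 0) (nat_lit 211) (nat_lit 184) (nat_lit 175)))) (PT.nd (nat_lit 156) (PT.nd (nat_lit 78) (PT.lf (nat_lit 41800) (nat_lit 6) (nat_lit 550) (nat_lit 0) (nat_lit 212) (nat_lit 184) (nat_lit 174)) (PT.lf (nat_lit 40052) (nat_lit 6) (nat_lit 527) (nat_lit 0) (nat_lit 213) (nat_lit 184) (nat_lit 173))) (PT.nd (nat_lit 56004) (PT.lf (nat_lit 38228) (nat_lit 6) (nat_lit 503) (nat_lit 0) (nat_lit 214) (nat_lit 184) (nat_lit 172)) (PT.lf (nat_lit 38304) (nat_lit 6) (nat_lit 504) (nat_lit 5) (nat_lit 171) (nat_lit 185) (nat_lit 214))))) (PT.nd (nat_lit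 312) (PT.nd (nat_lit 156) (PT.nd (nat_lit 78) (PT.lf (nat_lit 40128) (nat_lit 6) (nat_lit 528) (nat_lit 5) (nat_lit 172) (nat_lit 185) (nat_lit 213)) (PT.lf (nat_lit 41876) (nat_lit 6) (nat_lit 551) (nat_lit 5) (nat_lit 173) (nat_lit 185) (nat_lit 212))) (PT.nd (nat_lit 78) (PT.lf (nat_lit 43548) (nat_lit 6) (nat_lit 573) (nat_lit 5) (nat_lit 174) (nat_lit 185) (nat_lit 211)) (PT.lf (nat_lit 45144) (nat_lit 6) (nat_lit 594) (nat_lit 5) (nat_lit 175) (nat_lit 185) (nat_lit 210)))) (PT.nd (nat_lit 156) (PT.nd (nat_lit 78) (PT.lf (nat_lit 46664) (nat_lit 6) (nat_lit 614) (nat_lit 5) (nat_lit 176) (nat_lit 185) (nat_lit 209)) (PT.lf (nat_lit 48108) (nat_lit 6) (nat_lit 633) (nat_lit 5) (nat_lit 177) (nat_lit 185) (nat_lit 208))) (PT.nd (nat_lit 78) (PT.lf (nat_lit 49476) (nat_lit 6) (nat_lit 651) (nat_lit 5) (nat_lit 178) (nat_lit 185) (nat_lit 207)) (PT.lf (nat_lit 50768) (nat_lit 6) (nat_lit 668) (nat_lit 5) (nat_lit 179) (nat_lit 185) (nat_lit 206)))))) (PT.nd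 (nat_lit 546) (PT.nd (nat_lit 234) (PT.nd (nat_lit 78) (PT.lf (nat_lit 51984) (nat_lit 6) (nat_lit 684) (nat_lit 5) (nat_lit 180) (nat_lit 185) (nat_lit 205)) (PT.nd (nat_lit 78) (PT.lf (nat_lit 53124) (nat_lit 6) (nat_lit 699) (nat_lit 5) (nat_lit 181) (nat_lit 185) (nat_lit 204)) (PT.lf (nat_lit 54188) (nat_lit 6) (nat_lit 713) (nat_lit 5) (nat_lit 182) (nat_lit 185) (nat_lit 203)))) (PT.nd (nat_lit 156) (PT.nd (nat_lit 78) (PT.lf (nat_lit 55176) (nat_lit 6) (nat_lit 726) (nat_lit 5) (nat_lit 183) (nat_lit 185) (nat_lit 202)) (PT.lf (nat_lit 56088) (nat_lit 6) (nat_lit 738) (nat_lit 5) (nat_lit 184) (nat_lit 185) (nat_lit 201))) (PT.nd (nat_lit 78) (PT.lf (nat_lit 56924) (nat_lit 3) (nat_lit 749) (nat_lit 3) (nat_lit 185) (nat_lit 185) (nat_lit 200)) (PT.lf (nat_lit 57760) (nat_lit 6) (nat_lit 760) (nat_lit 3) (nat_lit 186) (nat_lit 185) (nat_lit 199))))) (PT.nd (nat_lit 312) (PT.nd (nat_lit 156) (PT.nd (nat_lit 78) (PT.lf (nat_lit 58520) (nat_lit 6) (nat_lit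 770) (nat_lit 3) (nat_lit 187) (nat_lit 185) (nat_lit 198)) (PT.lf (nat_lit 59204) (nat_lit 6) (nat_lit 779) (nat_lit 3) (nat_lit 188) (nat_lit 185) (nat_lit 197))) (PT.nd (nat_lit 78) (PT.lf (nat_lit 59812) (nat_lit 6) (nat_lit 787) (nat_lit 3) (nat_lit 189) (nat_lit 185) (nat_lit 196)) (PT.lf (nat_lit 60344) (nat_lit 6) (nat_lit 794) (nat_lit 3) (nat_lit 190) (nat_lit 185) (nat_lit 195)))) (PT.nd (nat_lit 156) (PT.nd (nat_lit 78) (PT.lf (nat_lit 60420) (nat_lit 6) (nat_lit 795) (nat_lit 3) (nat_lit 191) (nat_lit 185) (nat_lit 194)) (PT.lf (nat_lit 60496) (nat_lit 6) (nat_lit 796) (nat_lit 3) (nat_lit 192) (nat_lit 185) (nat_lit 193))) (PT.nd (nat_lit 78) (PT.lf (nat_lit 60496) (nat_lit 6) (nat_lit 796) (nat_lit 1) (nat_lit 193) (nat_lit 185) (nat_lit 192)) (PT.lf (nat_lit 60420) (nat_lit 6) (nat_lit 795) (nat_lit 1) (nat_lit 194) (nat_lit 185) (nat_lit 191))))))) (PT.nd (nat_lit 1170) (PT.nd (nat_lit 546) (PT.nd (nat_lit 234) (PT.nd (nat_lit 78) (PT.lf (nat_lit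 60344) (nat_lit 6) (nat_lit 794) (nat_lit 1) (nat_lit 195) (nat_lit 185) (nat_lit 190)) (PT.nd (nat_lit 78) (PT.lf (nat_lit 59812) (nat_lit 6) (nat_lit 787) (nat_lit 1) (nat_lit 196) (nat_lit 185) (nat_lit 189)) (PT.lf (nat_lit 59204) (nat_lit 6) (nat_lit 779) (nat_lit 1) (nat_lit 197) (nat_lit 185) (nat_lit 188)))) (PT.nd (nat_lit 156) (PT.nd (nat_lit 78) (PT.lf (nat_lit 58520) (nat_lit 6) (nat_lit 770) (nat_lit 1) (nat_lit 198) (nat_lit 185) (nat_lit 187)) (PT.lf (nat_lit 57760) (nat_lit 6) (nat_lit 760) (nat_lit 1) (nat_lit 199) (nat_lit 185) (nat_lit 186))) (PT.nd (nat_lit 78) (PT.lf (nat_lit 56924) (nat_lit 3) (nat_lit 749) (nat_lit 0) (nat_lit 200) (nat_lit 185) (nat_lit 185)) (PT.lf (nat_lit 56088) (nat_lit 6) (nat_lit 738) (nat_lit 0) (nat_lit 201) (nat_lit 185) (nat_lit 184))))) (PT.nd (nat_lit 312) (PT.nd (nat_lit 156) (PT.nd (nat_lit 78) (PT.lf (nat_lit 55176) (nat_lit 6) (nat_lit 726) (nat_lit 0) (nat_lit 202) (nat_lit 185) (nat_lit 183)) (PT.lf (nat_lit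 54188) (nat_lit 6) (nat_lit 713) (nat_lit 0) (nat_lit 203) (nat_lit 185) (nat_lit 182))) (PT.nd (nat_lit 78) (PT.lf (nat_lit 53124) (nat_lit 6) (nat_lit 699) (nat_lit 0) (nat_lit 204) (nat_lit 185) (nat_lit 181)) (PT.lf (nat_lit 51984) (nat_lit 6) (nat_lit 684) (nat_lit 0) (nat_lit 205) (nat_lit 185) (nat_lit 180)))) (PT.nd (nat_lit 156) (PT.nd (nat_lit 78) (PT.lf (nat_lit 50768) (nat_lit 6) (nat_lit 668) (nat_lit 0) (nat_lit 206) (nat_lit 185) (nat_lit 179)) (PT.lf (nat_lit 49476) (nat_lit 6) (nat_lit 651) (nat_lit 0) (nat_lit 207) (nat_lit 185) (nat_lit 178))) (PT.nd (nat_lit 78) (PT.lf (nat_lit 48108) (nat_lit 6) (nat_lit 633) (nat_lit 0) (nat_lit 208) (nat_lit 185) (nat_lit 177)) (PT.lf (nat_lit 46664) (nat_lit 6) (nat_lit 614) (nat_lit 0) (nat_lit 209) (nat_lit 185) (nat_lit 176)))))) (PT.nd (nat_lit 56472) (PT.nd (nat_lit 312) (PT.nd (nat_lit 156) (PT.nd (nat_lit 78) (PT.lf (nat_lit 45144) (nat_lit 6) (nat_lit 594) (nat_lit 0) (nat_lit 210) (nat_lit 185)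 (nat_lit 175)) (PT.lf (nat_lit 43548) (nat_lit 6) (nat_lit 573) (nat_lit 0) (nat_lit 211) (nat_lit 185) (nat_lit 174))) (PT.nd (nat_lit 78) (PT.lf (nat_lit 41876) (nat_lit 6) (nat_lit 551) (nat_lit 0) (nat_lit 212) (nat_lit 185) (nat_lit 173)) (PT.lf (nat_lit 40128) (nat_lit 6) (nat_lit 528) (nat_lit 0) (nat_lit 213) (nat_lit 185) (nat_lit 172)))) (PT.nd (nat_lit 56004) (PT.nd (nat_lit 55926) (PT.lf (nat_lit 38304) (nat_lit 6) (nat_lit 504) (nat_lit 0) (nat_lit 214) (nat_lit 185) (nat_lit 171)) (PT.lf (nat_lit 38380) (nat_lit 6) (nat_lit 505) (nat_lit 5) (nat_lit 170) (nat_lit 186) (nat_lit 214))) (PT.nd (nat_lit 78) (PT.lf (nat_lit 40204) (nat_lit 6) (nat_lit 529) (nat_lit 5) (nat_lit 171) (nat_lit 186) (nat_lit 213)) (PT.lf (nat_lit 41952) (nat_lit 6) (nat_lit 552) (nat_lit 5) (nat_lit 172) (nat_lit 186) (nat_lit 212))))) (PT.nd (nat_lit 312) (PT.nd (nat_lit 156) (PT.nd (nat_lit 78) (PT.lf (nat_lit 43624) (nat_lit 6) (nat_lit 574) (nat_lit 5) (nat_lit 173)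 (nat_lit 186) (nat_lit 211)) (PT.lf (nat_lit 45220) (nat_lit 6) (nat_lit 595) (nat_lit 5) (nat_lit 174) (nat_lit 186) (nat_lit 210))) (PT.nd (nat_lit 78) (PT.lf (nat_lit 46740) (nat_lit 6) (nat_lit 615) (nat_lit 5) (nat_lit 175) (nat_lit 186) (nat_lit 209)) (PT.lf (nat_lit 48184) (nat_lit 6) (nat_lit 634) (nat_lit 5) (nat_lit 176) (nat_lit 186) (nat_lit 208)))) (PT.nd (nat_lit 156) (PT.nd (nat_lit 78) (PT.lf (nat_lit 49552) (nat_lit 6) (nat_lit 652) (nat_lit 5) (nat_lit 177) (nat_lit 186) (nat_lit 207)) (PT.lf (nat_lit 50844) (nat_lit 6) (nat_lit 669) (nat_lit 5) (nat_lit 178) (nat_lit 186) (nat_lit 206))) (PT.nd (nat_lit 78) (PT.lf (nat_lit 52060) (nat_lit 6) (nat_lit 685) (nat_lit 5) (nat_lit 179) (nat_lit 186) (nat_lit 205)) (PT.lf (nat_lit 53200) (nat_lit 6) (nat_lit 700) (nat_lit 5) (nat_lit 180) (nat_lit 186) (nat_lit 204))))))))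
noncomputable def pc23 : PT := (PT.nd (nat_lit 2418) (PT.nd (nat_lit 1170) (PT.nd (nat_lit 546) (PT.nd (nat_lit 234) (PT.nd (nat_lit 78) (PT.lf (nat_lit 54264) (nat_lit 6) (nat_lit 714) (nat_lit 5) (nat_lit 181) (nat_lit 186) (nat_lit 203)) (PT.nd (nat_lit 78) (PT.lf (nat_lit 55252) (nat_lit 6) (nat_lit 727) (nat_lit 5) (nat_lit 182) (nat_lit 186) (nat_lit 202)) (PT.lf (nat_lit 56164) (nat_lit 6) (nat_lit 739) (nat_lit 5) (nat_lit 183) (nat_lit 186) (nat_lit 201)))) (PT.nd (nat_lit 156) (PT.nd (nat_lit 78) (PT.lf (nat_lit 57000) (nat_lit 6) (nat_lit 750) (nat_lit 5) (nat_lit 184) (nat_lit 186) (nat_lit 200)) (PT.lf (nat_lit 57760) (nat_lit 6) (nat_lit 760) (nat_lit 5) (nat_lit 185) (nat_lit 186) (nat_lit 199))) (PT.nd (nat_lit 78) (PT.lf (nat_lit 58444) (nat_lit 3) (nat_lit 769) (nat_lit 3) (nat_lit 186) (nat_lit 186) (nat_lit 198)) (PT.lf (nat_lit 59128) (nat_lit 6) (nat_lit 778) (nat_lit 3) (nat_lit 187) (nat_lit 186) (nat_lit 197))))) (PT.nd (nat_lit 312)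 (PT.nd (nat_lit 156) (PT.nd (nat_lit 78) (PT.lf (nat_lit 59736) (nat_lit 6) (nat_lit 786) (nat_lit 3) (nat_lit 188) (nat_lit 186) (nat_lit 196)) (PT.lf (nat_lit 60268) (nat_lit 6) (nat_lit 793) (nat_lit 3) (nat_lit 189) (nat_lit 186) (nat_lit 195))) (PT.nd (nat_lit 78) (PT.lf (nat_lit 60724) (nat_lit 6) (nat_lit 799) (nat_lit 3) (nat_lit 190) (nat_lit 186) (nat_lit 194)) (PT.lf (nat_lit 60800) (nat_lit 6) (nat_lit 800) (nat_lit 3) (nat_lit 191) (nat_lit 186) (nat_lit 193)))) (PT.nd (nat_lit 156) (PT.nd (nat_lit 78) (PT.lf (nat_lit 60876) (nat_lit 3) (nat_lit 801) (nat_lit 1) (nat_lit 192) (nat_lit 186) (nat_lit 192)) (PT.lf (nat_lit 60800) (nat_lit 6) (nat_lit 800) (nat_lit 1) (nat_lit 193) (nat_lit 186) (nat_lit 191))) (PT.nd (nat_lit 78) (PT.lf (nat_lit 60724) (nat_lit 6) (nat_lit 799) (nat_lit 1) (nat_lit 194) (nat_lit 186) (nat_lit 190)) (PT.lf (nat_lit 60268) (nat_lit 6) (nat_lit 793) (nat_lit 1) (nat_lit 195) (nat_lit 186) (nat_lit 189)))))) (PT.nd (nat_lit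 624) (PT.nd (nat_lit 312) (PT.nd (nat_lit 156) (PT.nd (nat_lit 78) (PT.lf (nat_lit 59736) (nat_lit 6) (nat_lit 786) (nat_lit 1) (nat_lit 196) (nat_lit 186) (nat_lit 188)) (PT.lf (nat_lit 59128) (nat_lit 6) (nat_lit 778) (nat_lit 1) (nat_lit 197) (nat_lit 186) (nat_lit 187))) (PT.nd (nat_lit 78) (PT.lf (nat_lit 58444) (nat_lit 3) (nat_lit 769) (nat_lit 0) (nat_lit 198) (nat_lit 186) (nat_lit 186)) (PT.lf (nat_lit 57760) (nat_lit 6) (nat_lit 760) (nat_lit 0) (nat_lit 199) (nat_lit 186) (nat_lit 185)))) (PT.nd (nat_lit 156) (PT.nd (nat_lit 78) (PT.lf (nat_lit 57000) (nat_lit 6) (nat_lit 750) (nat_lit 0) (nat_lit 200) (nat_lit 186) (nat_lit 184)) (PT.lf (nat_lit 56164) (nat_lit 6) (nat_lit 739) (nat_lit 0) (nat_lit 201) (nat_lit 186) (nat_lit 183))) (PT.nd (nat_lit 78) (PT.lf (nat_lit 55252) (nat_lit 6) (nat_lit 727) (nat_lit 0) (nat_lit 202) (nat_lit 186) (nat_lit 182)) (PT.lf (nat_lit 54264) (nat_lit 6) (nat_lit 714) (nat_lit 0) (nat_lit 203) (nat_lit 186) (nat_lit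 181))))) (PT.nd (nat_lit 312) (PT.nd (nat_lit 156) (PT.nd (nat_lit 78) (PT.lf (nat_lit 53200) (nat_lit 6) (nat_lit 700) (nat_lit 0) (nat_lit 204) (nat_lit 186) (nat_lit 180)) (PT.lf (nat_lit 52060) (nat_lit 6) (nat_lit 685) (nat_lit 0) (nat_lit 205) (nat_lit 186) (nat_lit 179))) (PT.nd (nat_lit 78) (PT.lf (nat_lit 50844) (nat_lit 6) (nat_lit 669) (nat_lit 0) (nat_lit 206) (nat_lit 186) (nat_lit 178)) (PT.lf (nat_lit 49552) (nat_lit 6) (nat_lit 652) (nat_lit 0) (nat_lit 207) (nat_lit 186) (nat_lit 177)))) (PT.nd (nat_lit 156) (PT.nd (nat_lit 78) (PT.lf (nat_lit 48184) (nat_lit 6) (nat_lit 634) (nat_lit 0) (nat_lit 208) (nat_lit 186) (nat_lit 176)) (PT.lf (nat_lit 46740) (nat_lit 6) (nat_lit 615) (nat_lit 0) (nat_lit 209) (nat_lit 186) (nat_lit 175))) (PT.nd (nat_lit 78) (PT.lf (nat_lit 45220) (nat_lit 6) (nat_lit 595) (nat_lit 0) (nat_lit 210) (nat_lit 186) (nat_lit 174)) (PT.lf (nat_lit 43624) (nat_lit 6) (nat_lit 574) (nat_lit 0) (nat_lit 211) (nat_lit 186)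 (nat_lit 173))))))) (PT.nd (nat_lit 56940) (PT.nd (nat_lit 56316) (PT.nd (nat_lit 56004) (PT.nd (nat_lit 78) (PT.lf (nat_lit 41952) (nat_lit 6) (nat_lit 552) (nat_lit 0) (nat_lit 212) (nat_lit 186) (nat_lit 172)) (PT.nd (nat_lit 78) (PT.lf (nat_lit 40204) (nat_lit 6) (nat_lit 529) (nat_lit 0) (nat_lit 213) (nat_lit 186) (nat_lit 171)) (PT.lf (nat_lit 38380) (nat_lit 6) (nat_lit 505) (nat_lit 0) (nat_lit 214) (nat_lit 186) (nat_lit 170)))) (PT.nd (nat_lit 156) (PT.nd (nat_lit 78) (PT.lf (nat_lit 38456) (nat_lit 6) (nat_lit 506) (nat_lit 5) (nat_lit 169) (nat_lit 187) (nat_lit 214)) (PT.lf (nat_lit 40280) (nat_lit 6) (nat_lit 530) (nat_lit 5) (nat_lit 170) (nat_lit 187) (nat_lit 213))) (PT.nd (nat_lit 78) (PT.lf (nat_lit 42028) (nat_lit 6) (nat_lit 553) (nat_lit 5) (nat_lit 171) (nat_lit 187) (nat_lit 212)) (PT.lf (nat_lit 43700) (nat_lit 6) (nat_lit 575) (nat_lit 5) (nat_lit 172) (nat_lit 187) (nat_lit 211))))) (PT.nd (nat_lit 312) (PT.nd (nat_lit 156) (PT.nd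 (nat_lit 78) (PT.lf (nat_lit 45296) (nat_lit 6) (nat_lit 596) (nat_lit 5) (nat_lit 173) (nat_lit 187) (nat_lit 210)) (PT.lf (nat_lit 46816) (nat_lit 6) (nat_lit 616) (nat_lit 5) (nat_lit 174) (nat_lit 187) (nat_lit 209))) (PT.nd (nat_lit 78) (PT.lf (nat_lit 48260) (nat_lit 6) (nat_lit 635) (nat_lit 5) (nat_lit 175) (nat_lit 187) (nat_lit 208)) (PT.lf (nat_lit 49628) (nat_lit 6) (nat_lit 653) (nat_lit 5) (nat_lit 176) (nat_lit 187) (nat_lit 207)))) (PT.nd (nat_lit 156) (PT.nd (nat_lit 78) (PT.lf (nat_lit 50920) (nat_lit 6) (nat_lit 670) (nat_lit 5) (nat_lit 177) (nat_lit 187) (nat_lit 206)) (PT.lf (nat_lit 52136) (nat_lit 6) (nat_lit 686) (nat_lit 5) (nat_lit 178) (nat_lit 187) (nat_lit 205))) (PT.nd (nat_lit 78) (PT.lf (nat_lit 53276) (nat_lit 6) (nat_lit 701) (nat_lit 5) (nat_lit 179) (nat_lit 187) (nat_lit 204)) (PT.lf (nat_lit 54340) (nat_lit 6) (nat_lit 715) (nat_lit 5) (nat_lit 180) (nat_lit 187) (nat_lit 203)))))) (PT.nd (nat_lit 624) (PT.nd (nat_lit 312)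 (PT.nd (nat_lit 156) (PT.nd (nat_lit 78) (PT.lf (nat_lit 55328) (nat_lit 6) (nat_lit 728) (nat_lit 5) (nat_lit 181) (nat_lit 187) (nat_lit 202)) (PT.lf (nat_lit 56240) (nat_lit 6) (nat_lit 740) (nat_lit 5) (nat_lit 182) (nat_lit 187) (nat_lit 201))) (PT.nd (nat_lit 78) (PT.lf (nat_lit 57076) (nat_lit 6) (nat_lit 751) (nat_lit 5) (nat_lit 183) (nat_lit 187) (nat_lit 200)) (PT.lf (nat_lit 57836) (nat_lit 6) (nat_lit 761) (nat_lit 5) (nat_lit 184) (nat_lit 187) (nat_lit 199)))) (PT.nd (nat_lit 156) (PT.nd (nat_lit 78) (PT.lf (nat_lit 58520) (nat_lit 6) (nat_lit 770) (nat_lit 5) (nat_lit 185) (nat_lit 187) (nat_lit 198)) (PT.lf (nat_lit 59128) (nat_lit 6) (nat_lit 778) (nat_lit 5) (nat_lit 186) (nat_lit 187) (nat_lit 197))) (PT.nd (nat_lit 78) (PT.lf (nat_lit 59660) (nat_lit 3) (nat_lit 785) (nat_lit 3) (nat_lit 187) (nat_lit 187) (nat_lit 196)) (PT.lf (nat_lit 60192) (nat_lit 6) (nat_lit 792) (nat_lit 3) (nat_lit 188) (nat_lit 187) (nat_lit 195))))) (PT.nd (nat_lit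 312) (PT.nd (nat_lit 156) (PT.nd (nat_lit 78) (PT.lf (nat_lit 60648) (nat_lit 6) (nat_lit 798) (nat_lit 3) (nat_lit 189) (nat_lit 187) (nat_lit 194)) (PT.lf (nat_lit 61028) (nat_lit 6) (nat_lit 803) (nat_lit 3) (nat_lit 190) (nat_lit 187) (nat_lit 193))) (PT.nd (nat_lit 78) (PT.lf (nat_lit 61104) (nat_lit 6) (nat_lit 804) (nat_lit 3) (nat_lit 191) (nat_lit 187) (nat_lit 192)) (PT.lf (nat_lit 61104) (nat_lit 6) (nat_lit 804) (nat_lit 1) (nat_lit 192) (nat_lit 187) (nat_lit 191)))) (PT.nd (nat_lit 156) (PT.nd (nat_lit 78) (PT.lf (nat_lit 61028) (nat_lit 6) (nat_lit 803) (nat_lit 1) (nat_lit 193) (nat_lit 187) (nat_lit 190)) (PT.lf (nat_lit 60648) (nat_lit 6) (nat_lit 798) (nat_lit 1) (nat_lit 194) (nat_lit 187) (nat_lit 189))) (PT.nd (nat_lit 78) (PT.lf (nat_lit 60192) (nat_lit 6) (nat_lit 792) (nat_lit 1) (nat_lit 195) (nat_lit 187) (nat_lit 188)) (PT.lf (nat_lit 59660) (nat_lit 3) (nat_lit 785) (nat_lit 0) (nat_lit 196) (nat_lit 187) (nat_lit 187))))))))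
noncomputable def pc24 : PT := (PT.nd (nat_lit 57954) (PT.nd (nat_lit 1170) (PT.nd (nat_lit 546) (PT.nd (nat_lit 234) (PT.nd (nat_lit 78) (PT.lf (nat_lit 59128) (nat_lit 6) (nat_lit 778) (nat_lit 0) (nat_lit 197) (nat_lit 187) (nat_lit 186)) (PT.nd (nat_lit 78) (PT.lf (nat_lit 58520) (nat_lit 6) (nat_lit 770) (nat_lit 0) (nat_lit 198) (nat_lit 187) (nat_lit 185)) (PT.lf (nat_lit 57836) (nat_lit 6) (nat_lit 761) (nat_lit 0) (nat_lit 199) (nat_lit 187) (nat_lit 184)))) (PT.nd (nat_lit 156) (PT.nd (nat_lit 78) (PT.lf (nat_lit 57076) (nat_lit 6) (nat_lit 751) (nat_lit 0) (nat_lit 200) (nat_lit 187) (nat_lit 183)) (PT.lf (nat_lit 56240) (nat_lit 6) (nat_lit 740) (nat_lit 0) (nat_lit 201) (nat_lit 187) (nat_lit 182))) (PT.nd (nat_lit 78) (PT.lf (nat_lit 55328) (nat_lit 6) (nat_lit 728) (nat_lit 0) (nat_lit 202) (nat_lit 187) (nat_lit 181)) (PT.lf (nat_lit 54340) (nat_lit 6) (nat_lit 715) (nat_lit 0) (nat_lit 203) (nat_lit 187) (nat_lit 180))))) (PT.nd (nat_lit 312)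 (PT.nd (nat_lit 156) (PT.nd (nat_lit 78) (PT.lf (nat_lit 53276) (nat_lit 6) (nat_lit 701) (nat_lit 0) (nat_lit 204) (nat_lit 187) (nat_lit 179)) (PT.lf (nat_lit 52136) (nat_lit 6) (nat_lit 686) (nat_lit 0) (nat_lit 205) (nat_lit 187) (nat_lit 178))) (PT.nd (nat_lit 78) (PT.lf (nat_lit 50920) (nat_lit 6) (nat_lit 670) (nat_lit 0) (nat_lit 206) (nat_lit 187) (nat_lit 177)) (PT.lf (nat_lit 49628) (nat_lit 6) (nat_lit 653) (nat_lit 0) (nat_lit 207) (nat_lit 187) (nat_lit 176)))) (PT.nd (nat_lit 156) (PT.nd (nat_lit 78) (PT.lf (nat_lit 48260) (nat_lit 6) (nat_lit 635) (nat_lit 0) (nat_lit 208) (nat_lit 187) (nat_lit 175)) (PT.lf (nat_lit 46816) (nat_lit 6) (nat_lit 616) (nat_lit 0) (nat_lit 209) (nat_lit 187) (nat_lit 174))) (PT.nd (nat_lit 78) (PT.lf (nat_lit 45296) (nat_lit 6) (nat_lit 596) (nat_lit 0) (nat_lit 210) (nat_lit 187) (nat_lit 173)) (PT.lf (nat_lit 43700) (nat_lit 6) (nat_lit 575) (nat_lit 0) (nat_lit 211) (nat_lit 187) (nat_lit 172)))))) (PT.nd (nat_lit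 56160) (PT.nd (nat_lit 55848) (PT.nd (nat_lit 78) (PT.lf (nat_lit 42028) (nat_lit 6) (nat_lit 553) (nat_lit 0) (nat_lit 212) (nat_lit 187) (nat_lit 171)) (PT.nd (nat_lit 78) (PT.lf (nat_lit 40280) (nat_lit 6) (nat_lit 530) (nat_lit 0) (nat_lit 213) (nat_lit 187) (nat_lit 170)) (PT.lf (nat_lit 38456) (nat_lit 6) (nat_lit 506) (nat_lit 0) (nat_lit 214) (nat_lit 187) (nat_lit 169)))) (PT.nd (nat_lit 156) (PT.nd (nat_lit 78) (PT.lf (nat_lit 36632) (nat_lit 6) (nat_lit 482) (nat_lit 5) (nat_lit 167) (nat_lit 188) (nat_lit 215)) (PT.lf (nat_lit 38532) (nat_lit 6) (nat_lit 507) (nat_lit 5) (nat_lit 168) (nat_lit 188) (nat_lit 214))) (PT.nd (nat_lit 78) (PT.lf (nat_lit 40356) (nat_lit 6) (nat_lit 531) (nat_lit 5) (nat_lit 169) (nat_lit 188) (nat_lit 213)) (PT.lf (nat_lit 42104) (nat_lit 6) (nat_lit 554) (nat_lit 5) (nat_lit 170) (nat_lit 188) (nat_lit 212))))) (PT.nd (nat_lit 312) (PT.nd (nat_lit 156) (PT.nd (nat_lit 78) (PT.lf (nat_lit 43776) (nat_lit 6) (nat_lit 576)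 (nat_lit 5) (nat_lit 171) (nat_lit 188) (nat_lit 211)) (PT.lf (nat_lit 45372) (nat_lit 6) (nat_lit 597) (nat_lit 5) (nat_lit 172) (nat_lit 188) (nat_lit 210))) (PT.nd (nat_lit 78) (PT.lf (nat_lit 46892) (nat_lit 6) (nat_lit 617) (nat_lit 5) (nat_lit 173) (nat_lit 188) (nat_lit 209)) (PT.lf (nat_lit 48336) (nat_lit 6) (nat_lit 636) (nat_lit 5) (nat_lit 174) (nat_lit 188) (nat_lit 208)))) (PT.nd (nat_lit 156) (PT.nd (nat_lit 78) (PT.lf (nat_lit 49704) (nat_lit 6) (nat_lit 654) (nat_lit 5) (nat_lit 175) (nat_lit 188) (nat_lit 207)) (PT.lf (nat_lit 50996) (nat_lit 6) (nat_lit 671) (nat_lit 5) (nat_lit 176) (nat_lit 188) (nat_lit 206))) (PT.nd (nat_lit 78) (PT.lf (nat_lit 52212) (nat_lit 6) (nat_lit 687) (nat_lit 5) (nat_lit 177) (nat_lit 188) (nat_lit 205)) (PT.lf (nat_lit 53352) (nat_lit 6) (nat_lit 702) (nat_lit 5) (nat_lit 178) (nat_lit 188) (nat_lit 204))))))) (PT.nd (nat_lit 1170) (PT.nd (nat_lit 546) (PT.nd (nat_lit 234) (PT.nd (nat_lit 78) (PT.lf (nat_lit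 54416) (nat_lit 6) (nat_lit 716) (nat_lit 5) (nat_lit 179) (nat_lit 188) (nat_lit 203)) (PT.nd (nat_lit 78) (PT.lf (nat_lit 55404) (nat_lit 6) (nat_lit 729) (nat_lit 5) (nat_lit 180) (nat_lit 188) (nat_lit 202)) (PT.lf (nat_lit 56316) (nat_lit 6) (nat_lit 741) (nat_lit 5) (nat_lit 181) (nat_lit 188) (nat_lit 201)))) (PT.nd (nat_lit 156) (PT.nd (nat_lit 78) (PT.lf (nat_lit 57152) (nat_lit 6) (nat_lit 752) (nat_lit 5) (nat_lit 182) (nat_lit 188) (nat_lit 200)) (PT.lf (nat_lit 57912) (nat_lit 6) (nat_lit 762) (nat_lit 5) (nat_lit 183) (nat_lit 188) (nat_lit 199))) (PT.nd (nat_lit 78) (PT.lf (nat_lit 58596) (nat_lit 6) (nat_lit 771) (nat_lit 5) (nat_lit 184) (nat_lit 188) (nat_lit 198)) (PT.lf (nat_lit 59204) (nat_lit 6) (nat_lit 779) (nat_lit 5) (nat_lit 185) (nat_lit 188) (nat_lit 197))))) (PT.nd (nat_lit 312) (PT.nd (nat_lit 156) (PT.nd (nat_lit 78) (PT.lf (nat_lit 59736) (nat_lit 6) (nat_lit 786) (nat_lit 5) (nat_lit 186) (nat_lit 188) (nat_lit 196)) (PT.lf (nat_lit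 60192) (nat_lit 6) (nat_lit 792) (nat_lit 5) (nat_lit 187) (nat_lit 188) (nat_lit 195))) (PT.nd (nat_lit 78) (PT.lf (nat_lit 60572) (nat_lit 3) (nat_lit 797) (nat_lit 3) (nat_lit 188) (nat_lit 188) (nat_lit 194)) (PT.lf (nat_lit 60952) (nat_lit 6) (nat_lit 802) (nat_lit 3) (nat_lit 189) (nat_lit 188) (nat_lit 193)))) (PT.nd (nat_lit 156) (PT.nd (nat_lit 78) (PT.lf (nat_lit 61256) (nat_lit 6) (nat_lit 806) (nat_lit 3) (nat_lit 190) (nat_lit 188) (nat_lit 192)) (PT.lf (nat_lit 61332) (nat_lit 3) (nat_lit 807) (nat_lit 1) (nat_lit 191) (nat_lit 188) (nat_lit 191))) (PT.nd (nat_lit 78) (PT.lf (nat_lit 61256) (nat_lit 6) (nat_lit 806) (nat_lit 1) (nat_lit 192) (nat_lit 188) (nat_lit 190)) (PT.lf (nat_lit 60952) (nat_lit 6) (nat_lit 802) (nat_lit 1) (nat_lit 193) (nat_lit 188) (nat_lit 189)))))) (PT.nd (nat_lit 624) (PT.nd (nat_lit 312) (PT.nd (nat_lit 156) (PT.nd (nat_lit 78) (PT.lf (nat_lit 60572) (nat_lit 3) (nat_lit 797) (nat_lit 0) (nat_lit 194) (nat_lit 188)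 (nat_lit 188)) (PT.lf (nat_lit 60192) (nat_lit 6) (nat_lit 792) (nat_lit 0) (nat_lit 195) (nat_lit 188) (nat_lit 187))) (PT.nd (nat_lit 78) (PT.lf (nat_lit 59736) (nat_lit 6) (nat_lit 786) (nat_lit 0) (nat_lit 196) (nat_lit 188) (nat_lit 186)) (PT.lf (nat_lit 59204) (nat_lit 6) (nat_lit 779) (nat_lit 0) (nat_lit 197) (nat_lit 188) (nat_lit 185)))) (PT.nd (nat_lit 156) (PT.nd (nat_lit 78) (PT.lf (nat_lit 58596) (nat_lit 6) (nat_lit 771) (nat_lit 0) (nat_lit 198) (nat_lit 188) (nat_lit 184)) (PT.lf (nat_lit 57912) (nat_lit 6) (nat_lit 762) (nat_lit 0) (nat_lit 199) (nat_lit 188) (nat_lit 183))) (PT.nd (nat_lit 78) (PT.lf (nat_lit 57152) (nat_lit 6) (nat_lit 752) (nat_lit 0) (nat_lit 200) (nat_lit 188) (nat_lit 182)) (PT.lf (nat_lit 56316) (nat_lit 6) (nat_lit 741) (nat_lit 0) (nat_lit 201) (nat_lit 188) (nat_lit 181))))) (PT.nd (nat_lit 312) (PT.nd (nat_lit 156) (PT.nd (nat_lit 78) (PT.lf (nat_lit 55404) (nat_lit 6) (nat_lit 729) (nat_lit 0) (nat_lit 202) (nat_lit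 188) (nat_lit 180)) (PT.lf (nat_lit 54416) (nat_lit 6) (nat_lit 716) (nat_lit 0) (nat_lit 203) (nat_lit 188) (nat_lit 179))) (PT.nd (nat_lit 78) (PT.lf (nat_lit 53352) (nat_lit 6) (nat_lit 702) (nat_lit 0) (nat_lit 204) (nat_lit 188) (nat_lit 178)) (PT.lf (nat_lit 52212) (nat_lit 6) (nat_lit 687) (nat_lit 0) (nat_lit 205) (nat_lit 188) (nat_lit 177)))) (PT.nd (nat_lit 156) (PT.nd (nat_lit 78) (PT.lf (nat_lit 50996) (nat_lit 6) (nat_lit 671) (nat_lit 0) (nat_lit 206) (nat_lit 188) (nat_lit 176)) (PT.lf (nat_lit 49704) (nat_lit 6) (nat_lit 654) (nat_lit 0) (nat_lit 207) (nat_lit 188) (nat_lit 175))) (PT.nd (nat_lit 78) (PT.lf (nat_lit 48336) (nat_lit 6) (nat_lit 636) (nat_lit 0) (nat_lit 208) (nat_lit 188) (nat_lit 174)) (PT.lf (nat_lit 46892) (nat_lit 6) (nat_lit 617) (nat_lit 0) (nat_lit 209) (nat_lit 188) (nat_lit 173))))))))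
noncomputable def pc25 : PT := (PT.nd (nat_lit 57798) (PT.nd (nat_lit 56628) (PT.nd (nat_lit 56004) (PT.nd (nat_lit 234) (PT.nd (nat_lit 78) (PT.lf (nat_lit 45372) (nat_lit 6) (nat_lit 597) (nat_lit 0) (nat_lit 210) (nat_lit 188) (nat_lit 172)) (PT.nd (nat_lit 78) (PT.lf (nat_lit 43776) (nat_lit 6) (nat_lit 576) (nat_lit 0) (nat_lit 211) (nat_lit 188) (nat_lit 171)) (PT.lf (nat_lit 42104) (nat_lit 6) (nat_lit 554) (nat_lit 0) (nat_lit 212) (nat_lit 188) (nat_lit 170)))) (PT.nd (nat_lit 156) (PT.nd (nat_lit 78) (PT.lf (nat_lit 40356) (nat_lit 6) (nat_lit 531) (nat_lit 0) (nat_lit 213) (nat_lit 188) (nat_lit 169)) (PT.lf (nat_lit 38532) (nat_lit 6) (nat_lit 507) (nat_lit 0) (nat_lit 214) (nat_lit 188) (nat_lit 168))) (PT.nd (nat_lit 55536) (PT.lf (nat_lit 36632) (nat_lit 6) (nat_lit 482) (nat_lit 0) (nat_lit 215) (nat_lit 188) (nat_lit 167)) (PT.lf (nat_lit 36708) (nat_lit 6) (nat_lit 483) (nat_lit 5) (nat_lit 166) (nat_lit 189) (nat_lit 215))))) (PT.nd (nat_lit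 312) (PT.nd (nat_lit 156) (PT.nd (nat_lit 78) (PT.lf (nat_lit 38608) (nat_lit 6) (nat_lit 508) (nat_lit 5) (nat_lit 167) (nat_lit 189) (nat_lit 214)) (PT.lf (nat_lit 40432) (nat_lit 6) (nat_lit 532) (nat_lit 5) (nat_lit 168) (nat_lit 189) (nat_lit 213))) (PT.nd (nat_lit 78) (PT.lf (nat_lit 42180) (nat_lit 6) (nat_lit 555) (nat_lit 5) (nat_lit 169) (nat_lit 189) (nat_lit 212)) (PT.lf (nat_lit 43852) (nat_lit 6) (nat_lit 577) (nat_lit 5) (nat_lit 170) (nat_lit 189) (nat_lit 211)))) (PT.nd (nat_lit 156) (PT.nd (nat_lit 78) (PT.lf (nat_lit 45448) (nat_lit 6) (nat_lit 598) (nat_lit 5) (nat_lit 171) (nat_lit 189) (nat_lit 210)) (PT.lf (nat_lit 46968) (nat_lit 6) (nat_lit 618) (nat_lit 5) (nat_lit 172) (nat_lit 189) (nat_lit 209))) (PT.nd (nat_lit 78) (PT.lf (nat_lit 48412) (nat_lit 6) (nat_lit 637) (nat_lit 5) (nat_lit 173) (nat_lit 189) (nat_lit 208)) (PT.lf (nat_lit 49780) (nat_lit 6) (nat_lit 655) (nat_lit 5) (nat_lit 174) (nat_lit 189) (nat_lit 207)))))) (PT.nd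 (nat_lit 546) (PT.nd (nat_lit 234) (PT.nd (nat_lit 78) (PT.lf (nat_lit 51072) (nat_lit 6) (nat_lit 672) (nat_lit 5) (nat_lit 175) (nat_lit 189) (nat_lit 206)) (PT.nd (nat_lit 78) (PT.lf (nat_lit 52288) (nat_lit 6) (nat_lit 688) (nat_lit 5) (nat_lit 176) (nat_lit 189) (nat_lit 205)) (PT.lf (nat_lit 53428) (nat_lit 6) (nat_lit 703) (nat_lit 5) (nat_lit 177) (nat_lit 189) (nat_lit 204)))) (PT.nd (nat_lit 156) (PT.nd (nat_lit 78) (PT.lf (nat_lit 54492) (nat_lit 6) (nat_lit 717) (nat_lit 5) (nat_lit 178) (nat_lit 189) (nat_lit 203)) (PT.lf (nat_lit 55480) (nat_lit 6) (nat_lit 730) (nat_lit 5) (nat_lit 179) (nat_lit 189) (nat_lit 202))) (PT.nd (nat_lit 78) (PT.lf (nat_lit 56392) (nat_lit 6) (nat_lit 742) (nat_lit 5) (nat_lit 180) (nat_lit 189) (nat_lit 201)) (PT.lf (nat_lit 57228) (nat_lit 6) (nat_lit 753) (nat_lit 5) (nat_lit 181) (nat_lit 189) (nat_lit 200))))) (PT.nd (nat_lit 312) (PT.nd (nat_lit 156) (PT.nd (nat_lit 78) (PT.lf (nat_lit 57988) (nat_lit 6) (nat_lit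 763) (nat_lit 5) (nat_lit 182) (nat_lit 189) (nat_lit 199)) (PT.lf (nat_lit 58672) (nat_lit 6) (nat_lit 772) (nat_lit 5) (nat_lit 183) (nat_lit 189) (nat_lit 198))) (PT.nd (nat_lit 78) (PT.lf (nat_lit 59280) (nat_lit 6) (nat_lit 780) (nat_lit 5) (nat_lit 184) (nat_lit 189) (nat_lit 197)) (PT.lf (nat_lit 59812) (nat_lit 6) (nat_lit 787) (nat_lit 5) (nat_lit 185) (nat_lit 189) (nat_lit 196)))) (PT.nd (nat_lit 156) (PT.nd (nat_lit 78) (PT.lf (nat_lit 60268) (nat_lit 6) (nat_lit 793) (nat_lit 5) (nat_lit 186) (nat_lit 189) (nat_lit 195)) (PT.lf (nat_lit 60648) (nat_lit 6) (nat_lit 798) (nat_lit 5) (nat_lit 187) (nat_lit 189) (nat_lit 194))) (PT.nd (nat_lit 78) (PT.lf (nat_lit 60952) (nat_lit 6) (nat_lit 802) (nat_lit 5) (nat_lit 188) (nat_lit 189) (nat_lit 193)) (PT.lf (nat_lit 61180) (nat_lit 3) (nat_lit 805) (nat_lit 3) (nat_lit 189) (nat_lit 189) (nat_lit 192))))))) (PT.nd (nat_lit 1170) (PT.nd (nat_lit 546) (PT.nd (nat_lit 234) (PT.nd (nat_lit 78) (PT.lf (nat_lit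 61408) (nat_lit 6) (nat_lit 808) (nat_lit 3) (nat_lit 190) (nat_lit 189) (nat_lit 191)) (PT.nd (nat_lit 78) (PT.lf (nat_lit 61408) (nat_lit 6) (nat_lit 808) (nat_lit 1) (nat_lit 191) (nat_lit 189) (nat_lit 190)) (PT.lf (nat_lit 61180) (nat_lit 3) (nat_lit 805) (nat_lit 0) (nat_lit 192) (nat_lit 189) (nat_lit 189)))) (PT.nd (nat_lit 156) (PT.nd (nat_lit 78) (PT.lf (nat_lit 60952) (nat_lit 6) (nat_lit 802) (nat_lit 0) (nat_lit 193) (nat_lit 189) (nat_lit 188)) (PT.lf (nat_lit 60648) (nat_lit 6) (nat_lit 798) (nat_lit 0) (nat_lit 194) (nat_lit 189) (nat_lit 187))) (PT.nd (nat_lit 78) (PT.lf (nat_lit 60268) (nat_lit 6) (nat_lit 793) (nat_lit 0) (nat_lit 195) (nat_lit 189) (nat_lit 186)) (PT.lf (nat_lit 59812) (nat_lit 6) (nat_lit 787) (nat_lit 0) (nat_lit 196) (nat_lit 189) (nat_lit 185))))) (PT.nd (nat_lit 312) (PT.nd (nat_lit 156) (PT.nd (nat_lit 78) (PT.lf (nat_lit 59280) (nat_lit 6) (nat_lit 780) (nat_lit 0) (nat_lit 197) (nat_lit 189) (nat_lit 184)) (PT.lf (nat_lit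 58672) (nat_lit 6) (nat_lit 772) (nat_lit 0) (nat_lit 198) (nat_lit 189) (nat_lit 183))) (PT.nd (nat_lit 78) (PT.lf (nat_lit 57988) (nat_lit 6) (nat_lit 763) (nat_lit 0) (nat_lit 199) (nat_lit 189) (nat_lit 182)) (PT.lf (nat_lit 57228) (nat_lit 6) (nat_lit 753) (nat_lit 0) (nat_lit 200) (nat_lit 189) (nat_lit 181)))) (PT.nd (nat_lit 156) (PT.nd (nat_lit 78) (PT.lf (nat_lit 56392) (nat_lit 6) (nat_lit 742) (nat_lit 0) (nat_lit 201) (nat_lit 189) (nat_lit 180)) (PT.lf (nat_lit 55480) (nat_lit 6) (nat_lit 730) (nat_lit 0) (nat_lit 202) (nat_lit 189) (nat_lit 179))) (PT.nd (nat_lit 78) (PT.lf (nat_lit 54492) (nat_lit 6) (nat_lit 717) (nat_lit 0) (nat_lit 203) (nat_lit 189) (nat_lit 178)) (PT.lf (nat_lit 53428) (nat_lit 6) (nat_lit 703) (nat_lit 0) (nat_lit 204) (nat_lit 189) (nat_lit 177)))))) (PT.nd (nat_lit 624) (PT.nd (nat_lit 312) (PT.nd (nat_lit 156) (PT.nd (nat_lit 78) (PT.lf (nat_lit 52288) (nat_lit 6) (nat_lit 688) (nat_lit 0) (nat_lit 205) (nat_lit 189)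 (nat_lit 176)) (PT.lf (nat_lit 51072) (nat_lit 6) (nat_lit 672) (nat_lit 0) (nat_lit 206) (nat_lit 189) (nat_lit 175))) (PT.nd (nat_lit 78) (PT.lf (nat_lit 49780) (nat_lit 6) (nat_lit 655) (nat_lit 0) (nat_lit 207) (nat_lit 189) (nat_lit 174)) (PT.lf (nat_lit 48412) (nat_lit 6) (nat_lit 637) (nat_lit 0) (nat_lit 208) (nat_lit 189) (nat_lit 173)))) (PT.nd (nat_lit 156) (PT.nd (nat_lit 78) (PT.lf (nat_lit 46968) (nat_lit 6) (nat_lit 618) (nat_lit 0) (nat_lit 209) (nat_lit 189) (nat_lit 172)) (PT.lf (nat_lit 45448) (nat_lit 6) (nat_lit 598) (nat_lit 0) (nat_lit 210) (nat_lit 189) (nat_lit 171))) (PT.nd (nat_lit 78) (PT.lf (nat_lit 43852) (nat_lit 6) (nat_lit 577) (nat_lit 0) (nat_lit 211) (nat_lit 189) (nat_lit 170)) (PT.lf (nat_lit 42180) (nat_lit 6) (nat_lit 555) (nat_lit 0) (nat_lit 212) (nat_lit 189) (nat_lit 169))))) (PT.nd (nat_lit 55692) (PT.nd (nat_lit 156) (PT.nd (nat_lit 78) (PT.lf (nat_lit 40432) (nat_lit 6) (nat_lit 532) (nat_lit 0) (nat_lit 213) (nat_lit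 189) (nat_lit 168)) (PT.lf (nat_lit 38608) (nat_lit 6) (nat_lit 508) (nat_lit 0) (nat_lit 214) (nat_lit 189) (nat_lit 167))) (PT.nd (nat_lit 55458) (PT.lf (nat_lit 36708) (nat_lit 6) (nat_lit 483) (nat_lit 0) (nat_lit 215) (nat_lit 189) (nat_lit 166)) (PT.lf (nat_lit 36784) (nat_lit 6) (nat_lit 484) (nat_lit 5) (nat_lit 165) (nat_lit 190) (nat_lit 215)))) (PT.nd (nat_lit 156) (PT.nd (nat_lit 78) (PT.lf (nat_lit 38684) (nat_lit 6) (nat_lit 509) (nat_lit 5) (nat_lit 166) (nat_lit 190) (nat_lit 214)) (PT.lf (nat_lit 40508) (nat_lit 6) (nat_lit 533) (nat_lit 5) (nat_lit 167) (nat_lit 190) (nat_lit 213))) (PT.nd (nat_lit 78) (PT.lf (nat_lit 42256) (nat_lit 6) (nat_lit 556) (nat_lit 5) (nat_lit 168) (nat_lit 190) (nat_lit 212)) (PT.lf (nat_lit 43928) (nat_lit 6) (nat_lit 578) (nat_lit 5) (nat_lit 169) (nat_lit 190) (nat_lit 211))))))))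
noncomputable def pc26 : PT := (PT.nd (nat_lit 2340) (PT.nd (nat_lit 1170) (PT.nd (nat_lit 546) (PT.nd (nat_lit 234) (PT.nd (nat_lit 78) (PT.lf (nat_lit 45524) (nat_lit 6) (nat_lit 599) (nat_lit 5) (nat_lit 170) (nat_lit 190) (nat_lit 210)) (PT.nd (nat_lit 78) (PT.lf (nat_lit 47044) (nat_lit 6) (nat_lit 619) (nat_lit 5) (nat_lit 171) (nat_lit 190) (nat_lit 209)) (PT.lf (nat_lit 48488) (nat_lit 6) (nat_lit 638) (nat_lit 5) (nat_lit 172) (nat_lit 190) (nat_lit 208)))) (PT.nd (nat_lit 156) (PT.nd (nat_lit 78) (PT.lf (nat_lit 49856) (nat_lit 6) (nat_lit 656) (nat_lit 5) (nat_lit 173) (nat_lit 190) (nat_lit 207)) (PT.lf (nat_lit 51148) (nat_lit 6) (nat_lit 673) (nat_lit 5) (nat_lit 174) (nat_lit 190) (nat_lit 206))) (PT.nd (nat_lit 78) (PT.lf (nat_lit 52364) (nat_lit 6) (nat_lit 689) (nat_lit 5) (nat_lit 175) (nat_lit 190) (nat_lit 205)) (PT.lf (nat_lit 53504) (nat_lit 6) (nat_lit 704) (nat_lit 5) (nat_lit 176) (nat_lit 190) (nat_lit 204))))) (PT.nd (nat_lit 312)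 (PT.nd (nat_lit 156) (PT.nd (nat_lit 78) (PT.lf (nat_lit 54568) (nat_lit 6) (nat_lit 718) (nat_lit 5) (nat_lit 177) (nat_lit 190) (nat_lit 203)) (PT.lf (nat_lit 55556) (nat_lit 6) (nat_lit 731) (nat_lit 5) (nat_lit 178) (nat_lit 190) (nat_lit 202))) (PT.nd (nat_lit 78) (PT.lf (nat_lit 56468) (nat_lit 6) (nat_lit 743) (nat_lit 5) (nat_lit 179) (nat_lit 190) (nat_lit 201)) (PT.lf (nat_lit 57304) (nat_lit 6) (nat_lit 754) (nat_lit 5) (nat_lit 180) (nat_lit 190) (nat_lit 200)))) (PT.nd (nat_lit 156) (PT.nd (nat_lit 78) (PT.lf (nat_lit 58064) (nat_lit 6) (nat_lit 764) (nat_lit 5) (nat_lit 181) (nat_lit 190) (nat_lit 199)) (PT.lf (nat_lit 58748) (nat_lit 6) (nat_lit 773) (nat_lit 5) (nat_lit 182) (nat_lit 190) (nat_lit 198))) (PT.nd (nat_lit 78) (PT.lf (nat_lit 59356) (nat_lit 6) (nat_lit 781) (nat_lit 5) (nat_lit 183) (nat_lit 190) (nat_lit 197)) (PT.lf (nat_lit 59888) (nat_lit 6) (nat_lit 788) (nat_lit 5) (nat_lit 184) (nat_lit 190) (nat_lit 196)))))) (PT.nd (nat_lit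 546) (PT.nd (nat_lit 234) (PT.nd (nat_lit 78) (PT.lf (nat_lit 60344) (nat_lit 6) (nat_lit 794) (nat_lit 5) (nat_lit 185) (nat_lit 190) (nat_lit 195)) (PT.nd (nat_lit 78) (PT.lf (nat_lit 60724) (nat_lit 6) (nat_lit 799) (nat_lit 5) (nat_lit 186) (nat_lit 190) (nat_lit 194)) (PT.lf (nat_lit 61028) (nat_lit 6) (nat_lit 803) (nat_lit 5) (nat_lit 187) (nat_lit 190) (nat_lit 193)))) (PT.nd (nat_lit 156) (PT.nd (nat_lit 78) (PT.lf (nat_lit 61256) (nat_lit 6) (nat_lit 806) (nat_lit 5) (nat_lit 188) (nat_lit 190) (nat_lit 192)) (PT.lf (nat_lit 61408) (nat_lit 6) (nat_lit 808) (nat_lit 5) (nat_lit 189) (nat_lit 190) (nat_lit 191))) (PT.nd (nat_lit 78) (PT.lf (nat_lit 61484) (nat_lit 1) (nat_lit 809) (nat_lit 0) (nat_lit 190) (nat_lit 190) (nat_lit 190)) (PT.lf (nat_lit 61408) (nat_lit 6) (nat_lit 808) (nat_lit 0) (nat_lit 191) (nat_lit 190) (nat_lit 189))))) (PT.nd (nat_lit 312) (PT.nd (nat_lit 156) (PT.nd (nat_lit 78) (PT.lf (nat_lit 61256) (nat_lit 6) (nat_lit 806) (nat_lit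 0) (nat_lit 192) (nat_lit 190) (nat_lit 188)) (PT.lf (nat_lit 61028) (nat_lit 6) (nat_lit 803) (nat_lit 0) (nat_lit 193) (nat_lit 190) (nat_lit 187))) (PT.nd (nat_lit 78) (PT.lf (nat_lit 60724) (nat_lit 6) (nat_lit 799) (nat_lit 0) (nat_lit 194) (nat_lit 190) (nat_lit 186)) (PT.lf (nat_lit 60344) (nat_lit 6) (nat_lit 794) (nat_lit 0) (nat_lit 195) (nat_lit 190) (nat_lit 185)))) (PT.nd (nat_lit 156) (PT.nd (nat_lit 78) (PT.lf (nat_lit 59888) (nat_lit 6) (nat_lit 788) (nat_lit 0) (nat_lit 196) (nat_lit 190) (nat_lit 184)) (PT.lf (nat_lit 59356) (nat_lit 6) (nat_lit 781) (nat_lit 0) (nat_lit 197) (nat_lit 190) (nat_lit 183))) (PT.nd (nat_lit 78) (PT.lf (nat_lit 58748) (nat_lit 6) (nat_lit 773) (nat_lit 0) (nat_lit 198) (nat_lit 190) (nat_lit 182)) (PT.lf (nat_lit 58064) (nat_lit 6) (nat_lit 764) (nat_lit 0) (nat_lit 199) (nat_lit 190) (nat_lit 181))))))) (PT.nd (nat_lit 1170) (PT.nd (nat_lit 546) (PT.nd (nat_lit 234) (PT.nd (nat_lit 78) (PT.lf (nat_lit 57304) (nat_lit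 6) (nat_lit 754) (nat_lit 0) (nat_lit 200) (nat_lit 190) (nat_lit 180)) (PT.nd (nat_lit 78) (PT.lf (nat_lit 56468) (nat_lit 6) (nat_lit 743) (nat_lit 0) (nat_lit 201) (nat_lit 190) (nat_lit 179)) (PT.lf (nat_lit 55556) (nat_lit 6) (nat_lit 731) (nat_lit 0) (nat_lit 202) (nat_lit 190) (nat_lit 178)))) (PT.nd (nat_lit 156) (PT.nd (nat_lit 78) (PT.lf (nat_lit 54568) (nat_lit 6) (nat_lit 718) (nat_lit 0) (nat_lit 203) (nat_lit 190) (nat_lit 177)) (PT.lf (nat_lit 53504) (nat_lit 6) (nat_lit 704) (nat_lit 0) (nat_lit 204) (nat_lit 190) (nat_lit 176))) (PT.nd (nat_lit 78) (PT.lf (nat_lit 52364) (nat_lit 6) (nat_lit 689) (nat_lit 0) (nat_lit 205) (nat_lit 190) (nat_lit 175)) (PT.lf (nat_lit 51148) (nat_lit 6) (nat_lit 673) (nat_lit 0) (nat_lit 206) (nat_lit 190) (nat_lit 174))))) (PT.nd (nat_lit 312) (PT.nd (nat_lit 156) (PT.nd (nat_lit 78) (PT.lf (nat_lit 49856) (nat_lit 6) (nat_lit 656) (nat_lit 0) (nat_lit 207) (nat_lit 190) (nat_lit 173)) (PT.lf (nat_lit 48488) (nat_lit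 6) (nat_lit 638) (nat_lit 0) (nat_lit 208) (nat_lit 190) (nat_lit 172))) (PT.nd (nat_lit 78) (PT.lf (nat_lit 47044) (nat_lit 6) (nat_lit 619) (nat_lit 0) (nat_lit 209) (nat_lit 190) (nat_lit 171)) (PT.lf (nat_lit 45524) (nat_lit 6) (nat_lit 599) (nat_lit 0) (nat_lit 210) (nat_lit 190) (nat_lit 170)))) (PT.nd (nat_lit 156) (PT.nd (nat_lit 78) (PT.lf (nat_lit 43928) (nat_lit 6) (nat_lit 578) (nat_lit 0) (nat_lit 211) (nat_lit 190) (nat_lit 169)) (PT.lf (nat_lit 42256) (nat_lit 6) (nat_lit 556) (nat_lit 0) (nat_lit 212) (nat_lit 190) (nat_lit 168))) (PT.nd (nat_lit 78) (PT.lf (nat_lit 40508) (nat_lit 6) (nat_lit 533) (nat_lit 0) (nat_lit 213) (nat_lit 190) (nat_lit 167)) (PT.lf (nat_lit 38684) (nat_lit 6) (nat_lit 509) (nat_lit 0) (nat_lit 214) (nat_lit 190) (nat_lit 166)))))) (PT.nd (nat_lit 55926) (PT.nd (nat_lit 55614) (PT.nd (nat_lit 55458) (PT.nd (nat_lit 55380) (PT.lf (nat_lit 36784) (nat_lit 6) (nat_lit 484) (nat_lit 0) (nat_lit 215) (nat_lit 190) (nat_lit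 165)) (PT.lf (nat_lit 35644) (nat_lit 6) (nat_lit 469) (nat_lit 5) (nat_lit 164) (nat_lit 191) (nat_lit 215))) (PT.nd (nat_lit 78) (PT.lf (nat_lit 36860) (nat_lit 6) (nat_lit 485) (nat_lit 5) (nat_lit 165) (nat_lit 191) (nat_lit 214)) (PT.lf (nat_lit 38760) (nat_lit 6) (nat_lit 510) (nat_lit 5) (nat_lit 166) (nat_lit 191) (nat_lit 213)))) (PT.nd (nat_lit 156) (PT.nd (nat_lit 78) (PT.lf (nat_lit 40584) (nat_lit 6) (nat_lit 534) (nat_lit 5) (nat_lit 167) (nat_lit 191) (nat_lit 212)) (PT.lf (nat_lit 42332) (nat_lit 6) (nat_lit 557) (nat_lit 5) (nat_lit 168) (nat_lit 191) (nat_lit 211))) (PT.nd (nat_lit 78) (PT.lf (nat_lit 44004) (nat_lit 6) (nat_lit 579) (nat_lit 5) (nat_lit 169) (nat_lit 191) (nat_lit 210)) (PT.lf (nat_lit 45600) (nat_lit 6) (nat_lit 600) (nat_lit 5) (nat_lit 170) (nat_lit 191) (nat_lit 209))))) (PT.nd (nat_lit 312) (PT.nd (nat_lit 156) (PT.nd (nat_lit 78) (PT.lf (nat_lit 47120) (nat_lit 6) (nat_lit 620) (nat_lit 5) (nat_lit 171) (nat_lit 191)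 (nat_lit 208)) (PT.lf (nat_lit 48564) (nat_lit 6) (nat_lit 639) (nat_lit 5) (nat_lit 172) (nat_lit 191) (nat_lit 207))) (PT.nd (nat_lit 78) (PT.lf (nat_lit 49932) (nat_lit 6) (nat_lit 657) (nat_lit 5) (nat_lit 173) (nat_lit 191) (nat_lit 206)) (PT.lf (nat_lit 51224) (nat_lit 6) (nat_lit 674) (nat_lit 5) (nat_lit 174) (nat_lit 191) (nat_lit 205)))) (PT.nd (nat_lit 156) (PT.nd (nat_lit 78) (PT.lf (nat_lit 52440) (nat_lit 6) (nat_lit 690) (nat_lit 5) (nat_lit 175) (nat_lit 191) (nat_lit 204)) (PT.lf (nat_lit 53580) (nat_lit 6) (nat_lit 705) (nat_lit 5) (nat_lit 176) (nat_lit 191) (nat_lit 203))) (PT.nd (nat_lit 78) (PT.lf (nat_lit 54644) (nat_lit 6) (nat_lit 719) (nat_lit 5) (nat_lit 177) (nat_lit 191) (nat_lit 202)) (PT.lf (nat_lit 55632) (nat_lit 6) (nat_lit 732) (nat_lit 5) (nat_lit 178) (nat_lit 191) (nat_lit 201))))))))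
noncomputable def pc27 : PT := (PT.nd (nat_lit 2418) (PT.nd (nat_lit 1170) (PT.nd (nat_lit 546) (PT.nd (nat_lit 234) (PT.nd (nat_lit 78) (PT.lf (nat_lit 56544) (nat_lit 6) (nat_lit 744) (nat_lit 5) (nat_lit 179) (nat_lit 191) (nat_lit 200)) (PT.nd (nat_lit 78) (PT.lf (nat_lit 57380) (nat_lit 6) (nat_lit 755) (nat_lit 5) (nat_lit 180) (nat_lit 191) (nat_lit 199)) (PT.lf (nat_lit 58140) (nat_lit 6) (nat_lit 765) (nat_lit 5) (nat_lit 181) (nat_lit 191) (nat_lit 198)))) (PT.nd (nat_lit 156) (PT.nd (nat_lit 78) (PT.lf (nat_lit 58824) (nat_lit 6) (nat_lit 774) (nat_lit 5) (nat_lit 182) (nat_lit 191) (nat_lit 197)) (PT.lf (nat_lit 59432) (nat_lit 6) (nat_lit 782) (nat_lit 5) (nat_lit 183) (nat_lit 191) (nat_lit 196))) (PT.nd (nat_lit 78) (PT.lf (nat_lit 59964) (nat_lit 6) (nat_lit 789) (nat_lit 5) (nat_lit 184) (nat_lit 191) (nat_lit 195)) (PT.lf (nat_lit 60420) (nat_lit 6) (nat_lit 795) (nat_lit 5) (nat_lit 185) (nat_lit 191) (nat_lit 194))))) (PT.nd (nat_lit 312)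 (PT.nd (nat_lit 156) (PT.nd (nat_lit 78) (PT.lf (nat_lit 60800) (nat_lit 6) (nat_lit 800) (nat_lit 5) (nat_lit 186) (nat_lit 191) (nat_lit 193)) (PT.lf (nat_lit 61104) (nat_lit 6) (nat_lit 804) (nat_lit 5) (nat_lit 187) (nat_lit 191) (nat_lit 192))) (PT.nd (nat_lit 78) (PT.lf (nat_lit 61332) (nat_lit 3) (nat_lit 807) (nat_lit 4) (nat_lit 188) (nat_lit 191) (nat_lit 191)) (PT.lf (nat_lit 61408) (nat_lit 6) (nat_lit 808) (nat_lit 4) (nat_lit 189) (nat_lit 191) (nat_lit 190)))) (PT.nd (nat_lit 156) (PT.nd (nat_lit 78) (PT.lf (nat_lit 61408) (nat_lit 6) (nat_lit 808) (nat_lit 2) (nat_lit 190) (nat_lit 191) (nat_lit 189)) (PT.lf (nat_lit 61332) (nat_lit 3) (nat_lit 807) (nat_lit 0) (nat_lit 191) (nat_lit 191) (nat_lit 188))) (PT.nd (nat_lit 78) (PT.lf (nat_lit 61104) (nat_lit 6) (nat_lit 804) (nat_lit 0) (nat_lit 192) (nat_lit 191) (nat_lit 187)) (PT.lf (nat_lit 60800) (nat_lit 6) (nat_lit 800) (nat_lit 0) (nat_lit 193) (nat_lit 191) (nat_lit 186)))))) (PT.nd (nat_lit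 624) (PT.nd (nat_lit 312) (PT.nd (nat_lit 156) (PT.nd (nat_lit 78) (PT.lf (nat_lit 60420) (nat_lit 6) (nat_lit 795) (nat_lit 0) (nat_lit 194) (nat_lit 191) (nat_lit 185)) (PT.lf (nat_lit 59964) (nat_lit 6) (nat_lit 789) (nat_lit 0) (nat_lit 195) (nat_lit 191) (nat_lit 184))) (PT.nd (nat_lit 78) (PT.lf (nat_lit 59432) (nat_lit 6) (nat_lit 782) (nat_lit 0) (nat_lit 196) (nat_lit 191) (nat_lit 183)) (PT.lf (nat_lit 58824) (nat_lit 6) (nat_lit 774) (nat_lit 0) (nat_lit 197) (nat_lit 191) (nat_lit 182)))) (PT.nd (nat_lit 156) (PT.nd (nat_lit 78) (PT.lf (nat_lit 58140) (nat_lit 6) (nat_lit 765) (nat_lit 0) (nat_lit 198) (nat_lit 191) (nat_lit 181)) (PT.lf (nat_lit 57380) (nat_lit 6) (nat_lit 755) (nat_lit 0) (nat_lit 199) (nat_lit 191) (nat_lit 180))) (PT.nd (nat_lit 78) (PT.lf (nat_lit 56544) (nat_lit 6) (nat_lit 744) (nat_lit 0) (nat_lit 200) (nat_lit 191) (nat_lit 179)) (PT.lf (nat_lit 55632) (nat_lit 6) (nat_lit 732) (nat_lit 0) (nat_lit 201) (nat_lit 191) (nat_lit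 178))))) (PT.nd (nat_lit 312) (PT.nd (nat_lit 156) (PT.nd (nat_lit 78) (PT.lf (nat_lit 54644) (nat_lit 6) (nat_lit 719) (nat_lit 0) (nat_lit 202) (nat_lit 191) (nat_lit 177)) (PT.lf (nat_lit 53580) (nat_lit 6) (nat_lit 705) (nat_lit 0) (nat_lit 203) (nat_lit 191) (nat_lit 176))) (PT.nd (nat_lit 78) (PT.lf (nat_lit 52440) (nat_lit 6) (nat_lit 690) (nat_lit 0) (nat_lit 204) (nat_lit 191) (nat_lit 175)) (PT.lf (nat_lit 51224) (nat_lit 6) (nat_lit 674) (nat_lit 0) (nat_lit 205) (nat_lit 191) (nat_lit 174)))) (PT.nd (nat_lit 156) (PT.nd (nat_lit 78) (PT.lf (nat_lit 49932) (nat_lit 6) (nat_lit 657) (nat_lit 0) (nat_lit 206) (nat_lit 191) (nat_lit 173)) (PT.lf (nat_lit 48564) (nat_lit 6) (nat_lit 639) (nat_lit 0) (nat_lit 207) (nat_lit 191) (nat_lit 172))) (PT.nd (nat_lit 78) (PT.lf (nat_lit 47120) (nat_lit 6) (nat_lit 620) (nat_lit 0) (nat_lit 208) (nat_lit 191) (nat_lit 171)) (PT.lf (nat_lit 45600) (nat_lit 6) (nat_lit 600) (nat_lit 0) (nat_lit 209) (nat_lit 191)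 (nat_lit 170))))))) (PT.nd (nat_lit 56394) (PT.nd (nat_lit 55770) (PT.nd (nat_lit 234) (PT.nd (nat_lit 78) (PT.lf (nat_lit 44004) (nat_lit 6) (nat_lit 579) (nat_lit 0) (nat_lit 210) (nat_lit 191) (nat_lit 169)) (PT.nd (nat_lit 78) (PT.lf (nat_lit 42332) (nat_lit 6) (nat_lit 557) (nat_lit 0) (nat_lit 211) (nat_lit 191) (nat_lit 168)) (PT.lf (nat_lit 40584) (nat_lit 6) (nat_lit 534) (nat_lit 0) (nat_lit 212) (nat_lit 191) (nat_lit 167)))) (PT.nd (nat_lit 156) (PT.nd (nat_lit 78) (PT.lf (nat_lit 38760) (nat_lit 6) (nat_lit 510) (nat_lit 0) (nat_lit 213) (nat_lit 191) (nat_lit 166)) (PT.lf (nat_lit 36860) (nat_lit 6) (nat_lit 485) (nat_lit 0) (nat_lit 214) (nat_lit 191) (nat_lit 165))) (PT.nd (nat_lit 55302) (PT.lf (nat_lit 35644) (nat_lit 6) (nat_lit 469) (nat_lit 0) (nat_lit 215) (nat_lit 191) (nat_lit 164)) (PT.lf (nat_lit 34732) (nat_lit 6) (nat_lit 457) (nat_lit 5) (nat_lit 163) (nat_lit 192) (nat_lit 215))))) (PT.nd (nat_lit 312) (PT.nd (nat_lit 156) (PT.nd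 (nat_lit 78) (PT.lf (nat_lit 35720) (nat_lit 6) (nat_lit 470) (nat_lit 5) (nat_lit 164) (nat_lit 192) (nat_lit 214)) (PT.lf (nat_lit 36936) (nat_lit 6) (nat_lit 486) (nat_lit 5) (nat_lit 165) (nat_lit 192) (nat_lit 213))) (PT.nd (nat_lit 78) (PT.lf (nat_lit 38836) (nat_lit 6) (nat_lit 511) (nat_lit 5) (nat_lit 166) (nat_lit 192) (nat_lit 212)) (PT.lf (nat_lit 40660) (nat_lit 6) (nat_lit 535) (nat_lit 5) (nat_lit 167) (nat_lit 192) (nat_lit 211)))) (PT.nd (nat_lit 156) (PT.nd (nat_lit 78) (PT.lf (nat_lit 42408) (nat_lit 6) (nat_lit 558) (nat_lit 5) (nat_lit 168) (nat_lit 192) (nat_lit 210)) (PT.lf (nat_lit 44080) (nat_lit 6) (nat_lit 580) (nat_lit 5) (nat_lit 169) (nat_lit 192) (nat_lit 209))) (PT.nd (nat_lit 78) (PT.lf (nat_lit 45676) (nat_lit 6) (nat_lit 601) (nat_lit 5) (nat_lit 170) (nat_lit 192) (nat_lit 208)) (PT.lf (nat_lit 47196) (nat_lit 6) (nat_lit 621) (nat_lit 5) (nat_lit 171) (nat_lit 192) (nat_lit 207)))))) (PT.nd (nat_lit 624) (PT.nd (nat_lit 312)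 (PT.nd (nat_lit 156) (PT.nd (nat_lit 78) (PT.lf (nat_lit 48640) (nat_lit 6) (nat_lit 640) (nat_lit 5) (nat_lit 172) (nat_lit 192) (nat_lit 206)) (PT.lf (nat_lit 50008) (nat_lit 6) (nat_lit 658) (nat_lit 5) (nat_lit 173) (nat_lit 192) (nat_lit 205))) (PT.nd (nat_lit 78) (PT.lf (nat_lit 51300) (nat_lit 6) (nat_lit 675) (nat_lit 5) (nat_lit 174) (nat_lit 192) (nat_lit 204)) (PT.lf (nat_lit 52516) (nat_lit 6) (nat_lit 691) (nat_lit 5) (nat_lit 175) (nat_lit 192) (nat_lit 203)))) (PT.nd (nat_lit 156) (PT.nd (nat_lit 78) (PT.lf (nat_lit 53656) (nat_lit 6) (nat_lit 706) (nat_lit 5) (nat_lit 176) (nat_lit 192) (nat_lit 202)) (PT.lf (nat_lit 54720) (nat_lit 6) (nat_lit 720) (nat_lit 5) (nat_lit 177) (nat_lit 192) (nat_lit 201))) (PT.nd (nat_lit 78) (PT.lf (nat_lit 55708) (nat_lit 6) (nat_lit 733) (nat_lit 5) (nat_lit 178) (nat_lit 192) (nat_lit 200)) (PT.lf (nat_lit 56620) (nat_lit 6) (nat_lit 745) (nat_lit 5) (nat_lit 179) (nat_lit 192) (nat_lit 199))))) (PT.nd (nat_lit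 312) (PT.nd (nat_lit 156) (PT.nd (nat_lit 78) (PT.lf (nat_lit 57456) (nat_lit 6) (nat_lit 756) (nat_lit 5) (nat_lit 180) (nat_lit 192) (nat_lit 198)) (PT.lf (nat_lit 58216) (nat_lit 6) (nat_lit 766) (nat_lit 5) (nat_lit 181) (nat_lit 192) (nat_lit 197))) (PT.nd (nat_lit 78) (PT.lf (nat_lit 58900) (nat_lit 6) (nat_lit 775) (nat_lit 5) (nat_lit 182) (nat_lit 192) (nat_lit 196)) (PT.lf (nat_lit 59508) (nat_lit 6) (nat_lit 783) (nat_lit 5) (nat_lit 183) (nat_lit 192) (nat_lit 195)))) (PT.nd (nat_lit 156) (PT.nd (nat_lit 78) (PT.lf (nat_lit 60040) (nat_lit 6) (nat_lit 790) (nat_lit 5) (nat_lit 184) (nat_lit 192) (nat_lit 194)) (PT.lf (nat_lit 60496) (nat_lit 6) (nat_lit 796) (nat_lit 5) (nat_lit 185) (nat_lit 192) (nat_lit 193))) (PT.nd (nat_lit 78) (PT.lf (nat_lit 60876) (nat_lit 3) (nat_lit 801) (nat_lit 4) (nat_lit 186) (nat_lit 192) (nat_lit 192)) (PT.lf (nat_lit 61104) (nat_lit 6) (nat_lit 804) (nat_lit 4) (nat_lit 187) (nat_lit 192) (nat_lit 191))))))))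
noncomputable def pc28 : PT := (PT.nd (nat_lit 57408) (PT.nd (nat_lit 1170) (PT.nd (nat_lit 546) (PT.nd (nat_lit 234) (PT.nd (nat_lit 78) (PT.lf (nat_lit 61256) (nat_lit 6) (nat_lit 806) (nat_lit 4) (nat_lit 188) (nat_lit 192) (nat_lit 190)) (PT.nd (nat_lit 78) (PT.lf (nat_lit 61180) (nat_lit 3) (nat_lit 805) (nat_lit 2) (nat_lit 189) (nat_lit 192) (nat_lit 189)) (PT.lf (nat_lit 61256) (nat_lit 6) (nat_lit 806) (nat_lit 2) (nat_lit 190) (nat_lit 192) (nat_lit 188)))) (PT.nd (nat_lit 156) (PT.nd (nat_lit 78) (PT.lf (nat_lit 61104) (nat_lit 6) (nat_lit 804) (nat_lit 2) (nat_lit 191) (nat_lit 192) (nat_lit 187)) (PT.lf (nat_lit 60876) (nat_lit 3) (nat_lit 801) (nat_lit 0) (nat_lit 192) (nat_lit 192) (nat_lit 186))) (PT.nd (nat_lit 78) (PT.lf (nat_lit 60496) (nat_lit 6) (nat_lit 796) (nat_lit 0) (nat_lit 193) (nat_lit 192) (nat_lit 185)) (PT.lf (nat_lit 60040) (nat_lit 6) (nat_lit 790) (nat_lit 0) (nat_lit 194) (nat_lit 192) (nat_lit 184))))) (PT.nd (nat_lit 312)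 (PT.nd (nat_lit 156) (PT.nd (nat_lit 78) (PT.lf (nat_lit 59508) (nat_lit 6) (nat_lit 783) (nat_lit 0) (nat_lit 195) (nat_lit 192) (nat_lit 183)) (PT.lf (nat_lit 58900) (nat_lit 6) (nat_lit 775) (nat_lit 0) (nat_lit 196) (nat_lit 192) (nat_lit 182))) (PT.nd (nat_lit 78) (PT.lf (nat_lit 58216) (nat_lit 6) (nat_lit 766) (nat_lit 0) (nat_lit 197) (nat_lit 192) (nat_lit 181)) (PT.lf (nat_lit 57456) (nat_lit 6) (nat_lit 756) (nat_lit 0) (nat_lit 198) (nat_lit 192) (nat_lit 180)))) (PT.nd (nat_lit 156) (PT.nd (nat_lit 78) (PT.lf (nat_lit 56620) (nat_lit 6) (nat_lit 745) (nat_lit 0) (nat_lit 199) (nat_lit 192) (nat_lit 179)) (PT.lf (nat_lit 55708) (nat_lit 6) (nat_lit 733) (nat_lit 0) (nat_lit 200) (nat_lit 192) (nat_lit 178))) (PT.nd (nat_lit 78) (PT.lf (nat_lit 54720) (nat_lit 6) (nat_lit 720) (nat_lit 0) (nat_lit 201) (nat_lit 192) (nat_lit 177)) (PT.lf (nat_lit 53656) (nat_lit 6) (nat_lit 706) (nat_lit 0) (nat_lit 202) (nat_lit 192) (nat_lit 176)))))) (PT.nd (nat_lit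 546) (PT.nd (nat_lit 234) (PT.nd (nat_lit 78) (PT.lf (nat_lit 52516) (nat_lit 6) (nat_lit 691) (nat_lit 0) (nat_lit 203) (nat_lit 192) (nat_lit 175)) (PT.nd (nat_lit 78) (PT.lf (nat_lit 51300) (nat_lit 6) (nat_lit 675) (nat_lit 0) (nat_lit 204) (nat_lit 192) (nat_lit 174)) (PT.lf (nat_lit 50008) (nat_lit 6) (nat_lit 658) (nat_lit 0) (nat_lit 205) (nat_lit 192) (nat_lit 173)))) (PT.nd (nat_lit 156) (PT.nd (nat_lit 78) (PT.lf (nat_lit 48640) (nat_lit 6) (nat_lit 640) (nat_lit 0) (nat_lit 206) (nat_lit 192) (nat_lit 172)) (PT.lf (nat_lit 47196) (nat_lit 6) (nat_lit 621) (nat_lit 0) (nat_lit 207) (nat_lit 192) (nat_lit 171))) (PT.nd (nat_lit 78) (PT.lf (nat_lit 45676) (nat_lit 6) (nat_lit 601) (nat_lit 0) (nat_lit 208) (nat_lit 192) (nat_lit 170)) (PT.lf (nat_lit 44080) (nat_lit 6) (nat_lit 580) (nat_lit 0) (nat_lit 209) (nat_lit 192) (nat_lit 169))))) (PT.nd (nat_lit 312) (PT.nd (nat_lit 156) (PT.nd (nat_lit 78) (PT.lf (nat_lit 42408) (nat_lit 6) (nat_lit 558) (nat_lit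 0) (nat_lit 210) (nat_lit 192) (nat_lit 168)) (PT.lf (nat_lit 40660) (nat_lit 6) (nat_lit 535) (nat_lit 0) (nat_lit 211) (nat_lit 192) (nat_lit 167))) (PT.nd (nat_lit 78) (PT.lf (nat_lit 38836) (nat_lit 6) (nat_lit 511) (nat_lit 0) (nat_lit 212) (nat_lit 192) (nat_lit 166)) (PT.lf (nat_lit 36936) (nat_lit 6) (nat_lit 486) (nat_lit 0) (nat_lit 213) (nat_lit 192) (nat_lit 165)))) (PT.nd (nat_lit 55224) (PT.nd (nat_lit 78) (PT.lf (nat_lit 35720) (nat_lit 6) (nat_lit 470) (nat_lit 0) (nat_lit 214) (nat_lit 192) (nat_lit 164)) (PT.lf (nat_lit 34732) (nat_lit 6) (nat_lit 457) (nat_lit 0) (nat_lit 215) (nat_lit 192) (nat_lit 163))) (PT.nd (nat_lit 78) (PT.lf (nat_lit 32908) (nat_lit 6) (nat_lit 433) (nat_lit 5) (nat_lit 161) (nat_lit 193) (nat_lit 216)) (PT.lf (nat_lit 33820) (nat_lit 6) (nat_lit 445) (nat_lit 5) (nat_lit 162) (nat_lit 193) (nat_lit 215))))))) (PT.nd (nat_lit 1170) (PT.nd (nat_lit 546) (PT.nd (nat_lit 234) (PT.nd (nat_lit 78) (PT.lf (nat_lit 34808)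 (nat_lit 6) (nat_lit 458) (nat_lit 5) (nat_lit 163) (nat_lit 193) (nat_lit 214)) (PT.nd (nat_lit 78) (PT.lf (nat_lit 35796) (nat_lit 6) (nat_lit 471) (nat_lit 5) (nat_lit 164) (nat_lit 193) (nat_lit 213)) (PT.lf (nat_lit 37012) (nat_lit 6) (nat_lit 487) (nat_lit 5) (nat_lit 165) (nat_lit 193) (nat_lit 212)))) (PT.nd (nat_lit 156) (PT.nd (nat_lit 78) (PT.lf (nat_lit 38912) (nat_lit 6) (nat_lit 512) (nat_lit 5) (nat_lit 166) (nat_lit 193) (nat_lit 211)) (PT.lf (nat_lit 40736) (nat_lit 6) (nat_lit 536) (nat_lit 5) (nat_lit 167) (nat_lit 193) (nat_lit 210))) (PT.nd (nat_lit 78) (PT.lf (nat_lit 42484) (nat_lit 6) (nat_lit 559) (nat_lit 5) (nat_lit 168) (nat_lit 193) (nat_lit 209)) (PT.lf (nat_lit 44156) (nat_lit 6) (nat_lit 581) (nat_lit 5) (nat_lit 169) (nat_lit 193) (nat_lit 208))))) (PT.nd (nat_lit 312) (PT.nd (nat_lit 156) (PT.nd (nat_lit 78) (PT.lf (nat_lit 45752) (nat_lit 6) (nat_lit 602) (nat_lit 5) (nat_lit 170) (nat_lit 193) (nat_lit 207)) (PT.lf (nat_lit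 47272) (nat_lit 6) (nat_lit 622) (nat_lit 5) (nat_lit 171) (nat_lit 193) (nat_lit 206))) (PT.nd (nat_lit 78) (PT.lf (nat_lit 48716) (nat_lit 6) (nat_lit 641) (nat_lit 5) (nat_lit 172) (nat_lit 193) (nat_lit 205)) (PT.lf (nat_lit 50084) (nat_lit 6) (nat_lit 659) (nat_lit 5) (nat_lit 173) (nat_lit 193) (nat_lit 204)))) (PT.nd (nat_lit 156) (PT.nd (nat_lit 78) (PT.lf (nat_lit 51376) (nat_lit 6) (nat_lit 676) (nat_lit 5) (nat_lit 174) (nat_lit 193) (nat_lit 203)) (PT.lf (nat_lit 52592) (nat_lit 6) (nat_lit 692) (nat_lit 5) (nat_lit 175) (nat_lit 193) (nat_lit 202))) (PT.nd (nat_lit 78) (PT.lf (nat_lit 53732) (nat_lit 6) (nat_lit 707) (nat_lit 5) (nat_lit 176) (nat_lit 193) (nat_lit 201)) (PT.lf (nat_lit 54796) (nat_lit 6) (nat_lit 721) (nat_lit 5) (nat_lit 177) (nat_lit 193) (nat_lit 200)))))) (PT.nd (nat_lit 624) (PT.nd (nat_lit 312) (PT.nd (nat_lit 156) (PT.nd (nat_lit 78) (PT.lf (nat_lit 55784) (nat_lit 6) (nat_lit 734) (nat_lit 5) (nat_lit 178) (nat_lit 193)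 (nat_lit 199)) (PT.lf (nat_lit 56696) (nat_lit 6) (nat_lit 746) (nat_lit 5) (nat_lit 179) (nat_lit 193) (nat_lit 198))) (PT.nd (nat_lit 78) (PT.lf (nat_lit 57532) (nat_lit 6) (nat_lit 757) (nat_lit 5) (nat_lit 180) (nat_lit 193) (nat_lit 197)) (PT.lf (nat_lit 58292) (nat_lit 6) (nat_lit 767) (nat_lit 5) (nat_lit 181) (nat_lit 193) (nat_lit 196)))) (PT.nd (nat_lit 156) (PT.nd (nat_lit 78) (PT.lf (nat_lit 58976) (nat_lit 6) (nat_lit 776) (nat_lit 5) (nat_lit 182) (nat_lit 193) (nat_lit 195)) (PT.lf (nat_lit 59584) (nat_lit 6) (nat_lit 784) (nat_lit 5) (nat_lit 183) (nat_lit 193) (nat_lit 194))) (PT.nd (nat_lit 78) (PT.lf (nat_lit 60116) (nat_lit 3) (nat_lit 791) (nat_lit 4) (nat_lit 184) (nat_lit 193) (nat_lit 193)) (PT.lf (nat_lit 60496) (nat_lit 6) (nat_lit 796) (nat_lit 4) (nat_lit 185) (nat_lit 193) (nat_lit 192))))) (PT.nd (nat_lit 312) (PT.nd (nat_lit 156) (PT.nd (nat_lit 78) (PT.lf (nat_lit 60800) (nat_lit 6) (nat_lit 800) (nat_lit 4) (nat_lit 186) (nat_lit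 193) (nat_lit 191)) (PT.lf (nat_lit 61028) (nat_lit 6) (nat_lit 803) (nat_lit 4) (nat_lit 187) (nat_lit 193) (nat_lit 190))) (PT.nd (nat_lit 78) (PT.lf (nat_lit 60952) (nat_lit 6) (nat_lit 802) (nat_lit 4) (nat_lit 188) (nat_lit 193) (nat_lit 189)) (PT.lf (nat_lit 60952) (nat_lit 6) (nat_lit 802) (nat_lit 2) (nat_lit 189) (nat_lit 193) (nat_lit 188)))) (PT.nd (nat_lit 156) (PT.nd (nat_lit 78) (PT.lf (nat_lit 61028) (nat_lit 6) (nat_lit 803) (nat_lit 2) (nat_lit 190) (nat_lit 193) (nat_lit 187)) (PT.lf (nat_lit 60800) (nat_lit 6) (nat_lit 800) (nat_lit 2) (nat_lit 191) (nat_lit 193) (nat_lit 186))) (PT.nd (nat_lit 78) (PT.lf (nat_lit 60496) (nat_lit 6) (nat_lit 796) (nat_lit 2) (nat_lit 192) (nat_lit 193) (nat_lit 185)) (PT.lf (nat_lit 60116) (nat_lit 3) (nat_lit 791) (nat_lit 0) (nat_lit 193) (nat_lit 193) (nat_lit 184))))))))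
noncomputable def pc29 : PT := (PT.nd (nat_lit 57330) (PT.nd (nat_lit 1170) (PT.nd (nat_lit 546) (PT.nd (nat_lit 234) (PT.nd (nat_lit 78) (PT.lf (nat_lit 59584) (nat_lit 6) (nat_lit 784) (nat_lit 0) (nat_lit 194) (nat_lit 193) (nat_lit 183)) (PT.nd (nat_lit 78) (PT.lf (nat_lit 58976) (nat_lit 6) (nat_lit 776) (nat_lit 0) (nat_lit 195) (nat_lit 193) (nat_lit 182)) (PT.lf (nat_lit 58292) (nat_lit 6) (nat_lit 767) (nat_lit 0) (nat_lit 196) (nat_lit 193) (nat_lit 181)))) (PT.nd (nat_lit 156) (PT.nd (nat_lit 78) (PT.lf (nat_lit 57532) (nat_lit 6) (nat_lit 757) (nat_lit 0) (nat_lit 197) (nat_lit 193) (nat_lit 180)) (PT.lf (nat_lit 56696) (nat_lit 6) (nat_lit 746) (nat_lit 0) (nat_lit 198) (nat_lit 193) (nat_lit 179))) (PT.nd (nat_lit 78) (PT.lf (nat_lit 55784) (nat_lit 6) (nat_lit 734) (nat_lit 0) (nat_lit 199) (nat_lit 193) (nat_lit 178)) (PT.lf (nat_lit 54796) (nat_lit 6) (nat_lit 721) (nat_lit 0) (nat_lit 200) (nat_lit 193) (nat_lit 177))))) (PT.nd (nat_lit 312)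 (PT.nd (nat_lit 156) (PT.nd (nat_lit 78) (PT.lf (nat_lit 53732) (nat_lit 6) (nat_lit 707) (nat_lit 0) (nat_lit 201) (nat_lit 193) (nat_lit 176)) (PT.lf (nat_lit 52592) (nat_lit 6) (nat_lit 692) (nat_lit 0) (nat_lit 202) (nat_lit 193) (nat_lit 175))) (PT.nd (nat_lit 78) (PT.lf (nat_lit 51376) (nat_lit 6) (nat_lit 676) (nat_lit 0) (nat_lit 203) (nat_lit 193) (nat_lit 174)) (PT.lf (nat_lit 50084) (nat_lit 6) (nat_lit 659) (nat_lit 0) (nat_lit 204) (nat_lit 193) (nat_lit 173)))) (PT.nd (nat_lit 156) (PT.nd (nat_lit 78) (PT.lf (nat_lit 48716) (nat_lit 6) (nat_lit 641) (nat_lit 0) (nat_lit 205) (nat_lit 193) (nat_lit 172)) (PT.lf (nat_lit 47272) (nat_lit 6) (nat_lit 622) (nat_lit 0) (nat_lit 206) (nat_lit 193) (nat_lit 171))) (PT.nd (nat_lit 78) (PT.lf (nat_lit 45752) (nat_lit 6) (nat_lit 602) (nat_lit 0) (nat_lit 207) (nat_lit 193) (nat_lit 170)) (PT.lf (nat_lit 44156) (nat_lit 6) (nat_lit 581) (nat_lit 0) (nat_lit 208) (nat_lit 193) (nat_lit 169)))))) (PT.nd (nat_lit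 55536) (PT.nd (nat_lit 312) (PT.nd (nat_lit 156) (PT.nd (nat_lit 78) (PT.lf (nat_lit 42484) (nat_lit 6) (nat_lit 559) (nat_lit 0) (nat_lit 209) (nat_lit 193) (nat_lit 168)) (PT.lf (nat_lit 40736) (nat_lit 6) (nat_lit 536) (nat_lit 0) (nat_lit 210) (nat_lit 193) (nat_lit 167))) (PT.nd (nat_lit 78) (PT.lf (nat_lit 38912) (nat_lit 6) (nat_lit 512) (nat_lit 0) (nat_lit 211) (nat_lit 193) (nat_lit 166)) (PT.lf (nat_lit 37012) (nat_lit 6) (nat_lit 487) (nat_lit 0) (nat_lit 212) (nat_lit 193) (nat_lit 165)))) (PT.nd (nat_lit 156) (PT.nd (nat_lit 78) (PT.lf (nat_lit 35796) (nat_lit 6) (nat_lit 471) (nat_lit 0) (nat_lit 213) (nat_lit 193) (nat_lit 164)) (PT.lf (nat_lit 34808) (nat_lit 6) (nat_lit 458) (nat_lit 0) (nat_lit 214) (nat_lit 193) (nat_lit 163))) (PT.nd (nat_lit 78) (PT.lf (nat_lit 33820) (nat_lit 6) (nat_lit 445) (nat_lit 0) (nat_lit 215) (nat_lit 193) (nat_lit 162)) (PT.lf (nat_lit 32908) (nat_lit 6) (nat_lit 433) (nat_lit 0) (nat_lit 216) (nat_lit 193) (nat_lit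 161))))) (PT.nd (nat_lit 312) (PT.nd (nat_lit 156) (PT.nd (nat_lit 78) (PT.lf (nat_lit 31996) (nat_lit 6) (nat_lit 421) (nat_lit 5) (nat_lit 160) (nat_lit 194) (nat_lit 216)) (PT.lf (nat_lit 32984) (nat_lit 6) (nat_lit 434) (nat_lit 5) (nat_lit 161) (nat_lit 194) (nat_lit 215))) (PT.nd (nat_lit 78) (PT.lf (nat_lit 33896) (nat_lit 6) (nat_lit 446) (nat_lit 5) (nat_lit 162) (nat_lit 194) (nat_lit 214)) (PT.lf (nat_lit 34884) (nat_lit 6) (nat_lit 459) (nat_lit 5) (nat_lit 163) (nat_lit 194) (nat_lit 213)))) (PT.nd (nat_lit 156) (PT.nd (nat_lit 78) (PT.lf (nat_lit 35872) (nat_lit 6) (nat_lit 472) (nat_lit 5) (nat_lit 164) (nat_lit 194) (nat_lit 212)) (PT.lf (nat_lit 37088) (nat_lit 6) (nat_lit 488) (nat_lit 5) (nat_lit 165) (nat_lit 194) (nat_lit 211))) (PT.nd (nat_lit 78) (PT.lf (nat_lit 38988) (nat_lit 6) (nat_lit 513) (nat_lit 5) (nat_lit 166) (nat_lit 194) (nat_lit 210)) (PT.lf (nat_lit 40812) (nat_lit 6) (nat_lit 537) (nat_lit 5) (nat_lit 167) (nat_lit 194)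 (nat_lit 209))))))) (PT.nd (nat_lit 1170) (PT.nd (nat_lit 546) (PT.nd (nat_lit 234) (PT.nd (nat_lit 78) (PT.lf (nat_lit 42560) (nat_lit 6) (nat_lit 560) (nat_lit 5) (nat_lit 168) (nat_lit 194) (nat_lit 208)) (PT.nd (nat_lit 78) (PT.lf (nat_lit 44232) (nat_lit 6) (nat_lit 582) (nat_lit 5) (nat_lit 169) (nat_lit 194) (nat_lit 207)) (PT.lf (nat_lit 45828) (nat_lit 6) (nat_lit 603) (nat_lit 5) (nat_lit 170) (nat_lit 194) (nat_lit 206)))) (PT.nd (nat_lit 156) (PT.nd (nat_lit 78) (PT.lf (nat_lit 47348) (nat_lit 6) (nat_lit 623) (nat_lit 5) (nat_lit 171) (nat_lit 194) (nat_lit 205)) (PT.lf (nat_lit 48792) (nat_lit 6) (nat_lit 642) (nat_lit 5) (nat_lit 172) (nat_lit 194) (nat_lit 204))) (PT.nd (nat_lit 78) (PT.lf (nat_lit 50160) (nat_lit 6) (nat_lit 660) (nat_lit 5) (nat_lit 173) (nat_lit 194) (nat_lit 203)) (PT.lf (nat_lit 51452) (nat_lit 6) (nat_lit 677) (nat_lit 5) (nat_lit 174) (nat_lit 194) (nat_lit 202))))) (PT.nd (nat_lit 312) (PT.nd (nat_lit 156) (PT.nd (nat_lit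 78) (PT.lf (nat_lit 52668) (nat_lit 6) (nat_lit 693) (nat_lit 5) (nat_lit 175) (nat_lit 194) (nat_lit 201)) (PT.lf (nat_lit 53808) (nat_lit 6) (nat_lit 708) (nat_lit 5) (nat_lit 176) (nat_lit 194) (nat_lit 200))) (PT.nd (nat_lit 78) (PT.lf (nat_lit 54872) (nat_lit 6) (nat_lit 722) (nat_lit 5) (nat_lit 177) (nat_lit 194) (nat_lit 199)) (PT.lf (nat_lit 55860) (nat_lit 6) (nat_lit 735) (nat_lit 5) (nat_lit 178) (nat_lit 194) (nat_lit 198)))) (PT.nd (nat_lit 156) (PT.nd (nat_lit 78) (PT.lf (nat_lit 56772) (nat_lit 6) (nat_lit 747) (nat_lit 5) (nat_lit 179) (nat_lit 194) (nat_lit 197)) (PT.lf (nat_lit 57608) (nat_lit 6) (nat_lit 758) (nat_lit 5) (nat_lit 180) (nat_lit 194) (nat_lit 196))) (PT.nd (nat_lit 78) (PT.lf (nat_lit 58368) (nat_lit 6) (nat_lit 768) (nat_lit 5) (nat_lit 181) (nat_lit 194) (nat_lit 195)) (PT.lf (nat_lit 59052) (nat_lit 3) (nat_lit 777) (nat_lit 4) (nat_lit 182) (nat_lit 194) (nat_lit 194)))))) (PT.nd (nat_lit 624) (PT.nd (nat_lit 312) (PT.nd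 (nat_lit 156) (PT.nd (nat_lit 78) (PT.lf (nat_lit 59584) (nat_lit 6) (nat_lit 784) (nat_lit 4) (nat_lit 183) (nat_lit 194) (nat_lit 193)) (PT.lf (nat_lit 60040) (nat_lit 6) (nat_lit 790) (nat_lit 4) (nat_lit 184) (nat_lit 194) (nat_lit 192))) (PT.nd (nat_lit 78) (PT.lf (nat_lit 60420) (nat_lit 6) (nat_lit 795) (nat_lit 4) (nat_lit 185) (nat_lit 194) (nat_lit 191)) (PT.lf (nat_lit 60724) (nat_lit 6) (nat_lit 799) (nat_lit 4) (nat_lit 186) (nat_lit 194) (nat_lit 190)))) (PT.nd (nat_lit 156) (PT.nd (nat_lit 78) (PT.lf (nat_lit 60648) (nat_lit 6) (nat_lit 798) (nat_lit 4) (nat_lit 187) (nat_lit 194) (nat_lit 189)) (PT.lf (nat_lit 60572) (nat_lit 3) (nat_lit 797) (nat_lit 2) (nat_lit 188) (nat_lit 194) (nat_lit 188))) (PT.nd (nat_lit 78) (PT.lf (nat_lit 60648) (nat_lit 6) (nat_lit 798) (nat_lit 2) (nat_lit 189) (nat_lit 194) (nat_lit 187)) (PT.lf (nat_lit 60724) (nat_lit 6) (nat_lit 799) (nat_lit 2) (nat_lit 190) (nat_lit 194) (nat_lit 186))))) (PT.nd (nat_lit 312)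 (PT.nd (nat_lit 156) (PT.nd (nat_lit 78) (PT.lf (nat_lit 60420) (nat_lit 6) (nat_lit 795) (nat_lit 2) (nat_lit 191) (nat_lit 194) (nat_lit 185)) (PT.lf (nat_lit 60040) (nat_lit 6) (nat_lit 790) (nat_lit 2) (nat_lit 192) (nat_lit 194) (nat_lit 184))) (PT.nd (nat_lit 78) (PT.lf (nat_lit 59584) (nat_lit 6) (nat_lit 784) (nat_lit 2) (nat_lit 193) (nat_lit 194) (nat_lit 183)) (PT.lf (nat_lit 59052) (nat_lit 3) (nat_lit 777) (nat_lit 0) (nat_lit 194) (nat_lit 194) (nat_lit 182)))) (PT.nd (nat_lit 156) (PT.nd (nat_lit 78) (PT.lf (nat_lit 58368) (nat_lit 6) (nat_lit 768) (nat_lit 0) (nat_lit 195) (nat_lit 194) (nat_lit 181)) (PT.lf (nat_lit 57608) (nat_lit 6) (nat_lit 758) (nat_lit 0) (nat_lit 196) (nat_lit 194) (nat_lit 180))) (PT.nd (nat_lit 78) (PT.lf (nat_lit 56772) (nat_lit 6) (nat_lit 747) (nat_lit 0) (nat_lit 197) (nat_lit 194) (nat_lit 179)) (PT.lf (nat_lit 55860) (nat_lit 6) (nat_lit 735) (nat_lit 0) (nat_lit 198) (nat_lit 194) (nat_lit 178))))))))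
noncomputable def pc30 : PT := (PT.nd (nat_lit 57174) (PT.nd (nat_lit 1170) (PT.nd (nat_lit 546) (PT.nd (nat_lit 234) (PT.nd (nat_lit 78) (PT.lf (nat_lit 54872) (nat_lit 6) (nat_lit 722) (nat_lit 0) (nat_lit 199) (nat_lit 194) (nat_lit 177)) (PT.nd (nat_lit 78) (PT.lf (nat_lit 53808) (nat_lit 6) (nat_lit 708) (nat_lit 0) (nat_lit 200) (nat_lit 194) (nat_lit 176)) (PT.lf (nat_lit 52668) (nat_lit 6) (nat_lit 693) (nat_lit 0) (nat_lit 201) (nat_lit 194) (nat_lit 175)))) (PT.nd (nat_lit 156) (PT.nd (nat_lit 78) (PT.lf (nat_lit 51452) (nat_lit 6) (nat_lit 677) (nat_lit 0) (nat_lit 202) (nat_lit 194) (nat_lit 174)) (PT.lf (nat_lit 50160) (nat_lit 6) (nat_lit 660) (nat_lit 0) (nat_lit 203) (nat_lit 194) (nat_lit 173))) (PT.nd (nat_lit 78) (PT.lf (nat_lit 48792) (nat_lit 6) (nat_lit 642) (nat_lit 0) (nat_lit 204) (nat_lit 194) (nat_lit 172)) (PT.lf (nat_lit 47348) (nat_lit 6) (nat_lit 623) (nat_lit 0) (nat_lit 205) (nat_lit 194) (nat_lit 171))))) (PT.nd (nat_lit 312)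 (PT.nd (nat_lit 156) (PT.nd (nat_lit 78) (PT.lf (nat_lit 45828) (nat_lit 6) (nat_lit 603) (nat_lit 0) (nat_lit 206) (nat_lit 194) (nat_lit 170)) (PT.lf (nat_lit 44232) (nat_lit 6) (nat_lit 582) (nat_lit 0) (nat_lit 207) (nat_lit 194) (nat_lit 169))) (PT.nd (nat_lit 78) (PT.lf (nat_lit 42560) (nat_lit 6) (nat_lit 560) (nat_lit 0) (nat_lit 208) (nat_lit 194) (nat_lit 168)) (PT.lf (nat_lit 40812) (nat_lit 6) (nat_lit 537) (nat_lit 0) (nat_lit 209) (nat_lit 194) (nat_lit 167)))) (PT.nd (nat_lit 156) (PT.nd (nat_lit 78) (PT.lf (nat_lit 38988) (nat_lit 6) (nat_lit 513) (nat_lit 0) (nat_lit 210) (nat_lit 194) (nat_lit 166)) (PT.lf (nat_lit 37088) (nat_lit 6) (nat_lit 488) (nat_lit 0) (nat_lit 211) (nat_lit 194) (nat_lit 165))) (PT.nd (nat_lit 78) (PT.lf (nat_lit 35872) (nat_lit 6) (nat_lit 472) (nat_lit 0) (nat_lit 212) (nat_lit 194) (nat_lit 164)) (PT.lf (nat_lit 34884) (nat_lit 6) (nat_lit 459) (nat_lit 0) (nat_lit 213) (nat_lit 194) (nat_lit 163)))))) (PT.nd (nat_lit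 55380) (PT.nd (nat_lit 55068) (PT.nd (nat_lit 78) (PT.lf (nat_lit 33896) (nat_lit 6) (nat_lit 446) (nat_lit 0) (nat_lit 214) (nat_lit 194) (nat_lit 162)) (PT.nd (nat_lit 78) (PT.lf (nat_lit 32984) (nat_lit 6) (nat_lit 434) (nat_lit 0) (nat_lit 215) (nat_lit 194) (nat_lit 161)) (PT.lf (nat_lit 31996) (nat_lit 6) (nat_lit 421) (nat_lit 0) (nat_lit 216) (nat_lit 194) (nat_lit 160)))) (PT.nd (nat_lit 156) (PT.nd (nat_lit 78) (PT.lf (nat_lit 31160) (nat_lit 6) (nat_lit 410) (nat_lit 5) (nat_lit 159) (nat_lit 195) (nat_lit 216)) (PT.lf (nat_lit 32072) (nat_lit 6) (nat_lit 422) (nat_lit 5) (nat_lit 160) (nat_lit 195) (nat_lit 215))) (PT.nd (nat_lit 78) (PT.lf (nat_lit 33060) (nat_lit 6) (nat_lit 435) (nat_lit 5) (nat_lit 161) (nat_lit 195) (nat_lit 214)) (PT.lf (nat_lit 33972) (nat_lit 6) (nat_lit 447) (nat_lit 5) (nat_lit 162) (nat_lit 195) (nat_lit 213))))) (PT.nd (nat_lit 312) (PT.nd (nat_lit 156) (PT.nd (nat_lit 78) (PT.lf (nat_lit 34960) (nat_lit 6) (nat_lit 460)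 (nat_lit 5) (nat_lit 163) (nat_lit 195) (nat_lit 212)) (PT.lf (nat_lit 35948) (nat_lit 6) (nat_lit 473) (nat_lit 5) (nat_lit 164) (nat_lit 195) (nat_lit 211))) (PT.nd (nat_lit 78) (PT.lf (nat_lit 37164) (nat_lit 6) (nat_lit 489) (nat_lit 5) (nat_lit 165) (nat_lit 195) (nat_lit 210)) (PT.lf (nat_lit 39064) (nat_lit 6) (nat_lit 514) (nat_lit 5) (nat_lit 166) (nat_lit 195) (nat_lit 209)))) (PT.nd (nat_lit 156) (PT.nd (nat_lit 78) (PT.lf (nat_lit 40888) (nat_lit 6) (nat_lit 538) (nat_lit 5) (nat_lit 167) (nat_lit 195) (nat_lit 208)) (PT.lf (nat_lit 42636) (nat_lit 6) (nat_lit 561) (nat_lit 5) (nat_lit 168) (nat_lit 195) (nat_lit 207))) (PT.nd (nat_lit 78) (PT.lf (nat_lit 44308) (nat_lit 6) (nat_lit 583) (nat_lit 5) (nat_lit 169) (nat_lit 195) (nat_lit 206)) (PT.lf (nat_lit 45904) (nat_lit 6) (nat_lit 604) (nat_lit 5) (nat_lit 170) (nat_lit 195) (nat_lit 205))))))) (PT.nd (nat_lit 1170) (PT.nd (nat_lit 546) (PT.nd (nat_lit 234) (PT.nd (nat_lit 78) (PT.lf (nat_lit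 47424) (nat_lit 6) (nat_lit 624) (nat_lit 5) (nat_lit 171) (nat_lit 195) (nat_lit 204)) (PT.nd (nat_lit 78) (PT.lf (nat_lit 48868) (nat_lit 6) (nat_lit 643) (nat_lit 5) (nat_lit 172) (nat_lit 195) (nat_lit 203)) (PT.lf (nat_lit 50236) (nat_lit 6) (nat_lit 661) (nat_lit 5) (nat_lit 173) (nat_lit 195) (nat_lit 202)))) (PT.nd (nat_lit 156) (PT.nd (nat_lit 78) (PT.lf (nat_lit 51528) (nat_lit 6) (nat_lit 678) (nat_lit 5) (nat_lit 174) (nat_lit 195) (nat_lit 201)) (PT.lf (nat_lit 52744) (nat_lit 6) (nat_lit 694) (nat_lit 5) (nat_lit 175) (nat_lit 195) (nat_lit 200))) (PT.nd (nat_lit 78) (PT.lf (nat_lit 53884) (nat_lit 6) (nat_lit 709) (nat_lit 5) (nat_lit 176) (nat_lit 195) (nat_lit 199)) (PT.lf (nat_lit 54948) (nat_lit 6) (nat_lit 723) (nat_lit 5) (nat_lit 177) (nat_lit 195) (nat_lit 198))))) (PT.nd (nat_lit 312) (PT.nd (nat_lit 156) (PT.nd (nat_lit 78) (PT.lf (nat_lit 55936) (nat_lit 6) (nat_lit 736) (nat_lit 5) (nat_lit 178) (nat_lit 195) (nat_lit 197)) (PT.lf (nat_lit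 56848) (nat_lit 6) (nat_lit 748) (nat_lit 5) (nat_lit 179) (nat_lit 195) (nat_lit 196))) (PT.nd (nat_lit 78) (PT.lf (nat_lit 57684) (nat_lit 3) (nat_lit 759) (nat_lit 4) (nat_lit 180) (nat_lit 195) (nat_lit 195)) (PT.lf (nat_lit 58368) (nat_lit 6) (nat_lit 768) (nat_lit 4) (nat_lit 181) (nat_lit 195) (nat_lit 194)))) (PT.nd (nat_lit 156) (PT.nd (nat_lit 78) (PT.lf (nat_lit 58976) (nat_lit 6) (nat_lit 776) (nat_lit 4) (nat_lit 182) (nat_lit 195) (nat_lit 193)) (PT.lf (nat_lit 59508) (nat_lit 6) (nat_lit 783) (nat_lit 4) (nat_lit 183) (nat_lit 195) (nat_lit 192))) (PT.nd (nat_lit 78) (PT.lf (nat_lit 59964) (nat_lit 6) (nat_lit 789) (nat_lit 4) (nat_lit 184) (nat_lit 195) (nat_lit 191)) (PT.lf (nat_lit 60344) (nat_lit 6) (nat_lit 794) (nat_lit 4) (nat_lit 185) (nat_lit 195) (nat_lit 190)))))) (PT.nd (nat_lit 624) (PT.nd (nat_lit 312) (PT.nd (nat_lit 156) (PT.nd (nat_lit 78) (PT.lf (nat_lit 60268) (nat_lit 6) (nat_lit 793) (nat_lit 4) (nat_lit 186) (nat_lit 195)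 (nat_lit 189)) (PT.lf (nat_lit 60192) (nat_lit 6) (nat_lit 792) (nat_lit 4) (nat_lit 187) (nat_lit 195) (nat_lit 188))) (PT.nd (nat_lit 78) (PT.lf (nat_lit 60192) (nat_lit 6) (nat_lit 792) (nat_lit 2) (nat_lit 188) (nat_lit 195) (nat_lit 187)) (PT.lf (nat_lit 60268) (nat_lit 6) (nat_lit 793) (nat_lit 2) (nat_lit 189) (nat_lit 195) (nat_lit 186)))) (PT.nd (nat_lit 156) (PT.nd (nat_lit 78) (PT.lf (nat_lit 60344) (nat_lit 6) (nat_lit 794) (nat_lit 2) (nat_lit 190) (nat_lit 195) (nat_lit 185)) (PT.lf (nat_lit 59964) (nat_lit 6) (nat_lit 789) (nat_lit 2) (nat_lit 191) (nat_lit 195) (nat_lit 184))) (PT.nd (nat_lit 78) (PT.lf (nat_lit 59508) (nat_lit 6) (nat_lit 783) (nat_lit 2) (nat_lit 192) (nat_lit 195) (nat_lit 183)) (PT.lf (nat_lit 58976) (nat_lit 6) (nat_lit 776) (nat_lit 2) (nat_lit 193) (nat_lit 195) (nat_lit 182))))) (PT.nd (nat_lit 312) (PT.nd (nat_lit 156) (PT.nd (nat_lit 78) (PT.lf (nat_lit 58368) (nat_lit 6) (nat_lit 768) (nat_lit 2) (nat_lit 194) (nat_lit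 195) (nat_lit 181)) (PT.lf (nat_lit 57684) (nat_lit 3) (nat_lit 759) (nat_lit 0) (nat_lit 195) (nat_lit 195) (nat_lit 180))) (PT.nd (nat_lit 78) (PT.lf (nat_lit 56848) (nat_lit 6) (nat_lit 748) (nat_lit 0) (nat_lit 196) (nat_lit 195) (nat_lit 179)) (PT.lf (nat_lit 55936) (nat_lit 6) (nat_lit 736) (nat_lit 0) (nat_lit 197) (nat_lit 195) (nat_lit 178)))) (PT.nd (nat_lit 156) (PT.nd (nat_lit 78) (PT.lf (nat_lit 54948) (nat_lit 6) (nat_lit 723) (nat_lit 0) (nat_lit 198) (nat_lit 195) (nat_lit 177)) (PT.lf (nat_lit 53884) (nat_lit 6) (nat_lit 709) (nat_lit 0) (nat_lit 199) (nat_lit 195) (nat_lit 176))) (PT.nd (nat_lit 78) (PT.lf (nat_lit 52744) (nat_lit 6) (nat_lit 694) (nat_lit 0) (nat_lit 200) (nat_lit 195) (nat_lit 175)) (PT.lf (nat_lit 51528) (nat_lit 6) (nat_lit 678) (nat_lit 0) (nat_lit 201) (nat_lit 195) (nat_lit 174))))))))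
noncomputable def pc31 : PT := (PT.nd (nat_lit 57174) (PT.nd (nat_lit 55926) (PT.nd (nat_lit 546) (PT.nd (nat_lit 234) (PT.nd (nat_lit 78) (PT.lf (nat_lit 50236) (nat_lit 6) (nat_lit 661) (nat_lit 0) (nat_lit 202) (nat_lit 195) (nat_lit 173)) (PT.nd (nat_lit 78) (PT.lf (nat_lit 48868) (nat_lit 6) (nat_lit 643) (nat_lit 0) (nat_lit 203) (nat_lit 195) (nat_lit 172)) (PT.lf (nat_lit 47424) (nat_lit 6) (nat_lit 624) (nat_lit 0) (nat_lit 204) (nat_lit 195) (nat_lit 171)))) (PT.nd (nat_lit 156) (PT.nd (nat_lit 78) (PT.lf (nat_lit 45904) (nat_lit 6) (nat_lit 604) (nat_lit 0) (nat_lit 205) (nat_lit 195) (nat_lit 170)) (PT.lf (nat_lit 44308) (nat_lit 6) (nat_lit 583) (nat_lit 0) (nat_lit 206) (nat_lit 195) (nat_lit 169))) (PT.nd (nat_lit 78) (PT.lf (nat_lit 42636) (nat_lit 6) (nat_lit 561) (nat_lit 0) (nat_lit 207) (nat_lit 195) (nat_lit 168)) (PT.lf (nat_lit 40888) (nat_lit 6) (nat_lit 538) (nat_lit 0) (nat_lit 208) (nat_lit 195) (nat_lit 167))))) (PT.nd (nat_lit 312)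 (PT.nd (nat_lit 156) (PT.nd (nat_lit 78) (PT.lf (nat_lit 39064) (nat_lit 6) (nat_lit 514) (nat_lit 0) (nat_lit 209) (nat_lit 195) (nat_lit 166)) (PT.lf (nat_lit 37164) (nat_lit 6) (nat_lit 489) (nat_lit 0) (nat_lit 210) (nat_lit 195) (nat_lit 165))) (PT.nd (nat_lit 78) (PT.lf (nat_lit 35948) (nat_lit 6) (nat_lit 473) (nat_lit 0) (nat_lit 211) (nat_lit 195) (nat_lit 164)) (PT.lf (nat_lit 34960) (nat_lit 6) (nat_lit 460) (nat_lit 0) (nat_lit 212) (nat_lit 195) (nat_lit 163)))) (PT.nd (nat_lit 156) (PT.nd (nat_lit 78) (PT.lf (nat_lit 33972) (nat_lit 6) (nat_lit 447) (nat_lit 0) (nat_lit 213) (nat_lit 195) (nat_lit 162)) (PT.lf (nat_lit 33060) (nat_lit 6) (nat_lit 435) (nat_lit 0) (nat_lit 214) (nat_lit 195) (nat_lit 161))) (PT.nd (nat_lit 78) (PT.lf (nat_lit 32072) (nat_lit 6) (nat_lit 422) (nat_lit 0) (nat_lit 215) (nat_lit 195) (nat_lit 160)) (PT.lf (nat_lit 31160) (nat_lit 6) (nat_lit 410) (nat_lit 0) (nat_lit 216) (nat_lit 195) (nat_lit 159)))))) (PT.nd (nat_lit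 624) (PT.nd (nat_lit 312) (PT.nd (nat_lit 156) (PT.nd (nat_lit 78) (PT.lf (nat_lit 30324) (nat_lit 6) (nat_lit 399) (nat_lit 5) (nat_lit 158) (nat_lit 196) (nat_lit 216)) (PT.lf (nat_lit 31236) (nat_lit 6) (nat_lit 411) (nat_lit 5) (nat_lit 159) (nat_lit 196) (nat_lit 215))) (PT.nd (nat_lit 78) (PT.lf (nat_lit 32148) (nat_lit 6) (nat_lit 423) (nat_lit 5) (nat_lit 160) (nat_lit 196) (nat_lit 214)) (PT.lf (nat_lit 33136) (nat_lit 6) (nat_lit 436) (nat_lit 5) (nat_lit 161) (nat_lit 196) (nat_lit 213)))) (PT.nd (nat_lit 156) (PT.nd (nat_lit 78) (PT.lf (nat_lit 34048) (nat_lit 6) (nat_lit 448) (nat_lit 5) (nat_lit 162) (nat_lit 196) (nat_lit 212)) (PT.lf (nat_lit 35036) (nat_lit 6) (nat_lit 461) (nat_lit 5) (nat_lit 163) (nat_lit 196) (nat_lit 211))) (PT.nd (nat_lit 78) (PT.lf (nat_lit 36024) (nat_lit 6) (nat_lit 474) (nat_lit 5) (nat_lit 164) (nat_lit 196) (nat_lit 210)) (PT.lf (nat_lit 37240) (nat_lit 6) (nat_lit 490) (nat_lit 5) (nat_lit 165) (nat_lit 196) (nat_lit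 209))))) (PT.nd (nat_lit 312) (PT.nd (nat_lit 156) (PT.nd (nat_lit 78) (PT.lf (nat_lit 39140) (nat_lit 6) (nat_lit 515) (nat_lit 5) (nat_lit 166) (nat_lit 196) (nat_lit 208)) (PT.lf (nat_lit 40964) (nat_lit 6) (nat_lit 539) (nat_lit 5) (nat_lit 167) (nat_lit 196) (nat_lit 207))) (PT.nd (nat_lit 78) (PT.lf (nat_lit 42712) (nat_lit 6) (nat_lit 562) (nat_lit 5) (nat_lit 168) (nat_lit 196) (nat_lit 206)) (PT.lf (nat_lit 44384) (nat_lit 6) (nat_lit 584) (nat_lit 5) (nat_lit 169) (nat_lit 196) (nat_lit 205)))) (PT.nd (nat_lit 156) (PT.nd (nat_lit 78) (PT.lf (nat_lit 45980) (nat_lit 6) (nat_lit 605) (nat_lit 5) (nat_lit 170) (nat_lit 196) (nat_lit 204)) (PT.lf (nat_lit 47500) (nat_lit 6) (nat_lit 625) (nat_lit 5) (nat_lit 171) (nat_lit 196) (nat_lit 203))) (PT.nd (nat_lit 78) (PT.lf (nat_lit 48944) (nat_lit 6) (nat_lit 644) (nat_lit 5) (nat_lit 172) (nat_lit 196) (nat_lit 202)) (PT.lf (nat_lit 50312) (nat_lit 6) (nat_lit 662) (nat_lit 5) (nat_lit 173) (nat_lit 196)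 (nat_lit 201))))))) (PT.nd (nat_lit 1170) (PT.nd (nat_lit 546) (PT.nd (nat_lit 234) (PT.nd (nat_lit 78) (PT.lf (nat_lit 51604) (nat_lit 6) (nat_lit 679) (nat_lit 5) (nat_lit 174) (nat_lit 196) (nat_lit 200)) (PT.nd (nat_lit 78) (PT.lf (nat_lit 52820) (nat_lit 6) (nat_lit 695) (nat_lit 5) (nat_lit 175) (nat_lit 196) (nat_lit 199)) (PT.lf (nat_lit 53960) (nat_lit 6) (nat_lit 710) (nat_lit 5) (nat_lit 176) (nat_lit 196) (nat_lit 198)))) (PT.nd (nat_lit 156) (PT.nd (nat_lit 78) (PT.lf (nat_lit 55024) (nat_lit 6) (nat_lit 724) (nat_lit 5) (nat_lit 177) (nat_lit 196) (nat_lit 197)) (PT.lf (nat_lit 56012) (nat_lit 3) (nat_lit 737) (nat_lit 4) (nat_lit 178) (nat_lit 196) (nat_lit 196))) (PT.nd (nat_lit 78) (PT.lf (nat_lit 56848) (nat_lit 6) (nat_lit 748) (nat_lit 4) (nat_lit 179) (nat_lit 196) (nat_lit 195)) (PT.lf (nat_lit 57608) (nat_lit 6) (nat_lit 758) (nat_lit 4) (nat_lit 180) (nat_lit 196) (nat_lit 194))))) (PT.nd (nat_lit 312) (PT.nd (nat_lit 156) (PT.nd (nat_lit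 78) (PT.lf (nat_lit 58292) (nat_lit 6) (nat_lit 767) (nat_lit 4) (nat_lit 181) (nat_lit 196) (nat_lit 193)) (PT.lf (nat_lit 58900) (nat_lit 6) (nat_lit 775) (nat_lit 4) (nat_lit 182) (nat_lit 196) (nat_lit 192))) (PT.nd (nat_lit 78) (PT.lf (nat_lit 59432) (nat_lit 6) (nat_lit 782) (nat_lit 4) (nat_lit 183) (nat_lit 196) (nat_lit 191)) (PT.lf (nat_lit 59888) (nat_lit 6) (nat_lit 788) (nat_lit 4) (nat_lit 184) (nat_lit 196) (nat_lit 190)))) (PT.nd (nat_lit 156) (PT.nd (nat_lit 78) (PT.lf (nat_lit 59812) (nat_lit 6) (nat_lit 787) (nat_lit 4) (nat_lit 185) (nat_lit 196) (nat_lit 189)) (PT.lf (nat_lit 59736) (nat_lit 6) (nat_lit 786) (nat_lit 4) (nat_lit 186) (nat_lit 196) (nat_lit 188))) (PT.nd (nat_lit 78) (PT.lf (nat_lit 59660) (nat_lit 3) (nat_lit 785) (nat_lit 2) (nat_lit 187) (nat_lit 196) (nat_lit 187)) (PT.lf (nat_lit 59736) (nat_lit 6) (nat_lit 786) (nat_lit 2) (nat_lit 188) (nat_lit 196) (nat_lit 186)))))) (PT.nd (nat_lit 624) (PT.nd (nat_lit 312) (PT.nd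 (nat_lit 156) (PT.nd (nat_lit 78) (PT.lf (nat_lit 59812) (nat_lit 6) (nat_lit 787) (nat_lit 2) (nat_lit 189) (nat_lit 196) (nat_lit 185)) (PT.lf (nat_lit 59888) (nat_lit 6) (nat_lit 788) (nat_lit 2) (nat_lit 190) (nat_lit 196) (nat_lit 184))) (PT.nd (nat_lit 78) (PT.lf (nat_lit 59432) (nat_lit 6) (nat_lit 782) (nat_lit 2) (nat_lit 191) (nat_lit 196) (nat_lit 183)) (PT.lf (nat_lit 58900) (nat_lit 6) (nat_lit 775) (nat_lit 2) (nat_lit 192) (nat_lit 196) (nat_lit 182)))) (PT.nd (nat_lit 156) (PT.nd (nat_lit 78) (PT.lf (nat_lit 58292) (nat_lit 6) (nat_lit 767) (nat_lit 2) (nat_lit 193) (nat_lit 196) (nat_lit 181)) (PT.lf (nat_lit 57608) (nat_lit 6) (nat_lit 758) (nat_lit 2) (nat_lit 194) (nat_lit 196) (nat_lit 180))) (PT.nd (nat_lit 78) (PT.lf (nat_lit 56848) (nat_lit 6) (nat_lit 748) (nat_lit 2) (nat_lit 195) (nat_lit 196) (nat_lit 179)) (PT.lf (nat_lit 56012) (nat_lit 3) (nat_lit 737) (nat_lit 0) (nat_lit 196) (nat_lit 196) (nat_lit 178))))) (PT.nd (nat_lit 312)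 (PT.nd (nat_lit 156) (PT.nd (nat_lit 78) (PT.lf (nat_lit 55024) (nat_lit 6) (nat_lit 724) (nat_lit 0) (nat_lit 197) (nat_lit 196) (nat_lit 177)) (PT.lf (nat_lit 53960) (nat_lit 6) (nat_lit 710) (nat_lit 0) (nat_lit 198) (nat_lit 196) (nat_lit 176))) (PT.nd (nat_lit 78) (PT.lf (nat_lit 52820) (nat_lit 6) (nat_lit 695) (nat_lit 0) (nat_lit 199) (nat_lit 196) (nat_lit 175)) (PT.lf (nat_lit 51604) (nat_lit 6) (nat_lit 679) (nat_lit 0) (nat_lit 200) (nat_lit 196) (nat_lit 174)))) (PT.nd (nat_lit 156) (PT.nd (nat_lit 78) (PT.lf (nat_lit 50312) (nat_lit 6) (nat_lit 662) (nat_lit 0) (nat_lit 201) (nat_lit 196) (nat_lit 173)) (PT.lf (nat_lit 48944) (nat_lit 6) (nat_lit 644) (nat_lit 0) (nat_lit 202) (nat_lit 196) (nat_lit 172))) (PT.nd (nat_lit 78) (PT.lf (nat_lit 47500) (nat_lit 6) (nat_lit 625) (nat_lit 0) (nat_lit 203) (nat_lit 196) (nat_lit 171)) (PT.lf (nat_lit 45980) (nat_lit 6) (nat_lit 605) (nat_lit 0) (nat_lit 204) (nat_lit 196) (nat_lit 170))))))))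
noncomputable def pc32 : PT := (PT.nd (nat_lit 56940) (PT.nd (nat_lit 55770) (PT.nd (nat_lit 546) (PT.nd (nat_lit 234) (PT.nd (nat_lit 78) (PT.lf (nat_lit 44384) (nat_lit 6) (nat_lit 584) (nat_lit 0) (nat_lit 205) (nat_lit 196) (nat_lit 169)) (PT.nd (nat_lit 78) (PT.lf (nat_lit 42712) (nat_lit 6) (nat_lit 562) (nat_lit 0) (nat_lit 206) (nat_lit 196) (nat_lit 168)) (PT.lf (nat_lit 40964) (nat_lit 6) (nat_lit 539) (nat_lit 0) (nat_lit 207) (nat_lit 196) (nat_lit 167)))) (PT.nd (nat_lit 156) (PT.nd (nat_lit 78) (PT.lf (nat_lit 39140) (nat_lit 6) (nat_lit 515) (nat_lit 0) (nat_lit 208) (nat_lit 196) (nat_lit 166)) (PT.lf (nat_lit 37240) (nat_lit 6) (nat_lit 490) (nat_lit 0) (nat_lit 209) (nat_lit 196) (nat_lit 165))) (PT.nd (nat_lit 78) (PT.lf (nat_lit 36024) (nat_lit 6) (nat_lit 474) (nat_lit 0) (nat_lit 210) (nat_lit 196) (nat_lit 164)) (PT.lf (nat_lit 35036) (nat_lit 6) (nat_lit 461) (nat_lit 0) (nat_lit 211) (nat_lit 196) (nat_lit 163))))) (PT.nd (nat_lit 312)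 (PT.nd (nat_lit 156) (PT.nd (nat_lit 78) (PT.lf (nat_lit 34048) (nat_lit 6) (nat_lit 448) (nat_lit 0) (nat_lit 212) (nat_lit 196) (nat_lit 162)) (PT.lf (nat_lit 33136) (nat_lit 6) (nat_lit 436) (nat_lit 0) (nat_lit 213) (nat_lit 196) (nat_lit 161))) (PT.nd (nat_lit 78) (PT.lf (nat_lit 32148) (nat_lit 6) (nat_lit 423) (nat_lit 0) (nat_lit 214) (nat_lit 196) (nat_lit 160)) (PT.lf (nat_lit 31236) (nat_lit 6) (nat_lit 411) (nat_lit 0) (nat_lit 215) (nat_lit 196) (nat_lit 159)))) (PT.nd (nat_lit 54756) (PT.nd (nat_lit 54678) (PT.lf (nat_lit 30324) (nat_lit 6) (nat_lit 399) (nat_lit 0) (nat_lit 216) (nat_lit 196) (nat_lit 158)) (PT.lf (nat_lit 28728) (nat_lit 6) (nat_lit 378) (nat_lit 5) (nat_lit 156) (nat_lit 197) (nat_lit 217))) (PT.nd (nat_lit 78) (PT.lf (nat_lit 29564) (nat_lit 6) (nat_lit 389) (nat_lit 5) (nat_lit 157) (nat_lit 197) (nat_lit 216)) (PT.lf (nat_lit 30400) (nat_lit 6) (nat_lit 400) (nat_lit 5) (nat_lit 158) (nat_lit 197) (nat_lit 215)))))) (PT.nd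 (nat_lit 546) (PT.nd (nat_lit 234) (PT.nd (nat_lit 78) (PT.lf (nat_lit 31312) (nat_lit 6) (nat_lit 412) (nat_lit 5) (nat_lit 159) (nat_lit 197) (nat_lit 214)) (PT.nd (nat_lit 78) (PT.lf (nat_lit 32224) (nat_lit 6) (nat_lit 424) (nat_lit 5) (nat_lit 160) (nat_lit 197) (nat_lit 213)) (PT.lf (nat_lit 33212) (nat_lit 6) (nat_lit 437) (nat_lit 5) (nat_lit 161) (nat_lit 197) (nat_lit 212)))) (PT.nd (nat_lit 156) (PT.nd (nat_lit 78) (PT.lf (nat_lit 34124) (nat_lit 6) (nat_lit 449) (nat_lit 5) (nat_lit 162) (nat_lit 197) (nat_lit 211)) (PT.lf (nat_lit 35112) (nat_lit 6) (nat_lit 462) (nat_lit 5) (nat_lit 163) (nat_lit 197) (nat_lit 210))) (PT.nd (nat_lit 78) (PT.lf (nat_lit 36100) (nat_lit 6) (nat_lit 475) (nat_lit 5) (nat_lit 164) (nat_lit 197) (nat_lit 209)) (PT.lf (nat_lit 37316) (nat_lit 6) (nat_lit 491) (nat_lit 5) (nat_lit 165) (nat_lit 197) (nat_lit 208))))) (PT.nd (nat_lit 312) (PT.nd (nat_lit 156) (PT.nd (nat_lit 78) (PT.lf (nat_lit 39216) (nat_lit 6) (nat_lit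 516) (nat_lit 5) (nat_lit 166) (nat_lit 197) (nat_lit 207)) (PT.lf (nat_lit 41040) (nat_lit 6) (nat_lit 540) (nat_lit 5) (nat_lit 167) (nat_lit 197) (nat_lit 206))) (PT.nd (nat_lit 78) (PT.lf (nat_lit 42788) (nat_lit 6) (nat_lit 563) (nat_lit 5) (nat_lit 168) (nat_lit 197) (nat_lit 205)) (PT.lf (nat_lit 44460) (nat_lit 6) (nat_lit 585) (nat_lit 5) (nat_lit 169) (nat_lit 197) (nat_lit 204)))) (PT.nd (nat_lit 156) (PT.nd (nat_lit 78) (PT.lf (nat_lit 46056) (nat_lit 6) (nat_lit 606) (nat_lit 5) (nat_lit 170) (nat_lit 197) (nat_lit 203)) (PT.lf (nat_lit 47576) (nat_lit 6) (nat_lit 626) (nat_lit 5) (nat_lit 171) (nat_lit 197) (nat_lit 202))) (PT.nd (nat_lit 78) (PT.lf (nat_lit 49020) (nat_lit 6) (nat_lit 645) (nat_lit 5) (nat_lit 172) (nat_lit 197) (nat_lit 201)) (PT.lf (nat_lit 50388) (nat_lit 6) (nat_lit 663) (nat_lit 5) (nat_lit 173) (nat_lit 197) (nat_lit 200))))))) (PT.nd (nat_lit 1170) (PT.nd (nat_lit 546) (PT.nd (nat_lit 234) (PT.nd (nat_lit 78) (PT.lf (nat_lit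 51680) (nat_lit 6) (nat_lit 680) (nat_lit 5) (nat_lit 174) (nat_lit 197) (nat_lit 199)) (PT.nd (nat_lit 78) (PT.lf (nat_lit 52896) (nat_lit 6) (nat_lit 696) (nat_lit 5) (nat_lit 175) (nat_lit 197) (nat_lit 198)) (PT.lf (nat_lit 54036) (nat_lit 3) (nat_lit 711) (nat_lit 4) (nat_lit 176) (nat_lit 197) (nat_lit 197)))) (PT.nd (nat_lit 156) (PT.nd (nat_lit 78) (PT.lf (nat_lit 55024) (nat_lit 6) (nat_lit 724) (nat_lit 4) (nat_lit 177) (nat_lit 197) (nat_lit 196)) (PT.lf (nat_lit 55936) (nat_lit 6) (nat_lit 736) (nat_lit 4) (nat_lit 178) (nat_lit 197) (nat_lit 195))) (PT.nd (nat_lit 78) (PT.lf (nat_lit 56772) (nat_lit 6) (nat_lit 747) (nat_lit 4) (nat_lit 179) (nat_lit 197) (nat_lit 194)) (PT.lf (nat_lit 57532) (nat_lit 6) (nat_lit 757) (nat_lit 4) (nat_lit 180) (nat_lit 197) (nat_lit 193))))) (PT.nd (nat_lit 312) (PT.nd (nat_lit 156) (PT.nd (nat_lit 78) (PT.lf (nat_lit 58216) (nat_lit 6) (nat_lit 766) (nat_lit 4) (nat_lit 181) (nat_lit 197) (nat_lit 192)) (PT.lf (nat_lit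 58824) (nat_lit 6) (nat_lit 774) (nat_lit 4) (nat_lit 182) (nat_lit 197) (nat_lit 191))) (PT.nd (nat_lit 78) (PT.lf (nat_lit 59356) (nat_lit 6) (nat_lit 781) (nat_lit 4) (nat_lit 183) (nat_lit 197) (nat_lit 190)) (PT.lf (nat_lit 59280) (nat_lit 6) (nat_lit 780) (nat_lit 4) (nat_lit 184) (nat_lit 197) (nat_lit 189)))) (PT.nd (nat_lit 156) (PT.nd (nat_lit 78) (PT.lf (nat_lit 59204) (nat_lit 6) (nat_lit 779) (nat_lit 4) (nat_lit 185) (nat_lit 197) (nat_lit 188)) (PT.lf (nat_lit 59128) (nat_lit 6) (nat_lit 778) (nat_lit 4) (nat_lit 186) (nat_lit 197) (nat_lit 187))) (PT.nd (nat_lit 78) (PT.lf (nat_lit 59128) (nat_lit 6) (nat_lit 778) (nat_lit 2) (nat_lit 187) (nat_lit 197) (nat_lit 186)) (PT.lf (nat_lit 59204) (nat_lit 6) (nat_lit 779) (nat_lit 2) (nat_lit 188) (nat_lit 197) (nat_lit 185)))))) (PT.nd (nat_lit 624) (PT.nd (nat_lit 312) (PT.nd (nat_lit 156) (PT.nd (nat_lit 78) (PT.lf (nat_lit 59280) (nat_lit 6) (nat_lit 780) (nat_lit 2) (nat_lit 189) (nat_lit 197)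 (nat_lit 184)) (PT.lf (nat_lit 59356) (nat_lit 6) (nat_lit 781) (nat_lit 2) (nat_lit 190) (nat_lit 197) (nat_lit 183))) (PT.nd (nat_lit 78) (PT.lf (nat_lit 58824) (nat_lit 6) (nat_lit 774) (nat_lit 2) (nat_lit 191) (nat_lit 197) (nat_lit 182)) (PT.lf (nat_lit 58216) (nat_lit 6) (nat_lit 766) (nat_lit 2) (nat_lit 192) (nat_lit 197) (nat_lit 181)))) (PT.nd (nat_lit 156) (PT.nd (nat_lit 78) (PT.lf (nat_lit 57532) (nat_lit 6) (nat_lit 757) (nat_lit 2) (nat_lit 193) (nat_lit 197) (nat_lit 180)) (PT.lf (nat_lit 56772) (nat_lit 6) (nat_lit 747) (nat_lit 2) (nat_lit 194) (nat_lit 197) (nat_lit 179))) (PT.nd (nat_lit 78) (PT.lf (nat_lit 55936) (nat_lit 6) (nat_lit 736) (nat_lit 2) (nat_lit 195) (nat_lit 197) (nat_lit 178)) (PT.lf (nat_lit 55024) (nat_lit 6) (nat_lit 724) (nat_lit 2) (nat_lit 196) (nat_lit 197) (nat_lit 177))))) (PT.nd (nat_lit 312) (PT.nd (nat_lit 156) (PT.nd (nat_lit 78) (PT.lf (nat_lit 54036) (nat_lit 3) (nat_lit 711) (nat_lit 0) (nat_lit 197) (nat_lit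 197) (nat_lit 176)) (PT.lf (nat_lit 52896) (nat_lit 6) (nat_lit 696) (nat_lit 0) (nat_lit 198) (nat_lit 197) (nat_lit 175))) (PT.nd (nat_lit 78) (PT.lf (nat_lit 51680) (nat_lit 6) (nat_lit 680) (nat_lit 0) (nat_lit 199) (nat_lit 197) (nat_lit 174)) (PT.lf (nat_lit 50388) (nat_lit 6) (nat_lit 663) (nat_lit 0) (nat_lit 200) (nat_lit 197) (nat_lit 173)))) (PT.nd (nat_lit 156) (PT.nd (nat_lit 78) (PT.lf (nat_lit 49020) (nat_lit 6) (nat_lit 645) (nat_lit 0) (nat_lit 201) (nat_lit 197) (nat_lit 172)) (PT.lf (nat_lit 47576) (nat_lit 6) (nat_lit 626) (nat_lit 0) (nat_lit 202) (nat_lit 197) (nat_lit 171))) (PT.nd (nat_lit 78) (PT.lf (nat_lit 46056) (nat_lit 6) (nat_lit 606) (nat_lit 0) (nat_lit 203) (nat_lit 197) (nat_lit 170)) (PT.lf (nat_lit 44460) (nat_lit 6) (nat_lit 585) (nat_lit 0) (nat_lit 204) (nat_lit 197) (nat_lit 169))))))))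
noncomputable def pc33 : PT := (PT.nd (nat_lit 56784) (PT.nd (nat_lit 55614) (PT.nd (nat_lit 546) (PT.nd (nat_lit 234) (PT.nd (nat_lit 78) (PT.lf (nat_lit 42788) (nat_lit 6) (nat_lit 563) (nat_lit 0) (nat_lit 205) (nat_lit 197) (nat_lit 168)) (PT.nd (nat_lit 78) (PT.lf (nat_lit 41040) (nat_lit 6) (nat_lit 540) (nat_lit 0) (nat_lit 206) (nat_lit 197) (nat_lit 167)) (PT.lf (nat_lit 39216) (nat_lit 6) (nat_lit 516) (nat_lit 0) (nat_lit 207) (nat_lit 197) (nat_lit 166)))) (PT.nd (nat_lit 156) (PT.nd (nat_lit 78) (PT.lf (nat_lit 37316) (nat_lit 6) (nat_lit 491) (nat_lit 0) (nat_lit 208) (nat_lit 197) (nat_lit 165)) (PT.lf (nat_lit 36100) (nat_lit 6) (nat_lit 475) (nat_lit 0) (nat_lit 209) (nat_lit 197) (nat_lit 164))) (PT.nd (nat_lit 78) (PT.lf (nat_lit 35112) (nat_lit 6) (nat_lit 462) (nat_lit 0) (nat_lit 210) (nat_lit 197) (nat_lit 163)) (PT.lf (nat_lit 34124) (nat_lit 6) (nat_lit 449) (nat_lit 0) (nat_lit 211) (nat_lit 197) (nat_lit 162))))) (PT.nd (nat_lit 312)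 (PT.nd (nat_lit 156) (PT.nd (nat_lit 78) (PT.lf (nat_lit 33212) (nat_lit 6) (nat_lit 437) (nat_lit 0) (nat_lit 212) (nat_lit 197) (nat_lit 161)) (PT.lf (nat_lit 32224) (nat_lit 6) (nat_lit 424) (nat_lit 0) (nat_lit 213) (nat_lit 197) (nat_lit 160))) (PT.nd (nat_lit 78) (PT.lf (nat_lit 31312) (nat_lit 6) (nat_lit 412) (nat_lit 0) (nat_lit 214) (nat_lit 197) (nat_lit 159)) (PT.lf (nat_lit 30400) (nat_lit 6) (nat_lit 400) (nat_lit 0) (nat_lit 215) (nat_lit 197) (nat_lit 158)))) (PT.nd (nat_lit 54600) (PT.nd (nat_lit 78) (PT.lf (nat_lit 29564) (nat_lit 6) (nat_lit 389) (nat_lit 0) (nat_lit 216) (nat_lit 197) (nat_lit 157)) (PT.lf (nat_lit 28728) (nat_lit 6) (nat_lit 378) (nat_lit 0) (nat_lit 217) (nat_lit 197) (nat_lit 156))) (PT.nd (nat_lit 78) (PT.lf (nat_lit 27968) (nat_lit 6) (nat_lit 368) (nat_lit 5) (nat_lit 155) (nat_lit 198) (nat_lit 217)) (PT.lf (nat_lit 28804) (nat_lit 6) (nat_lit 379) (nat_lit 5) (nat_lit 156) (nat_lit 198) (nat_lit 216)))))) (PT.nd (nat_lit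 546) (PT.nd (nat_lit 234) (PT.nd (nat_lit 78) (PT.lf (nat_lit 29640) (nat_lit 6) (nat_lit 390) (nat_lit 5) (nat_lit 157) (nat_lit 198) (nat_lit 215)) (PT.nd (nat_lit 78) (PT.lf (nat_lit 30476) (nat_lit 6) (nat_lit 401) (nat_lit 5) (nat_lit 158) (nat_lit 198) (nat_lit 214)) (PT.lf (nat_lit 31388) (nat_lit 6) (nat_lit 413) (nat_lit 5) (nat_lit 159) (nat_lit 198) (nat_lit 213)))) (PT.nd (nat_lit 156) (PT.nd (nat_lit 78) (PT.lf (nat_lit 32300) (nat_lit 6) (nat_lit 425) (nat_lit 5) (nat_lit 160) (nat_lit 198) (nat_lit 212)) (PT.lf (nat_lit 33288) (nat_lit 6) (nat_lit 438) (nat_lit 5) (nat_lit 161) (nat_lit 198) (nat_lit 211))) (PT.nd (nat_lit 78) (PT.lf (nat_lit 34200) (nat_lit 6) (nat_lit 450) (nat_lit 5) (nat_lit 162) (nat_lit 198) (nat_lit 210)) (PT.lf (nat_lit 35188) (nat_lit 6) (nat_lit 463) (nat_lit 5) (nat_lit 163) (nat_lit 198) (nat_lit 209))))) (PT.nd (nat_lit 312) (PT.nd (nat_lit 156) (PT.nd (nat_lit 78) (PT.lf (nat_lit 36176) (nat_lit 6) (nat_lit 476) (nat_lit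 5) (nat_lit 164) (nat_lit 198) (nat_lit 208)) (PT.lf (nat_lit 37392) (nat_lit 6) (nat_lit 492) (nat_lit 5) (nat_lit 165) (nat_lit 198) (nat_lit 207))) (PT.nd (nat_lit 78) (PT.lf (nat_lit 39292) (nat_lit 6) (nat_lit 517) (nat_lit 5) (nat_lit 166) (nat_lit 198) (nat_lit 206)) (PT.lf (nat_lit 41116) (nat_lit 6) (nat_lit 541) (nat_lit 5) (nat_lit 167) (nat_lit 198) (nat_lit 205)))) (PT.nd (nat_lit 156) (PT.nd (nat_lit 78) (PT.lf (nat_lit 42864) (nat_lit 6) (nat_lit 564) (nat_lit 5) (nat_lit 168) (nat_lit 198) (nat_lit 204)) (PT.lf (nat_lit 44536) (nat_lit 6) (nat_lit 586) (nat_lit 5) (nat_lit 169) (nat_lit 198) (nat_lit 203))) (PT.nd (nat_lit 78) (PT.lf (nat_lit 46132) (nat_lit 6) (nat_lit 607) (nat_lit 5) (nat_lit 170) (nat_lit 198) (nat_lit 202)) (PT.lf (nat_lit 47652) (nat_lit 6) (nat_lit 627) (nat_lit 5) (nat_lit 171) (nat_lit 198) (nat_lit 201))))))) (PT.nd (nat_lit 1170) (PT.nd (nat_lit 546) (PT.nd (nat_lit 234) (PT.nd (nat_lit 78) (PT.lf (nat_lit 49096) (nat_lit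 6) (nat_lit 646) (nat_lit 5) (nat_lit 172) (nat_lit 198) (nat_lit 200)) (PT.nd (nat_lit 78) (PT.lf (nat_lit 50464) (nat_lit 6) (nat_lit 664) (nat_lit 5) (nat_lit 173) (nat_lit 198) (nat_lit 199)) (PT.lf (nat_lit 51756) (nat_lit 3) (nat_lit 681) (nat_lit 4) (nat_lit 174) (nat_lit 198) (nat_lit 198)))) (PT.nd (nat_lit 156) (PT.nd (nat_lit 78) (PT.lf (nat_lit 52896) (nat_lit 6) (nat_lit 696) (nat_lit 4) (nat_lit 175) (nat_lit 198) (nat_lit 197)) (PT.lf (nat_lit 53960) (nat_lit 6) (nat_lit 710) (nat_lit 4) (nat_lit 176) (nat_lit 198) (nat_lit 196))) (PT.nd (nat_lit 78) (PT.lf (nat_lit 54948) (nat_lit 6) (nat_lit 723) (nat_lit 4) (nat_lit 177) (nat_lit 198) (nat_lit 195)) (PT.lf (nat_lit 55860) (nat_lit 6) (nat_lit 735) (nat_lit 4) (nat_lit 178) (nat_lit 198) (nat_lit 194))))) (PT.nd (nat_lit 312) (PT.nd (nat_lit 156) (PT.nd (nat_lit 78) (PT.lf (nat_lit 56696) (nat_lit 6) (nat_lit 746) (nat_lit 4) (nat_lit 179) (nat_lit 198) (nat_lit 193)) (PT.lf (nat_lit 57456) (nat_lit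 6) (nat_lit 756) (nat_lit 4) (nat_lit 180) (nat_lit 198) (nat_lit 192))) (PT.nd (nat_lit 78) (PT.lf (nat_lit 58140) (nat_lit 6) (nat_lit 765) (nat_lit 4) (nat_lit 181) (nat_lit 198) (nat_lit 191)) (PT.lf (nat_lit 58748) (nat_lit 6) (nat_lit 773) (nat_lit 4) (nat_lit 182) (nat_lit 198) (nat_lit 190)))) (PT.nd (nat_lit 156) (PT.nd (nat_lit 78) (PT.lf (nat_lit 58672) (nat_lit 6) (nat_lit 772) (nat_lit 4) (nat_lit 183) (nat_lit 198) (nat_lit 189)) (PT.lf (nat_lit 58596) (nat_lit 6) (nat_lit 771) (nat_lit 4) (nat_lit 184) (nat_lit 198) (nat_lit 188))) (PT.nd (nat_lit 78) (PT.lf (nat_lit 58520) (nat_lit 6) (nat_lit 770) (nat_lit 4) (nat_lit 185) (nat_lit 198) (nat_lit 187)) (PT.lf (nat_lit 58444) (nat_lit 3) (nat_lit 769) (nat_lit 2) (nat_lit 186) (nat_lit 198) (nat_lit 186)))))) (PT.nd (nat_lit 624) (PT.nd (nat_lit 312) (PT.nd (nat_lit 156) (PT.nd (nat_lit 78) (PT.lf (nat_lit 58520) (nat_lit 6) (nat_lit 770) (nat_lit 2) (nat_lit 187) (nat_lit 198) (nat_lit 185)) (PT.lf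 (nat_lit 58596) (nat_lit 6) (nat_lit 771) (nat_lit 2) (nat_lit 188) (nat_lit 198) (nat_lit 184))) (PT.nd (nat_lit 78) (PT.lf (nat_lit 58672) (nat_lit 6) (nat_lit 772) (nat_lit 2) (nat_lit 189) (nat_lit 198) (nat_lit 183)) (PT.lf (nat_lit 58748) (nat_lit 6) (nat_lit 773) (nat_lit 2) (nat_lit 190) (nat_lit 198) (nat_lit 182)))) (PT.nd (nat_lit 156) (PT.nd (nat_lit 78) (PT.lf (nat_lit 58140) (nat_lit 6) (nat_lit 765) (nat_lit 2) (nat_lit 191) (nat_lit 198) (nat_lit 181)) (PT.lf (nat_lit 57456) (nat_lit 6) (nat_lit 756) (nat_lit 2) (nat_lit 192) (nat_lit 198) (nat_lit 180))) (PT.nd (nat_lit 78) (PT.lf (nat_lit 56696) (nat_lit 6) (nat_lit 746) (nat_lit 2) (nat_lit 193) (nat_lit 198) (nat_lit 179)) (PT.lf (nat_lit 55860) (nat_lit 6) (nat_lit 735) (nat_lit 2) (nat_lit 194) (nat_lit 198) (nat_lit 178))))) (PT.nd (nat_lit 312) (PT.nd (nat_lit 156) (PT.nd (nat_lit 78) (PT.lf (nat_lit 54948) (nat_lit 6) (nat_lit 723) (nat_lit 2) (nat_lit 195) (nat_lit 198) (nat_lit 177))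 (PT.lf (nat_lit 53960) (nat_lit 6) (nat_lit 710) (nat_lit 2) (nat_lit 196) (nat_lit 198) (nat_lit 176))) (PT.nd (nat_lit 78) (PT.lf (nat_lit 52896) (nat_lit 6) (nat_lit 696) (nat_lit 2) (nat_lit 197) (nat_lit 198) (nat_lit 175)) (PT.lf (nat_lit 51756) (nat_lit 3) (nat_lit 681) (nat_lit 0) (nat_lit 198) (nat_lit 198) (nat_lit 174)))) (PT.nd (nat_lit 156) (PT.nd (nat_lit 78) (PT.lf (nat_lit 50464) (nat_lit 6) (nat_lit 664) (nat_lit 0) (nat_lit 199) (nat_lit 198) (nat_lit 173)) (PT.lf (nat_lit 49096) (nat_lit 6) (nat_lit 646) (nat_lit 0) (nat_lit 200) (nat_lit 198) (nat_lit 172))) (PT.nd (nat_lit 78) (PT.lf (nat_lit 47652) (nat_lit 6) (nat_lit 627) (nat_lit 0) (nat_lit 201) (nat_lit 198) (nat_lit 171)) (PT.lf (nat_lit 46132) (nat_lit 6) (nat_lit 607) (nat_lit 0) (nat_lit 202) (nat_lit 198) (nat_lit 170))))))))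
noncomputable def pc34 : PT := (PT.nd (nat_lit 56706) (PT.nd (nat_lit 55536) (PT.nd (nat_lit 546) (PT.nd (nat_lit 234) (PT.nd (nat_lit 78) (PT.lf (nat_lit 44536) (nat_lit 6) (nat_lit 586) (nat_lit 0) (nat_lit 203) (nat_lit 198) (nat_lit 169)) (PT.nd (nat_lit 78) (PT.lf (nat_lit 42864) (nat_lit 6) (nat_lit 564) (nat_lit 0) (nat_lit 204) (nat_lit 198) (nat_lit 168)) (PT.lf (nat_lit 41116) (nat_lit 6) (nat_lit 541) (nat_lit 0) (nat_lit 205) (nat_lit 198) (nat_lit 167)))) (PT.nd (nat_lit 156) (PT.nd (nat_lit 78) (PT.lf (nat_lit 39292) (nat_lit 6) (nat_lit 517) (nat_lit 0) (nat_lit 206) (nat_lit 198) (nat_lit 166)) (PT.lf (nat_lit 37392) (nat_lit 6) (nat_lit 492) (nat_lit 0) (nat_lit 207) (nat_lit 198) (nat_lit 165))) (PT.nd (nat_lit 78) (PT.lf (nat_lit 36176) (nat_lit 6) (nat_lit 476) (nat_lit 0) (nat_lit 208) (nat_lit 198) (nat_lit 164)) (PT.lf (nat_lit 35188) (nat_lit 6) (nat_lit 463) (nat_lit 0) (nat_lit 209) (nat_lit 198) (nat_lit 163))))) (PT.nd (nat_lit 312)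 (PT.nd (nat_lit 156) (PT.nd (nat_lit 78) (PT.lf (nat_lit 34200) (nat_lit 6) (nat_lit 450) (nat_lit 0) (nat_lit 210) (nat_lit 198) (nat_lit 162)) (PT.lf (nat_lit 33288) (nat_lit 6) (nat_lit 438) (nat_lit 0) (nat_lit 211) (nat_lit 198) (nat_lit 161))) (PT.nd (nat_lit 78) (PT.lf (nat_lit 32300) (nat_lit 6) (nat_lit 425) (nat_lit 0) (nat_lit 212) (nat_lit 198) (nat_lit 160)) (PT.lf (nat_lit 31388) (nat_lit 6) (nat_lit 413) (nat_lit 0) (nat_lit 213) (nat_lit 198) (nat_lit 159)))) (PT.nd (nat_lit 156) (PT.nd (nat_lit 78) (PT.lf (nat_lit 30476) (nat_lit 6) (nat_lit 401) (nat_lit 0) (nat_lit 214) (nat_lit 198) (nat_lit 158)) (PT.lf (nat_lit 29640) (nat_lit 6) (nat_lit 390) (nat_lit 0) (nat_lit 215) (nat_lit 198) (nat_lit 157))) (PT.nd (nat_lit 78) (PT.lf (nat_lit 28804) (nat_lit 6) (nat_lit 379) (nat_lit 0) (nat_lit 216) (nat_lit 198) (nat_lit 156)) (PT.lf (nat_lit 27968) (nat_lit 6) (nat_lit 368) (nat_lit 0) (nat_lit 217) (nat_lit 198) (nat_lit 155)))))) (PT.nd (nat_lit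 546) (PT.nd (nat_lit 234) (PT.nd (nat_lit 78) (PT.lf (nat_lit 27208) (nat_lit 6) (nat_lit 358) (nat_lit 5) (nat_lit 154) (nat_lit 199) (nat_lit 217)) (PT.nd (nat_lit 78) (PT.lf (nat_lit 28044) (nat_lit 6) (nat_lit 369) (nat_lit 5) (nat_lit 155) (nat_lit 199) (nat_lit 216)) (PT.lf (nat_lit 28880) (nat_lit 6) (nat_lit 380) (nat_lit 5) (nat_lit 156) (nat_lit 199) (nat_lit 215)))) (PT.nd (nat_lit 156) (PT.nd (nat_lit 78) (PT.lf (nat_lit 29716) (nat_lit 6) (nat_lit 391) (nat_lit 5) (nat_lit 157) (nat_lit 199) (nat_lit 214)) (PT.lf (nat_lit 30552) (nat_lit 6) (nat_lit 402) (nat_lit 5) (nat_lit 158) (nat_lit 199) (nat_lit 213))) (PT.nd (nat_lit 78) (PT.lf (nat_lit 31464) (nat_lit 6) (nat_lit 414) (nat_lit 5) (nat_lit 159) (nat_lit 199) (nat_lit 212)) (PT.lf (nat_lit 32376) (nat_lit 6) (nat_lit 426) (nat_lit 5) (nat_lit 160) (nat_lit 199) (nat_lit 211))))) (PT.nd (nat_lit 312) (PT.nd (nat_lit 156) (PT.nd (nat_lit 78) (PT.lf (nat_lit 33364) (nat_lit 6) (nat_lit 439) (nat_lit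 5) (nat_lit 161) (nat_lit 199) (nat_lit 210)) (PT.lf (nat_lit 34276) (nat_lit 6) (nat_lit 451) (nat_lit 5) (nat_lit 162) (nat_lit 199) (nat_lit 209))) (PT.nd (nat_lit 78) (PT.lf (nat_lit 35264) (nat_lit 6) (nat_lit 464) (nat_lit 5) (nat_lit 163) (nat_lit 199) (nat_lit 208)) (PT.lf (nat_lit 36252) (nat_lit 6) (nat_lit 477) (nat_lit 5) (nat_lit 164) (nat_lit 199) (nat_lit 207)))) (PT.nd (nat_lit 156) (PT.nd (nat_lit 78) (PT.lf (nat_lit 37468) (nat_lit 6) (nat_lit 493) (nat_lit 5) (nat_lit 165) (nat_lit 199) (nat_lit 206)) (PT.lf (nat_lit 39368) (nat_lit 6) (nat_lit 518) (nat_lit 5) (nat_lit 166) (nat_lit 199) (nat_lit 205))) (PT.nd (nat_lit 78) (PT.lf (nat_lit 41192) (nat_lit 6) (nat_lit 542) (nat_lit 5) (nat_lit 167) (nat_lit 199) (nat_lit 204)) (PT.lf (nat_lit 42940) (nat_lit 6) (nat_lit 565) (nat_lit 5) (nat_lit 168) (nat_lit 199) (nat_lit 203))))))) (PT.nd (nat_lit 1170) (PT.nd (nat_lit 546) (PT.nd (nat_lit 234) (PT.nd (nat_lit 78) (PT.lf (nat_lit 44612) (nat_lit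 6) (nat_lit 587) (nat_lit 5) (nat_lit 169) (nat_lit 199) (nat_lit 202)) (PT.nd (nat_lit 78) (PT.lf (nat_lit 46208) (nat_lit 6) (nat_lit 608) (nat_lit 5) (nat_lit 170) (nat_lit 199) (nat_lit 201)) (PT.lf (nat_lit 47728) (nat_lit 6) (nat_lit 628) (nat_lit 5) (nat_lit 171) (nat_lit 199) (nat_lit 200)))) (PT.nd (nat_lit 156) (PT.nd (nat_lit 78) (PT.lf (nat_lit 49172) (nat_lit 3) (nat_lit 647) (nat_lit 4) (nat_lit 172) (nat_lit 199) (nat_lit 199)) (PT.lf (nat_lit 50464) (nat_lit 6) (nat_lit 664) (nat_lit 4) (nat_lit 173) (nat_lit 199) (nat_lit 198))) (PT.nd (nat_lit 78) (PT.lf (nat_lit 51680) (nat_lit 6) (nat_lit 680) (nat_lit 4) (nat_lit 174) (nat_lit 199) (nat_lit 197)) (PT.lf (nat_lit 52820) (nat_lit 6) (nat_lit 695) (nat_lit 4) (nat_lit 175) (nat_lit 199) (nat_lit 196))))) (PT.nd (nat_lit 312) (PT.nd (nat_lit 156) (PT.nd (nat_lit 78) (PT.lf (nat_lit 53884) (nat_lit 6) (nat_lit 709) (nat_lit 4) (nat_lit 176) (nat_lit 199) (nat_lit 195)) (PT.lf (nat_lit 54872) (nat_lit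 6) (nat_lit 722) (nat_lit 4) (nat_lit 177) (nat_lit 199) (nat_lit 194))) (PT.nd (nat_lit 78) (PT.lf (nat_lit 55784) (nat_lit 6) (nat_lit 734) (nat_lit 4) (nat_lit 178) (nat_lit 199) (nat_lit 193)) (PT.lf (nat_lit 56620) (nat_lit 6) (nat_lit 745) (nat_lit 4) (nat_lit 179) (nat_lit 199) (nat_lit 192)))) (PT.nd (nat_lit 156) (PT.nd (nat_lit 78) (PT.lf (nat_lit 57380) (nat_lit 6) (nat_lit 755) (nat_lit 4) (nat_lit 180) (nat_lit 199) (nat_lit 191)) (PT.lf (nat_lit 58064) (nat_lit 6) (nat_lit 764) (nat_lit 4) (nat_lit 181) (nat_lit 199) (nat_lit 190))) (PT.nd (nat_lit 78) (PT.lf (nat_lit 57988) (nat_lit 6) (nat_lit 763) (nat_lit 4) (nat_lit 182) (nat_lit 199) (nat_lit 189)) (PT.lf (nat_lit 57912) (nat_lit 6) (nat_lit 762) (nat_lit 4) (nat_lit 183) (nat_lit 199) (nat_lit 188)))))) (PT.nd (nat_lit 624) (PT.nd (nat_lit 312) (PT.nd (nat_lit 156) (PT.nd (nat_lit 78) (PT.lf (nat_lit 57836) (nat_lit 6) (nat_lit 761) (nat_lit 4) (nat_lit 184) (nat_lit 199) (nat_lit 187)) (PT.lf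 (nat_lit 57760) (nat_lit 6) (nat_lit 760) (nat_lit 4) (nat_lit 185) (nat_lit 199) (nat_lit 186))) (PT.nd (nat_lit 78) (PT.lf (nat_lit 57760) (nat_lit 6) (nat_lit 760) (nat_lit 2) (nat_lit 186) (nat_lit 199) (nat_lit 185)) (PT.lf (nat_lit 57836) (nat_lit 6) (nat_lit 761) (nat_lit 2) (nat_lit 187) (nat_lit 199) (nat_lit 184)))) (PT.nd (nat_lit 156) (PT.nd (nat_lit 78) (PT.lf (nat_lit 57912) (nat_lit 6) (nat_lit 762) (nat_lit 2) (nat_lit 188) (nat_lit 199) (nat_lit 183)) (PT.lf (nat_lit 57988) (nat_lit 6) (nat_lit 763) (nat_lit 2) (nat_lit 189) (nat_lit 199) (nat_lit 182))) (PT.nd (nat_lit 78) (PT.lf (nat_lit 58064) (nat_lit 6) (nat_lit 764) (nat_lit 2) (nat_lit 190) (nat_lit 199) (nat_lit 181)) (PT.lf (nat_lit 57380) (nat_lit 6) (nat_lit 755) (nat_lit 2) (nat_lit 191) (nat_lit 199) (nat_lit 180))))) (PT.nd (nat_lit 312) (PT.nd (nat_lit 156) (PT.nd (nat_lit 78) (PT.lf (nat_lit 56620) (nat_lit 6) (nat_lit 745) (nat_lit 2) (nat_lit 192) (nat_lit 199) (nat_lit 179))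 (PT.lf (nat_lit 55784) (nat_lit 6) (nat_lit 734) (nat_lit 2) (nat_lit 193) (nat_lit 199) (nat_lit 178))) (PT.nd (nat_lit 78) (PT.lf (nat_lit 54872) (nat_lit 6) (nat_lit 722) (nat_lit 2) (nat_lit 194) (nat_lit 199) (nat_lit 177)) (PT.lf (nat_lit 53884) (nat_lit 6) (nat_lit 709) (nat_lit 2) (nat_lit 195) (nat_lit 199) (nat_lit 176)))) (PT.nd (nat_lit 156) (PT.nd (nat_lit 78) (PT.lf (nat_lit 52820) (nat_lit 6) (nat_lit 695) (nat_lit 2) (nat_lit 196) (nat_lit 199) (nat_lit 175)) (PT.lf (nat_lit 51680) (nat_lit 6) (nat_lit 680) (nat_lit 2) (nat_lit 197) (nat_lit 199) (nat_lit 174))) (PT.nd (nat_lit 78) (PT.lf (nat_lit 50464) (nat_lit 6) (nat_lit 664) (nat_lit 2) (nat_lit 198) (nat_lit 199) (nat_lit 173)) (PT.lf (nat_lit 49172) (nat_lit 3) (nat_lit 647) (nat_lit 0) (nat_lit 199) (nat_lit 199) (nat_lit 172))))))))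
noncomputable def pc35 : PT := (PT.nd (nat_lit 56628) (PT.nd (nat_lit 1170) (PT.nd (nat_lit 546) (PT.nd (nat_lit 234) (PT.nd (nat_lit 78) (PT.lf (nat_lit 47728) (nat_lit 6) (nat_lit 628) (nat_lit 0) (nat_lit 200) (nat_lit 199) (nat_lit 171)) (PT.nd (nat_lit 78) (PT.lf (nat_lit 46208) (nat_lit 6) (nat_lit 608) (nat_lit 0) (nat_lit 201) (nat_lit 199) (nat_lit 170)) (PT.lf (nat_lit 44612) (nat_lit 6) (nat_lit 587) (nat_lit 0) (nat_lit 202) (nat_lit 199) (nat_lit 169)))) (PT.nd (nat_lit 156) (PT.nd (nat_lit 78) (PT.lf (nat_lit 42940) (nat_lit 6) (nat_lit 565) (nat_lit 0) (nat_lit 203) (nat_lit 199) (nat_lit 168)) (PT.lf (nat_lit 41192) (nat_lit 6) (nat_lit 542) (nat_lit 0) (nat_lit 204) (nat_lit 199) (nat_lit 167))) (PT.nd (nat_lit 78) (PT.lf (nat_lit 39368) (nat_lit 6) (nat_lit 518) (nat_lit 0) (nat_lit 205) (nat_lit 199) (nat_lit 166)) (PT.lf (nat_lit 37468) (nat_lit 6) (nat_lit 493) (nat_lit 0) (nat_lit 206) (nat_lit 199) (nat_lit 165))))) (PT.nd (nat_lit 312)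 (PT.nd (nat_lit 156) (PT.nd (nat_lit 78) (PT.lf (nat_lit 36252) (nat_lit 6) (nat_lit 477) (nat_lit 0) (nat_lit 207) (nat_lit 199) (nat_lit 164)) (PT.lf (nat_lit 35264) (nat_lit 6) (nat_lit 464) (nat_lit 0) (nat_lit 208) (nat_lit 199) (nat_lit 163))) (PT.nd (nat_lit 78) (PT.lf (nat_lit 34276) (nat_lit 6) (nat_lit 451) (nat_lit 0) (nat_lit 209) (nat_lit 199) (nat_lit 162)) (PT.lf (nat_lit 33364) (nat_lit 6) (nat_lit 439) (nat_lit 0) (nat_lit 210) (nat_lit 199) (nat_lit 161)))) (PT.nd (nat_lit 156) (PT.nd (nat_lit 78) (PT.lf (nat_lit 32376) (nat_lit 6) (nat_lit 426) (nat_lit 0) (nat_lit 211) (nat_lit 199) (nat_lit 160)) (PT.lf (nat_lit 31464) (nat_lit 6) (nat_lit 414) (nat_lit 0) (nat_lit 212) (nat_lit 199) (nat_lit 159))) (PT.nd (nat_lit 78) (PT.lf (nat_lit 30552) (nat_lit 6) (nat_lit 402) (nat_lit 0) (nat_lit 213) (nat_lit 199) (nat_lit 158)) (PT.lf (nat_lit 29716) (nat_lit 6) (nat_lit 391) (nat_lit 0) (nat_lit 214) (nat_lit 199) (nat_lit 157)))))) (PT.nd (nat_lit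 54834) (PT.nd (nat_lit 54522) (PT.nd (nat_lit 156) (PT.nd (nat_lit 78) (PT.lf (nat_lit 28880) (nat_lit 6) (nat_lit 380) (nat_lit 0) (nat_lit 215) (nat_lit 199) (nat_lit 156)) (PT.lf (nat_lit 28044) (nat_lit 6) (nat_lit 369) (nat_lit 0) (nat_lit 216) (nat_lit 199) (nat_lit 155))) (PT.nd (nat_lit 54288) (PT.lf (nat_lit 27208) (nat_lit 6) (nat_lit 358) (nat_lit 0) (nat_lit 217) (nat_lit 199) (nat_lit 154)) (PT.lf (nat_lit 25764) (nat_lit 6) (nat_lit 339) (nat_lit 5) (nat_lit 152) (nat_lit 200) (nat_lit 218)))) (PT.nd (nat_lit 156) (PT.nd (nat_lit 78) (PT.lf (nat_lit 26524) (nat_lit 6) (nat_lit 349) (nat_lit 5) (nat_lit 153) (nat_lit 200) (nat_lit 217)) (PT.lf (nat_lit 27284) (nat_lit 6) (nat_lit 359) (nat_lit 5) (nat_lit 154) (nat_lit 200) (nat_lit 216))) (PT.nd (nat_lit 78) (PT.lf (nat_lit 28120) (nat_lit 6) (nat_lit 370) (nat_lit 5) (nat_lit 155) (nat_lit 200) (nat_lit 215)) (PT.lf (nat_lit 28956) (nat_lit 6) (nat_lit 381) (nat_lit 5) (nat_lit 156) (nat_lit 200)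 (nat_lit 214))))) (PT.nd (nat_lit 312) (PT.nd (nat_lit 156) (PT.nd (nat_lit 78) (PT.lf (nat_lit 29792) (nat_lit 6) (nat_lit 392) (nat_lit 5) (nat_lit 157) (nat_lit 200) (nat_lit 213)) (PT.lf (nat_lit 30628) (nat_lit 6) (nat_lit 403) (nat_lit 5) (nat_lit 158) (nat_lit 200) (nat_lit 212))) (PT.nd (nat_lit 78) (PT.lf (nat_lit 31540) (nat_lit 6) (nat_lit 415) (nat_lit 5) (nat_lit 159) (nat_lit 200) (nat_lit 211)) (PT.lf (nat_lit 32452) (nat_lit 6) (nat_lit 427) (nat_lit 5) (nat_lit 160) (nat_lit 200) (nat_lit 210)))) (PT.nd (nat_lit 156) (PT.nd (nat_lit 78) (PT.lf (nat_lit 33440) (nat_lit 6) (nat_lit 440) (nat_lit 5) (nat_lit 161) (nat_lit 200) (nat_lit 209)) (PT.lf (nat_lit 34352) (nat_lit 6) (nat_lit 452) (nat_lit 5) (nat_lit 162) (nat_lit 200) (nat_lit 208))) (PT.nd (nat_lit 78) (PT.lf (nat_lit 35340) (nat_lit 6) (nat_lit 465) (nat_lit 5) (nat_lit 163) (nat_lit 200) (nat_lit 207)) (PT.lf (nat_lit 36328) (nat_lit 6) (nat_lit 478) (nat_lit 5) (nat_lit 164) (nat_lit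 200) (nat_lit 206))))))) (PT.nd (nat_lit 1170) (PT.nd (nat_lit 546) (PT.nd (nat_lit 234) (PT.nd (nat_lit 78) (PT.lf (nat_lit 37544) (nat_lit 6) (nat_lit 494) (nat_lit 5) (nat_lit 165) (nat_lit 200) (nat_lit 205)) (PT.nd (nat_lit 78) (PT.lf (nat_lit 39444) (nat_lit 6) (nat_lit 519) (nat_lit 5) (nat_lit 166) (nat_lit 200) (nat_lit 204)) (PT.lf (nat_lit 41268) (nat_lit 6) (nat_lit 543) (nat_lit 5) (nat_lit 167) (nat_lit 200) (nat_lit 203)))) (PT.nd (nat_lit 156) (PT.nd (nat_lit 78) (PT.lf (nat_lit 43016) (nat_lit 6) (nat_lit 566) (nat_lit 5) (nat_lit 168) (nat_lit 200) (nat_lit 202)) (PT.lf (nat_lit 44688) (nat_lit 6) (nat_lit 588) (nat_lit 5) (nat_lit 169) (nat_lit 200) (nat_lit 201))) (PT.nd (nat_lit 78) (PT.lf (nat_lit 46284) (nat_lit 3) (nat_lit 609) (nat_lit 4) (nat_lit 170) (nat_lit 200) (nat_lit 200)) (PT.lf (nat_lit 47728) (nat_lit 6) (nat_lit 628) (nat_lit 4) (nat_lit 171) (nat_lit 200) (nat_lit 199))))) (PT.nd (nat_lit 312) (PT.nd (nat_lit 156) (PT.nd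 (nat_lit 78) (PT.lf (nat_lit 49096) (nat_lit 6) (nat_lit 646) (nat_lit 4) (nat_lit 172) (nat_lit 200) (nat_lit 198)) (PT.lf (nat_lit 50388) (nat_lit 6) (nat_lit 663) (nat_lit 4) (nat_lit 173) (nat_lit 200) (nat_lit 197))) (PT.nd (nat_lit 78) (PT.lf (nat_lit 51604) (nat_lit 6) (nat_lit 679) (nat_lit 4) (nat_lit 174) (nat_lit 200) (nat_lit 196)) (PT.lf (nat_lit 52744) (nat_lit 6) (nat_lit 694) (nat_lit 4) (nat_lit 175) (nat_lit 200) (nat_lit 195)))) (PT.nd (nat_lit 156) (PT.nd (nat_lit 78) (PT.lf (nat_lit 53808) (nat_lit 6) (nat_lit 708) (nat_lit 4) (nat_lit 176) (nat_lit 200) (nat_lit 194)) (PT.lf (nat_lit 54796) (nat_lit 6) (nat_lit 721) (nat_lit 4) (nat_lit 177) (nat_lit 200) (nat_lit 193))) (PT.nd (nat_lit 78) (PT.lf (nat_lit 55708) (nat_lit 6) (nat_lit 733) (nat_lit 4) (nat_lit 178) (nat_lit 200) (nat_lit 192)) (PT.lf (nat_lit 56544) (nat_lit 6) (nat_lit 744) (nat_lit 4) (nat_lit 179) (nat_lit 200) (nat_lit 191)))))) (PT.nd (nat_lit 624) (PT.nd (nat_lit 312)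 (PT.nd (nat_lit 156) (PT.nd (nat_lit 78) (PT.lf (nat_lit 57304) (nat_lit 6) (nat_lit 754) (nat_lit 4) (nat_lit 180) (nat_lit 200) (nat_lit 190)) (PT.lf (nat_lit 57228) (nat_lit 6) (nat_lit 753) (nat_lit 4) (nat_lit 181) (nat_lit 200) (nat_lit 189))) (PT.nd (nat_lit 78) (PT.lf (nat_lit 57152) (nat_lit 6) (nat_lit 752) (nat_lit 4) (nat_lit 182) (nat_lit 200) (nat_lit 188)) (PT.lf (nat_lit 57076) (nat_lit 6) (nat_lit 751) (nat_lit 4) (nat_lit 183) (nat_lit 200) (nat_lit 187)))) (PT.nd (nat_lit 156) (PT.nd (nat_lit 78) (PT.lf (nat_lit 57000) (nat_lit 6) (nat_lit 750) (nat_lit 4) (nat_lit 184) (nat_lit 200) (nat_lit 186)) (PT.lf (nat_lit 56924) (nat_lit 3) (nat_lit 749) (nat_lit 2) (nat_lit 185) (nat_lit 200) (nat_lit 185))) (PT.nd (nat_lit 78) (PT.lf (nat_lit 57000) (nat_lit 6) (nat_lit 750) (nat_lit 2) (nat_lit 186) (nat_lit 200) (nat_lit 184)) (PT.lf (nat_lit 57076) (nat_lit 6) (nat_lit 751) (nat_lit 2) (nat_lit 187) (nat_lit 200) (nat_lit 183))))) (PT.nd (nat_lit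 312) (PT.nd (nat_lit 156) (PT.nd (nat_lit 78) (PT.lf (nat_lit 57152) (nat_lit 6) (nat_lit 752) (nat_lit 2) (nat_lit 188) (nat_lit 200) (nat_lit 182)) (PT.lf (nat_lit 57228) (nat_lit 6) (nat_lit 753) (nat_lit 2) (nat_lit 189) (nat_lit 200) (nat_lit 181))) (PT.nd (nat_lit 78) (PT.lf (nat_lit 57304) (nat_lit 6) (nat_lit 754) (nat_lit 2) (nat_lit 190) (nat_lit 200) (nat_lit 180)) (PT.lf (nat_lit 56544) (nat_lit 6) (nat_lit 744) (nat_lit 2) (nat_lit 191) (nat_lit 200) (nat_lit 179)))) (PT.nd (nat_lit 156) (PT.nd (nat_lit 78) (PT.lf (nat_lit 55708) (nat_lit 6) (nat_lit 733) (nat_lit 2) (nat_lit 192) (nat_lit 200) (nat_lit 178)) (PT.lf (nat_lit 54796) (nat_lit 6) (nat_lit 721) (nat_lit 2) (nat_lit 193) (nat_lit 200) (nat_lit 177))) (PT.nd (nat_lit 78) (PT.lf (nat_lit 53808) (nat_lit 6) (nat_lit 708) (nat_lit 2) (nat_lit 194) (nat_lit 200) (nat_lit 176)) (PT.lf (nat_lit 52744) (nat_lit 6) (nat_lit 694) (nat_lit 2) (nat_lit 195) (nat_lit 200) (nat_lit 175))))))))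
noncomputable def pc36 : PT := (PT.nd (nat_lit 56394) (PT.nd (nat_lit 1170) (PT.nd (nat_lit 546) (PT.nd (nat_lit 234) (PT.nd (nat_lit 78) (PT.lf (nat_lit 51604) (nat_lit 6) (nat_lit 679) (nat_lit 2) (nat_lit 196) (nat_lit 200) (nat_lit 174)) (PT.nd (nat_lit 78) (PT.lf (nat_lit 50388) (nat_lit 6) (nat_lit 663) (nat_lit 2) (nat_lit 197) (nat_lit 200) (nat_lit 173)) (PT.lf (nat_lit 49096) (nat_lit 6) (nat_lit 646) (nat_lit 2) (nat_lit 198) (nat_lit 200) (nat_lit 172)))) (PT.nd (nat_lit 156) (PT.nd (nat_lit 78) (PT.lf (nat_lit 47728) (nat_lit 6) (nat_lit 628) (nat_lit 2) (nat_lit 199) (nat_lit 200) (nat_lit 171)) (PT.lf (nat_lit 46284) (nat_lit 3) (nat_lit 609) (nat_lit 0) (nat_lit 200) (nat_lit 200) (nat_lit 170))) (PT.nd (nat_lit 78) (PT.lf (nat_lit 44688) (nat_lit 6) (nat_lit 588) (nat_lit 0) (nat_lit 201) (nat_lit 200) (nat_lit 169)) (PT.lf (nat_lit 43016) (nat_lit 6) (nat_lit 566) (nat_lit 0) (nat_lit 202) (nat_lit 200) (nat_lit 168))))) (PT.nd (nat_lit 312)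 (PT.nd (nat_lit 156) (PT.nd (nat_lit 78) (PT.lf (nat_lit 41268) (nat_lit 6) (nat_lit 543) (nat_lit 0) (nat_lit 203) (nat_lit 200) (nat_lit 167)) (PT.lf (nat_lit 39444) (nat_lit 6) (nat_lit 519) (nat_lit 0) (nat_lit 204) (nat_lit 200) (nat_lit 166))) (PT.nd (nat_lit 78) (PT.lf (nat_lit 37544) (nat_lit 6) (nat_lit 494) (nat_lit 0) (nat_lit 205) (nat_lit 200) (nat_lit 165)) (PT.lf (nat_lit 36328) (nat_lit 6) (nat_lit 478) (nat_lit 0) (nat_lit 206) (nat_lit 200) (nat_lit 164)))) (PT.nd (nat_lit 156) (PT.nd (nat_lit 78) (PT.lf (nat_lit 35340) (nat_lit 6) (nat_lit 465) (nat_lit 0) (nat_lit 207) (nat_lit 200) (nat_lit 163)) (PT.lf (nat_lit 34352) (nat_lit 6) (nat_lit 452) (nat_lit 0) (nat_lit 208) (nat_lit 200) (nat_lit 162))) (PT.nd (nat_lit 78) (PT.lf (nat_lit 33440) (nat_lit 6) (nat_lit 440) (nat_lit 0) (nat_lit 209) (nat_lit 200) (nat_lit 161)) (PT.lf (nat_lit 32452) (nat_lit 6) (nat_lit 427) (nat_lit 0) (nat_lit 210) (nat_lit 200) (nat_lit 160)))))) (PT.nd (nat_lit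 546) (PT.nd (nat_lit 234) (PT.nd (nat_lit 78) (PT.lf (nat_lit 31540) (nat_lit 6) (nat_lit 415) (nat_lit 0) (nat_lit 211) (nat_lit 200) (nat_lit 159)) (PT.nd (nat_lit 78) (PT.lf (nat_lit 30628) (nat_lit 6) (nat_lit 403) (nat_lit 0) (nat_lit 212) (nat_lit 200) (nat_lit 158)) (PT.lf (nat_lit 29792) (nat_lit 6) (nat_lit 392) (nat_lit 0) (nat_lit 213) (nat_lit 200) (nat_lit 157)))) (PT.nd (nat_lit 156) (PT.nd (nat_lit 78) (PT.lf (nat_lit 28956) (nat_lit 6) (nat_lit 381) (nat_lit 0) (nat_lit 214) (nat_lit 200) (nat_lit 156)) (PT.lf (nat_lit 28120) (nat_lit 6) (nat_lit 370) (nat_lit 0) (nat_lit 215) (nat_lit 200) (nat_lit 155))) (PT.nd (nat_lit 78) (PT.lf (nat_lit 27284) (nat_lit 6) (nat_lit 359) (nat_lit 0) (nat_lit 216) (nat_lit 200) (nat_lit 154)) (PT.lf (nat_lit 26524) (nat_lit 6) (nat_lit 349) (nat_lit 0) (nat_lit 217) (nat_lit 200) (nat_lit 153))))) (PT.nd (nat_lit 54366) (PT.nd (nat_lit 54210) (PT.nd (nat_lit 54132) (PT.lf (nat_lit 25764) (nat_lit 6) (nat_lit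 339) (nat_lit 0) (nat_lit 218) (nat_lit 200) (nat_lit 152)) (PT.lf (nat_lit 25080) (nat_lit 6) (nat_lit 330) (nat_lit 5) (nat_lit 151) (nat_lit 201) (nat_lit 218))) (PT.nd (nat_lit 78) (PT.lf (nat_lit 25840) (nat_lit 6) (nat_lit 340) (nat_lit 5) (nat_lit 152) (nat_lit 201) (nat_lit 217)) (PT.lf (nat_lit 26600) (nat_lit 6) (nat_lit 350) (nat_lit 5) (nat_lit 153) (nat_lit 201) (nat_lit 216)))) (PT.nd (nat_lit 156) (PT.nd (nat_lit 78) (PT.lf (nat_lit 27360) (nat_lit 6) (nat_lit 360) (nat_lit 5) (nat_lit 154) (nat_lit 201) (nat_lit 215)) (PT.lf (nat_lit 28196) (nat_lit 6) (nat_lit 371) (nat_lit 5) (nat_lit 155) (nat_lit 201) (nat_lit 214))) (PT.nd (nat_lit 78) (PT.lf (nat_lit 29032) (nat_lit 6) (nat_lit 382) (nat_lit 5) (nat_lit 156) (nat_lit 201) (nat_lit 213)) (PT.lf (nat_lit 29868) (nat_lit 6) (nat_lit 393) (nat_lit 5) (nat_lit 157) (nat_lit 201) (nat_lit 212))))))) (PT.nd (nat_lit 1170) (PT.nd (nat_lit 546) (PT.nd (nat_lit 234) (PT.nd (nat_lit 78) (PT.lf (nat_lit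 30704) (nat_lit 6) (nat_lit 404) (nat_lit 5) (nat_lit 158) (nat_lit 201) (nat_lit 211)) (PT.nd (nat_lit 78) (PT.lf (nat_lit 31616) (nat_lit 6) (nat_lit 416) (nat_lit 5) (nat_lit 159) (nat_lit 201) (nat_lit 210)) (PT.lf (nat_lit 32528) (nat_lit 6) (nat_lit 428) (nat_lit 5) (nat_lit 160) (nat_lit 201) (nat_lit 209)))) (PT.nd (nat_lit 156) (PT.nd (nat_lit 78) (PT.lf (nat_lit 33516) (nat_lit 6) (nat_lit 441) (nat_lit 5) (nat_lit 161) (nat_lit 201) (nat_lit 208)) (PT.lf (nat_lit 34428) (nat_lit 6) (nat_lit 453) (nat_lit 5) (nat_lit 162) (nat_lit 201) (nat_lit 207))) (PT.nd (nat_lit 78) (PT.lf (nat_lit 35416) (nat_lit 6) (nat_lit 466) (nat_lit 5) (nat_lit 163) (nat_lit 201) (nat_lit 206)) (PT.lf (nat_lit 36404) (nat_lit 6) (nat_lit 479) (nat_lit 5) (nat_lit 164) (nat_lit 201) (nat_lit 205))))) (PT.nd (nat_lit 312) (PT.nd (nat_lit 156) (PT.nd (nat_lit 78) (PT.lf (nat_lit 37620) (nat_lit 6) (nat_lit 495) (nat_lit 5) (nat_lit 165) (nat_lit 201) (nat_lit 204)) (PT.lf (nat_lit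 39520) (nat_lit 6) (nat_lit 520) (nat_lit 5) (nat_lit 166) (nat_lit 201) (nat_lit 203))) (PT.nd (nat_lit 78) (PT.lf (nat_lit 41344) (nat_lit 6) (nat_lit 544) (nat_lit 5) (nat_lit 167) (nat_lit 201) (nat_lit 202)) (PT.lf (nat_lit 43092) (nat_lit 3) (nat_lit 567) (nat_lit 4) (nat_lit 168) (nat_lit 201) (nat_lit 201)))) (PT.nd (nat_lit 156) (PT.nd (nat_lit 78) (PT.lf (nat_lit 44688) (nat_lit 6) (nat_lit 588) (nat_lit 4) (nat_lit 169) (nat_lit 201) (nat_lit 200)) (PT.lf (nat_lit 46208) (nat_lit 6) (nat_lit 608) (nat_lit 4) (nat_lit 170) (nat_lit 201) (nat_lit 199))) (PT.nd (nat_lit 78) (PT.lf (nat_lit 47652) (nat_lit 6) (nat_lit 627) (nat_lit 4) (nat_lit 171) (nat_lit 201) (nat_lit 198)) (PT.lf (nat_lit 49020) (nat_lit 6) (nat_lit 645) (nat_lit 4) (nat_lit 172) (nat_lit 201) (nat_lit 197)))))) (PT.nd (nat_lit 624) (PT.nd (nat_lit 312) (PT.nd (nat_lit 156) (PT.nd (nat_lit 78) (PT.lf (nat_lit 50312) (nat_lit 6) (nat_lit 662) (nat_lit 4) (nat_lit 173) (nat_lit 201)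 (nat_lit 196)) (PT.lf (nat_lit 51528) (nat_lit 6) (nat_lit 678) (nat_lit 4) (nat_lit 174) (nat_lit 201) (nat_lit 195))) (PT.nd (nat_lit 78) (PT.lf (nat_lit 52668) (nat_lit 6) (nat_lit 693) (nat_lit 4) (nat_lit 175) (nat_lit 201) (nat_lit 194)) (PT.lf (nat_lit 53732) (nat_lit 6) (nat_lit 707) (nat_lit 4) (nat_lit 176) (nat_lit 201) (nat_lit 193)))) (PT.nd (nat_lit 156) (PT.nd (nat_lit 78) (PT.lf (nat_lit 54720) (nat_lit 6) (nat_lit 720) (nat_lit 4) (nat_lit 177) (nat_lit 201) (nat_lit 192)) (PT.lf (nat_lit 55632) (nat_lit 6) (nat_lit 732) (nat_lit 4) (nat_lit 178) (nat_lit 201) (nat_lit 191))) (PT.nd (nat_lit 78) (PT.lf (nat_lit 56468) (nat_lit 6) (nat_lit 743) (nat_lit 4) (nat_lit 179) (nat_lit 201) (nat_lit 190)) (PT.lf (nat_lit 56392) (nat_lit 6) (nat_lit 742) (nat_lit 4) (nat_lit 180) (nat_lit 201) (nat_lit 189))))) (PT.nd (nat_lit 312) (PT.nd (nat_lit 156) (PT.nd (nat_lit 78) (PT.lf (nat_lit 56316) (nat_lit 6) (nat_lit 741) (nat_lit 4) (nat_lit 181) (nat_lit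 201) (nat_lit 188)) (PT.lf (nat_lit 56240) (nat_lit 6) (nat_lit 740) (nat_lit 4) (nat_lit 182) (nat_lit 201) (nat_lit 187))) (PT.nd (nat_lit 78) (PT.lf (nat_lit 56164) (nat_lit 6) (nat_lit 739) (nat_lit 4) (nat_lit 183) (nat_lit 201) (nat_lit 186)) (PT.lf (nat_lit 56088) (nat_lit 6) (nat_lit 738) (nat_lit 4) (nat_lit 184) (nat_lit 201) (nat_lit 185)))) (PT.nd (nat_lit 156) (PT.nd (nat_lit 78) (PT.lf (nat_lit 56088) (nat_lit 6) (nat_lit 738) (nat_lit 2) (nat_lit 185) (nat_lit 201) (nat_lit 184)) (PT.lf (nat_lit 56164) (nat_lit 6) (nat_lit 739) (nat_lit 2) (nat_lit 186) (nat_lit 201) (nat_lit 183))) (PT.nd (nat_lit 78) (PT.lf (nat_lit 56240) (nat_lit 6) (nat_lit 740) (nat_lit 2) (nat_lit 187) (nat_lit 201) (nat_lit 182)) (PT.lf (nat_lit 56316) (nat_lit 6) (nat_lit 741) (nat_lit 2) (nat_lit 188) (nat_lit 201) (nat_lit 181))))))))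
noncomputable def pc37 : PT := (PT.nd (nat_lit 56316) (PT.nd (nat_lit 1170) (PT.nd (nat_lit 546) (PT.nd (nat_lit 234) (PT.nd (nat_lit 78) (PT.lf (nat_lit 56392) (nat_lit 6) (nat_lit 742) (nat_lit 2) (nat_lit 189) (nat_lit 201) (nat_lit 180)) (PT.nd (nat_lit 78) (PT.lf (nat_lit 56468) (nat_lit 6) (nat_lit 743) (nat_lit 2) (nat_lit 190) (nat_lit 201) (nat_lit 179)) (PT.lf (nat_lit 55632) (nat_lit 6) (nat_lit 732) (nat_lit 2) (nat_lit 191) (nat_lit 201) (nat_lit 178)))) (PT.nd (nat_lit 156) (PT.nd (nat_lit 78) (PT.lf (nat_lit 54720) (nat_lit 6) (nat_lit 720) (nat_lit 2) (nat_lit 192) (nat_lit 201) (nat_lit 177)) (PT.lf (nat_lit 53732) (nat_lit 6) (nat_lit 707) (nat_lit 2) (nat_lit 193) (nat_lit 201) (nat_lit 176))) (PT.nd (nat_lit 78) (PT.lf (nat_lit 52668) (nat_lit 6) (nat_lit 693) (nat_lit 2) (nat_lit 194) (nat_lit 201) (nat_lit 175)) (PT.lf (nat_lit 51528) (nat_lit 6) (nat_lit 678) (nat_lit 2) (nat_lit 195) (nat_lit 201) (nat_lit 174))))) (PT.nd (nat_lit 312)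 (PT.nd (nat_lit 156) (PT.nd (nat_lit 78) (PT.lf (nat_lit 50312) (nat_lit 6) (nat_lit 662) (nat_lit 2) (nat_lit 196) (nat_lit 201) (nat_lit 173)) (PT.lf (nat_lit 49020) (nat_lit 6) (nat_lit 645) (nat_lit 2) (nat_lit 197) (nat_lit 201) (nat_lit 172))) (PT.nd (nat_lit 78) (PT.lf (nat_lit 47652) (nat_lit 6) (nat_lit 627) (nat_lit 2) (nat_lit 198) (nat_lit 201) (nat_lit 171)) (PT.lf (nat_lit 46208) (nat_lit 6) (nat_lit 608) (nat_lit 2) (nat_lit 199) (nat_lit 201) (nat_lit 170)))) (PT.nd (nat_lit 156) (PT.nd (nat_lit 78) (PT.lf (nat_lit 44688) (nat_lit 6) (nat_lit 588) (nat_lit 2) (nat_lit 200) (nat_lit 201) (nat_lit 169)) (PT.lf (nat_lit 43092) (nat_lit 3) (nat_lit 567) (nat_lit 0) (nat_lit 201) (nat_lit 201) (nat_lit 168))) (PT.nd (nat_lit 78) (PT.lf (nat_lit 41344) (nat_lit 6) (nat_lit 544) (nat_lit 0) (nat_lit 202) (nat_lit 201) (nat_lit 167)) (PT.lf (nat_lit 39520) (nat_lit 6) (nat_lit 520) (nat_lit 0) (nat_lit 203) (nat_lit 201) (nat_lit 166)))))) (PT.nd (nat_lit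 546) (PT.nd (nat_lit 234) (PT.nd (nat_lit 78) (PT.lf (nat_lit 37620) (nat_lit 6) (nat_lit 495) (nat_lit 0) (nat_lit 204) (nat_lit 201) (nat_lit 165)) (PT.nd (nat_lit 78) (PT.lf (nat_lit 36404) (nat_lit 6) (nat_lit 479) (nat_lit 0) (nat_lit 205) (nat_lit 201) (nat_lit 164)) (PT.lf (nat_lit 35416) (nat_lit 6) (nat_lit 466) (nat_lit 0) (nat_lit 206) (nat_lit 201) (nat_lit 163)))) (PT.nd (nat_lit 156) (PT.nd (nat_lit 78) (PT.lf (nat_lit 34428) (nat_lit 6) (nat_lit 453) (nat_lit 0) (nat_lit 207) (nat_lit 201) (nat_lit 162)) (PT.lf (nat_lit 33516) (nat_lit 6) (nat_lit 441) (nat_lit 0) (nat_lit 208) (nat_lit 201) (nat_lit 161))) (PT.nd (nat_lit 78) (PT.lf (nat_lit 32528) (nat_lit 6) (nat_lit 428) (nat_lit 0) (nat_lit 209) (nat_lit 201) (nat_lit 160)) (PT.lf (nat_lit 31616) (nat_lit 6) (nat_lit 416) (nat_lit 0) (nat_lit 210) (nat_lit 201) (nat_lit 159))))) (PT.nd (nat_lit 312) (PT.nd (nat_lit 156) (PT.nd (nat_lit 78) (PT.lf (nat_lit 30704) (nat_lit 6) (nat_lit 404) (nat_lit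 0) (nat_lit 211) (nat_lit 201) (nat_lit 158)) (PT.lf (nat_lit 29868) (nat_lit 6) (nat_lit 393) (nat_lit 0) (nat_lit 212) (nat_lit 201) (nat_lit 157))) (PT.nd (nat_lit 78) (PT.lf (nat_lit 29032) (nat_lit 6) (nat_lit 382) (nat_lit 0) (nat_lit 213) (nat_lit 201) (nat_lit 156)) (PT.lf (nat_lit 28196) (nat_lit 6) (nat_lit 371) (nat_lit 0) (nat_lit 214) (nat_lit 201) (nat_lit 155)))) (PT.nd (nat_lit 156) (PT.nd (nat_lit 78) (PT.lf (nat_lit 27360) (nat_lit 6) (nat_lit 360) (nat_lit 0) (nat_lit 215) (nat_lit 201) (nat_lit 154)) (PT.lf (nat_lit 26600) (nat_lit 6) (nat_lit 350) (nat_lit 0) (nat_lit 216) (nat_lit 201) (nat_lit 153))) (PT.nd (nat_lit 78) (PT.lf (nat_lit 25840) (nat_lit 6) (nat_lit 340) (nat_lit 0) (nat_lit 217) (nat_lit 201) (nat_lit 152)) (PT.lf (nat_lit 25080) (nat_lit 6) (nat_lit 330) (nat_lit 0) (nat_lit 218) (nat_lit 201) (nat_lit 151))))))) (PT.nd (nat_lit 1170) (PT.nd (nat_lit 546) (PT.nd (nat_lit 234) (PT.nd (nat_lit 78) (PT.lf (nat_lit 24396) (nat_lit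 6) (nat_lit 321) (nat_lit 5) (nat_lit 150) (nat_lit 202) (nat_lit 218)) (PT.nd (nat_lit 78) (PT.lf (nat_lit 25156) (nat_lit 6) (nat_lit 331) (nat_lit 5) (nat_lit 151) (nat_lit 202) (nat_lit 217)) (PT.lf (nat_lit 25916) (nat_lit 6) (nat_lit 341) (nat_lit 5) (nat_lit 152) (nat_lit 202) (nat_lit 216)))) (PT.nd (nat_lit 156) (PT.nd (nat_lit 78) (PT.lf (nat_lit 26676) (nat_lit 6) (nat_lit 351) (nat_lit 5) (nat_lit 153) (nat_lit 202) (nat_lit 215)) (PT.lf (nat_lit 27436) (nat_lit 6) (nat_lit 361) (nat_lit 5) (nat_lit 154) (nat_lit 202) (nat_lit 214))) (PT.nd (nat_lit 78) (PT.lf (nat_lit 28272) (nat_lit 6) (nat_lit 372) (nat_lit 5) (nat_lit 155) (nat_lit 202) (nat_lit 213)) (PT.lf (nat_lit 29108) (nat_lit 6) (nat_lit 383) (nat_lit 5) (nat_lit 156) (nat_lit 202) (nat_lit 212))))) (PT.nd (nat_lit 312) (PT.nd (nat_lit 156) (PT.nd (nat_lit 78) (PT.lf (nat_lit 29944) (nat_lit 6) (nat_lit 394) (nat_lit 5) (nat_lit 157) (nat_lit 202) (nat_lit 211)) (PT.lf (nat_lit 30780) (nat_lit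 6) (nat_lit 405) (nat_lit 5) (nat_lit 158) (nat_lit 202) (nat_lit 210))) (PT.nd (nat_lit 78) (PT.lf (nat_lit 31692) (nat_lit 6) (nat_lit 417) (nat_lit 5) (nat_lit 159) (nat_lit 202) (nat_lit 209)) (PT.lf (nat_lit 32604) (nat_lit 6) (nat_lit 429) (nat_lit 5) (nat_lit 160) (nat_lit 202) (nat_lit 208)))) (PT.nd (nat_lit 156) (PT.nd (nat_lit 78) (PT.lf (nat_lit 33592) (nat_lit 6) (nat_lit 442) (nat_lit 5) (nat_lit 161) (nat_lit 202) (nat_lit 207)) (PT.lf (nat_lit 34504) (nat_lit 6) (nat_lit 454) (nat_lit 5) (nat_lit 162) (nat_lit 202) (nat_lit 206))) (PT.nd (nat_lit 78) (PT.lf (nat_lit 35492) (nat_lit 6) (nat_lit 467) (nat_lit 5) (nat_lit 163) (nat_lit 202) (nat_lit 205)) (PT.lf (nat_lit 36480) (nat_lit 6) (nat_lit 480) (nat_lit 5) (nat_lit 164) (nat_lit 202) (nat_lit 204)))))) (PT.nd (nat_lit 624) (PT.nd (nat_lit 312) (PT.nd (nat_lit 156) (PT.nd (nat_lit 78) (PT.lf (nat_lit 37696) (nat_lit 6) (nat_lit 496) (nat_lit 5) (nat_lit 165) (nat_lit 202) (nat_lit 203)) (PT.lf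 (nat_lit 39596) (nat_lit 3) (nat_lit 521) (nat_lit 4) (nat_lit 166) (nat_lit 202) (nat_lit 202))) (PT.nd (nat_lit 78) (PT.lf (nat_lit 41344) (nat_lit 6) (nat_lit 544) (nat_lit 4) (nat_lit 167) (nat_lit 202) (nat_lit 201)) (PT.lf (nat_lit 43016) (nat_lit 6) (nat_lit 566) (nat_lit 4) (nat_lit 168) (nat_lit 202) (nat_lit 200)))) (PT.nd (nat_lit 156) (PT.nd (nat_lit 78) (PT.lf (nat_lit 44612) (nat_lit 6) (nat_lit 587) (nat_lit 4) (nat_lit 169) (nat_lit 202) (nat_lit 199)) (PT.lf (nat_lit 46132) (nat_lit 6) (nat_lit 607) (nat_lit 4) (nat_lit 170) (nat_lit 202) (nat_lit 198))) (PT.nd (nat_lit 78) (PT.lf (nat_lit 47576) (nat_lit 6) (nat_lit 626) (nat_lit 4) (nat_lit 171) (nat_lit 202) (nat_lit 197)) (PT.lf (nat_lit 48944) (nat_lit 6) (nat_lit 644) (nat_lit 4) (nat_lit 172) (nat_lit 202) (nat_lit 196))))) (PT.nd (nat_lit 312) (PT.nd (nat_lit 156) (PT.nd (nat_lit 78) (PT.lf (nat_lit 50236) (nat_lit 6) (nat_lit 661) (nat_lit 4) (nat_lit 173) (nat_lit 202) (nat_lit 195))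 (PT.lf (nat_lit 51452) (nat_lit 6) (nat_lit 677) (nat_lit 4) (nat_lit 174) (nat_lit 202) (nat_lit 194))) (PT.nd (nat_lit 78) (PT.lf (nat_lit 52592) (nat_lit 6) (nat_lit 692) (nat_lit 4) (nat_lit 175) (nat_lit 202) (nat_lit 193)) (PT.lf (nat_lit 53656) (nat_lit 6) (nat_lit 706) (nat_lit 4) (nat_lit 176) (nat_lit 202) (nat_lit 192)))) (PT.nd (nat_lit 156) (PT.nd (nat_lit 78) (PT.lf (nat_lit 54644) (nat_lit 6) (nat_lit 719) (nat_lit 4) (nat_lit 177) (nat_lit 202) (nat_lit 191)) (PT.lf (nat_lit 55556) (nat_lit 6) (nat_lit 731) (nat_lit 4) (nat_lit 178) (nat_lit 202) (nat_lit 190))) (PT.nd (nat_lit 78) (PT.lf (nat_lit 55480) (nat_lit 6) (nat_lit 730) (nat_lit 4) (nat_lit 179) (nat_lit 202) (nat_lit 189)) (PT.lf (nat_lit 55404) (nat_lit 6) (nat_lit 729) (nat_lit 4) (nat_lit 180) (nat_lit 202) (nat_lit 188))))))))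
noncomputable def pc38 : PT := (PT.nd (nat_lit 2340) (PT.nd (nat_lit 1170) (PT.nd (nat_lit 546) (PT.nd (nat_lit 234) (PT.nd (nat_lit 78) (PT.lf (nat_lit 55328) (nat_lit 6) (nat_lit 728) (nat_lit 4) (nat_lit 181) (nat_lit 202) (nat_lit 187)) (PT.nd (nat_lit 78) (PT.lf (nat_lit 55252) (nat_lit 6) (nat_lit 727) (nat_lit 4) (nat_lit 182) (nat_lit 202) (nat_lit 186)) (PT.lf (nat_lit 55176) (nat_lit 6) (nat_lit 726) (nat_lit 4) (nat_lit 183) (nat_lit 202) (nat_lit 185)))) (PT.nd (nat_lit 156) (PT.nd (nat_lit 78) (PT.lf (nat_lit 55100) (nat_lit 3) (nat_lit 725) (nat_lit 2) (nat_lit 184) (nat_lit 202) (nat_lit 184)) (PT.lf (nat_lit 55176) (nat_lit 6) (nat_lit 726) (nat_lit 2) (nat_lit 185) (nat_lit 202) (nat_lit 183))) (PT.nd (nat_lit 78) (PT.lf (nat_lit 55252) (nat_lit 6) (nat_lit 727) (nat_lit 2) (nat_lit 186) (nat_lit 202) (nat_lit 182)) (PT.lf (nat_lit 55328) (nat_lit 6) (nat_lit 728) (nat_lit 2) (nat_lit 187) (nat_lit 202) (nat_lit 181))))) (PT.nd (nat_lit 312)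 (PT.nd (nat_lit 156) (PT.nd (nat_lit 78) (PT.lf (nat_lit 55404) (nat_lit 6) (nat_lit 729) (nat_lit 2) (nat_lit 188) (nat_lit 202) (nat_lit 180)) (PT.lf (nat_lit 55480) (nat_lit 6) (nat_lit 730) (nat_lit 2) (nat_lit 189) (nat_lit 202) (nat_lit 179))) (PT.nd (nat_lit 78) (PT.lf (nat_lit 55556) (nat_lit 6) (nat_lit 731) (nat_lit 2) (nat_lit 190) (nat_lit 202) (nat_lit 178)) (PT.lf (nat_lit 54644) (nat_lit 6) (nat_lit 719) (nat_lit 2) (nat_lit 191) (nat_lit 202) (nat_lit 177)))) (PT.nd (nat_lit 156) (PT.nd (nat_lit 78) (PT.lf (nat_lit 53656) (nat_lit 6) (nat_lit 706) (nat_lit 2) (nat_lit 192) (nat_lit 202) (nat_lit 176)) (PT.lf (nat_lit 52592) (nat_lit 6) (nat_lit 692) (nat_lit 2) (nat_lit 193) (nat_lit 202) (nat_lit 175))) (PT.nd (nat_lit 78) (PT.lf (nat_lit 51452) (nat_lit 6) (nat_lit 677) (nat_lit 2) (nat_lit 194) (nat_lit 202) (nat_lit 174)) (PT.lf (nat_lit 50236) (nat_lit 6) (nat_lit 661) (nat_lit 2) (nat_lit 195) (nat_lit 202) (nat_lit 173)))))) (PT.nd (nat_lit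 546) (PT.nd (nat_lit 234) (PT.nd (nat_lit 78) (PT.lf (nat_lit 48944) (nat_lit 6) (nat_lit 644) (nat_lit 2) (nat_lit 196) (nat_lit 202) (nat_lit 172)) (PT.nd (nat_lit 78) (PT.lf (nat_lit 47576) (nat_lit 6) (nat_lit 626) (nat_lit 2) (nat_lit 197) (nat_lit 202) (nat_lit 171)) (PT.lf (nat_lit 46132) (nat_lit 6) (nat_lit 607) (nat_lit 2) (nat_lit 198) (nat_lit 202) (nat_lit 170)))) (PT.nd (nat_lit 156) (PT.nd (nat_lit 78) (PT.lf (nat_lit 44612) (nat_lit 6) (nat_lit 587) (nat_lit 2) (nat_lit 199) (nat_lit 202) (nat_lit 169)) (PT.lf (nat_lit 43016) (nat_lit 6) (nat_lit 566) (nat_lit 2) (nat_lit 200) (nat_lit 202) (nat_lit 168))) (PT.nd (nat_lit 78) (PT.lf (nat_lit 41344) (nat_lit 6) (nat_lit 544) (nat_lit 2) (nat_lit 201) (nat_lit 202) (nat_lit 167)) (PT.lf (nat_lit 39596) (nat_lit 3) (nat_lit 521) (nat_lit 0) (nat_lit 202) (nat_lit 202) (nat_lit 166))))) (PT.nd (nat_lit 312) (PT.nd (nat_lit 156) (PT.nd (nat_lit 78) (PT.lf (nat_lit 37696) (nat_lit 6) (nat_lit 496) (nat_lit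 0) (nat_lit 203) (nat_lit 202) (nat_lit 165)) (PT.lf (nat_lit 36480) (nat_lit 6) (nat_lit 480) (nat_lit 0) (nat_lit 204) (nat_lit 202) (nat_lit 164))) (PT.nd (nat_lit 78) (PT.lf (nat_lit 35492) (nat_lit 6) (nat_lit 467) (nat_lit 0) (nat_lit 205) (nat_lit 202) (nat_lit 163)) (PT.lf (nat_lit 34504) (nat_lit 6) (nat_lit 454) (nat_lit 0) (nat_lit 206) (nat_lit 202) (nat_lit 162)))) (PT.nd (nat_lit 156) (PT.nd (nat_lit 78) (PT.lf (nat_lit 33592) (nat_lit 6) (nat_lit 442) (nat_lit 0) (nat_lit 207) (nat_lit 202) (nat_lit 161)) (PT.lf (nat_lit 32604) (nat_lit 6) (nat_lit 429) (nat_lit 0) (nat_lit 208) (nat_lit 202) (nat_lit 160))) (PT.nd (nat_lit 78) (PT.lf (nat_lit 31692) (nat_lit 6) (nat_lit 417) (nat_lit 0) (nat_lit 209) (nat_lit 202) (nat_lit 159)) (PT.lf (nat_lit 30780) (nat_lit 6) (nat_lit 405) (nat_lit 0) (nat_lit 210) (nat_lit 202) (nat_lit 158))))))) (PT.nd (nat_lit 54990) (PT.nd (nat_lit 546) (PT.nd (nat_lit 234) (PT.nd (nat_lit 78) (PT.lf (nat_lit 29944) (nat_lit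 6) (nat_lit 394) (nat_lit 0) (nat_lit 211) (nat_lit 202) (nat_lit 157)) (PT.nd (nat_lit 78) (PT.lf (nat_lit 29108) (nat_lit 6) (nat_lit 383) (nat_lit 0) (nat_lit 212) (nat_lit 202) (nat_lit 156)) (PT.lf (nat_lit 28272) (nat_lit 6) (nat_lit 372) (nat_lit 0) (nat_lit 213) (nat_lit 202) (nat_lit 155)))) (PT.nd (nat_lit 156) (PT.nd (nat_lit 78) (PT.lf (nat_lit 27436) (nat_lit 6) (nat_lit 361) (nat_lit 0) (nat_lit 214) (nat_lit 202) (nat_lit 154)) (PT.lf (nat_lit 26676) (nat_lit 6) (nat_lit 351) (nat_lit 0) (nat_lit 215) (nat_lit 202) (nat_lit 153))) (PT.nd (nat_lit 78) (PT.lf (nat_lit 25916) (nat_lit 6) (nat_lit 341) (nat_lit 0) (nat_lit 216) (nat_lit 202) (nat_lit 152)) (PT.lf (nat_lit 25156) (nat_lit 6) (nat_lit 331) (nat_lit 0) (nat_lit 217) (nat_lit 202) (nat_lit 151))))) (PT.nd (nat_lit 54132) (PT.nd (nat_lit 53976) (PT.nd (nat_lit 53898) (PT.lf (nat_lit 24396) (nat_lit 6) (nat_lit 321) (nat_lit 0) (nat_lit 218) (nat_lit 202) (nat_lit 150)) (PT.lf (nat_lit 23104)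 (nat_lit 6) (nat_lit 304) (nat_lit 5) (nat_lit 148) (nat_lit 203) (nat_lit 219))) (PT.nd (nat_lit 78) (PT.lf (nat_lit 23788) (nat_lit 6) (nat_lit 313) (nat_lit 5) (nat_lit 149) (nat_lit 203) (nat_lit 218)) (PT.lf (nat_lit 24472) (nat_lit 6) (nat_lit 322) (nat_lit 5) (nat_lit 150) (nat_lit 203) (nat_lit 217)))) (PT.nd (nat_lit 156) (PT.nd (nat_lit 78) (PT.lf (nat_lit 25232) (nat_lit 6) (nat_lit 332) (nat_lit 5) (nat_lit 151) (nat_lit 203) (nat_lit 216)) (PT.lf (nat_lit 25992) (nat_lit 6) (nat_lit 342) (nat_lit 5) (nat_lit 152) (nat_lit 203) (nat_lit 215))) (PT.nd (nat_lit 78) (PT.lf (nat_lit 26752) (nat_lit 6) (nat_lit 352) (nat_lit 5) (nat_lit 153) (nat_lit 203) (nat_lit 214)) (PT.lf (nat_lit 27512) (nat_lit 6) (nat_lit 362) (nat_lit 5) (nat_lit 154) (nat_lit 203) (nat_lit 213)))))) (PT.nd (nat_lit 624) (PT.nd (nat_lit 312) (PT.nd (nat_lit 156) (PT.nd (nat_lit 78) (PT.lf (nat_lit 28348) (nat_lit 6) (nat_lit 373) (nat_lit 5) (nat_lit 155) (nat_lit 203) (nat_lit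 212)) (PT.lf (nat_lit 29184) (nat_lit 6) (nat_lit 384) (nat_lit 5) (nat_lit 156) (nat_lit 203) (nat_lit 211))) (PT.nd (nat_lit 78) (PT.lf (nat_lit 30020) (nat_lit 6) (nat_lit 395) (nat_lit 5) (nat_lit 157) (nat_lit 203) (nat_lit 210)) (PT.lf (nat_lit 30856) (nat_lit 6) (nat_lit 406) (nat_lit 5) (nat_lit 158) (nat_lit 203) (nat_lit 209)))) (PT.nd (nat_lit 156) (PT.nd (nat_lit 78) (PT.lf (nat_lit 31768) (nat_lit 6) (nat_lit 418) (nat_lit 5) (nat_lit 159) (nat_lit 203) (nat_lit 208)) (PT.lf (nat_lit 32680) (nat_lit 6) (nat_lit 430) (nat_lit 5) (nat_lit 160) (nat_lit 203) (nat_lit 207))) (PT.nd (nat_lit 78) (PT.lf (nat_lit 33668) (nat_lit 6) (nat_lit 443) (nat_lit 5) (nat_lit 161) (nat_lit 203) (nat_lit 206)) (PT.lf (nat_lit 34580) (nat_lit 6) (nat_lit 455) (nat_lit 5) (nat_lit 162) (nat_lit 203) (nat_lit 205))))) (PT.nd (nat_lit 312) (PT.nd (nat_lit 156) (PT.nd (nat_lit 78) (PT.lf (nat_lit 35568) (nat_lit 6) (nat_lit 468) (nat_lit 5) (nat_lit 163) (nat_lit 203)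 (nat_lit 204)) (PT.lf (nat_lit 36556) (nat_lit 3) (nat_lit 481) (nat_lit 4) (nat_lit 164) (nat_lit 203) (nat_lit 203))) (PT.nd (nat_lit 78) (PT.lf (nat_lit 37696) (nat_lit 6) (nat_lit 496) (nat_lit 4) (nat_lit 165) (nat_lit 203) (nat_lit 202)) (PT.lf (nat_lit 39520) (nat_lit 6) (nat_lit 520) (nat_lit 4) (nat_lit 166) (nat_lit 203) (nat_lit 201)))) (PT.nd (nat_lit 156) (PT.nd (nat_lit 78) (PT.lf (nat_lit 41268) (nat_lit 6) (nat_lit 543) (nat_lit 4) (nat_lit 167) (nat_lit 203) (nat_lit 200)) (PT.lf (nat_lit 42940) (nat_lit 6) (nat_lit 565) (nat_lit 4) (nat_lit 168) (nat_lit 203) (nat_lit 199))) (PT.nd (nat_lit 78) (PT.lf (nat_lit 44536) (nat_lit 6) (nat_lit 586) (nat_lit 4) (nat_lit 169) (nat_lit 203) (nat_lit 198)) (PT.lf (nat_lit 46056) (nat_lit 6) (nat_lit 606) (nat_lit 4) (nat_lit 170) (nat_lit 203) (nat_lit 197))))))))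
noncomputable def pc39 : PT := (PT.nd (nat_lit 2418) (PT.nd (nat_lit 1170) (PT.nd (nat_lit 546) (PT.nd (nat_lit 234) (PT.nd (nat_lit 78) (PT.lf (nat_lit 47500) (nat_lit 6) (nat_lit 625) (nat_lit 4) (nat_lit 171) (nat_lit 203) (nat_lit 196)) (PT.nd (nat_lit 78) (PT.lf (nat_lit 48868) (nat_lit 6) (nat_lit 643) (nat_lit 4) (nat_lit 172) (nat_lit 203) (nat_lit 195)) (PT.lf (nat_lit 50160) (nat_lit 6) (nat_lit 660) (nat_lit 4) (nat_lit 173) (nat_lit 203) (nat_lit 194)))) (PT.nd (nat_lit 156) (PT.nd (nat_lit 78) (PT.lf (nat_lit 51376) (nat_lit 6) (nat_lit 676) (nat_lit 4) (nat_lit 174) (nat_lit 203) (nat_lit 193)) (PT.lf (nat_lit 52516) (nat_lit 6) (nat_lit 691) (nat_lit 4) (nat_lit 175) (nat_lit 203) (nat_lit 192))) (PT.nd (nat_lit 78) (PT.lf (nat_lit 53580) (nat_lit 6) (nat_lit 705) (nat_lit 4) (nat_lit 176) (nat_lit 203) (nat_lit 191)) (PT.lf (nat_lit 54568) (nat_lit 6) (nat_lit 718) (nat_lit 4) (nat_lit 177) (nat_lit 203) (nat_lit 190))))) (PT.nd (nat_lit 312)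 (PT.nd (nat_lit 156) (PT.nd (nat_lit 78) (PT.lf (nat_lit 54492) (nat_lit 6) (nat_lit 717) (nat_lit 4) (nat_lit 178) (nat_lit 203) (nat_lit 189)) (PT.lf (nat_lit 54416) (nat_lit 6) (nat_lit 716) (nat_lit 4) (nat_lit 179) (nat_lit 203) (nat_lit 188))) (PT.nd (nat_lit 78) (PT.lf (nat_lit 54340) (nat_lit 6) (nat_lit 715) (nat_lit 4) (nat_lit 180) (nat_lit 203) (nat_lit 187)) (PT.lf (nat_lit 54264) (nat_lit 6) (nat_lit 714) (nat_lit 4) (nat_lit 181) (nat_lit 203) (nat_lit 186)))) (PT.nd (nat_lit 156) (PT.nd (nat_lit 78) (PT.lf (nat_lit 54188) (nat_lit 6) (nat_lit 713) (nat_lit 4) (nat_lit 182) (nat_lit 203) (nat_lit 185)) (PT.lf (nat_lit 54112) (nat_lit 6) (nat_lit 712) (nat_lit 4) (nat_lit 183) (nat_lit 203) (nat_lit 184))) (PT.nd (nat_lit 78) (PT.lf (nat_lit 54112) (nat_lit 6) (nat_lit 712) (nat_lit 2) (nat_lit 184) (nat_lit 203) (nat_lit 183)) (PT.lf (nat_lit 54188) (nat_lit 6) (nat_lit 713) (nat_lit 2) (nat_lit 185) (nat_lit 203) (nat_lit 182)))))) (PT.nd (nat_lit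 624) (PT.nd (nat_lit 312) (PT.nd (nat_lit 156) (PT.nd (nat_lit 78) (PT.lf (nat_lit 54264) (nat_lit 6) (nat_lit 714) (nat_lit 2) (nat_lit 186) (nat_lit 203) (nat_lit 181)) (PT.lf (nat_lit 54340) (nat_lit 6) (nat_lit 715) (nat_lit 2) (nat_lit 187) (nat_lit 203) (nat_lit 180))) (PT.nd (nat_lit 78) (PT.lf (nat_lit 54416) (nat_lit 6) (nat_lit 716) (nat_lit 2) (nat_lit 188) (nat_lit 203) (nat_lit 179)) (PT.lf (nat_lit 54492) (nat_lit 6) (nat_lit 717) (nat_lit 2) (nat_lit 189) (nat_lit 203) (nat_lit 178)))) (PT.nd (nat_lit 156) (PT.nd (nat_lit 78) (PT.lf (nat_lit 54568) (nat_lit 6) (nat_lit 718) (nat_lit 2) (nat_lit 190) (nat_lit 203) (nat_lit 177)) (PT.lf (nat_lit 53580) (nat_lit 6) (nat_lit 705) (nat_lit 2) (nat_lit 191) (nat_lit 203) (nat_lit 176))) (PT.nd (nat_lit 78) (PT.lf (nat_lit 52516) (nat_lit 6) (nat_lit 691) (nat_lit 2) (nat_lit 192) (nat_lit 203) (nat_lit 175)) (PT.lf (nat_lit 51376) (nat_lit 6) (nat_lit 676) (nat_lit 2) (nat_lit 193) (nat_lit 203) (nat_lit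 174))))) (PT.nd (nat_lit 312) (PT.nd (nat_lit 156) (PT.nd (nat_lit 78) (PT.lf (nat_lit 50160) (nat_lit 6) (nat_lit 660) (nat_lit 2) (nat_lit 194) (nat_lit 203) (nat_lit 173)) (PT.lf (nat_lit 48868) (nat_lit 6) (nat_lit 643) (nat_lit 2) (nat_lit 195) (nat_lit 203) (nat_lit 172))) (PT.nd (nat_lit 78) (PT.lf (nat_lit 47500) (nat_lit 6) (nat_lit 625) (nat_lit 2) (nat_lit 196) (nat_lit 203) (nat_lit 171)) (PT.lf (nat_lit 46056) (nat_lit 6) (nat_lit 606) (nat_lit 2) (nat_lit 197) (nat_lit 203) (nat_lit 170)))) (PT.nd (nat_lit 156) (PT.nd (nat_lit 78) (PT.lf (nat_lit 44536) (nat_lit 6) (nat_lit 586) (nat_lit 2) (nat_lit 198) (nat_lit 203) (nat_lit 169)) (PT.lf (nat_lit 42940) (nat_lit 6) (nat_lit 565) (nat_lit 2) (nat_lit 199) (nat_lit 203) (nat_lit 168))) (PT.nd (nat_lit 78) (PT.lf (nat_lit 41268) (nat_lit 6) (nat_lit 543) (nat_lit 2) (nat_lit 200) (nat_lit 203) (nat_lit 167)) (PT.lf (nat_lit 39520) (nat_lit 6) (nat_lit 520) (nat_lit 2) (nat_lit 201) (nat_lit 203)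 (nat_lit 166))))))) (PT.nd (nat_lit 1170) (PT.nd (nat_lit 546) (PT.nd (nat_lit 234) (PT.nd (nat_lit 78) (PT.lf (nat_lit 37696) (nat_lit 6) (nat_lit 496) (nat_lit 2) (nat_lit 202) (nat_lit 203) (nat_lit 165)) (PT.nd (nat_lit 78) (PT.lf (nat_lit 36556) (nat_lit 3) (nat_lit 481) (nat_lit 0) (nat_lit 203) (nat_lit 203) (nat_lit 164)) (PT.lf (nat_lit 35568) (nat_lit 6) (nat_lit 468) (nat_lit 0) (nat_lit 204) (nat_lit 203) (nat_lit 163)))) (PT.nd (nat_lit 156) (PT.nd (nat_lit 78) (PT.lf (nat_lit 34580) (nat_lit 6) (nat_lit 455) (nat_lit 0) (nat_lit 205) (nat_lit 203) (nat_lit 162)) (PT.lf (nat_lit 33668) (nat_lit 6) (nat_lit 443) (nat_lit 0) (nat_lit 206) (nat_lit 203) (nat_lit 161))) (PT.nd (nat_lit 78) (PT.lf (nat_lit 32680) (nat_lit 6) (nat_lit 430) (nat_lit 0) (nat_lit 207) (nat_lit 203) (nat_lit 160)) (PT.lf (nat_lit 31768) (nat_lit 6) (nat_lit 418) (nat_lit 0) (nat_lit 208) (nat_lit 203) (nat_lit 159))))) (PT.nd (nat_lit 312) (PT.nd (nat_lit 156) (PT.nd (nat_lit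 78) (PT.lf (nat_lit 30856) (nat_lit 6) (nat_lit 406) (nat_lit 0) (nat_lit 209) (nat_lit 203) (nat_lit 158)) (PT.lf (nat_lit 30020) (nat_lit 6) (nat_lit 395) (nat_lit 0) (nat_lit 210) (nat_lit 203) (nat_lit 157))) (PT.nd (nat_lit 78) (PT.lf (nat_lit 29184) (nat_lit 6) (nat_lit 384) (nat_lit 0) (nat_lit 211) (nat_lit 203) (nat_lit 156)) (PT.lf (nat_lit 28348) (nat_lit 6) (nat_lit 373) (nat_lit 0) (nat_lit 212) (nat_lit 203) (nat_lit 155)))) (PT.nd (nat_lit 156) (PT.nd (nat_lit 78) (PT.lf (nat_lit 27512) (nat_lit 6) (nat_lit 362) (nat_lit 0) (nat_lit 213) (nat_lit 203) (nat_lit 154)) (PT.lf (nat_lit 26752) (nat_lit 6) (nat_lit 352) (nat_lit 0) (nat_lit 214) (nat_lit 203) (nat_lit 153))) (PT.nd (nat_lit 78) (PT.lf (nat_lit 25992) (nat_lit 6) (nat_lit 342) (nat_lit 0) (nat_lit 215) (nat_lit 203) (nat_lit 152)) (PT.lf (nat_lit 25232) (nat_lit 6) (nat_lit 332) (nat_lit 0) (nat_lit 216) (nat_lit 203) (nat_lit 151)))))) (PT.nd (nat_lit 54288) (PT.nd (nat_lit 53976) (PT.nd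 (nat_lit 156) (PT.nd (nat_lit 78) (PT.lf (nat_lit 24472) (nat_lit 6) (nat_lit 322) (nat_lit 0) (nat_lit 217) (nat_lit 203) (nat_lit 150)) (PT.lf (nat_lit 23788) (nat_lit 6) (nat_lit 313) (nat_lit 0) (nat_lit 218) (nat_lit 203) (nat_lit 149))) (PT.nd (nat_lit 53742) (PT.lf (nat_lit 23104) (nat_lit 6) (nat_lit 304) (nat_lit 0) (nat_lit 219) (nat_lit 203) (nat_lit 148)) (PT.lf (nat_lit 22496) (nat_lit 6) (nat_lit 296) (nat_lit 5) (nat_lit 147) (nat_lit 204) (nat_lit 219)))) (PT.nd (nat_lit 156) (PT.nd (nat_lit 78) (PT.lf (nat_lit 23180) (nat_lit 6) (nat_lit 305) (nat_lit 5) (nat_lit 148) (nat_lit 204) (nat_lit 218)) (PT.lf (nat_lit 23864) (nat_lit 6) (nat_lit 314) (nat_lit 5) (nat_lit 149) (nat_lit 204) (nat_lit 217))) (PT.nd (nat_lit 78) (PT.lf (nat_lit 24548) (nat_lit 6) (nat_lit 323) (nat_lit 5) (nat_lit 150) (nat_lit 204) (nat_lit 216)) (PT.lf (nat_lit 25308) (nat_lit 6) (nat_lit 333) (nat_lit 5) (nat_lit 151) (nat_lit 204) (nat_lit 215))))) (PT.nd (nat_lit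 312) (PT.nd (nat_lit 156) (PT.nd (nat_lit 78) (PT.lf (nat_lit 26068) (nat_lit 6) (nat_lit 343) (nat_lit 5) (nat_lit 152) (nat_lit 204) (nat_lit 214)) (PT.lf (nat_lit 26828) (nat_lit 6) (nat_lit 353) (nat_lit 5) (nat_lit 153) (nat_lit 204) (nat_lit 213))) (PT.nd (nat_lit 78) (PT.lf (nat_lit 27588) (nat_lit 6) (nat_lit 363) (nat_lit 5) (nat_lit 154) (nat_lit 204) (nat_lit 212)) (PT.lf (nat_lit 28424) (nat_lit 6) (nat_lit 374) (nat_lit 5) (nat_lit 155) (nat_lit 204) (nat_lit 211)))) (PT.nd (nat_lit 156) (PT.nd (nat_lit 78) (PT.lf (nat_lit 29260) (nat_lit 6) (nat_lit 385) (nat_lit 5) (nat_lit 156) (nat_lit 204) (nat_lit 210)) (PT.lf (nat_lit 30096) (nat_lit 6) (nat_lit 396) (nat_lit 5) (nat_lit 157) (nat_lit 204) (nat_lit 209))) (PT.nd (nat_lit 78) (PT.lf (nat_lit 30932) (nat_lit 6) (nat_lit 407) (nat_lit 5) (nat_lit 158) (nat_lit 204) (nat_lit 208)) (PT.lf (nat_lit 31844) (nat_lit 6) (nat_lit 419) (nat_lit 5) (nat_lit 159) (nat_lit 204) (nat_lit 207))))))))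
noncomputable def pc40 : PT := (PT.nd (nat_lit 2340) (PT.nd (nat_lit 1170) (PT.nd (nat_lit 546) (PT.nd (nat_lit 234) (PT.nd (nat_lit 78) (PT.lf (nat_lit 32756) (nat_lit 6) (nat_lit 431) (nat_lit 5) (nat_lit 160) (nat_lit 204) (nat_lit 206)) (PT.nd (nat_lit 78) (PT.lf (nat_lit 33744) (nat_lit 6) (nat_lit 444) (nat_lit 5) (nat_lit 161) (nat_lit 204) (nat_lit 205)) (PT.lf (nat_lit 34656) (nat_lit 3) (nat_lit 456) (nat_lit 4) (nat_lit 162) (nat_lit 204) (nat_lit 204)))) (PT.nd (nat_lit 156) (PT.nd (nat_lit 78) (PT.lf (nat_lit 35568) (nat_lit 6) (nat_lit 468) (nat_lit 4) (nat_lit 163) (nat_lit 204) (nat_lit 203)) (PT.lf (nat_lit 36480) (nat_lit 6) (nat_lit 480) (nat_lit 4) (nat_lit 164) (nat_lit 204) (nat_lit 202))) (PT.nd (nat_lit 78) (PT.lf (nat_lit 37620) (nat_lit 6) (nat_lit 495) (nat_lit 4) (nat_lit 165) (nat_lit 204) (nat_lit 201)) (PT.lf (nat_lit 39444) (nat_lit 6) (nat_lit 519) (nat_lit 4) (nat_lit 166) (nat_lit 204) (nat_lit 200))))) (PT.nd (nat_lit 312)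 (PT.nd (nat_lit 156) (PT.nd (nat_lit 78) (PT.lf (nat_lit 41192) (nat_lit 6) (nat_lit 542) (nat_lit 4) (nat_lit 167) (nat_lit 204) (nat_lit 199)) (PT.lf (nat_lit 42864) (nat_lit 6) (nat_lit 564) (nat_lit 4) (nat_lit 168) (nat_lit 204) (nat_lit 198))) (PT.nd (nat_lit 78) (PT.lf (nat_lit 44460) (nat_lit 6) (nat_lit 585) (nat_lit 4) (nat_lit 169) (nat_lit 204) (nat_lit 197)) (PT.lf (nat_lit 45980) (nat_lit 6) (nat_lit 605) (nat_lit 4) (nat_lit 170) (nat_lit 204) (nat_lit 196)))) (PT.nd (nat_lit 156) (PT.nd (nat_lit 78) (PT.lf (nat_lit 47424) (nat_lit 6) (nat_lit 624) (nat_lit 4) (nat_lit 171) (nat_lit 204) (nat_lit 195)) (PT.lf (nat_lit 48792) (nat_lit 6) (nat_lit 642) (nat_lit 4) (nat_lit 172) (nat_lit 204) (nat_lit 194))) (PT.nd (nat_lit 78) (PT.lf (nat_lit 50084) (nat_lit 6) (nat_lit 659) (nat_lit 4) (nat_lit 173) (nat_lit 204) (nat_lit 193)) (PT.lf (nat_lit 51300) (nat_lit 6) (nat_lit 675) (nat_lit 4) (nat_lit 174) (nat_lit 204) (nat_lit 192)))))) (PT.nd (nat_lit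 546) (PT.nd (nat_lit 234) (PT.nd (nat_lit 78) (PT.lf (nat_lit 52440) (nat_lit 6) (nat_lit 690) (nat_lit 4) (nat_lit 175) (nat_lit 204) (nat_lit 191)) (PT.nd (nat_lit 78) (PT.lf (nat_lit 53504) (nat_lit 6) (nat_lit 704) (nat_lit 4) (nat_lit 176) (nat_lit 204) (nat_lit 190)) (PT.lf (nat_lit 53428) (nat_lit 6) (nat_lit 703) (nat_lit 4) (nat_lit 177) (nat_lit 204) (nat_lit 189)))) (PT.nd (nat_lit 156) (PT.nd (nat_lit 78) (PT.lf (nat_lit 53352) (nat_lit 6) (nat_lit 702) (nat_lit 4) (nat_lit 178) (nat_lit 204) (nat_lit 188)) (PT.lf (nat_lit 53276) (nat_lit 6) (nat_lit 701) (nat_lit 4) (nat_lit 179) (nat_lit 204) (nat_lit 187))) (PT.nd (nat_lit 78) (PT.lf (nat_lit 53200) (nat_lit 6) (nat_lit 700) (nat_lit 4) (nat_lit 180) (nat_lit 204) (nat_lit 186)) (PT.lf (nat_lit 53124) (nat_lit 6) (nat_lit 699) (nat_lit 4) (nat_lit 181) (nat_lit 204) (nat_lit 185))))) (PT.nd (nat_lit 312) (PT.nd (nat_lit 156) (PT.nd (nat_lit 78) (PT.lf (nat_lit 53048) (nat_lit 6) (nat_lit 698) (nat_lit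 4) (nat_lit 182) (nat_lit 204) (nat_lit 184)) (PT.lf (nat_lit 52972) (nat_lit 3) (nat_lit 697) (nat_lit 2) (nat_lit 183) (nat_lit 204) (nat_lit 183))) (PT.nd (nat_lit 78) (PT.lf (nat_lit 53048) (nat_lit 6) (nat_lit 698) (nat_lit 2) (nat_lit 184) (nat_lit 204) (nat_lit 182)) (PT.lf (nat_lit 53124) (nat_lit 6) (nat_lit 699) (nat_lit 2) (nat_lit 185) (nat_lit 204) (nat_lit 181)))) (PT.nd (nat_lit 156) (PT.nd (nat_lit 78) (PT.lf (nat_lit 53200) (nat_lit 6) (nat_lit 700) (nat_lit 2) (nat_lit 186) (nat_lit 204) (nat_lit 180)) (PT.lf (nat_lit 53276) (nat_lit 6) (nat_lit 701) (nat_lit 2) (nat_lit 187) (nat_lit 204) (nat_lit 179))) (PT.nd (nat_lit 78) (PT.lf (nat_lit 53352) (nat_lit 6) (nat_lit 702) (nat_lit 2) (nat_lit 188) (nat_lit 204) (nat_lit 178)) (PT.lf (nat_lit 53428) (nat_lit 6) (nat_lit 703) (nat_lit 2) (nat_lit 189) (nat_lit 204) (nat_lit 177))))))) (PT.nd (nat_lit 1170) (PT.nd (nat_lit 546) (PT.nd (nat_lit 234) (PT.nd (nat_lit 78) (PT.lf (nat_lit 53504) (nat_lit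 6) (nat_lit 704) (nat_lit 2) (nat_lit 190) (nat_lit 204) (nat_lit 176)) (PT.nd (nat_lit 78) (PT.lf (nat_lit 52440) (nat_lit 6) (nat_lit 690) (nat_lit 2) (nat_lit 191) (nat_lit 204) (nat_lit 175)) (PT.lf (nat_lit 51300) (nat_lit 6) (nat_lit 675) (nat_lit 2) (nat_lit 192) (nat_lit 204) (nat_lit 174)))) (PT.nd (nat_lit 156) (PT.nd (nat_lit 78) (PT.lf (nat_lit 50084) (nat_lit 6) (nat_lit 659) (nat_lit 2) (nat_lit 193) (nat_lit 204) (nat_lit 173)) (PT.lf (nat_lit 48792) (nat_lit 6) (nat_lit 642) (nat_lit 2) (nat_lit 194) (nat_lit 204) (nat_lit 172))) (PT.nd (nat_lit 78) (PT.lf (nat_lit 47424) (nat_lit 6) (nat_lit 624) (nat_lit 2) (nat_lit 195) (nat_lit 204) (nat_lit 171)) (PT.lf (nat_lit 45980) (nat_lit 6) (nat_lit 605) (nat_lit 2) (nat_lit 196) (nat_lit 204) (nat_lit 170))))) (PT.nd (nat_lit 312) (PT.nd (nat_lit 156) (PT.nd (nat_lit 78) (PT.lf (nat_lit 44460) (nat_lit 6) (nat_lit 585) (nat_lit 2) (nat_lit 197) (nat_lit 204) (nat_lit 169)) (PT.lf (nat_lit 42864) (nat_lit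 6) (nat_lit 564) (nat_lit 2) (nat_lit 198) (nat_lit 204) (nat_lit 168))) (PT.nd (nat_lit 78) (PT.lf (nat_lit 41192) (nat_lit 6) (nat_lit 542) (nat_lit 2) (nat_lit 199) (nat_lit 204) (nat_lit 167)) (PT.lf (nat_lit 39444) (nat_lit 6) (nat_lit 519) (nat_lit 2) (nat_lit 200) (nat_lit 204) (nat_lit 166)))) (PT.nd (nat_lit 156) (PT.nd (nat_lit 78) (PT.lf (nat_lit 37620) (nat_lit 6) (nat_lit 495) (nat_lit 2) (nat_lit 201) (nat_lit 204) (nat_lit 165)) (PT.lf (nat_lit 36480) (nat_lit 6) (nat_lit 480) (nat_lit 2) (nat_lit 202) (nat_lit 204) (nat_lit 164))) (PT.nd (nat_lit 78) (PT.lf (nat_lit 35568) (nat_lit 6) (nat_lit 468) (nat_lit 2) (nat_lit 203) (nat_lit 204) (nat_lit 163)) (PT.lf (nat_lit 34656) (nat_lit 3) (nat_lit 456) (nat_lit 0) (nat_lit 204) (nat_lit 204) (nat_lit 162)))))) (PT.nd (nat_lit 624) (PT.nd (nat_lit 312) (PT.nd (nat_lit 156) (PT.nd (nat_lit 78) (PT.lf (nat_lit 33744) (nat_lit 6) (nat_lit 444) (nat_lit 0) (nat_lit 205) (nat_lit 204) (nat_lit 161)) (PT.lf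 (nat_lit 32756) (nat_lit 6) (nat_lit 431) (nat_lit 0) (nat_lit 206) (nat_lit 204) (nat_lit 160))) (PT.nd (nat_lit 78) (PT.lf (nat_lit 31844) (nat_lit 6) (nat_lit 419) (nat_lit 0) (nat_lit 207) (nat_lit 204) (nat_lit 159)) (PT.lf (nat_lit 30932) (nat_lit 6) (nat_lit 407) (nat_lit 0) (nat_lit 208) (nat_lit 204) (nat_lit 158)))) (PT.nd (nat_lit 156) (PT.nd (nat_lit 78) (PT.lf (nat_lit 30096) (nat_lit 6) (nat_lit 396) (nat_lit 0) (nat_lit 209) (nat_lit 204) (nat_lit 157)) (PT.lf (nat_lit 29260) (nat_lit 6) (nat_lit 385) (nat_lit 0) (nat_lit 210) (nat_lit 204) (nat_lit 156))) (PT.nd (nat_lit 78) (PT.lf (nat_lit 28424) (nat_lit 6) (nat_lit 374) (nat_lit 0) (nat_lit 211) (nat_lit 204) (nat_lit 155)) (PT.lf (nat_lit 27588) (nat_lit 6) (nat_lit 363) (nat_lit 0) (nat_lit 212) (nat_lit 204) (nat_lit 154))))) (PT.nd (nat_lit 312) (PT.nd (nat_lit 156) (PT.nd (nat_lit 78) (PT.lf (nat_lit 26828) (nat_lit 6) (nat_lit 353) (nat_lit 0) (nat_lit 213) (nat_lit 204) (nat_lit 153))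 (PT.lf (nat_lit 26068) (nat_lit 6) (nat_lit 343) (nat_lit 0) (nat_lit 214) (nat_lit 204) (nat_lit 152))) (PT.nd (nat_lit 78) (PT.lf (nat_lit 25308) (nat_lit 6) (nat_lit 333) (nat_lit 0) (nat_lit 215) (nat_lit 204) (nat_lit 151)) (PT.lf (nat_lit 24548) (nat_lit 6) (nat_lit 323) (nat_lit 0) (nat_lit 216) (nat_lit 204) (nat_lit 150)))) (PT.nd (nat_lit 156) (PT.nd (nat_lit 78) (PT.lf (nat_lit 23864) (nat_lit 6) (nat_lit 314) (nat_lit 0) (nat_lit 217) (nat_lit 204) (nat_lit 149)) (PT.lf (nat_lit 23180) (nat_lit 6) (nat_lit 305) (nat_lit 0) (nat_lit 218) (nat_lit 204) (nat_lit 148))) (PT.nd (nat_lit 53586) (PT.lf (nat_lit 22496) (nat_lit 6) (nat_lit 296) (nat_lit 0) (nat_lit 219) (nat_lit 204) (nat_lit 147)) (PT.lf (nat_lit 21280) (nat_lit 6) (nat_lit 280) (nat_lit 5) (nat_lit 145) (nat_lit 205) (nat_lit 220))))))))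
noncomputable def pc41 : PT := (PT.nd (nat_lit 2340) (PT.nd (nat_lit 1170) (PT.nd (nat_lit 546) (PT.nd (nat_lit 234) (PT.nd (nat_lit 78) (PT.lf (nat_lit 21888) (nat_lit 6) (nat_lit 288) (nat_lit 5) (nat_lit 146) (nat_lit 205) (nat_lit 219)) (PT.nd (nat_lit 78) (PT.lf (nat_lit 22572) (nat_lit 6) (nat_lit 297) (nat_lit 5) (nat_lit 147) (nat_lit 205) (nat_lit 218)) (PT.lf (nat_lit 23256) (nat_lit 6) (nat_lit 306) (nat_lit 5) (nat_lit 148) (nat_lit 205) (nat_lit 217)))) (PT.nd (nat_lit 156) (PT.nd (nat_lit 78) (PT.lf (nat_lit 23940) (nat_lit 6) (nat_lit 315) (nat_lit 5) (nat_lit 149) (nat_lit 205) (nat_lit 216)) (PT.lf (nat_lit 24624) (nat_lit 6) (nat_lit 324) (nat_lit 5) (nat_lit 150) (nat_lit 205) (nat_lit 215))) (PT.nd (nat_lit 78) (PT.lf (nat_lit 25384) (nat_lit 6) (nat_lit 334) (nat_lit 5) (nat_lit 151) (nat_lit 205) (nat_lit 214)) (PT.lf (nat_lit 26144) (nat_lit 6) (nat_lit 344) (nat_lit 5) (nat_lit 152) (nat_lit 205) (nat_lit 213))))) (PT.nd (nat_lit 312)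 (PT.nd (nat_lit 156) (PT.nd (nat_lit 78) (PT.lf (nat_lit 26904) (nat_lit 6) (nat_lit 354) (nat_lit 5) (nat_lit 153) (nat_lit 205) (nat_lit 212)) (PT.lf (nat_lit 27664) (nat_lit 6) (nat_lit 364) (nat_lit 5) (nat_lit 154) (nat_lit 205) (nat_lit 211))) (PT.nd (nat_lit 78) (PT.lf (nat_lit 28500) (nat_lit 6) (nat_lit 375) (nat_lit 5) (nat_lit 155) (nat_lit 205) (nat_lit 210)) (PT.lf (nat_lit 29336) (nat_lit 6) (nat_lit 386) (nat_lit 5) (nat_lit 156) (nat_lit 205) (nat_lit 209)))) (PT.nd (nat_lit 156) (PT.nd (nat_lit 78) (PT.lf (nat_lit 30172) (nat_lit 6) (nat_lit 397) (nat_lit 5) (nat_lit 157) (nat_lit 205) (nat_lit 208)) (PT.lf (nat_lit 31008) (nat_lit 6) (nat_lit 408) (nat_lit 5) (nat_lit 158) (nat_lit 205) (nat_lit 207))) (PT.nd (nat_lit 78) (PT.lf (nat_lit 31920) (nat_lit 6) (nat_lit 420) (nat_lit 5) (nat_lit 159) (nat_lit 205) (nat_lit 206)) (PT.lf (nat_lit 32832) (nat_lit 3) (nat_lit 432) (nat_lit 4) (nat_lit 160) (nat_lit 205) (nat_lit 205)))))) (PT.nd (nat_lit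 546) (PT.nd (nat_lit 234) (PT.nd (nat_lit 78) (PT.lf (nat_lit 33744) (nat_lit 6) (nat_lit 444) (nat_lit 4) (nat_lit 161) (nat_lit 205) (nat_lit 204)) (PT.nd (nat_lit 78) (PT.lf (nat_lit 34580) (nat_lit 6) (nat_lit 455) (nat_lit 4) (nat_lit 162) (nat_lit 205) (nat_lit 203)) (PT.lf (nat_lit 35492) (nat_lit 6) (nat_lit 467) (nat_lit 4) (nat_lit 163) (nat_lit 205) (nat_lit 202)))) (PT.nd (nat_lit 156) (PT.nd (nat_lit 78) (PT.lf (nat_lit 36404) (nat_lit 6) (nat_lit 479) (nat_lit 4) (nat_lit 164) (nat_lit 205) (nat_lit 201)) (PT.lf (nat_lit 37544) (nat_lit 6) (nat_lit 494) (nat_lit 4) (nat_lit 165) (nat_lit 205) (nat_lit 200))) (PT.nd (nat_lit 78) (PT.lf (nat_lit 39368) (nat_lit 6) (nat_lit 518) (nat_lit 4) (nat_lit 166) (nat_lit 205) (nat_lit 199)) (PT.lf (nat_lit 41116) (nat_lit 6) (nat_lit 541) (nat_lit 4) (nat_lit 167) (nat_lit 205) (nat_lit 198))))) (PT.nd (nat_lit 312) (PT.nd (nat_lit 156) (PT.nd (nat_lit 78) (PT.lf (nat_lit 42788) (nat_lit 6) (nat_lit 563) (nat_lit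 4) (nat_lit 168) (nat_lit 205) (nat_lit 197)) (PT.lf (nat_lit 44384) (nat_lit 6) (nat_lit 584) (nat_lit 4) (nat_lit 169) (nat_lit 205) (nat_lit 196))) (PT.nd (nat_lit 78) (PT.lf (nat_lit 45904) (nat_lit 6) (nat_lit 604) (nat_lit 4) (nat_lit 170) (nat_lit 205) (nat_lit 195)) (PT.lf (nat_lit 47348) (nat_lit 6) (nat_lit 623) (nat_lit 4) (nat_lit 171) (nat_lit 205) (nat_lit 194)))) (PT.nd (nat_lit 156) (PT.nd (nat_lit 78) (PT.lf (nat_lit 48716) (nat_lit 6) (nat_lit 641) (nat_lit 4) (nat_lit 172) (nat_lit 205) (nat_lit 193)) (PT.lf (nat_lit 50008) (nat_lit 6) (nat_lit 658) (nat_lit 4) (nat_lit 173) (nat_lit 205) (nat_lit 192))) (PT.nd (nat_lit 78) (PT.lf (nat_lit 51224) (nat_lit 6) (nat_lit 674) (nat_lit 4) (nat_lit 174) (nat_lit 205) (nat_lit 191)) (PT.lf (nat_lit 52364) (nat_lit 6) (nat_lit 689) (nat_lit 4) (nat_lit 175) (nat_lit 205) (nat_lit 190))))))) (PT.nd (nat_lit 1170) (PT.nd (nat_lit 546) (PT.nd (nat_lit 234) (PT.nd (nat_lit 78) (PT.lf (nat_lit 52288) (nat_lit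 6) (nat_lit 688) (nat_lit 4) (nat_lit 176) (nat_lit 205) (nat_lit 189)) (PT.nd (nat_lit 78) (PT.lf (nat_lit 52212) (nat_lit 6) (nat_lit 687) (nat_lit 4) (nat_lit 177) (nat_lit 205) (nat_lit 188)) (PT.lf (nat_lit 52136) (nat_lit 6) (nat_lit 686) (nat_lit 4) (nat_lit 178) (nat_lit 205) (nat_lit 187)))) (PT.nd (nat_lit 156) (PT.nd (nat_lit 78) (PT.lf (nat_lit 52060) (nat_lit 6) (nat_lit 685) (nat_lit 4) (nat_lit 179) (nat_lit 205) (nat_lit 186)) (PT.lf (nat_lit 51984) (nat_lit 6) (nat_lit 684) (nat_lit 4) (nat_lit 180) (nat_lit 205) (nat_lit 185))) (PT.nd (nat_lit 78) (PT.lf (nat_lit 51908) (nat_lit 6) (nat_lit 683) (nat_lit 4) (nat_lit 181) (nat_lit 205) (nat_lit 184)) (PT.lf (nat_lit 51832) (nat_lit 6) (nat_lit 682) (nat_lit 4) (nat_lit 182) (nat_lit 205) (nat_lit 183))))) (PT.nd (nat_lit 312) (PT.nd (nat_lit 156) (PT.nd (nat_lit 78) (PT.lf (nat_lit 51832) (nat_lit 6) (nat_lit 682) (nat_lit 2) (nat_lit 183) (nat_lit 205) (nat_lit 182)) (PT.lf (nat_lit 51908) (nat_lit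 6) (nat_lit 683) (nat_lit 2) (nat_lit 184) (nat_lit 205) (nat_lit 181))) (PT.nd (nat_lit 78) (PT.lf (nat_lit 51984) (nat_lit 6) (nat_lit 684) (nat_lit 2) (nat_lit 185) (nat_lit 205) (nat_lit 180)) (PT.lf (nat_lit 52060) (nat_lit 6) (nat_lit 685) (nat_lit 2) (nat_lit 186) (nat_lit 205) (nat_lit 179)))) (PT.nd (nat_lit 156) (PT.nd (nat_lit 78) (PT.lf (nat_lit 52136) (nat_lit 6) (nat_lit 686) (nat_lit 2) (nat_lit 187) (nat_lit 205) (nat_lit 178)) (PT.lf (nat_lit 52212) (nat_lit 6) (nat_lit 687) (nat_lit 2) (nat_lit 188) (nat_lit 205) (nat_lit 177))) (PT.nd (nat_lit 78) (PT.lf (nat_lit 52288) (nat_lit 6) (nat_lit 688) (nat_lit 2) (nat_lit 189) (nat_lit 205) (nat_lit 176)) (PT.lf (nat_lit 52364) (nat_lit 6) (nat_lit 689) (nat_lit 2) (nat_lit 190) (nat_lit 205) (nat_lit 175)))))) (PT.nd (nat_lit 624) (PT.nd (nat_lit 312) (PT.nd (nat_lit 156) (PT.nd (nat_lit 78) (PT.lf (nat_lit 51224) (nat_lit 6) (nat_lit 674) (nat_lit 2) (nat_lit 191) (nat_lit 205) (nat_lit 174)) (PT.lf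 (nat_lit 50008) (nat_lit 6) (nat_lit 658) (nat_lit 2) (nat_lit 192) (nat_lit 205) (nat_lit 173))) (PT.nd (nat_lit 78) (PT.lf (nat_lit 48716) (nat_lit 6) (nat_lit 641) (nat_lit 2) (nat_lit 193) (nat_lit 205) (nat_lit 172)) (PT.lf (nat_lit 47348) (nat_lit 6) (nat_lit 623) (nat_lit 2) (nat_lit 194) (nat_lit 205) (nat_lit 171)))) (PT.nd (nat_lit 156) (PT.nd (nat_lit 78) (PT.lf (nat_lit 45904) (nat_lit 6) (nat_lit 604) (nat_lit 2) (nat_lit 195) (nat_lit 205) (nat_lit 170)) (PT.lf (nat_lit 44384) (nat_lit 6) (nat_lit 584) (nat_lit 2) (nat_lit 196) (nat_lit 205) (nat_lit 169))) (PT.nd (nat_lit 78) (PT.lf (nat_lit 42788) (nat_lit 6) (nat_lit 563) (nat_lit 2) (nat_lit 197) (nat_lit 205) (nat_lit 168)) (PT.lf (nat_lit 41116) (nat_lit 6) (nat_lit 541) (nat_lit 2) (nat_lit 198) (nat_lit 205) (nat_lit 167))))) (PT.nd (nat_lit 312) (PT.nd (nat_lit 156) (PT.nd (nat_lit 78) (PT.lf (nat_lit 39368) (nat_lit 6) (nat_lit 518) (nat_lit 2) (nat_lit 199) (nat_lit 205) (nat_lit 166))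 (PT.lf (nat_lit 37544) (nat_lit 6) (nat_lit 494) (nat_lit 2) (nat_lit 200) (nat_lit 205) (nat_lit 165))) (PT.nd (nat_lit 78) (PT.lf (nat_lit 36404) (nat_lit 6) (nat_lit 479) (nat_lit 2) (nat_lit 201) (nat_lit 205) (nat_lit 164)) (PT.lf (nat_lit 35492) (nat_lit 6) (nat_lit 467) (nat_lit 2) (nat_lit 202) (nat_lit 205) (nat_lit 163)))) (PT.nd (nat_lit 156) (PT.nd (nat_lit 78) (PT.lf (nat_lit 34580) (nat_lit 6) (nat_lit 455) (nat_lit 2) (nat_lit 203) (nat_lit 205) (nat_lit 162)) (PT.lf (nat_lit 33744) (nat_lit 6) (nat_lit 444) (nat_lit 2) (nat_lit 204) (nat_lit 205) (nat_lit 161))) (PT.nd (nat_lit 78) (PT.lf (nat_lit 32832) (nat_lit 3) (nat_lit 432) (nat_lit 0) (nat_lit 205) (nat_lit 205) (nat_lit 160)) (PT.lf (nat_lit 31920) (nat_lit 6) (nat_lit 420) (nat_lit 0) (nat_lit 206) (nat_lit 205) (nat_lit 159))))))))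
noncomputable def pc42 : PT := (PT.nd (nat_lit 55692) (PT.nd (nat_lit 54522) (PT.nd (nat_lit 546) (PT.nd (nat_lit 234) (PT.nd (nat_lit 78) (PT.lf (nat_lit 31008) (nat_lit 6) (nat_lit 408) (nat_lit 0) (nat_lit 207) (nat_lit 205) (nat_lit 158)) (PT.nd (nat_lit 78) (PT.lf (nat_lit 30172) (nat_lit 6) (nat_lit 397) (nat_lit 0) (nat_lit 208) (nat_lit 205) (nat_lit 157)) (PT.lf (nat_lit 29336) (nat_lit 6) (nat_lit 386) (nat_lit 0) (nat_lit 209) (nat_lit 205) (nat_lit 156)))) (PT.nd (nat_lit 156) (PT.nd (nat_lit 78) (PT.lf (nat_lit 28500) (nat_lit 6) (nat_lit 375) (nat_lit 0) (nat_lit 210) (nat_lit 205) (nat_lit 155)) (PT.lf (nat_lit 27664) (nat_lit 6) (nat_lit 364) (nat_lit 0) (nat_lit 211) (nat_lit 205) (nat_lit 154))) (PT.nd (nat_lit 78) (PT.lf (nat_lit 26904) (nat_lit 6) (nat_lit 354) (nat_lit 0) (nat_lit 212) (nat_lit 205) (nat_lit 153)) (PT.lf (nat_lit 26144) (nat_lit 6) (nat_lit 344) (nat_lit 0) (nat_lit 213) (nat_lit 205) (nat_lit 152))))) (PT.nd (nat_lit 312)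 (PT.nd (nat_lit 156) (PT.nd (nat_lit 78) (PT.lf (nat_lit 25384) (nat_lit 6) (nat_lit 334) (nat_lit 0) (nat_lit 214) (nat_lit 205) (nat_lit 151)) (PT.lf (nat_lit 24624) (nat_lit 6) (nat_lit 324) (nat_lit 0) (nat_lit 215) (nat_lit 205) (nat_lit 150))) (PT.nd (nat_lit 78) (PT.lf (nat_lit 23940) (nat_lit 6) (nat_lit 315) (nat_lit 0) (nat_lit 216) (nat_lit 205) (nat_lit 149)) (PT.lf (nat_lit 23256) (nat_lit 6) (nat_lit 306) (nat_lit 0) (nat_lit 217) (nat_lit 205) (nat_lit 148)))) (PT.nd (nat_lit 156) (PT.nd (nat_lit 78) (PT.lf (nat_lit 22572) (nat_lit 6) (nat_lit 297) (nat_lit 0) (nat_lit 218) (nat_lit 205) (nat_lit 147)) (PT.lf (nat_lit 21888) (nat_lit 6) (nat_lit 288) (nat_lit 0) (nat_lit 219) (nat_lit 205) (nat_lit 146))) (PT.nd (nat_lit 53430) (PT.lf (nat_lit 21280) (nat_lit 6) (nat_lit 280) (nat_lit 0) (nat_lit 220) (nat_lit 205) (nat_lit 145)) (PT.lf (nat_lit 20672) (nat_lit 6) (nat_lit 272) (nat_lit 5) (nat_lit 144) (nat_lit 206) (nat_lit 220)))))) (PT.nd (nat_lit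 546) (PT.nd (nat_lit 234) (PT.nd (nat_lit 78) (PT.lf (nat_lit 21356) (nat_lit 6) (nat_lit 281) (nat_lit 5) (nat_lit 145) (nat_lit 206) (nat_lit 219)) (PT.nd (nat_lit 78) (PT.lf (nat_lit 21964) (nat_lit 6) (nat_lit 289) (nat_lit 5) (nat_lit 146) (nat_lit 206) (nat_lit 218)) (PT.lf (nat_lit 22648) (nat_lit 6) (nat_lit 298) (nat_lit 5) (nat_lit 147) (nat_lit 206) (nat_lit 217)))) (PT.nd (nat_lit 156) (PT.nd (nat_lit 78) (PT.lf (nat_lit 23332) (nat_lit 6) (nat_lit 307) (nat_lit 5) (nat_lit 148) (nat_lit 206) (nat_lit 216)) (PT.lf (nat_lit 24016) (nat_lit 6) (nat_lit 316) (nat_lit 5) (nat_lit 149) (nat_lit 206) (nat_lit 215))) (PT.nd (nat_lit 78) (PT.lf (nat_lit 24700) (nat_lit 6) (nat_lit 325) (nat_lit 5) (nat_lit 150) (nat_lit 206) (nat_lit 214)) (PT.lf (nat_lit 25460) (nat_lit 6) (nat_lit 335) (nat_lit 5) (nat_lit 151) (nat_lit 206) (nat_lit 213))))) (PT.nd (nat_lit 312) (PT.nd (nat_lit 156) (PT.nd (nat_lit 78) (PT.lf (nat_lit 26220) (nat_lit 6) (nat_lit 345) (nat_lit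 5) (nat_lit 152) (nat_lit 206) (nat_lit 212)) (PT.lf (nat_lit 26980) (nat_lit 6) (nat_lit 355) (nat_lit 5) (nat_lit 153) (nat_lit 206) (nat_lit 211))) (PT.nd (nat_lit 78) (PT.lf (nat_lit 27740) (nat_lit 6) (nat_lit 365) (nat_lit 5) (nat_lit 154) (nat_lit 206) (nat_lit 210)) (PT.lf (nat_lit 28576) (nat_lit 6) (nat_lit 376) (nat_lit 5) (nat_lit 155) (nat_lit 206) (nat_lit 209)))) (PT.nd (nat_lit 156) (PT.nd (nat_lit 78) (PT.lf (nat_lit 29412) (nat_lit 6) (nat_lit 387) (nat_lit 5) (nat_lit 156) (nat_lit 206) (nat_lit 208)) (PT.lf (nat_lit 30248) (nat_lit 6) (nat_lit 398) (nat_lit 5) (nat_lit 157) (nat_lit 206) (nat_lit 207))) (PT.nd (nat_lit 78) (PT.lf (nat_lit 31084) (nat_lit 3) (nat_lit 409) (nat_lit 4) (nat_lit 158) (nat_lit 206) (nat_lit 206)) (PT.lf (nat_lit 31920) (nat_lit 6) (nat_lit 420) (nat_lit 4) (nat_lit 159) (nat_lit 206) (nat_lit 205))))))) (PT.nd (nat_lit 1170) (PT.nd (nat_lit 546) (PT.nd (nat_lit 234) (PT.nd (nat_lit 78) (PT.lf (nat_lit 32756) (nat_lit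 6) (nat_lit 431) (nat_lit 4) (nat_lit 160) (nat_lit 206) (nat_lit 204)) (PT.nd (nat_lit 78) (PT.lf (nat_lit 33668) (nat_lit 6) (nat_lit 443) (nat_lit 4) (nat_lit 161) (nat_lit 206) (nat_lit 203)) (PT.lf (nat_lit 34504) (nat_lit 6) (nat_lit 454) (nat_lit 4) (nat_lit 162) (nat_lit 206) (nat_lit 202)))) (PT.nd (nat_lit 156) (PT.nd (nat_lit 78) (PT.lf (nat_lit 35416) (nat_lit 6) (nat_lit 466) (nat_lit 4) (nat_lit 163) (nat_lit 206) (nat_lit 201)) (PT.lf (nat_lit 36328) (nat_lit 6) (nat_lit 478) (nat_lit 4) (nat_lit 164) (nat_lit 206) (nat_lit 200))) (PT.nd (nat_lit 78) (PT.lf (nat_lit 37468) (nat_lit 6) (nat_lit 493) (nat_lit 4) (nat_lit 165) (nat_lit 206) (nat_lit 199)) (PT.lf (nat_lit 39292) (nat_lit 6) (nat_lit 517) (nat_lit 4) (nat_lit 166) (nat_lit 206) (nat_lit 198))))) (PT.nd (nat_lit 312) (PT.nd (nat_lit 156) (PT.nd (nat_lit 78) (PT.lf (nat_lit 41040) (nat_lit 6) (nat_lit 540) (nat_lit 4) (nat_lit 167) (nat_lit 206) (nat_lit 197)) (PT.lf (nat_lit 42712) (nat_lit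 6) (nat_lit 562) (nat_lit 4) (nat_lit 168) (nat_lit 206) (nat_lit 196))) (PT.nd (nat_lit 78) (PT.lf (nat_lit 44308) (nat_lit 6) (nat_lit 583) (nat_lit 4) (nat_lit 169) (nat_lit 206) (nat_lit 195)) (PT.lf (nat_lit 45828) (nat_lit 6) (nat_lit 603) (nat_lit 4) (nat_lit 170) (nat_lit 206) (nat_lit 194)))) (PT.nd (nat_lit 156) (PT.nd (nat_lit 78) (PT.lf (nat_lit 47272) (nat_lit 6) (nat_lit 622) (nat_lit 4) (nat_lit 171) (nat_lit 206) (nat_lit 193)) (PT.lf (nat_lit 48640) (nat_lit 6) (nat_lit 640) (nat_lit 4) (nat_lit 172) (nat_lit 206) (nat_lit 192))) (PT.nd (nat_lit 78) (PT.lf (nat_lit 49932) (nat_lit 6) (nat_lit 657) (nat_lit 4) (nat_lit 173) (nat_lit 206) (nat_lit 191)) (PT.lf (nat_lit 51148) (nat_lit 6) (nat_lit 673) (nat_lit 4) (nat_lit 174) (nat_lit 206) (nat_lit 190)))))) (PT.nd (nat_lit 624) (PT.nd (nat_lit 312) (PT.nd (nat_lit 156) (PT.nd (nat_lit 78) (PT.lf (nat_lit 51072) (nat_lit 6) (nat_lit 672) (nat_lit 4) (nat_lit 175) (nat_lit 206) (nat_lit 189)) (PT.lf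 (nat_lit 50996) (nat_lit 6) (nat_lit 671) (nat_lit 4) (nat_lit 176) (nat_lit 206) (nat_lit 188))) (PT.nd (nat_lit 78) (PT.lf (nat_lit 50920) (nat_lit 6) (nat_lit 670) (nat_lit 4) (nat_lit 177) (nat_lit 206) (nat_lit 187)) (PT.lf (nat_lit 50844) (nat_lit 6) (nat_lit 669) (nat_lit 4) (nat_lit 178) (nat_lit 206) (nat_lit 186)))) (PT.nd (nat_lit 156) (PT.nd (nat_lit 78) (PT.lf (nat_lit 50768) (nat_lit 6) (nat_lit 668) (nat_lit 4) (nat_lit 179) (nat_lit 206) (nat_lit 185)) (PT.lf (nat_lit 50692) (nat_lit 6) (nat_lit 667) (nat_lit 4) (nat_lit 180) (nat_lit 206) (nat_lit 184))) (PT.nd (nat_lit 78) (PT.lf (nat_lit 50616) (nat_lit 6) (nat_lit 666) (nat_lit 4) (nat_lit 181) (nat_lit 206) (nat_lit 183)) (PT.lf (nat_lit 50540) (nat_lit 3) (nat_lit 665) (nat_lit 2) (nat_lit 182) (nat_lit 206) (nat_lit 182))))) (PT.nd (nat_lit 312) (PT.nd (nat_lit 156) (PT.nd (nat_lit 78) (PT.lf (nat_lit 50616) (nat_lit 6) (nat_lit 666) (nat_lit 2) (nat_lit 183) (nat_lit 206) (nat_lit 181))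 (PT.lf (nat_lit 50692) (nat_lit 6) (nat_lit 667) (nat_lit 2) (nat_lit 184) (nat_lit 206) (nat_lit 180))) (PT.nd (nat_lit 78) (PT.lf (nat_lit 50768) (nat_lit 6) (nat_lit 668) (nat_lit 2) (nat_lit 185) (nat_lit 206) (nat_lit 179)) (PT.lf (nat_lit 50844) (nat_lit 6) (nat_lit 669) (nat_lit 2) (nat_lit 186) (nat_lit 206) (nat_lit 178)))) (PT.nd (nat_lit 156) (PT.nd (nat_lit 78) (PT.lf (nat_lit 50920) (nat_lit 6) (nat_lit 670) (nat_lit 2) (nat_lit 187) (nat_lit 206) (nat_lit 177)) (PT.lf (nat_lit 50996) (nat_lit 6) (nat_lit 671) (nat_lit 2) (nat_lit 188) (nat_lit 206) (nat_lit 176))) (PT.nd (nat_lit 78) (PT.lf (nat_lit 51072) (nat_lit 6) (nat_lit 672) (nat_lit 2) (nat_lit 189) (nat_lit 206) (nat_lit 175)) (PT.lf (nat_lit 51148) (nat_lit 6) (nat_lit 673) (nat_lit 2) (nat_lit 190) (nat_lit 206) (nat_lit 174))))))))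
noncomputable def pc43 : PT := (PT.nd (nat_lit 55614) (PT.nd (nat_lit 1170) (PT.nd (nat_lit 546) (PT.nd (nat_lit 234) (PT.nd (nat_lit 78) (PT.lf (nat_lit 49932) (nat_lit 6) (nat_lit 657) (nat_lit 2) (nat_lit 191) (nat_lit 206) (nat_lit 173)) (PT.nd (nat_lit 78) (PT.lf (nat_lit 48640) (nat_lit 6) (nat_lit 640) (nat_lit 2) (nat_lit 192) (nat_lit 206) (nat_lit 172)) (PT.lf (nat_lit 47272) (nat_lit 6) (nat_lit 622) (nat_lit 2) (nat_lit 193) (nat_lit 206) (nat_lit 171)))) (PT.nd (nat_lit 156) (PT.nd (nat_lit 78) (PT.lf (nat_lit 45828) (nat_lit 6) (nat_lit 603) (nat_lit 2) (nat_lit 194) (nat_lit 206) (nat_lit 170)) (PT.lf (nat_lit 44308) (nat_lit 6) (nat_lit 583) (nat_lit 2) (nat_lit 195) (nat_lit 206) (nat_lit 169))) (PT.nd (nat_lit 78) (PT.lf (nat_lit 42712) (nat_lit 6) (nat_lit 562) (nat_lit 2) (nat_lit 196) (nat_lit 206) (nat_lit 168)) (PT.lf (nat_lit 41040) (nat_lit 6) (nat_lit 540) (nat_lit 2) (nat_lit 197) (nat_lit 206) (nat_lit 167))))) (PT.nd (nat_lit 312)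 (PT.nd (nat_lit 156) (PT.nd (nat_lit 78) (PT.lf (nat_lit 39292) (nat_lit 6) (nat_lit 517) (nat_lit 2) (nat_lit 198) (nat_lit 206) (nat_lit 166)) (PT.lf (nat_lit 37468) (nat_lit 6) (nat_lit 493) (nat_lit 2) (nat_lit 199) (nat_lit 206) (nat_lit 165))) (PT.nd (nat_lit 78) (PT.lf (nat_lit 36328) (nat_lit 6) (nat_lit 478) (nat_lit 2) (nat_lit 200) (nat_lit 206) (nat_lit 164)) (PT.lf (nat_lit 35416) (nat_lit 6) (nat_lit 466) (nat_lit 2) (nat_lit 201) (nat_lit 206) (nat_lit 163)))) (PT.nd (nat_lit 156) (PT.nd (nat_lit 78) (PT.lf (nat_lit 34504) (nat_lit 6) (nat_lit 454) (nat_lit 2) (nat_lit 202) (nat_lit 206) (nat_lit 162)) (PT.lf (nat_lit 33668) (nat_lit 6) (nat_lit 443) (nat_lit 2) (nat_lit 203) (nat_lit 206) (nat_lit 161))) (PT.nd (nat_lit 78) (PT.lf (nat_lit 32756) (nat_lit 6) (nat_lit 431) (nat_lit 2) (nat_lit 204) (nat_lit 206) (nat_lit 160)) (PT.lf (nat_lit 31920) (nat_lit 6) (nat_lit 420) (nat_lit 2) (nat_lit 205) (nat_lit 206) (nat_lit 159)))))) (PT.nd (nat_lit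 624) (PT.nd (nat_lit 312) (PT.nd (nat_lit 156) (PT.nd (nat_lit 78) (PT.lf (nat_lit 31084) (nat_lit 3) (nat_lit 409) (nat_lit 0) (nat_lit 206) (nat_lit 206) (nat_lit 158)) (PT.lf (nat_lit 30248) (nat_lit 6) (nat_lit 398) (nat_lit 0) (nat_lit 207) (nat_lit 206) (nat_lit 157))) (PT.nd (nat_lit 78) (PT.lf (nat_lit 29412) (nat_lit 6) (nat_lit 387) (nat_lit 0) (nat_lit 208) (nat_lit 206) (nat_lit 156)) (PT.lf (nat_lit 28576) (nat_lit 6) (nat_lit 376) (nat_lit 0) (nat_lit 209) (nat_lit 206) (nat_lit 155)))) (PT.nd (nat_lit 156) (PT.nd (nat_lit 78) (PT.lf (nat_lit 27740) (nat_lit 6) (nat_lit 365) (nat_lit 0) (nat_lit 210) (nat_lit 206) (nat_lit 154)) (PT.lf (nat_lit 26980) (nat_lit 6) (nat_lit 355) (nat_lit 0) (nat_lit 211) (nat_lit 206) (nat_lit 153))) (PT.nd (nat_lit 78) (PT.lf (nat_lit 26220) (nat_lit 6) (nat_lit 345) (nat_lit 0) (nat_lit 212) (nat_lit 206) (nat_lit 152)) (PT.lf (nat_lit 25460) (nat_lit 6) (nat_lit 335) (nat_lit 0) (nat_lit 213) (nat_lit 206) (nat_lit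 151))))) (PT.nd (nat_lit 312) (PT.nd (nat_lit 156) (PT.nd (nat_lit 78) (PT.lf (nat_lit 24700) (nat_lit 6) (nat_lit 325) (nat_lit 0) (nat_lit 214) (nat_lit 206) (nat_lit 150)) (PT.lf (nat_lit 24016) (nat_lit 6) (nat_lit 316) (nat_lit 0) (nat_lit 215) (nat_lit 206) (nat_lit 149))) (PT.nd (nat_lit 78) (PT.lf (nat_lit 23332) (nat_lit 6) (nat_lit 307) (nat_lit 0) (nat_lit 216) (nat_lit 206) (nat_lit 148)) (PT.lf (nat_lit 22648) (nat_lit 6) (nat_lit 298) (nat_lit 0) (nat_lit 217) (nat_lit 206) (nat_lit 147)))) (PT.nd (nat_lit 156) (PT.nd (nat_lit 78) (PT.lf (nat_lit 21964) (nat_lit 6) (nat_lit 289) (nat_lit 0) (nat_lit 218) (nat_lit 206) (nat_lit 146)) (PT.lf (nat_lit 21356) (nat_lit 6) (nat_lit 281) (nat_lit 0) (nat_lit 219) (nat_lit 206) (nat_lit 145))) (PT.nd (nat_lit 53274) (PT.lf (nat_lit 20672) (nat_lit 6) (nat_lit 272) (nat_lit 0) (nat_lit 220) (nat_lit 206) (nat_lit 144)) (PT.lf (nat_lit 19532) (nat_lit 6) (nat_lit 257) (nat_lit 5) (nat_lit 142) (nat_lit 207)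 (nat_lit 221))))))) (PT.nd (nat_lit 1170) (PT.nd (nat_lit 546) (PT.nd (nat_lit 234) (PT.nd (nat_lit 78) (PT.lf (nat_lit 20140) (nat_lit 6) (nat_lit 265) (nat_lit 5) (nat_lit 143) (nat_lit 207) (nat_lit 220)) (PT.nd (nat_lit 78) (PT.lf (nat_lit 20748) (nat_lit 6) (nat_lit 273) (nat_lit 5) (nat_lit 144) (nat_lit 207) (nat_lit 219)) (PT.lf (nat_lit 21432) (nat_lit 6) (nat_lit 282) (nat_lit 5) (nat_lit 145) (nat_lit 207) (nat_lit 218)))) (PT.nd (nat_lit 156) (PT.nd (nat_lit 78) (PT.lf (nat_lit 22040) (nat_lit 6) (nat_lit 290) (nat_lit 5) (nat_lit 146) (nat_lit 207) (nat_lit 217)) (PT.lf (nat_lit 22724) (nat_lit 6) (nat_lit 299) (nat_lit 5) (nat_lit 147) (nat_lit 207) (nat_lit 216))) (PT.nd (nat_lit 78) (PT.lf (nat_lit 23408) (nat_lit 6) (nat_lit 308) (nat_lit 5) (nat_lit 148) (nat_lit 207) (nat_lit 215)) (PT.lf (nat_lit 24092) (nat_lit 6) (nat_lit 317) (nat_lit 5) (nat_lit 149) (nat_lit 207) (nat_lit 214))))) (PT.nd (nat_lit 312) (PT.nd (nat_lit 156) (PT.nd (nat_lit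 78) (PT.lf (nat_lit 24776) (nat_lit 6) (nat_lit 326) (nat_lit 5) (nat_lit 150) (nat_lit 207) (nat_lit 213)) (PT.lf (nat_lit 25536) (nat_lit 6) (nat_lit 336) (nat_lit 5) (nat_lit 151) (nat_lit 207) (nat_lit 212))) (PT.nd (nat_lit 78) (PT.lf (nat_lit 26296) (nat_lit 6) (nat_lit 346) (nat_lit 5) (nat_lit 152) (nat_lit 207) (nat_lit 211)) (PT.lf (nat_lit 27056) (nat_lit 6) (nat_lit 356) (nat_lit 5) (nat_lit 153) (nat_lit 207) (nat_lit 210)))) (PT.nd (nat_lit 156) (PT.nd (nat_lit 78) (PT.lf (nat_lit 27816) (nat_lit 6) (nat_lit 366) (nat_lit 5) (nat_lit 154) (nat_lit 207) (nat_lit 209)) (PT.lf (nat_lit 28652) (nat_lit 6) (nat_lit 377) (nat_lit 5) (nat_lit 155) (nat_lit 207) (nat_lit 208))) (PT.nd (nat_lit 78) (PT.lf (nat_lit 29488) (nat_lit 3) (nat_lit 388) (nat_lit 4) (nat_lit 156) (nat_lit 207) (nat_lit 207)) (PT.lf (nat_lit 30248) (nat_lit 6) (nat_lit 398) (nat_lit 4) (nat_lit 157) (nat_lit 207) (nat_lit 206)))))) (PT.nd (nat_lit 624) (PT.nd (nat_lit 312) (PT.nd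 (nat_lit 156) (PT.nd (nat_lit 78) (PT.lf (nat_lit 31008) (nat_lit 6) (nat_lit 408) (nat_lit 4) (nat_lit 158) (nat_lit 207) (nat_lit 205)) (PT.lf (nat_lit 31844) (nat_lit 6) (nat_lit 419) (nat_lit 4) (nat_lit 159) (nat_lit 207) (nat_lit 204))) (PT.nd (nat_lit 78) (PT.lf (nat_lit 32680) (nat_lit 6) (nat_lit 430) (nat_lit 4) (nat_lit 160) (nat_lit 207) (nat_lit 203)) (PT.lf (nat_lit 33592) (nat_lit 6) (nat_lit 442) (nat_lit 4) (nat_lit 161) (nat_lit 207) (nat_lit 202)))) (PT.nd (nat_lit 156) (PT.nd (nat_lit 78) (PT.lf (nat_lit 34428) (nat_lit 6) (nat_lit 453) (nat_lit 4) (nat_lit 162) (nat_lit 207) (nat_lit 201)) (PT.lf (nat_lit 35340) (nat_lit 6) (nat_lit 465) (nat_lit 4) (nat_lit 163) (nat_lit 207) (nat_lit 200))) (PT.nd (nat_lit 78) (PT.lf (nat_lit 36252) (nat_lit 6) (nat_lit 477) (nat_lit 4) (nat_lit 164) (nat_lit 207) (nat_lit 199)) (PT.lf (nat_lit 37392) (nat_lit 6) (nat_lit 492) (nat_lit 4) (nat_lit 165) (nat_lit 207) (nat_lit 198))))) (PT.nd (nat_lit 312)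 (PT.nd (nat_lit 156) (PT.nd (nat_lit 78) (PT.lf (nat_lit 39216) (nat_lit 6) (nat_lit 516) (nat_lit 4) (nat_lit 166) (nat_lit 207) (nat_lit 197)) (PT.lf (nat_lit 40964) (nat_lit 6) (nat_lit 539) (nat_lit 4) (nat_lit 167) (nat_lit 207) (nat_lit 196))) (PT.nd (nat_lit 78) (PT.lf (nat_lit 42636) (nat_lit 6) (nat_lit 561) (nat_lit 4) (nat_lit 168) (nat_lit 207) (nat_lit 195)) (PT.lf (nat_lit 44232) (nat_lit 6) (nat_lit 582) (nat_lit 4) (nat_lit 169) (nat_lit 207) (nat_lit 194)))) (PT.nd (nat_lit 156) (PT.nd (nat_lit 78) (PT.lf (nat_lit 45752) (nat_lit 6) (nat_lit 602) (nat_lit 4) (nat_lit 170) (nat_lit 207) (nat_lit 193)) (PT.lf (nat_lit 47196) (nat_lit 6) (nat_lit 621) (nat_lit 4) (nat_lit 171) (nat_lit 207) (nat_lit 192))) (PT.nd (nat_lit 78) (PT.lf (nat_lit 48564) (nat_lit 6) (nat_lit 639) (nat_lit 4) (nat_lit 172) (nat_lit 207) (nat_lit 191)) (PT.lf (nat_lit 49856) (nat_lit 6) (nat_lit 656) (nat_lit 4) (nat_lit 173) (nat_lit 207) (nat_lit 190))))))))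
noncomputable def pc44 : PT := (PT.nd (nat_lit 2340) (PT.nd (nat_lit 1170) (PT.nd (nat_lit 546) (PT.nd (nat_lit 234) (PT.nd (nat_lit 78) (PT.lf (nat_lit 49780) (nat_lit 6) (nat_lit 655) (nat_lit 4) (nat_lit 174) (nat_lit 207) (nat_lit 189)) (PT.nd (nat_lit 78) (PT.lf (nat_lit 49704) (nat_lit 6) (nat_lit 654) (nat_lit 4) (nat_lit 175) (nat_lit 207) (nat_lit 188)) (PT.lf (nat_lit 49628) (nat_lit 6) (nat_lit 653) (nat_lit 4) (nat_lit 176) (nat_lit 207) (nat_lit 187)))) (PT.nd (nat_lit 156) (PT.nd (nat_lit 78) (PT.lf (nat_lit 49552) (nat_lit 6) (nat_lit 652) (nat_lit 4) (nat_lit 177) (nat_lit 207) (nat_lit 186)) (PT.lf (nat_lit 49476) (nat_lit 6) (nat_lit 651) (nat_lit 4) (nat_lit 178) (nat_lit 207) (nat_lit 185))) (PT.nd (nat_lit 78) (PT.lf (nat_lit 49400) (nat_lit 6) (nat_lit 650) (nat_lit 4) (nat_lit 179) (nat_lit 207) (nat_lit 184)) (PT.lf (nat_lit 49324) (nat_lit 6) (nat_lit 649) (nat_lit 4) (nat_lit 180) (nat_lit 207) (nat_lit 183))))) (PT.nd (nat_lit 312)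 (PT.nd (nat_lit 156) (PT.nd (nat_lit 78) (PT.lf (nat_lit 49248) (nat_lit 6) (nat_lit 648) (nat_lit 4) (nat_lit 181) (nat_lit 207) (nat_lit 182)) (PT.lf (nat_lit 49248) (nat_lit 6) (nat_lit 648) (nat_lit 2) (nat_lit 182) (nat_lit 207) (nat_lit 181))) (PT.nd (nat_lit 78) (PT.lf (nat_lit 49324) (nat_lit 6) (nat_lit 649) (nat_lit 2) (nat_lit 183) (nat_lit 207) (nat_lit 180)) (PT.lf (nat_lit 49400) (nat_lit 6) (nat_lit 650) (nat_lit 2) (nat_lit 184) (nat_lit 207) (nat_lit 179)))) (PT.nd (nat_lit 156) (PT.nd (nat_lit 78) (PT.lf (nat_lit 49476) (nat_lit 6) (nat_lit 651) (nat_lit 2) (nat_lit 185) (nat_lit 207) (nat_lit 178)) (PT.lf (nat_lit 49552) (nat_lit 6) (nat_lit 652) (nat_lit 2) (nat_lit 186) (nat_lit 207) (nat_lit 177))) (PT.nd (nat_lit 78) (PT.lf (nat_lit 49628) (nat_lit 6) (nat_lit 653) (nat_lit 2) (nat_lit 187) (nat_lit 207) (nat_lit 176)) (PT.lf (nat_lit 49704) (nat_lit 6) (nat_lit 654) (nat_lit 2) (nat_lit 188) (nat_lit 207) (nat_lit 175)))))) (PT.nd (nat_lit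 546) (PT.nd (nat_lit 234) (PT.nd (nat_lit 78) (PT.lf (nat_lit 49780) (nat_lit 6) (nat_lit 655) (nat_lit 2) (nat_lit 189) (nat_lit 207) (nat_lit 174)) (PT.nd (nat_lit 78) (PT.lf (nat_lit 49856) (nat_lit 6) (nat_lit 656) (nat_lit 2) (nat_lit 190) (nat_lit 207) (nat_lit 173)) (PT.lf (nat_lit 48564) (nat_lit 6) (nat_lit 639) (nat_lit 2) (nat_lit 191) (nat_lit 207) (nat_lit 172)))) (PT.nd (nat_lit 156) (PT.nd (nat_lit 78) (PT.lf (nat_lit 47196) (nat_lit 6) (nat_lit 621) (nat_lit 2) (nat_lit 192) (nat_lit 207) (nat_lit 171)) (PT.lf (nat_lit 45752) (nat_lit 6) (nat_lit 602) (nat_lit 2) (nat_lit 193) (nat_lit 207) (nat_lit 170))) (PT.nd (nat_lit 78) (PT.lf (nat_lit 44232) (nat_lit 6) (nat_lit 582) (nat_lit 2) (nat_lit 194) (nat_lit 207) (nat_lit 169)) (PT.lf (nat_lit 42636) (nat_lit 6) (nat_lit 561) (nat_lit 2) (nat_lit 195) (nat_lit 207) (nat_lit 168))))) (PT.nd (nat_lit 312) (PT.nd (nat_lit 156) (PT.nd (nat_lit 78) (PT.lf (nat_lit 40964) (nat_lit 6) (nat_lit 539) (nat_lit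 2) (nat_lit 196) (nat_lit 207) (nat_lit 167)) (PT.lf (nat_lit 39216) (nat_lit 6) (nat_lit 516) (nat_lit 2) (nat_lit 197) (nat_lit 207) (nat_lit 166))) (PT.nd (nat_lit 78) (PT.lf (nat_lit 37392) (nat_lit 6) (nat_lit 492) (nat_lit 2) (nat_lit 198) (nat_lit 207) (nat_lit 165)) (PT.lf (nat_lit 36252) (nat_lit 6) (nat_lit 477) (nat_lit 2) (nat_lit 199) (nat_lit 207) (nat_lit 164)))) (PT.nd (nat_lit 156) (PT.nd (nat_lit 78) (PT.lf (nat_lit 35340) (nat_lit 6) (nat_lit 465) (nat_lit 2) (nat_lit 200) (nat_lit 207) (nat_lit 163)) (PT.lf (nat_lit 34428) (nat_lit 6) (nat_lit 453) (nat_lit 2) (nat_lit 201) (nat_lit 207) (nat_lit 162))) (PT.nd (nat_lit 78) (PT.lf (nat_lit 33592) (nat_lit 6) (nat_lit 442) (nat_lit 2) (nat_lit 202) (nat_lit 207) (nat_lit 161)) (PT.lf (nat_lit 32680) (nat_lit 6) (nat_lit 430) (nat_lit 2) (nat_lit 203) (nat_lit 207) (nat_lit 160))))))) (PT.nd (nat_lit 1170) (PT.nd (nat_lit 546) (PT.nd (nat_lit 234) (PT.nd (nat_lit 78) (PT.lf (nat_lit 31844) (nat_lit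 6) (nat_lit 419) (nat_lit 2) (nat_lit 204) (nat_lit 207) (nat_lit 159)) (PT.nd (nat_lit 78) (PT.lf (nat_lit 31008) (nat_lit 6) (nat_lit 408) (nat_lit 2) (nat_lit 205) (nat_lit 207) (nat_lit 158)) (PT.lf (nat_lit 30248) (nat_lit 6) (nat_lit 398) (nat_lit 2) (nat_lit 206) (nat_lit 207) (nat_lit 157)))) (PT.nd (nat_lit 156) (PT.nd (nat_lit 78) (PT.lf (nat_lit 29488) (nat_lit 3) (nat_lit 388) (nat_lit 0) (nat_lit 207) (nat_lit 207) (nat_lit 156)) (PT.lf (nat_lit 28652) (nat_lit 6) (nat_lit 377) (nat_lit 0) (nat_lit 208) (nat_lit 207) (nat_lit 155))) (PT.nd (nat_lit 78) (PT.lf (nat_lit 27816) (nat_lit 6) (nat_lit 366) (nat_lit 0) (nat_lit 209) (nat_lit 207) (nat_lit 154)) (PT.lf (nat_lit 27056) (nat_lit 6) (nat_lit 356) (nat_lit 0) (nat_lit 210) (nat_lit 207) (nat_lit 153))))) (PT.nd (nat_lit 312) (PT.nd (nat_lit 156) (PT.nd (nat_lit 78) (PT.lf (nat_lit 26296) (nat_lit 6) (nat_lit 346) (nat_lit 0) (nat_lit 211) (nat_lit 207) (nat_lit 152)) (PT.lf (nat_lit 25536) (nat_lit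 6) (nat_lit 336) (nat_lit 0) (nat_lit 212) (nat_lit 207) (nat_lit 151))) (PT.nd (nat_lit 78) (PT.lf (nat_lit 24776) (nat_lit 6) (nat_lit 326) (nat_lit 0) (nat_lit 213) (nat_lit 207) (nat_lit 150)) (PT.lf (nat_lit 24092) (nat_lit 6) (nat_lit 317) (nat_lit 0) (nat_lit 214) (nat_lit 207) (nat_lit 149)))) (PT.nd (nat_lit 156) (PT.nd (nat_lit 78) (PT.lf (nat_lit 23408) (nat_lit 6) (nat_lit 308) (nat_lit 0) (nat_lit 215) (nat_lit 207) (nat_lit 148)) (PT.lf (nat_lit 22724) (nat_lit 6) (nat_lit 299) (nat_lit 0) (nat_lit 216) (nat_lit 207) (nat_lit 147))) (PT.nd (nat_lit 78) (PT.lf (nat_lit 22040) (nat_lit 6) (nat_lit 290) (nat_lit 0) (nat_lit 217) (nat_lit 207) (nat_lit 146)) (PT.lf (nat_lit 21432) (nat_lit 6) (nat_lit 282) (nat_lit 0) (nat_lit 218) (nat_lit 207) (nat_lit 145)))))) (PT.nd (nat_lit 53664) (PT.nd (nat_lit 53352) (PT.nd (nat_lit 156) (PT.nd (nat_lit 78) (PT.lf (nat_lit 20748) (nat_lit 6) (nat_lit 273) (nat_lit 0) (nat_lit 219) (nat_lit 207) (nat_lit 144))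 (PT.lf (nat_lit 20140) (nat_lit 6) (nat_lit 265) (nat_lit 0) (nat_lit 220) (nat_lit 207) (nat_lit 143))) (PT.nd (nat_lit 53118) (PT.lf (nat_lit 19532) (nat_lit 6) (nat_lit 257) (nat_lit 0) (nat_lit 221) (nat_lit 207) (nat_lit 142)) (PT.lf (nat_lit 19000) (nat_lit 6) (nat_lit 250) (nat_lit 5) (nat_lit 141) (nat_lit 208) (nat_lit 221)))) (PT.nd (nat_lit 156) (PT.nd (nat_lit 78) (PT.lf (nat_lit 19608) (nat_lit 6) (nat_lit 258) (nat_lit 5) (nat_lit 142) (nat_lit 208) (nat_lit 220)) (PT.lf (nat_lit 20216) (nat_lit 6) (nat_lit 266) (nat_lit 5) (nat_lit 143) (nat_lit 208) (nat_lit 219))) (PT.nd (nat_lit 78) (PT.lf (nat_lit 20824) (nat_lit 6) (nat_lit 274) (nat_lit 5) (nat_lit 144) (nat_lit 208) (nat_lit 218)) (PT.lf (nat_lit 21508) (nat_lit 6) (nat_lit 283) (nat_lit 5) (nat_lit 145) (nat_lit 208) (nat_lit 217))))) (PT.nd (nat_lit 312) (PT.nd (nat_lit 156) (PT.nd (nat_lit 78) (PT.lf (nat_lit 22116) (nat_lit 6) (nat_lit 291) (nat_lit 5) (nat_lit 146) (nat_lit 208) (nat_lit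 216)) (PT.lf (nat_lit 22800) (nat_lit 6) (nat_lit 300) (nat_lit 5) (nat_lit 147) (nat_lit 208) (nat_lit 215))) (PT.nd (nat_lit 78) (PT.lf (nat_lit 23484) (nat_lit 6) (nat_lit 309) (nat_lit 5) (nat_lit 148) (nat_lit 208) (nat_lit 214)) (PT.lf (nat_lit 24168) (nat_lit 6) (nat_lit 318) (nat_lit 5) (nat_lit 149) (nat_lit 208) (nat_lit 213)))) (PT.nd (nat_lit 156) (PT.nd (nat_lit 78) (PT.lf (nat_lit 24852) (nat_lit 6) (nat_lit 327) (nat_lit 5) (nat_lit 150) (nat_lit 208) (nat_lit 212)) (PT.lf (nat_lit 25612) (nat_lit 6) (nat_lit 337) (nat_lit 5) (nat_lit 151) (nat_lit 208) (nat_lit 211))) (PT.nd (nat_lit 78) (PT.lf (nat_lit 26372) (nat_lit 6) (nat_lit 347) (nat_lit 5) (nat_lit 152) (nat_lit 208) (nat_lit 210)) (PT.lf (nat_lit 27132) (nat_lit 6) (nat_lit 357) (nat_lit 5) (nat_lit 153) (nat_lit 208) (nat_lit 209))))))))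
noncomputable def pc45 : PT := (PT.nd (nat_lit 2340) (PT.nd (nat_lit 1170) (PT.nd (nat_lit 546) (PT.nd (nat_lit 234) (PT.nd (nat_lit 78) (PT.lf (nat_lit 27892) (nat_lit 3) (nat_lit 367) (nat_lit 4) (nat_lit 154) (nat_lit 208) (nat_lit 208)) (PT.nd (nat_lit 78) (PT.lf (nat_lit 28652) (nat_lit 6) (nat_lit 377) (nat_lit 4) (nat_lit 155) (nat_lit 208) (nat_lit 207)) (PT.lf (nat_lit 29412) (nat_lit 6) (nat_lit 387) (nat_lit 4) (nat_lit 156) (nat_lit 208) (nat_lit 206)))) (PT.nd (nat_lit 156) (PT.nd (nat_lit 78) (PT.lf (nat_lit 30172) (nat_lit 6) (nat_lit 397) (nat_lit 4) (nat_lit 157) (nat_lit 208) (nat_lit 205)) (PT.lf (nat_lit 30932) (nat_lit 6) (nat_lit 407) (nat_lit 4) (nat_lit 158) (nat_lit 208) (nat_lit 204))) (PT.nd (nat_lit 78) (PT.lf (nat_lit 31768) (nat_lit 6) (nat_lit 418) (nat_lit 4) (nat_lit 159) (nat_lit 208) (nat_lit 203)) (PT.lf (nat_lit 32604) (nat_lit 6) (nat_lit 429) (nat_lit 4) (nat_lit 160) (nat_lit 208) (nat_lit 202))))) (PT.nd (nat_lit 312)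 (PT.nd (nat_lit 156) (PT.nd (nat_lit 78) (PT.lf (nat_lit 33516) (nat_lit 6) (nat_lit 441) (nat_lit 4) (nat_lit 161) (nat_lit 208) (nat_lit 201)) (PT.lf (nat_lit 34352) (nat_lit 6) (nat_lit 452) (nat_lit 4) (nat_lit 162) (nat_lit 208) (nat_lit 200))) (PT.nd (nat_lit 78) (PT.lf (nat_lit 35264) (nat_lit 6) (nat_lit 464) (nat_lit 4) (nat_lit 163) (nat_lit 208) (nat_lit 199)) (PT.lf (nat_lit 36176) (nat_lit 6) (nat_lit 476) (nat_lit 4) (nat_lit 164) (nat_lit 208) (nat_lit 198)))) (PT.nd (nat_lit 156) (PT.nd (nat_lit 78) (PT.lf (nat_lit 37316) (nat_lit 6) (nat_lit 491) (nat_lit 4) (nat_lit 165) (nat_lit 208) (nat_lit 197)) (PT.lf (nat_lit 39140) (nat_lit 6) (nat_lit 515) (nat_lit 4) (nat_lit 166) (nat_lit 208) (nat_lit 196))) (PT.nd (nat_lit 78) (PT.lf (nat_lit 40888) (nat_lit 6) (nat_lit 538) (nat_lit 4) (nat_lit 167) (nat_lit 208) (nat_lit 195)) (PT.lf (nat_lit 42560) (nat_lit 6) (nat_lit 560) (nat_lit 4) (nat_lit 168) (nat_lit 208) (nat_lit 194)))))) (PT.nd (nat_lit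 546) (PT.nd (nat_lit 234) (PT.nd (nat_lit 78) (PT.lf (nat_lit 44156) (nat_lit 6) (nat_lit 581) (nat_lit 4) (nat_lit 169) (nat_lit 208) (nat_lit 193)) (PT.nd (nat_lit 78) (PT.lf (nat_lit 45676) (nat_lit 6) (nat_lit 601) (nat_lit 4) (nat_lit 170) (nat_lit 208) (nat_lit 192)) (PT.lf (nat_lit 47120) (nat_lit 6) (nat_lit 620) (nat_lit 4) (nat_lit 171) (nat_lit 208) (nat_lit 191)))) (PT.nd (nat_lit 156) (PT.nd (nat_lit 78) (PT.lf (nat_lit 48488) (nat_lit 6) (nat_lit 638) (nat_lit 4) (nat_lit 172) (nat_lit 208) (nat_lit 190)) (PT.lf (nat_lit 48412) (nat_lit 6) (nat_lit 637) (nat_lit 4) (nat_lit 173) (nat_lit 208) (nat_lit 189))) (PT.nd (nat_lit 78) (PT.lf (nat_lit 48336) (nat_lit 6) (nat_lit 636) (nat_lit 4) (nat_lit 174) (nat_lit 208) (nat_lit 188)) (PT.lf (nat_lit 48260) (nat_lit 6) (nat_lit 635) (nat_lit 4) (nat_lit 175) (nat_lit 208) (nat_lit 187))))) (PT.nd (nat_lit 312) (PT.nd (nat_lit 156) (PT.nd (nat_lit 78) (PT.lf (nat_lit 48184) (nat_lit 6) (nat_lit 634) (nat_lit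 4) (nat_lit 176) (nat_lit 208) (nat_lit 186)) (PT.lf (nat_lit 48108) (nat_lit 6) (nat_lit 633) (nat_lit 4) (nat_lit 177) (nat_lit 208) (nat_lit 185))) (PT.nd (nat_lit 78) (PT.lf (nat_lit 48032) (nat_lit 6) (nat_lit 632) (nat_lit 4) (nat_lit 178) (nat_lit 208) (nat_lit 184)) (PT.lf (nat_lit 47956) (nat_lit 6) (nat_lit 631) (nat_lit 4) (nat_lit 179) (nat_lit 208) (nat_lit 183)))) (PT.nd (nat_lit 156) (PT.nd (nat_lit 78) (PT.lf (nat_lit 47880) (nat_lit 6) (nat_lit 630) (nat_lit 4) (nat_lit 180) (nat_lit 208) (nat_lit 182)) (PT.lf (nat_lit 47804) (nat_lit 3) (nat_lit 629) (nat_lit 2) (nat_lit 181) (nat_lit 208) (nat_lit 181))) (PT.nd (nat_lit 78) (PT.lf (nat_lit 47880) (nat_lit 6) (nat_lit 630) (nat_lit 2) (nat_lit 182) (nat_lit 208) (nat_lit 180)) (PT.lf (nat_lit 47956) (nat_lit 6) (nat_lit 631) (nat_lit 2) (nat_lit 183) (nat_lit 208) (nat_lit 179))))))) (PT.nd (nat_lit 1170) (PT.nd (nat_lit 546) (PT.nd (nat_lit 234) (PT.nd (nat_lit 78) (PT.lf (nat_lit 48032) (nat_lit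 6) (nat_lit 632) (nat_lit 2) (nat_lit 184) (nat_lit 208) (nat_lit 178)) (PT.nd (nat_lit 78) (PT.lf (nat_lit 48108) (nat_lit 6) (nat_lit 633) (nat_lit 2) (nat_lit 185) (nat_lit 208) (nat_lit 177)) (PT.lf (nat_lit 48184) (nat_lit 6) (nat_lit 634) (nat_lit 2) (nat_lit 186) (nat_lit 208) (nat_lit 176)))) (PT.nd (nat_lit 156) (PT.nd (nat_lit 78) (PT.lf (nat_lit 48260) (nat_lit 6) (nat_lit 635) (nat_lit 2) (nat_lit 187) (nat_lit 208) (nat_lit 175)) (PT.lf (nat_lit 48336) (nat_lit 6) (nat_lit 636) (nat_lit 2) (nat_lit 188) (nat_lit 208) (nat_lit 174))) (PT.nd (nat_lit 78) (PT.lf (nat_lit 48412) (nat_lit 6) (nat_lit 637) (nat_lit 2) (nat_lit 189) (nat_lit 208) (nat_lit 173)) (PT.lf (nat_lit 48488) (nat_lit 6) (nat_lit 638) (nat_lit 2) (nat_lit 190) (nat_lit 208) (nat_lit 172))))) (PT.nd (nat_lit 312) (PT.nd (nat_lit 156) (PT.nd (nat_lit 78) (PT.lf (nat_lit 47120) (nat_lit 6) (nat_lit 620) (nat_lit 2) (nat_lit 191) (nat_lit 208) (nat_lit 171)) (PT.lf (nat_lit 45676) (nat_lit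 6) (nat_lit 601) (nat_lit 2) (nat_lit 192) (nat_lit 208) (nat_lit 170))) (PT.nd (nat_lit 78) (PT.lf (nat_lit 44156) (nat_lit 6) (nat_lit 581) (nat_lit 2) (nat_lit 193) (nat_lit 208) (nat_lit 169)) (PT.lf (nat_lit 42560) (nat_lit 6) (nat_lit 560) (nat_lit 2) (nat_lit 194) (nat_lit 208) (nat_lit 168)))) (PT.nd (nat_lit 156) (PT.nd (nat_lit 78) (PT.lf (nat_lit 40888) (nat_lit 6) (nat_lit 538) (nat_lit 2) (nat_lit 195) (nat_lit 208) (nat_lit 167)) (PT.lf (nat_lit 39140) (nat_lit 6) (nat_lit 515) (nat_lit 2) (nat_lit 196) (nat_lit 208) (nat_lit 166))) (PT.nd (nat_lit 78) (PT.lf (nat_lit 37316) (nat_lit 6) (nat_lit 491) (nat_lit 2) (nat_lit 197) (nat_lit 208) (nat_lit 165)) (PT.lf (nat_lit 36176) (nat_lit 6) (nat_lit 476) (nat_lit 2) (nat_lit 198) (nat_lit 208) (nat_lit 164)))))) (PT.nd (nat_lit 624) (PT.nd (nat_lit 312) (PT.nd (nat_lit 156) (PT.nd (nat_lit 78) (PT.lf (nat_lit 35264) (nat_lit 6) (nat_lit 464) (nat_lit 2) (nat_lit 199) (nat_lit 208) (nat_lit 163)) (PT.lf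 (nat_lit 34352) (nat_lit 6) (nat_lit 452) (nat_lit 2) (nat_lit 200) (nat_lit 208) (nat_lit 162))) (PT.nd (nat_lit 78) (PT.lf (nat_lit 33516) (nat_lit 6) (nat_lit 441) (nat_lit 2) (nat_lit 201) (nat_lit 208) (nat_lit 161)) (PT.lf (nat_lit 32604) (nat_lit 6) (nat_lit 429) (nat_lit 2) (nat_lit 202) (nat_lit 208) (nat_lit 160)))) (PT.nd (nat_lit 156) (PT.nd (nat_lit 78) (PT.lf (nat_lit 31768) (nat_lit 6) (nat_lit 418) (nat_lit 2) (nat_lit 203) (nat_lit 208) (nat_lit 159)) (PT.lf (nat_lit 30932) (nat_lit 6) (nat_lit 407) (nat_lit 2) (nat_lit 204) (nat_lit 208) (nat_lit 158))) (PT.nd (nat_lit 78) (PT.lf (nat_lit 30172) (nat_lit 6) (nat_lit 397) (nat_lit 2) (nat_lit 205) (nat_lit 208) (nat_lit 157)) (PT.lf (nat_lit 29412) (nat_lit 6) (nat_lit 387) (nat_lit 2) (nat_lit 206) (nat_lit 208) (nat_lit 156))))) (PT.nd (nat_lit 312) (PT.nd (nat_lit 156) (PT.nd (nat_lit 78) (PT.lf (nat_lit 28652) (nat_lit 6) (nat_lit 377) (nat_lit 2) (nat_lit 207) (nat_lit 208) (nat_lit 155))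 (PT.lf (nat_lit 27892) (nat_lit 3) (nat_lit 367) (nat_lit 0) (nat_lit 208) (nat_lit 208) (nat_lit 154))) (PT.nd (nat_lit 78) (PT.lf (nat_lit 27132) (nat_lit 6) (nat_lit 357) (nat_lit 0) (nat_lit 209) (nat_lit 208) (nat_lit 153)) (PT.lf (nat_lit 26372) (nat_lit 6) (nat_lit 347) (nat_lit 0) (nat_lit 210) (nat_lit 208) (nat_lit 152)))) (PT.nd (nat_lit 156) (PT.nd (nat_lit 78) (PT.lf (nat_lit 25612) (nat_lit 6) (nat_lit 337) (nat_lit 0) (nat_lit 211) (nat_lit 208) (nat_lit 151)) (PT.lf (nat_lit 24852) (nat_lit 6) (nat_lit 327) (nat_lit 0) (nat_lit 212) (nat_lit 208) (nat_lit 150))) (PT.nd (nat_lit 78) (PT.lf (nat_lit 24168) (nat_lit 6) (nat_lit 318) (nat_lit 0) (nat_lit 213) (nat_lit 208) (nat_lit 149)) (PT.lf (nat_lit 23484) (nat_lit 6) (nat_lit 309) (nat_lit 0) (nat_lit 214) (nat_lit 208) (nat_lit 148))))))))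
noncomputable def pc46 : PT := (PT.nd (nat_lit 55224) (PT.nd (nat_lit 54054) (PT.nd (nat_lit 53430) (PT.nd (nat_lit 234) (PT.nd (nat_lit 78) (PT.lf (nat_lit 22800) (nat_lit 6) (nat_lit 300) (nat_lit 0) (nat_lit 215) (nat_lit 208) (nat_lit 147)) (PT.nd (nat_lit 78) (PT.lf (nat_lit 22116) (nat_lit 6) (nat_lit 291) (nat_lit 0) (nat_lit 216) (nat_lit 208) (nat_lit 146)) (PT.lf (nat_lit 21508) (nat_lit 6) (nat_lit 283) (nat_lit 0) (nat_lit 217) (nat_lit 208) (nat_lit 145)))) (PT.nd (nat_lit 156) (PT.nd (nat_lit 78) (PT.lf (nat_lit 20824) (nat_lit 6) (nat_lit 274) (nat_lit 0) (nat_lit 218) (nat_lit 208) (nat_lit 144)) (PT.lf (nat_lit 20216) (nat_lit 6) (nat_lit 266) (nat_lit 0) (nat_lit 219) (nat_lit 208) (nat_lit 143))) (PT.nd (nat_lit 78) (PT.lf (nat_lit 19608) (nat_lit 6) (nat_lit 258) (nat_lit 0) (nat_lit 220) (nat_lit 208) (nat_lit 142)) (PT.lf (nat_lit 19000) (nat_lit 6) (nat_lit 250) (nat_lit 0) (nat_lit 221) (nat_lit 208) (nat_lit 141))))) (PT.nd (nat_lit 312)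 (PT.nd (nat_lit 156) (PT.nd (nat_lit 78) (PT.lf (nat_lit 17936) (nat_lit 6) (nat_lit 236) (nat_lit 5) (nat_lit 139) (nat_lit 209) (nat_lit 222)) (PT.lf (nat_lit 18468) (nat_lit 6) (nat_lit 243) (nat_lit 5) (nat_lit 140) (nat_lit 209) (nat_lit 221))) (PT.nd (nat_lit 78) (PT.lf (nat_lit 19076) (nat_lit 6) (nat_lit 251) (nat_lit 5) (nat_lit 141) (nat_lit 209) (nat_lit 220)) (PT.lf (nat_lit 19684) (nat_lit 6) (nat_lit 259) (nat_lit 5) (nat_lit 142) (nat_lit 209) (nat_lit 219)))) (PT.nd (nat_lit 156) (PT.nd (nat_lit 78) (PT.lf (nat_lit 20292) (nat_lit 6) (nat_lit 267) (nat_lit 5) (nat_lit 143) (nat_lit 209) (nat_lit 218)) (PT.lf (nat_lit 20900) (nat_lit 6) (nat_lit 275) (nat_lit 5) (nat_lit 144) (nat_lit 209) (nat_lit 217))) (PT.nd (nat_lit 78) (PT.lf (nat_lit 21584) (nat_lit 6) (nat_lit 284) (nat_lit 5) (nat_lit 145) (nat_lit 209) (nat_lit 216)) (PT.lf (nat_lit 22192) (nat_lit 6) (nat_lit 292) (nat_lit 5) (nat_lit 146) (nat_lit 209) (nat_lit 215)))))) (PT.nd (nat_lit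 546) (PT.nd (nat_lit 234) (PT.nd (nat_lit 78) (PT.lf (nat_lit 22876) (nat_lit 6) (nat_lit 301) (nat_lit 5) (nat_lit 147) (nat_lit 209) (nat_lit 214)) (PT.nd (nat_lit 78) (PT.lf (nat_lit 23560) (nat_lit 6) (nat_lit 310) (nat_lit 5) (nat_lit 148) (nat_lit 209) (nat_lit 213)) (PT.lf (nat_lit 24244) (nat_lit 6) (nat_lit 319) (nat_lit 5) (nat_lit 149) (nat_lit 209) (nat_lit 212)))) (PT.nd (nat_lit 156) (PT.nd (nat_lit 78) (PT.lf (nat_lit 24928) (nat_lit 6) (nat_lit 328) (nat_lit 5) (nat_lit 150) (nat_lit 209) (nat_lit 211)) (PT.lf (nat_lit 25688) (nat_lit 6) (nat_lit 338) (nat_lit 5) (nat_lit 151) (nat_lit 209) (nat_lit 210))) (PT.nd (nat_lit 78) (PT.lf (nat_lit 26448) (nat_lit 3) (nat_lit 348) (nat_lit 4) (nat_lit 152) (nat_lit 209) (nat_lit 209)) (PT.lf (nat_lit 27132) (nat_lit 6) (nat_lit 357) (nat_lit 4) (nat_lit 153) (nat_lit 209) (nat_lit 208))))) (PT.nd (nat_lit 312) (PT.nd (nat_lit 156) (PT.nd (nat_lit 78) (PT.lf (nat_lit 27816) (nat_lit 6) (nat_lit 366) (nat_lit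 4) (nat_lit 154) (nat_lit 209) (nat_lit 207)) (PT.lf (nat_lit 28576) (nat_lit 6) (nat_lit 376) (nat_lit 4) (nat_lit 155) (nat_lit 209) (nat_lit 206))) (PT.nd (nat_lit 78) (PT.lf (nat_lit 29336) (nat_lit 6) (nat_lit 386) (nat_lit 4) (nat_lit 156) (nat_lit 209) (nat_lit 205)) (PT.lf (nat_lit 30096) (nat_lit 6) (nat_lit 396) (nat_lit 4) (nat_lit 157) (nat_lit 209) (nat_lit 204)))) (PT.nd (nat_lit 156) (PT.nd (nat_lit 78) (PT.lf (nat_lit 30856) (nat_lit 6) (nat_lit 406) (nat_lit 4) (nat_lit 158) (nat_lit 209) (nat_lit 203)) (PT.lf (nat_lit 31692) (nat_lit 6) (nat_lit 417) (nat_lit 4) (nat_lit 159) (nat_lit 209) (nat_lit 202))) (PT.nd (nat_lit 78) (PT.lf (nat_lit 32528) (nat_lit 6) (nat_lit 428) (nat_lit 4) (nat_lit 160) (nat_lit 209) (nat_lit 201)) (PT.lf (nat_lit 33440) (nat_lit 6) (nat_lit 440) (nat_lit 4) (nat_lit 161) (nat_lit 209) (nat_lit 200))))))) (PT.nd (nat_lit 1170) (PT.nd (nat_lit 546) (PT.nd (nat_lit 234) (PT.nd (nat_lit 78) (PT.lf (nat_lit 34276) (nat_lit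 6) (nat_lit 451) (nat_lit 4) (nat_lit 162) (nat_lit 209) (nat_lit 199)) (PT.nd (nat_lit 78) (PT.lf (nat_lit 35188) (nat_lit 6) (nat_lit 463) (nat_lit 4) (nat_lit 163) (nat_lit 209) (nat_lit 198)) (PT.lf (nat_lit 36100) (nat_lit 6) (nat_lit 475) (nat_lit 4) (nat_lit 164) (nat_lit 209) (nat_lit 197)))) (PT.nd (nat_lit 156) (PT.nd (nat_lit 78) (PT.lf (nat_lit 37240) (nat_lit 6) (nat_lit 490) (nat_lit 4) (nat_lit 165) (nat_lit 209) (nat_lit 196)) (PT.lf (nat_lit 39064) (nat_lit 6) (nat_lit 514) (nat_lit 4) (nat_lit 166) (nat_lit 209) (nat_lit 195))) (PT.nd (nat_lit 78) (PT.lf (nat_lit 40812) (nat_lit 6) (nat_lit 537) (nat_lit 4) (nat_lit 167) (nat_lit 209) (nat_lit 194)) (PT.lf (nat_lit 42484) (nat_lit 6) (nat_lit 559) (nat_lit 4) (nat_lit 168) (nat_lit 209) (nat_lit 193))))) (PT.nd (nat_lit 312) (PT.nd (nat_lit 156) (PT.nd (nat_lit 78) (PT.lf (nat_lit 44080) (nat_lit 6) (nat_lit 580) (nat_lit 4) (nat_lit 169) (nat_lit 209) (nat_lit 192)) (PT.lf (nat_lit 45600) (nat_lit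 6) (nat_lit 600) (nat_lit 4) (nat_lit 170) (nat_lit 209) (nat_lit 191))) (PT.nd (nat_lit 78) (PT.lf (nat_lit 47044) (nat_lit 6) (nat_lit 619) (nat_lit 4) (nat_lit 171) (nat_lit 209) (nat_lit 190)) (PT.lf (nat_lit 46968) (nat_lit 6) (nat_lit 618) (nat_lit 4) (nat_lit 172) (nat_lit 209) (nat_lit 189)))) (PT.nd (nat_lit 156) (PT.nd (nat_lit 78) (PT.lf (nat_lit 46892) (nat_lit 6) (nat_lit 617) (nat_lit 4) (nat_lit 173) (nat_lit 209) (nat_lit 188)) (PT.lf (nat_lit 46816) (nat_lit 6) (nat_lit 616) (nat_lit 4) (nat_lit 174) (nat_lit 209) (nat_lit 187))) (PT.nd (nat_lit 78) (PT.lf (nat_lit 46740) (nat_lit 6) (nat_lit 615) (nat_lit 4) (nat_lit 175) (nat_lit 209) (nat_lit 186)) (PT.lf (nat_lit 46664) (nat_lit 6) (nat_lit 614) (nat_lit 4) (nat_lit 176) (nat_lit 209) (nat_lit 185)))))) (PT.nd (nat_lit 624) (PT.nd (nat_lit 312) (PT.nd (nat_lit 156) (PT.nd (nat_lit 78) (PT.lf (nat_lit 46588) (nat_lit 6) (nat_lit 613) (nat_lit 4) (nat_lit 177) (nat_lit 209) (nat_lit 184)) (PT.lf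 (nat_lit 46512) (nat_lit 6) (nat_lit 612) (nat_lit 4) (nat_lit 178) (nat_lit 209) (nat_lit 183))) (PT.nd (nat_lit 78) (PT.lf (nat_lit 46436) (nat_lit 6) (nat_lit 611) (nat_lit 4) (nat_lit 179) (nat_lit 209) (nat_lit 182)) (PT.lf (nat_lit 46360) (nat_lit 6) (nat_lit 610) (nat_lit 4) (nat_lit 180) (nat_lit 209) (nat_lit 181)))) (PT.nd (nat_lit 156) (PT.nd (nat_lit 78) (PT.lf (nat_lit 46360) (nat_lit 6) (nat_lit 610) (nat_lit 2) (nat_lit 181) (nat_lit 209) (nat_lit 180)) (PT.lf (nat_lit 46436) (nat_lit 6) (nat_lit 611) (nat_lit 2) (nat_lit 182) (nat_lit 209) (nat_lit 179))) (PT.nd (nat_lit 78) (PT.lf (nat_lit 46512) (nat_lit 6) (nat_lit 612) (nat_lit 2) (nat_lit 183) (nat_lit 209) (nat_lit 178)) (PT.lf (nat_lit 46588) (nat_lit 6) (nat_lit 613) (nat_lit 2) (nat_lit 184) (nat_lit 209) (nat_lit 177))))) (PT.nd (nat_lit 312) (PT.nd (nat_lit 156) (PT.nd (nat_lit 78) (PT.lf (nat_lit 46664) (nat_lit 6) (nat_lit 614) (nat_lit 2) (nat_lit 185) (nat_lit 209) (nat_lit 176))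 (PT.lf (nat_lit 46740) (nat_lit 6) (nat_lit 615) (nat_lit 2) (nat_lit 186) (nat_lit 209) (nat_lit 175))) (PT.nd (nat_lit 78) (PT.lf (nat_lit 46816) (nat_lit 6) (nat_lit 616) (nat_lit 2) (nat_lit 187) (nat_lit 209) (nat_lit 174)) (PT.lf (nat_lit 46892) (nat_lit 6) (nat_lit 617) (nat_lit 2) (nat_lit 188) (nat_lit 209) (nat_lit 173)))) (PT.nd (nat_lit 156) (PT.nd (nat_lit 78) (PT.lf (nat_lit 46968) (nat_lit 6) (nat_lit 618) (nat_lit 2) (nat_lit 189) (nat_lit 209) (nat_lit 172)) (PT.lf (nat_lit 47044) (nat_lit 6) (nat_lit 619) (nat_lit 2) (nat_lit 190) (nat_lit 209) (nat_lit 171))) (PT.nd (nat_lit 78) (PT.lf (nat_lit 45600) (nat_lit 6) (nat_lit 600) (nat_lit 2) (nat_lit 191) (nat_lit 209) (nat_lit 170)) (PT.lf (nat_lit 44080) (nat_lit 6) (nat_lit 580) (nat_lit 2) (nat_lit 192) (nat_lit 209) (nat_lit 169))))))))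
noncomputable def pc47 : PT := (PT.nd (nat_lit 55146) (PT.nd (nat_lit 1170) (PT.nd (nat_lit 546) (PT.nd (nat_lit 234) (PT.nd (nat_lit 78) (PT.lf (nat_lit 42484) (nat_lit 6) (nat_lit 559) (nat_lit 2) (nat_lit 193) (nat_lit 209) (nat_lit 168)) (PT.nd (nat_lit 78) (PT.lf (nat_lit 40812) (nat_lit 6) (nat_lit 537) (nat_lit 2) (nat_lit 194) (nat_lit 209) (nat_lit 167)) (PT.lf (nat_lit 39064) (nat_lit 6) (nat_lit 514) (nat_lit 2) (nat_lit 195) (nat_lit 209) (nat_lit 166)))) (PT.nd (nat_lit 156) (PT.nd (nat_lit 78) (PT.lf (nat_lit 37240) (nat_lit 6) (nat_lit 490) (nat_lit 2) (nat_lit 196) (nat_lit 209) (nat_lit 165)) (PT.lf (nat_lit 36100) (nat_lit 6) (nat_lit 475) (nat_lit 2) (nat_lit 197) (nat_lit 209) (nat_lit 164))) (PT.nd (nat_lit 78) (PT.lf (nat_lit 35188) (nat_lit 6) (nat_lit 463) (nat_lit 2) (nat_lit 198) (nat_lit 209) (nat_lit 163)) (PT.lf (nat_lit 34276) (nat_lit 6) (nat_lit 451) (nat_lit 2) (nat_lit 199) (nat_lit 209) (nat_lit 162))))) (PT.nd (nat_lit 312)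 (PT.nd (nat_lit 156) (PT.nd (nat_lit 78) (PT.lf (nat_lit 33440) (nat_lit 6) (nat_lit 440) (nat_lit 2) (nat_lit 200) (nat_lit 209) (nat_lit 161)) (PT.lf (nat_lit 32528) (nat_lit 6) (nat_lit 428) (nat_lit 2) (nat_lit 201) (nat_lit 209) (nat_lit 160))) (PT.nd (nat_lit 78) (PT.lf (nat_lit 31692) (nat_lit 6) (nat_lit 417) (nat_lit 2) (nat_lit 202) (nat_lit 209) (nat_lit 159)) (PT.lf (nat_lit 30856) (nat_lit 6) (nat_lit 406) (nat_lit 2) (nat_lit 203) (nat_lit 209) (nat_lit 158)))) (PT.nd (nat_lit 156) (PT.nd (nat_lit 78) (PT.lf (nat_lit 30096) (nat_lit 6) (nat_lit 396) (nat_lit 2) (nat_lit 204) (nat_lit 209) (nat_lit 157)) (PT.lf (nat_lit 29336) (nat_lit 6) (nat_lit 386) (nat_lit 2) (nat_lit 205) (nat_lit 209) (nat_lit 156))) (PT.nd (nat_lit 78) (PT.lf (nat_lit 28576) (nat_lit 6) (nat_lit 376) (nat_lit 2) (nat_lit 206) (nat_lit 209) (nat_lit 155)) (PT.lf (nat_lit 27816) (nat_lit 6) (nat_lit 366) (nat_lit 2) (nat_lit 207) (nat_lit 209) (nat_lit 154)))))) (PT.nd (nat_lit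 624) (PT.nd (nat_lit 312) (PT.nd (nat_lit 156) (PT.nd (nat_lit 78) (PT.lf (nat_lit 27132) (nat_lit 6) (nat_lit 357) (nat_lit 2) (nat_lit 208) (nat_lit 209) (nat_lit 153)) (PT.lf (nat_lit 26448) (nat_lit 3) (nat_lit 348) (nat_lit 0) (nat_lit 209) (nat_lit 209) (nat_lit 152))) (PT.nd (nat_lit 78) (PT.lf (nat_lit 25688) (nat_lit 6) (nat_lit 338) (nat_lit 0) (nat_lit 210) (nat_lit 209) (nat_lit 151)) (PT.lf (nat_lit 24928) (nat_lit 6) (nat_lit 328) (nat_lit 0) (nat_lit 211) (nat_lit 209) (nat_lit 150)))) (PT.nd (nat_lit 156) (PT.nd (nat_lit 78) (PT.lf (nat_lit 24244) (nat_lit 6) (nat_lit 319) (nat_lit 0) (nat_lit 212) (nat_lit 209) (nat_lit 149)) (PT.lf (nat_lit 23560) (nat_lit 6) (nat_lit 310) (nat_lit 0) (nat_lit 213) (nat_lit 209) (nat_lit 148))) (PT.nd (nat_lit 78) (PT.lf (nat_lit 22876) (nat_lit 6) (nat_lit 301) (nat_lit 0) (nat_lit 214) (nat_lit 209) (nat_lit 147)) (PT.lf (nat_lit 22192) (nat_lit 6) (nat_lit 292) (nat_lit 0) (nat_lit 215) (nat_lit 209) (nat_lit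 146))))) (PT.nd (nat_lit 312) (PT.nd (nat_lit 156) (PT.nd (nat_lit 78) (PT.lf (nat_lit 21584) (nat_lit 6) (nat_lit 284) (nat_lit 0) (nat_lit 216) (nat_lit 209) (nat_lit 145)) (PT.lf (nat_lit 20900) (nat_lit 6) (nat_lit 275) (nat_lit 0) (nat_lit 217) (nat_lit 209) (nat_lit 144))) (PT.nd (nat_lit 78) (PT.lf (nat_lit 20292) (nat_lit 6) (nat_lit 267) (nat_lit 0) (nat_lit 218) (nat_lit 209) (nat_lit 143)) (PT.lf (nat_lit 19684) (nat_lit 6) (nat_lit 259) (nat_lit 0) (nat_lit 219) (nat_lit 209) (nat_lit 142)))) (PT.nd (nat_lit 156) (PT.nd (nat_lit 78) (PT.lf (nat_lit 19076) (nat_lit 6) (nat_lit 251) (nat_lit 0) (nat_lit 220) (nat_lit 209) (nat_lit 141)) (PT.lf (nat_lit 18468) (nat_lit 6) (nat_lit 243) (nat_lit 0) (nat_lit 221) (nat_lit 209) (nat_lit 140))) (PT.nd (nat_lit 52806) (PT.lf (nat_lit 17936) (nat_lit 6) (nat_lit 236) (nat_lit 0) (nat_lit 222) (nat_lit 209) (nat_lit 139)) (PT.lf (nat_lit 17404) (nat_lit 6) (nat_lit 229) (nat_lit 5) (nat_lit 138) (nat_lit 210)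 (nat_lit 222))))))) (PT.nd (nat_lit 1170) (PT.nd (nat_lit 546) (PT.nd (nat_lit 234) (PT.nd (nat_lit 78) (PT.lf (nat_lit 18012) (nat_lit 6) (nat_lit 237) (nat_lit 5) (nat_lit 139) (nat_lit 210) (nat_lit 221)) (PT.nd (nat_lit 78) (PT.lf (nat_lit 18544) (nat_lit 6) (nat_lit 244) (nat_lit 5) (nat_lit 140) (nat_lit 210) (nat_lit 220)) (PT.lf (nat_lit 19152) (nat_lit 6) (nat_lit 252) (nat_lit 5) (nat_lit 141) (nat_lit 210) (nat_lit 219)))) (PT.nd (nat_lit 156) (PT.nd (nat_lit 78) (PT.lf (nat_lit 19760) (nat_lit 6) (nat_lit 260) (nat_lit 5) (nat_lit 142) (nat_lit 210) (nat_lit 218)) (PT.lf (nat_lit 20368) (nat_lit 6) (nat_lit 268) (nat_lit 5) (nat_lit 143) (nat_lit 210) (nat_lit 217))) (PT.nd (nat_lit 78) (PT.lf (nat_lit 20976) (nat_lit 6) (nat_lit 276) (nat_lit 5) (nat_lit 144) (nat_lit 210) (nat_lit 216)) (PT.lf (nat_lit 21660) (nat_lit 6) (nat_lit 285) (nat_lit 5) (nat_lit 145) (nat_lit 210) (nat_lit 215))))) (PT.nd (nat_lit 312) (PT.nd (nat_lit 156) (PT.nd (nat_lit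 78) (PT.lf (nat_lit 22268) (nat_lit 6) (nat_lit 293) (nat_lit 5) (nat_lit 146) (nat_lit 210) (nat_lit 214)) (PT.lf (nat_lit 22952) (nat_lit 6) (nat_lit 302) (nat_lit 5) (nat_lit 147) (nat_lit 210) (nat_lit 213))) (PT.nd (nat_lit 78) (PT.lf (nat_lit 23636) (nat_lit 6) (nat_lit 311) (nat_lit 5) (nat_lit 148) (nat_lit 210) (nat_lit 212)) (PT.lf (nat_lit 24320) (nat_lit 6) (nat_lit 320) (nat_lit 5) (nat_lit 149) (nat_lit 210) (nat_lit 211)))) (PT.nd (nat_lit 156) (PT.nd (nat_lit 78) (PT.lf (nat_lit 25004) (nat_lit 3) (nat_lit 329) (nat_lit 4) (nat_lit 150) (nat_lit 210) (nat_lit 210)) (PT.lf (nat_lit 25688) (nat_lit 6) (nat_lit 338) (nat_lit 4) (nat_lit 151) (nat_lit 210) (nat_lit 209))) (PT.nd (nat_lit 78) (PT.lf (nat_lit 26372) (nat_lit 6) (nat_lit 347) (nat_lit 4) (nat_lit 152) (nat_lit 210) (nat_lit 208)) (PT.lf (nat_lit 27056) (nat_lit 6) (nat_lit 356) (nat_lit 4) (nat_lit 153) (nat_lit 210) (nat_lit 207)))))) (PT.nd (nat_lit 624) (PT.nd (nat_lit 312) (PT.nd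 (nat_lit 156) (PT.nd (nat_lit 78) (PT.lf (nat_lit 27740) (nat_lit 6) (nat_lit 365) (nat_lit 4) (nat_lit 154) (nat_lit 210) (nat_lit 206)) (PT.lf (nat_lit 28500) (nat_lit 6) (nat_lit 375) (nat_lit 4) (nat_lit 155) (nat_lit 210) (nat_lit 205))) (PT.nd (nat_lit 78) (PT.lf (nat_lit 29260) (nat_lit 6) (nat_lit 385) (nat_lit 4) (nat_lit 156) (nat_lit 210) (nat_lit 204)) (PT.lf (nat_lit 30020) (nat_lit 6) (nat_lit 395) (nat_lit 4) (nat_lit 157) (nat_lit 210) (nat_lit 203)))) (PT.nd (nat_lit 156) (PT.nd (nat_lit 78) (PT.lf (nat_lit 30780) (nat_lit 6) (nat_lit 405) (nat_lit 4) (nat_lit 158) (nat_lit 210) (nat_lit 202)) (PT.lf (nat_lit 31616) (nat_lit 6) (nat_lit 416) (nat_lit 4) (nat_lit 159) (nat_lit 210) (nat_lit 201))) (PT.nd (nat_lit 78) (PT.lf (nat_lit 32452) (nat_lit 6) (nat_lit 427) (nat_lit 4) (nat_lit 160) (nat_lit 210) (nat_lit 200)) (PT.lf (nat_lit 33364) (nat_lit 6) (nat_lit 439) (nat_lit 4) (nat_lit 161) (nat_lit 210) (nat_lit 199))))) (PT.nd (nat_lit 312)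 (PT.nd (nat_lit 156) (PT.nd (nat_lit 78) (PT.lf (nat_lit 34200) (nat_lit 6) (nat_lit 450) (nat_lit 4) (nat_lit 162) (nat_lit 210) (nat_lit 198)) (PT.lf (nat_lit 35112) (nat_lit 6) (nat_lit 462) (nat_lit 4) (nat_lit 163) (nat_lit 210) (nat_lit 197))) (PT.nd (nat_lit 78) (PT.lf (nat_lit 36024) (nat_lit 6) (nat_lit 474) (nat_lit 4) (nat_lit 164) (nat_lit 210) (nat_lit 196)) (PT.lf (nat_lit 37164) (nat_lit 6) (nat_lit 489) (nat_lit 4) (nat_lit 165) (nat_lit 210) (nat_lit 195)))) (PT.nd (nat_lit 156) (PT.nd (nat_lit 78) (PT.lf (nat_lit 38988) (nat_lit 6) (nat_lit 513) (nat_lit 4) (nat_lit 166) (nat_lit 210) (nat_lit 194)) (PT.lf (nat_lit 40736) (nat_lit 6) (nat_lit 536) (nat_lit 4) (nat_lit 167) (nat_lit 210) (nat_lit 193))) (PT.nd (nat_lit 78) (PT.lf (nat_lit 42408) (nat_lit 6) (nat_lit 558) (nat_lit 4) (nat_lit 168) (nat_lit 210) (nat_lit 192)) (PT.lf (nat_lit 44004) (nat_lit 6) (nat_lit 579) (nat_lit 4) (nat_lit 169) (nat_lit 210) (nat_lit 191))))))))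
noncomputable def pc48 : PT := (PT.nd (nat_lit 2340) (PT.nd (nat_lit 1170) (PT.nd (nat_lit 546) (PT.nd (nat_lit 234) (PT.nd (nat_lit 78) (PT.lf (nat_lit 45524) (nat_lit 6) (nat_lit 599) (nat_lit 4) (nat_lit 170) (nat_lit 210) (nat_lit 190)) (PT.nd (nat_lit 78) (PT.lf (nat_lit 45448) (nat_lit 6) (nat_lit 598) (nat_lit 4) (nat_lit 171) (nat_lit 210) (nat_lit 189)) (PT.lf (nat_lit 45372) (nat_lit 6) (nat_lit 597) (nat_lit 4) (nat_lit 172) (nat_lit 210) (nat_lit 188)))) (PT.nd (nat_lit 156) (PT.nd (nat_lit 78) (PT.lf (nat_lit 45296) (nat_lit 6) (nat_lit 596) (nat_lit 4) (nat_lit 173) (nat_lit 210) (nat_lit 187)) (PT.lf (nat_lit 45220) (nat_lit 6) (nat_lit 595) (nat_lit 4) (nat_lit 174) (nat_lit 210) (nat_lit 186))) (PT.nd (nat_lit 78) (PT.lf (nat_lit 45144) (nat_lit 6) (nat_lit 594) (nat_lit 4) (nat_lit 175) (nat_lit 210) (nat_lit 185)) (PT.lf (nat_lit 45068) (nat_lit 6) (nat_lit 593) (nat_lit 4) (nat_lit 176) (nat_lit 210) (nat_lit 184))))) (PT.nd (nat_lit 312)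 (PT.nd (nat_lit 156) (PT.nd (nat_lit 78) (PT.lf (nat_lit 44992) (nat_lit 6) (nat_lit 592) (nat_lit 4) (nat_lit 177) (nat_lit 210) (nat_lit 183)) (PT.lf (nat_lit 44916) (nat_lit 6) (nat_lit 591) (nat_lit 4) (nat_lit 178) (nat_lit 210) (nat_lit 182))) (PT.nd (nat_lit 78) (PT.lf (nat_lit 44840) (nat_lit 6) (nat_lit 590) (nat_lit 4) (nat_lit 179) (nat_lit 210) (nat_lit 181)) (PT.lf (nat_lit 44764) (nat_lit 3) (nat_lit 589) (nat_lit 2) (nat_lit 180) (nat_lit 210) (nat_lit 180)))) (PT.nd (nat_lit 156) (PT.nd (nat_lit 78) (PT.lf (nat_lit 44840) (nat_lit 6) (nat_lit 590) (nat_lit 2) (nat_lit 181) (nat_lit 210) (nat_lit 179)) (PT.lf (nat_lit 44916) (nat_lit 6) (nat_lit 591) (nat_lit 2) (nat_lit 182) (nat_lit 210) (nat_lit 178))) (PT.nd (nat_lit 78) (PT.lf (nat_lit 44992) (nat_lit 6) (nat_lit 592) (nat_lit 2) (nat_lit 183) (nat_lit 210) (nat_lit 177)) (PT.lf (nat_lit 45068) (nat_lit 6) (nat_lit 593) (nat_lit 2) (nat_lit 184) (nat_lit 210) (nat_lit 176)))))) (PT.nd (nat_lit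 546) (PT.nd (nat_lit 234) (PT.nd (nat_lit 78) (PT.lf (nat_lit 45144) (nat_lit 6) (nat_lit 594) (nat_lit 2) (nat_lit 185) (nat_lit 210) (nat_lit 175)) (PT.nd (nat_lit 78) (PT.lf (nat_lit 45220) (nat_lit 6) (nat_lit 595) (nat_lit 2) (nat_lit 186) (nat_lit 210) (nat_lit 174)) (PT.lf (nat_lit 45296) (nat_lit 6) (nat_lit 596) (nat_lit 2) (nat_lit 187) (nat_lit 210) (nat_lit 173)))) (PT.nd (nat_lit 156) (PT.nd (nat_lit 78) (PT.lf (nat_lit 45372) (nat_lit 6) (nat_lit 597) (nat_lit 2) (nat_lit 188) (nat_lit 210) (nat_lit 172)) (PT.lf (nat_lit 45448) (nat_lit 6) (nat_lit 598) (nat_lit 2) (nat_lit 189) (nat_lit 210) (nat_lit 171))) (PT.nd (nat_lit 78) (PT.lf (nat_lit 45524) (nat_lit 6) (nat_lit 599) (nat_lit 2) (nat_lit 190) (nat_lit 210) (nat_lit 170)) (PT.lf (nat_lit 44004) (nat_lit 6) (nat_lit 579) (nat_lit 2) (nat_lit 191) (nat_lit 210) (nat_lit 169))))) (PT.nd (nat_lit 312) (PT.nd (nat_lit 156) (PT.nd (nat_lit 78) (PT.lf (nat_lit 42408) (nat_lit 6) (nat_lit 558) (nat_lit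 2) (nat_lit 192) (nat_lit 210) (nat_lit 168)) (PT.lf (nat_lit 40736) (nat_lit 6) (nat_lit 536) (nat_lit 2) (nat_lit 193) (nat_lit 210) (nat_lit 167))) (PT.nd (nat_lit 78) (PT.lf (nat_lit 38988) (nat_lit 6) (nat_lit 513) (nat_lit 2) (nat_lit 194) (nat_lit 210) (nat_lit 166)) (PT.lf (nat_lit 37164) (nat_lit 6) (nat_lit 489) (nat_lit 2) (nat_lit 195) (nat_lit 210) (nat_lit 165)))) (PT.nd (nat_lit 156) (PT.nd (nat_lit 78) (PT.lf (nat_lit 36024) (nat_lit 6) (nat_lit 474) (nat_lit 2) (nat_lit 196) (nat_lit 210) (nat_lit 164)) (PT.lf (nat_lit 35112) (nat_lit 6) (nat_lit 462) (nat_lit 2) (nat_lit 197) (nat_lit 210) (nat_lit 163))) (PT.nd (nat_lit 78) (PT.lf (nat_lit 34200) (nat_lit 6) (nat_lit 450) (nat_lit 2) (nat_lit 198) (nat_lit 210) (nat_lit 162)) (PT.lf (nat_lit 33364) (nat_lit 6) (nat_lit 439) (nat_lit 2) (nat_lit 199) (nat_lit 210) (nat_lit 161))))))) (PT.nd (nat_lit 1170) (PT.nd (nat_lit 546) (PT.nd (nat_lit 234) (PT.nd (nat_lit 78) (PT.lf (nat_lit 32452) (nat_lit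 6) (nat_lit 427) (nat_lit 2) (nat_lit 200) (nat_lit 210) (nat_lit 160)) (PT.nd (nat_lit 78) (PT.lf (nat_lit 31616) (nat_lit 6) (nat_lit 416) (nat_lit 2) (nat_lit 201) (nat_lit 210) (nat_lit 159)) (PT.lf (nat_lit 30780) (nat_lit 6) (nat_lit 405) (nat_lit 2) (nat_lit 202) (nat_lit 210) (nat_lit 158)))) (PT.nd (nat_lit 156) (PT.nd (nat_lit 78) (PT.lf (nat_lit 30020) (nat_lit 6) (nat_lit 395) (nat_lit 2) (nat_lit 203) (nat_lit 210) (nat_lit 157)) (PT.lf (nat_lit 29260) (nat_lit 6) (nat_lit 385) (nat_lit 2) (nat_lit 204) (nat_lit 210) (nat_lit 156))) (PT.nd (nat_lit 78) (PT.lf (nat_lit 28500) (nat_lit 6) (nat_lit 375) (nat_lit 2) (nat_lit 205) (nat_lit 210) (nat_lit 155)) (PT.lf (nat_lit 27740) (nat_lit 6) (nat_lit 365) (nat_lit 2) (nat_lit 206) (nat_lit 210) (nat_lit 154))))) (PT.nd (nat_lit 312) (PT.nd (nat_lit 156) (PT.nd (nat_lit 78) (PT.lf (nat_lit 27056) (nat_lit 6) (nat_lit 356) (nat_lit 2) (nat_lit 207) (nat_lit 210) (nat_lit 153)) (PT.lf (nat_lit 26372) (nat_lit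 6) (nat_lit 347) (nat_lit 2) (nat_lit 208) (nat_lit 210) (nat_lit 152))) (PT.nd (nat_lit 78) (PT.lf (nat_lit 25688) (nat_lit 6) (nat_lit 338) (nat_lit 2) (nat_lit 209) (nat_lit 210) (nat_lit 151)) (PT.lf (nat_lit 25004) (nat_lit 3) (nat_lit 329) (nat_lit 0) (nat_lit 210) (nat_lit 210) (nat_lit 150)))) (PT.nd (nat_lit 156) (PT.nd (nat_lit 78) (PT.lf (nat_lit 24320) (nat_lit 6) (nat_lit 320) (nat_lit 0) (nat_lit 211) (nat_lit 210) (nat_lit 149)) (PT.lf (nat_lit 23636) (nat_lit 6) (nat_lit 311) (nat_lit 0) (nat_lit 212) (nat_lit 210) (nat_lit 148))) (PT.nd (nat_lit 78) (PT.lf (nat_lit 22952) (nat_lit 6) (nat_lit 302) (nat_lit 0) (nat_lit 213) (nat_lit 210) (nat_lit 147)) (PT.lf (nat_lit 22268) (nat_lit 6) (nat_lit 293) (nat_lit 0) (nat_lit 214) (nat_lit 210) (nat_lit 146)))))) (PT.nd (nat_lit 53196) (PT.nd (nat_lit 312) (PT.nd (nat_lit 156) (PT.nd (nat_lit 78) (PT.lf (nat_lit 21660) (nat_lit 6) (nat_lit 285) (nat_lit 0) (nat_lit 215) (nat_lit 210) (nat_lit 145))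 (PT.lf (nat_lit 20976) (nat_lit 6) (nat_lit 276) (nat_lit 0) (nat_lit 216) (nat_lit 210) (nat_lit 144))) (PT.nd (nat_lit 78) (PT.lf (nat_lit 20368) (nat_lit 6) (nat_lit 268) (nat_lit 0) (nat_lit 217) (nat_lit 210) (nat_lit 143)) (PT.lf (nat_lit 19760) (nat_lit 6) (nat_lit 260) (nat_lit 0) (nat_lit 218) (nat_lit 210) (nat_lit 142)))) (PT.nd (nat_lit 156) (PT.nd (nat_lit 78) (PT.lf (nat_lit 19152) (nat_lit 6) (nat_lit 252) (nat_lit 0) (nat_lit 219) (nat_lit 210) (nat_lit 141)) (PT.lf (nat_lit 18544) (nat_lit 6) (nat_lit 244) (nat_lit 0) (nat_lit 220) (nat_lit 210) (nat_lit 140))) (PT.nd (nat_lit 78) (PT.lf (nat_lit 18012) (nat_lit 6) (nat_lit 237) (nat_lit 0) (nat_lit 221) (nat_lit 210) (nat_lit 139)) (PT.lf (nat_lit 17404) (nat_lit 6) (nat_lit 229) (nat_lit 0) (nat_lit 222) (nat_lit 210) (nat_lit 138))))) (PT.nd (nat_lit 312) (PT.nd (nat_lit 156) (PT.nd (nat_lit 78) (PT.lf (nat_lit 16416) (nat_lit 6) (nat_lit 216) (nat_lit 5) (nat_lit 136) (nat_lit 211) (nat_lit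 223)) (PT.lf (nat_lit 16948) (nat_lit 6) (nat_lit 223) (nat_lit 5) (nat_lit 137) (nat_lit 211) (nat_lit 222))) (PT.nd (nat_lit 78) (PT.lf (nat_lit 17480) (nat_lit 6) (nat_lit 230) (nat_lit 5) (nat_lit 138) (nat_lit 211) (nat_lit 221)) (PT.lf (nat_lit 18088) (nat_lit 6) (nat_lit 238) (nat_lit 5) (nat_lit 139) (nat_lit 211) (nat_lit 220)))) (PT.nd (nat_lit 156) (PT.nd (nat_lit 78) (PT.lf (nat_lit 18620) (nat_lit 6) (nat_lit 245) (nat_lit 5) (nat_lit 140) (nat_lit 211) (nat_lit 219)) (PT.lf (nat_lit 19228) (nat_lit 6) (nat_lit 253) (nat_lit 5) (nat_lit 141) (nat_lit 211) (nat_lit 218))) (PT.nd (nat_lit 78) (PT.lf (nat_lit 19836) (nat_lit 6) (nat_lit 261) (nat_lit 5) (nat_lit 142) (nat_lit 211) (nat_lit 217)) (PT.lf (nat_lit 20444) (nat_lit 6) (nat_lit 269) (nat_lit 5) (nat_lit 143) (nat_lit 211) (nat_lit 216))))))))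
noncomputable def pc49 : PT := (PT.nd (nat_lit 2340) (PT.nd (nat_lit 1170) (PT.nd (nat_lit 546) (PT.nd (nat_lit 234) (PT.nd (nat_lit 78) (PT.lf (nat_lit 21052) (nat_lit 6) (nat_lit 277) (nat_lit 5) (nat_lit 144) (nat_lit 211) (nat_lit 215)) (PT.nd (nat_lit 78) (PT.lf (nat_lit 21736) (nat_lit 6) (nat_lit 286) (nat_lit 5) (nat_lit 145) (nat_lit 211) (nat_lit 214)) (PT.lf (nat_lit 22344) (nat_lit 6) (nat_lit 294) (nat_lit 5) (nat_lit 146) (nat_lit 211) (nat_lit 213)))) (PT.nd (nat_lit 156) (PT.nd (nat_lit 78) (PT.lf (nat_lit 23028) (nat_lit 6) (nat_lit 303) (nat_lit 5) (nat_lit 147) (nat_lit 211) (nat_lit 212)) (PT.lf (nat_lit 23712) (nat_lit 3) (nat_lit 312) (nat_lit 4) (nat_lit 148) (nat_lit 211) (nat_lit 211))) (PT.nd (nat_lit 78) (PT.lf (nat_lit 24320) (nat_lit 6) (nat_lit 320) (nat_lit 4) (nat_lit 149) (nat_lit 211) (nat_lit 210)) (PT.lf (nat_lit 24928) (nat_lit 6) (nat_lit 328) (nat_lit 4) (nat_lit 150) (nat_lit 211) (nat_lit 209))))) (PT.nd (nat_lit 312)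 (PT.nd (nat_lit 156) (PT.nd (nat_lit 78) (PT.lf (nat_lit 25612) (nat_lit 6) (nat_lit 337) (nat_lit 4) (nat_lit 151) (nat_lit 211) (nat_lit 208)) (PT.lf (nat_lit 26296) (nat_lit 6) (nat_lit 346) (nat_lit 4) (nat_lit 152) (nat_lit 211) (nat_lit 207))) (PT.nd (nat_lit 78) (PT.lf (nat_lit 26980) (nat_lit 6) (nat_lit 355) (nat_lit 4) (nat_lit 153) (nat_lit 211) (nat_lit 206)) (PT.lf (nat_lit 27664) (nat_lit 6) (nat_lit 364) (nat_lit 4) (nat_lit 154) (nat_lit 211) (nat_lit 205)))) (PT.nd (nat_lit 156) (PT.nd (nat_lit 78) (PT.lf (nat_lit 28424) (nat_lit 6) (nat_lit 374) (nat_lit 4) (nat_lit 155) (nat_lit 211) (nat_lit 204)) (PT.lf (nat_lit 29184) (nat_lit 6) (nat_lit 384) (nat_lit 4) (nat_lit 156) (nat_lit 211) (nat_lit 203))) (PT.nd (nat_lit 78) (PT.lf (nat_lit 29944) (nat_lit 6) (nat_lit 394) (nat_lit 4) (nat_lit 157) (nat_lit 211) (nat_lit 202)) (PT.lf (nat_lit 30704) (nat_lit 6) (nat_lit 404) (nat_lit 4) (nat_lit 158) (nat_lit 211) (nat_lit 201)))))) (PT.nd (nat_lit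 546) (PT.nd (nat_lit 234) (PT.nd (nat_lit 78) (PT.lf (nat_lit 31540) (nat_lit 6) (nat_lit 415) (nat_lit 4) (nat_lit 159) (nat_lit 211) (nat_lit 200)) (PT.nd (nat_lit 78) (PT.lf (nat_lit 32376) (nat_lit 6) (nat_lit 426) (nat_lit 4) (nat_lit 160) (nat_lit 211) (nat_lit 199)) (PT.lf (nat_lit 33288) (nat_lit 6) (nat_lit 438) (nat_lit 4) (nat_lit 161) (nat_lit 211) (nat_lit 198)))) (PT.nd (nat_lit 156) (PT.nd (nat_lit 78) (PT.lf (nat_lit 34124) (nat_lit 6) (nat_lit 449) (nat_lit 4) (nat_lit 162) (nat_lit 211) (nat_lit 197)) (PT.lf (nat_lit 35036) (nat_lit 6) (nat_lit 461) (nat_lit 4) (nat_lit 163) (nat_lit 211) (nat_lit 196))) (PT.nd (nat_lit 78) (PT.lf (nat_lit 35948) (nat_lit 6) (nat_lit 473) (nat_lit 4) (nat_lit 164) (nat_lit 211) (nat_lit 195)) (PT.lf (nat_lit 37088) (nat_lit 6) (nat_lit 488) (nat_lit 4) (nat_lit 165) (nat_lit 211) (nat_lit 194))))) (PT.nd (nat_lit 312) (PT.nd (nat_lit 156) (PT.nd (nat_lit 78) (PT.lf (nat_lit 38912) (nat_lit 6) (nat_lit 512) (nat_lit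 4) (nat_lit 166) (nat_lit 211) (nat_lit 193)) (PT.lf (nat_lit 40660) (nat_lit 6) (nat_lit 535) (nat_lit 4) (nat_lit 167) (nat_lit 211) (nat_lit 192))) (PT.nd (nat_lit 78) (PT.lf (nat_lit 42332) (nat_lit 6) (nat_lit 557) (nat_lit 4) (nat_lit 168) (nat_lit 211) (nat_lit 191)) (PT.lf (nat_lit 43928) (nat_lit 6) (nat_lit 578) (nat_lit 4) (nat_lit 169) (nat_lit 211) (nat_lit 190)))) (PT.nd (nat_lit 156) (PT.nd (nat_lit 78) (PT.lf (nat_lit 43852) (nat_lit 6) (nat_lit 577) (nat_lit 4) (nat_lit 170) (nat_lit 211) (nat_lit 189)) (PT.lf (nat_lit 43776) (nat_lit 6) (nat_lit 576) (nat_lit 4) (nat_lit 171) (nat_lit 211) (nat_lit 188))) (PT.nd (nat_lit 78) (PT.lf (nat_lit 43700) (nat_lit 6) (nat_lit 575) (nat_lit 4) (nat_lit 172) (nat_lit 211) (nat_lit 187)) (PT.lf (nat_lit 43624) (nat_lit 6) (nat_lit 574) (nat_lit 4) (nat_lit 173) (nat_lit 211) (nat_lit 186))))))) (PT.nd (nat_lit 1170) (PT.nd (nat_lit 546) (PT.nd (nat_lit 234) (PT.nd (nat_lit 78) (PT.lf (nat_lit 43548) (nat_lit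 6) (nat_lit 573) (nat_lit 4) (nat_lit 174) (nat_lit 211) (nat_lit 185)) (PT.nd (nat_lit 78) (PT.lf (nat_lit 43472) (nat_lit 6) (nat_lit 572) (nat_lit 4) (nat_lit 175) (nat_lit 211) (nat_lit 184)) (PT.lf (nat_lit 43396) (nat_lit 6) (nat_lit 571) (nat_lit 4) (nat_lit 176) (nat_lit 211) (nat_lit 183)))) (PT.nd (nat_lit 156) (PT.nd (nat_lit 78) (PT.lf (nat_lit 43320) (nat_lit 6) (nat_lit 570) (nat_lit 4) (nat_lit 177) (nat_lit 211) (nat_lit 182)) (PT.lf (nat_lit 43244) (nat_lit 6) (nat_lit 569) (nat_lit 4) (nat_lit 178) (nat_lit 211) (nat_lit 181))) (PT.nd (nat_lit 78) (PT.lf (nat_lit 43168) (nat_lit 6) (nat_lit 568) (nat_lit 4) (nat_lit 179) (nat_lit 211) (nat_lit 180)) (PT.lf (nat_lit 43168) (nat_lit 6) (nat_lit 568) (nat_lit 2) (nat_lit 180) (nat_lit 211) (nat_lit 179))))) (PT.nd (nat_lit 312) (PT.nd (nat_lit 156) (PT.nd (nat_lit 78) (PT.lf (nat_lit 43244) (nat_lit 6) (nat_lit 569) (nat_lit 2) (nat_lit 181) (nat_lit 211) (nat_lit 178)) (PT.lf (nat_lit 43320) (nat_lit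 6) (nat_lit 570) (nat_lit 2) (nat_lit 182) (nat_lit 211) (nat_lit 177))) (PT.nd (nat_lit 78) (PT.lf (nat_lit 43396) (nat_lit 6) (nat_lit 571) (nat_lit 2) (nat_lit 183) (nat_lit 211) (nat_lit 176)) (PT.lf (nat_lit 43472) (nat_lit 6) (nat_lit 572) (nat_lit 2) (nat_lit 184) (nat_lit 211) (nat_lit 175)))) (PT.nd (nat_lit 156) (PT.nd (nat_lit 78) (PT.lf (nat_lit 43548) (nat_lit 6) (nat_lit 573) (nat_lit 2) (nat_lit 185) (nat_lit 211) (nat_lit 174)) (PT.lf (nat_lit 43624) (nat_lit 6) (nat_lit 574) (nat_lit 2) (nat_lit 186) (nat_lit 211) (nat_lit 173))) (PT.nd (nat_lit 78) (PT.lf (nat_lit 43700) (nat_lit 6) (nat_lit 575) (nat_lit 2) (nat_lit 187) (nat_lit 211) (nat_lit 172)) (PT.lf (nat_lit 43776) (nat_lit 6) (nat_lit 576) (nat_lit 2) (nat_lit 188) (nat_lit 211) (nat_lit 171)))))) (PT.nd (nat_lit 624) (PT.nd (nat_lit 312) (PT.nd (nat_lit 156) (PT.nd (nat_lit 78) (PT.lf (nat_lit 43852) (nat_lit 6) (nat_lit 577) (nat_lit 2) (nat_lit 189) (nat_lit 211) (nat_lit 170)) (PT.lf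 (nat_lit 43928) (nat_lit 6) (nat_lit 578) (nat_lit 2) (nat_lit 190) (nat_lit 211) (nat_lit 169))) (PT.nd (nat_lit 78) (PT.lf (nat_lit 42332) (nat_lit 6) (nat_lit 557) (nat_lit 2) (nat_lit 191) (nat_lit 211) (nat_lit 168)) (PT.lf (nat_lit 40660) (nat_lit 6) (nat_lit 535) (nat_lit 2) (nat_lit 192) (nat_lit 211) (nat_lit 167)))) (PT.nd (nat_lit 156) (PT.nd (nat_lit 78) (PT.lf (nat_lit 38912) (nat_lit 6) (nat_lit 512) (nat_lit 2) (nat_lit 193) (nat_lit 211) (nat_lit 166)) (PT.lf (nat_lit 37088) (nat_lit 6) (nat_lit 488) (nat_lit 2) (nat_lit 194) (nat_lit 211) (nat_lit 165))) (PT.nd (nat_lit 78) (PT.lf (nat_lit 35948) (nat_lit 6) (nat_lit 473) (nat_lit 2) (nat_lit 195) (nat_lit 211) (nat_lit 164)) (PT.lf (nat_lit 35036) (nat_lit 6) (nat_lit 461) (nat_lit 2) (nat_lit 196) (nat_lit 211) (nat_lit 163))))) (PT.nd (nat_lit 312) (PT.nd (nat_lit 156) (PT.nd (nat_lit 78) (PT.lf (nat_lit 34124) (nat_lit 6) (nat_lit 449) (nat_lit 2) (nat_lit 197) (nat_lit 211) (nat_lit 162))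 (PT.lf (nat_lit 33288) (nat_lit 6) (nat_lit 438) (nat_lit 2) (nat_lit 198) (nat_lit 211) (nat_lit 161))) (PT.nd (nat_lit 78) (PT.lf (nat_lit 32376) (nat_lit 6) (nat_lit 426) (nat_lit 2) (nat_lit 199) (nat_lit 211) (nat_lit 160)) (PT.lf (nat_lit 31540) (nat_lit 6) (nat_lit 415) (nat_lit 2) (nat_lit 200) (nat_lit 211) (nat_lit 159)))) (PT.nd (nat_lit 156) (PT.nd (nat_lit 78) (PT.lf (nat_lit 30704) (nat_lit 6) (nat_lit 404) (nat_lit 2) (nat_lit 201) (nat_lit 211) (nat_lit 158)) (PT.lf (nat_lit 29944) (nat_lit 6) (nat_lit 394) (nat_lit 2) (nat_lit 202) (nat_lit 211) (nat_lit 157))) (PT.nd (nat_lit 78) (PT.lf (nat_lit 29184) (nat_lit 6) (nat_lit 384) (nat_lit 2) (nat_lit 203) (nat_lit 211) (nat_lit 156)) (PT.lf (nat_lit 28424) (nat_lit 6) (nat_lit 374) (nat_lit 2) (nat_lit 204) (nat_lit 211) (nat_lit 155))))))))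
noncomputable def pc50 : PT := (PT.nd (nat_lit 54756) (PT.nd (nat_lit 1170) (PT.nd (nat_lit 546) (PT.nd (nat_lit 234) (PT.nd (nat_lit 78) (PT.lf (nat_lit 27664) (nat_lit 6) (nat_lit 364) (nat_lit 2) (nat_lit 205) (nat_lit 211) (nat_lit 154)) (PT.nd (nat_lit 78) (PT.lf (nat_lit 26980) (nat_lit 6) (nat_lit 355) (nat_lit 2) (nat_lit 206) (nat_lit 211) (nat_lit 153)) (PT.lf (nat_lit 26296) (nat_lit 6) (nat_lit 346) (nat_lit 2) (nat_lit 207) (nat_lit 211) (nat_lit 152)))) (PT.nd (nat_lit 156) (PT.nd (nat_lit 78) (PT.lf (nat_lit 25612) (nat_lit 6) (nat_lit 337) (nat_lit 2) (nat_lit 208) (nat_lit 211) (nat_lit 151)) (PT.lf (nat_lit 24928) (nat_lit 6) (nat_lit 328) (nat_lit 2) (nat_lit 209) (nat_lit 211) (nat_lit 150))) (PT.nd (nat_lit 78) (PT.lf (nat_lit 24320) (nat_lit 6) (nat_lit 320) (nat_lit 2) (nat_lit 210) (nat_lit 211) (nat_lit 149)) (PT.lf (nat_lit 23712) (nat_lit 3) (nat_lit 312) (nat_lit 0) (nat_lit 211) (nat_lit 211) (nat_lit 148))))) (PT.nd (nat_lit 312)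 (PT.nd (nat_lit 156) (PT.nd (nat_lit 78) (PT.lf (nat_lit 23028) (nat_lit 6) (nat_lit 303) (nat_lit 0) (nat_lit 212) (nat_lit 211) (nat_lit 147)) (PT.lf (nat_lit 22344) (nat_lit 6) (nat_lit 294) (nat_lit 0) (nat_lit 213) (nat_lit 211) (nat_lit 146))) (PT.nd (nat_lit 78) (PT.lf (nat_lit 21736) (nat_lit 6) (nat_lit 286) (nat_lit 0) (nat_lit 214) (nat_lit 211) (nat_lit 145)) (PT.lf (nat_lit 21052) (nat_lit 6) (nat_lit 277) (nat_lit 0) (nat_lit 215) (nat_lit 211) (nat_lit 144)))) (PT.nd (nat_lit 156) (PT.nd (nat_lit 78) (PT.lf (nat_lit 20444) (nat_lit 6) (nat_lit 269) (nat_lit 0) (nat_lit 216) (nat_lit 211) (nat_lit 143)) (PT.lf (nat_lit 19836) (nat_lit 6) (nat_lit 261) (nat_lit 0) (nat_lit 217) (nat_lit 211) (nat_lit 142))) (PT.nd (nat_lit 78) (PT.lf (nat_lit 19228) (nat_lit 6) (nat_lit 253) (nat_lit 0) (nat_lit 218) (nat_lit 211) (nat_lit 141)) (PT.lf (nat_lit 18620) (nat_lit 6) (nat_lit 245) (nat_lit 0) (nat_lit 219) (nat_lit 211) (nat_lit 140)))))) (PT.nd (nat_lit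 52962) (PT.nd (nat_lit 234) (PT.nd (nat_lit 78) (PT.lf (nat_lit 18088) (nat_lit 6) (nat_lit 238) (nat_lit 0) (nat_lit 220) (nat_lit 211) (nat_lit 139)) (PT.nd (nat_lit 78) (PT.lf (nat_lit 17480) (nat_lit 6) (nat_lit 230) (nat_lit 0) (nat_lit 221) (nat_lit 211) (nat_lit 138)) (PT.lf (nat_lit 16948) (nat_lit 6) (nat_lit 223) (nat_lit 0) (nat_lit 222) (nat_lit 211) (nat_lit 137)))) (PT.nd (nat_lit 52572) (PT.nd (nat_lit 52494) (PT.lf (nat_lit 16416) (nat_lit 6) (nat_lit 216) (nat_lit 0) (nat_lit 223) (nat_lit 211) (nat_lit 136)) (PT.lf (nat_lit 15960) (nat_lit 6) (nat_lit 210) (nat_lit 5) (nat_lit 135) (nat_lit 212) (nat_lit 223))) (PT.nd (nat_lit 78) (PT.lf (nat_lit 16492) (nat_lit 6) (nat_lit 217) (nat_lit 5) (nat_lit 136) (nat_lit 212) (nat_lit 222)) (PT.lf (nat_lit 17024) (nat_lit 6) (nat_lit 224) (nat_lit 5) (nat_lit 137) (nat_lit 212) (nat_lit 221))))) (PT.nd (nat_lit 312) (PT.nd (nat_lit 156) (PT.nd (nat_lit 78) (PT.lf (nat_lit 17556) (nat_lit 6) (nat_lit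 231) (nat_lit 5) (nat_lit 138) (nat_lit 212) (nat_lit 220)) (PT.lf (nat_lit 18164) (nat_lit 6) (nat_lit 239) (nat_lit 5) (nat_lit 139) (nat_lit 212) (nat_lit 219))) (PT.nd (nat_lit 78) (PT.lf (nat_lit 18696) (nat_lit 6) (nat_lit 246) (nat_lit 5) (nat_lit 140) (nat_lit 212) (nat_lit 218)) (PT.lf (nat_lit 19304) (nat_lit 6) (nat_lit 254) (nat_lit 5) (nat_lit 141) (nat_lit 212) (nat_lit 217)))) (PT.nd (nat_lit 156) (PT.nd (nat_lit 78) (PT.lf (nat_lit 19912) (nat_lit 6) (nat_lit 262) (nat_lit 5) (nat_lit 142) (nat_lit 212) (nat_lit 216)) (PT.lf (nat_lit 20520) (nat_lit 6) (nat_lit 270) (nat_lit 5) (nat_lit 143) (nat_lit 212) (nat_lit 215))) (PT.nd (nat_lit 78) (PT.lf (nat_lit 21128) (nat_lit 6) (nat_lit 278) (nat_lit 5) (nat_lit 144) (nat_lit 212) (nat_lit 214)) (PT.lf (nat_lit 21812) (nat_lit 6) (nat_lit 287) (nat_lit 5) (nat_lit 145) (nat_lit 212) (nat_lit 213))))))) (PT.nd (nat_lit 1170) (PT.nd (nat_lit 546) (PT.nd (nat_lit 234) (PT.nd (nat_lit 78) (PT.lf (nat_lit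 22420) (nat_lit 3) (nat_lit 295) (nat_lit 4) (nat_lit 146) (nat_lit 212) (nat_lit 212)) (PT.nd (nat_lit 78) (PT.lf (nat_lit 23028) (nat_lit 6) (nat_lit 303) (nat_lit 4) (nat_lit 147) (nat_lit 212) (nat_lit 211)) (PT.lf (nat_lit 23636) (nat_lit 6) (nat_lit 311) (nat_lit 4) (nat_lit 148) (nat_lit 212) (nat_lit 210)))) (PT.nd (nat_lit 156) (PT.nd (nat_lit 78) (PT.lf (nat_lit 24244) (nat_lit 6) (nat_lit 319) (nat_lit 4) (nat_lit 149) (nat_lit 212) (nat_lit 209)) (PT.lf (nat_lit 24852) (nat_lit 6) (nat_lit 327) (nat_lit 4) (nat_lit 150) (nat_lit 212) (nat_lit 208))) (PT.nd (nat_lit 78) (PT.lf (nat_lit 25536) (nat_lit 6) (nat_lit 336) (nat_lit 4) (nat_lit 151) (nat_lit 212) (nat_lit 207)) (PT.lf (nat_lit 26220) (nat_lit 6) (nat_lit 345) (nat_lit 4) (nat_lit 152) (nat_lit 212) (nat_lit 206))))) (PT.nd (nat_lit 312) (PT.nd (nat_lit 156) (PT.nd (nat_lit 78) (PT.lf (nat_lit 26904) (nat_lit 6) (nat_lit 354) (nat_lit 4) (nat_lit 153) (nat_lit 212) (nat_lit 205)) (PT.lf (nat_lit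 27588) (nat_lit 6) (nat_lit 363) (nat_lit 4) (nat_lit 154) (nat_lit 212) (nat_lit 204))) (PT.nd (nat_lit 78) (PT.lf (nat_lit 28348) (nat_lit 6) (nat_lit 373) (nat_lit 4) (nat_lit 155) (nat_lit 212) (nat_lit 203)) (PT.lf (nat_lit 29108) (nat_lit 6) (nat_lit 383) (nat_lit 4) (nat_lit 156) (nat_lit 212) (nat_lit 202)))) (PT.nd (nat_lit 156) (PT.nd (nat_lit 78) (PT.lf (nat_lit 29868) (nat_lit 6) (nat_lit 393) (nat_lit 4) (nat_lit 157) (nat_lit 212) (nat_lit 201)) (PT.lf (nat_lit 30628) (nat_lit 6) (nat_lit 403) (nat_lit 4) (nat_lit 158) (nat_lit 212) (nat_lit 200))) (PT.nd (nat_lit 78) (PT.lf (nat_lit 31464) (nat_lit 6) (nat_lit 414) (nat_lit 4) (nat_lit 159) (nat_lit 212) (nat_lit 199)) (PT.lf (nat_lit 32300) (nat_lit 6) (nat_lit 425) (nat_lit 4) (nat_lit 160) (nat_lit 212) (nat_lit 198)))))) (PT.nd (nat_lit 624) (PT.nd (nat_lit 312) (PT.nd (nat_lit 156) (PT.nd (nat_lit 78) (PT.lf (nat_lit 33212) (nat_lit 6) (nat_lit 437) (nat_lit 4) (nat_lit 161) (nat_lit 212)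 (nat_lit 197)) (PT.lf (nat_lit 34048) (nat_lit 6) (nat_lit 448) (nat_lit 4) (nat_lit 162) (nat_lit 212) (nat_lit 196))) (PT.nd (nat_lit 78) (PT.lf (nat_lit 34960) (nat_lit 6) (nat_lit 460) (nat_lit 4) (nat_lit 163) (nat_lit 212) (nat_lit 195)) (PT.lf (nat_lit 35872) (nat_lit 6) (nat_lit 472) (nat_lit 4) (nat_lit 164) (nat_lit 212) (nat_lit 194)))) (PT.nd (nat_lit 156) (PT.nd (nat_lit 78) (PT.lf (nat_lit 37012) (nat_lit 6) (nat_lit 487) (nat_lit 4) (nat_lit 165) (nat_lit 212) (nat_lit 193)) (PT.lf (nat_lit 38836) (nat_lit 6) (nat_lit 511) (nat_lit 4) (nat_lit 166) (nat_lit 212) (nat_lit 192))) (PT.nd (nat_lit 78) (PT.lf (nat_lit 40584) (nat_lit 6) (nat_lit 534) (nat_lit 4) (nat_lit 167) (nat_lit 212) (nat_lit 191)) (PT.lf (nat_lit 42256) (nat_lit 6) (nat_lit 556) (nat_lit 4) (nat_lit 168) (nat_lit 212) (nat_lit 190))))) (PT.nd (nat_lit 312) (PT.nd (nat_lit 156) (PT.nd (nat_lit 78) (PT.lf (nat_lit 42180) (nat_lit 6) (nat_lit 555) (nat_lit 4) (nat_lit 169) (nat_lit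 212) (nat_lit 189)) (PT.lf (nat_lit 42104) (nat_lit 6) (nat_lit 554) (nat_lit 4) (nat_lit 170) (nat_lit 212) (nat_lit 188))) (PT.nd (nat_lit 78) (PT.lf (nat_lit 42028) (nat_lit 6) (nat_lit 553) (nat_lit 4) (nat_lit 171) (nat_lit 212) (nat_lit 187)) (PT.lf (nat_lit 41952) (nat_lit 6) (nat_lit 552) (nat_lit 4) (nat_lit 172) (nat_lit 212) (nat_lit 186)))) (PT.nd (nat_lit 156) (PT.nd (nat_lit 78) (PT.lf (nat_lit 41876) (nat_lit 6) (nat_lit 551) (nat_lit 4) (nat_lit 173) (nat_lit 212) (nat_lit 185)) (PT.lf (nat_lit 41800) (nat_lit 6) (nat_lit 550) (nat_lit 4) (nat_lit 174) (nat_lit 212) (nat_lit 184))) (PT.nd (nat_lit 78) (PT.lf (nat_lit 41724) (nat_lit 6) (nat_lit 549) (nat_lit 4) (nat_lit 175) (nat_lit 212) (nat_lit 183)) (PT.lf (nat_lit 41648) (nat_lit 6) (nat_lit 548) (nat_lit 4) (nat_lit 176) (nat_lit 212) (nat_lit 182))))))))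
noncomputable def pc51 : PT := (PT.nd (nat_lit 2418) (PT.nd (nat_lit 1170) (PT.nd (nat_lit 546) (PT.nd (nat_lit 234) (PT.nd (nat_lit 78) (PT.lf (nat_lit 41572) (nat_lit 6) (nat_lit 547) (nat_lit 4) (nat_lit 177) (nat_lit 212) (nat_lit 181)) (PT.nd (nat_lit 78) (PT.lf (nat_lit 41496) (nat_lit 6) (nat_lit 546) (nat_lit 4) (nat_lit 178) (nat_lit 212) (nat_lit 180)) (PT.lf (nat_lit 41420) (nat_lit 3) (nat_lit 545) (nat_lit 2) (nat_lit 179) (nat_lit 212) (nat_lit 179)))) (PT.nd (nat_lit 156) (PT.nd (nat_lit 78) (PT.lf (nat_lit 41496) (nat_lit 6) (nat_lit 546) (nat_lit 2) (nat_lit 180) (nat_lit 212) (nat_lit 178)) (PT.lf (nat_lit 41572) (nat_lit 6) (nat_lit 547) (nat_lit 2) (nat_lit 181) (nat_lit 212) (nat_lit 177))) (PT.nd (nat_lit 78) (PT.lf (nat_lit 41648) (nat_lit 6) (nat_lit 548) (nat_lit 2) (nat_lit 182) (nat_lit 212) (nat_lit 176)) (PT.lf (nat_lit 41724) (nat_lit 6) (nat_lit 549) (nat_lit 2) (nat_lit 183) (nat_lit 212) (nat_lit 175))))) (PT.nd (nat_lit 312)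 (PT.nd (nat_lit 156) (PT.nd (nat_lit 78) (PT.lf (nat_lit 41800) (nat_lit 6) (nat_lit 550) (nat_lit 2) (nat_lit 184) (nat_lit 212) (nat_lit 174)) (PT.lf (nat_lit 41876) (nat_lit 6) (nat_lit 551) (nat_lit 2) (nat_lit 185) (nat_lit 212) (nat_lit 173))) (PT.nd (nat_lit 78) (PT.lf (nat_lit 41952) (nat_lit 6) (nat_lit 552) (nat_lit 2) (nat_lit 186) (nat_lit 212) (nat_lit 172)) (PT.lf (nat_lit 42028) (nat_lit 6) (nat_lit 553) (nat_lit 2) (nat_lit 187) (nat_lit 212) (nat_lit 171)))) (PT.nd (nat_lit 156) (PT.nd (nat_lit 78) (PT.lf (nat_lit 42104) (nat_lit 6) (nat_lit 554) (nat_lit 2) (nat_lit 188) (nat_lit 212) (nat_lit 170)) (PT.lf (nat_lit 42180) (nat_lit 6) (nat_lit 555) (nat_lit 2) (nat_lit 189) (nat_lit 212) (nat_lit 169))) (PT.nd (nat_lit 78) (PT.lf (nat_lit 42256) (nat_lit 6) (nat_lit 556) (nat_lit 2) (nat_lit 190) (nat_lit 212) (nat_lit 168)) (PT.lf (nat_lit 40584) (nat_lit 6) (nat_lit 534) (nat_lit 2) (nat_lit 191) (nat_lit 212) (nat_lit 167)))))) (PT.nd (nat_lit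 624) (PT.nd (nat_lit 312) (PT.nd (nat_lit 156) (PT.nd (nat_lit 78) (PT.lf (nat_lit 38836) (nat_lit 6) (nat_lit 511) (nat_lit 2) (nat_lit 192) (nat_lit 212) (nat_lit 166)) (PT.lf (nat_lit 37012) (nat_lit 6) (nat_lit 487) (nat_lit 2) (nat_lit 193) (nat_lit 212) (nat_lit 165))) (PT.nd (nat_lit 78) (PT.lf (nat_lit 35872) (nat_lit 6) (nat_lit 472) (nat_lit 2) (nat_lit 194) (nat_lit 212) (nat_lit 164)) (PT.lf (nat_lit 34960) (nat_lit 6) (nat_lit 460) (nat_lit 2) (nat_lit 195) (nat_lit 212) (nat_lit 163)))) (PT.nd (nat_lit 156) (PT.nd (nat_lit 78) (PT.lf (nat_lit 34048) (nat_lit 6) (nat_lit 448) (nat_lit 2) (nat_lit 196) (nat_lit 212) (nat_lit 162)) (PT.lf (nat_lit 33212) (nat_lit 6) (nat_lit 437) (nat_lit 2) (nat_lit 197) (nat_lit 212) (nat_lit 161))) (PT.nd (nat_lit 78) (PT.lf (nat_lit 32300) (nat_lit 6) (nat_lit 425) (nat_lit 2) (nat_lit 198) (nat_lit 212) (nat_lit 160)) (PT.lf (nat_lit 31464) (nat_lit 6) (nat_lit 414) (nat_lit 2) (nat_lit 199) (nat_lit 212) (nat_lit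 159))))) (PT.nd (nat_lit 312) (PT.nd (nat_lit 156) (PT.nd (nat_lit 78) (PT.lf (nat_lit 30628) (nat_lit 6) (nat_lit 403) (nat_lit 2) (nat_lit 200) (nat_lit 212) (nat_lit 158)) (PT.lf (nat_lit 29868) (nat_lit 6) (nat_lit 393) (nat_lit 2) (nat_lit 201) (nat_lit 212) (nat_lit 157))) (PT.nd (nat_lit 78) (PT.lf (nat_lit 29108) (nat_lit 6) (nat_lit 383) (nat_lit 2) (nat_lit 202) (nat_lit 212) (nat_lit 156)) (PT.lf (nat_lit 28348) (nat_lit 6) (nat_lit 373) (nat_lit 2) (nat_lit 203) (nat_lit 212) (nat_lit 155)))) (PT.nd (nat_lit 156) (PT.nd (nat_lit 78) (PT.lf (nat_lit 27588) (nat_lit 6) (nat_lit 363) (nat_lit 2) (nat_lit 204) (nat_lit 212) (nat_lit 154)) (PT.lf (nat_lit 26904) (nat_lit 6) (nat_lit 354) (nat_lit 2) (nat_lit 205) (nat_lit 212) (nat_lit 153))) (PT.nd (nat_lit 78) (PT.lf (nat_lit 26220) (nat_lit 6) (nat_lit 345) (nat_lit 2) (nat_lit 206) (nat_lit 212) (nat_lit 152)) (PT.lf (nat_lit 25536) (nat_lit 6) (nat_lit 336) (nat_lit 2) (nat_lit 207) (nat_lit 212)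 (nat_lit 151))))))) (PT.nd (nat_lit 1170) (PT.nd (nat_lit 546) (PT.nd (nat_lit 234) (PT.nd (nat_lit 78) (PT.lf (nat_lit 24852) (nat_lit 6) (nat_lit 327) (nat_lit 2) (nat_lit 208) (nat_lit 212) (nat_lit 150)) (PT.nd (nat_lit 78) (PT.lf (nat_lit 24244) (nat_lit 6) (nat_lit 319) (nat_lit 2) (nat_lit 209) (nat_lit 212) (nat_lit 149)) (PT.lf (nat_lit 23636) (nat_lit 6) (nat_lit 311) (nat_lit 2) (nat_lit 210) (nat_lit 212) (nat_lit 148)))) (PT.nd (nat_lit 156) (PT.nd (nat_lit 78) (PT.lf (nat_lit 23028) (nat_lit 6) (nat_lit 303) (nat_lit 2) (nat_lit 211) (nat_lit 212) (nat_lit 147)) (PT.lf (nat_lit 22420) (nat_lit 3) (nat_lit 295) (nat_lit 0) (nat_lit 212) (nat_lit 212) (nat_lit 146))) (PT.nd (nat_lit 78) (PT.lf (nat_lit 21812) (nat_lit 6) (nat_lit 287) (nat_lit 0) (nat_lit 213) (nat_lit 212) (nat_lit 145)) (PT.lf (nat_lit 21128) (nat_lit 6) (nat_lit 278) (nat_lit 0) (nat_lit 214) (nat_lit 212) (nat_lit 144))))) (PT.nd (nat_lit 312) (PT.nd (nat_lit 156) (PT.nd (nat_lit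 78) (PT.lf (nat_lit 20520) (nat_lit 6) (nat_lit 270) (nat_lit 0) (nat_lit 215) (nat_lit 212) (nat_lit 143)) (PT.lf (nat_lit 19912) (nat_lit 6) (nat_lit 262) (nat_lit 0) (nat_lit 216) (nat_lit 212) (nat_lit 142))) (PT.nd (nat_lit 78) (PT.lf (nat_lit 19304) (nat_lit 6) (nat_lit 254) (nat_lit 0) (nat_lit 217) (nat_lit 212) (nat_lit 141)) (PT.lf (nat_lit 18696) (nat_lit 6) (nat_lit 246) (nat_lit 0) (nat_lit 218) (nat_lit 212) (nat_lit 140)))) (PT.nd (nat_lit 156) (PT.nd (nat_lit 78) (PT.lf (nat_lit 18164) (nat_lit 6) (nat_lit 239) (nat_lit 0) (nat_lit 219) (nat_lit 212) (nat_lit 139)) (PT.lf (nat_lit 17556) (nat_lit 6) (nat_lit 231) (nat_lit 0) (nat_lit 220) (nat_lit 212) (nat_lit 138))) (PT.nd (nat_lit 78) (PT.lf (nat_lit 17024) (nat_lit 6) (nat_lit 224) (nat_lit 0) (nat_lit 221) (nat_lit 212) (nat_lit 137)) (PT.lf (nat_lit 16492) (nat_lit 6) (nat_lit 217) (nat_lit 0) (nat_lit 222) (nat_lit 212) (nat_lit 136)))))) (PT.nd (nat_lit 52884) (PT.nd (nat_lit 52572) (PT.nd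 (nat_lit 52416) (PT.nd (nat_lit 52338) (PT.lf (nat_lit 15960) (nat_lit 6) (nat_lit 210) (nat_lit 0) (nat_lit 223) (nat_lit 212) (nat_lit 135)) (PT.lf (nat_lit 15048) (nat_lit 6) (nat_lit 198) (nat_lit 5) (nat_lit 133) (nat_lit 213) (nat_lit 224))) (PT.nd (nat_lit 78) (PT.lf (nat_lit 15504) (nat_lit 6) (nat_lit 204) (nat_lit 5) (nat_lit 134) (nat_lit 213) (nat_lit 223)) (PT.lf (nat_lit 16036) (nat_lit 6) (nat_lit 211) (nat_lit 5) (nat_lit 135) (nat_lit 213) (nat_lit 222)))) (PT.nd (nat_lit 156) (PT.nd (nat_lit 78) (PT.lf (nat_lit 16568) (nat_lit 6) (nat_lit 218) (nat_lit 5) (nat_lit 136) (nat_lit 213) (nat_lit 221)) (PT.lf (nat_lit 17100) (nat_lit 6) (nat_lit 225) (nat_lit 5) (nat_lit 137) (nat_lit 213) (nat_lit 220))) (PT.nd (nat_lit 78) (PT.lf (nat_lit 17632) (nat_lit 6) (nat_lit 232) (nat_lit 5) (nat_lit 138) (nat_lit 213) (nat_lit 219)) (PT.lf (nat_lit 18240) (nat_lit 6) (nat_lit 240) (nat_lit 5) (nat_lit 139) (nat_lit 213) (nat_lit 218))))) (PT.nd (nat_lit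 312) (PT.nd (nat_lit 156) (PT.nd (nat_lit 78) (PT.lf (nat_lit 18772) (nat_lit 6) (nat_lit 247) (nat_lit 5) (nat_lit 140) (nat_lit 213) (nat_lit 217)) (PT.lf (nat_lit 19380) (nat_lit 6) (nat_lit 255) (nat_lit 5) (nat_lit 141) (nat_lit 213) (nat_lit 216))) (PT.nd (nat_lit 78) (PT.lf (nat_lit 19988) (nat_lit 6) (nat_lit 263) (nat_lit 5) (nat_lit 142) (nat_lit 213) (nat_lit 215)) (PT.lf (nat_lit 20596) (nat_lit 6) (nat_lit 271) (nat_lit 5) (nat_lit 143) (nat_lit 213) (nat_lit 214)))) (PT.nd (nat_lit 156) (PT.nd (nat_lit 78) (PT.lf (nat_lit 21204) (nat_lit 3) (nat_lit 279) (nat_lit 4) (nat_lit 144) (nat_lit 213) (nat_lit 213)) (PT.lf (nat_lit 21812) (nat_lit 6) (nat_lit 287) (nat_lit 4) (nat_lit 145) (nat_lit 213) (nat_lit 212))) (PT.nd (nat_lit 78) (PT.lf (nat_lit 22344) (nat_lit 6) (nat_lit 294) (nat_lit 4) (nat_lit 146) (nat_lit 213) (nat_lit 211)) (PT.lf (nat_lit 22952) (nat_lit 6) (nat_lit 302) (nat_lit 4) (nat_lit 147) (nat_lit 213) (nat_lit 210))))))))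
noncomputable def pc52 : PT := (PT.nd (nat_lit 2340) (PT.nd (nat_lit 1170) (PT.nd (nat_lit 546) (PT.nd (nat_lit 234) (PT.nd (nat_lit 78) (PT.lf (nat_lit 23560) (nat_lit 6) (nat_lit 310) (nat_lit 4) (nat_lit 148) (nat_lit 213) (nat_lit 209)) (PT.nd (nat_lit 78) (PT.lf (nat_lit 24168) (nat_lit 6) (nat_lit 318) (nat_lit 4) (nat_lit 149) (nat_lit 213) (nat_lit 208)) (PT.lf (nat_lit 24776) (nat_lit 6) (nat_lit 326) (nat_lit 4) (nat_lit 150) (nat_lit 213) (nat_lit 207)))) (PT.nd (nat_lit 156) (PT.nd (nat_lit 78) (PT.lf (nat_lit 25460) (nat_lit 6) (nat_lit 335) (nat_lit 4) (nat_lit 151) (nat_lit 213) (nat_lit 206)) (PT.lf (nat_lit 26144) (nat_lit 6) (nat_lit 344) (nat_lit 4) (nat_lit 152) (nat_lit 213) (nat_lit 205))) (PT.nd (nat_lit 78) (PT.lf (nat_lit 26828) (nat_lit 6) (nat_lit 353) (nat_lit 4) (nat_lit 153) (nat_lit 213) (nat_lit 204)) (PT.lf (nat_lit 27512) (nat_lit 6) (nat_lit 362) (nat_lit 4) (nat_lit 154) (nat_lit 213) (nat_lit 203))))) (PT.nd (nat_lit 312)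 (PT.nd (nat_lit 156) (PT.nd (nat_lit 78) (PT.lf (nat_lit 28272) (nat_lit 6) (nat_lit 372) (nat_lit 4) (nat_lit 155) (nat_lit 213) (nat_lit 202)) (PT.lf (nat_lit 29032) (nat_lit 6) (nat_lit 382) (nat_lit 4) (nat_lit 156) (nat_lit 213) (nat_lit 201))) (PT.nd (nat_lit 78) (PT.lf (nat_lit 29792) (nat_lit 6) (nat_lit 392) (nat_lit 4) (nat_lit 157) (nat_lit 213) (nat_lit 200)) (PT.lf (nat_lit 30552) (nat_lit 6) (nat_lit 402) (nat_lit 4) (nat_lit 158) (nat_lit 213) (nat_lit 199)))) (PT.nd (nat_lit 156) (PT.nd (nat_lit 78) (PT.lf (nat_lit 31388) (nat_lit 6) (nat_lit 413) (nat_lit 4) (nat_lit 159) (nat_lit 213) (nat_lit 198)) (PT.lf (nat_lit 32224) (nat_lit 6) (nat_lit 424) (nat_lit 4) (nat_lit 160) (nat_lit 213) (nat_lit 197))) (PT.nd (nat_lit 78) (PT.lf (nat_lit 33136) (nat_lit 6) (nat_lit 436) (nat_lit 4) (nat_lit 161) (nat_lit 213) (nat_lit 196)) (PT.lf (nat_lit 33972) (nat_lit 6) (nat_lit 447) (nat_lit 4) (nat_lit 162) (nat_lit 213) (nat_lit 195)))))) (PT.nd (nat_lit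 546) (PT.nd (nat_lit 234) (PT.nd (nat_lit 78) (PT.lf (nat_lit 34884) (nat_lit 6) (nat_lit 459) (nat_lit 4) (nat_lit 163) (nat_lit 213) (nat_lit 194)) (PT.nd (nat_lit 78) (PT.lf (nat_lit 35796) (nat_lit 6) (nat_lit 471) (nat_lit 4) (nat_lit 164) (nat_lit 213) (nat_lit 193)) (PT.lf (nat_lit 36936) (nat_lit 6) (nat_lit 486) (nat_lit 4) (nat_lit 165) (nat_lit 213) (nat_lit 192)))) (PT.nd (nat_lit 156) (PT.nd (nat_lit 78) (PT.lf (nat_lit 38760) (nat_lit 6) (nat_lit 510) (nat_lit 4) (nat_lit 166) (nat_lit 213) (nat_lit 191)) (PT.lf (nat_lit 40508) (nat_lit 6) (nat_lit 533) (nat_lit 4) (nat_lit 167) (nat_lit 213) (nat_lit 190))) (PT.nd (nat_lit 78) (PT.lf (nat_lit 40432) (nat_lit 6) (nat_lit 532) (nat_lit 4) (nat_lit 168) (nat_lit 213) (nat_lit 189)) (PT.lf (nat_lit 40356) (nat_lit 6) (nat_lit 531) (nat_lit 4) (nat_lit 169) (nat_lit 213) (nat_lit 188))))) (PT.nd (nat_lit 312) (PT.nd (nat_lit 156) (PT.nd (nat_lit 78) (PT.lf (nat_lit 40280) (nat_lit 6) (nat_lit 530) (nat_lit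 4) (nat_lit 170) (nat_lit 213) (nat_lit 187)) (PT.lf (nat_lit 40204) (nat_lit 6) (nat_lit 529) (nat_lit 4) (nat_lit 171) (nat_lit 213) (nat_lit 186))) (PT.nd (nat_lit 78) (PT.lf (nat_lit 40128) (nat_lit 6) (nat_lit 528) (nat_lit 4) (nat_lit 172) (nat_lit 213) (nat_lit 185)) (PT.lf (nat_lit 40052) (nat_lit 6) (nat_lit 527) (nat_lit 4) (nat_lit 173) (nat_lit 213) (nat_lit 184)))) (PT.nd (nat_lit 156) (PT.nd (nat_lit 78) (PT.lf (nat_lit 39976) (nat_lit 6) (nat_lit 526) (nat_lit 4) (nat_lit 174) (nat_lit 213) (nat_lit 183)) (PT.lf (nat_lit 39900) (nat_lit 6) (nat_lit 525) (nat_lit 4) (nat_lit 175) (nat_lit 213) (nat_lit 182))) (PT.nd (nat_lit 78) (PT.lf (nat_lit 39824) (nat_lit 6) (nat_lit 524) (nat_lit 4) (nat_lit 176) (nat_lit 213) (nat_lit 181)) (PT.lf (nat_lit 39748) (nat_lit 6) (nat_lit 523) (nat_lit 4) (nat_lit 177) (nat_lit 213) (nat_lit 180))))))) (PT.nd (nat_lit 1170) (PT.nd (nat_lit 546) (PT.nd (nat_lit 234) (PT.nd (nat_lit 78) (PT.lf (nat_lit 39672) (nat_lit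 6) (nat_lit 522) (nat_lit 4) (nat_lit 178) (nat_lit 213) (nat_lit 179)) (PT.nd (nat_lit 78) (PT.lf (nat_lit 39672) (nat_lit 6) (nat_lit 522) (nat_lit 2) (nat_lit 179) (nat_lit 213) (nat_lit 178)) (PT.lf (nat_lit 39748) (nat_lit 6) (nat_lit 523) (nat_lit 2) (nat_lit 180) (nat_lit 213) (nat_lit 177)))) (PT.nd (nat_lit 156) (PT.nd (nat_lit 78) (PT.lf (nat_lit 39824) (nat_lit 6) (nat_lit 524) (nat_lit 2) (nat_lit 181) (nat_lit 213) (nat_lit 176)) (PT.lf (nat_lit 39900) (nat_lit 6) (nat_lit 525) (nat_lit 2) (nat_lit 182) (nat_lit 213) (nat_lit 175))) (PT.nd (nat_lit 78) (PT.lf (nat_lit 39976) (nat_lit 6) (nat_lit 526) (nat_lit 2) (nat_lit 183) (nat_lit 213) (nat_lit 174)) (PT.lf (nat_lit 40052) (nat_lit 6) (nat_lit 527) (nat_lit 2) (nat_lit 184) (nat_lit 213) (nat_lit 173))))) (PT.nd (nat_lit 312) (PT.nd (nat_lit 156) (PT.nd (nat_lit 78) (PT.lf (nat_lit 40128) (nat_lit 6) (nat_lit 528) (nat_lit 2) (nat_lit 185) (nat_lit 213) (nat_lit 172)) (PT.lf (nat_lit 40204) (nat_lit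 6) (nat_lit 529) (nat_lit 2) (nat_lit 186) (nat_lit 213) (nat_lit 171))) (PT.nd (nat_lit 78) (PT.lf (nat_lit 40280) (nat_lit 6) (nat_lit 530) (nat_lit 2) (nat_lit 187) (nat_lit 213) (nat_lit 170)) (PT.lf (nat_lit 40356) (nat_lit 6) (nat_lit 531) (nat_lit 2) (nat_lit 188) (nat_lit 213) (nat_lit 169)))) (PT.nd (nat_lit 156) (PT.nd (nat_lit 78) (PT.lf (nat_lit 40432) (nat_lit 6) (nat_lit 532) (nat_lit 2) (nat_lit 189) (nat_lit 213) (nat_lit 168)) (PT.lf (nat_lit 40508) (nat_lit 6) (nat_lit 533) (nat_lit 2) (nat_lit 190) (nat_lit 213) (nat_lit 167))) (PT.nd (nat_lit 78) (PT.lf (nat_lit 38760) (nat_lit 6) (nat_lit 510) (nat_lit 2) (nat_lit 191) (nat_lit 213) (nat_lit 166)) (PT.lf (nat_lit 36936) (nat_lit 6) (nat_lit 486) (nat_lit 2) (nat_lit 192) (nat_lit 213) (nat_lit 165)))))) (PT.nd (nat_lit 624) (PT.nd (nat_lit 312) (PT.nd (nat_lit 156) (PT.nd (nat_lit 78) (PT.lf (nat_lit 35796) (nat_lit 6) (nat_lit 471) (nat_lit 2) (nat_lit 193) (nat_lit 213) (nat_lit 164)) (PT.lf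 (nat_lit 34884) (nat_lit 6) (nat_lit 459) (nat_lit 2) (nat_lit 194) (nat_lit 213) (nat_lit 163))) (PT.nd (nat_lit 78) (PT.lf (nat_lit 33972) (nat_lit 6) (nat_lit 447) (nat_lit 2) (nat_lit 195) (nat_lit 213) (nat_lit 162)) (PT.lf (nat_lit 33136) (nat_lit 6) (nat_lit 436) (nat_lit 2) (nat_lit 196) (nat_lit 213) (nat_lit 161)))) (PT.nd (nat_lit 156) (PT.nd (nat_lit 78) (PT.lf (nat_lit 32224) (nat_lit 6) (nat_lit 424) (nat_lit 2) (nat_lit 197) (nat_lit 213) (nat_lit 160)) (PT.lf (nat_lit 31388) (nat_lit 6) (nat_lit 413) (nat_lit 2) (nat_lit 198) (nat_lit 213) (nat_lit 159))) (PT.nd (nat_lit 78) (PT.lf (nat_lit 30552) (nat_lit 6) (nat_lit 402) (nat_lit 2) (nat_lit 199) (nat_lit 213) (nat_lit 158)) (PT.lf (nat_lit 29792) (nat_lit 6) (nat_lit 392) (nat_lit 2) (nat_lit 200) (nat_lit 213) (nat_lit 157))))) (PT.nd (nat_lit 312) (PT.nd (nat_lit 156) (PT.nd (nat_lit 78) (PT.lf (nat_lit 29032) (nat_lit 6) (nat_lit 382) (nat_lit 2) (nat_lit 201) (nat_lit 213) (nat_lit 156))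 (PT.lf (nat_lit 28272) (nat_lit 6) (nat_lit 372) (nat_lit 2) (nat_lit 202) (nat_lit 213) (nat_lit 155))) (PT.nd (nat_lit 78) (PT.lf (nat_lit 27512) (nat_lit 6) (nat_lit 362) (nat_lit 2) (nat_lit 203) (nat_lit 213) (nat_lit 154)) (PT.lf (nat_lit 26828) (nat_lit 6) (nat_lit 353) (nat_lit 2) (nat_lit 204) (nat_lit 213) (nat_lit 153)))) (PT.nd (nat_lit 156) (PT.nd (nat_lit 78) (PT.lf (nat_lit 26144) (nat_lit 6) (nat_lit 344) (nat_lit 2) (nat_lit 205) (nat_lit 213) (nat_lit 152)) (PT.lf (nat_lit 25460) (nat_lit 6) (nat_lit 335) (nat_lit 2) (nat_lit 206) (nat_lit 213) (nat_lit 151))) (PT.nd (nat_lit 78) (PT.lf (nat_lit 24776) (nat_lit 6) (nat_lit 326) (nat_lit 2) (nat_lit 207) (nat_lit 213) (nat_lit 150)) (PT.lf (nat_lit 24168) (nat_lit 6) (nat_lit 318) (nat_lit 2) (nat_lit 208) (nat_lit 213) (nat_lit 149))))))))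
noncomputable def pc53 : PT := (PT.nd (nat_lit 54444) (PT.nd (nat_lit 1170) (PT.nd (nat_lit 546) (PT.nd (nat_lit 234) (PT.nd (nat_lit 78) (PT.lf (nat_lit 23560) (nat_lit 6) (nat_lit 310) (nat_lit 2) (nat_lit 209) (nat_lit 213) (nat_lit 148)) (PT.nd (nat_lit 78) (PT.lf (nat_lit 22952) (nat_lit 6) (nat_lit 302) (nat_lit 2) (nat_lit 210) (nat_lit 213) (nat_lit 147)) (PT.lf (nat_lit 22344) (nat_lit 6) (nat_lit 294) (nat_lit 2) (nat_lit 211) (nat_lit 213) (nat_lit 146)))) (PT.nd (nat_lit 156) (PT.nd (nat_lit 78) (PT.lf (nat_lit 21812) (nat_lit 6) (nat_lit 287) (nat_lit 2) (nat_lit 212) (nat_lit 213) (nat_lit 145)) (PT.lf (nat_lit 21204) (nat_lit 3) (nat_lit 279) (nat_lit 0) (nat_lit 213) (nat_lit 213) (nat_lit 144))) (PT.nd (nat_lit 78) (PT.lf (nat_lit 20596) (nat_lit 6) (nat_lit 271) (nat_lit 0) (nat_lit 214) (nat_lit 213) (nat_lit 143)) (PT.lf (nat_lit 19988) (nat_lit 6) (nat_lit 263) (nat_lit 0) (nat_lit 215) (nat_lit 213) (nat_lit 142))))) (PT.nd (nat_lit 312)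 (PT.nd (nat_lit 156) (PT.nd (nat_lit 78) (PT.lf (nat_lit 19380) (nat_lit 6) (nat_lit 255) (nat_lit 0) (nat_lit 216) (nat_lit 213) (nat_lit 141)) (PT.lf (nat_lit 18772) (nat_lit 6) (nat_lit 247) (nat_lit 0) (nat_lit 217) (nat_lit 213) (nat_lit 140))) (PT.nd (nat_lit 78) (PT.lf (nat_lit 18240) (nat_lit 6) (nat_lit 240) (nat_lit 0) (nat_lit 218) (nat_lit 213) (nat_lit 139)) (PT.lf (nat_lit 17632) (nat_lit 6) (nat_lit 232) (nat_lit 0) (nat_lit 219) (nat_lit 213) (nat_lit 138)))) (PT.nd (nat_lit 156) (PT.nd (nat_lit 78) (PT.lf (nat_lit 17100) (nat_lit 6) (nat_lit 225) (nat_lit 0) (nat_lit 220) (nat_lit 213) (nat_lit 137)) (PT.lf (nat_lit 16568) (nat_lit 6) (nat_lit 218) (nat_lit 0) (nat_lit 221) (nat_lit 213) (nat_lit 136))) (PT.nd (nat_lit 78) (PT.lf (nat_lit 16036) (nat_lit 6) (nat_lit 211) (nat_lit 0) (nat_lit 222) (nat_lit 213) (nat_lit 135)) (PT.lf (nat_lit 15504) (nat_lit 6) (nat_lit 204) (nat_lit 0) (nat_lit 223) (nat_lit 213) (nat_lit 134)))))) (PT.nd (nat_lit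 52650) (PT.nd (nat_lit 52338) (PT.nd (nat_lit 52182) (PT.lf (nat_lit 15048) (nat_lit 6) (nat_lit 198) (nat_lit 0) (nat_lit 224) (nat_lit 213) (nat_lit 133)) (PT.nd (nat_lit 78) (PT.lf (nat_lit 14592) (nat_lit 6) (nat_lit 192) (nat_lit 5) (nat_lit 132) (nat_lit 214) (nat_lit 224)) (PT.lf (nat_lit 15124) (nat_lit 6) (nat_lit 199) (nat_lit 5) (nat_lit 133) (nat_lit 214) (nat_lit 223)))) (PT.nd (nat_lit 156) (PT.nd (nat_lit 78) (PT.lf (nat_lit 15580) (nat_lit 6) (nat_lit 205) (nat_lit 5) (nat_lit 134) (nat_lit 214) (nat_lit 222)) (PT.lf (nat_lit 16112) (nat_lit 6) (nat_lit 212) (nat_lit 5) (nat_lit 135) (nat_lit 214) (nat_lit 221))) (PT.nd (nat_lit 78) (PT.lf (nat_lit 16644) (nat_lit 6) (nat_lit 219) (nat_lit 5) (nat_lit 136) (nat_lit 214) (nat_lit 220)) (PT.lf (nat_lit 17176) (nat_lit 6) (nat_lit 226) (nat_lit 5) (nat_lit 137) (nat_lit 214) (nat_lit 219))))) (PT.nd (nat_lit 312) (PT.nd (nat_lit 156) (PT.nd (nat_lit 78) (PT.lf (nat_lit 17708) (nat_lit 6) (nat_lit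 233) (nat_lit 5) (nat_lit 138) (nat_lit 214) (nat_lit 218)) (PT.lf (nat_lit 18316) (nat_lit 6) (nat_lit 241) (nat_lit 5) (nat_lit 139) (nat_lit 214) (nat_lit 217))) (PT.nd (nat_lit 78) (PT.lf (nat_lit 18848) (nat_lit 6) (nat_lit 248) (nat_lit 5) (nat_lit 140) (nat_lit 214) (nat_lit 216)) (PT.lf (nat_lit 19456) (nat_lit 6) (nat_lit 256) (nat_lit 5) (nat_lit 141) (nat_lit 214) (nat_lit 215)))) (PT.nd (nat_lit 156) (PT.nd (nat_lit 78) (PT.lf (nat_lit 20064) (nat_lit 3) (nat_lit 264) (nat_lit 4) (nat_lit 142) (nat_lit 214) (nat_lit 214)) (PT.lf (nat_lit 20596) (nat_lit 6) (nat_lit 271) (nat_lit 4) (nat_lit 143) (nat_lit 214) (nat_lit 213))) (PT.nd (nat_lit 78) (PT.lf (nat_lit 21128) (nat_lit 6) (nat_lit 278) (nat_lit 4) (nat_lit 144) (nat_lit 214) (nat_lit 212)) (PT.lf (nat_lit 21736) (nat_lit 6) (nat_lit 286) (nat_lit 4) (nat_lit 145) (nat_lit 214) (nat_lit 211))))))) (PT.nd (nat_lit 1170) (PT.nd (nat_lit 546) (PT.nd (nat_lit 234) (PT.nd (nat_lit 78) (PT.lf (nat_lit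 22268) (nat_lit 6) (nat_lit 293) (nat_lit 4) (nat_lit 146) (nat_lit 214) (nat_lit 210)) (PT.nd (nat_lit 78) (PT.lf (nat_lit 22876) (nat_lit 6) (nat_lit 301) (nat_lit 4) (nat_lit 147) (nat_lit 214) (nat_lit 209)) (PT.lf (nat_lit 23484) (nat_lit 6) (nat_lit 309) (nat_lit 4) (nat_lit 148) (nat_lit 214) (nat_lit 208)))) (PT.nd (nat_lit 156) (PT.nd (nat_lit 78) (PT.lf (nat_lit 24092) (nat_lit 6) (nat_lit 317) (nat_lit 4) (nat_lit 149) (nat_lit 214) (nat_lit 207)) (PT.lf (nat_lit 24700) (nat_lit 6) (nat_lit 325) (nat_lit 4) (nat_lit 150) (nat_lit 214) (nat_lit 206))) (PT.nd (nat_lit 78) (PT.lf (nat_lit 25384) (nat_lit 6) (nat_lit 334) (nat_lit 4) (nat_lit 151) (nat_lit 214) (nat_lit 205)) (PT.lf (nat_lit 26068) (nat_lit 6) (nat_lit 343) (nat_lit 4) (nat_lit 152) (nat_lit 214) (nat_lit 204))))) (PT.nd (nat_lit 312) (PT.nd (nat_lit 156) (PT.nd (nat_lit 78) (PT.lf (nat_lit 26752) (nat_lit 6) (nat_lit 352) (nat_lit 4) (nat_lit 153) (nat_lit 214) (nat_lit 203)) (PT.lf (nat_lit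 27436) (nat_lit 6) (nat_lit 361) (nat_lit 4) (nat_lit 154) (nat_lit 214) (nat_lit 202))) (PT.nd (nat_lit 78) (PT.lf (nat_lit 28196) (nat_lit 6) (nat_lit 371) (nat_lit 4) (nat_lit 155) (nat_lit 214) (nat_lit 201)) (PT.lf (nat_lit 28956) (nat_lit 6) (nat_lit 381) (nat_lit 4) (nat_lit 156) (nat_lit 214) (nat_lit 200)))) (PT.nd (nat_lit 156) (PT.nd (nat_lit 78) (PT.lf (nat_lit 29716) (nat_lit 6) (nat_lit 391) (nat_lit 4) (nat_lit 157) (nat_lit 214) (nat_lit 199)) (PT.lf (nat_lit 30476) (nat_lit 6) (nat_lit 401) (nat_lit 4) (nat_lit 158) (nat_lit 214) (nat_lit 198))) (PT.nd (nat_lit 78) (PT.lf (nat_lit 31312) (nat_lit 6) (nat_lit 412) (nat_lit 4) (nat_lit 159) (nat_lit 214) (nat_lit 197)) (PT.lf (nat_lit 32148) (nat_lit 6) (nat_lit 423) (nat_lit 4) (nat_lit 160) (nat_lit 214) (nat_lit 196)))))) (PT.nd (nat_lit 624) (PT.nd (nat_lit 312) (PT.nd (nat_lit 156) (PT.nd (nat_lit 78) (PT.lf (nat_lit 33060) (nat_lit 6) (nat_lit 435) (nat_lit 4) (nat_lit 161) (nat_lit 214)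 (nat_lit 195)) (PT.lf (nat_lit 33896) (nat_lit 6) (nat_lit 446) (nat_lit 4) (nat_lit 162) (nat_lit 214) (nat_lit 194))) (PT.nd (nat_lit 78) (PT.lf (nat_lit 34808) (nat_lit 6) (nat_lit 458) (nat_lit 4) (nat_lit 163) (nat_lit 214) (nat_lit 193)) (PT.lf (nat_lit 35720) (nat_lit 6) (nat_lit 470) (nat_lit 4) (nat_lit 164) (nat_lit 214) (nat_lit 192)))) (PT.nd (nat_lit 156) (PT.nd (nat_lit 78) (PT.lf (nat_lit 36860) (nat_lit 6) (nat_lit 485) (nat_lit 4) (nat_lit 165) (nat_lit 214) (nat_lit 191)) (PT.lf (nat_lit 38684) (nat_lit 6) (nat_lit 509) (nat_lit 4) (nat_lit 166) (nat_lit 214) (nat_lit 190))) (PT.nd (nat_lit 78) (PT.lf (nat_lit 38608) (nat_lit 6) (nat_lit 508) (nat_lit 4) (nat_lit 167) (nat_lit 214) (nat_lit 189)) (PT.lf (nat_lit 38532) (nat_lit 6) (nat_lit 507) (nat_lit 4) (nat_lit 168) (nat_lit 214) (nat_lit 188))))) (PT.nd (nat_lit 312) (PT.nd (nat_lit 156) (PT.nd (nat_lit 78) (PT.lf (nat_lit 38456) (nat_lit 6) (nat_lit 506) (nat_lit 4) (nat_lit 169) (nat_lit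 214) (nat_lit 187)) (PT.lf (nat_lit 38380) (nat_lit 6) (nat_lit 505) (nat_lit 4) (nat_lit 170) (nat_lit 214) (nat_lit 186))) (PT.nd (nat_lit 78) (PT.lf (nat_lit 38304) (nat_lit 6) (nat_lit 504) (nat_lit 4) (nat_lit 171) (nat_lit 214) (nat_lit 185)) (PT.lf (nat_lit 38228) (nat_lit 6) (nat_lit 503) (nat_lit 4) (nat_lit 172) (nat_lit 214) (nat_lit 184)))) (PT.nd (nat_lit 156) (PT.nd (nat_lit 78) (PT.lf (nat_lit 38152) (nat_lit 6) (nat_lit 502) (nat_lit 4) (nat_lit 173) (nat_lit 214) (nat_lit 183)) (PT.lf (nat_lit 38076) (nat_lit 6) (nat_lit 501) (nat_lit 4) (nat_lit 174) (nat_lit 214) (nat_lit 182))) (PT.nd (nat_lit 78) (PT.lf (nat_lit 38000) (nat_lit 6) (nat_lit 500) (nat_lit 4) (nat_lit 175) (nat_lit 214) (nat_lit 181)) (PT.lf (nat_lit 37924) (nat_lit 6) (nat_lit 499) (nat_lit 4) (nat_lit 176) (nat_lit 214) (nat_lit 180))))))))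
noncomputable def pc54 : PT := (PT.nd (nat_lit 2340) (PT.nd (nat_lit 1170) (PT.nd (nat_lit 546) (PT.nd (nat_lit 234) (PT.nd (nat_lit 78) (PT.lf (nat_lit 37848) (nat_lit 6) (nat_lit 498) (nat_lit 4) (nat_lit 177) (nat_lit 214) (nat_lit 179)) (PT.nd (nat_lit 78) (PT.lf (nat_lit 37772) (nat_lit 3) (nat_lit 497) (nat_lit 2) (nat_lit 178) (nat_lit 214) (nat_lit 178)) (PT.lf (nat_lit 37848) (nat_lit 6) (nat_lit 498) (nat_lit 2) (nat_lit 179) (nat_lit 214) (nat_lit 177)))) (PT.nd (nat_lit 156) (PT.nd (nat_lit 78) (PT.lf (nat_lit 37924) (nat_lit 6) (nat_lit 499) (nat_lit 2) (nat_lit 180) (nat_lit 214) (nat_lit 176)) (PT.lf (nat_lit 38000) (nat_lit 6) (nat_lit 500) (nat_lit 2) (nat_lit 181) (nat_lit 214) (nat_lit 175))) (PT.nd (nat_lit 78) (PT.lf (nat_lit 38076) (nat_lit 6) (nat_lit 501) (nat_lit 2) (nat_lit 182) (nat_lit 214) (nat_lit 174)) (PT.lf (nat_lit 38152) (nat_lit 6) (nat_lit 502) (nat_lit 2) (nat_lit 183) (nat_lit 214) (nat_lit 173))))) (PT.nd (nat_lit 312)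 (PT.nd (nat_lit 156) (PT.nd (nat_lit 78) (PT.lf (nat_lit 38228) (nat_lit 6) (nat_lit 503) (nat_lit 2) (nat_lit 184) (nat_lit 214) (nat_lit 172)) (PT.lf (nat_lit 38304) (nat_lit 6) (nat_lit 504) (nat_lit 2) (nat_lit 185) (nat_lit 214) (nat_lit 171))) (PT.nd (nat_lit 78) (PT.lf (nat_lit 38380) (nat_lit 6) (nat_lit 505) (nat_lit 2) (nat_lit 186) (nat_lit 214) (nat_lit 170)) (PT.lf (nat_lit 38456) (nat_lit 6) (nat_lit 506) (nat_lit 2) (nat_lit 187) (nat_lit 214) (nat_lit 169)))) (PT.nd (nat_lit 156) (PT.nd (nat_lit 78) (PT.lf (nat_lit 38532) (nat_lit 6) (nat_lit 507) (nat_lit 2) (nat_lit 188) (nat_lit 214) (nat_lit 168)) (PT.lf (nat_lit 38608) (nat_lit 6) (nat_lit 508) (nat_lit 2) (nat_lit 189) (nat_lit 214) (nat_lit 167))) (PT.nd (nat_lit 78) (PT.lf (nat_lit 38684) (nat_lit 6) (nat_lit 509) (nat_lit 2) (nat_lit 190) (nat_lit 214) (nat_lit 166)) (PT.lf (nat_lit 36860) (nat_lit 6) (nat_lit 485) (nat_lit 2) (nat_lit 191) (nat_lit 214) (nat_lit 165)))))) (PT.nd (nat_lit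 546) (PT.nd (nat_lit 234) (PT.nd (nat_lit 78) (PT.lf (nat_lit 35720) (nat_lit 6) (nat_lit 470) (nat_lit 2) (nat_lit 192) (nat_lit 214) (nat_lit 164)) (PT.nd (nat_lit 78) (PT.lf (nat_lit 34808) (nat_lit 6) (nat_lit 458) (nat_lit 2) (nat_lit 193) (nat_lit 214) (nat_lit 163)) (PT.lf (nat_lit 33896) (nat_lit 6) (nat_lit 446) (nat_lit 2) (nat_lit 194) (nat_lit 214) (nat_lit 162)))) (PT.nd (nat_lit 156) (PT.nd (nat_lit 78) (PT.lf (nat_lit 33060) (nat_lit 6) (nat_lit 435) (nat_lit 2) (nat_lit 195) (nat_lit 214) (nat_lit 161)) (PT.lf (nat_lit 32148) (nat_lit 6) (nat_lit 423) (nat_lit 2) (nat_lit 196) (nat_lit 214) (nat_lit 160))) (PT.nd (nat_lit 78) (PT.lf (nat_lit 31312) (nat_lit 6) (nat_lit 412) (nat_lit 2) (nat_lit 197) (nat_lit 214) (nat_lit 159)) (PT.lf (nat_lit 30476) (nat_lit 6) (nat_lit 401) (nat_lit 2) (nat_lit 198) (nat_lit 214) (nat_lit 158))))) (PT.nd (nat_lit 312) (PT.nd (nat_lit 156) (PT.nd (nat_lit 78) (PT.lf (nat_lit 29716) (nat_lit 6) (nat_lit 391) (nat_lit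 2) (nat_lit 199) (nat_lit 214) (nat_lit 157)) (PT.lf (nat_lit 28956) (nat_lit 6) (nat_lit 381) (nat_lit 2) (nat_lit 200) (nat_lit 214) (nat_lit 156))) (PT.nd (nat_lit 78) (PT.lf (nat_lit 28196) (nat_lit 6) (nat_lit 371) (nat_lit 2) (nat_lit 201) (nat_lit 214) (nat_lit 155)) (PT.lf (nat_lit 27436) (nat_lit 6) (nat_lit 361) (nat_lit 2) (nat_lit 202) (nat_lit 214) (nat_lit 154)))) (PT.nd (nat_lit 156) (PT.nd (nat_lit 78) (PT.lf (nat_lit 26752) (nat_lit 6) (nat_lit 352) (nat_lit 2) (nat_lit 203) (nat_lit 214) (nat_lit 153)) (PT.lf (nat_lit 26068) (nat_lit 6) (nat_lit 343) (nat_lit 2) (nat_lit 204) (nat_lit 214) (nat_lit 152))) (PT.nd (nat_lit 78) (PT.lf (nat_lit 25384) (nat_lit 6) (nat_lit 334) (nat_lit 2) (nat_lit 205) (nat_lit 214) (nat_lit 151)) (PT.lf (nat_lit 24700) (nat_lit 6) (nat_lit 325) (nat_lit 2) (nat_lit 206) (nat_lit 214) (nat_lit 150))))))) (PT.nd (nat_lit 1170) (PT.nd (nat_lit 546) (PT.nd (nat_lit 234) (PT.nd (nat_lit 78) (PT.lf (nat_lit 24092) (nat_lit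 6) (nat_lit 317) (nat_lit 2) (nat_lit 207) (nat_lit 214) (nat_lit 149)) (PT.nd (nat_lit 78) (PT.lf (nat_lit 23484) (nat_lit 6) (nat_lit 309) (nat_lit 2) (nat_lit 208) (nat_lit 214) (nat_lit 148)) (PT.lf (nat_lit 22876) (nat_lit 6) (nat_lit 301) (nat_lit 2) (nat_lit 209) (nat_lit 214) (nat_lit 147)))) (PT.nd (nat_lit 156) (PT.nd (nat_lit 78) (PT.lf (nat_lit 22268) (nat_lit 6) (nat_lit 293) (nat_lit 2) (nat_lit 210) (nat_lit 214) (nat_lit 146)) (PT.lf (nat_lit 21736) (nat_lit 6) (nat_lit 286) (nat_lit 2) (nat_lit 211) (nat_lit 214) (nat_lit 145))) (PT.nd (nat_lit 78) (PT.lf (nat_lit 21128) (nat_lit 6) (nat_lit 278) (nat_lit 2) (nat_lit 212) (nat_lit 214) (nat_lit 144)) (PT.lf (nat_lit 20596) (nat_lit 6) (nat_lit 271) (nat_lit 2) (nat_lit 213) (nat_lit 214) (nat_lit 143))))) (PT.nd (nat_lit 312) (PT.nd (nat_lit 156) (PT.nd (nat_lit 78) (PT.lf (nat_lit 20064) (nat_lit 3) (nat_lit 264) (nat_lit 0) (nat_lit 214) (nat_lit 214) (nat_lit 142)) (PT.lf (nat_lit 19456) (nat_lit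 6) (nat_lit 256) (nat_lit 0) (nat_lit 215) (nat_lit 214) (nat_lit 141))) (PT.nd (nat_lit 78) (PT.lf (nat_lit 18848) (nat_lit 6) (nat_lit 248) (nat_lit 0) (nat_lit 216) (nat_lit 214) (nat_lit 140)) (PT.lf (nat_lit 18316) (nat_lit 6) (nat_lit 241) (nat_lit 0) (nat_lit 217) (nat_lit 214) (nat_lit 139)))) (PT.nd (nat_lit 156) (PT.nd (nat_lit 78) (PT.lf (nat_lit 17708) (nat_lit 6) (nat_lit 233) (nat_lit 0) (nat_lit 218) (nat_lit 214) (nat_lit 138)) (PT.lf (nat_lit 17176) (nat_lit 6) (nat_lit 226) (nat_lit 0) (nat_lit 219) (nat_lit 214) (nat_lit 137))) (PT.nd (nat_lit 78) (PT.lf (nat_lit 16644) (nat_lit 6) (nat_lit 219) (nat_lit 0) (nat_lit 220) (nat_lit 214) (nat_lit 136)) (PT.lf (nat_lit 16112) (nat_lit 6) (nat_lit 212) (nat_lit 0) (nat_lit 221) (nat_lit 214) (nat_lit 135)))))) (PT.nd (nat_lit 52572) (PT.nd (nat_lit 52260) (PT.nd (nat_lit 156) (PT.nd (nat_lit 78) (PT.lf (nat_lit 15580) (nat_lit 6) (nat_lit 205) (nat_lit 0) (nat_lit 222) (nat_lit 214) (nat_lit 134))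 (PT.lf (nat_lit 15124) (nat_lit 6) (nat_lit 199) (nat_lit 0) (nat_lit 223) (nat_lit 214) (nat_lit 133))) (PT.nd (nat_lit 52026) (PT.lf (nat_lit 14592) (nat_lit 6) (nat_lit 192) (nat_lit 0) (nat_lit 224) (nat_lit 214) (nat_lit 132)) (PT.lf (nat_lit 13756) (nat_lit 6) (nat_lit 181) (nat_lit 5) (nat_lit 130) (nat_lit 215) (nat_lit 225)))) (PT.nd (nat_lit 156) (PT.nd (nat_lit 78) (PT.lf (nat_lit 14212) (nat_lit 6) (nat_lit 187) (nat_lit 5) (nat_lit 131) (nat_lit 215) (nat_lit 224)) (PT.lf (nat_lit 14668) (nat_lit 6) (nat_lit 193) (nat_lit 5) (nat_lit 132) (nat_lit 215) (nat_lit 223))) (PT.nd (nat_lit 78) (PT.lf (nat_lit 15200) (nat_lit 6) (nat_lit 200) (nat_lit 5) (nat_lit 133) (nat_lit 215) (nat_lit 222)) (PT.lf (nat_lit 15656) (nat_lit 6) (nat_lit 206) (nat_lit 5) (nat_lit 134) (nat_lit 215) (nat_lit 221))))) (PT.nd (nat_lit 312) (PT.nd (nat_lit 156) (PT.nd (nat_lit 78) (PT.lf (nat_lit 16188) (nat_lit 6) (nat_lit 213) (nat_lit 5) (nat_lit 135) (nat_lit 215) (nat_lit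 220)) (PT.lf (nat_lit 16720) (nat_lit 6) (nat_lit 220) (nat_lit 5) (nat_lit 136) (nat_lit 215) (nat_lit 219))) (PT.nd (nat_lit 78) (PT.lf (nat_lit 17252) (nat_lit 6) (nat_lit 227) (nat_lit 5) (nat_lit 137) (nat_lit 215) (nat_lit 218)) (PT.lf (nat_lit 17784) (nat_lit 6) (nat_lit 234) (nat_lit 5) (nat_lit 138) (nat_lit 215) (nat_lit 217)))) (PT.nd (nat_lit 156) (PT.nd (nat_lit 78) (PT.lf (nat_lit 18392) (nat_lit 6) (nat_lit 242) (nat_lit 5) (nat_lit 139) (nat_lit 215) (nat_lit 216)) (PT.lf (nat_lit 18924) (nat_lit 3) (nat_lit 249) (nat_lit 4) (nat_lit 140) (nat_lit 215) (nat_lit 215))) (PT.nd (nat_lit 78) (PT.lf (nat_lit 19456) (nat_lit 6) (nat_lit 256) (nat_lit 4) (nat_lit 141) (nat_lit 215) (nat_lit 214)) (PT.lf (nat_lit 19988) (nat_lit 6) (nat_lit 263) (nat_lit 4) (nat_lit 142) (nat_lit 215) (nat_lit 213))))))))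
noncomputable def pc55 : PT := (PT.nd (nat_lit 3978) (PT.nd (nat_lit 1170) (PT.nd (nat_lit 546) (PT.nd (nat_lit 234) (PT.nd (nat_lit 78) (PT.lf (nat_lit 20520) (nat_lit 6) (nat_lit 270) (nat_lit 4) (nat_lit 143) (nat_lit 215) (nat_lit 212)) (PT.nd (nat_lit 78) (PT.lf (nat_lit 21052) (nat_lit 6) (nat_lit 277) (nat_lit 4) (nat_lit 144) (nat_lit 215) (nat_lit 211)) (PT.lf (nat_lit 21660) (nat_lit 6) (nat_lit 285) (nat_lit 4) (nat_lit 145) (nat_lit 215) (nat_lit 210)))) (PT.nd (nat_lit 156) (PT.nd (nat_lit 78) (PT.lf (nat_lit 22192) (nat_lit 6) (nat_lit 292) (nat_lit 4) (nat_lit 146) (nat_lit 215) (nat_lit 209)) (PT.lf (nat_lit 22800) (nat_lit 6) (nat_lit 300) (nat_lit 4) (nat_lit 147) (nat_lit 215) (nat_lit 208))) (PT.nd (nat_lit 78) (PT.lf (nat_lit 23408) (nat_lit 6) (nat_lit 308) (nat_lit 4) (nat_lit 148) (nat_lit 215) (nat_lit 207)) (PT.lf (nat_lit 24016) (nat_lit 6) (nat_lit 316) (nat_lit 4) (nat_lit 149) (nat_lit 215) (nat_lit 206))))) (PT.nd (nat_lit 312)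 (PT.nd (nat_lit 156) (PT.nd (nat_lit 78) (PT.lf (nat_lit 24624) (nat_lit 6) (nat_lit 324) (nat_lit 4) (nat_lit 150) (nat_lit 215) (nat_lit 205)) (PT.lf (nat_lit 25308) (nat_lit 6) (nat_lit 333) (nat_lit 4) (nat_lit 151) (nat_lit 215) (nat_lit 204))) (PT.nd (nat_lit 78) (PT.lf (nat_lit 25992) (nat_lit 6) (nat_lit 342) (nat_lit 4) (nat_lit 152) (nat_lit 215) (nat_lit 203)) (PT.lf (nat_lit 26676) (nat_lit 6) (nat_lit 351) (nat_lit 4) (nat_lit 153) (nat_lit 215) (nat_lit 202)))) (PT.nd (nat_lit 156) (PT.nd (nat_lit 78) (PT.lf (nat_lit 27360) (nat_lit 6) (nat_lit 360) (nat_lit 4) (nat_lit 154) (nat_lit 215) (nat_lit 201)) (PT.lf (nat_lit 28120) (nat_lit 6) (nat_lit 370) (nat_lit 4) (nat_lit 155) (nat_lit 215) (nat_lit 200))) (PT.nd (nat_lit 78) (PT.lf (nat_lit 28880) (nat_lit 6) (nat_lit 380) (nat_lit 4) (nat_lit 156) (nat_lit 215) (nat_lit 199)) (PT.lf (nat_lit 29640) (nat_lit 6) (nat_lit 390) (nat_lit 4) (nat_lit 157) (nat_lit 215) (nat_lit 198)))))) (PT.nd (nat_lit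 624) (PT.nd (nat_lit 312) (PT.nd (nat_lit 156) (PT.nd (nat_lit 78) (PT.lf (nat_lit 30400) (nat_lit 6) (nat_lit 400) (nat_lit 4) (nat_lit 158) (nat_lit 215) (nat_lit 197)) (PT.lf (nat_lit 31236) (nat_lit 6) (nat_lit 411) (nat_lit 4) (nat_lit 159) (nat_lit 215) (nat_lit 196))) (PT.nd (nat_lit 78) (PT.lf (nat_lit 32072) (nat_lit 6) (nat_lit 422) (nat_lit 4) (nat_lit 160) (nat_lit 215) (nat_lit 195)) (PT.lf (nat_lit 32984) (nat_lit 6) (nat_lit 434) (nat_lit 4) (nat_lit 161) (nat_lit 215) (nat_lit 194)))) (PT.nd (nat_lit 156) (PT.nd (nat_lit 78) (PT.lf (nat_lit 33820) (nat_lit 6) (nat_lit 445) (nat_lit 4) (nat_lit 162) (nat_lit 215) (nat_lit 193)) (PT.lf (nat_lit 34732) (nat_lit 6) (nat_lit 457) (nat_lit 4) (nat_lit 163) (nat_lit 215) (nat_lit 192))) (PT.nd (nat_lit 78) (PT.lf (nat_lit 35644) (nat_lit 6) (nat_lit 469) (nat_lit 4) (nat_lit 164) (nat_lit 215) (nat_lit 191)) (PT.lf (nat_lit 36784) (nat_lit 6) (nat_lit 484) (nat_lit 4) (nat_lit 165) (nat_lit 215) (nat_lit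 190))))) (PT.nd (nat_lit 1872) (PT.nd (nat_lit 1716) (PT.nd (nat_lit 78) (PT.lf (nat_lit 36708) (nat_lit 6) (nat_lit 483) (nat_lit 4) (nat_lit 166) (nat_lit 215) (nat_lit 189)) (PT.lf (nat_lit 36632) (nat_lit 6) (nat_lit 482) (nat_lit 4) (nat_lit 167) (nat_lit 215) (nat_lit 188))) (PT.nd (nat_lit 78) (PT.lf (nat_lit 36632) (nat_lit 6) (nat_lit 482) (nat_lit 2) (nat_lit 188) (nat_lit 215) (nat_lit 167)) (PT.lf (nat_lit 36708) (nat_lit 6) (nat_lit 483) (nat_lit 2) (nat_lit 189) (nat_lit 215) (nat_lit 166)))) (PT.nd (nat_lit 156) (PT.nd (nat_lit 78) (PT.lf (nat_lit 36784) (nat_lit 6) (nat_lit 484) (nat_lit 2) (nat_lit 190) (nat_lit 215) (nat_lit 165)) (PT.lf (nat_lit 35644) (nat_lit 6) (nat_lit 469) (nat_lit 2) (nat_lit 191) (nat_lit 215) (nat_lit 164))) (PT.nd (nat_lit 78) (PT.lf (nat_lit 34732) (nat_lit 6) (nat_lit 457) (nat_lit 2) (nat_lit 192) (nat_lit 215) (nat_lit 163)) (PT.lf (nat_lit 33820) (nat_lit 6) (nat_lit 445) (nat_lit 2) (nat_lit 193) (nat_lit 215)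 (nat_lit 162))))))) (PT.nd (nat_lit 1170) (PT.nd (nat_lit 546) (PT.nd (nat_lit 234) (PT.nd (nat_lit 78) (PT.lf (nat_lit 32984) (nat_lit 6) (nat_lit 434) (nat_lit 2) (nat_lit 194) (nat_lit 215) (nat_lit 161)) (PT.nd (nat_lit 78) (PT.lf (nat_lit 32072) (nat_lit 6) (nat_lit 422) (nat_lit 2) (nat_lit 195) (nat_lit 215) (nat_lit 160)) (PT.lf (nat_lit 31236) (nat_lit 6) (nat_lit 411) (nat_lit 2) (nat_lit 196) (nat_lit 215) (nat_lit 159)))) (PT.nd (nat_lit 156) (PT.nd (nat_lit 78) (PT.lf (nat_lit 30400) (nat_lit 6) (nat_lit 400) (nat_lit 2) (nat_lit 197) (nat_lit 215) (nat_lit 158)) (PT.lf (nat_lit 29640) (nat_lit 6) (nat_lit 390) (nat_lit 2) (nat_lit 198) (nat_lit 215) (nat_lit 157))) (PT.nd (nat_lit 78) (PT.lf (nat_lit 28880) (nat_lit 6) (nat_lit 380) (nat_lit 2) (nat_lit 199) (nat_lit 215) (nat_lit 156)) (PT.lf (nat_lit 28120) (nat_lit 6) (nat_lit 370) (nat_lit 2) (nat_lit 200) (nat_lit 215) (nat_lit 155))))) (PT.nd (nat_lit 312) (PT.nd (nat_lit 156) (PT.nd (nat_lit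 78) (PT.lf (nat_lit 27360) (nat_lit 6) (nat_lit 360) (nat_lit 2) (nat_lit 201) (nat_lit 215) (nat_lit 154)) (PT.lf (nat_lit 26676) (nat_lit 6) (nat_lit 351) (nat_lit 2) (nat_lit 202) (nat_lit 215) (nat_lit 153))) (PT.nd (nat_lit 78) (PT.lf (nat_lit 25992) (nat_lit 6) (nat_lit 342) (nat_lit 2) (nat_lit 203) (nat_lit 215) (nat_lit 152)) (PT.lf (nat_lit 25308) (nat_lit 6) (nat_lit 333) (nat_lit 2) (nat_lit 204) (nat_lit 215) (nat_lit 151)))) (PT.nd (nat_lit 156) (PT.nd (nat_lit 78) (PT.lf (nat_lit 24624) (nat_lit 6) (nat_lit 324) (nat_lit 2) (nat_lit 205) (nat_lit 215) (nat_lit 150)) (PT.lf (nat_lit 24016) (nat_lit 6) (nat_lit 316) (nat_lit 2) (nat_lit 206) (nat_lit 215) (nat_lit 149))) (PT.nd (nat_lit 78) (PT.lf (nat_lit 23408) (nat_lit 6) (nat_lit 308) (nat_lit 2) (nat_lit 207) (nat_lit 215) (nat_lit 148)) (PT.lf (nat_lit 22800) (nat_lit 6) (nat_lit 300) (nat_lit 2) (nat_lit 208) (nat_lit 215) (nat_lit 147)))))) (PT.nd (nat_lit 624) (PT.nd (nat_lit 312) (PT.nd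 (nat_lit 156) (PT.nd (nat_lit 78) (PT.lf (nat_lit 22192) (nat_lit 6) (nat_lit 292) (nat_lit 2) (nat_lit 209) (nat_lit 215) (nat_lit 146)) (PT.lf (nat_lit 21660) (nat_lit 6) (nat_lit 285) (nat_lit 2) (nat_lit 210) (nat_lit 215) (nat_lit 145))) (PT.nd (nat_lit 78) (PT.lf (nat_lit 21052) (nat_lit 6) (nat_lit 277) (nat_lit 2) (nat_lit 211) (nat_lit 215) (nat_lit 144)) (PT.lf (nat_lit 20520) (nat_lit 6) (nat_lit 270) (nat_lit 2) (nat_lit 212) (nat_lit 215) (nat_lit 143)))) (PT.nd (nat_lit 156) (PT.nd (nat_lit 78) (PT.lf (nat_lit 19988) (nat_lit 6) (nat_lit 263) (nat_lit 2) (nat_lit 213) (nat_lit 215) (nat_lit 142)) (PT.lf (nat_lit 19456) (nat_lit 6) (nat_lit 256) (nat_lit 2) (nat_lit 214) (nat_lit 215) (nat_lit 141))) (PT.nd (nat_lit 78) (PT.lf (nat_lit 18924) (nat_lit 3) (nat_lit 249) (nat_lit 0) (nat_lit 215) (nat_lit 215) (nat_lit 140)) (PT.lf (nat_lit 18392) (nat_lit 6) (nat_lit 242) (nat_lit 0) (nat_lit 216) (nat_lit 215) (nat_lit 139))))) (PT.nd (nat_lit 312)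 (PT.nd (nat_lit 156) (PT.nd (nat_lit 78) (PT.lf (nat_lit 17784) (nat_lit 6) (nat_lit 234) (nat_lit 0) (nat_lit 217) (nat_lit 215) (nat_lit 138)) (PT.lf (nat_lit 17252) (nat_lit 6) (nat_lit 227) (nat_lit 0) (nat_lit 218) (nat_lit 215) (nat_lit 137))) (PT.nd (nat_lit 78) (PT.lf (nat_lit 16720) (nat_lit 6) (nat_lit 220) (nat_lit 0) (nat_lit 219) (nat_lit 215) (nat_lit 136)) (PT.lf (nat_lit 16188) (nat_lit 6) (nat_lit 213) (nat_lit 0) (nat_lit 220) (nat_lit 215) (nat_lit 135)))) (PT.nd (nat_lit 156) (PT.nd (nat_lit 78) (PT.lf (nat_lit 15656) (nat_lit 6) (nat_lit 206) (nat_lit 0) (nat_lit 221) (nat_lit 215) (nat_lit 134)) (PT.lf (nat_lit 15200) (nat_lit 6) (nat_lit 200) (nat_lit 0) (nat_lit 222) (nat_lit 215) (nat_lit 133))) (PT.nd (nat_lit 78) (PT.lf (nat_lit 14668) (nat_lit 6) (nat_lit 193) (nat_lit 0) (nat_lit 223) (nat_lit 215) (nat_lit 132)) (PT.lf (nat_lit 14212) (nat_lit 6) (nat_lit 187) (nat_lit 0) (nat_lit 224) (nat_lit 215) (nat_lit 131))))))))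
noncomputable def pc56 : PT := (PT.nd (nat_lit 54132) (PT.nd (nat_lit 52962) (PT.nd (nat_lit 52338) (PT.nd (nat_lit 52026) (PT.nd (nat_lit 51870) (PT.lf (nat_lit 13756) (nat_lit 6) (nat_lit 181) (nat_lit 0) (nat_lit 225) (nat_lit 215) (nat_lit 130)) (PT.nd (nat_lit 78) (PT.lf (nat_lit 13376) (nat_lit 6) (nat_lit 176) (nat_lit 5) (nat_lit 129) (nat_lit 216) (nat_lit 225)) (PT.lf (nat_lit 13832) (nat_lit 6) (nat_lit 182) (nat_lit 5) (nat_lit 130) (nat_lit 216) (nat_lit 224)))) (PT.nd (nat_lit 156) (PT.nd (nat_lit 78) (PT.lf (nat_lit 14288) (nat_lit 6) (nat_lit 188) (nat_lit 5) (nat_lit 131) (nat_lit 216) (nat_lit 223)) (PT.lf (nat_lit 14744) (nat_lit 6) (nat_lit 194) (nat_lit 5) (nat_lit 132) (nat_lit 216) (nat_lit 222))) (PT.nd (nat_lit 78) (PT.lf (nat_lit 15276) (nat_lit 6) (nat_lit 201) (nat_lit 5) (nat_lit 133) (nat_lit 216) (nat_lit 221)) (PT.lf (nat_lit 15732) (nat_lit 6) (nat_lit 207) (nat_lit 5) (nat_lit 134) (nat_lit 216) (nat_lit 220))))) (PT.nd (nat_lit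 312) (PT.nd (nat_lit 156) (PT.nd (nat_lit 78) (PT.lf (nat_lit 16264) (nat_lit 6) (nat_lit 214) (nat_lit 5) (nat_lit 135) (nat_lit 216) (nat_lit 219)) (PT.lf (nat_lit 16796) (nat_lit 6) (nat_lit 221) (nat_lit 5) (nat_lit 136) (nat_lit 216) (nat_lit 218))) (PT.nd (nat_lit 78) (PT.lf (nat_lit 17328) (nat_lit 6) (nat_lit 228) (nat_lit 5) (nat_lit 137) (nat_lit 216) (nat_lit 217)) (PT.lf (nat_lit 17860) (nat_lit 3) (nat_lit 235) (nat_lit 4) (nat_lit 138) (nat_lit 216) (nat_lit 216)))) (PT.nd (nat_lit 156) (PT.nd (nat_lit 78) (PT.lf (nat_lit 18392) (nat_lit 6) (nat_lit 242) (nat_lit 4) (nat_lit 139) (nat_lit 216) (nat_lit 215)) (PT.lf (nat_lit 18848) (nat_lit 6) (nat_lit 248) (nat_lit 4) (nat_lit 140) (nat_lit 216) (nat_lit 214))) (PT.nd (nat_lit 78) (PT.lf (nat_lit 19380) (nat_lit 6) (nat_lit 255) (nat_lit 4) (nat_lit 141) (nat_lit 216) (nat_lit 213)) (PT.lf (nat_lit 19912) (nat_lit 6) (nat_lit 262) (nat_lit 4) (nat_lit 142) (nat_lit 216) (nat_lit 212)))))) (PT.nd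 (nat_lit 546) (PT.nd (nat_lit 234) (PT.nd (nat_lit 78) (PT.lf (nat_lit 20444) (nat_lit 6) (nat_lit 269) (nat_lit 4) (nat_lit 143) (nat_lit 216) (nat_lit 211)) (PT.nd (nat_lit 78) (PT.lf (nat_lit 20976) (nat_lit 6) (nat_lit 276) (nat_lit 4) (nat_lit 144) (nat_lit 216) (nat_lit 210)) (PT.lf (nat_lit 21584) (nat_lit 6) (nat_lit 284) (nat_lit 4) (nat_lit 145) (nat_lit 216) (nat_lit 209)))) (PT.nd (nat_lit 156) (PT.nd (nat_lit 78) (PT.lf (nat_lit 22116) (nat_lit 6) (nat_lit 291) (nat_lit 4) (nat_lit 146) (nat_lit 216) (nat_lit 208)) (PT.lf (nat_lit 22724) (nat_lit 6) (nat_lit 299) (nat_lit 4) (nat_lit 147) (nat_lit 216) (nat_lit 207))) (PT.nd (nat_lit 78) (PT.lf (nat_lit 23332) (nat_lit 6) (nat_lit 307) (nat_lit 4) (nat_lit 148) (nat_lit 216) (nat_lit 206)) (PT.lf (nat_lit 23940) (nat_lit 6) (nat_lit 315) (nat_lit 4) (nat_lit 149) (nat_lit 216) (nat_lit 205))))) (PT.nd (nat_lit 312) (PT.nd (nat_lit 156) (PT.nd (nat_lit 78) (PT.lf (nat_lit 24548) (nat_lit 6) (nat_lit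 323) (nat_lit 4) (nat_lit 150) (nat_lit 216) (nat_lit 204)) (PT.lf (nat_lit 25232) (nat_lit 6) (nat_lit 332) (nat_lit 4) (nat_lit 151) (nat_lit 216) (nat_lit 203))) (PT.nd (nat_lit 78) (PT.lf (nat_lit 25916) (nat_lit 6) (nat_lit 341) (nat_lit 4) (nat_lit 152) (nat_lit 216) (nat_lit 202)) (PT.lf (nat_lit 26600) (nat_lit 6) (nat_lit 350) (nat_lit 4) (nat_lit 153) (nat_lit 216) (nat_lit 201)))) (PT.nd (nat_lit 156) (PT.nd (nat_lit 78) (PT.lf (nat_lit 27284) (nat_lit 6) (nat_lit 359) (nat_lit 4) (nat_lit 154) (nat_lit 216) (nat_lit 200)) (PT.lf (nat_lit 28044) (nat_lit 6) (nat_lit 369) (nat_lit 4) (nat_lit 155) (nat_lit 216) (nat_lit 199))) (PT.nd (nat_lit 78) (PT.lf (nat_lit 28804) (nat_lit 6) (nat_lit 379) (nat_lit 4) (nat_lit 156) (nat_lit 216) (nat_lit 198)) (PT.lf (nat_lit 29564) (nat_lit 6) (nat_lit 389) (nat_lit 4) (nat_lit 157) (nat_lit 216) (nat_lit 197))))))) (PT.nd (nat_lit 3588) (PT.nd (nat_lit 2964) (PT.nd (nat_lit 234) (PT.nd (nat_lit 78) (PT.lf (nat_lit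 30324) (nat_lit 6) (nat_lit 399) (nat_lit 4) (nat_lit 158) (nat_lit 216) (nat_lit 196)) (PT.nd (nat_lit 78) (PT.lf (nat_lit 31160) (nat_lit 6) (nat_lit 410) (nat_lit 4) (nat_lit 159) (nat_lit 216) (nat_lit 195)) (PT.lf (nat_lit 31996) (nat_lit 6) (nat_lit 421) (nat_lit 4) (nat_lit 160) (nat_lit 216) (nat_lit 194)))) (PT.nd (nat_lit 2574) (PT.nd (nat_lit 2496) (PT.lf (nat_lit 32908) (nat_lit 6) (nat_lit 433) (nat_lit 4) (nat_lit 161) (nat_lit 216) (nat_lit 193)) (PT.lf (nat_lit 32908) (nat_lit 6) (nat_lit 433) (nat_lit 2) (nat_lit 193) (nat_lit 216) (nat_lit 161))) (PT.nd (nat_lit 78) (PT.lf (nat_lit 31996) (nat_lit 6) (nat_lit 421) (nat_lit 2) (nat_lit 194) (nat_lit 216) (nat_lit 160)) (PT.lf (nat_lit 31160) (nat_lit 6) (nat_lit 410) (nat_lit 2) (nat_lit 195) (nat_lit 216) (nat_lit 159))))) (PT.nd (nat_lit 312) (PT.nd (nat_lit 156) (PT.nd (nat_lit 78) (PT.lf (nat_lit 30324) (nat_lit 6) (nat_lit 399) (nat_lit 2) (nat_lit 196) (nat_lit 216) (nat_lit 158)) (PT.lf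 (nat_lit 29564) (nat_lit 6) (nat_lit 389) (nat_lit 2) (nat_lit 197) (nat_lit 216) (nat_lit 157))) (PT.nd (nat_lit 78) (PT.lf (nat_lit 28804) (nat_lit 6) (nat_lit 379) (nat_lit 2) (nat_lit 198) (nat_lit 216) (nat_lit 156)) (PT.lf (nat_lit 28044) (nat_lit 6) (nat_lit 369) (nat_lit 2) (nat_lit 199) (nat_lit 216) (nat_lit 155)))) (PT.nd (nat_lit 156) (PT.nd (nat_lit 78) (PT.lf (nat_lit 27284) (nat_lit 6) (nat_lit 359) (nat_lit 2) (nat_lit 200) (nat_lit 216) (nat_lit 154)) (PT.lf (nat_lit 26600) (nat_lit 6) (nat_lit 350) (nat_lit 2) (nat_lit 201) (nat_lit 216) (nat_lit 153))) (PT.nd (nat_lit 78) (PT.lf (nat_lit 25916) (nat_lit 6) (nat_lit 341) (nat_lit 2) (nat_lit 202) (nat_lit 216) (nat_lit 152)) (PT.lf (nat_lit 25232) (nat_lit 6) (nat_lit 332) (nat_lit 2) (nat_lit 203) (nat_lit 216) (nat_lit 151)))))) (PT.nd (nat_lit 624) (PT.nd (nat_lit 312) (PT.nd (nat_lit 156) (PT.nd (nat_lit 78) (PT.lf (nat_lit 24548) (nat_lit 6) (nat_lit 323) (nat_lit 2) (nat_lit 204) (nat_lit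 216) (nat_lit 150)) (PT.lf (nat_lit 23940) (nat_lit 6) (nat_lit 315) (nat_lit 2) (nat_lit 205) (nat_lit 216) (nat_lit 149))) (PT.nd (nat_lit 78) (PT.lf (nat_lit 23332) (nat_lit 6) (nat_lit 307) (nat_lit 2) (nat_lit 206) (nat_lit 216) (nat_lit 148)) (PT.lf (nat_lit 22724) (nat_lit 6) (nat_lit 299) (nat_lit 2) (nat_lit 207) (nat_lit 216) (nat_lit 147)))) (PT.nd (nat_lit 156) (PT.nd (nat_lit 78) (PT.lf (nat_lit 22116) (nat_lit 6) (nat_lit 291) (nat_lit 2) (nat_lit 208) (nat_lit 216) (nat_lit 146)) (PT.lf (nat_lit 21584) (nat_lit 6) (nat_lit 284) (nat_lit 2) (nat_lit 209) (nat_lit 216) (nat_lit 145))) (PT.nd (nat_lit 78) (PT.lf (nat_lit 20976) (nat_lit 6) (nat_lit 276) (nat_lit 2) (nat_lit 210) (nat_lit 216) (nat_lit 144)) (PT.lf (nat_lit 20444) (nat_lit 6) (nat_lit 269) (nat_lit 2) (nat_lit 211) (nat_lit 216) (nat_lit 143))))) (PT.nd (nat_lit 312) (PT.nd (nat_lit 156) (PT.nd (nat_lit 78) (PT.lf (nat_lit 19912) (nat_lit 6) (nat_lit 262) (nat_lit 2) (nat_lit 212)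 (nat_lit 216) (nat_lit 142)) (PT.lf (nat_lit 19380) (nat_lit 6) (nat_lit 255) (nat_lit 2) (nat_lit 213) (nat_lit 216) (nat_lit 141))) (PT.nd (nat_lit 78) (PT.lf (nat_lit 18848) (nat_lit 6) (nat_lit 248) (nat_lit 2) (nat_lit 214) (nat_lit 216) (nat_lit 140)) (PT.lf (nat_lit 18392) (nat_lit 6) (nat_lit 242) (nat_lit 2) (nat_lit 215) (nat_lit 216) (nat_lit 139)))) (PT.nd (nat_lit 156) (PT.nd (nat_lit 78) (PT.lf (nat_lit 17860) (nat_lit 3) (nat_lit 235) (nat_lit 0) (nat_lit 216) (nat_lit 216) (nat_lit 138)) (PT.lf (nat_lit 17328) (nat_lit 6) (nat_lit 228) (nat_lit 0) (nat_lit 217) (nat_lit 216) (nat_lit 137))) (PT.nd (nat_lit 78) (PT.lf (nat_lit 16796) (nat_lit 6) (nat_lit 221) (nat_lit 0) (nat_lit 218) (nat_lit 216) (nat_lit 136)) (PT.lf (nat_lit 16264) (nat_lit 6) (nat_lit 214) (nat_lit 0) (nat_lit 219) (nat_lit 216) (nat_lit 135))))))))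
noncomputable def pc57 : PT := (PT.nd (nat_lit 53976) (PT.nd (nat_lit 52806) (PT.nd (nat_lit 52182) (PT.nd (nat_lit 234) (PT.nd (nat_lit 78) (PT.lf (nat_lit 15732) (nat_lit 6) (nat_lit 207) (nat_lit 0) (nat_lit 220) (nat_lit 216) (nat_lit 134)) (PT.nd (nat_lit 78) (PT.lf (nat_lit 15276) (nat_lit 6) (nat_lit 201) (nat_lit 0) (nat_lit 221) (nat_lit 216) (nat_lit 133)) (PT.lf (nat_lit 14744) (nat_lit 6) (nat_lit 194) (nat_lit 0) (nat_lit 222) (nat_lit 216) (nat_lit 132)))) (PT.nd (nat_lit 156) (PT.nd (nat_lit 78) (PT.lf (nat_lit 14288) (nat_lit 6) (nat_lit 188) (nat_lit 0) (nat_lit 223) (nat_lit 216) (nat_lit 131)) (PT.lf (nat_lit 13832) (nat_lit 6) (nat_lit 182) (nat_lit 0) (nat_lit 224) (nat_lit 216) (nat_lit 130))) (PT.nd (nat_lit 51714) (PT.lf (nat_lit 13376) (nat_lit 6) (nat_lit 176) (nat_lit 0) (nat_lit 225) (nat_lit 216) (nat_lit 129)) (PT.lf (nat_lit 12616) (nat_lit 6) (nat_lit 166) (nat_lit 5) (nat_lit 127) (nat_lit 217) (nat_lit 226))))) (PT.nd (nat_lit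 312) (PT.nd (nat_lit 156) (PT.nd (nat_lit 78) (PT.lf (nat_lit 12996) (nat_lit 6) (nat_lit 171) (nat_lit 5) (nat_lit 128) (nat_lit 217) (nat_lit 225)) (PT.lf (nat_lit 13452) (nat_lit 6) (nat_lit 177) (nat_lit 5) (nat_lit 129) (nat_lit 217) (nat_lit 224))) (PT.nd (nat_lit 78) (PT.lf (nat_lit 13908) (nat_lit 6) (nat_lit 183) (nat_lit 5) (nat_lit 130) (nat_lit 217) (nat_lit 223)) (PT.lf (nat_lit 14364) (nat_lit 6) (nat_lit 189) (nat_lit 5) (nat_lit 131) (nat_lit 217) (nat_lit 222)))) (PT.nd (nat_lit 156) (PT.nd (nat_lit 78) (PT.lf (nat_lit 14820) (nat_lit 6) (nat_lit 195) (nat_lit 5) (nat_lit 132) (nat_lit 217) (nat_lit 221)) (PT.lf (nat_lit 15352) (nat_lit 6) (nat_lit 202) (nat_lit 5) (nat_lit 133) (nat_lit 217) (nat_lit 220))) (PT.nd (nat_lit 78) (PT.lf (nat_lit 15808) (nat_lit 6) (nat_lit 208) (nat_lit 5) (nat_lit 134) (nat_lit 217) (nat_lit 219)) (PT.lf (nat_lit 16340) (nat_lit 6) (nat_lit 215) (nat_lit 5) (nat_lit 135) (nat_lit 217) (nat_lit 218)))))) (PT.nd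 (nat_lit 546) (PT.nd (nat_lit 234) (PT.nd (nat_lit 78) (PT.lf (nat_lit 16872) (nat_lit 3) (nat_lit 222) (nat_lit 4) (nat_lit 136) (nat_lit 217) (nat_lit 217)) (PT.nd (nat_lit 78) (PT.lf (nat_lit 17328) (nat_lit 6) (nat_lit 228) (nat_lit 4) (nat_lit 137) (nat_lit 217) (nat_lit 216)) (PT.lf (nat_lit 17784) (nat_lit 6) (nat_lit 234) (nat_lit 4) (nat_lit 138) (nat_lit 217) (nat_lit 215)))) (PT.nd (nat_lit 156) (PT.nd (nat_lit 78) (PT.lf (nat_lit 18316) (nat_lit 6) (nat_lit 241) (nat_lit 4) (nat_lit 139) (nat_lit 217) (nat_lit 214)) (PT.lf (nat_lit 18772) (nat_lit 6) (nat_lit 247) (nat_lit 4) (nat_lit 140) (nat_lit 217) (nat_lit 213))) (PT.nd (nat_lit 78) (PT.lf (nat_lit 19304) (nat_lit 6) (nat_lit 254) (nat_lit 4) (nat_lit 141) (nat_lit 217) (nat_lit 212)) (PT.lf (nat_lit 19836) (nat_lit 6) (nat_lit 261) (nat_lit 4) (nat_lit 142) (nat_lit 217) (nat_lit 211))))) (PT.nd (nat_lit 312) (PT.nd (nat_lit 156) (PT.nd (nat_lit 78) (PT.lf (nat_lit 20368) (nat_lit 6) (nat_lit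 268) (nat_lit 4) (nat_lit 143) (nat_lit 217) (nat_lit 210)) (PT.lf (nat_lit 20900) (nat_lit 6) (nat_lit 275) (nat_lit 4) (nat_lit 144) (nat_lit 217) (nat_lit 209))) (PT.nd (nat_lit 78) (PT.lf (nat_lit 21508) (nat_lit 6) (nat_lit 283) (nat_lit 4) (nat_lit 145) (nat_lit 217) (nat_lit 208)) (PT.lf (nat_lit 22040) (nat_lit 6) (nat_lit 290) (nat_lit 4) (nat_lit 146) (nat_lit 217) (nat_lit 207)))) (PT.nd (nat_lit 156) (PT.nd (nat_lit 78) (PT.lf (nat_lit 22648) (nat_lit 6) (nat_lit 298) (nat_lit 4) (nat_lit 147) (nat_lit 217) (nat_lit 206)) (PT.lf (nat_lit 23256) (nat_lit 6) (nat_lit 306) (nat_lit 4) (nat_lit 148) (nat_lit 217) (nat_lit 205))) (PT.nd (nat_lit 78) (PT.lf (nat_lit 23864) (nat_lit 6) (nat_lit 314) (nat_lit 4) (nat_lit 149) (nat_lit 217) (nat_lit 204)) (PT.lf (nat_lit 24472) (nat_lit 6) (nat_lit 322) (nat_lit 4) (nat_lit 150) (nat_lit 217) (nat_lit 203))))))) (PT.nd (nat_lit 4290) (PT.nd (nat_lit 3666) (PT.nd (nat_lit 234) (PT.nd (nat_lit 78) (PT.lf (nat_lit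 25156) (nat_lit 6) (nat_lit 331) (nat_lit 4) (nat_lit 151) (nat_lit 217) (nat_lit 202)) (PT.nd (nat_lit 78) (PT.lf (nat_lit 25840) (nat_lit 6) (nat_lit 340) (nat_lit 4) (nat_lit 152) (nat_lit 217) (nat_lit 201)) (PT.lf (nat_lit 26524) (nat_lit 6) (nat_lit 349) (nat_lit 4) (nat_lit 153) (nat_lit 217) (nat_lit 200)))) (PT.nd (nat_lit 156) (PT.nd (nat_lit 78) (PT.lf (nat_lit 27208) (nat_lit 6) (nat_lit 358) (nat_lit 4) (nat_lit 154) (nat_lit 217) (nat_lit 199)) (PT.lf (nat_lit 27968) (nat_lit 6) (nat_lit 368) (nat_lit 4) (nat_lit 155) (nat_lit 217) (nat_lit 198))) (PT.nd (nat_lit 3198) (PT.lf (nat_lit 28728) (nat_lit 6) (nat_lit 378) (nat_lit 4) (nat_lit 156) (nat_lit 217) (nat_lit 197)) (PT.lf (nat_lit 28728) (nat_lit 6) (nat_lit 378) (nat_lit 2) (nat_lit 197) (nat_lit 217) (nat_lit 156))))) (PT.nd (nat_lit 312) (PT.nd (nat_lit 156) (PT.nd (nat_lit 78) (PT.lf (nat_lit 27968) (nat_lit 6) (nat_lit 368) (nat_lit 2) (nat_lit 198) (nat_lit 217) (nat_lit 155)) (PT.lf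 (nat_lit 27208) (nat_lit 6) (nat_lit 358) (nat_lit 2) (nat_lit 199) (nat_lit 217) (nat_lit 154))) (PT.nd (nat_lit 78) (PT.lf (nat_lit 26524) (nat_lit 6) (nat_lit 349) (nat_lit 2) (nat_lit 200) (nat_lit 217) (nat_lit 153)) (PT.lf (nat_lit 25840) (nat_lit 6) (nat_lit 340) (nat_lit 2) (nat_lit 201) (nat_lit 217) (nat_lit 152)))) (PT.nd (nat_lit 156) (PT.nd (nat_lit 78) (PT.lf (nat_lit 25156) (nat_lit 6) (nat_lit 331) (nat_lit 2) (nat_lit 202) (nat_lit 217) (nat_lit 151)) (PT.lf (nat_lit 24472) (nat_lit 6) (nat_lit 322) (nat_lit 2) (nat_lit 203) (nat_lit 217) (nat_lit 150))) (PT.nd (nat_lit 78) (PT.lf (nat_lit 23864) (nat_lit 6) (nat_lit 314) (nat_lit 2) (nat_lit 204) (nat_lit 217) (nat_lit 149)) (PT.lf (nat_lit 23256) (nat_lit 6) (nat_lit 306) (nat_lit 2) (nat_lit 205) (nat_lit 217) (nat_lit 148)))))) (PT.nd (nat_lit 624) (PT.nd (nat_lit 312) (PT.nd (nat_lit 156) (PT.nd (nat_lit 78) (PT.lf (nat_lit 22648) (nat_lit 6) (nat_lit 298) (nat_lit 2) (nat_lit 206) (nat_lit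 217) (nat_lit 147)) (PT.lf (nat_lit 22040) (nat_lit 6) (nat_lit 290) (nat_lit 2) (nat_lit 207) (nat_lit 217) (nat_lit 146))) (PT.nd (nat_lit 78) (PT.lf (nat_lit 21508) (nat_lit 6) (nat_lit 283) (nat_lit 2) (nat_lit 208) (nat_lit 217) (nat_lit 145)) (PT.lf (nat_lit 20900) (nat_lit 6) (nat_lit 275) (nat_lit 2) (nat_lit 209) (nat_lit 217) (nat_lit 144)))) (PT.nd (nat_lit 156) (PT.nd (nat_lit 78) (PT.lf (nat_lit 20368) (nat_lit 6) (nat_lit 268) (nat_lit 2) (nat_lit 210) (nat_lit 217) (nat_lit 143)) (PT.lf (nat_lit 19836) (nat_lit 6) (nat_lit 261) (nat_lit 2) (nat_lit 211) (nat_lit 217) (nat_lit 142))) (PT.nd (nat_lit 78) (PT.lf (nat_lit 19304) (nat_lit 6) (nat_lit 254) (nat_lit 2) (nat_lit 212) (nat_lit 217) (nat_lit 141)) (PT.lf (nat_lit 18772) (nat_lit 6) (nat_lit 247) (nat_lit 2) (nat_lit 213) (nat_lit 217) (nat_lit 140))))) (PT.nd (nat_lit 312) (PT.nd (nat_lit 156) (PT.nd (nat_lit 78) (PT.lf (nat_lit 18316) (nat_lit 6) (nat_lit 241) (nat_lit 2) (nat_lit 214)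 (nat_lit 217) (nat_lit 139)) (PT.lf (nat_lit 17784) (nat_lit 6) (nat_lit 234) (nat_lit 2) (nat_lit 215) (nat_lit 217) (nat_lit 138))) (PT.nd (nat_lit 78) (PT.lf (nat_lit 17328) (nat_lit 6) (nat_lit 228) (nat_lit 2) (nat_lit 216) (nat_lit 217) (nat_lit 137)) (PT.lf (nat_lit 16872) (nat_lit 3) (nat_lit 222) (nat_lit 0) (nat_lit 217) (nat_lit 217) (nat_lit 136)))) (PT.nd (nat_lit 156) (PT.nd (nat_lit 78) (PT.lf (nat_lit 16340) (nat_lit 6) (nat_lit 215) (nat_lit 0) (nat_lit 218) (nat_lit 217) (nat_lit 135)) (PT.lf (nat_lit 15808) (nat_lit 6) (nat_lit 208) (nat_lit 0) (nat_lit 219) (nat_lit 217) (nat_lit 134))) (PT.nd (nat_lit 78) (PT.lf (nat_lit 15352) (nat_lit 6) (nat_lit 202) (nat_lit 0) (nat_lit 220) (nat_lit 217) (nat_lit 133)) (PT.lf (nat_lit 14820) (nat_lit 6) (nat_lit 195) (nat_lit 0) (nat_lit 221) (nat_lit 217) (nat_lit 132))))))))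
noncomputable def pc58 : PT := (PT.nd (nat_lit 53742) (PT.nd (nat_lit 52572) (PT.nd (nat_lit 51948) (PT.nd (nat_lit 234) (PT.nd (nat_lit 78) (PT.lf (nat_lit 14364) (nat_lit 6) (nat_lit 189) (nat_lit 0) (nat_lit 222) (nat_lit 217) (nat_lit 131)) (PT.nd (nat_lit 78) (PT.lf (nat_lit 13908) (nat_lit 6) (nat_lit 183) (nat_lit 0) (nat_lit 223) (nat_lit 217) (nat_lit 130)) (PT.lf (nat_lit 13452) (nat_lit 6) (nat_lit 177) (nat_lit 0) (nat_lit 224) (nat_lit 217) (nat_lit 129)))) (PT.nd (nat_lit 51558) (PT.nd (nat_lit 78) (PT.lf (nat_lit 12996) (nat_lit 6) (nat_lit 171) (nat_lit 0) (nat_lit 225) (nat_lit 217) (nat_lit 128)) (PT.lf (nat_lit 12616) (nat_lit 6) (nat_lit 166) (nat_lit 0) (nat_lit 226) (nat_lit 217) (nat_lit 127))) (PT.nd (nat_lit 78) (PT.lf (nat_lit 11856) (nat_lit 6) (nat_lit 156) (nat_lit 5) (nat_lit 125) (nat_lit 218) (nat_lit 227)) (PT.lf (nat_lit 12236) (nat_lit 6) (nat_lit 161) (nat_lit 5) (nat_lit 126) (nat_lit 218) (nat_lit 226))))) (PT.nd (nat_lit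 312) (PT.nd (nat_lit 156) (PT.nd (nat_lit 78) (PT.lf (nat_lit 12692) (nat_lit 6) (nat_lit 167) (nat_lit 5) (nat_lit 127) (nat_lit 218) (nat_lit 225)) (PT.lf (nat_lit 13072) (nat_lit 6) (nat_lit 172) (nat_lit 5) (nat_lit 128) (nat_lit 218) (nat_lit 224))) (PT.nd (nat_lit 78) (PT.lf (nat_lit 13528) (nat_lit 6) (nat_lit 178) (nat_lit 5) (nat_lit 129) (nat_lit 218) (nat_lit 223)) (PT.lf (nat_lit 13984) (nat_lit 6) (nat_lit 184) (nat_lit 5) (nat_lit 130) (nat_lit 218) (nat_lit 222)))) (PT.nd (nat_lit 156) (PT.nd (nat_lit 78) (PT.lf (nat_lit 14440) (nat_lit 6) (nat_lit 190) (nat_lit 5) (nat_lit 131) (nat_lit 218) (nat_lit 221)) (PT.lf (nat_lit 14896) (nat_lit 6) (nat_lit 196) (nat_lit 5) (nat_lit 132) (nat_lit 218) (nat_lit 220))) (PT.nd (nat_lit 78) (PT.lf (nat_lit 15428) (nat_lit 6) (nat_lit 203) (nat_lit 5) (nat_lit 133) (nat_lit 218) (nat_lit 219)) (PT.lf (nat_lit 15884) (nat_lit 3) (nat_lit 209) (nat_lit 4) (nat_lit 134) (nat_lit 218) (nat_lit 218)))))) (PT.nd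 (nat_lit 546) (PT.nd (nat_lit 234) (PT.nd (nat_lit 78) (PT.lf (nat_lit 16340) (nat_lit 6) (nat_lit 215) (nat_lit 4) (nat_lit 135) (nat_lit 218) (nat_lit 217)) (PT.nd (nat_lit 78) (PT.lf (nat_lit 16796) (nat_lit 6) (nat_lit 221) (nat_lit 4) (nat_lit 136) (nat_lit 218) (nat_lit 216)) (PT.lf (nat_lit 17252) (nat_lit 6) (nat_lit 227) (nat_lit 4) (nat_lit 137) (nat_lit 218) (nat_lit 215)))) (PT.nd (nat_lit 156) (PT.nd (nat_lit 78) (PT.lf (nat_lit 17708) (nat_lit 6) (nat_lit 233) (nat_lit 4) (nat_lit 138) (nat_lit 218) (nat_lit 214)) (PT.lf (nat_lit 18240) (nat_lit 6) (nat_lit 240) (nat_lit 4) (nat_lit 139) (nat_lit 218) (nat_lit 213))) (PT.nd (nat_lit 78) (PT.lf (nat_lit 18696) (nat_lit 6) (nat_lit 246) (nat_lit 4) (nat_lit 140) (nat_lit 218) (nat_lit 212)) (PT.lf (nat_lit 19228) (nat_lit 6) (nat_lit 253) (nat_lit 4) (nat_lit 141) (nat_lit 218) (nat_lit 211))))) (PT.nd (nat_lit 312) (PT.nd (nat_lit 156) (PT.nd (nat_lit 78) (PT.lf (nat_lit 19760) (nat_lit 6) (nat_lit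 260) (nat_lit 4) (nat_lit 142) (nat_lit 218) (nat_lit 210)) (PT.lf (nat_lit 20292) (nat_lit 6) (nat_lit 267) (nat_lit 4) (nat_lit 143) (nat_lit 218) (nat_lit 209))) (PT.nd (nat_lit 78) (PT.lf (nat_lit 20824) (nat_lit 6) (nat_lit 274) (nat_lit 4) (nat_lit 144) (nat_lit 218) (nat_lit 208)) (PT.lf (nat_lit 21432) (nat_lit 6) (nat_lit 282) (nat_lit 4) (nat_lit 145) (nat_lit 218) (nat_lit 207)))) (PT.nd (nat_lit 156) (PT.nd (nat_lit 78) (PT.lf (nat_lit 21964) (nat_lit 6) (nat_lit 289) (nat_lit 4) (nat_lit 146) (nat_lit 218) (nat_lit 206)) (PT.lf (nat_lit 22572) (nat_lit 6) (nat_lit 297) (nat_lit 4) (nat_lit 147) (nat_lit 218) (nat_lit 205))) (PT.nd (nat_lit 78) (PT.lf (nat_lit 23180) (nat_lit 6) (nat_lit 305) (nat_lit 4) (nat_lit 148) (nat_lit 218) (nat_lit 204)) (PT.lf (nat_lit 23788) (nat_lit 6) (nat_lit 313) (nat_lit 4) (nat_lit 149) (nat_lit 218) (nat_lit 203))))))) (PT.nd (nat_lit 4836) (PT.nd (nat_lit 4212) (PT.nd (nat_lit 3900) (PT.nd (nat_lit 78) (PT.lf (nat_lit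 24396) (nat_lit 6) (nat_lit 321) (nat_lit 4) (nat_lit 150) (nat_lit 218) (nat_lit 202)) (PT.nd (nat_lit 78) (PT.lf (nat_lit 25080) (nat_lit 6) (nat_lit 330) (nat_lit 4) (nat_lit 151) (nat_lit 218) (nat_lit 201)) (PT.lf (nat_lit 25764) (nat_lit 6) (nat_lit 339) (nat_lit 4) (nat_lit 152) (nat_lit 218) (nat_lit 200)))) (PT.nd (nat_lit 156) (PT.nd (nat_lit 78) (PT.lf (nat_lit 25764) (nat_lit 6) (nat_lit 339) (nat_lit 2) (nat_lit 200) (nat_lit 218) (nat_lit 152)) (PT.lf (nat_lit 25080) (nat_lit 6) (nat_lit 330) (nat_lit 2) (nat_lit 201) (nat_lit 218) (nat_lit 151))) (PT.nd (nat_lit 78) (PT.lf (nat_lit 24396) (nat_lit 6) (nat_lit 321) (nat_lit 2) (nat_lit 202) (nat_lit 218) (nat_lit 150)) (PT.lf (nat_lit 23788) (nat_lit 6) (nat_lit 313) (nat_lit 2) (nat_lit 203) (nat_lit 218) (nat_lit 149))))) (PT.nd (nat_lit 312) (PT.nd (nat_lit 156) (PT.nd (nat_lit 78) (PT.lf (nat_lit 23180) (nat_lit 6) (nat_lit 305) (nat_lit 2) (nat_lit 204) (nat_lit 218) (nat_lit 148)) (PT.lf (nat_lit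 22572) (nat_lit 6) (nat_lit 297) (nat_lit 2) (nat_lit 205) (nat_lit 218) (nat_lit 147))) (PT.nd (nat_lit 78) (PT.lf (nat_lit 21964) (nat_lit 6) (nat_lit 289) (nat_lit 2) (nat_lit 206) (nat_lit 218) (nat_lit 146)) (PT.lf (nat_lit 21432) (nat_lit 6) (nat_lit 282) (nat_lit 2) (nat_lit 207) (nat_lit 218) (nat_lit 145)))) (PT.nd (nat_lit 156) (PT.nd (nat_lit 78) (PT.lf (nat_lit 20824) (nat_lit 6) (nat_lit 274) (nat_lit 2) (nat_lit 208) (nat_lit 218) (nat_lit 144)) (PT.lf (nat_lit 20292) (nat_lit 6) (nat_lit 267) (nat_lit 2) (nat_lit 209) (nat_lit 218) (nat_lit 143))) (PT.nd (nat_lit 78) (PT.lf (nat_lit 19760) (nat_lit 6) (nat_lit 260) (nat_lit 2) (nat_lit 210) (nat_lit 218) (nat_lit 142)) (PT.lf (nat_lit 19228) (nat_lit 6) (nat_lit 253) (nat_lit 2) (nat_lit 211) (nat_lit 218) (nat_lit 141)))))) (PT.nd (nat_lit 624) (PT.nd (nat_lit 312) (PT.nd (nat_lit 156) (PT.nd (nat_lit 78) (PT.lf (nat_lit 18696) (nat_lit 6) (nat_lit 246) (nat_lit 2) (nat_lit 212) (nat_lit 218)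 (nat_lit 140)) (PT.lf (nat_lit 18240) (nat_lit 6) (nat_lit 240) (nat_lit 2) (nat_lit 213) (nat_lit 218) (nat_lit 139))) (PT.nd (nat_lit 78) (PT.lf (nat_lit 17708) (nat_lit 6) (nat_lit 233) (nat_lit 2) (nat_lit 214) (nat_lit 218) (nat_lit 138)) (PT.lf (nat_lit 17252) (nat_lit 6) (nat_lit 227) (nat_lit 2) (nat_lit 215) (nat_lit 218) (nat_lit 137)))) (PT.nd (nat_lit 156) (PT.nd (nat_lit 78) (PT.lf (nat_lit 16796) (nat_lit 6) (nat_lit 221) (nat_lit 2) (nat_lit 216) (nat_lit 218) (nat_lit 136)) (PT.lf (nat_lit 16340) (nat_lit 6) (nat_lit 215) (nat_lit 2) (nat_lit 217) (nat_lit 218) (nat_lit 135))) (PT.nd (nat_lit 78) (PT.lf (nat_lit 15884) (nat_lit 3) (nat_lit 209) (nat_lit 0) (nat_lit 218) (nat_lit 218) (nat_lit 134)) (PT.lf (nat_lit 15428) (nat_lit 6) (nat_lit 203) (nat_lit 0) (nat_lit 219) (nat_lit 218) (nat_lit 133))))) (PT.nd (nat_lit 312) (PT.nd (nat_lit 156) (PT.nd (nat_lit 78) (PT.lf (nat_lit 14896) (nat_lit 6) (nat_lit 196) (nat_lit 0) (nat_lit 220) (nat_lit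 218) (nat_lit 132)) (PT.lf (nat_lit 14440) (nat_lit 6) (nat_lit 190) (nat_lit 0) (nat_lit 221) (nat_lit 218) (nat_lit 131))) (PT.nd (nat_lit 78) (PT.lf (nat_lit 13984) (nat_lit 6) (nat_lit 184) (nat_lit 0) (nat_lit 222) (nat_lit 218) (nat_lit 130)) (PT.lf (nat_lit 13528) (nat_lit 6) (nat_lit 178) (nat_lit 0) (nat_lit 223) (nat_lit 218) (nat_lit 129)))) (PT.nd (nat_lit 156) (PT.nd (nat_lit 78) (PT.lf (nat_lit 13072) (nat_lit 6) (nat_lit 172) (nat_lit 0) (nat_lit 224) (nat_lit 218) (nat_lit 128)) (PT.lf (nat_lit 12692) (nat_lit 6) (nat_lit 167) (nat_lit 0) (nat_lit 225) (nat_lit 218) (nat_lit 127))) (PT.nd (nat_lit 78) (PT.lf (nat_lit 12236) (nat_lit 6) (nat_lit 161) (nat_lit 0) (nat_lit 226) (nat_lit 218) (nat_lit 126)) (PT.lf (nat_lit 11856) (nat_lit 6) (nat_lit 156) (nat_lit 0) (nat_lit 227) (nat_lit 218) (nat_lit 125))))))))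
noncomputable def pc59 : PT := (PT.nd (nat_lit 6630) (PT.nd (nat_lit 1170) (PT.nd (nat_lit 546) (PT.nd (nat_lit 234) (PT.nd (nat_lit 78) (PT.lf (nat_lit 11476) (nat_lit 6) (nat_lit 151) (nat_lit 5) (nat_lit 124) (nat_lit 219) (nat_lit 227)) (PT.nd (nat_lit 78) (PT.lf (nat_lit 11932) (nat_lit 6) (nat_lit 157) (nat_lit 5) (nat_lit 125) (nat_lit 219) (nat_lit 226)) (PT.lf (nat_lit 12312) (nat_lit 6) (nat_lit 162) (nat_lit 5) (nat_lit 126) (nat_lit 219) (nat_lit 225)))) (PT.nd (nat_lit 156) (PT.nd (nat_lit 78) (PT.lf (nat_lit 12768) (nat_lit 6) (nat_lit 168) (nat_lit 5) (nat_lit 127) (nat_lit 219) (nat_lit 224)) (PT.lf (nat_lit 13148) (nat_lit 6) (nat_lit 173) (nat_lit 5) (nat_lit 128) (nat_lit 219) (nat_lit 223))) (PT.nd (nat_lit 78) (PT.lf (nat_lit 13604) (nat_lit 6) (nat_lit 179) (nat_lit 5) (nat_lit 129) (nat_lit 219) (nat_lit 222)) (PT.lf (nat_lit 14060) (nat_lit 6) (nat_lit 185) (nat_lit 5) (nat_lit 130) (nat_lit 219) (nat_lit 221))))) (PT.nd (nat_lit 312)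 (PT.nd (nat_lit 156) (PT.nd (nat_lit 78) (PT.lf (nat_lit 14516) (nat_lit 6) (nat_lit 191) (nat_lit 5) (nat_lit 131) (nat_lit 219) (nat_lit 220)) (PT.lf (nat_lit 14972) (nat_lit 3) (nat_lit 197) (nat_lit 4) (nat_lit 132) (nat_lit 219) (nat_lit 219))) (PT.nd (nat_lit 78) (PT.lf (nat_lit 15428) (nat_lit 6) (nat_lit 203) (nat_lit 4) (nat_lit 133) (nat_lit 219) (nat_lit 218)) (PT.lf (nat_lit 15808) (nat_lit 6) (nat_lit 208) (nat_lit 4) (nat_lit 134) (nat_lit 219) (nat_lit 217)))) (PT.nd (nat_lit 156) (PT.nd (nat_lit 78) (PT.lf (nat_lit 16264) (nat_lit 6) (nat_lit 214) (nat_lit 4) (nat_lit 135) (nat_lit 219) (nat_lit 216)) (PT.lf (nat_lit 16720) (nat_lit 6) (nat_lit 220) (nat_lit 4) (nat_lit 136) (nat_lit 219) (nat_lit 215))) (PT.nd (nat_lit 78) (PT.lf (nat_lit 17176) (nat_lit 6) (nat_lit 226) (nat_lit 4) (nat_lit 137) (nat_lit 219) (nat_lit 214)) (PT.lf (nat_lit 17632) (nat_lit 6) (nat_lit 232) (nat_lit 4) (nat_lit 138) (nat_lit 219) (nat_lit 213)))))) (PT.nd (nat_lit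 624) (PT.nd (nat_lit 312) (PT.nd (nat_lit 156) (PT.nd (nat_lit 78) (PT.lf (nat_lit 18164) (nat_lit 6) (nat_lit 239) (nat_lit 4) (nat_lit 139) (nat_lit 219) (nat_lit 212)) (PT.lf (nat_lit 18620) (nat_lit 6) (nat_lit 245) (nat_lit 4) (nat_lit 140) (nat_lit 219) (nat_lit 211))) (PT.nd (nat_lit 78) (PT.lf (nat_lit 19152) (nat_lit 6) (nat_lit 252) (nat_lit 4) (nat_lit 141) (nat_lit 219) (nat_lit 210)) (PT.lf (nat_lit 19684) (nat_lit 6) (nat_lit 259) (nat_lit 4) (nat_lit 142) (nat_lit 219) (nat_lit 209)))) (PT.nd (nat_lit 156) (PT.nd (nat_lit 78) (PT.lf (nat_lit 20216) (nat_lit 6) (nat_lit 266) (nat_lit 4) (nat_lit 143) (nat_lit 219) (nat_lit 208)) (PT.lf (nat_lit 20748) (nat_lit 6) (nat_lit 273) (nat_lit 4) (nat_lit 144) (nat_lit 219) (nat_lit 207))) (PT.nd (nat_lit 78) (PT.lf (nat_lit 21356) (nat_lit 6) (nat_lit 281) (nat_lit 4) (nat_lit 145) (nat_lit 219) (nat_lit 206)) (PT.lf (nat_lit 21888) (nat_lit 6) (nat_lit 288) (nat_lit 4) (nat_lit 146) (nat_lit 219) (nat_lit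 205))))) (PT.nd (nat_lit 4524) (PT.nd (nat_lit 4368) (PT.nd (nat_lit 78) (PT.lf (nat_lit 22496) (nat_lit 6) (nat_lit 296) (nat_lit 4) (nat_lit 147) (nat_lit 219) (nat_lit 204)) (PT.lf (nat_lit 23104) (nat_lit 6) (nat_lit 304) (nat_lit 4) (nat_lit 148) (nat_lit 219) (nat_lit 203))) (PT.nd (nat_lit 78) (PT.lf (nat_lit 23104) (nat_lit 6) (nat_lit 304) (nat_lit 2) (nat_lit 203) (nat_lit 219) (nat_lit 148)) (PT.lf (nat_lit 22496) (nat_lit 6) (nat_lit 296) (nat_lit 2) (nat_lit 204) (nat_lit 219) (nat_lit 147)))) (PT.nd (nat_lit 156) (PT.nd (nat_lit 78) (PT.lf (nat_lit 21888) (nat_lit 6) (nat_lit 288) (nat_lit 2) (nat_lit 205) (nat_lit 219) (nat_lit 146)) (PT.lf (nat_lit 21356) (nat_lit 6) (nat_lit 281) (nat_lit 2) (nat_lit 206) (nat_lit 219) (nat_lit 145))) (PT.nd (nat_lit 78) (PT.lf (nat_lit 20748) (nat_lit 6) (nat_lit 273) (nat_lit 2) (nat_lit 207) (nat_lit 219) (nat_lit 144)) (PT.lf (nat_lit 20216) (nat_lit 6) (nat_lit 266) (nat_lit 2) (nat_lit 208) (nat_lit 219)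 (nat_lit 143))))))) (PT.nd (nat_lit 1170) (PT.nd (nat_lit 546) (PT.nd (nat_lit 234) (PT.nd (nat_lit 78) (PT.lf (nat_lit 19684) (nat_lit 6) (nat_lit 259) (nat_lit 2) (nat_lit 209) (nat_lit 219) (nat_lit 142)) (PT.nd (nat_lit 78) (PT.lf (nat_lit 19152) (nat_lit 6) (nat_lit 252) (nat_lit 2) (nat_lit 210) (nat_lit 219) (nat_lit 141)) (PT.lf (nat_lit 18620) (nat_lit 6) (nat_lit 245) (nat_lit 2) (nat_lit 211) (nat_lit 219) (nat_lit 140)))) (PT.nd (nat_lit 156) (PT.nd (nat_lit 78) (PT.lf (nat_lit 18164) (nat_lit 6) (nat_lit 239) (nat_lit 2) (nat_lit 212) (nat_lit 219) (nat_lit 139)) (PT.lf (nat_lit 17632) (nat_lit 6) (nat_lit 232) (nat_lit 2) (nat_lit 213) (nat_lit 219) (nat_lit 138))) (PT.nd (nat_lit 78) (PT.lf (nat_lit 17176) (nat_lit 6) (nat_lit 226) (nat_lit 2) (nat_lit 214) (nat_lit 219) (nat_lit 137)) (PT.lf (nat_lit 16720) (nat_lit 6) (nat_lit 220) (nat_lit 2) (nat_lit 215) (nat_lit 219) (nat_lit 136))))) (PT.nd (nat_lit 312) (PT.nd (nat_lit 156) (PT.nd (nat_lit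 78) (PT.lf (nat_lit 16264) (nat_lit 6) (nat_lit 214) (nat_lit 2) (nat_lit 216) (nat_lit 219) (nat_lit 135)) (PT.lf (nat_lit 15808) (nat_lit 6) (nat_lit 208) (nat_lit 2) (nat_lit 217) (nat_lit 219) (nat_lit 134))) (PT.nd (nat_lit 78) (PT.lf (nat_lit 15428) (nat_lit 6) (nat_lit 203) (nat_lit 2) (nat_lit 218) (nat_lit 219) (nat_lit 133)) (PT.lf (nat_lit 14972) (nat_lit 3) (nat_lit 197) (nat_lit 0) (nat_lit 219) (nat_lit 219) (nat_lit 132)))) (PT.nd (nat_lit 156) (PT.nd (nat_lit 78) (PT.lf (nat_lit 14516) (nat_lit 6) (nat_lit 191) (nat_lit 0) (nat_lit 220) (nat_lit 219) (nat_lit 131)) (PT.lf (nat_lit 14060) (nat_lit 6) (nat_lit 185) (nat_lit 0) (nat_lit 221) (nat_lit 219) (nat_lit 130))) (PT.nd (nat_lit 78) (PT.lf (nat_lit 13604) (nat_lit 6) (nat_lit 179) (nat_lit 0) (nat_lit 222) (nat_lit 219) (nat_lit 129)) (PT.lf (nat_lit 13148) (nat_lit 6) (nat_lit 173) (nat_lit 0) (nat_lit 223) (nat_lit 219) (nat_lit 128)))))) (PT.nd (nat_lit 51714) (PT.nd (nat_lit 51402) (PT.nd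 (nat_lit 156) (PT.nd (nat_lit 78) (PT.lf (nat_lit 12768) (nat_lit 6) (nat_lit 168) (nat_lit 0) (nat_lit 224) (nat_lit 219) (nat_lit 127)) (PT.lf (nat_lit 12312) (nat_lit 6) (nat_lit 162) (nat_lit 0) (nat_lit 225) (nat_lit 219) (nat_lit 126))) (PT.nd (nat_lit 78) (PT.lf (nat_lit 11932) (nat_lit 6) (nat_lit 157) (nat_lit 0) (nat_lit 226) (nat_lit 219) (nat_lit 125)) (PT.lf (nat_lit 11476) (nat_lit 6) (nat_lit 151) (nat_lit 0) (nat_lit 227) (nat_lit 219) (nat_lit 124)))) (PT.nd (nat_lit 156) (PT.nd (nat_lit 78) (PT.lf (nat_lit 10792) (nat_lit 6) (nat_lit 142) (nat_lit 5) (nat_lit 122) (nat_lit 220) (nat_lit 228)) (PT.lf (nat_lit 11172) (nat_lit 6) (nat_lit 147) (nat_lit 5) (nat_lit 123) (nat_lit 220) (nat_lit 227))) (PT.nd (nat_lit 78) (PT.lf (nat_lit 11552) (nat_lit 6) (nat_lit 152) (nat_lit 5) (nat_lit 124) (nat_lit 220) (nat_lit 226)) (PT.lf (nat_lit 12008) (nat_lit 6) (nat_lit 158) (nat_lit 5) (nat_lit 125) (nat_lit 220) (nat_lit 225))))) (PT.nd (nat_lit 312)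 (PT.nd (nat_lit 156) (PT.nd (nat_lit 78) (PT.lf (nat_lit 12388) (nat_lit 6) (nat_lit 163) (nat_lit 5) (nat_lit 126) (nat_lit 220) (nat_lit 224)) (PT.lf (nat_lit 12844) (nat_lit 6) (nat_lit 169) (nat_lit 5) (nat_lit 127) (nat_lit 220) (nat_lit 223))) (PT.nd (nat_lit 78) (PT.lf (nat_lit 13224) (nat_lit 6) (nat_lit 174) (nat_lit 5) (nat_lit 128) (nat_lit 220) (nat_lit 222)) (PT.lf (nat_lit 13680) (nat_lit 6) (nat_lit 180) (nat_lit 5) (nat_lit 129) (nat_lit 220) (nat_lit 221)))) (PT.nd (nat_lit 156) (PT.nd (nat_lit 78) (PT.lf (nat_lit 14136) (nat_lit 3) (nat_lit 186) (nat_lit 4) (nat_lit 130) (nat_lit 220) (nat_lit 220)) (PT.lf (nat_lit 14516) (nat_lit 6) (nat_lit 191) (nat_lit 4) (nat_lit 131) (nat_lit 220) (nat_lit 219))) (PT.nd (nat_lit 78) (PT.lf (nat_lit 14896) (nat_lit 6) (nat_lit 196) (nat_lit 4) (nat_lit 132) (nat_lit 220) (nat_lit 218)) (PT.lf (nat_lit 15352) (nat_lit 6) (nat_lit 202) (nat_lit 4) (nat_lit 133) (nat_lit 220) (nat_lit 217))))))))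
noncomputable def pc60 : PT := (PT.nd (nat_lit 6942) (PT.nd (nat_lit 5772) (PT.nd (nat_lit 546) (PT.nd (nat_lit 234) (PT.nd (nat_lit 78) (PT.lf (nat_lit 15732) (nat_lit 6) (nat_lit 207) (nat_lit 4) (nat_lit 134) (nat_lit 220) (nat_lit 216)) (PT.nd (nat_lit 78) (PT.lf (nat_lit 16188) (nat_lit 6) (nat_lit 213) (nat_lit 4) (nat_lit 135) (nat_lit 220) (nat_lit 215)) (PT.lf (nat_lit 16644) (nat_lit 6) (nat_lit 219) (nat_lit 4) (nat_lit 136) (nat_lit 220) (nat_lit 214)))) (PT.nd (nat_lit 156) (PT.nd (nat_lit 78) (PT.lf (nat_lit 17100) (nat_lit 6) (nat_lit 225) (nat_lit 4) (nat_lit 137) (nat_lit 220) (nat_lit 213)) (PT.lf (nat_lit 17556) (nat_lit 6) (nat_lit 231) (nat_lit 4) (nat_lit 138) (nat_lit 220) (nat_lit 212))) (PT.nd (nat_lit 78) (PT.lf (nat_lit 18088) (nat_lit 6) (nat_lit 238) (nat_lit 4) (nat_lit 139) (nat_lit 220) (nat_lit 211)) (PT.lf (nat_lit 18544) (nat_lit 6) (nat_lit 244) (nat_lit 4) (nat_lit 140) (nat_lit 220) (nat_lit 210))))) (PT.nd (nat_lit 312)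 (PT.nd (nat_lit 156) (PT.nd (nat_lit 78) (PT.lf (nat_lit 19076) (nat_lit 6) (nat_lit 251) (nat_lit 4) (nat_lit 141) (nat_lit 220) (nat_lit 209)) (PT.lf (nat_lit 19608) (nat_lit 6) (nat_lit 258) (nat_lit 4) (nat_lit 142) (nat_lit 220) (nat_lit 208))) (PT.nd (nat_lit 78) (PT.lf (nat_lit 20140) (nat_lit 6) (nat_lit 265) (nat_lit 4) (nat_lit 143) (nat_lit 220) (nat_lit 207)) (PT.lf (nat_lit 20672) (nat_lit 6) (nat_lit 272) (nat_lit 4) (nat_lit 144) (nat_lit 220) (nat_lit 206)))) (PT.nd (nat_lit 4758) (PT.nd (nat_lit 4680) (PT.lf (nat_lit 21280) (nat_lit 6) (nat_lit 280) (nat_lit 4) (nat_lit 145) (nat_lit 220) (nat_lit 205)) (PT.lf (nat_lit 21280) (nat_lit 6) (nat_lit 280) (nat_lit 2) (nat_lit 205) (nat_lit 220) (nat_lit 145))) (PT.nd (nat_lit 78) (PT.lf (nat_lit 20672) (nat_lit 6) (nat_lit 272) (nat_lit 2) (nat_lit 206) (nat_lit 220) (nat_lit 144)) (PT.lf (nat_lit 20140) (nat_lit 6) (nat_lit 265) (nat_lit 2) (nat_lit 207) (nat_lit 220) (nat_lit 143)))))) (PT.nd (nat_lit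 546) (PT.nd (nat_lit 234) (PT.nd (nat_lit 78) (PT.lf (nat_lit 19608) (nat_lit 6) (nat_lit 258) (nat_lit 2) (nat_lit 208) (nat_lit 220) (nat_lit 142)) (PT.nd (nat_lit 78) (PT.lf (nat_lit 19076) (nat_lit 6) (nat_lit 251) (nat_lit 2) (nat_lit 209) (nat_lit 220) (nat_lit 141)) (PT.lf (nat_lit 18544) (nat_lit 6) (nat_lit 244) (nat_lit 2) (nat_lit 210) (nat_lit 220) (nat_lit 140)))) (PT.nd (nat_lit 156) (PT.nd (nat_lit 78) (PT.lf (nat_lit 18088) (nat_lit 6) (nat_lit 238) (nat_lit 2) (nat_lit 211) (nat_lit 220) (nat_lit 139)) (PT.lf (nat_lit 17556) (nat_lit 6) (nat_lit 231) (nat_lit 2) (nat_lit 212) (nat_lit 220) (nat_lit 138))) (PT.nd (nat_lit 78) (PT.lf (nat_lit 17100) (nat_lit 6) (nat_lit 225) (nat_lit 2) (nat_lit 213) (nat_lit 220) (nat_lit 137)) (PT.lf (nat_lit 16644) (nat_lit 6) (nat_lit 219) (nat_lit 2) (nat_lit 214) (nat_lit 220) (nat_lit 136))))) (PT.nd (nat_lit 312) (PT.nd (nat_lit 156) (PT.nd (nat_lit 78) (PT.lf (nat_lit 16188) (nat_lit 6) (nat_lit 213) (nat_lit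 2) (nat_lit 215) (nat_lit 220) (nat_lit 135)) (PT.lf (nat_lit 15732) (nat_lit 6) (nat_lit 207) (nat_lit 2) (nat_lit 216) (nat_lit 220) (nat_lit 134))) (PT.nd (nat_lit 78) (PT.lf (nat_lit 15352) (nat_lit 6) (nat_lit 202) (nat_lit 2) (nat_lit 217) (nat_lit 220) (nat_lit 133)) (PT.lf (nat_lit 14896) (nat_lit 6) (nat_lit 196) (nat_lit 2) (nat_lit 218) (nat_lit 220) (nat_lit 132)))) (PT.nd (nat_lit 156) (PT.nd (nat_lit 78) (PT.lf (nat_lit 14516) (nat_lit 6) (nat_lit 191) (nat_lit 2) (nat_lit 219) (nat_lit 220) (nat_lit 131)) (PT.lf (nat_lit 14136) (nat_lit 3) (nat_lit 186) (nat_lit 0) (nat_lit 220) (nat_lit 220) (nat_lit 130))) (PT.nd (nat_lit 78) (PT.lf (nat_lit 13680) (nat_lit 6) (nat_lit 180) (nat_lit 0) (nat_lit 221) (nat_lit 220) (nat_lit 129)) (PT.lf (nat_lit 13224) (nat_lit 6) (nat_lit 174) (nat_lit 0) (nat_lit 222) (nat_lit 220) (nat_lit 128))))))) (PT.nd (nat_lit 52182) (PT.nd (nat_lit 51480) (PT.nd (nat_lit 234) (PT.nd (nat_lit 78) (PT.lf (nat_lit 12844)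 (nat_lit 6) (nat_lit 169) (nat_lit 0) (nat_lit 223) (nat_lit 220) (nat_lit 127)) (PT.nd (nat_lit 78) (PT.lf (nat_lit 12388) (nat_lit 6) (nat_lit 163) (nat_lit 0) (nat_lit 224) (nat_lit 220) (nat_lit 126)) (PT.lf (nat_lit 12008) (nat_lit 6) (nat_lit 158) (nat_lit 0) (nat_lit 225) (nat_lit 220) (nat_lit 125)))) (PT.nd (nat_lit 156) (PT.nd (nat_lit 78) (PT.lf (nat_lit 11552) (nat_lit 6) (nat_lit 152) (nat_lit 0) (nat_lit 226) (nat_lit 220) (nat_lit 124)) (PT.lf (nat_lit 11172) (nat_lit 6) (nat_lit 147) (nat_lit 0) (nat_lit 227) (nat_lit 220) (nat_lit 123))) (PT.nd (nat_lit 51012) (PT.lf (nat_lit 10792) (nat_lit 6) (nat_lit 142) (nat_lit 0) (nat_lit 228) (nat_lit 220) (nat_lit 122)) (PT.lf (nat_lit 10488) (nat_lit 6) (nat_lit 138) (nat_lit 5) (nat_lit 121) (nat_lit 221) (nat_lit 228))))) (PT.nd (nat_lit 390) (PT.nd (nat_lit 234) (PT.nd (nat_lit 156) (PT.lf (nat_lit 10868) (nat_lit 6) (nat_lit 143) (nat_lit 5) (nat_lit 122) (nat_lit 221) (nat_lit 227)) (PT.lf (nat_lit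 11628) (nat_lit 6) (nat_lit 153) (nat_lit 5) (nat_lit 124) (nat_lit 221) (nat_lit 225))) (PT.nd (nat_lit 78) (PT.lf (nat_lit 12084) (nat_lit 6) (nat_lit 159) (nat_lit 5) (nat_lit 125) (nat_lit 221) (nat_lit 224)) (PT.lf (nat_lit 12464) (nat_lit 6) (nat_lit 164) (nat_lit 5) (nat_lit 126) (nat_lit 221) (nat_lit 223)))) (PT.nd (nat_lit 156) (PT.nd (nat_lit 78) (PT.lf (nat_lit 12920) (nat_lit 6) (nat_lit 170) (nat_lit 5) (nat_lit 127) (nat_lit 221) (nat_lit 222)) (PT.lf (nat_lit 13300) (nat_lit 3) (nat_lit 175) (nat_lit 4) (nat_lit 128) (nat_lit 221) (nat_lit 221))) (PT.nd (nat_lit 78) (PT.lf (nat_lit 13680) (nat_lit 6) (nat_lit 180) (nat_lit 4) (nat_lit 129) (nat_lit 221) (nat_lit 220)) (PT.lf (nat_lit 14060) (nat_lit 6) (nat_lit 185) (nat_lit 4) (nat_lit 130) (nat_lit 221) (nat_lit 219)))))) (PT.nd (nat_lit 624) (PT.nd (nat_lit 312) (PT.nd (nat_lit 156) (PT.nd (nat_lit 78) (PT.lf (nat_lit 14440) (nat_lit 6) (nat_lit 190) (nat_lit 4) (nat_lit 131) (nat_lit 221)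 (nat_lit 218)) (PT.lf (nat_lit 14820) (nat_lit 6) (nat_lit 195) (nat_lit 4) (nat_lit 132) (nat_lit 221) (nat_lit 217))) (PT.nd (nat_lit 78) (PT.lf (nat_lit 15276) (nat_lit 6) (nat_lit 201) (nat_lit 4) (nat_lit 133) (nat_lit 221) (nat_lit 216)) (PT.lf (nat_lit 15656) (nat_lit 6) (nat_lit 206) (nat_lit 4) (nat_lit 134) (nat_lit 221) (nat_lit 215)))) (PT.nd (nat_lit 156) (PT.nd (nat_lit 78) (PT.lf (nat_lit 16112) (nat_lit 6) (nat_lit 212) (nat_lit 4) (nat_lit 135) (nat_lit 221) (nat_lit 214)) (PT.lf (nat_lit 16568) (nat_lit 6) (nat_lit 218) (nat_lit 4) (nat_lit 136) (nat_lit 221) (nat_lit 213))) (PT.nd (nat_lit 78) (PT.lf (nat_lit 17024) (nat_lit 6) (nat_lit 224) (nat_lit 4) (nat_lit 137) (nat_lit 221) (nat_lit 212)) (PT.lf (nat_lit 17480) (nat_lit 6) (nat_lit 230) (nat_lit 4) (nat_lit 138) (nat_lit 221) (nat_lit 211))))) (PT.nd (nat_lit 5304) (PT.nd (nat_lit 156) (PT.nd (nat_lit 78) (PT.lf (nat_lit 18012) (nat_lit 6) (nat_lit 237) (nat_lit 4) (nat_lit 139) (nat_lit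 221) (nat_lit 210)) (PT.lf (nat_lit 18468) (nat_lit 6) (nat_lit 243) (nat_lit 4) (nat_lit 140) (nat_lit 221) (nat_lit 209))) (PT.nd (nat_lit 78) (PT.lf (nat_lit 19000) (nat_lit 6) (nat_lit 250) (nat_lit 4) (nat_lit 141) (nat_lit 221) (nat_lit 208)) (PT.lf (nat_lit 19532) (nat_lit 6) (nat_lit 257) (nat_lit 4) (nat_lit 142) (nat_lit 221) (nat_lit 207)))) (PT.nd (nat_lit 156) (PT.nd (nat_lit 78) (PT.lf (nat_lit 19532) (nat_lit 6) (nat_lit 257) (nat_lit 2) (nat_lit 207) (nat_lit 221) (nat_lit 142)) (PT.lf (nat_lit 19000) (nat_lit 6) (nat_lit 250) (nat_lit 2) (nat_lit 208) (nat_lit 221) (nat_lit 141))) (PT.nd (nat_lit 78) (PT.lf (nat_lit 18468) (nat_lit 6) (nat_lit 243) (nat_lit 2) (nat_lit 209) (nat_lit 221) (nat_lit 140)) (PT.lf (nat_lit 18012) (nat_lit 6) (nat_lit 237) (nat_lit 2) (nat_lit 210) (nat_lit 221) (nat_lit 139))))))))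
noncomputable def pc61 : PT := (PT.nd (nat_lit 53274) (PT.nd (nat_lit 1248) (PT.nd (nat_lit 546) (PT.nd (nat_lit 234) (PT.nd (nat_lit 78) (PT.lf (nat_lit 17480) (nat_lit 6) (nat_lit 230) (nat_lit 2) (nat_lit 211) (nat_lit 221) (nat_lit 138)) (PT.nd (nat_lit 78) (PT.lf (nat_lit 17024) (nat_lit 6) (nat_lit 224) (nat_lit 2) (nat_lit 212) (nat_lit 221) (nat_lit 137)) (PT.lf (nat_lit 16568) (nat_lit 6) (nat_lit 218) (nat_lit 2) (nat_lit 213) (nat_lit 221) (nat_lit 136)))) (PT.nd (nat_lit 156) (PT.nd (nat_lit 78) (PT.lf (nat_lit 16112) (nat_lit 6) (nat_lit 212) (nat_lit 2) (nat_lit 214) (nat_lit 221) (nat_lit 135)) (PT.lf (nat_lit 15656) (nat_lit 6) (nat_lit 206) (nat_lit 2) (nat_lit 215) (nat_lit 221) (nat_lit 134))) (PT.nd (nat_lit 78) (PT.lf (nat_lit 15276) (nat_lit 6) (nat_lit 201) (nat_lit 2) (nat_lit 216) (nat_lit 221) (nat_lit 133)) (PT.lf (nat_lit 14820) (nat_lit 6) (nat_lit 195) (nat_lit 2) (nat_lit 217) (nat_lit 221) (nat_lit 132))))) (PT.nd (nat_lit 312)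 (PT.nd (nat_lit 156) (PT.nd (nat_lit 78) (PT.lf (nat_lit 14440) (nat_lit 6) (nat_lit 190) (nat_lit 2) (nat_lit 218) (nat_lit 221) (nat_lit 131)) (PT.lf (nat_lit 14060) (nat_lit 6) (nat_lit 185) (nat_lit 2) (nat_lit 219) (nat_lit 221) (nat_lit 130))) (PT.nd (nat_lit 78) (PT.lf (nat_lit 13680) (nat_lit 6) (nat_lit 180) (nat_lit 2) (nat_lit 220) (nat_lit 221) (nat_lit 129)) (PT.lf (nat_lit 13300) (nat_lit 3) (nat_lit 175) (nat_lit 0) (nat_lit 221) (nat_lit 221) (nat_lit 128)))) (PT.nd (nat_lit 156) (PT.nd (nat_lit 78) (PT.lf (nat_lit 12920) (nat_lit 6) (nat_lit 170) (nat_lit 0) (nat_lit 222) (nat_lit 221) (nat_lit 127)) (PT.lf (nat_lit 12464) (nat_lit 6) (nat_lit 164) (nat_lit 0) (nat_lit 223) (nat_lit 221) (nat_lit 126))) (PT.nd (nat_lit 78) (PT.lf (nat_lit 12084) (nat_lit 6) (nat_lit 159) (nat_lit 0) (nat_lit 224) (nat_lit 221) (nat_lit 125)) (PT.lf (nat_lit 11628) (nat_lit 6) (nat_lit 153) (nat_lit 0) (nat_lit 225) (nat_lit 221) (nat_lit 124)))))) (PT.nd (nat_lit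 51402) (PT.nd (nat_lit 51090) (PT.nd (nat_lit 50934) (PT.nd (nat_lit 78) (PT.lf (nat_lit 10868) (nat_lit 6) (nat_lit 143) (nat_lit 0) (nat_lit 227) (nat_lit 221) (nat_lit 122)) (PT.lf (nat_lit 10488) (nat_lit 6) (nat_lit 138) (nat_lit 0) (nat_lit 228) (nat_lit 221) (nat_lit 121))) (PT.nd (nat_lit 78) (PT.lf (nat_lit 9804) (nat_lit 6) (nat_lit 129) (nat_lit 5) (nat_lit 119) (nat_lit 222) (nat_lit 229)) (PT.lf (nat_lit 10184) (nat_lit 6) (nat_lit 134) (nat_lit 5) (nat_lit 120) (nat_lit 222) (nat_lit 228)))) (PT.nd (nat_lit 156) (PT.nd (nat_lit 78) (PT.lf (nat_lit 10564) (nat_lit 6) (nat_lit 139) (nat_lit 5) (nat_lit 121) (nat_lit 222) (nat_lit 227)) (PT.lf (nat_lit 10944) (nat_lit 6) (nat_lit 144) (nat_lit 5) (nat_lit 122) (nat_lit 222) (nat_lit 226))) (PT.nd (nat_lit 78) (PT.lf (nat_lit 11324) (nat_lit 6) (nat_lit 149) (nat_lit 5) (nat_lit 123) (nat_lit 222) (nat_lit 225)) (PT.lf (nat_lit 11704) (nat_lit 6) (nat_lit 154) (nat_lit 5) (nat_lit 124) (nat_lit 222)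 (nat_lit 224))))) (PT.nd (nat_lit 312) (PT.nd (nat_lit 156) (PT.nd (nat_lit 78) (PT.lf (nat_lit 12160) (nat_lit 6) (nat_lit 160) (nat_lit 5) (nat_lit 125) (nat_lit 222) (nat_lit 223)) (PT.lf (nat_lit 12540) (nat_lit 3) (nat_lit 165) (nat_lit 4) (nat_lit 126) (nat_lit 222) (nat_lit 222))) (PT.nd (nat_lit 78) (PT.lf (nat_lit 12920) (nat_lit 6) (nat_lit 170) (nat_lit 4) (nat_lit 127) (nat_lit 222) (nat_lit 221)) (PT.lf (nat_lit 13224) (nat_lit 6) (nat_lit 174) (nat_lit 4) (nat_lit 128) (nat_lit 222) (nat_lit 220)))) (PT.nd (nat_lit 156) (PT.nd (nat_lit 78) (PT.lf (nat_lit 13604) (nat_lit 6) (nat_lit 179) (nat_lit 4) (nat_lit 129) (nat_lit 222) (nat_lit 219)) (PT.lf (nat_lit 13984) (nat_lit 6) (nat_lit 184) (nat_lit 4) (nat_lit 130) (nat_lit 222) (nat_lit 218))) (PT.nd (nat_lit 78) (PT.lf (nat_lit 14364) (nat_lit 6) (nat_lit 189) (nat_lit 4) (nat_lit 131) (nat_lit 222) (nat_lit 217)) (PT.lf (nat_lit 14744) (nat_lit 6) (nat_lit 194) (nat_lit 4) (nat_lit 132) (nat_lit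 222) (nat_lit 216))))))) (PT.nd (nat_lit 6552) (PT.nd (nat_lit 5928) (PT.nd (nat_lit 234) (PT.nd (nat_lit 78) (PT.lf (nat_lit 15200) (nat_lit 6) (nat_lit 200) (nat_lit 4) (nat_lit 133) (nat_lit 222) (nat_lit 215)) (PT.nd (nat_lit 78) (PT.lf (nat_lit 15580) (nat_lit 6) (nat_lit 205) (nat_lit 4) (nat_lit 134) (nat_lit 222) (nat_lit 214)) (PT.lf (nat_lit 16036) (nat_lit 6) (nat_lit 211) (nat_lit 4) (nat_lit 135) (nat_lit 222) (nat_lit 213)))) (PT.nd (nat_lit 156) (PT.nd (nat_lit 78) (PT.lf (nat_lit 16492) (nat_lit 6) (nat_lit 217) (nat_lit 4) (nat_lit 136) (nat_lit 222) (nat_lit 212)) (PT.lf (nat_lit 16948) (nat_lit 6) (nat_lit 223) (nat_lit 4) (nat_lit 137) (nat_lit 222) (nat_lit 211))) (PT.nd (nat_lit 78) (PT.lf (nat_lit 17404) (nat_lit 6) (nat_lit 229) (nat_lit 4) (nat_lit 138) (nat_lit 222) (nat_lit 210)) (PT.lf (nat_lit 17936) (nat_lit 6) (nat_lit 236) (nat_lit 4) (nat_lit 139) (nat_lit 222) (nat_lit 209))))) (PT.nd (nat_lit 312) (PT.nd (nat_lit 156) (PT.nd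 (nat_lit 78) (PT.lf (nat_lit 17936) (nat_lit 6) (nat_lit 236) (nat_lit 2) (nat_lit 209) (nat_lit 222) (nat_lit 139)) (PT.lf (nat_lit 17404) (nat_lit 6) (nat_lit 229) (nat_lit 2) (nat_lit 210) (nat_lit 222) (nat_lit 138))) (PT.nd (nat_lit 78) (PT.lf (nat_lit 16948) (nat_lit 6) (nat_lit 223) (nat_lit 2) (nat_lit 211) (nat_lit 222) (nat_lit 137)) (PT.lf (nat_lit 16492) (nat_lit 6) (nat_lit 217) (nat_lit 2) (nat_lit 212) (nat_lit 222) (nat_lit 136)))) (PT.nd (nat_lit 156) (PT.nd (nat_lit 78) (PT.lf (nat_lit 16036) (nat_lit 6) (nat_lit 211) (nat_lit 2) (nat_lit 213) (nat_lit 222) (nat_lit 135)) (PT.lf (nat_lit 15580) (nat_lit 6) (nat_lit 205) (nat_lit 2) (nat_lit 214) (nat_lit 222) (nat_lit 134))) (PT.nd (nat_lit 78) (PT.lf (nat_lit 15200) (nat_lit 6) (nat_lit 200) (nat_lit 2) (nat_lit 215) (nat_lit 222) (nat_lit 133)) (PT.lf (nat_lit 14744) (nat_lit 6) (nat_lit 194) (nat_lit 2) (nat_lit 216) (nat_lit 222) (nat_lit 132)))))) (PT.nd (nat_lit 624) (PT.nd (nat_lit 312)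 (PT.nd (nat_lit 156) (PT.nd (nat_lit 78) (PT.lf (nat_lit 14364) (nat_lit 6) (nat_lit 189) (nat_lit 2) (nat_lit 217) (nat_lit 222) (nat_lit 131)) (PT.lf (nat_lit 13984) (nat_lit 6) (nat_lit 184) (nat_lit 2) (nat_lit 218) (nat_lit 222) (nat_lit 130))) (PT.nd (nat_lit 78) (PT.lf (nat_lit 13604) (nat_lit 6) (nat_lit 179) (nat_lit 2) (nat_lit 219) (nat_lit 222) (nat_lit 129)) (PT.lf (nat_lit 13224) (nat_lit 6) (nat_lit 174) (nat_lit 2) (nat_lit 220) (nat_lit 222) (nat_lit 128)))) (PT.nd (nat_lit 156) (PT.nd (nat_lit 78) (PT.lf (nat_lit 12920) (nat_lit 6) (nat_lit 170) (nat_lit 2) (nat_lit 221) (nat_lit 222) (nat_lit 127)) (PT.lf (nat_lit 12540) (nat_lit 3) (nat_lit 165) (nat_lit 0) (nat_lit 222) (nat_lit 222) (nat_lit 126))) (PT.nd (nat_lit 78) (PT.lf (nat_lit 12160) (nat_lit 6) (nat_lit 160) (nat_lit 0) (nat_lit 223) (nat_lit 222) (nat_lit 125)) (PT.lf (nat_lit 11704) (nat_lit 6) (nat_lit 154) (nat_lit 0) (nat_lit 224) (nat_lit 222) (nat_lit 124))))) (PT.nd (nat_lit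 312) (PT.nd (nat_lit 156) (PT.nd (nat_lit 78) (PT.lf (nat_lit 11324) (nat_lit 6) (nat_lit 149) (nat_lit 0) (nat_lit 225) (nat_lit 222) (nat_lit 123)) (PT.lf (nat_lit 10944) (nat_lit 6) (nat_lit 144) (nat_lit 0) (nat_lit 226) (nat_lit 222) (nat_lit 122))) (PT.nd (nat_lit 78) (PT.lf (nat_lit 10564) (nat_lit 6) (nat_lit 139) (nat_lit 0) (nat_lit 227) (nat_lit 222) (nat_lit 121)) (PT.lf (nat_lit 10184) (nat_lit 6) (nat_lit 134) (nat_lit 0) (nat_lit 228) (nat_lit 222) (nat_lit 120)))) (PT.nd (nat_lit 50778) (PT.nd (nat_lit 50700) (PT.lf (nat_lit 9804) (nat_lit 6) (nat_lit 129) (nat_lit 0) (nat_lit 229) (nat_lit 222) (nat_lit 119)) (PT.lf (nat_lit 9500) (nat_lit 6) (nat_lit 125) (nat_lit 5) (nat_lit 118) (nat_lit 223) (nat_lit 229))) (PT.nd (nat_lit 156) (PT.lf (nat_lit 9880) (nat_lit 6) (nat_lit 130) (nat_lit 5) (nat_lit 119) (nat_lit 223) (nat_lit 228)) (PT.lf (nat_lit 10640) (nat_lit 6) (nat_lit 140) (nat_lit 5) (nat_lit 121) (nat_lit 223) (nat_lit 226))))))))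
noncomputable def pc62 : PT := (PT.nd (nat_lit 8112) (PT.nd (nat_lit 6942) (PT.nd (nat_lit 546) (PT.nd (nat_lit 234) (PT.nd (nat_lit 78) (PT.lf (nat_lit 11020) (nat_lit 6) (nat_lit 145) (nat_lit 5) (nat_lit 122) (nat_lit 223) (nat_lit 225)) (PT.nd (nat_lit 78) (PT.lf (nat_lit 11400) (nat_lit 6) (nat_lit 150) (nat_lit 5) (nat_lit 123) (nat_lit 223) (nat_lit 224)) (PT.lf (nat_lit 11780) (nat_lit 3) (nat_lit 155) (nat_lit 4) (nat_lit 124) (nat_lit 223) (nat_lit 223)))) (PT.nd (nat_lit 156) (PT.nd (nat_lit 78) (PT.lf (nat_lit 12160) (nat_lit 6) (nat_lit 160) (nat_lit 4) (nat_lit 125) (nat_lit 223) (nat_lit 222)) (PT.lf (nat_lit 12464) (nat_lit 6) (nat_lit 164) (nat_lit 4) (nat_lit 126) (nat_lit 223) (nat_lit 221))) (PT.nd (nat_lit 78) (PT.lf (nat_lit 12844) (nat_lit 6) (nat_lit 169) (nat_lit 4) (nat_lit 127) (nat_lit 223) (nat_lit 220)) (PT.lf (nat_lit 13148) (nat_lit 6) (nat_lit 173) (nat_lit 4) (nat_lit 128) (nat_lit 223) (nat_lit 219))))) (PT.nd (nat_lit 312)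 (PT.nd (nat_lit 156) (PT.nd (nat_lit 78) (PT.lf (nat_lit 13528) (nat_lit 6) (nat_lit 178) (nat_lit 4) (nat_lit 129) (nat_lit 223) (nat_lit 218)) (PT.lf (nat_lit 13908) (nat_lit 6) (nat_lit 183) (nat_lit 4) (nat_lit 130) (nat_lit 223) (nat_lit 217))) (PT.nd (nat_lit 78) (PT.lf (nat_lit 14288) (nat_lit 6) (nat_lit 188) (nat_lit 4) (nat_lit 131) (nat_lit 223) (nat_lit 216)) (PT.lf (nat_lit 14668) (nat_lit 6) (nat_lit 193) (nat_lit 4) (nat_lit 132) (nat_lit 223) (nat_lit 215)))) (PT.nd (nat_lit 156) (PT.nd (nat_lit 78) (PT.lf (nat_lit 15124) (nat_lit 6) (nat_lit 199) (nat_lit 4) (nat_lit 133) (nat_lit 223) (nat_lit 214)) (PT.lf (nat_lit 15504) (nat_lit 6) (nat_lit 204) (nat_lit 4) (nat_lit 134) (nat_lit 223) (nat_lit 213))) (PT.nd (nat_lit 78) (PT.lf (nat_lit 15960) (nat_lit 6) (nat_lit 210) (nat_lit 4) (nat_lit 135) (nat_lit 223) (nat_lit 212)) (PT.lf (nat_lit 16416) (nat_lit 6) (nat_lit 216) (nat_lit 4) (nat_lit 136) (nat_lit 223) (nat_lit 211)))))) (PT.nd (nat_lit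 546) (PT.nd (nat_lit 234) (PT.nd (nat_lit 78) (PT.lf (nat_lit 16416) (nat_lit 6) (nat_lit 216) (nat_lit 2) (nat_lit 211) (nat_lit 223) (nat_lit 136)) (PT.nd (nat_lit 78) (PT.lf (nat_lit 15960) (nat_lit 6) (nat_lit 210) (nat_lit 2) (nat_lit 212) (nat_lit 223) (nat_lit 135)) (PT.lf (nat_lit 15504) (nat_lit 6) (nat_lit 204) (nat_lit 2) (nat_lit 213) (nat_lit 223) (nat_lit 134)))) (PT.nd (nat_lit 156) (PT.nd (nat_lit 78) (PT.lf (nat_lit 15124) (nat_lit 6) (nat_lit 199) (nat_lit 2) (nat_lit 214) (nat_lit 223) (nat_lit 133)) (PT.lf (nat_lit 14668) (nat_lit 6) (nat_lit 193) (nat_lit 2) (nat_lit 215) (nat_lit 223) (nat_lit 132))) (PT.nd (nat_lit 78) (PT.lf (nat_lit 14288) (nat_lit 6) (nat_lit 188) (nat_lit 2) (nat_lit 216) (nat_lit 223) (nat_lit 131)) (PT.lf (nat_lit 13908) (nat_lit 6) (nat_lit 183) (nat_lit 2) (nat_lit 217) (nat_lit 223) (nat_lit 130))))) (PT.nd (nat_lit 312) (PT.nd (nat_lit 156) (PT.nd (nat_lit 78) (PT.lf (nat_lit 13528) (nat_lit 6) (nat_lit 178) (nat_lit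 2) (nat_lit 218) (nat_lit 223) (nat_lit 129)) (PT.lf (nat_lit 13148) (nat_lit 6) (nat_lit 173) (nat_lit 2) (nat_lit 219) (nat_lit 223) (nat_lit 128))) (PT.nd (nat_lit 78) (PT.lf (nat_lit 12844) (nat_lit 6) (nat_lit 169) (nat_lit 2) (nat_lit 220) (nat_lit 223) (nat_lit 127)) (PT.lf (nat_lit 12464) (nat_lit 6) (nat_lit 164) (nat_lit 2) (nat_lit 221) (nat_lit 223) (nat_lit 126)))) (PT.nd (nat_lit 156) (PT.nd (nat_lit 78) (PT.lf (nat_lit 12160) (nat_lit 6) (nat_lit 160) (nat_lit 2) (nat_lit 222) (nat_lit 223) (nat_lit 125)) (PT.lf (nat_lit 11780) (nat_lit 3) (nat_lit 155) (nat_lit 0) (nat_lit 223) (nat_lit 223) (nat_lit 124))) (PT.nd (nat_lit 78) (PT.lf (nat_lit 11400) (nat_lit 6) (nat_lit 150) (nat_lit 0) (nat_lit 224) (nat_lit 223) (nat_lit 123)) (PT.lf (nat_lit 11020) (nat_lit 6) (nat_lit 145) (nat_lit 0) (nat_lit 225) (nat_lit 223) (nat_lit 122))))))) (PT.nd (nat_lit 52026) (PT.nd (nat_lit 51402) (PT.nd (nat_lit 51090) (PT.nd (nat_lit 156) (PT.lf (nat_lit 10640)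 (nat_lit 6) (nat_lit 140) (nat_lit 0) (nat_lit 226) (nat_lit 223) (nat_lit 121)) (PT.nd (nat_lit 78) (PT.lf (nat_lit 9880) (nat_lit 6) (nat_lit 130) (nat_lit 0) (nat_lit 228) (nat_lit 223) (nat_lit 119)) (PT.lf (nat_lit 9500) (nat_lit 6) (nat_lit 125) (nat_lit 0) (nat_lit 229) (nat_lit 223) (nat_lit 118)))) (PT.nd (nat_lit 156) (PT.nd (nat_lit 78) (PT.lf (nat_lit 10336) (nat_lit 6) (nat_lit 136) (nat_lit 5) (nat_lit 120) (nat_lit 224) (nat_lit 226)) (PT.lf (nat_lit 10716) (nat_lit 6) (nat_lit 141) (nat_lit 5) (nat_lit 121) (nat_lit 224) (nat_lit 225))) (PT.nd (nat_lit 78) (PT.lf (nat_lit 11096) (nat_lit 3) (nat_lit 146) (nat_lit 4) (nat_lit 122) (nat_lit 224) (nat_lit 224)) (PT.lf (nat_lit 11400) (nat_lit 6) (nat_lit 150) (nat_lit 4) (nat_lit 123) (nat_lit 224) (nat_lit 223))))) (PT.nd (nat_lit 312) (PT.nd (nat_lit 156) (PT.nd (nat_lit 78) (PT.lf (nat_lit 11704) (nat_lit 6) (nat_lit 154) (nat_lit 4) (nat_lit 124) (nat_lit 224) (nat_lit 222)) (PT.lf (nat_lit 12084)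 (nat_lit 6) (nat_lit 159) (nat_lit 4) (nat_lit 125) (nat_lit 224) (nat_lit 221))) (PT.nd (nat_lit 78) (PT.lf (nat_lit 12388) (nat_lit 6) (nat_lit 163) (nat_lit 4) (nat_lit 126) (nat_lit 224) (nat_lit 220)) (PT.lf (nat_lit 12768) (nat_lit 6) (nat_lit 168) (nat_lit 4) (nat_lit 127) (nat_lit 224) (nat_lit 219)))) (PT.nd (nat_lit 156) (PT.nd (nat_lit 78) (PT.lf (nat_lit 13072) (nat_lit 6) (nat_lit 172) (nat_lit 4) (nat_lit 128) (nat_lit 224) (nat_lit 218)) (PT.lf (nat_lit 13452) (nat_lit 6) (nat_lit 177) (nat_lit 4) (nat_lit 129) (nat_lit 224) (nat_lit 217))) (PT.nd (nat_lit 78) (PT.lf (nat_lit 13832) (nat_lit 6) (nat_lit 182) (nat_lit 4) (nat_lit 130) (nat_lit 224) (nat_lit 216)) (PT.lf (nat_lit 14212) (nat_lit 6) (nat_lit 187) (nat_lit 4) (nat_lit 131) (nat_lit 224) (nat_lit 215)))))) (PT.nd (nat_lit 6786) (PT.nd (nat_lit 6474) (PT.nd (nat_lit 6318) (PT.nd (nat_lit 78) (PT.lf (nat_lit 14592) (nat_lit 6) (nat_lit 192) (nat_lit 4) (nat_lit 132) (nat_lit 224) (nat_lit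 214)) (PT.lf (nat_lit 15048) (nat_lit 6) (nat_lit 198) (nat_lit 4) (nat_lit 133) (nat_lit 224) (nat_lit 213))) (PT.nd (nat_lit 78) (PT.lf (nat_lit 15048) (nat_lit 6) (nat_lit 198) (nat_lit 2) (nat_lit 213) (nat_lit 224) (nat_lit 133)) (PT.lf (nat_lit 14592) (nat_lit 6) (nat_lit 192) (nat_lit 2) (nat_lit 214) (nat_lit 224) (nat_lit 132)))) (PT.nd (nat_lit 156) (PT.nd (nat_lit 78) (PT.lf (nat_lit 14212) (nat_lit 6) (nat_lit 187) (nat_lit 2) (nat_lit 215) (nat_lit 224) (nat_lit 131)) (PT.lf (nat_lit 13832) (nat_lit 6) (nat_lit 182) (nat_lit 2) (nat_lit 216) (nat_lit 224) (nat_lit 130))) (PT.nd (nat_lit 78) (PT.lf (nat_lit 13452) (nat_lit 6) (nat_lit 177) (nat_lit 2) (nat_lit 217) (nat_lit 224) (nat_lit 129)) (PT.lf (nat_lit 13072) (nat_lit 6) (nat_lit 172) (nat_lit 2) (nat_lit 218) (nat_lit 224) (nat_lit 128))))) (PT.nd (nat_lit 312) (PT.nd (nat_lit 156) (PT.nd (nat_lit 78) (PT.lf (nat_lit 12768) (nat_lit 6) (nat_lit 168) (nat_lit 2) (nat_lit 219) (nat_lit 224)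 (nat_lit 127)) (PT.lf (nat_lit 12388) (nat_lit 6) (nat_lit 163) (nat_lit 2) (nat_lit 220) (nat_lit 224) (nat_lit 126))) (PT.nd (nat_lit 78) (PT.lf (nat_lit 12084) (nat_lit 6) (nat_lit 159) (nat_lit 2) (nat_lit 221) (nat_lit 224) (nat_lit 125)) (PT.lf (nat_lit 11704) (nat_lit 6) (nat_lit 154) (nat_lit 2) (nat_lit 222) (nat_lit 224) (nat_lit 124)))) (PT.nd (nat_lit 156) (PT.nd (nat_lit 78) (PT.lf (nat_lit 11400) (nat_lit 6) (nat_lit 150) (nat_lit 2) (nat_lit 223) (nat_lit 224) (nat_lit 123)) (PT.lf (nat_lit 11096) (nat_lit 3) (nat_lit 146) (nat_lit 0) (nat_lit 224) (nat_lit 224) (nat_lit 122))) (PT.nd (nat_lit 78) (PT.lf (nat_lit 10716) (nat_lit 6) (nat_lit 141) (nat_lit 0) (nat_lit 225) (nat_lit 224) (nat_lit 121)) (PT.lf (nat_lit 10336) (nat_lit 6) (nat_lit 136) (nat_lit 0) (nat_lit 226) (nat_lit 224) (nat_lit 120))))))))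
noncomputable def pc63 : PT := (PT.nd (nat_lit 59982) (PT.nd (nat_lit 7722) (PT.nd (nat_lit 546) (PT.nd (nat_lit 234) (PT.nd (nat_lit 78) (PT.lf (nat_lit 10032) (nat_lit 6) (nat_lit 132) (nat_lit 5) (nat_lit 119) (nat_lit 225) (nat_lit 226)) (PT.nd (nat_lit 78) (PT.lf (nat_lit 10412) (nat_lit 3) (nat_lit 137) (nat_lit 4) (nat_lit 120) (nat_lit 225) (nat_lit 225)) (PT.lf (nat_lit 10716) (nat_lit 6) (nat_lit 141) (nat_lit 4) (nat_lit 121) (nat_lit 225) (nat_lit 224)))) (PT.nd (nat_lit 156) (PT.nd (nat_lit 78) (PT.lf (nat_lit 11020) (nat_lit 6) (nat_lit 145) (nat_lit 4) (nat_lit 122) (nat_lit 225) (nat_lit 223)) (PT.lf (nat_lit 11324) (nat_lit 6) (nat_lit 149) (nat_lit 4) (nat_lit 123) (nat_lit 225) (nat_lit 222))) (PT.nd (nat_lit 78) (PT.lf (nat_lit 11628) (nat_lit 6) (nat_lit 153) (nat_lit 4) (nat_lit 124) (nat_lit 225) (nat_lit 221)) (PT.lf (nat_lit 12008) (nat_lit 6) (nat_lit 158) (nat_lit 4) (nat_lit 125) (nat_lit 225) (nat_lit 220))))) (PT.nd (nat_lit 312)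 (PT.nd (nat_lit 156) (PT.nd (nat_lit 78) (PT.lf (nat_lit 12312) (nat_lit 6) (nat_lit 162) (nat_lit 4) (nat_lit 126) (nat_lit 225) (nat_lit 219)) (PT.lf (nat_lit 12692) (nat_lit 6) (nat_lit 167) (nat_lit 4) (nat_lit 127) (nat_lit 225) (nat_lit 218))) (PT.nd (nat_lit 78) (PT.lf (nat_lit 12996) (nat_lit 6) (nat_lit 171) (nat_lit 4) (nat_lit 128) (nat_lit 225) (nat_lit 217)) (PT.lf (nat_lit 13376) (nat_lit 6) (nat_lit 176) (nat_lit 4) (nat_lit 129) (nat_lit 225) (nat_lit 216)))) (PT.nd (nat_lit 6708) (PT.nd (nat_lit 6630) (PT.lf (nat_lit 13756) (nat_lit 6) (nat_lit 181) (nat_lit 4) (nat_lit 130) (nat_lit 225) (nat_lit 215)) (PT.lf (nat_lit 13756) (nat_lit 6) (nat_lit 181) (nat_lit 2) (nat_lit 215) (nat_lit 225) (nat_lit 130))) (PT.nd (nat_lit 78) (PT.lf (nat_lit 13376) (nat_lit 6) (nat_lit 176) (nat_lit 2) (nat_lit 216) (nat_lit 225) (nat_lit 129)) (PT.lf (nat_lit 12996) (nat_lit 6) (nat_lit 171) (nat_lit 2) (nat_lit 217) (nat_lit 225) (nat_lit 128)))))) (PT.nd (nat_lit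 624) (PT.nd (nat_lit 312) (PT.nd (nat_lit 156) (PT.nd (nat_lit 78) (PT.lf (nat_lit 12692) (nat_lit 6) (nat_lit 167) (nat_lit 2) (nat_lit 218) (nat_lit 225) (nat_lit 127)) (PT.lf (nat_lit 12312) (nat_lit 6) (nat_lit 162) (nat_lit 2) (nat_lit 219) (nat_lit 225) (nat_lit 126))) (PT.nd (nat_lit 78) (PT.lf (nat_lit 12008) (nat_lit 6) (nat_lit 158) (nat_lit 2) (nat_lit 220) (nat_lit 225) (nat_lit 125)) (PT.lf (nat_lit 11628) (nat_lit 6) (nat_lit 153) (nat_lit 2) (nat_lit 221) (nat_lit 225) (nat_lit 124)))) (PT.nd (nat_lit 156) (PT.nd (nat_lit 78) (PT.lf (nat_lit 11324) (nat_lit 6) (nat_lit 149) (nat_lit 2) (nat_lit 222) (nat_lit 225) (nat_lit 123)) (PT.lf (nat_lit 11020) (nat_lit 6) (nat_lit 145) (nat_lit 2) (nat_lit 223) (nat_lit 225) (nat_lit 122))) (PT.nd (nat_lit 78) (PT.lf (nat_lit 10716) (nat_lit 6) (nat_lit 141) (nat_lit 2) (nat_lit 224) (nat_lit 225) (nat_lit 121)) (PT.lf (nat_lit 10412) (nat_lit 3) (nat_lit 137) (nat_lit 0) (nat_lit 225) (nat_lit 225) (nat_lit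 120))))) (PT.nd (nat_lit 51246) (PT.nd (nat_lit 51090) (PT.nd (nat_lit 51012) (PT.lf (nat_lit 10032) (nat_lit 6) (nat_lit 132) (nat_lit 0) (nat_lit 226) (nat_lit 225) (nat_lit 119)) (PT.lf (nat_lit 10032) (nat_lit 6) (nat_lit 132) (nat_lit 4) (nat_lit 119) (nat_lit 226) (nat_lit 225))) (PT.nd (nat_lit 78) (PT.lf (nat_lit 10336) (nat_lit 6) (nat_lit 136) (nat_lit 4) (nat_lit 120) (nat_lit 226) (nat_lit 224)) (PT.lf (nat_lit 10640) (nat_lit 6) (nat_lit 140) (nat_lit 4) (nat_lit 121) (nat_lit 226) (nat_lit 223)))) (PT.nd (nat_lit 234) (PT.nd (nat_lit 156) (PT.lf (nat_lit 10944) (nat_lit 6) (nat_lit 144) (nat_lit 4) (nat_lit 122) (nat_lit 226) (nat_lit 222)) (PT.lf (nat_lit 11552) (nat_lit 6) (nat_lit 152) (nat_lit 4) (nat_lit 124) (nat_lit 226) (nat_lit 220))) (PT.nd (nat_lit 78) (PT.lf (nat_lit 11932) (nat_lit 6) (nat_lit 157) (nat_lit 4) (nat_lit 125) (nat_lit 226) (nat_lit 219)) (PT.lf (nat_lit 12236) (nat_lit 6) (nat_lit 161) (nat_lit 4) (nat_lit 126) (nat_lit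 226) (nat_lit 218))))))) (PT.nd (nat_lit 66534) (PT.nd (nat_lit 7566) (PT.nd (nat_lit 7176) (PT.nd (nat_lit 7020) (PT.lf (nat_lit 12616) (nat_lit 6) (nat_lit 166) (nat_lit 4) (nat_lit 127) (nat_lit 226) (nat_lit 217)) (PT.nd (nat_lit 78) (PT.lf (nat_lit 12616) (nat_lit 6) (nat_lit 166) (nat_lit 2) (nat_lit 217) (nat_lit 226) (nat_lit 127)) (PT.lf (nat_lit 12236) (nat_lit 6) (nat_lit 161) (nat_lit 2) (nat_lit 218) (nat_lit 226) (nat_lit 126)))) (PT.nd (nat_lit 234) (PT.nd (nat_lit 78) (PT.lf (nat_lit 11932) (nat_lit 6) (nat_lit 157) (nat_lit 2) (nat_lit 219) (nat_lit 226) (nat_lit 125)) (PT.lf (nat_lit 11552) (nat_lit 6) (nat_lit 152) (nat_lit 2) (nat_lit 220) (nat_lit 226) (nat_lit 124))) (PT.nd (nat_lit 78) (PT.lf (nat_lit 10944) (nat_lit 6) (nat_lit 144) (nat_lit 2) (nat_lit 222) (nat_lit 226) (nat_lit 122)) (PT.lf (nat_lit 10640) (nat_lit 6) (nat_lit 140) (nat_lit 2) (nat_lit 223) (nat_lit 226) (nat_lit 121))))) (PT.nd (nat_lit 51480) (PT.nd (nat_lit 51324)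 (PT.nd (nat_lit 78) (PT.lf (nat_lit 10336) (nat_lit 6) (nat_lit 136) (nat_lit 2) (nat_lit 224) (nat_lit 226) (nat_lit 120)) (PT.lf (nat_lit 10032) (nat_lit 6) (nat_lit 132) (nat_lit 2) (nat_lit 225) (nat_lit 226) (nat_lit 119))) (PT.nd (nat_lit 78) (PT.lf (nat_lit 10564) (nat_lit 6) (nat_lit 139) (nat_lit 4) (nat_lit 121) (nat_lit 227) (nat_lit 222)) (PT.lf (nat_lit 10868) (nat_lit 6) (nat_lit 143) (nat_lit 4) (nat_lit 122) (nat_lit 227) (nat_lit 221)))) (PT.nd (nat_lit 156) (PT.nd (nat_lit 78) (PT.lf (nat_lit 11172) (nat_lit 6) (nat_lit 147) (nat_lit 4) (nat_lit 123) (nat_lit 227) (nat_lit 220)) (PT.lf (nat_lit 11476) (nat_lit 6) (nat_lit 151) (nat_lit 4) (nat_lit 124) (nat_lit 227) (nat_lit 219))) (PT.nd (nat_lit 7254) (PT.lf (nat_lit 11856) (nat_lit 6) (nat_lit 156) (nat_lit 4) (nat_lit 125) (nat_lit 227) (nat_lit 218)) (PT.lf (nat_lit 11856) (nat_lit 6) (nat_lit 156) (nat_lit 2) (nat_lit 218) (nat_lit 227) (nat_lit 125)))))) (PT.nd (nat_lit 59436) (PT.nd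 (nat_lit 51558) (PT.nd (nat_lit 156) (PT.nd (nat_lit 78) (PT.lf (nat_lit 11476) (nat_lit 6) (nat_lit 151) (nat_lit 2) (nat_lit 219) (nat_lit 227) (nat_lit 124)) (PT.lf (nat_lit 11172) (nat_lit 6) (nat_lit 147) (nat_lit 2) (nat_lit 220) (nat_lit 227) (nat_lit 123))) (PT.nd (nat_lit 78) (PT.lf (nat_lit 10868) (nat_lit 6) (nat_lit 143) (nat_lit 2) (nat_lit 221) (nat_lit 227) (nat_lit 122)) (PT.lf (nat_lit 10564) (nat_lit 6) (nat_lit 139) (nat_lit 2) (nat_lit 222) (nat_lit 227) (nat_lit 121)))) (PT.nd (nat_lit 156) (PT.nd (nat_lit 78) (PT.lf (nat_lit 9880) (nat_lit 6) (nat_lit 130) (nat_lit 4) (nat_lit 119) (nat_lit 228) (nat_lit 223)) (PT.lf (nat_lit 10184) (nat_lit 6) (nat_lit 134) (nat_lit 4) (nat_lit 120) (nat_lit 228) (nat_lit 222))) (PT.nd (nat_lit 78) (PT.lf (nat_lit 10488) (nat_lit 6) (nat_lit 138) (nat_lit 4) (nat_lit 121) (nat_lit 228) (nat_lit 221)) (PT.lf (nat_lit 10792) (nat_lit 6) (nat_lit 142) (nat_lit 4) (nat_lit 122) (nat_lit 228) (nat_lit 220)))))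 (PT.nd (nat_lit 51402) (PT.nd (nat_lit 156) (PT.nd (nat_lit 78) (PT.lf (nat_lit 10792) (nat_lit 6) (nat_lit 142) (nat_lit 2) (nat_lit 220) (nat_lit 228) (nat_lit 122)) (PT.lf (nat_lit 10488) (nat_lit 6) (nat_lit 138) (nat_lit 2) (nat_lit 221) (nat_lit 228) (nat_lit 121))) (PT.nd (nat_lit 78) (PT.lf (nat_lit 10184) (nat_lit 6) (nat_lit 134) (nat_lit 2) (nat_lit 222) (nat_lit 228) (nat_lit 120)) (PT.lf (nat_lit 9880) (nat_lit 6) (nat_lit 130) (nat_lit 2) (nat_lit 223) (nat_lit 228) (nat_lit 119)))) (PT.nd (nat_lit 8112) (PT.nd (nat_lit 78) (PT.lf (nat_lit 9500) (nat_lit 6) (nat_lit 125) (nat_lit 4) (nat_lit 118) (nat_lit 229) (nat_lit 223)) (PT.lf (nat_lit 9804) (nat_lit 6) (nat_lit 129) (nat_lit 4) (nat_lit 119) (nat_lit 229) (nat_lit 222))) (PT.nd (nat_lit 78) (PT.lf (nat_lit 9804) (nat_lit 6) (nat_lit 129) (nat_lit 2) (nat_lit 222) (nat_lit 229) (nat_lit 119)) (PT.lf (nat_lit 9500) (nat_lit 6) (nat_lit 125) (nat_lit 2) (nat_lit 223) (nat_lit 229) (nat_lit 118))))))))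
noncomputable def xc0 : XT := (XT.nd (nat_lit 177918) (nat_lit 0) (nat_lit 0) (XT.nd (nat_lit 118482) (nat_lit 0) (nat_lit 0) (XT.nd (nat_lit 59280) (nat_lit 0) (nat_lit 0) (XT.nd (nat_lit 59124) (nat_lit 0) (nat_lit 988) (XT.nd (nat_lit 78) (nat_lit 380) (nat_lit 0) (XT.lf (nat_lit 0) (nat_lit 8836619320) (nat_lit 304) (nat_lit 1129019760) (nat_lit 304) (nat_lit 468315079) (nat_lit 137) (nat_lit 4) (nat_lit 141) (nat_lit 5) (nat_lit 141) (nat_lit 4) (nat_lit 471) (nat_lit 335) (nat_lit 334)) (XT.lf (nat_lit 0) (nat_lit 4743605625) (nat_lit 380) (nat_lit 2320767884) (nat_lit 0) (nat_lit 3460807225) (nat_lit 132) (nat_lit 5) (nat_lit 137) (nat_lit 4) (nat_lit 132) (nat_lit 4) (nat_lit 472) (nat_lit 335) (nat_lit 333))) (XT.nd (nat_lit 78) (nat_lit 76) (nat_lit 0) (XT.lf (nat_lit 0) (nat_lit 219308693) (nat_lit 304) (nat_lit 2432269776) (nat_lit 304) (nat_lit 2432269776) (nat_lit 146) (nat_lit 4) (nat_lit 150) (nat_lit 5) (nat_lit 150) (nat_lit 4) (nat_lit 468)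 (nat_lit 336) (nat_lit 336)) (XT.lf (nat_lit 0) (nat_lit 216432420) (nat_lit 380) (nat_lit 250203661) (nat_lit 76) (nat_lit 9789046960) (nat_lit 145) (nat_lit 5) (nat_lit 150) (nat_lit 5) (nat_lit 146) (nat_lit 4) (nat_lit 469) (nat_lit 336) (nat_lit 335)))) (XT.nd (nat_lit 156) (nat_lit 304) (nat_lit 0) (XT.nd (nat_lit 78) (nat_lit 380) (nat_lit 0) (XT.lf (nat_lit 0) (nat_lit 5345626389) (nat_lit 380) (nat_lit 987922128) (nat_lit 0) (nat_lit 4011002934) (nat_lit 141) (nat_lit 5) (nat_lit 146) (nat_lit 4) (nat_lit 141) (nat_lit 4) (nat_lit 470) (nat_lit 336) (nat_lit 334)) (XT.lf (nat_lit 0) (nat_lit 126290334) (nat_lit 380) (nat_lit 1727266666) (nat_lit 76) (nat_lit 8581902796) (nat_lit 136) (nat_lit 5) (nat_lit 141) (nat_lit 5) (nat_lit 137) (nat_lit 4) (nat_lit 471) (nat_lit 336) (nat_lit 333))) (XT.nd (nat_lit 58890) (nat_lit 0) (nat_lit 1368) (XT.lf (nat_lit 0) (nat_lit 5288741802) (nat_lit 380) (nat_lit 2516108359) (nat_lit 0) (nat_lit 2722641943) (nat_lit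 132) (nat_lit 5) (nat_lit 137) (nat_lit 4) (nat_lit 132) (nat_lit 4) (nat_lit 472) (nat_lit 336) (nat_lit 332)) (XT.nd (nat_lit 78) (nat_lit 380) (nat_lit 0) (XT.lf (nat_lit 0) (nat_lit 920858668) (nat_lit 380) (nat_lit 2038573239) (nat_lit 380) (nat_lit 2038573239) (nat_lit 155) (nat_lit 4) (nat_lit 160) (nat_lit 5) (nat_lit 160) (nat_lit 4) (nat_lit 466) (nat_lit 337) (nat_lit 337)) (XT.lf (nat_lit 0) (nat_lit 917577513) (nat_lit 380) (nat_lit 8947722726) (nat_lit 0) (nat_lit 216432420) (nat_lit 150) (nat_lit 5) (nat_lit 155) (nat_lit 4) (nat_lit 150) (nat_lit 4) (nat_lit 467) (nat_lit 337) (nat_lit 336)))))) (XT.nd (nat_lit 59046) (nat_lit 0) (nat_lit 1064) (XT.nd (nat_lit 156) (nat_lit 988) (nat_lit 0) (XT.nd (nat_lit 78) (nat_lit 76) (nat_lit 0) (XT.lf (nat_lit 0) (nat_lit 375725662) (nat_lit 304) (nat_lit 5590635941) (nat_lit 304) (nat_lit 4202093698) (nat_lit 146) (nat_lit 4) (nat_lit 150) (nat_lit 5) (nat_lit 150) (nat_lit 4) (nat_lit 468) (nat_lit 337)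 (nat_lit 335)) (XT.lf (nat_lit 0) (nat_lit 832747345) (nat_lit 380) (nat_lit 380311379) (nat_lit 76) (nat_lit 9044045960) (nat_lit 145) (nat_lit 5) (nat_lit 150) (nat_lit 5) (nat_lit 146) (nat_lit 4) (nat_lit 469) (nat_lit 337) (nat_lit 334))) (XT.nd (nat_lit 78) (nat_lit 684) (nat_lit 0) (XT.lf (nat_lit 0) (nat_lit 5918963875) (nat_lit 380) (nat_lit 1178675188) (nat_lit 0) (nat_lit 3249193582) (nat_lit 141) (nat_lit 5) (nat_lit 146) (nat_lit 4) (nat_lit 141) (nat_lit 4) (nat_lit 470) (nat_lit 337) (nat_lit 333)) (XT.nd (nat_lit 78) (nat_lit 304) (nat_lit 0) (XT.lf (nat_lit 0) (nat_lit 651408439) (nat_lit 380) (nat_lit 1988973957) (nat_lit 76) (nat_lit 7798053414) (nat_lit 136) (nat_lit 5) (nat_lit 141) (nat_lit 5) (nat_lit 137) (nat_lit 4) (nat_lit 471) (nat_lit 337) (nat_lit 332)) (XT.lf (nat_lit 0) (nat_lit 5769996047) (nat_lit 380) (nat_lit 2841760931) (nat_lit 0) (nat_lit 1919588417) (nat_lit 132) (nat_lit 5) (nat_lit 137) (nat_lit 4) (nat_lit 132) (nat_lit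 4) (nat_lit 472) (nat_lit 337) (nat_lit 331))))) (XT.nd (nat_lit 156) (nat_lit 1064) (nat_lit 0) (XT.nd (nat_lit 78) (nat_lit 380) (nat_lit 0) (XT.lf (nat_lit 0) (nat_lit 1637169107) (nat_lit 380) (nat_lit 1638617640) (nat_lit 380) (nat_lit 1638617640) (nat_lit 165) (nat_lit 4) (nat_lit 170) (nat_lit 5) (nat_lit 170) (nat_lit 4) (nat_lit 464) (nat_lit 338) (nat_lit 338)) (XT.lf (nat_lit 0) (nat_lit 1638252796) (nat_lit 380) (nat_lit 7365159738) (nat_lit 0) (nat_lit 908781441) (nat_lit 160) (nat_lit 5) (nat_lit 165) (nat_lit 4) (nat_lit 160) (nat_lit 4) (nat_lit 465) (nat_lit 338) (nat_lit 337))) (XT.nd (nat_lit 78) (nat_lit 684) (nat_lit 0) (XT.lf (nat_lit 0) (nat_lit 1780335588) (nat_lit 380) (nat_lit 4830531706) (nat_lit 380) (nat_lit 3385892356) (nat_lit 155) (nat_lit 4) (nat_lit 160) (nat_lit 5) (nat_lit 160) (nat_lit 4) (nat_lit 466) (nat_lit 338) (nat_lit 336)) (XT.nd (nat_lit 78) (nat_lit 304) (nat_lit 0) (XT.lf (nat_lit 0) (nat_lit 1006481938) (nat_lit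 304) (nat_lit 554045972) (nat_lit 380) (nat_lit 8522649100) (nat_lit 150) (nat_lit 5) (nat_lit 154) (nat_lit 5) (nat_lit 155) (nat_lit 4) (nat_lit 467) (nat_lit 338) (nat_lit 335)) (XT.lf (nat_lit 0) (nat_lit 187025827) (nat_lit 304) (nat_lit 6380667605) (nat_lit 304) (nat_lit 3603038592) (nat_lit 146) (nat_lit 4) (nat_lit 150) (nat_lit 5) (nat_lit 150) (nat_lit 4) (nat_lit 468) (nat_lit 338) (nat_lit 334))))))) (XT.nd (nat_lit 59202) (nat_lit 0) (nat_lit 0) (XT.nd (nat_lit 58812) (nat_lit 0) (nat_lit 1748) (XT.nd (nat_lit 156) (nat_lit 684) (nat_lit 0) (XT.nd (nat_lit 78) (nat_lit 304) (nat_lit 0) (XT.lf (nat_lit 0) (nat_lit 1387237075) (nat_lit 380) (nat_lit 636114801) (nat_lit 76) (nat_lit 8236685916) (nat_lit 145) (nat_lit 5) (nat_lit 150) (nat_lit 5) (nat_lit 146) (nat_lit 4) (nat_lit 469) (nat_lit 338) (nat_lit 333)) (XT.lf (nat_lit 0) (nat_lit 6429959828) (nat_lit 380) (nat_lit 1496680070) (nat_lit 0) (nat_lit 2423995730) (nat_lit 141) (nat_lit 5) (nat_lit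 146) (nat_lit 4) (nat_lit 141) (nat_lit 4) (nat_lit 470) (nat_lit 338) (nat_lit 332))) (XT.nd (nat_lit 78) (nat_lit 304) (nat_lit 0) (XT.lf (nat_lit 0) (nat_lit 1113387200) (nat_lit 380) (nat_lit 2379518731) (nat_lit 76) (nat_lit 6950038248) (nat_lit 136) (nat_lit 5) (nat_lit 141) (nat_lit 5) (nat_lit 137) (nat_lit 4) (nat_lit 471) (nat_lit 338) (nat_lit 331)) (XT.lf (nat_lit 0) (nat_lit 6187557088) (nat_lit 380) (nat_lit 3297853308) (nat_lit 0) (nat_lit 1051331721) (nat_lit 132) (nat_lit 5) (nat_lit 137) (nat_lit 4) (nat_lit 132) (nat_lit 4) (nat_lit 472) (nat_lit 338) (nat_lit 330)))) (XT.nd (nat_lit 156) (nat_lit 1140) (nat_lit 0) (XT.nd (nat_lit 78) (nat_lit 380) (nat_lit 0) (XT.lf (nat_lit 0) (nat_lit 2369102650) (nat_lit 380) (nat_lit 1231960972) (nat_lit 380) (nat_lit 1231960972) (nat_lit 175) (nat_lit 4) (nat_lit 180) (nat_lit 5) (nat_lit 180) (nat_lit 4) (nat_lit 462) (nat_lit 339) (nat_lit 339)) (XT.lf (nat_lit 0) (nat_lit 2374639337) (nat_lit 380)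 (nat_lit 5756779853) (nat_lit 0) (nat_lit 1615697340) (nat_lit 170) (nat_lit 5) (nat_lit 175) (nat_lit 4) (nat_lit 170) (nat_lit 4) (nat_lit 463) (nat_lit 339) (nat_lit 338))) (XT.nd (nat_lit 78) (nat_lit 760) (nat_lit 0) (XT.lf (nat_lit 0) (nat_lit 3214448017) (nat_lit 380) (nat_lit 4059051925) (nat_lit 380) (nat_lit 2556049146) (nat_lit 165) (nat_lit 4) (nat_lit 170) (nat_lit 5) (nat_lit 170) (nat_lit 4) (nat_lit 464) (nat_lit 339) (nat_lit 337)) (XT.nd (nat_lit 78) (nat_lit 380) (nat_lit 0) (XT.lf (nat_lit 0) (nat_lit 2307433502) (nat_lit 380) (nat_lit 7487524705) (nat_lit 0) (nat_lit 118733370) (nat_lit 160) (nat_lit 5) (nat_lit 165) (nat_lit 4) (nat_lit 160) (nat_lit 4) (nat_lit 465) (nat_lit 339) (nat_lit 336)) (XT.lf (nat_lit 0) (nat_lit 1596166270) (nat_lit 380) (nat_lit 5646343486) (nat_lit 380) (nat_lit 2756498261) (nat_lit 155) (nat_lit 4) (nat_lit 160) (nat_lit 5) (nat_lit 160) (nat_lit 4) (nat_lit 466) (nat_lit 339) (nat_lit 335)))))) (XT.nd (nat_lit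 390) (nat_lit 304) (nat_lit 0) (XT.nd (nat_lit 156) (nat_lit 1064) (nat_lit 0) (XT.nd (nat_lit 78) (nat_lit 0) (nat_lit 0) (XT.lf (nat_lit 0) (nat_lit 753175670) (nat_lit 304) (nat_lit 1390595639) (nat_lit 380) (nat_lit 7942330261) (nat_lit 150) (nat_lit 5) (nat_lit 154) (nat_lit 5) (nat_lit 155) (nat_lit 4) (nat_lit 467) (nat_lit 339) (nat_lit 334)) (XT.lf (nat_lit 0) (nat_lit 7108216422) (nat_lit 380) (nat_lit 125883196) (nat_lit 0) (nat_lit 2940411374) (nat_lit 150) (nat_lit 5) (nat_lit 155) (nat_lit 4) (nat_lit 150) (nat_lit 4) (nat_lit 468) (nat_lit 339) (nat_lit 333))) (XT.nd (nat_lit 78) (nat_lit 684) (nat_lit 0) (XT.lf (nat_lit 0) (nat_lit 1880119056) (nat_lit 380) (nat_lit 1017714240) (nat_lit 76) (nat_lit 7366650215) (nat_lit 145) (nat_lit 5) (nat_lit 150) (nat_lit 5) (nat_lit 146) (nat_lit 4) (nat_lit 469) (nat_lit 339) (nat_lit 332)) (XT.nd (nat_lit 78) (nat_lit 380) (nat_lit 0) (XT.lf (nat_lit 0) (nat_lit 6878814640) (nat_lit 380) (nat_lit 1942061481)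 (nat_lit 0) (nat_lit 1535085769) (nat_lit 141) (nat_lit 5) (nat_lit 146) (nat_lit 4) (nat_lit 141) (nat_lit 4) (nat_lit 470) (nat_lit 339) (nat_lit 331)) (XT.lf (nat_lit 0) (nat_lit 1512407785) (nat_lit 380) (nat_lit 2899054141) (nat_lit 76) (nat_lit 6037524742) (nat_lit 136) (nat_lit 5) (nat_lit 141) (nat_lit 5) (nat_lit 137) (nat_lit 4) (nat_lit 471) (nat_lit 339) (nat_lit 330))))) (XT.nd (nat_lit 58500) (nat_lit 0) (nat_lit 2888) (XT.nd (nat_lit 58422) (nat_lit 0) (nat_lit 4104) (XT.lf (nat_lit 0) (nat_lit 6541588673) (nat_lit 380) (nat_lit 3884564349) (nat_lit 0) (nat_lit 117531365) (nat_lit 132) (nat_lit 5) (nat_lit 137) (nat_lit 4) (nat_lit 132) (nat_lit 4) (nat_lit 472) (nat_lit 339) (nat_lit 329)) (XT.lf (nat_lit 0) (nat_lit 3117551564) (nat_lit 380) (nat_lit 818147077) (nat_lit 380) (nat_lit 818147077) (nat_lit 186) (nat_lit 4) (nat_lit 191) (nat_lit 5) (nat_lit 191) (nat_lit 4) (nat_lit 460) (nat_lit 340) (nat_lit 340))) (XT.nd (nat_lit 78) (nat_lit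 760) (nat_lit 0) (XT.lf (nat_lit 0) (nat_lit 3127634697) (nat_lit 456) (nat_lit 4120792642) (nat_lit 0) (nat_lit 2338031442) (nat_lit 180) (nat_lit 5) (nat_lit 186) (nat_lit 4) (nat_lit 180) (nat_lit 4) (nat_lit 461) (nat_lit 340) (nat_lit 339)) (XT.nd (nat_lit 78) (nat_lit 380) (nat_lit 0) (XT.lf (nat_lit 0) (nat_lit 4679789041) (nat_lit 380) (nat_lit 3275357955) (nat_lit 380) (nat_lit 1711633863) (nat_lit 175) (nat_lit 4) (nat_lit 180) (nat_lit 5) (nat_lit 180) (nat_lit 4) (nat_lit 462) (nat_lit 340) (nat_lit 338)) (XT.lf (nat_lit 0) (nat_lit 3074774232) (nat_lit 380) (nat_lit 5876171402) (nat_lit 0) (nat_lit 797650615) (nat_lit 170) (nat_lit 5) (nat_lit 175) (nat_lit 4) (nat_lit 170) (nat_lit 4) (nat_lit 463) (nat_lit 340) (nat_lit 337))))))))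
noncomputable def xc1 : XT := (XT.nd (nat_lit 59670) (nat_lit 0) (nat_lit 0) (XT.nd (nat_lit 58890) (nat_lit 0) (nat_lit 1672) (XT.nd (nat_lit 312) (nat_lit 1368) (nat_lit 0) (XT.nd (nat_lit 156) (nat_lit 760) (nat_lit 0) (XT.nd (nat_lit 78) (nat_lit 380) (nat_lit 0) (XT.lf (nat_lit 0) (nat_lit 3034753935) (nat_lit 380) (nat_lit 4901805674) (nat_lit 380) (nat_lit 1895210702) (nat_lit 165) (nat_lit 4) (nat_lit 170) (nat_lit 5) (nat_lit 170) (nat_lit 4) (nat_lit 464) (nat_lit 340) (nat_lit 336)) (XT.lf (nat_lit 0) (nat_lit 2179471287) (nat_lit 304) (nat_lit 741931808) (nat_lit 380) (nat_lit 6995187929) (nat_lit 160) (nat_lit 5) (nat_lit 164) (nat_lit 5) (nat_lit 165) (nat_lit 4) (nat_lit 465) (nat_lit 340) (nat_lit 335))) (XT.nd (nat_lit 78) (nat_lit 380) (nat_lit 0) (XT.lf (nat_lit 0) (nat_lit 1289137160) (nat_lit 380) (nat_lit 6524901743) (nat_lit 380) (nat_lit 2188717371) (nat_lit 155) (nat_lit 4) (nat_lit 160) (nat_lit 5) (nat_lit 160) (nat_lit 4) (nat_lit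 466) (nat_lit 340) (nat_lit 334)) (XT.lf (nat_lit 0) (nat_lit 375444167) (nat_lit 304) (nat_lit 2290668364) (nat_lit 380) (nat_lit 7424423430) (nat_lit 150) (nat_lit 5) (nat_lit 154) (nat_lit 5) (nat_lit 155) (nat_lit 4) (nat_lit 467) (nat_lit 340) (nat_lit 333)))) (XT.nd (nat_lit 156) (nat_lit 988) (nat_lit 0) (XT.nd (nat_lit 78) (nat_lit 380) (nat_lit 0) (XT.lf (nat_lit 0) (nat_lit 7589346444) (nat_lit 380) (nat_lit 560692235) (nat_lit 0) (nat_lit 2029730927) (nat_lit 150) (nat_lit 5) (nat_lit 155) (nat_lit 4) (nat_lit 150) (nat_lit 4) (nat_lit 468) (nat_lit 340) (nat_lit 332)) (XT.lf (nat_lit 0) (nat_lit 2311586576) (nat_lit 380) (nat_lit 1525259345) (nat_lit 76) (nat_lit 6433597668) (nat_lit 145) (nat_lit 5) (nat_lit 150) (nat_lit 5) (nat_lit 146) (nat_lit 4) (nat_lit 469) (nat_lit 340) (nat_lit 331))) (XT.nd (nat_lit 78) (nat_lit 684) (nat_lit 0) (XT.lf (nat_lit 0) (nat_lit 7265704333) (nat_lit 380) (nat_lit 2514994082) (nat_lit 0) (nat_lit 582115110) (nat_lit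 141) (nat_lit 5) (nat_lit 146) (nat_lit 4) (nat_lit 141) (nat_lit 4) (nat_lit 470) (nat_lit 340) (nat_lit 330)) (XT.nd (nat_lit 78) (nat_lit 304) (nat_lit 0) (XT.lf (nat_lit 0) (nat_lit 1848626673) (nat_lit 380) (nat_lit 3547783928) (nat_lit 76) (nat_lit 5060155050) (nat_lit 136) (nat_lit 5) (nat_lit 141) (nat_lit 5) (nat_lit 137) (nat_lit 4) (nat_lit 471) (nat_lit 340) (nat_lit 329)) (XT.lf (nat_lit 0) (nat_lit 5944130907) (nat_lit 304) (nat_lit 893902540) (nat_lit 380) (nat_lit 3714025405) (nat_lit 132) (nat_lit 5) (nat_lit 136) (nat_lit 5) (nat_lit 137) (nat_lit 4) (nat_lit 472) (nat_lit 340) (nat_lit 328)))))) (XT.nd (nat_lit 390) (nat_lit 1596) (nat_lit 0) (XT.nd (nat_lit 156) (nat_lit 1216) (nat_lit 0) (XT.nd (nat_lit 78) (nat_lit 456) (nat_lit 0) (XT.lf (nat_lit 0) (nat_lit 3883439047) (nat_lit 456) (nat_lit 396705004) (nat_lit 456) (nat_lit 396705004) (nat_lit 197) (nat_lit 4) (nat_lit 203) (nat_lit 5) (nat_lit 203) (nat_lit 4) (nat_lit 458) (nat_lit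 341) (nat_lit 341)) (XT.lf (nat_lit 0) (nat_lit 3898167541) (nat_lit 456) (nat_lit 2455350002) (nat_lit 0) (nat_lit 3076664315) (nat_lit 191) (nat_lit 5) (nat_lit 197) (nat_lit 4) (nat_lit 191) (nat_lit 4) (nat_lit 459) (nat_lit 341) (nat_lit 340))) (XT.nd (nat_lit 78) (nat_lit 836) (nat_lit 0) (XT.lf (nat_lit 0) (nat_lit 6178144013) (nat_lit 380) (nat_lit 2478584702) (nat_lit 380) (nat_lit 851686157) (nat_lit 186) (nat_lit 4) (nat_lit 191) (nat_lit 5) (nat_lit 191) (nat_lit 4) (nat_lit 460) (nat_lit 341) (nat_lit 339)) (XT.nd (nat_lit 78) (nat_lit 380) (nat_lit 0) (XT.lf (nat_lit 0) (nat_lit 3859897480) (nat_lit 456) (nat_lit 4237245883) (nat_lit 0) (nat_lit 1490778069) (nat_lit 180) (nat_lit 5) (nat_lit 186) (nat_lit 4) (nat_lit 180) (nat_lit 4) (nat_lit 461) (nat_lit 341) (nat_lit 338)) (XT.lf (nat_lit 0) (nat_lit 4504517355) (nat_lit 380) (nat_lit 4146260104) (nat_lit 380) (nat_lit 1018198696) (nat_lit 175) (nat_lit 4) (nat_lit 180) (nat_lit 5) (nat_lit 180)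 (nat_lit 4) (nat_lit 462) (nat_lit 341) (nat_lit 337))))) (XT.nd (nat_lit 156) (nat_lit 836) (nat_lit 0) (XT.nd (nat_lit 78) (nat_lit 380) (nat_lit 0) (XT.lf (nat_lit 0) (nat_lit 3636019300) (nat_lit 304) (nat_lit 80882427) (nat_lit 380) (nat_lit 6034644037) (nat_lit 170) (nat_lit 5) (nat_lit 174) (nat_lit 5) (nat_lit 175) (nat_lit 4) (nat_lit 463) (nat_lit 341) (nat_lit 336)) (XT.lf (nat_lit 0) (nat_lit 2735185503) (nat_lit 380) (nat_lit 5805827018) (nat_lit 380) (nat_lit 1294460797) (nat_lit 165) (nat_lit 4) (nat_lit 170) (nat_lit 5) (nat_lit 170) (nat_lit 4) (nat_lit 464) (nat_lit 341) (nat_lit 335))) (XT.nd (nat_lit 78) (nat_lit 456) (nat_lit 0) (XT.lf (nat_lit 0) (nat_lit 1810558539) (nat_lit 304) (nat_lit 1666208714) (nat_lit 380) (nat_lit 6444198905) (nat_lit 160) (nat_lit 5) (nat_lit 164) (nat_lit 5) (nat_lit 165) (nat_lit 4) (nat_lit 465) (nat_lit 341) (nat_lit 334)) (XT.nd (nat_lit 78) (nat_lit 76) (nat_lit 0) (XT.lf (nat_lit 0) (nat_lit 859127855)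 (nat_lit 380) (nat_lit 7466551010) (nat_lit 380) (nat_lit 1682327026) (nat_lit 155) (nat_lit 4) (nat_lit 160) (nat_lit 5) (nat_lit 160) (nat_lit 4) (nat_lit 466) (nat_lit 341) (nat_lit 333)) (XT.lf (nat_lit 0) (nat_lit 3128580082) (nat_lit 456) (nat_lit 125196898) (nat_lit 76) (nat_lit 6842688470) (nat_lit 154) (nat_lit 5) (nat_lit 160) (nat_lit 5) (nat_lit 155) (nat_lit 4) (nat_lit 467) (nat_lit 341) (nat_lit 332))))))) (XT.nd (nat_lit 58734) (nat_lit 0) (nat_lit 988) (XT.nd (nat_lit 312) (nat_lit 304) (nat_lit 0) (XT.nd (nat_lit 156) (nat_lit 684) (nat_lit 0) (XT.nd (nat_lit 78) (nat_lit 380) (nat_lit 0) (XT.lf (nat_lit 0) (nat_lit 8010057883) (nat_lit 380) (nat_lit 1120024680) (nat_lit 0) (nat_lit 1056451655) (nat_lit 150) (nat_lit 5) (nat_lit 155) (nat_lit 4) (nat_lit 150) (nat_lit 4) (nat_lit 468) (nat_lit 341) (nat_lit 331)) (XT.lf (nat_lit 0) (nat_lit 2681808837) (nat_lit 380) (nat_lit 2158949152) (nat_lit 76) (nat_lit 5437162370) (nat_lit 145) (nat_lit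 5) (nat_lit 150) (nat_lit 5) (nat_lit 146) (nat_lit 4) (nat_lit 469) (nat_lit 341) (nat_lit 330))) (XT.nd (nat_lit 78) (nat_lit 380) (nat_lit 0) (XT.lf (nat_lit 0) (nat_lit 7152569638) (nat_lit 304) (nat_lit 441074738) (nat_lit 380) (nat_lit 2777491563) (nat_lit 141) (nat_lit 5) (nat_lit 145) (nat_lit 5) (nat_lit 146) (nat_lit 4) (nat_lit 470) (nat_lit 341) (nat_lit 329)) (XT.lf (nat_lit 0) (nat_lit 2122175714) (nat_lit 380) (nat_lit 4325962495) (nat_lit 76) (nat_lit 4017545887) (nat_lit 136) (nat_lit 5) (nat_lit 141) (nat_lit 5) (nat_lit 137) (nat_lit 4) (nat_lit 471) (nat_lit 341) (nat_lit 328)))) (XT.nd (nat_lit 58188) (nat_lit 0) (nat_lit 4484) (XT.nd (nat_lit 58110) (nat_lit 0) (nat_lit 5396) (XT.lf (nat_lit 0) (nat_lit 5098329614) (nat_lit 304) (nat_lit 1974081395) (nat_lit 380) (nat_lit 3489549719) (nat_lit 132) (nat_lit 5) (nat_lit 136) (nat_lit 5) (nat_lit 137) (nat_lit 4) (nat_lit 472) (nat_lit 341) (nat_lit 327)) (XT.lf (nat_lit 0) (nat_lit 33069217)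 (nat_lit 456) (nat_lit 4535861590) (nat_lit 0) (nat_lit 33069217) (nat_lit 203) (nat_lit 5) (nat_lit 209) (nat_lit 4) (nat_lit 203) (nat_lit 4) (nat_lit 456) (nat_lit 342) (nat_lit 342))) (XT.nd (nat_lit 78) (nat_lit 912) (nat_lit 0) (XT.lf (nat_lit 0) (nat_lit 4687199001) (nat_lit 456) (nat_lit 758543531) (nat_lit 0) (nat_lit 3832507045) (nat_lit 203) (nat_lit 5) (nat_lit 209) (nat_lit 4) (nat_lit 203) (nat_lit 4) (nat_lit 457) (nat_lit 342) (nat_lit 341)) (XT.nd (nat_lit 78) (nat_lit 380) (nat_lit 0) (XT.lf (nat_lit 0) (nat_lit 24460762) (nat_lit 532) (nat_lit 1643214505) (nat_lit 76) (nat_lit 7686735236) (nat_lit 196) (nat_lit 5) (nat_lit 203) (nat_lit 5) (nat_lit 197) (nat_lit 4) (nat_lit 458) (nat_lit 342) (nat_lit 340)) (XT.lf (nat_lit 0) (nat_lit 4663780837) (nat_lit 456) (nat_lit 2568898417) (nat_lit 0) (nat_lit 2198949002) (nat_lit 191) (nat_lit 5) (nat_lit 197) (nat_lit 4) (nat_lit 191) (nat_lit 4) (nat_lit 459) (nat_lit 342) (nat_lit 339)))))) (XT.nd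 (nat_lit 390) (nat_lit 1520) (nat_lit 0) (XT.nd (nat_lit 156) (nat_lit 1140) (nat_lit 0) (XT.nd (nat_lit 78) (nat_lit 456) (nat_lit 0) (XT.lf (nat_lit 0) (nat_lit 6007244328) (nat_lit 380) (nat_lit 3378888112) (nat_lit 380) (nat_lit 124453023) (nat_lit 186) (nat_lit 4) (nat_lit 191) (nat_lit 5) (nat_lit 191) (nat_lit 4) (nat_lit 460) (nat_lit 342) (nat_lit 338)) (XT.lf (nat_lit 0) (nat_lit 4535106954) (nat_lit 456) (nat_lit 4470198033) (nat_lit 0) (nat_lit 585542320) (nat_lit 180) (nat_lit 5) (nat_lit 186) (nat_lit 4) (nat_lit 180) (nat_lit 4) (nat_lit 461) (nat_lit 342) (nat_lit 337))) (XT.nd (nat_lit 78) (nat_lit 760) (nat_lit 0) (XT.lf (nat_lit 0) (nat_lit 4212321509) (nat_lit 380) (nat_lit 5076969924) (nat_lit 380) (nat_lit 383344508) (nat_lit 175) (nat_lit 4) (nat_lit 180) (nat_lit 5) (nat_lit 180) (nat_lit 4) (nat_lit 462) (nat_lit 342) (nat_lit 336)) (XT.nd (nat_lit 78) (nat_lit 380) (nat_lit 0) (XT.lf (nat_lit 0) (nat_lit 3275809444) (nat_lit 304) (nat_lit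 1030579771) (nat_lit 380) (nat_lit 5449474706) (nat_lit 170) (nat_lit 5) (nat_lit 174) (nat_lit 5) (nat_lit 175) (nat_lit 4) (nat_lit 463) (nat_lit 342) (nat_lit 335)) (XT.lf (nat_lit 0) (nat_lit 2315625242) (nat_lit 380) (nat_lit 6771470476) (nat_lit 380) (nat_lit 753563842) (nat_lit 165) (nat_lit 4) (nat_lit 170) (nat_lit 5) (nat_lit 170) (nat_lit 4) (nat_lit 464) (nat_lit 342) (nat_lit 334))))) (XT.nd (nat_lit 156) (nat_lit 760) (nat_lit 0) (XT.nd (nat_lit 78) (nat_lit 380) (nat_lit 0) (XT.lf (nat_lit 0) (nat_lit 1320080718) (nat_lit 304) (nat_lit 2652881906) (nat_lit 380) (nat_lit 5953871692) (nat_lit 160) (nat_lit 5) (nat_lit 164) (nat_lit 5) (nat_lit 165) (nat_lit 4) (nat_lit 465) (nat_lit 342) (nat_lit 333)) (XT.lf (nat_lit 0) (nat_lit 305969722) (nat_lit 380) (nat_lit 8471660562) (nat_lit 380) (nat_lit 1237128643) (nat_lit 155) (nat_lit 4) (nat_lit 160) (nat_lit 5) (nat_lit 160) (nat_lit 4) (nat_lit 466) (nat_lit 342) (nat_lit 332))) (XT.nd (nat_lit 78)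 (nat_lit 684) (nat_lit 0) (XT.lf (nat_lit 0) (nat_lit 3533779058) (nat_lit 456) (nat_lit 744047907) (nat_lit 76) (nat_lit 5826016922) (nat_lit 154) (nat_lit 5) (nat_lit 160) (nat_lit 5) (nat_lit 155) (nat_lit 4) (nat_lit 467) (nat_lit 342) (nat_lit 331)) (XT.nd (nat_lit 78) (nat_lit 380) (nat_lit 0) (XT.lf (nat_lit 0) (nat_lit 8370515722) (nat_lit 380) (nat_lit 1804099876) (nat_lit 0) (nat_lit 20191880) (nat_lit 150) (nat_lit 5) (nat_lit 155) (nat_lit 4) (nat_lit 150) (nat_lit 4) (nat_lit 468) (nat_lit 342) (nat_lit 330)) (XT.lf (nat_lit 0) (nat_lit 2990931026) (nat_lit 380) (nat_lit 2919032167) (nat_lit 76) (nat_lit 4376953563) (nat_lit 145) (nat_lit 5) (nat_lit 150) (nat_lit 5) (nat_lit 146) (nat_lit 4) (nat_lit 469) (nat_lit 342) (nat_lit 329))))))))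
noncomputable def xc2 : XT := (XT.nd (nat_lit 59358) (nat_lit 0) (nat_lit 0) (XT.nd (nat_lit 58578) (nat_lit 0) (nat_lit 988) (XT.nd (nat_lit 58188) (nat_lit 0) (nat_lit 4484) (XT.nd (nat_lit 156) (nat_lit 304) (nat_lit 0) (XT.nd (nat_lit 78) (nat_lit 380) (nat_lit 0) (XT.lf (nat_lit 0) (nat_lit 6326459155) (nat_lit 304) (nat_lit 1537695587) (nat_lit 380) (nat_lit 2516749830) (nat_lit 141) (nat_lit 5) (nat_lit 145) (nat_lit 5) (nat_lit 146) (nat_lit 4) (nat_lit 470) (nat_lit 342) (nat_lit 328)) (XT.lf (nat_lit 0) (nat_lit 2333162183) (nat_lit 380) (nat_lit 5233895011) (nat_lit 76) (nat_lit 2909288389) (nat_lit 136) (nat_lit 5) (nat_lit 141) (nat_lit 5) (nat_lit 137) (nat_lit 4) (nat_lit 471) (nat_lit 342) (nat_lit 327))) (XT.nd (nat_lit 57954) (nat_lit 0) (nat_lit 6308) (XT.lf (nat_lit 0) (nat_lit 4122173170) (nat_lit 304) (nat_lit 3121866866) (nat_lit 380) (nat_lit 3329369326) (nat_lit 132) (nat_lit 5) (nat_lit 136) (nat_lit 5) (nat_lit 137) (nat_lit 4) (nat_lit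 472) (nat_lit 342) (nat_lit 326)) (XT.lf (nat_lit 0) (nat_lit 474144848) (nat_lit 532) (nat_lit 3580797544) (nat_lit 0) (nat_lit 474144848) (nat_lit 215) (nat_lit 5) (nat_lit 222) (nat_lit 4) (nat_lit 215) (nat_lit 4) (nat_lit 454) (nat_lit 343) (nat_lit 343)))) (XT.nd (nat_lit 156) (nat_lit 912) (nat_lit 0) (XT.nd (nat_lit 78) (nat_lit 456) (nat_lit 0) (XT.lf (nat_lit 0) (nat_lit 984510212) (nat_lit 456) (nat_lit 4517605969) (nat_lit 456) (nat_lit 3628384458) (nat_lit 209) (nat_lit 4) (nat_lit 215) (nat_lit 5) (nat_lit 215) (nat_lit 4) (nat_lit 455) (nat_lit 343) (nat_lit 342)) (XT.lf (nat_lit 0) (nat_lit 71579769) (nat_lit 380) (nat_lit 835641555) (nat_lit 456) (nat_lit 8297392783) (nat_lit 203) (nat_lit 5) (nat_lit 208) (nat_lit 5) (nat_lit 209) (nat_lit 4) (nat_lit 456) (nat_lit 343) (nat_lit 341))) (XT.nd (nat_lit 78) (nat_lit 912) (nat_lit 0) (XT.lf (nat_lit 0) (nat_lit 5487436308) (nat_lit 456) (nat_lit 869218973) (nat_lit 0) (nat_lit 2923025267) (nat_lit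 203) (nat_lit 5) (nat_lit 209) (nat_lit 4) (nat_lit 203) (nat_lit 4) (nat_lit 457) (nat_lit 343) (nat_lit 340)) (XT.nd (nat_lit 78) (nat_lit 380) (nat_lit 0) (XT.lf (nat_lit 0) (nat_lit 776746425) (nat_lit 532) (nat_lit 1816886487) (nat_lit 76) (nat_lit 6762825717) (nat_lit 196) (nat_lit 5) (nat_lit 203) (nat_lit 5) (nat_lit 197) (nat_lit 4) (nat_lit 458) (nat_lit 343) (nat_lit 339)) (XT.lf (nat_lit 0) (nat_lit 5373804446) (nat_lit 456) (nat_lit 2796039777) (nat_lit 0) (nat_lit 1264677401) (nat_lit 191) (nat_lit 5) (nat_lit 197) (nat_lit 4) (nat_lit 191) (nat_lit 4) (nat_lit 459) (nat_lit 343) (nat_lit 338)))))) (XT.nd (nat_lit 390) (nat_lit 1520) (nat_lit 0) (XT.nd (nat_lit 156) (nat_lit 1140) (nat_lit 0) (XT.nd (nat_lit 78) (nat_lit 380) (nat_lit 0) (XT.lf (nat_lit 0) (nat_lit 538533609) (nat_lit 456) (nat_lit 3795409991) (nat_lit 76) (nat_lit 5180189601) (nat_lit 185) (nat_lit 5) (nat_lit 191) (nat_lit 5) (nat_lit 186) (nat_lit 4) (nat_lit 460) (nat_lit 343)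 (nat_lit 337)) (XT.lf (nat_lit 0) (nat_lit 4772960323) (nat_lit 380) (nat_lit 383054629) (nat_lit 456) (nat_lit 4439172862) (nat_lit 180) (nat_lit 5) (nat_lit 185) (nat_lit 5) (nat_lit 186) (nat_lit 4) (nat_lit 461) (nat_lit 343) (nat_lit 336))) (XT.nd (nat_lit 78) (nat_lit 684) (nat_lit 0) (XT.lf (nat_lit 0) (nat_lit 190644103) (nat_lit 456) (nat_lit 5875928971) (nat_lit 76) (nat_lit 3611163490) (nat_lit 174) (nat_lit 5) (nat_lit 180) (nat_lit 5) (nat_lit 175) (nat_lit 4) (nat_lit 462) (nat_lit 343) (nat_lit 335)) (XT.nd (nat_lit 78) (nat_lit 380) (nat_lit 0) (XT.lf (nat_lit 0) (nat_lit 2797006675) (nat_lit 304) (nat_lit 2041213488) (nat_lit 380) (nat_lit 4923437203) (nat_lit 170) (nat_lit 5) (nat_lit 174) (nat_lit 5) (nat_lit 175) (nat_lit 4) (nat_lit 463) (nat_lit 343) (nat_lit 334)) (XT.lf (nat_lit 0) (nat_lit 1775908619) (nat_lit 380) (nat_lit 7799114731) (nat_lit 380) (nat_lit 272307722) (nat_lit 165) (nat_lit 4) (nat_lit 170) (nat_lit 5) (nat_lit 170)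 (nat_lit 4) (nat_lit 464) (nat_lit 343) (nat_lit 333))))) (XT.nd (nat_lit 156) (nat_lit 1140) (nat_lit 0) (XT.nd (nat_lit 78) (nat_lit 0) (nat_lit 0) (XT.lf (nat_lit 0) (nat_lit 707845480) (nat_lit 304) (nat_lit 3702338313) (nat_lit 380) (nat_lit 5524014006) (nat_lit 160) (nat_lit 5) (nat_lit 164) (nat_lit 5) (nat_lit 165) (nat_lit 4) (nat_lit 465) (nat_lit 343) (nat_lit 332)) (XT.lf (nat_lit 0) (nat_lit 9172476282) (nat_lit 380) (nat_lit 365694276) (nat_lit 0) (nat_lit 484799356) (nat_lit 160) (nat_lit 5) (nat_lit 165) (nat_lit 4) (nat_lit 160) (nat_lit 4) (nat_lit 466) (nat_lit 343) (nat_lit 331))) (XT.nd (nat_lit 78) (nat_lit 684) (nat_lit 0) (XT.lf (nat_lit 0) (nat_lit 3879430730) (nat_lit 456) (nat_lit 1486275563) (nat_lit 76) (nat_lit 4747016626) (nat_lit 154) (nat_lit 5) (nat_lit 160) (nat_lit 5) (nat_lit 155) (nat_lit 4) (nat_lit 467) (nat_lit 343) (nat_lit 330)) (XT.nd (nat_lit 78) (nat_lit 380) (nat_lit 0) (XT.lf (nat_lit 0) (nat_lit 7584162834) (nat_lit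 304) (nat_lit 1093800160) (nat_lit 380) (nat_lit 1526487603) (nat_lit 150) (nat_lit 5) (nat_lit 154) (nat_lit 5) (nat_lit 155) (nat_lit 4) (nat_lit 468) (nat_lit 343) (nat_lit 329)) (XT.lf (nat_lit 0) (nat_lit 3239074365) (nat_lit 380) (nat_lit 3805806461) (nat_lit 76) (nat_lit 3252555479) (nat_lit 145) (nat_lit 5) (nat_lit 150) (nat_lit 5) (nat_lit 146) (nat_lit 4) (nat_lit 469) (nat_lit 343) (nat_lit 328))))))) (XT.nd (nat_lit 58422) (nat_lit 0) (nat_lit 1672) (XT.nd (nat_lit 58032) (nat_lit 0) (nat_lit 5396) (XT.nd (nat_lit 156) (nat_lit 304) (nat_lit 0) (XT.nd (nat_lit 78) (nat_lit 380) (nat_lit 0) (XT.lf (nat_lit 0) (nat_lit 5373070326) (nat_lit 304) (nat_lit 2700441482) (nat_lit 380) (nat_lit 2318688038) (nat_lit 141) (nat_lit 5) (nat_lit 145) (nat_lit 5) (nat_lit 146) (nat_lit 4) (nat_lit 470) (nat_lit 343) (nat_lit 327)) (XT.lf (nat_lit 0) (nat_lit 2481668819) (nat_lit 380) (nat_lit 6271937527) (nat_lit 76) (nat_lit 1734947944) (nat_lit 136) (nat_lit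 5) (nat_lit 141) (nat_lit 5) (nat_lit 137) (nat_lit 4) (nat_lit 471) (nat_lit 343) (nat_lit 326))) (XT.nd (nat_lit 57798) (nat_lit 0) (nat_lit 7296) (XT.lf (nat_lit 0) (nat_lit 3015278770) (nat_lit 304) (nat_lit 4337709068) (nat_lit 380) (nat_lit 3233421409) (nat_lit 132) (nat_lit 5) (nat_lit 136) (nat_lit 5) (nat_lit 137) (nat_lit 4) (nat_lit 472) (nat_lit 343) (nat_lit 325)) (XT.lf (nat_lit 0) (nat_lit 924417590) (nat_lit 532) (nat_lit 2609468770) (nat_lit 0) (nat_lit 924417590) (nat_lit 228) (nat_lit 5) (nat_lit 235) (nat_lit 4) (nat_lit 228) (nat_lit 4) (nat_lit 452) (nat_lit 344) (nat_lit 344)))) (XT.nd (nat_lit 156) (nat_lit 912) (nat_lit 0) (XT.nd (nat_lit 78) (nat_lit 532) (nat_lit 0) (XT.lf (nat_lit 0) (nat_lit 2773487174) (nat_lit 456) (nat_lit 3569293297) (nat_lit 456) (nat_lit 2644147237) (nat_lit 222) (nat_lit 4) (nat_lit 228) (nat_lit 5) (nat_lit 228) (nat_lit 4) (nat_lit 453) (nat_lit 344) (nat_lit 343)) (XT.lf (nat_lit 0) (nat_lit 1819535938)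 (nat_lit 532) (nat_lit 7216045253) (nat_lit 0) (nat_lit 23308485) (nat_lit 215) (nat_lit 5) (nat_lit 222) (nat_lit 4) (nat_lit 215) (nat_lit 4) (nat_lit 454) (nat_lit 344) (nat_lit 342))) (XT.nd (nat_lit 78) (nat_lit 456) (nat_lit 0) (XT.lf (nat_lit 0) (nat_lit 875244491) (nat_lit 456) (nat_lit 5462349974) (nat_lit 456) (nat_lit 2794336727) (nat_lit 209) (nat_lit 4) (nat_lit 215) (nat_lit 5) (nat_lit 215) (nat_lit 4) (nat_lit 455) (nat_lit 344) (nat_lit 341)) (XT.nd (nat_lit 78) (nat_lit 380) (nat_lit 0) (XT.lf (nat_lit 0) (nat_lit 1694920300) (nat_lit 532) (nat_lit 98966196) (nat_lit 76) (nat_lit 7412758061) (nat_lit 208) (nat_lit 5) (nat_lit 215) (nat_lit 5) (nat_lit 209) (nat_lit 4) (nat_lit 456) (nat_lit 344) (nat_lit 340)) (XT.lf (nat_lit 0) (nat_lit 6233532784) (nat_lit 456) (nat_lit 1090613258) (nat_lit 0) (nat_lit 1958397006) (nat_lit 203) (nat_lit 5) (nat_lit 209) (nat_lit 4) (nat_lit 203) (nat_lit 4) (nat_lit 457) (nat_lit 344) (nat_lit 339)))))) (XT.nd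 (nat_lit 390) (nat_lit 1520) (nat_lit 0) (XT.nd (nat_lit 156) (nat_lit 1292) (nat_lit 0) (XT.nd (nat_lit 78) (nat_lit 380) (nat_lit 0) (XT.lf (nat_lit 0) (nat_lit 1474147707) (nat_lit 532) (nat_lit 2102752727) (nat_lit 76) (nat_lit 5783045885) (nat_lit 196) (nat_lit 5) (nat_lit 203) (nat_lit 5) (nat_lit 197) (nat_lit 4) (nat_lit 458) (nat_lit 344) (nat_lit 338)) (XT.lf (nat_lit 0) (nat_lit 6028516807) (nat_lit 456) (nat_lit 3136863157) (nat_lit 0) (nat_lit 273483129) (nat_lit 191) (nat_lit 5) (nat_lit 197) (nat_lit 4) (nat_lit 191) (nat_lit 4) (nat_lit 459) (nat_lit 344) (nat_lit 337))) (XT.nd (nat_lit 78) (nat_lit 836) (nat_lit 0) (XT.lf (nat_lit 0) (nat_lit 1143806441) (nat_lit 456) (nat_lit 4203486663) (nat_lit 76) (nat_lit 4171828480) (nat_lit 185) (nat_lit 5) (nat_lit 191) (nat_lit 5) (nat_lit 186) (nat_lit 4) (nat_lit 460) (nat_lit 344) (nat_lit 336)) (XT.nd (nat_lit 78) (nat_lit 456) (nat_lit 0) (XT.lf (nat_lit 0) (nat_lit 4305686819) (nat_lit 380) (nat_lit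 1418928664) (nat_lit 456) (nat_lit 3876294159) (nat_lit 180) (nat_lit 5) (nat_lit 185) (nat_lit 5) (nat_lit 186) (nat_lit 4) (nat_lit 461) (nat_lit 344) (nat_lit 335)) (XT.lf (nat_lit 0) (nat_lit 702261223) (nat_lit 456) (nat_lit 6412322339) (nat_lit 76) (nat_lit 2569679325) (nat_lit 174) (nat_lit 5) (nat_lit 180) (nat_lit 5) (nat_lit 175) (nat_lit 4) (nat_lit 462) (nat_lit 344) (nat_lit 334))))) (XT.nd (nat_lit 156) (nat_lit 760) (nat_lit 0) (XT.nd (nat_lit 78) (nat_lit 456) (nat_lit 0) (XT.lf (nat_lit 0) (nat_lit 2199423226) (nat_lit 304) (nat_lit 3113179907) (nat_lit 380) (nat_lit 4456325239) (nat_lit 170) (nat_lit 5) (nat_lit 174) (nat_lit 5) (nat_lit 175) (nat_lit 4) (nat_lit 463) (nat_lit 344) (nat_lit 333)) (XT.lf (nat_lit 0) (nat_lit 147535620) (nat_lit 456) (nat_lit 8740637120) (nat_lit 76) (nat_lit 967298317) (nat_lit 164) (nat_lit 5) (nat_lit 170) (nat_lit 5) (nat_lit 165) (nat_lit 4) (nat_lit 464) (nat_lit 344) (nat_lit 332))) (XT.nd (nat_lit 78)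 (nat_lit 760) (nat_lit 0) (XT.lf (nat_lit 0) (nat_lit 4788773546) (nat_lit 456) (nat_lit 26041191) (nat_lit 76) (nat_lit 5128241332) (nat_lit 164) (nat_lit 5) (nat_lit 170) (nat_lit 5) (nat_lit 165) (nat_lit 4) (nat_lit 465) (nat_lit 344) (nat_lit 331)) (XT.nd (nat_lit 78) (nat_lit 456) (nat_lit 0) (XT.lf (nat_lit 0) (nat_lit 8873028434) (nat_lit 304) (nat_lit 641893286) (nat_lit 380) (nat_lit 517629350) (nat_lit 160) (nat_lit 5) (nat_lit 164) (nat_lit 5) (nat_lit 165) (nat_lit 4) (nat_lit 466) (nat_lit 344) (nat_lit 330)) (XT.lf (nat_lit 0) (nat_lit 4165670645) (nat_lit 456) (nat_lit 2352170937) (nat_lit 76) (nat_lit 3605264445) (nat_lit 154) (nat_lit 5) (nat_lit 160) (nat_lit 5) (nat_lit 155) (nat_lit 4) (nat_lit 467) (nat_lit 344) (nat_lit 329))))))))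
noncomputable def xc3 : XT := (XT.nd (nat_lit 59124) (nat_lit 0) (nat_lit 0) (XT.nd (nat_lit 58344) (nat_lit 0) (nat_lit 2128) (XT.nd (nat_lit 57954) (nat_lit 0) (nat_lit 6004) (XT.nd (nat_lit 156) (nat_lit 684) (nat_lit 0) (XT.nd (nat_lit 78) (nat_lit 380) (nat_lit 0) (XT.lf (nat_lit 0) (nat_lit 6653241740) (nat_lit 304) (nat_lit 2272726764) (nat_lit 380) (nat_lit 1289629890) (nat_lit 150) (nat_lit 5) (nat_lit 154) (nat_lit 5) (nat_lit 155) (nat_lit 4) (nat_lit 468) (nat_lit 344) (nat_lit 328)) (XT.lf (nat_lit 0) (nat_lit 3426336166) (nat_lit 380) (nat_lit 4819619790) (nat_lit 76) (nat_lit 2063527177) (nat_lit 145) (nat_lit 5) (nat_lit 150) (nat_lit 5) (nat_lit 146) (nat_lit 4) (nat_lit 469) (nat_lit 344) (nat_lit 327))) (XT.nd (nat_lit 78) (nat_lit 380) (nat_lit 0) (XT.lf (nat_lit 0) (nat_lit 4292029275) (nat_lit 304) (nat_lit 3929768401) (nat_lit 380) (nat_lit 2183228518) (nat_lit 141) (nat_lit 5) (nat_lit 145) (nat_lit 5) (nat_lit 146) (nat_lit 4) (nat_lit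 470) (nat_lit 344) (nat_lit 326)) (XT.lf (nat_lit 0) (nat_lit 2567753860) (nat_lit 380) (nat_lit 7440497119) (nat_lit 76) (nat_lit 494064027) (nat_lit 136) (nat_lit 5) (nat_lit 141) (nat_lit 5) (nat_lit 137) (nat_lit 4) (nat_lit 471) (nat_lit 344) (nat_lit 325)))) (XT.nd (nat_lit 156) (nat_lit 1520) (nat_lit 0) (XT.nd (nat_lit 78) (nat_lit 532) (nat_lit 0) (XT.lf (nat_lit 0) (nat_lit 1384428070) (nat_lit 532) (nat_lit 1620780530) (nat_lit 0) (nat_lit 1384428070) (nat_lit 242) (nat_lit 5) (nat_lit 249) (nat_lit 4) (nat_lit 242) (nat_lit 4) (nat_lit 450) (nat_lit 345) (nat_lit 345)) (XT.lf (nat_lit 0) (nat_lit 4600440712) (nat_lit 532) (nat_lit 2604841811) (nat_lit 532) (nat_lit 1642319850) (nat_lit 235) (nat_lit 4) (nat_lit 242) (nat_lit 5) (nat_lit 242) (nat_lit 4) (nat_lit 451) (nat_lit 345) (nat_lit 344))) (XT.nd (nat_lit 78) (nat_lit 988) (nat_lit 0) (XT.lf (nat_lit 0) (nat_lit 2757072252) (nat_lit 532) (nat_lit 5271966677) (nat_lit 0) (nat_lit 888277210)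 (nat_lit 228) (nat_lit 5) (nat_lit 235) (nat_lit 4) (nat_lit 228) (nat_lit 4) (nat_lit 452) (nat_lit 345) (nat_lit 343)) (XT.nd (nat_lit 78) (nat_lit 532) (nat_lit 0) (XT.lf (nat_lit 0) (nat_lit 2667073048) (nat_lit 456) (nat_lit 4548536025) (nat_lit 456) (nat_lit 1772735042) (nat_lit 222) (nat_lit 4) (nat_lit 228) (nat_lit 5) (nat_lit 228) (nat_lit 4) (nat_lit 453) (nat_lit 345) (nat_lit 342)) (XT.lf (nat_lit 0) (nat_lit 1675204714) (nat_lit 456) (nat_lit 968472121) (nat_lit 532) (nat_lit 6417232945) (nat_lit 215) (nat_lit 5) (nat_lit 221) (nat_lit 5) (nat_lit 222) (nat_lit 4) (nat_lit 454) (nat_lit 345) (nat_lit 341)))))) (XT.nd (nat_lit 390) (nat_lit 2052) (nat_lit 0) (XT.nd (nat_lit 156) (nat_lit 1292) (nat_lit 0) (XT.nd (nat_lit 78) (nat_lit 76) (nat_lit 0) (XT.lf (nat_lit 0) (nat_lit 656670201) (nat_lit 456) (nat_lit 6462986961) (nat_lit 456) (nat_lit 2015135698) (nat_lit 209) (nat_lit 4) (nat_lit 215) (nat_lit 5) (nat_lit 215) (nat_lit 4) (nat_lit 455)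 (nat_lit 345) (nat_lit 340)) (XT.lf (nat_lit 0) (nat_lit 2429641844) (nat_lit 532) (nat_lit 377908027) (nat_lit 76) (nat_lit 6402540374) (nat_lit 208) (nat_lit 5) (nat_lit 215) (nat_lit 5) (nat_lit 209) (nat_lit 4) (nat_lit 456) (nat_lit 345) (nat_lit 339))) (XT.nd (nat_lit 78) (nat_lit 912) (nat_lit 0) (XT.lf (nat_lit 0) (nat_lit 6925781016) (nat_lit 456) (nat_lit 1422813210) (nat_lit 0) (nat_lit 938243977) (nat_lit 203) (nat_lit 5) (nat_lit 209) (nat_lit 4) (nat_lit 203) (nat_lit 4) (nat_lit 457) (nat_lit 345) (nat_lit 338)) (XT.nd (nat_lit 78) (nat_lit 380) (nat_lit 0) (XT.lf (nat_lit 0) (nat_lit 2116938100) (nat_lit 532) (nat_lit 2500925330) (nat_lit 76) (nat_lit 4747011512) (nat_lit 196) (nat_lit 5) (nat_lit 203) (nat_lit 5) (nat_lit 197) (nat_lit 4) (nat_lit 458) (nat_lit 345) (nat_lit 337)) (XT.lf (nat_lit 0) (nat_lit 5847951345) (nat_lit 380) (nat_lit 785322157) (nat_lit 456) (nat_lit 2811278887) (nat_lit 191) (nat_lit 5) (nat_lit 196) (nat_lit 5) (nat_lit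 197) (nat_lit 4) (nat_lit 459) (nat_lit 345) (nat_lit 336))))) (XT.nd (nat_lit 156) (nat_lit 1216) (nat_lit 0) (XT.nd (nat_lit 78) (nat_lit 380) (nat_lit 0) (XT.lf (nat_lit 0) (nat_lit 1693235058) (nat_lit 456) (nat_lit 4726923150) (nat_lit 76) (nat_lit 3105410520) (nat_lit 185) (nat_lit 5) (nat_lit 191) (nat_lit 5) (nat_lit 186) (nat_lit 4) (nat_lit 460) (nat_lit 345) (nat_lit 335)) (XT.lf (nat_lit 0) (nat_lit 3722574815) (nat_lit 380) (nat_lit 2514704461) (nat_lit 456) (nat_lit 3370812806) (nat_lit 180) (nat_lit 5) (nat_lit 185) (nat_lit 5) (nat_lit 186) (nat_lit 4) (nat_lit 461) (nat_lit 345) (nat_lit 334))) (XT.nd (nat_lit 78) (nat_lit 760) (nat_lit 0) (XT.lf (nat_lit 0) (nat_lit 1156735118) (nat_lit 456) (nat_lit 7067215960) (nat_lit 76) (nat_lit 1468316171) (nat_lit 174) (nat_lit 5) (nat_lit 180) (nat_lit 5) (nat_lit 175) (nat_lit 4) (nat_lit 462) (nat_lit 345) (nat_lit 333)) (XT.nd (nat_lit 78) (nat_lit 456) (nat_lit 0) (XT.lf (nat_lit 0) (nat_lit 1482824752)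 (nat_lit 304) (nat_lit 4246899407) (nat_lit 380) (nat_lit 4047955632) (nat_lit 170) (nat_lit 5) (nat_lit 174) (nat_lit 5) (nat_lit 175) (nat_lit 4) (nat_lit 463) (nat_lit 345) (nat_lit 332)) (XT.lf (nat_lit 0) (nat_lit 330556857) (nat_lit 380) (nat_lit 175883556) (nat_lit 456) (nat_lit 9358611214) (nat_lit 164) (nat_lit 5) (nat_lit 169) (nat_lit 5) (nat_lit 170) (nat_lit 5) (nat_lit 464) (nat_lit 345) (nat_lit 331))))))) (XT.nd (nat_lit 58188) (nat_lit 0) (nat_lit 4180) (XT.nd (nat_lit 312) (nat_lit 1064) (nat_lit 0) (XT.nd (nat_lit 156) (nat_lit 760) (nat_lit 0) (XT.nd (nat_lit 78) (nat_lit 304) (nat_lit 0) (XT.lf (nat_lit 0) (nat_lit 5114098716) (nat_lit 456) (nat_lit 871325990) (nat_lit 76) (nat_lit 3967883525) (nat_lit 164) (nat_lit 5) (nat_lit 170) (nat_lit 5) (nat_lit 165) (nat_lit 4) (nat_lit 465) (nat_lit 345) (nat_lit 330)) (XT.lf (nat_lit 0) (nat_lit 7964286993) (nat_lit 304) (nat_lit 1838258107) (nat_lit 380) (nat_lit 241012168) (nat_lit 160) (nat_lit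 5) (nat_lit 164) (nat_lit 5) (nat_lit 165) (nat_lit 4) (nat_lit 466) (nat_lit 345) (nat_lit 329))) (XT.nd (nat_lit 78) (nat_lit 304) (nat_lit 0) (XT.lf (nat_lit 0) (nat_lit 4392611056) (nat_lit 456) (nat_lit 3342073594) (nat_lit 76) (nat_lit 2400312632) (nat_lit 154) (nat_lit 5) (nat_lit 160) (nat_lit 5) (nat_lit 155) (nat_lit 4) (nat_lit 467) (nat_lit 345) (nat_lit 328)) (XT.lf (nat_lit 0) (nat_lit 5597714751) (nat_lit 304) (nat_lit 3516781914) (nat_lit 380) (nat_lit 1113761229) (nat_lit 150) (nat_lit 5) (nat_lit 154) (nat_lit 5) (nat_lit 155) (nat_lit 4) (nat_lit 468) (nat_lit 345) (nat_lit 327)))) (XT.nd (nat_lit 156) (nat_lit 380) (nat_lit 0) (XT.nd (nat_lit 78) (nat_lit 304) (nat_lit 0) (XT.lf (nat_lit 0) (nat_lit 3552789866) (nat_lit 380) (nat_lit 5960869728) (nat_lit 76) (nat_lit 809402373) (nat_lit 145) (nat_lit 5) (nat_lit 150) (nat_lit 5) (nat_lit 146) (nat_lit 4) (nat_lit 469) (nat_lit 345) (nat_lit 326)) (XT.lf (nat_lit 0) (nat_lit 3082912064) (nat_lit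 304) (nat_lit 5226158433) (nat_lit 380) (nat_lit 2110318147) (nat_lit 141) (nat_lit 5) (nat_lit 145) (nat_lit 5) (nat_lit 146) (nat_lit 4) (nat_lit 470) (nat_lit 345) (nat_lit 325))) (XT.nd (nat_lit 57564) (nat_lit 0) (nat_lit 8588) (XT.lf (nat_lit 0) (nat_lit 1772139721) (nat_lit 304) (nat_lit 824665620) (nat_lit 380) (nat_lit 7920720700) (nat_lit 136) (nat_lit 5) (nat_lit 140) (nat_lit 5) (nat_lit 141) (nat_lit 5) (nat_lit 471) (nat_lit 345) (nat_lit 324)) (XT.nd (nat_lit 78) (nat_lit 532) (nat_lit 0) (XT.lf (nat_lit 0) (nat_lit 1854735443) (nat_lit 608) (nat_lit 613602437) (nat_lit 0) (nat_lit 1854735443) (nat_lit 256) (nat_lit 5) (nat_lit 264) (nat_lit 4) (nat_lit 256) (nat_lit 4) (nat_lit 448) (nat_lit 346) (nat_lit 346)) (XT.lf (nat_lit 0) (nat_lit 6467577592) (nat_lit 532) (nat_lit 1623164738) (nat_lit 532) (nat_lit 621756890) (nat_lit 249) (nat_lit 4) (nat_lit 256) (nat_lit 5) (nat_lit 256) (nat_lit 4) (nat_lit 449) (nat_lit 346) (nat_lit 345)))))) (XT.nd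 (nat_lit 390) (nat_lit 1824) (nat_lit 0) (XT.nd (nat_lit 156) (nat_lit 1520) (nat_lit 0) (XT.nd (nat_lit 78) (nat_lit 532) (nat_lit 0) (XT.lf (nat_lit 0) (nat_lit 3715543326) (nat_lit 532) (nat_lit 3293182753) (nat_lit 0) (nat_lit 1771248965) (nat_lit 242) (nat_lit 5) (nat_lit 249) (nat_lit 4) (nat_lit 242) (nat_lit 4) (nat_lit 450) (nat_lit 346) (nat_lit 344)) (XT.lf (nat_lit 0) (nat_lit 4496850917) (nat_lit 532) (nat_lit 3620048950) (nat_lit 532) (nat_lit 732105607) (nat_lit 235) (nat_lit 4) (nat_lit 242) (nat_lit 5) (nat_lit 242) (nat_lit 4) (nat_lit 451) (nat_lit 346) (nat_lit 343))) (XT.nd (nat_lit 78) (nat_lit 988) (nat_lit 0) (XT.lf (nat_lit 0) (nat_lit 3487527580) (nat_lit 456) (nat_lit 126639242) (nat_lit 532) (nat_lit 5305257864) (nat_lit 228) (nat_lit 5) (nat_lit 234) (nat_lit 5) (nat_lit 235) (nat_lit 4) (nat_lit 452) (nat_lit 346) (nat_lit 342)) (XT.nd (nat_lit 78) (nat_lit 532) (nat_lit 0) (XT.lf (nat_lit 0) (nat_lit 2454203066) (nat_lit 456) (nat_lit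 5582259437) (nat_lit 456) (nat_lit 954714982) (nat_lit 222) (nat_lit 4) (nat_lit 228) (nat_lit 5) (nat_lit 228) (nat_lit 4) (nat_lit 453) (nat_lit 346) (nat_lit 341)) (XT.lf (nat_lit 0) (nat_lit 1399488749) (nat_lit 456) (nat_lit 2015768180) (nat_lit 532) (nat_lit 5649094228) (nat_lit 215) (nat_lit 5) (nat_lit 221) (nat_lit 5) (nat_lit 222) (nat_lit 4) (nat_lit 454) (nat_lit 346) (nat_lit 340))))) (XT.nd (nat_lit 156) (nat_lit 1292) (nat_lit 0) (XT.nd (nat_lit 78) (nat_lit 76) (nat_lit 0) (XT.lf (nat_lit 0) (nat_lit 328701625) (nat_lit 456) (nat_lit 7519909337) (nat_lit 456) (nat_lit 1290475802) (nat_lit 209) (nat_lit 4) (nat_lit 215) (nat_lit 5) (nat_lit 215) (nat_lit 4) (nat_lit 455) (nat_lit 346) (nat_lit 339)) (XT.lf (nat_lit 0) (nat_lit 3111209339) (nat_lit 532) (nat_lit 766293895) (nat_lit 76) (nat_lit 5337458583) (nat_lit 208) (nat_lit 5) (nat_lit 215) (nat_lit 5) (nat_lit 209) (nat_lit 4) (nat_lit 456) (nat_lit 346) (nat_lit 338))) (XT.nd (nat_lit 78)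 (nat_lit 912) (nat_lit 0) (XT.lf (nat_lit 0) (nat_lit 7425693656) (nat_lit 380) (nat_lit 139665618) (nat_lit 456) (nat_lit 1727190284) (nat_lit 203) (nat_lit 5) (nat_lit 208) (nat_lit 5) (nat_lit 209) (nat_lit 4) (nat_lit 457) (nat_lit 346) (nat_lit 337)) (XT.nd (nat_lit 78) (nat_lit 380) (nat_lit 0) (XT.lf (nat_lit 0) (nat_lit 2705369677) (nat_lit 532) (nat_lit 3011560441) (nat_lit 76) (nat_lit 3654316311) (nat_lit 196) (nat_lit 5) (nat_lit 203) (nat_lit 5) (nat_lit 197) (nat_lit 4) (nat_lit 458) (nat_lit 346) (nat_lit 336)) (XT.lf (nat_lit 0) (nat_lit 5279138299) (nat_lit 380) (nat_lit 1906251545) (nat_lit 456) (nat_lit 2266260337) (nat_lit 191) (nat_lit 5) (nat_lit 196) (nat_lit 5) (nat_lit 197) (nat_lit 4) (nat_lit 459) (nat_lit 346) (nat_lit 335))))))))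
noncomputable def xc4 : XT := (XT.nd (nat_lit 58812) (nat_lit 0) (nat_lit 304) (XT.nd (nat_lit 702) (nat_lit 1064) (nat_lit 0) (XT.nd (nat_lit 312) (nat_lit 1520) (nat_lit 0) (XT.nd (nat_lit 156) (nat_lit 760) (nat_lit 0) (XT.nd (nat_lit 78) (nat_lit 380) (nat_lit 0) (XT.lf (nat_lit 0) (nat_lit 2187034922) (nat_lit 456) (nat_lit 5365924720) (nat_lit 76) (nat_lit 1980517518) (nat_lit 185) (nat_lit 5) (nat_lit 191) (nat_lit 5) (nat_lit 186) (nat_lit 4) (nat_lit 460) (nat_lit 346) (nat_lit 334)) (XT.lf (nat_lit 0) (nat_lit 3023395641) (nat_lit 380) (nat_lit 3670811735) (nat_lit 456) (nat_lit 2922530574) (nat_lit 180) (nat_lit 5) (nat_lit 185) (nat_lit 5) (nat_lit 186) (nat_lit 4) (nat_lit 461) (nat_lit 346) (nat_lit 333))) (XT.nd (nat_lit 78) (nat_lit 304) (nat_lit 0) (XT.lf (nat_lit 0) (nat_lit 1554244013) (nat_lit 456) (nat_lit 7840866654) (nat_lit 76) (nat_lit 306642120) (nat_lit 174) (nat_lit 5) (nat_lit 180) (nat_lit 5) (nat_lit 175) (nat_lit 4) (nat_lit 462)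 (nat_lit 346) (nat_lit 332)) (XT.lf (nat_lit 0) (nat_lit 646930234) (nat_lit 304) (nat_lit 5442816582) (nat_lit 380) (nat_lit 3698168238) (nat_lit 170) (nat_lit 5) (nat_lit 174) (nat_lit 5) (nat_lit 175) (nat_lit 4) (nat_lit 463) (nat_lit 346) (nat_lit 331)))) (XT.nd (nat_lit 156) (nat_lit 1064) (nat_lit 0) (XT.nd (nat_lit 78) (nat_lit 380) (nat_lit 0) (XT.lf (nat_lit 0) (nat_lit 817522544) (nat_lit 380) (nat_lit 573547714) (nat_lit 76) (nat_lit 8484853565) (nat_lit 169) (nat_lit 5) (nat_lit 174) (nat_lit 5) (nat_lit 170) (nat_lit 5) (nat_lit 464) (nat_lit 346) (nat_lit 330)) (XT.lf (nat_lit 0) (nat_lit 5381691081) (nat_lit 456) (nat_lit 1837623921) (nat_lit 76) (nat_lit 2745735221) (nat_lit 164) (nat_lit 5) (nat_lit 170) (nat_lit 5) (nat_lit 165) (nat_lit 4) (nat_lit 465) (nat_lit 346) (nat_lit 329))) (XT.nd (nat_lit 78) (nat_lit 760) (nat_lit 0) (XT.lf (nat_lit 0) (nat_lit 6933948205) (nat_lit 304) (nat_lit 3098321541) (nat_lit 380) (nat_lit 23786868) (nat_lit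 160) (nat_lit 5) (nat_lit 164) (nat_lit 5) (nat_lit 165) (nat_lit 4) (nat_lit 466) (nat_lit 346) (nat_lit 328)) (XT.nd (nat_lit 78) (nat_lit 304) (nat_lit 0) (XT.lf (nat_lit 0) (nat_lit 4560340959) (nat_lit 456) (nat_lit 4456371733) (nat_lit 76) (nat_lit 1131688659) (nat_lit 154) (nat_lit 5) (nat_lit 160) (nat_lit 5) (nat_lit 155) (nat_lit 4) (nat_lit 467) (nat_lit 346) (nat_lit 327)) (XT.lf (nat_lit 0) (nat_lit 4417167936) (nat_lit 304) (nat_lit 4826453477) (nat_lit 380) (nat_lit 998812653) (nat_lit 150) (nat_lit 5) (nat_lit 154) (nat_lit 5) (nat_lit 155) (nat_lit 4) (nat_lit 468) (nat_lit 346) (nat_lit 326)))))) (XT.nd (nat_lit 57720) (nat_lit 0) (nat_lit 6992) (XT.nd (nat_lit 156) (nat_lit 380) (nat_lit 0) (XT.nd (nat_lit 78) (nat_lit 304) (nat_lit 0) (XT.lf (nat_lit 0) (nat_lit 3104749852) (nat_lit 304) (nat_lit 517092509) (nat_lit 380) (nat_lit 6716268621) (nat_lit 145) (nat_lit 5) (nat_lit 149) (nat_lit 5) (nat_lit 150) (nat_lit 5) (nat_lit 469) (nat_lit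 346) (nat_lit 325)) (XT.lf (nat_lit 0) (nat_lit 1745244529) (nat_lit 304) (nat_lit 6590119967) (nat_lit 380) (nat_lit 2099928334) (nat_lit 141) (nat_lit 5) (nat_lit 145) (nat_lit 5) (nat_lit 146) (nat_lit 4) (nat_lit 470) (nat_lit 346) (nat_lit 324))) (XT.nd (nat_lit 57408) (nat_lit 0) (nat_lit 9652) (XT.lf (nat_lit 0) (nat_lit 348771331) (nat_lit 304) (nat_lit 2218401732) (nat_lit 380) (nat_lit 7967053531) (nat_lit 136) (nat_lit 5) (nat_lit 140) (nat_lit 5) (nat_lit 141) (nat_lit 5) (nat_lit 471) (nat_lit 346) (nat_lit 323)) (XT.nd (nat_lit 78) (nat_lit 76) (nat_lit 0) (XT.lf (nat_lit 0) (nat_lit 418724799) (nat_lit 532) (nat_lit 1919912046) (nat_lit 532) (nat_lit 1919912046) (nat_lit 264) (nat_lit 4) (nat_lit 271) (nat_lit 5) (nat_lit 271) (nat_lit 4) (nat_lit 446) (nat_lit 347) (nat_lit 347)) (XT.lf (nat_lit 0) (nat_lit 413233148) (nat_lit 608) (nat_lit 207133765) (nat_lit 76) (nat_lit 7961174385) (nat_lit 263) (nat_lit 5) (nat_lit 271) (nat_lit 5) (nat_lit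 264) (nat_lit 4) (nat_lit 447) (nat_lit 347) (nat_lit 346))))) (XT.nd (nat_lit 156) (nat_lit 1520) (nat_lit 0) (XT.nd (nat_lit 78) (nat_lit 608) (nat_lit 0) (XT.lf (nat_lit 0) (nat_lit 4696127114) (nat_lit 608) (nat_lit 1277431868) (nat_lit 0) (nat_lit 2673283261) (nat_lit 256) (nat_lit 5) (nat_lit 264) (nat_lit 4) (nat_lit 256) (nat_lit 4) (nat_lit 448) (nat_lit 347) (nat_lit 345)) (XT.lf (nat_lit 0) (nat_lit 324444772) (nat_lit 608) (nat_lit 2349237812) (nat_lit 76) (nat_lit 6040164586) (nat_lit 248) (nat_lit 5) (nat_lit 256) (nat_lit 5) (nat_lit 249) (nat_lit 4) (nat_lit 449) (nat_lit 347) (nat_lit 344))) (XT.nd (nat_lit 78) (nat_lit 1064) (nat_lit 0) (XT.lf (nat_lit 0) (nat_lit 4611681772) (nat_lit 532) (nat_lit 3448068077) (nat_lit 0) (nat_lit 722330582) (nat_lit 242) (nat_lit 5) (nat_lit 249) (nat_lit 4) (nat_lit 242) (nat_lit 4) (nat_lit 450) (nat_lit 347) (nat_lit 343)) (XT.nd (nat_lit 78) (nat_lit 456) (nat_lit 0) (XT.lf (nat_lit 0) (nat_lit 124503279)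 (nat_lit 608) (nat_lit 4563000625) (nat_lit 76) (nat_lit 4164291940) (nat_lit 234) (nat_lit 5) (nat_lit 242) (nat_lit 5) (nat_lit 235) (nat_lit 4) (nat_lit 451) (nat_lit 347) (nat_lit 342)) (XT.lf (nat_lit 0) (nat_lit 3218664720) (nat_lit 456) (nat_lit 1207160978) (nat_lit 532) (nat_lit 4497001259) (nat_lit 228) (nat_lit 5) (nat_lit 234) (nat_lit 5) (nat_lit 235) (nat_lit 4) (nat_lit 452) (nat_lit 347) (nat_lit 341))))))) (XT.nd (nat_lit 702) (nat_lit 3040) (nat_lit 0) (XT.nd (nat_lit 312) (nat_lit 2128) (nat_lit 0) (XT.nd (nat_lit 156) (nat_lit 532) (nat_lit 0) (XT.nd (nat_lit 78) (nat_lit 532) (nat_lit 0) (XT.lf (nat_lit 0) (nat_lit 2134793749) (nat_lit 456) (nat_lit 6670868915) (nat_lit 456) (nat_lit 189766266) (nat_lit 222) (nat_lit 4) (nat_lit 228) (nat_lit 5) (nat_lit 228) (nat_lit 4) (nat_lit 453) (nat_lit 347) (nat_lit 340)) (XT.lf (nat_lit 0) (nat_lit 1015744819) (nat_lit 456) (nat_lit 3118680638) (nat_lit 532) (nat_lit 4934792769) (nat_lit 215) (nat_lit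 5) (nat_lit 221) (nat_lit 5) (nat_lit 222) (nat_lit 4) (nat_lit 454) (nat_lit 347) (nat_lit 339))) (XT.nd (nat_lit 78) (nat_lit 532) (nat_lit 0) (XT.lf (nat_lit 0) (nat_lit 8525448066) (nat_lit 532) (nat_lit 107363051) (nat_lit 0) (nat_lit 511989344) (nat_lit 215) (nat_lit 5) (nat_lit 222) (nat_lit 4) (nat_lit 215) (nat_lit 4) (nat_lit 455) (nat_lit 347) (nat_lit 338)) (XT.lf (nat_lit 0) (nat_lit 3739890066) (nat_lit 532) (nat_lit 1264276107) (nat_lit 76) (nat_lit 4217095009) (nat_lit 208) (nat_lit 5) (nat_lit 215) (nat_lit 5) (nat_lit 209) (nat_lit 4) (nat_lit 456) (nat_lit 347) (nat_lit 337)))) (XT.nd (nat_lit 156) (nat_lit 1216) (nat_lit 0) (XT.nd (nat_lit 78) (nat_lit 532) (nat_lit 0) (XT.lf (nat_lit 0) (nat_lit 6871014958) (nat_lit 380) (nat_lit 1287139622) (nat_lit 456) (nat_lit 1141412052) (nat_lit 203) (nat_lit 5) (nat_lit 208) (nat_lit 5) (nat_lit 209) (nat_lit 4) (nat_lit 457) (nat_lit 347) (nat_lit 336)) (XT.lf (nat_lit 0) (nat_lit 3239673197) (nat_lit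 532) (nat_lit 3634858310) (nat_lit 76) (nat_lit 2504531773) (nat_lit 196) (nat_lit 5) (nat_lit 203) (nat_lit 5) (nat_lit 197) (nat_lit 4) (nat_lit 458) (nat_lit 347) (nat_lit 335))) (XT.nd (nat_lit 78) (nat_lit 836) (nat_lit 0) (XT.lf (nat_lit 0) (nat_lit 4597172950) (nat_lit 380) (nat_lit 3086110169) (nat_lit 456) (nat_lit 1776912118) (nat_lit 191) (nat_lit 5) (nat_lit 196) (nat_lit 5) (nat_lit 197) (nat_lit 4) (nat_lit 459) (nat_lit 347) (nat_lit 334)) (XT.nd (nat_lit 78) (nat_lit 380) (nat_lit 0) (XT.lf (nat_lit 0) (nat_lit 2625399680) (nat_lit 456) (nat_lit 6120741964) (nat_lit 76) (nat_lit 796708340) (nat_lit 185) (nat_lit 5) (nat_lit 191) (nat_lit 5) (nat_lit 186) (nat_lit 4) (nat_lit 460) (nat_lit 347) (nat_lit 333)) (XT.lf (nat_lit 0) (nat_lit 2207875107) (nat_lit 380) (nat_lit 4887703862) (nat_lit 456) (nat_lit 2531271667) (nat_lit 180) (nat_lit 5) (nat_lit 185) (nat_lit 5) (nat_lit 186) (nat_lit 4) (nat_lit 461) (nat_lit 347) (nat_lit 332)))))) (XT.nd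 (nat_lit 390) (nat_lit 1444) (nat_lit 0) (XT.nd (nat_lit 156) (nat_lit 1140) (nat_lit 0) (XT.nd (nat_lit 78) (nat_lit 0) (nat_lit 0) (XT.lf (nat_lit 0) (nat_lit 972999919) (nat_lit 380) (nat_lit 927968863) (nat_lit 456) (nat_lit 7811633940) (nat_lit 174) (nat_lit 5) (nat_lit 179) (nat_lit 5) (nat_lit 180) (nat_lit 5) (nat_lit 462) (nat_lit 347) (nat_lit 331)) (XT.lf (nat_lit 0) (nat_lit 6394815850) (nat_lit 456) (nat_lit 304540940) (nat_lit 76) (nat_lit 3100241314) (nat_lit 174) (nat_lit 5) (nat_lit 180) (nat_lit 5) (nat_lit 175) (nat_lit 4) (nat_lit 463) (nat_lit 347) (nat_lit 330))) (XT.nd (nat_lit 78) (nat_lit 760) (nat_lit 0) (XT.lf (nat_lit 0) (nat_lit 1073699238) (nat_lit 380) (nat_lit 1593041991) (nat_lit 76) (nat_lit 7221494777) (nat_lit 169) (nat_lit 5) (nat_lit 174) (nat_lit 5) (nat_lit 170) (nat_lit 5) (nat_lit 464) (nat_lit 347) (nat_lit 329)) (XT.nd (nat_lit 78) (nat_lit 380) (nat_lit 0) (XT.lf (nat_lit 0) (nat_lit 5591655579) (nat_lit 456) (nat_lit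 2925313924) (nat_lit 76) (nat_lit 1461317146) (nat_lit 164) (nat_lit 5) (nat_lit 170) (nat_lit 5) (nat_lit 165) (nat_lit 4) (nat_lit 465) (nat_lit 347) (nat_lit 328)) (XT.lf (nat_lit 0) (nat_lit 132372572) (nat_lit 380) (nat_lit 4289316868) (nat_lit 76) (nat_lit 5648347153) (nat_lit 159) (nat_lit 5) (nat_lit 164) (nat_lit 5) (nat_lit 160) (nat_lit 5) (nat_lit 466) (nat_lit 347) (nat_lit 327))))) (XT.nd (nat_lit 156) (nat_lit 760) (nat_lit 0) (XT.nd (nat_lit 78) (nat_lit 304) (nat_lit 0) (XT.lf (nat_lit 0) (nat_lit 4466471634) (nat_lit 380) (nat_lit 203777553) (nat_lit 456) (nat_lit 5493047838) (nat_lit 154) (nat_lit 5) (nat_lit 159) (nat_lit 5) (nat_lit 160) (nat_lit 5) (nat_lit 467) (nat_lit 347) (nat_lit 326)) (XT.lf (nat_lit 0) (nat_lit 3111138334) (nat_lit 304) (nat_lit 6202255048) (nat_lit 380) (nat_lit 944739083) (nat_lit 150) (nat_lit 5) (nat_lit 154) (nat_lit 5) (nat_lit 155) (nat_lit 4) (nat_lit 468) (nat_lit 347) (nat_lit 325))) (XT.nd (nat_lit 78)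 (nat_lit 380) (nat_lit 0) (XT.lf (nat_lit 0) (nat_lit 1714593743) (nat_lit 304) (nat_lit 1921328286) (nat_lit 380) (nat_lit 6718666025) (nat_lit 145) (nat_lit 5) (nat_lit 149) (nat_lit 5) (nat_lit 150) (nat_lit 5) (nat_lit 469) (nat_lit 347) (nat_lit 324)) (XT.nd (nat_lit 78) (nat_lit 76) (nat_lit 0) (XT.lf (nat_lit 0) (nat_lit 278502093) (nat_lit 304) (nat_lit 8022187888) (nat_lit 380) (nat_lit 2152055004) (nat_lit 141) (nat_lit 5) (nat_lit 145) (nat_lit 5) (nat_lit 146) (nat_lit 4) (nat_lit 470) (nat_lit 347) (nat_lit 323)) (XT.lf (nat_lit 0) (nat_lit 2483422084) (nat_lit 380) (nat_lit 1189719291) (nat_lit 76) (nat_lit 6879190302) (nat_lit 140) (nat_lit 5) (nat_lit 145) (nat_lit 5) (nat_lit 141) (nat_lit 5) (nat_lit 471) (nat_lit 347) (nat_lit 322))))))))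
noncomputable def xc5 : XT := (XT.nd (nat_lit 1482) (nat_lit 2964) (nat_lit 0) (XT.nd (nat_lit 702) (nat_lit 3724) (nat_lit 0) (XT.nd (nat_lit 312) (nat_lit 2660) (nat_lit 0) (XT.nd (nat_lit 156) (nat_lit 608) (nat_lit 0) (XT.nd (nat_lit 78) (nat_lit 608) (nat_lit 0) (XT.lf (nat_lit 0) (nat_lit 1480347818) (nat_lit 608) (nat_lit 1357838618) (nat_lit 608) (nat_lit 1357838618) (nat_lit 279) (nat_lit 4) (nat_lit 287) (nat_lit 5) (nat_lit 287) (nat_lit 4) (nat_lit 444) (nat_lit 348) (nat_lit 348)) (XT.lf (nat_lit 0) (nat_lit 1475935167) (nat_lit 608) (nat_lit 6565211429) (nat_lit 0) (nat_lit 413233148) (nat_lit 271) (nat_lit 5) (nat_lit 279) (nat_lit 4) (nat_lit 271) (nat_lit 4) (nat_lit 445) (nat_lit 348) (nat_lit 347))) (XT.nd (nat_lit 78) (nat_lit 76) (nat_lit 0) (XT.lf (nat_lit 0) (nat_lit 787956296) (nat_lit 532) (nat_lit 4917202287) (nat_lit 532) (nat_lit 2812635542) (nat_lit 264) (nat_lit 4) (nat_lit 271) (nat_lit 5) (nat_lit 271) (nat_lit 4) (nat_lit 446)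 (nat_lit 348) (nat_lit 346)) (XT.lf (nat_lit 0) (nat_lit 1392589441) (nat_lit 608) (nat_lit 312972078) (nat_lit 76) (nat_lit 6877229948) (nat_lit 263) (nat_lit 5) (nat_lit 271) (nat_lit 5) (nat_lit 264) (nat_lit 4) (nat_lit 447) (nat_lit 348) (nat_lit 345)))) (XT.nd (nat_lit 156) (nat_lit 1520) (nat_lit 0) (XT.nd (nat_lit 78) (nat_lit 608) (nat_lit 0) (XT.lf (nat_lit 0) (nat_lit 5633638867) (nat_lit 608) (nat_lit 1428132548) (nat_lit 0) (nat_lit 1587157888) (nat_lit 256) (nat_lit 5) (nat_lit 264) (nat_lit 4) (nat_lit 256) (nat_lit 4) (nat_lit 448) (nat_lit 348) (nat_lit 344)) (XT.lf (nat_lit 0) (nat_lit 1212632850) (nat_lit 608) (nat_lit 2559484582) (nat_lit 76) (nat_lit 4944394697) (nat_lit 248) (nat_lit 5) (nat_lit 256) (nat_lit 5) (nat_lit 249) (nat_lit 4) (nat_lit 449) (nat_lit 348) (nat_lit 343))) (XT.nd (nat_lit 78) (nat_lit 1064) (nat_lit 0) (XT.lf (nat_lit 0) (nat_lit 5076773897) (nat_lit 456) (nat_lit 383337893) (nat_lit 532) (nat_lit 3325428761) (nat_lit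 242) (nat_lit 5) (nat_lit 248) (nat_lit 5) (nat_lit 249) (nat_lit 4) (nat_lit 450) (nat_lit 348) (nat_lit 342)) (XT.nd (nat_lit 78) (nat_lit 456) (nat_lit 0) (XT.lf (nat_lit 0) (nat_lit 920573202) (nat_lit 608) (nat_lit 4883381327) (nat_lit 76) (nat_lit 3051948073) (nat_lit 234) (nat_lit 5) (nat_lit 242) (nat_lit 5) (nat_lit 235) (nat_lit 4) (nat_lit 451) (nat_lit 348) (nat_lit 341)) (XT.lf (nat_lit 0) (nat_lit 2844616252) (nat_lit 456) (nat_lit 2341906995) (nat_lit 532) (nat_lit 3741117916) (nat_lit 228) (nat_lit 5) (nat_lit 234) (nat_lit 5) (nat_lit 235) (nat_lit 4) (nat_lit 452) (nat_lit 348) (nat_lit 340)))))) (XT.nd (nat_lit 390) (nat_lit 1824) (nat_lit 0) (XT.nd (nat_lit 156) (nat_lit 912) (nat_lit 0) (XT.nd (nat_lit 78) (nat_lit 456) (nat_lit 0) (XT.lf (nat_lit 0) (nat_lit 515559572) (nat_lit 532) (nat_lit 7295772118) (nat_lit 76) (nat_lit 1189700590) (nat_lit 221) (nat_lit 5) (nat_lit 228) (nat_lit 5) (nat_lit 222) (nat_lit 4) (nat_lit 453) (nat_lit 348)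 (nat_lit 339)) (XT.lf (nat_lit 0) (nat_lit 523822434) (nat_lit 456) (nat_lit 4277642010) (nat_lit 532) (nat_lit 4274048451) (nat_lit 215) (nat_lit 5) (nat_lit 221) (nat_lit 5) (nat_lit 222) (nat_lit 4) (nat_lit 454) (nat_lit 348) (nat_lit 338))) (XT.nd (nat_lit 78) (nat_lit 836) (nat_lit 0) (XT.lf (nat_lit 0) (nat_lit 4963064) (nat_lit 532) (nat_lit 651668707) (nat_lit 76) (nat_lit 8495175703) (nat_lit 214) (nat_lit 5) (nat_lit 221) (nat_lit 5) (nat_lit 215) (nat_lit 5) (nat_lit 455) (nat_lit 348) (nat_lit 337)) (XT.nd (nat_lit 78) (nat_lit 380) (nat_lit 0) (XT.lf (nat_lit 0) (nat_lit 4315930566) (nat_lit 532) (nat_lit 1872049950) (nat_lit 76) (nat_lit 3041010295) (nat_lit 208) (nat_lit 5) (nat_lit 215) (nat_lit 5) (nat_lit 209) (nat_lit 4) (nat_lit 456) (nat_lit 348) (nat_lit 336)) (XT.lf (nat_lit 0) (nat_lit 6206067488) (nat_lit 380) (nat_lit 2492159254) (nat_lit 456) (nat_lit 609788886) (nat_lit 203) (nat_lit 5) (nat_lit 208) (nat_lit 5) (nat_lit 209) (nat_lit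 4) (nat_lit 457) (nat_lit 348) (nat_lit 335))))) (XT.nd (nat_lit 156) (nat_lit 912) (nat_lit 0) (XT.nd (nat_lit 78) (nat_lit 380) (nat_lit 0) (XT.lf (nat_lit 0) (nat_lit 3720058190) (nat_lit 532) (nat_lit 4371063367) (nat_lit 76) (nat_lit 1297207003) (nat_lit 196) (nat_lit 5) (nat_lit 203) (nat_lit 5) (nat_lit 197) (nat_lit 4) (nat_lit 458) (nat_lit 348) (nat_lit 334)) (XT.lf (nat_lit 0) (nat_lit 3801787861) (nat_lit 380) (nat_lit 4325360716) (nat_lit 456) (nat_lit 1343042330) (nat_lit 191) (nat_lit 5) (nat_lit 196) (nat_lit 5) (nat_lit 197) (nat_lit 4) (nat_lit 459) (nat_lit 348) (nat_lit 333))) (XT.nd (nat_lit 78) (nat_lit 456) (nat_lit 0) (XT.lf (nat_lit 0) (nat_lit 2559023864) (nat_lit 380) (nat_lit 452414753) (nat_lit 456) (nat_lit 6542193510) (nat_lit 185) (nat_lit 5) (nat_lit 190) (nat_lit 5) (nat_lit 191) (nat_lit 5) (nat_lit 460) (nat_lit 348) (nat_lit 332)) (XT.nd (nat_lit 78) (nat_lit 76) (nat_lit 0) (XT.lf (nat_lit 0) (nat_lit 1275693403) (nat_lit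 380) (nat_lit 6165858055) (nat_lit 456) (nat_lit 2196882650) (nat_lit 180) (nat_lit 5) (nat_lit 185) (nat_lit 5) (nat_lit 186) (nat_lit 4) (nat_lit 461) (nat_lit 348) (nat_lit 331)) (XT.lf (nat_lit 0) (nat_lit 2193667398) (nat_lit 456) (nat_lit 34813712) (nat_lit 76) (nat_lit 7496407759) (nat_lit 179) (nat_lit 5) (nat_lit 185) (nat_lit 5) (nat_lit 180) (nat_lit 5) (nat_lit 462) (nat_lit 348) (nat_lit 330))))))) (XT.nd (nat_lit 57720) (nat_lit 0) (nat_lit 7144) (XT.nd (nat_lit 312) (nat_lit 1444) (nat_lit 0) (XT.nd (nat_lit 156) (nat_lit 760) (nat_lit 0) (XT.nd (nat_lit 78) (nat_lit 380) (nat_lit 0) (XT.lf (nat_lit 0) (nat_lit 6648025959) (nat_lit 456) (nat_lit 1365952266) (nat_lit 76) (nat_lit 1798695795) (nat_lit 174) (nat_lit 5) (nat_lit 180) (nat_lit 5) (nat_lit 175) (nat_lit 4) (nat_lit 463) (nat_lit 348) (nat_lit 329)) (XT.lf (nat_lit 0) (nat_lit 1272924763) (nat_lit 380) (nat_lit 2732661085) (nat_lit 76) (nat_lit 5896450078) (nat_lit 169) (nat_lit 5) (nat_lit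 174) (nat_lit 5) (nat_lit 170) (nat_lit 5) (nat_lit 464) (nat_lit 348) (nat_lit 328))) (XT.nd (nat_lit 78) (nat_lit 380) (nat_lit 0) (XT.lf (nat_lit 0) (nat_lit 5744074548) (nat_lit 456) (nat_lit 4134822544) (nat_lit 76) (nat_lit 114125607) (nat_lit 164) (nat_lit 5) (nat_lit 170) (nat_lit 5) (nat_lit 165) (nat_lit 4) (nat_lit 465) (nat_lit 348) (nat_lit 327)) (XT.lf (nat_lit 0) (nat_lit 229752283) (nat_lit 380) (nat_lit 5580251948) (nat_lit 76) (nat_lit 4275520483) (nat_lit 159) (nat_lit 5) (nat_lit 164) (nat_lit 5) (nat_lit 160) (nat_lit 5) (nat_lit 466) (nat_lit 348) (nat_lit 326)))) (XT.nd (nat_lit 156) (nat_lit 760) (nat_lit 0) (XT.nd (nat_lit 78) (nat_lit 304) (nat_lit 0) (XT.lf (nat_lit 0) (nat_lit 3109090830) (nat_lit 380) (nat_lit 1619835366) (nat_lit 456) (nat_lit 5450633006) (nat_lit 154) (nat_lit 5) (nat_lit 159) (nat_lit 5) (nat_lit 160) (nat_lit 5) (nat_lit 467) (nat_lit 348) (nat_lit 325)) (XT.lf (nat_lit 0) (nat_lit 1679113777) (nat_lit 304) (nat_lit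 7644726158) (nat_lit 380) (nat_lit 951519315) (nat_lit 150) (nat_lit 5) (nat_lit 154) (nat_lit 5) (nat_lit 155) (nat_lit 4) (nat_lit 468) (nat_lit 348) (nat_lit 324))) (XT.nd (nat_lit 78) (nat_lit 380) (nat_lit 0) (XT.lf (nat_lit 0) (nat_lit 196610269) (nat_lit 304) (nat_lit 3393099108) (nat_lit 380) (nat_lit 6782896769) (nat_lit 145) (nat_lit 5) (nat_lit 149) (nat_lit 5) (nat_lit 150) (nat_lit 5) (nat_lit 469) (nat_lit 348) (nat_lit 323)) (XT.nd (nat_lit 78) (nat_lit 380) (nat_lit 0) (XT.lf (nat_lit 0) (nat_lit 8213589978) (nat_lit 380) (nat_lit 1300606063) (nat_lit 76) (nat_lit 957384783) (nat_lit 145) (nat_lit 5) (nat_lit 150) (nat_lit 5) (nat_lit 146) (nat_lit 4) (nat_lit 470) (nat_lit 348) (nat_lit 322)) (XT.lf (nat_lit 0) (nat_lit 2340807906) (nat_lit 380) (nat_lit 2853453019) (nat_lit 76) (nat_lit 5377681702) (nat_lit 140) (nat_lit 5) (nat_lit 145) (nat_lit 5) (nat_lit 141) (nat_lit 5) (nat_lit 471) (nat_lit 348) (nat_lit 321)))))) (XT.nd (nat_lit 390)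 (nat_lit 2280) (nat_lit 0) (XT.nd (nat_lit 156) (nat_lit 1748) (nat_lit 0) (XT.nd (nat_lit 78) (nat_lit 608) (nat_lit 0) (XT.lf (nat_lit 0) (nat_lit 2564375966) (nat_lit 608) (nat_lit 785599344) (nat_lit 608) (nat_lit 785599344) (nat_lit 295) (nat_lit 4) (nat_lit 303) (nat_lit 5) (nat_lit 303) (nat_lit 4) (nat_lit 442) (nat_lit 349) (nat_lit 349)) (XT.lf (nat_lit 0) (nat_lit 2566567972) (nat_lit 608) (nat_lit 4303761242) (nat_lit 0) (nat_lit 1460932790) (nat_lit 287) (nat_lit 5) (nat_lit 295) (nat_lit 4) (nat_lit 287) (nat_lit 4) (nat_lit 443) (nat_lit 349) (nat_lit 348))) (XT.nd (nat_lit 78) (nat_lit 1140) (nat_lit 0) (XT.lf (nat_lit 0) (nat_lit 2912592334) (nat_lit 608) (nat_lit 3834869967) (nat_lit 608) (nat_lit 1645278726) (nat_lit 279) (nat_lit 4) (nat_lit 287) (nat_lit 5) (nat_lit 287) (nat_lit 4) (nat_lit 444) (nat_lit 349) (nat_lit 347)) (XT.nd (nat_lit 78) (nat_lit 532) (nat_lit 0) (XT.lf (nat_lit 0) (nat_lit 1787210636) (nat_lit 532) (nat_lit 707593273)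 (nat_lit 608) (nat_lit 5960877582) (nat_lit 271) (nat_lit 5) (nat_lit 278) (nat_lit 5) (nat_lit 279) (nat_lit 4) (nat_lit 445) (nat_lit 349) (nat_lit 346)) (XT.lf (nat_lit 0) (nat_lit 639456980) (nat_lit 532) (nat_lit 6045192628) (nat_lit 532) (nat_lit 1835233818) (nat_lit 264) (nat_lit 4) (nat_lit 271) (nat_lit 5) (nat_lit 271) (nat_lit 4) (nat_lit 446) (nat_lit 349) (nat_lit 345))))) (XT.nd (nat_lit 156) (nat_lit 1672) (nat_lit 0) (XT.nd (nat_lit 78) (nat_lit 532) (nat_lit 0) (XT.lf (nat_lit 0) (nat_lit 2323485607) (nat_lit 608) (nat_lit 517925731) (nat_lit 76) (nat_lit 5744016246) (nat_lit 263) (nat_lit 5) (nat_lit 271) (nat_lit 5) (nat_lit 264) (nat_lit 4) (nat_lit 447) (nat_lit 349) (nat_lit 344)) (XT.lf (nat_lit 0) (nat_lit 6522373796) (nat_lit 608) (nat_lit 1679366011) (nat_lit 0) (nat_lit 450668837) (nat_lit 256) (nat_lit 5) (nat_lit 264) (nat_lit 4) (nat_lit 256) (nat_lit 4) (nat_lit 448) (nat_lit 349) (nat_lit 343))) (XT.nd (nat_lit 78) (nat_lit 1064)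 (nat_lit 0) (XT.lf (nat_lit 0) (nat_lit 2051310103) (nat_lit 608) (nat_lit 2871707530) (nat_lit 76) (nat_lit 3797558244) (nat_lit 248) (nat_lit 5) (nat_lit 256) (nat_lit 5) (nat_lit 249) (nat_lit 4) (nat_lit 449) (nat_lit 349) (nat_lit 342)) (XT.nd (nat_lit 78) (nat_lit 608) (nat_lit 0) (XT.lf (nat_lit 0) (nat_lit 4712318496) (nat_lit 456) (nat_lit 1551453036) (nat_lit 532) (nat_lit 2526533118) (nat_lit 242) (nat_lit 5) (nat_lit 248) (nat_lit 5) (nat_lit 249) (nat_lit 4) (nat_lit 450) (nat_lit 349) (nat_lit 341)) (XT.lf (nat_lit 0) (nat_lit 1666018041) (nat_lit 608) (nat_lit 5308668990) (nat_lit 76) (nat_lit 1886735396) (nat_lit 234) (nat_lit 5) (nat_lit 242) (nat_lit 5) (nat_lit 235) (nat_lit 4) (nat_lit 451) (nat_lit 349) (nat_lit 340))))))))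
noncomputable def xc6 : XT := (XT.nd (nat_lit 1482) (nat_lit 380) (nat_lit 0) (XT.nd (nat_lit 702) (nat_lit 3040) (nat_lit 0) (XT.nd (nat_lit 312) (nat_lit 2204) (nat_lit 0) (XT.nd (nat_lit 156) (nat_lit 532) (nat_lit 0) (XT.nd (nat_lit 78) (nat_lit 532) (nat_lit 0) (XT.lf (nat_lit 0) (nat_lit 2365235491) (nat_lit 456) (nat_lit 3531322290) (nat_lit 532) (nat_lit 3037311411) (nat_lit 228) (nat_lit 5) (nat_lit 234) (nat_lit 5) (nat_lit 235) (nat_lit 4) (nat_lit 452) (nat_lit 349) (nat_lit 339)) (XT.lf (nat_lit 0) (nat_lit 1166592956) (nat_lit 532) (nat_lit 7840053976) (nat_lit 76) (nat_lit 1392837) (nat_lit 221) (nat_lit 5) (nat_lit 228) (nat_lit 5) (nat_lit 222) (nat_lit 4) (nat_lit 453) (nat_lit 349) (nat_lit 338))) (XT.nd (nat_lit 78) (nat_lit 532) (nat_lit 0) (XT.lf (nat_lit 0) (nat_lit 5417131977) (nat_lit 532) (nat_lit 75468379) (nat_lit 76) (nat_lit 3590627344) (nat_lit 221) (nat_lit 5) (nat_lit 228) (nat_lit 5) (nat_lit 222) (nat_lit 4) (nat_lit 454) (nat_lit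 349) (nat_lit 337)) (XT.lf (nat_lit 0) (nat_lit 572584416) (nat_lit 532) (nat_lit 1311876743) (nat_lit 76) (nat_lit 7275629336) (nat_lit 214) (nat_lit 5) (nat_lit 221) (nat_lit 5) (nat_lit 215) (nat_lit 5) (nat_lit 455) (nat_lit 349) (nat_lit 336)))) (XT.nd (nat_lit 156) (nat_lit 1368) (nat_lit 0) (XT.nd (nat_lit 78) (nat_lit 380) (nat_lit 0) (XT.lf (nat_lit 0) (nat_lit 4839556739) (nat_lit 532) (nat_lit 2589853767) (nat_lit 76) (nat_lit 1808743230) (nat_lit 208) (nat_lit 5) (nat_lit 215) (nat_lit 5) (nat_lit 209) (nat_lit 4) (nat_lit 456) (nat_lit 349) (nat_lit 335)) (XT.lf (nat_lit 0) (nat_lit 5430590482) (nat_lit 380) (nat_lit 3755197072) (nat_lit 456) (nat_lit 132112305) (nat_lit 203) (nat_lit 5) (nat_lit 208) (nat_lit 5) (nat_lit 209) (nat_lit 4) (nat_lit 457) (nat_lit 349) (nat_lit 334))) (XT.nd (nat_lit 78) (nat_lit 836) (nat_lit 0) (XT.lf (nat_lit 0) (nat_lit 4146713042) (nat_lit 532) (nat_lit 5220464320) (nat_lit 76) (nat_lit 31868539) (nat_lit 196)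 (nat_lit 5) (nat_lit 203) (nat_lit 5) (nat_lit 197) (nat_lit 4) (nat_lit 458) (nat_lit 349) (nat_lit 333)) (XT.nd (nat_lit 78) (nat_lit 456) (nat_lit 0) (XT.lf (nat_lit 0) (nat_lit 2892671116) (nat_lit 380) (nat_lit 5624489169) (nat_lit 456) (nat_lit 964480827) (nat_lit 191) (nat_lit 5) (nat_lit 196) (nat_lit 5) (nat_lit 197) (nat_lit 4) (nat_lit 459) (nat_lit 349) (nat_lit 332)) (XT.lf (nat_lit 0) (nat_lit 1575210726) (nat_lit 380) (nat_lit 1772789235) (nat_lit 456) (nat_lit 6217773918) (nat_lit 185) (nat_lit 5) (nat_lit 190) (nat_lit 5) (nat_lit 191) (nat_lit 5) (nat_lit 460) (nat_lit 349) (nat_lit 331)))))) (XT.nd (nat_lit 390) (nat_lit 1444) (nat_lit 0) (XT.nd (nat_lit 156) (nat_lit 1140) (nat_lit 0) (XT.nd (nat_lit 78) (nat_lit 76) (nat_lit 0) (XT.lf (nat_lit 0) (nat_lit 226484967) (nat_lit 380) (nat_lit 7505775550) (nat_lit 456) (nat_lit 1919232390) (nat_lit 180) (nat_lit 5) (nat_lit 185) (nat_lit 5) (nat_lit 186) (nat_lit 4) (nat_lit 461) (nat_lit 349)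 (nat_lit 330)) (XT.lf (nat_lit 0) (nat_lit 2437296354) (nat_lit 456) (nat_lit 1147036882) (nat_lit 76) (nat_lit 6154185974) (nat_lit 179) (nat_lit 5) (nat_lit 185) (nat_lit 5) (nat_lit 180) (nat_lit 5) (nat_lit 462) (nat_lit 349) (nat_lit 329))) (XT.nd (nat_lit 78) (nat_lit 760) (nat_lit 0) (XT.lf (nat_lit 0) (nat_lit 6845276143) (nat_lit 456) (nat_lit 2546204588) (nat_lit 76) (nat_lit 435751206) (nat_lit 174) (nat_lit 5) (nat_lit 180) (nat_lit 5) (nat_lit 175) (nat_lit 4) (nat_lit 463) (nat_lit 349) (nat_lit 328)) (XT.nd (nat_lit 78) (nat_lit 380) (nat_lit 0) (XT.lf (nat_lit 0) (nat_lit 1415277246) (nat_lit 380) (nat_lit 3992851906) (nat_lit 76) (nat_lit 4509199842) (nat_lit 169) (nat_lit 5) (nat_lit 174) (nat_lit 5) (nat_lit 170) (nat_lit 5) (nat_lit 464) (nat_lit 349) (nat_lit 327)) (XT.lf (nat_lit 0) (nat_lit 4533940746) (nat_lit 380) (nat_lit 1313595750) (nat_lit 456) (nat_lit 4161557083) (nat_lit 164) (nat_lit 5) (nat_lit 169) (nat_lit 5) (nat_lit 170)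 (nat_lit 5) (nat_lit 465) (nat_lit 349) (nat_lit 326))))) (XT.nd (nat_lit 156) (nat_lit 684) (nat_lit 0) (XT.nd (nat_lit 78) (nat_lit 380) (nat_lit 0) (XT.lf (nat_lit 0) (nat_lit 268702421) (nat_lit 380) (nat_lit 6995265460) (nat_lit 76) (nat_lit 2838562261) (nat_lit 159) (nat_lit 5) (nat_lit 164) (nat_lit 5) (nat_lit 160) (nat_lit 5) (nat_lit 466) (nat_lit 349) (nat_lit 325)) (XT.lf (nat_lit 0) (nat_lit 1626949125) (nat_lit 380) (nat_lit 3102000546) (nat_lit 456) (nat_lit 5468393491) (nat_lit 154) (nat_lit 5) (nat_lit 159) (nat_lit 5) (nat_lit 160) (nat_lit 5) (nat_lit 467) (nat_lit 349) (nat_lit 324))) (XT.nd (nat_lit 78) (nat_lit 380) (nat_lit 0) (XT.lf (nat_lit 0) (nat_lit 120532688) (nat_lit 304) (nat_lit 9154432482) (nat_lit 380) (nat_lit 1019156006) (nat_lit 150) (nat_lit 5) (nat_lit 154) (nat_lit 5) (nat_lit 155) (nat_lit 4) (nat_lit 468) (nat_lit 349) (nat_lit 323)) (XT.nd (nat_lit 78) (nat_lit 304) (nat_lit 0) (XT.lf (nat_lit 0) (nat_lit 3492599317)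 (nat_lit 380) (nat_lit 1430781524) (nat_lit 76) (nat_lit 5468603222) (nat_lit 149) (nat_lit 5) (nat_lit 154) (nat_lit 5) (nat_lit 150) (nat_lit 5) (nat_lit 469) (nat_lit 349) (nat_lit 322)) (XT.lf (nat_lit 0) (nat_lit 7483399043) (nat_lit 304) (nat_lit 588546604) (nat_lit 380) (nat_lit 2419903781) (nat_lit 145) (nat_lit 5) (nat_lit 149) (nat_lit 5) (nat_lit 150) (nat_lit 5) (nat_lit 470) (nat_lit 349) (nat_lit 321))))))) (XT.nd (nat_lit 57564) (nat_lit 0) (nat_lit 4712) (XT.nd (nat_lit 57174) (nat_lit 0) (nat_lit 9348) (XT.nd (nat_lit 57018) (nat_lit 0) (nat_lit 11780) (XT.nd (nat_lit 56940) (nat_lit 0) (nat_lit 13072) (XT.lf (nat_lit 0) (nat_lit 2137010148) (nat_lit 380) (nat_lit 4647656494) (nat_lit 76) (nat_lit 3808445780) (nat_lit 140) (nat_lit 5) (nat_lit 145) (nat_lit 5) (nat_lit 141) (nat_lit 5) (nat_lit 471) (nat_lit 349) (nat_lit 320)) (XT.lf (nat_lit 0) (nat_lit 3672116064) (nat_lit 608) (nat_lit 202537602) (nat_lit 608) (nat_lit 202537602) (nat_lit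 312) (nat_lit 4) (nat_lit 320) (nat_lit 5) (nat_lit 320) (nat_lit 4) (nat_lit 440) (nat_lit 350) (nat_lit 350))) (XT.nd (nat_lit 78) (nat_lit 608) (nat_lit 0) (XT.lf (nat_lit 0) (nat_lit 3681046556) (nat_lit 684) (nat_lit 2000491305) (nat_lit 0) (nat_lit 2530743714) (nat_lit 303) (nat_lit 5) (nat_lit 312) (nat_lit 4) (nat_lit 303) (nat_lit 4) (nat_lit 441) (nat_lit 350) (nat_lit 349)) (XT.lf (nat_lit 0) (nat_lit 5082028323) (nat_lit 608) (nat_lit 2733928820) (nat_lit 608) (nat_lit 455878092) (nat_lit 295) (nat_lit 4) (nat_lit 303) (nat_lit 5) (nat_lit 303) (nat_lit 4) (nat_lit 442) (nat_lit 350) (nat_lit 348)))) (XT.nd (nat_lit 156) (nat_lit 1216) (nat_lit 0) (XT.nd (nat_lit 78) (nat_lit 608) (nat_lit 0) (XT.lf (nat_lit 0) (nat_lit 3625164316) (nat_lit 608) (nat_lit 4399655529) (nat_lit 0) (nat_lit 307825189) (nat_lit 287) (nat_lit 5) (nat_lit 295) (nat_lit 4) (nat_lit 287) (nat_lit 4) (nat_lit 443) (nat_lit 350) (nat_lit 347)) (XT.lf (nat_lit 0) (nat_lit 2768263561)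 (nat_lit 608) (nat_lit 5003295814) (nat_lit 608) (nat_lit 623254668) (nat_lit 279) (nat_lit 4) (nat_lit 287) (nat_lit 5) (nat_lit 287) (nat_lit 4) (nat_lit 444) (nat_lit 350) (nat_lit 346))) (XT.nd (nat_lit 78) (nat_lit 608) (nat_lit 0) (XT.lf (nat_lit 0) (nat_lit 1584839471) (nat_lit 532) (nat_lit 1883846341) (nat_lit 608) (nat_lit 4989630744) (nat_lit 271) (nat_lit 5) (nat_lit 278) (nat_lit 5) (nat_lit 279) (nat_lit 4) (nat_lit 445) (nat_lit 350) (nat_lit 345)) (XT.nd (nat_lit 78) (nat_lit 76) (nat_lit 0) (XT.lf (nat_lit 0) (nat_lit 391893415) (nat_lit 532) (nat_lit 7224237464) (nat_lit 532) (nat_lit 907235624) (nat_lit 264) (nat_lit 4) (nat_lit 271) (nat_lit 5) (nat_lit 271) (nat_lit 4) (nat_lit 446) (nat_lit 350) (nat_lit 344)) (XT.lf (nat_lit 0) (nat_lit 3206286702) (nat_lit 608) (nat_lit 822075100) (nat_lit 76) (nat_lit 4561088881) (nat_lit 263) (nat_lit 5) (nat_lit 271) (nat_lit 5) (nat_lit 264) (nat_lit 4) (nat_lit 447) (nat_lit 350) (nat_lit 343))))))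 (XT.nd (nat_lit 390) (nat_lit 1976) (nat_lit 0) (XT.nd (nat_lit 156) (nat_lit 1520) (nat_lit 0) (XT.nd (nat_lit 78) (nat_lit 608) (nat_lit 0) (XT.lf (nat_lit 0) (nat_lit 6621107681) (nat_lit 532) (nat_lit 746418992) (nat_lit 608) (nat_lit 1289658035) (nat_lit 256) (nat_lit 5) (nat_lit 263) (nat_lit 5) (nat_lit 264) (nat_lit 4) (nat_lit 448) (nat_lit 350) (nat_lit 342)) (XT.lf (nat_lit 0) (nat_lit 2840805427) (nat_lit 608) (nat_lit 3286029097) (nat_lit 76) (nat_lit 2599205488) (nat_lit 248) (nat_lit 5) (nat_lit 256) (nat_lit 5) (nat_lit 249) (nat_lit 4) (nat_lit 449) (nat_lit 350) (nat_lit 341))) (XT.nd (nat_lit 78) (nat_lit 1064) (nat_lit 0) (XT.lf (nat_lit 0) (nat_lit 4245350447) (nat_lit 456) (nat_lit 2772873537) (nat_lit 532) (nat_lit 1778245658) (nat_lit 242) (nat_lit 5) (nat_lit 248) (nat_lit 5) (nat_lit 249) (nat_lit 4) (nat_lit 450) (nat_lit 350) (nat_lit 340)) (XT.nd (nat_lit 78) (nat_lit 456) (nat_lit 0) (XT.lf (nat_lit 0) (nat_lit 2361130127) (nat_lit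 608) (nat_lit 5839030391) (nat_lit 76) (nat_lit 668196961) (nat_lit 234) (nat_lit 5) (nat_lit 242) (nat_lit 5) (nat_lit 235) (nat_lit 4) (nat_lit 451) (nat_lit 350) (nat_lit 339)) (XT.lf (nat_lit 0) (nat_lit 1780334445) (nat_lit 456) (nat_lit 4775873301) (nat_lit 532) (nat_lit 2385305741) (nat_lit 228) (nat_lit 5) (nat_lit 234) (nat_lit 5) (nat_lit 235) (nat_lit 4) (nat_lit 452) (nat_lit 350) (nat_lit 338))))) (XT.nd (nat_lit 156) (nat_lit 1444) (nat_lit 0) (XT.nd (nat_lit 78) (nat_lit 0) (nat_lit 0) (XT.lf (nat_lit 0) (nat_lit 515681792) (nat_lit 456) (nat_lit 1258567677) (nat_lit 532) (nat_lit 7242065889) (nat_lit 221) (nat_lit 5) (nat_lit 227) (nat_lit 5) (nat_lit 228) (nat_lit 5) (nat_lit 453) (nat_lit 350) (nat_lit 337)) (XT.lf (nat_lit 0) (nat_lit 5985278947) (nat_lit 532) (nat_lit 775071545) (nat_lit 76) (nat_lit 2331942990) (nat_lit 221) (nat_lit 5) (nat_lit 228) (nat_lit 5) (nat_lit 222) (nat_lit 4) (nat_lit 454) (nat_lit 350) (nat_lit 336))) (XT.nd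 (nat_lit 78) (nat_lit 912) (nat_lit 0) (XT.lf (nat_lit 0) (nat_lit 1088466517) (nat_lit 532) (nat_lit 2080834158) (nat_lit 76) (nat_lit 6000500334) (nat_lit 214) (nat_lit 5) (nat_lit 221) (nat_lit 5) (nat_lit 215) (nat_lit 5) (nat_lit 455) (nat_lit 350) (nat_lit 335)) (XT.nd (nat_lit 78) (nat_lit 456) (nat_lit 0) (XT.lf (nat_lit 0) (nat_lit 5310973927) (nat_lit 532) (nat_lit 3417969050) (nat_lit 76) (nat_lit 519810572) (nat_lit 208) (nat_lit 5) (nat_lit 215) (nat_lit 5) (nat_lit 209) (nat_lit 4) (nat_lit 456) (nat_lit 350) (nat_lit 334)) (XT.lf (nat_lit 0) (nat_lit 287977937) (nat_lit 456) (nat_lit 4786837963) (nat_lit 76) (nat_lit 4254369412) (nat_lit 202) (nat_lit 5) (nat_lit 208) (nat_lit 5) (nat_lit 203) (nat_lit 5) (nat_lit 457) (nat_lit 350) (nat_lit 333))))))))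
noncomputable def xc7 : XT := (XT.nd (nat_lit 58188) (nat_lit 0) (nat_lit 2964) (XT.nd (nat_lit 702) (nat_lit 1444) (nat_lit 0) (XT.nd (nat_lit 312) (nat_lit 1976) (nat_lit 0) (XT.nd (nat_lit 156) (nat_lit 456) (nat_lit 0) (XT.nd (nat_lit 78) (nat_lit 380) (nat_lit 0) (XT.lf (nat_lit 0) (nat_lit 3219155377) (nat_lit 456) (nat_lit 1309149559) (nat_lit 532) (nat_lit 4882744576) (nat_lit 196) (nat_lit 5) (nat_lit 202) (nat_lit 5) (nat_lit 203) (nat_lit 5) (nat_lit 458) (nat_lit 350) (nat_lit 332)) (XT.lf (nat_lit 0) (nat_lit 1869466199) (nat_lit 380) (nat_lit 6984004989) (nat_lit 456) (nat_lit 641079154) (nat_lit 191) (nat_lit 5) (nat_lit 196) (nat_lit 5) (nat_lit 197) (nat_lit 4) (nat_lit 459) (nat_lit 350) (nat_lit 331))) (XT.nd (nat_lit 78) (nat_lit 0) (nat_lit 0) (XT.lf (nat_lit 0) (nat_lit 475629132) (nat_lit 380) (nat_lit 3154345065) (nat_lit 456) (nat_lit 5949410637) (nat_lit 185) (nat_lit 5) (nat_lit 190) (nat_lit 5) (nat_lit 191) (nat_lit 5) (nat_lit 460)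 (nat_lit 350) (nat_lit 330)) (XT.lf (nat_lit 0) (nat_lit 7973924303) (nat_lit 456) (nat_lit 927831266) (nat_lit 76) (nat_lit 764154501) (nat_lit 185) (nat_lit 5) (nat_lit 191) (nat_lit 5) (nat_lit 186) (nat_lit 4) (nat_lit 461) (nat_lit 350) (nat_lit 329)))) (XT.nd (nat_lit 156) (nat_lit 1140) (nat_lit 0) (XT.nd (nat_lit 78) (nat_lit 380) (nat_lit 0) (XT.lf (nat_lit 0) (nat_lit 2625633830) (nat_lit 456) (nat_lit 2376866828) (nat_lit 76) (nat_lit 4751124782) (nat_lit 179) (nat_lit 5) (nat_lit 185) (nat_lit 5) (nat_lit 180) (nat_lit 5) (nat_lit 462) (nat_lit 350) (nat_lit 328)) (XT.lf (nat_lit 0) (nat_lit 5990879253) (nat_lit 380) (nat_lit 1002271916) (nat_lit 456) (nat_lit 2849996248) (nat_lit 174) (nat_lit 5) (nat_lit 179) (nat_lit 5) (nat_lit 180) (nat_lit 5) (nat_lit 463) (nat_lit 350) (nat_lit 327))) (XT.nd (nat_lit 78) (nat_lit 760) (nat_lit 0) (XT.lf (nat_lit 0) (nat_lit 1500812512) (nat_lit 380) (nat_lit 5374108647) (nat_lit 76) (nat_lit 3059200051) (nat_lit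 169) (nat_lit 5) (nat_lit 174) (nat_lit 5) (nat_lit 170) (nat_lit 5) (nat_lit 464) (nat_lit 350) (nat_lit 326)) (XT.nd (nat_lit 78) (nat_lit 380) (nat_lit 0) (XT.lf (nat_lit 0) (nat_lit 3087183557) (nat_lit 380) (nat_lit 2807537285) (nat_lit 456) (nat_lit 4131931972) (nat_lit 164) (nat_lit 5) (nat_lit 169) (nat_lit 5) (nat_lit 170) (nat_lit 5) (nat_lit 465) (nat_lit 350) (nat_lit 325)) (XT.lf (nat_lit 0) (nat_lit 249238259) (nat_lit 380) (nat_lit 8534912311) (nat_lit 76) (nat_lit 1336908973) (nat_lit 159) (nat_lit 5) (nat_lit 164) (nat_lit 5) (nat_lit 160) (nat_lit 5) (nat_lit 466) (nat_lit 350) (nat_lit 324)))))) (XT.nd (nat_lit 57096) (nat_lit 0) (nat_lit 11704) (XT.nd (nat_lit 156) (nat_lit 1064) (nat_lit 0) (XT.nd (nat_lit 78) (nat_lit 0) (nat_lit 0) (XT.lf (nat_lit 0) (nat_lit 19465287) (nat_lit 380) (nat_lit 4650854337) (nat_lit 456) (nat_lit 5546336257) (nat_lit 154) (nat_lit 5) (nat_lit 159) (nat_lit 5) (nat_lit 160) (nat_lit 5) (nat_lit 467) (nat_lit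 350) (nat_lit 323)) (XT.lf (nat_lit 0) (nat_lit 8766800580) (nat_lit 380) (nat_lit 412791878) (nat_lit 456) (nat_lit 1134576291) (nat_lit 154) (nat_lit 5) (nat_lit 159) (nat_lit 5) (nat_lit 160) (nat_lit 5) (nat_lit 468) (nat_lit 350) (nat_lit 322))) (XT.nd (nat_lit 78) (nat_lit 684) (nat_lit 0) (XT.lf (nat_lit 0) (nat_lit 3337251562) (nat_lit 380) (nat_lit 3182970286) (nat_lit 76) (nat_lit 3892653600) (nat_lit 149) (nat_lit 5) (nat_lit 154) (nat_lit 5) (nat_lit 150) (nat_lit 5) (nat_lit 469) (nat_lit 350) (nat_lit 321)) (XT.nd (nat_lit 78) (nat_lit 380) (nat_lit 0) (XT.lf (nat_lit 0) (nat_lit 5661263684) (nat_lit 304) (nat_lit 2215549148) (nat_lit 380) (nat_lit 2636723682) (nat_lit 145) (nat_lit 5) (nat_lit 149) (nat_lit 5) (nat_lit 150) (nat_lit 5) (nat_lit 470) (nat_lit 350) (nat_lit 320)) (XT.lf (nat_lit 0) (nat_lit 1871948888) (nat_lit 380) (nat_lit 6573033326) (nat_lit 76) (nat_lit 2170867149) (nat_lit 140) (nat_lit 5) (nat_lit 145) (nat_lit 5) (nat_lit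 141) (nat_lit 5) (nat_lit 471) (nat_lit 350) (nat_lit 319))))) (XT.nd (nat_lit 156) (nat_lit 1368) (nat_lit 0) (XT.nd (nat_lit 78) (nat_lit 608) (nat_lit 0) (XT.lf (nat_lit 0) (nat_lit 394621124) (nat_lit 684) (nat_lit 3231422082) (nat_lit 0) (nat_lit 394621124) (nat_lit 320) (nat_lit 5) (nat_lit 329) (nat_lit 4) (nat_lit 320) (nat_lit 4) (nat_lit 438) (nat_lit 351) (nat_lit 351)) (XT.lf (nat_lit 0) (nat_lit 351874221) (nat_lit 608) (nat_lit 4471141058) (nat_lit 608) (nat_lit 3274365980) (nat_lit 312) (nat_lit 4) (nat_lit 320) (nat_lit 5) (nat_lit 320) (nat_lit 4) (nat_lit 439) (nat_lit 351) (nat_lit 350))) (XT.nd (nat_lit 78) (nat_lit 1292) (nat_lit 0) (XT.lf (nat_lit 0) (nat_lit 747021898) (nat_lit 684) (nat_lit 861099741) (nat_lit 76) (nat_lit 6546843986) (nat_lit 311) (nat_lit 5) (nat_lit 320) (nat_lit 5) (nat_lit 312) (nat_lit 4) (nat_lit 440) (nat_lit 351) (nat_lit 349)) (XT.nd (nat_lit 78) (nat_lit 684) (nat_lit 0) (XT.lf (nat_lit 0) (nat_lit 4785689678)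 (nat_lit 684) (nat_lit 2093635162) (nat_lit 0) (nat_lit 1334330051) (nat_lit 303) (nat_lit 5) (nat_lit 312) (nat_lit 4) (nat_lit 303) (nat_lit 4) (nat_lit 441) (nat_lit 351) (nat_lit 348)) (XT.lf (nat_lit 0) (nat_lit 604437689) (nat_lit 684) (nat_lit 3336030674) (nat_lit 76) (nat_lit 4333345388) (nat_lit 294) (nat_lit 5) (nat_lit 303) (nat_lit 5) (nat_lit 295) (nat_lit 4) (nat_lit 442) (nat_lit 351) (nat_lit 347))))))) (XT.nd (nat_lit 780) (nat_lit 3724) (nat_lit 0) (XT.nd (nat_lit 390) (nat_lit 2660) (nat_lit 0) (XT.nd (nat_lit 156) (nat_lit 1140) (nat_lit 0) (XT.nd (nat_lit 78) (nat_lit 684) (nat_lit 0) (XT.lf (nat_lit 0) (nat_lit 3737936040) (nat_lit 532) (nat_lit 905077280) (nat_lit 608) (nat_lit 3692280791) (nat_lit 287) (nat_lit 5) (nat_lit 294) (nat_lit 5) (nat_lit 295) (nat_lit 4) (nat_lit 443) (nat_lit 351) (nat_lit 346)) (XT.lf (nat_lit 0) (nat_lit 346194979) (nat_lit 684) (nat_lit 5872894854) (nat_lit 76) (nat_lit 2179134588) (nat_lit 278) (nat_lit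 5) (nat_lit 287) (nat_lit 5) (nat_lit 279) (nat_lit 4) (nat_lit 444) (nat_lit 351) (nat_lit 345))) (XT.nd (nat_lit 78) (nat_lit 608) (nat_lit 0) (XT.lf (nat_lit 0) (nat_lit 1284748473) (nat_lit 532) (nat_lit 3110495681) (nat_lit 608) (nat_lit 4067096194) (nat_lit 271) (nat_lit 5) (nat_lit 278) (nat_lit 5) (nat_lit 279) (nat_lit 4) (nat_lit 445) (nat_lit 351) (nat_lit 344)) (XT.nd (nat_lit 78) (nat_lit 76) (nat_lit 0) (XT.lf (nat_lit 0) (nat_lit 45168517) (nat_lit 532) (nat_lit 8454799166) (nat_lit 532) (nat_lit 28277042) (nat_lit 264) (nat_lit 4) (nat_lit 271) (nat_lit 5) (nat_lit 271) (nat_lit 4) (nat_lit 446) (nat_lit 351) (nat_lit 343)) (XT.lf (nat_lit 0) (nat_lit 4041338924) (nat_lit 608) (nat_lit 1225539458) (nat_lit 76) (nat_lit 3327983961) (nat_lit 263) (nat_lit 5) (nat_lit 271) (nat_lit 5) (nat_lit 264) (nat_lit 4) (nat_lit 447) (nat_lit 351) (nat_lit 342))))) (XT.nd (nat_lit 156) (nat_lit 1520) (nat_lit 0) (XT.nd (nat_lit 78) (nat_lit 608) (nat_lit 0)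 (XT.lf (nat_lit 0) (nat_lit 6166430686) (nat_lit 532) (nat_lit 2001452359) (nat_lit 608) (nat_lit 495407239) (nat_lit 256) (nat_lit 5) (nat_lit 263) (nat_lit 5) (nat_lit 264) (nat_lit 4) (nat_lit 448) (nat_lit 351) (nat_lit 341)) (XT.lf (nat_lit 0) (nat_lit 3581428426) (nat_lit 608) (nat_lit 3802611762) (nat_lit 76) (nat_lit 1348866486) (nat_lit 248) (nat_lit 5) (nat_lit 256) (nat_lit 5) (nat_lit 249) (nat_lit 4) (nat_lit 449) (nat_lit 351) (nat_lit 340))) (XT.nd (nat_lit 78) (nat_lit 1064) (nat_lit 0) (XT.lf (nat_lit 0) (nat_lit 3675686625) (nat_lit 456) (nat_lit 4048078384) (nat_lit 532) (nat_lit 1080272934) (nat_lit 242) (nat_lit 5) (nat_lit 248) (nat_lit 5) (nat_lit 249) (nat_lit 4) (nat_lit 450) (nat_lit 351) (nat_lit 339)) (XT.nd (nat_lit 78) (nat_lit 456) (nat_lit 0) (XT.lf (nat_lit 0) (nat_lit 2397982834) (nat_lit 532) (nat_lit 612173857) (nat_lit 608) (nat_lit 5866474297) (nat_lit 234) (nat_lit 5) (nat_lit 241) (nat_lit 5) (nat_lit 242) (nat_lit 5) (nat_lit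 451) (nat_lit 351) (nat_lit 338)) (XT.lf (nat_lit 0) (nat_lit 1089683741) (nat_lit 456) (nat_lit 6076048088) (nat_lit 532) (nat_lit 1784845218) (nat_lit 228) (nat_lit 5) (nat_lit 234) (nat_lit 5) (nat_lit 235) (nat_lit 4) (nat_lit 452) (nat_lit 351) (nat_lit 337)))))) (XT.nd (nat_lit 390) (nat_lit 1748) (nat_lit 0) (XT.nd (nat_lit 156) (nat_lit 1444) (nat_lit 0) (XT.nd (nat_lit 78) (nat_lit 456) (nat_lit 0) (XT.lf (nat_lit 0) (nat_lit 2332551824) (nat_lit 532) (nat_lit 240752697) (nat_lit 76) (nat_lit 6452682085) (nat_lit 227) (nat_lit 5) (nat_lit 234) (nat_lit 5) (nat_lit 228) (nat_lit 5) (nat_lit 453) (nat_lit 351) (nat_lit 336)) (XT.lf (nat_lit 0) (nat_lit 6502727154) (nat_lit 532) (nat_lit 1582131441) (nat_lit 76) (nat_lit 1017923217) (nat_lit 221) (nat_lit 5) (nat_lit 228) (nat_lit 5) (nat_lit 222) (nat_lit 4) (nat_lit 454) (nat_lit 351) (nat_lit 335))) (XT.nd (nat_lit 78) (nat_lit 912) (nat_lit 0) (XT.lf (nat_lit 0) (nat_lit 1552811674) (nat_lit 532) (nat_lit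 2958842505) (nat_lit 76) (nat_lit 4669288648) (nat_lit 214) (nat_lit 5) (nat_lit 221) (nat_lit 5) (nat_lit 215) (nat_lit 5) (nat_lit 455) (nat_lit 351) (nat_lit 334)) (XT.nd (nat_lit 78) (nat_lit 456) (nat_lit 0) (XT.lf (nat_lit 0) (nat_lit 4898528997) (nat_lit 456) (nat_lit 837274142) (nat_lit 532) (nat_lit 3524882546) (nat_lit 208) (nat_lit 5) (nat_lit 214) (nat_lit 5) (nat_lit 215) (nat_lit 5) (nat_lit 456) (nat_lit 351) (nat_lit 333)) (XT.lf (nat_lit 0) (nat_lit 653445366) (nat_lit 456) (nat_lit 5799501116) (nat_lit 76) (nat_lit 2888957638) (nat_lit 202) (nat_lit 5) (nat_lit 208) (nat_lit 5) (nat_lit 203) (nat_lit 5) (nat_lit 457) (nat_lit 351) (nat_lit 332))))) (XT.nd (nat_lit 156) (nat_lit 912) (nat_lit 0) (XT.nd (nat_lit 78) (nat_lit 380) (nat_lit 0) (XT.lf (nat_lit 0) (nat_lit 2146673627) (nat_lit 456) (nat_lit 2710404701) (nat_lit 532) (nat_lit 4567423874) (nat_lit 196) (nat_lit 5) (nat_lit 202) (nat_lit 5) (nat_lit 203) (nat_lit 5) (nat_lit 458) (nat_lit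 351) (nat_lit 331)) (XT.lf (nat_lit 0) (nat_lit 731771853) (nat_lit 380) (nat_lit 8404441320) (nat_lit 456) (nat_lit 372710487) (nat_lit 191) (nat_lit 5) (nat_lit 196) (nat_lit 5) (nat_lit 197) (nat_lit 4) (nat_lit 459) (nat_lit 351) (nat_lit 330))) (XT.nd (nat_lit 78) (nat_lit 836) (nat_lit 0) (XT.lf (nat_lit 0) (nat_lit 3862277460) (nat_lit 456) (nat_lit 730444899) (nat_lit 76) (nat_lit 5001651857) (nat_lit 190) (nat_lit 5) (nat_lit 196) (nat_lit 5) (nat_lit 191) (nat_lit 5) (nat_lit 460) (nat_lit 351) (nat_lit 329)) (XT.nd (nat_lit 78) (nat_lit 456) (nat_lit 0) (XT.lf (nat_lit 0) (nat_lit 7481702246) (nat_lit 380) (nat_lit 685515562) (nat_lit 456) (nat_lit 1514461840) (nat_lit 185) (nat_lit 5) (nat_lit 190) (nat_lit 5) (nat_lit 191) (nat_lit 5) (nat_lit 461) (nat_lit 351) (nat_lit 328)) (XT.lf (nat_lit 0) (nat_lit 2758753685) (nat_lit 456) (nat_lit 3724785834) (nat_lit 76) (nat_lit 3286673963) (nat_lit 179) (nat_lit 5) (nat_lit 185) (nat_lit 5) (nat_lit 180)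 (nat_lit 5) (nat_lit 462) (nat_lit 351) (nat_lit 327))))))))
noncomputable def xc8 : XT := (XT.nd (nat_lit 58032) (nat_lit 0) (nat_lit 2204) (XT.nd (nat_lit 57252) (nat_lit 0) (nat_lit 9956) (XT.nd (nat_lit 312) (nat_lit 1748) (nat_lit 0) (XT.nd (nat_lit 156) (nat_lit 456) (nat_lit 0) (XT.nd (nat_lit 78) (nat_lit 380) (nat_lit 0) (XT.lf (nat_lit 0) (nat_lit 4579068211) (nat_lit 380) (nat_lit 2509408767) (nat_lit 456) (nat_lit 2772014361) (nat_lit 174) (nat_lit 5) (nat_lit 179) (nat_lit 5) (nat_lit 180) (nat_lit 5) (nat_lit 463) (nat_lit 351) (nat_lit 326)) (XT.lf (nat_lit 0) (nat_lit 1529564105) (nat_lit 380) (nat_lit 6876972977) (nat_lit 76) (nat_lit 1545882076) (nat_lit 169) (nat_lit 5) (nat_lit 174) (nat_lit 5) (nat_lit 170) (nat_lit 5) (nat_lit 464) (nat_lit 351) (nat_lit 325))) (XT.nd (nat_lit 78) (nat_lit 76) (nat_lit 0) (XT.lf (nat_lit 0) (nat_lit 1518127075) (nat_lit 380) (nat_lit 4366768186) (nat_lit 456) (nat_lit 4160827043) (nat_lit 164) (nat_lit 5)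 (nat_lit 169) (nat_lit 5) (nat_lit 170) (nat_lit 5) (nat_lit 465) (nat_lit 351) (nat_lit 324)) (XT.lf (nat_lit 0) (nat_lit 173256497) (nat_lit 456) (nat_lit 59429914) (nat_lit 76) (nat_lit 9908395690) (nat_lit 163) (nat_lit 5) (nat_lit 169) (nat_lit 5) (nat_lit 164) (nat_lit 5) (nat_lit 466) (nat_lit 351) (nat_lit 323)))) (XT.nd (nat_lit 156) (nat_lit 1064) (nat_lit 0) (XT.nd (nat_lit 78) (nat_lit 380) (nat_lit 0) (XT.lf (nat_lit 0) (nat_lit 4564141431) (nat_lit 380) (nat_lit 1691511766) (nat_lit 76) (nat_lit 3981629170) (nat_lit 159) (nat_lit 5) (nat_lit 164) (nat_lit 5) (nat_lit 160) (nat_lit 5) (nat_lit 467) (nat_lit 351) (nat_lit 322)) (XT.lf (nat_lit 0) (nat_lit 6987807998) (nat_lit 380) (nat_lit 2046568797) (nat_lit 456) (nat_lit 1301199189) (nat_lit 154) (nat_lit 5) (nat_lit 159) (nat_lit 5) (nat_lit 160) (nat_lit 5) (nat_lit 468) (nat_lit 351) (nat_lit 321))) (XT.nd (nat_lit 78) (nat_lit 684) (nat_lit 0) (XT.lf (nat_lit 0) (nat_lit 3122328665) (nat_lit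 380) (nat_lit 5063221729) (nat_lit 76) (nat_lit 2249763631) (nat_lit 149) (nat_lit 5) (nat_lit 154) (nat_lit 5) (nat_lit 150) (nat_lit 5) (nat_lit 469) (nat_lit 351) (nat_lit 320)) (XT.nd (nat_lit 78) (nat_lit 380) (nat_lit 0) (XT.lf (nat_lit 0) (nat_lit 3710278680) (nat_lit 304) (nat_lit 3911537748) (nat_lit 380) (nat_lit 2914960133) (nat_lit 145) (nat_lit 5) (nat_lit 149) (nat_lit 5) (nat_lit 150) (nat_lit 5) (nat_lit 470) (nat_lit 351) (nat_lit 319)) (XT.lf (nat_lit 0) (nat_lit 1545520181) (nat_lit 380) (nat_lit 8630338564) (nat_lit 76) (nat_lit 464303621) (nat_lit 140) (nat_lit 5) (nat_lit 145) (nat_lit 5) (nat_lit 141) (nat_lit 5) (nat_lit 471) (nat_lit 351) (nat_lit 318)))))) (XT.nd (nat_lit 390) (nat_lit 3040) (nat_lit 0) (XT.nd (nat_lit 156) (nat_lit 1368) (nat_lit 0) (XT.nd (nat_lit 78) (nat_lit 684) (nat_lit 0) (XT.lf (nat_lit 0) (nat_lit 1005403762) (nat_lit 760) (nat_lit 1955275948) (nat_lit 0) (nat_lit 1005403762) (nat_lit 338) (nat_lit 5) (nat_lit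 348) (nat_lit 4) (nat_lit 338) (nat_lit 4) (nat_lit 436) (nat_lit 352) (nat_lit 352)) (XT.lf (nat_lit 0) (nat_lit 2778682984) (nat_lit 684) (nat_lit 3226385327) (nat_lit 684) (nat_lit 1981260537) (nat_lit 329) (nat_lit 4) (nat_lit 338) (nat_lit 5) (nat_lit 338) (nat_lit 4) (nat_lit 437) (nat_lit 352) (nat_lit 351))) (XT.nd (nat_lit 78) (nat_lit 684) (nat_lit 0) (XT.lf (nat_lit 0) (nat_lit 1530553875) (nat_lit 608) (nat_lit 447856641) (nat_lit 684) (nat_lit 6063548991) (nat_lit 320) (nat_lit 5) (nat_lit 328) (nat_lit 5) (nat_lit 329) (nat_lit 4) (nat_lit 438) (nat_lit 352) (nat_lit 350)) (XT.nd (nat_lit 78) (nat_lit 76) (nat_lit 0) (XT.lf (nat_lit 0) (nat_lit 260260488) (nat_lit 608) (nat_lit 5714645859) (nat_lit 608) (nat_lit 2123851303) (nat_lit 312) (nat_lit 4) (nat_lit 320) (nat_lit 5) (nat_lit 320) (nat_lit 4) (nat_lit 439) (nat_lit 352) (nat_lit 349)) (XT.lf (nat_lit 0) (nat_lit 1848825125) (nat_lit 684) (nat_lit 1006470644) (nat_lit 76) (nat_lit 5301569294)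 (nat_lit 311) (nat_lit 5) (nat_lit 320) (nat_lit 5) (nat_lit 312) (nat_lit 4) (nat_lit 440) (nat_lit 352) (nat_lit 348))))) (XT.nd (nat_lit 156) (nat_lit 1748) (nat_lit 0) (XT.nd (nat_lit 78) (nat_lit 684) (nat_lit 0) (XT.lf (nat_lit 0) (nat_lit 5845106271) (nat_lit 684) (nat_lit 2279959403) (nat_lit 0) (nat_lit 91336385) (nat_lit 303) (nat_lit 5) (nat_lit 312) (nat_lit 4) (nat_lit 303) (nat_lit 4) (nat_lit 441) (nat_lit 352) (nat_lit 347)) (XT.lf (nat_lit 0) (nat_lit 1612831908) (nat_lit 684) (nat_lit 3579805491) (nat_lit 76) (nat_lit 3084474647) (nat_lit 294) (nat_lit 5) (nat_lit 303) (nat_lit 5) (nat_lit 295) (nat_lit 4) (nat_lit 442) (nat_lit 352) (nat_lit 346))) (XT.nd (nat_lit 78) (nat_lit 1216) (nat_lit 0) (XT.lf (nat_lit 0) (nat_lit 3445869685) (nat_lit 532) (nat_lit 2171109349) (nat_lit 608) (nat_lit 2722301941) (nat_lit 287) (nat_lit 5) (nat_lit 294) (nat_lit 5) (nat_lit 295) (nat_lit 4) (nat_lit 443) (nat_lit 352) (nat_lit 345)) (XT.nd (nat_lit 78)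 (nat_lit 532) (nat_lit 0) (XT.lf (nat_lit 0) (nat_lit 1260503025) (nat_lit 684) (nat_lit 6220737507) (nat_lit 76) (nat_lit 921703786) (nat_lit 278) (nat_lit 5) (nat_lit 287) (nat_lit 5) (nat_lit 279) (nat_lit 4) (nat_lit 444) (nat_lit 352) (nat_lit 344)) (XT.lf (nat_lit 0) (nat_lit 886819958) (nat_lit 532) (nat_lit 4388022331) (nat_lit 608) (nat_lit 3192912153) (nat_lit 271) (nat_lit 5) (nat_lit 278) (nat_lit 5) (nat_lit 279) (nat_lit 4) (nat_lit 445) (nat_lit 352) (nat_lit 343))))))) (XT.nd (nat_lit 702) (nat_lit 3952) (nat_lit 0) (XT.nd (nat_lit 312) (nat_lit 2052) (nat_lit 0) (XT.nd (nat_lit 156) (nat_lit 1140) (nat_lit 0) (XT.nd (nat_lit 78) (nat_lit 532) (nat_lit 0) (XT.lf (nat_lit 0) (nat_lit 802036859) (nat_lit 608) (nat_lit 408769273) (nat_lit 76) (nat_lit 7323398361) (nat_lit 270) (nat_lit 5) (nat_lit 278) (nat_lit 5) (nat_lit 271) (nat_lit 5) (nat_lit 446) (nat_lit 352) (nat_lit 342)) (XT.lf (nat_lit 0) (nat_lit 4828969744) (nat_lit 608) (nat_lit 1728477026)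 (nat_lit 76) (nat_lit 2044217914) (nat_lit 263) (nat_lit 5) (nat_lit 271) (nat_lit 5) (nat_lit 264) (nat_lit 4) (nat_lit 447) (nat_lit 352) (nat_lit 341))) (XT.nd (nat_lit 78) (nat_lit 532) (nat_lit 0) (XT.lf (nat_lit 0) (nat_lit 246725925) (nat_lit 608) (nat_lit 3060552694) (nat_lit 76) (nat_lit 5363475982) (nat_lit 255) (nat_lit 5) (nat_lit 263) (nat_lit 5) (nat_lit 256) (nat_lit 5) (nat_lit 448) (nat_lit 352) (nat_lit 340)) (XT.lf (nat_lit 0) (nat_lit 4273469540) (nat_lit 608) (nat_lit 4421658106) (nat_lit 76) (nat_lit 46050908) (nat_lit 248) (nat_lit 5) (nat_lit 256) (nat_lit 5) (nat_lit 249) (nat_lit 4) (nat_lit 449) (nat_lit 352) (nat_lit 339)))) (XT.nd (nat_lit 156) (nat_lit 988) (nat_lit 0) (XT.nd (nat_lit 78) (nat_lit 608) (nat_lit 0) (XT.lf (nat_lit 0) (nat_lit 3003103632) (nat_lit 456) (nat_lit 5377567657) (nat_lit 532) (nat_lit 432341231) (nat_lit 242) (nat_lit 5) (nat_lit 248) (nat_lit 5) (nat_lit 249) (nat_lit 4) (nat_lit 450) (nat_lit 352) (nat_lit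 338)) (XT.lf (nat_lit 0) (nat_lit 1657680456) (nat_lit 532) (nat_lit 1956448889) (nat_lit 608) (nat_lit 5272101312) (nat_lit 234) (nat_lit 5) (nat_lit 241) (nat_lit 5) (nat_lit 242) (nat_lit 5) (nat_lit 451) (nat_lit 352) (nat_lit 337))) (XT.nd (nat_lit 78) (nat_lit 532) (nat_lit 0) (XT.lf (nat_lit 0) (nat_lit 293012535) (nat_lit 456) (nat_lit 7432356522) (nat_lit 532) (nat_lit 1235694366) (nat_lit 228) (nat_lit 5) (nat_lit 234) (nat_lit 5) (nat_lit 235) (nat_lit 4) (nat_lit 452) (nat_lit 352) (nat_lit 336)) (XT.nd (nat_lit 78) (nat_lit 456) (nat_lit 0) (XT.lf (nat_lit 0) (nat_lit 2844172156) (nat_lit 532) (nat_lit 1096631005) (nat_lit 76) (nat_lit 5096205078) (nat_lit 227) (nat_lit 5) (nat_lit 234) (nat_lit 5) (nat_lit 228) (nat_lit 5) (nat_lit 453) (nat_lit 352) (nat_lit 335)) (XT.lf (nat_lit 0) (nat_lit 6615370492) (nat_lit 456) (nat_lit 356624469) (nat_lit 532) (nat_lit 2142655536) (nat_lit 221) (nat_lit 5) (nat_lit 227) (nat_lit 5) (nat_lit 228) (nat_lit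 5) (nat_lit 454) (nat_lit 352) (nat_lit 334)))))) (XT.nd (nat_lit 390) (nat_lit 2052) (nat_lit 0) (XT.nd (nat_lit 156) (nat_lit 912) (nat_lit 0) (XT.nd (nat_lit 78) (nat_lit 456) (nat_lit 0) (XT.lf (nat_lit 0) (nat_lit 1965801982) (nat_lit 532) (nat_lit 3946246100) (nat_lit 76) (nat_lit 3281472233) (nat_lit 214) (nat_lit 5) (nat_lit 221) (nat_lit 5) (nat_lit 215) (nat_lit 5) (nat_lit 455) (nat_lit 352) (nat_lit 333)) (XT.lf (nat_lit 0) (nat_lit 3852839514) (nat_lit 456) (nat_lit 2259732594) (nat_lit 532) (nat_lit 3161415492) (nat_lit 208) (nat_lit 5) (nat_lit 214) (nat_lit 5) (nat_lit 215) (nat_lit 5) (nat_lit 456) (nat_lit 352) (nat_lit 332))) (XT.nd (nat_lit 78) (nat_lit 456) (nat_lit 0) (XT.lf (nat_lit 0) (nat_lit 966165977) (nat_lit 456) (nat_lit 6924838201) (nat_lit 76) (nat_lit 1465074250) (nat_lit 202) (nat_lit 5) (nat_lit 208) (nat_lit 5) (nat_lit 203) (nat_lit 5) (nat_lit 457) (nat_lit 352) (nat_lit 331)) (XT.nd (nat_lit 78) (nat_lit 0) (nat_lit 0) (XT.lf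 (nat_lit 0) (nat_lit 960929604) (nat_lit 456) (nat_lit 4172022879) (nat_lit 532) (nat_lit 4306460955) (nat_lit 196) (nat_lit 5) (nat_lit 202) (nat_lit 5) (nat_lit 203) (nat_lit 5) (nat_lit 458) (nat_lit 352) (nat_lit 330)) (XT.lf (nat_lit 0) (nat_lit 9008268381) (nat_lit 456) (nat_lit 362967117) (nat_lit 532) (nat_lit 153416435) (nat_lit 196) (nat_lit 5) (nat_lit 202) (nat_lit 5) (nat_lit 203) (nat_lit 5) (nat_lit 459) (nat_lit 352) (nat_lit 329))))) (XT.nd (nat_lit 156) (nat_lit 1216) (nat_lit 0) (XT.nd (nat_lit 78) (nat_lit 380) (nat_lit 0) (XT.lf (nat_lit 0) (nat_lit 4044039047) (nat_lit 456) (nat_lit 2045427180) (nat_lit 76) (nat_lit 3521300915) (nat_lit 190) (nat_lit 5) (nat_lit 196) (nat_lit 5) (nat_lit 191) (nat_lit 5) (nat_lit 460) (nat_lit 352) (nat_lit 328)) (XT.lf (nat_lit 0) (nat_lit 6104417899) (nat_lit 380) (nat_lit 2207305525) (nat_lit 456) (nat_lit 1387094268) (nat_lit 185) (nat_lit 5) (nat_lit 190) (nat_lit 5) (nat_lit 191) (nat_lit 5) (nat_lit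 461) (nat_lit 352) (nat_lit 327))) (XT.nd (nat_lit 78) (nat_lit 760) (nat_lit 0) (XT.lf (nat_lit 0) (nat_lit 2836708122) (nat_lit 456) (nat_lit 5191322497) (nat_lit 76) (nat_lit 1760259223) (nat_lit 179) (nat_lit 5) (nat_lit 185) (nat_lit 5) (nat_lit 180) (nat_lit 5) (nat_lit 462) (nat_lit 352) (nat_lit 326)) (XT.nd (nat_lit 78) (nat_lit 380) (nat_lit 0) (XT.lf (nat_lit 0) (nat_lit 3047964694) (nat_lit 380) (nat_lit 4080459477) (nat_lit 456) (nat_lit 2750903673) (nat_lit 174) (nat_lit 5) (nat_lit 179) (nat_lit 5) (nat_lit 180) (nat_lit 5) (nat_lit 463) (nat_lit 352) (nat_lit 325)) (XT.lf (nat_lit 0) (nat_lit 1469985401) (nat_lit 304) (nat_lit 31764131) (nat_lit 380) (nat_lit 8470476357) (nat_lit 169) (nat_lit 5) (nat_lit 173) (nat_lit 5) (nat_lit 174) (nat_lit 5) (nat_lit 464) (nat_lit 352) (nat_lit 324))))))))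
noncomputable def xc9 : XT := (XT.nd (nat_lit 57876) (nat_lit 0) (nat_lit 2204) (XT.nd (nat_lit 57096) (nat_lit 0) (nat_lit 9652) (XT.nd (nat_lit 312) (nat_lit 760) (nat_lit 0) (XT.nd (nat_lit 156) (nat_lit 684) (nat_lit 0) (XT.nd (nat_lit 78) (nat_lit 456) (nat_lit 0) (XT.lf (nat_lit 0) (nat_lit 5819184614) (nat_lit 380) (nat_lit 171564018) (nat_lit 76) (nat_lit 4075538325) (nat_lit 169) (nat_lit 5) (nat_lit 174) (nat_lit 5) (nat_lit 170) (nat_lit 5) (nat_lit 465) (nat_lit 352) (nat_lit 323)) (XT.lf (nat_lit 0) (nat_lit 59218062) (nat_lit 456) (nat_lit 1816214596) (nat_lit 76) (nat_lit 8286803191) (nat_lit 163) (nat_lit 5) (nat_lit 169) (nat_lit 5) (nat_lit 164) (nat_lit 5) (nat_lit 466) (nat_lit 352) (nat_lit 322))) (XT.nd (nat_lit 78) (nat_lit 380) (nat_lit 0) (XT.lf (nat_lit 0) (nat_lit 4400189412) (nat_lit 380) (nat_lit 3527224767) (nat_lit 76) (nat_lit 2332020208) (nat_lit 159) (nat_lit 5) (nat_lit 164) (nat_lit 5) (nat_lit 160) (nat_lit 5) (nat_lit 467)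 (nat_lit 352) (nat_lit 321)) (XT.lf (nat_lit 0) (nat_lit 5083055978) (nat_lit 380) (nat_lit 3747929874) (nat_lit 456) (nat_lit 1527530930) (nat_lit 154) (nat_lit 5) (nat_lit 159) (nat_lit 5) (nat_lit 160) (nat_lit 5) (nat_lit 468) (nat_lit 352) (nat_lit 320)))) (XT.nd (nat_lit 156) (nat_lit 76) (nat_lit 0) (XT.nd (nat_lit 78) (nat_lit 304) (nat_lit 0) (XT.lf (nat_lit 0) (nat_lit 2847746344) (nat_lit 380) (nat_lit 7072273207) (nat_lit 76) (nat_lit 539289042) (nat_lit 149) (nat_lit 5) (nat_lit 154) (nat_lit 5) (nat_lit 150) (nat_lit 5) (nat_lit 469) (nat_lit 352) (nat_lit 319)) (XT.lf (nat_lit 0) (nat_lit 1629678936) (nat_lit 304) (nat_lit 5677177498) (nat_lit 380) (nat_lit 3254722247) (nat_lit 145) (nat_lit 5) (nat_lit 149) (nat_lit 5) (nat_lit 150) (nat_lit 5) (nat_lit 470) (nat_lit 352) (nat_lit 318))) (XT.nd (nat_lit 56472) (nat_lit 0) (nat_lit 15504) (XT.lf (nat_lit 0) (nat_lit 1167286124) (nat_lit 380) (nat_lit 160982289) (nat_lit 76) (nat_lit 9337598754)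 (nat_lit 144) (nat_lit 5) (nat_lit 149) (nat_lit 5) (nat_lit 145) (nat_lit 5) (nat_lit 471) (nat_lit 352) (nat_lit 317)) (XT.nd (nat_lit 78) (nat_lit 684) (nat_lit 0) (XT.lf (nat_lit 0) (nat_lit 1629198491) (nat_lit 760) (nat_lit 655155777) (nat_lit 0) (nat_lit 1629198491) (nat_lit 357) (nat_lit 5) (nat_lit 367) (nat_lit 4) (nat_lit 357) (nat_lit 4) (nat_lit 434) (nat_lit 353) (nat_lit 353)) (XT.lf (nat_lit 0) (nat_lit 5256229075) (nat_lit 684) (nat_lit 1959290285) (nat_lit 684) (nat_lit 663862453) (nat_lit 348) (nat_lit 4) (nat_lit 357) (nat_lit 5) (nat_lit 357) (nat_lit 4) (nat_lit 435) (nat_lit 353) (nat_lit 352)))))) (XT.nd (nat_lit 390) (nat_lit 3040) (nat_lit 0) (XT.nd (nat_lit 156) (nat_lit 1368) (nat_lit 0) (XT.nd (nat_lit 78) (nat_lit 684) (nat_lit 0) (XT.lf (nat_lit 0) (nat_lit 3246584608) (nat_lit 760) (nat_lit 3954834811) (nat_lit 0) (nat_lit 731432532) (nat_lit 338) (nat_lit 5) (nat_lit 348) (nat_lit 4) (nat_lit 338) (nat_lit 4) (nat_lit 436) (nat_lit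 353) (nat_lit 351)) (XT.lf (nat_lit 0) (nat_lit 2689819994) (nat_lit 684) (nat_lit 4516869813) (nat_lit 684) (nat_lit 781007157) (nat_lit 329) (nat_lit 4) (nat_lit 338) (nat_lit 5) (nat_lit 338) (nat_lit 4) (nat_lit 437) (nat_lit 353) (nat_lit 350))) (XT.nd (nat_lit 78) (nat_lit 684) (nat_lit 0) (XT.lf (nat_lit 0) (nat_lit 1387075042) (nat_lit 608) (nat_lit 1741495638) (nat_lit 684) (nat_lit 4915288120) (nat_lit 320) (nat_lit 5) (nat_lit 328) (nat_lit 5) (nat_lit 329) (nat_lit 4) (nat_lit 438) (nat_lit 353) (nat_lit 349)) (XT.nd (nat_lit 78) (nat_lit 76) (nat_lit 0) (XT.lf (nat_lit 0) (nat_lit 76997093) (nat_lit 608) (nat_lit 7005368033) (nat_lit 608) (nat_lit 1019145844) (nat_lit 312) (nat_lit 4) (nat_lit 320) (nat_lit 5) (nat_lit 320) (nat_lit 4) (nat_lit 439) (nat_lit 353) (nat_lit 348)) (XT.lf (nat_lit 0) (nat_lit 2906079190) (nat_lit 684) (nat_lit 1243690108) (nat_lit 76) (nat_lit 4010364895) (nat_lit 311) (nat_lit 5) (nat_lit 320) (nat_lit 5) (nat_lit 312)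 (nat_lit 4) (nat_lit 440) (nat_lit 353) (nat_lit 347))))) (XT.nd (nat_lit 156) (nat_lit 1748) (nat_lit 0) (XT.nd (nat_lit 78) (nat_lit 684) (nat_lit 0) (XT.lf (nat_lit 0) (nat_lit 5652942990) (nat_lit 608) (nat_lit 1214655150) (nat_lit 684) (nat_lit 1352768293) (nat_lit 303) (nat_lit 5) (nat_lit 311) (nat_lit 5) (nat_lit 312) (nat_lit 4) (nat_lit 441) (nat_lit 353) (nat_lit 346)) (XT.lf (nat_lit 0) (nat_lit 2575678934) (nat_lit 684) (nat_lit 3918267097) (nat_lit 76) (nat_lit 1787844576) (nat_lit 294) (nat_lit 5) (nat_lit 303) (nat_lit 5) (nat_lit 295) (nat_lit 4) (nat_lit 442) (nat_lit 353) (nat_lit 345))) (XT.nd (nat_lit 78) (nat_lit 1216) (nat_lit 0) (XT.lf (nat_lit 0) (nat_lit 3058741573) (nat_lit 532) (nat_lit 3486676665) (nat_lit 608) (nat_lit 1799229454) (nat_lit 287) (nat_lit 5) (nat_lit 294) (nat_lit 5) (nat_lit 295) (nat_lit 4) (nat_lit 443) (nat_lit 353) (nat_lit 344)) (XT.nd (nat_lit 78) (nat_lit 532) (nat_lit 0) (XT.lf (nat_lit 0) (nat_lit 1740302587)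 (nat_lit 608) (nat_lit 390434488) (nat_lit 684) (nat_lit 6278268739) (nat_lit 278) (nat_lit 5) (nat_lit 286) (nat_lit 5) (nat_lit 287) (nat_lit 5) (nat_lit 444) (nat_lit 353) (nat_lit 343)) (XT.lf (nat_lit 0) (nat_lit 390897875) (nat_lit 532) (nat_lit 5716927282) (nat_lit 608) (nat_lit 2366735805) (nat_lit 271) (nat_lit 5) (nat_lit 278) (nat_lit 5) (nat_lit 279) (nat_lit 4) (nat_lit 445) (nat_lit 353) (nat_lit 342))))))) (XT.nd (nat_lit 702) (nat_lit 3648) (nat_lit 0) (XT.nd (nat_lit 312) (nat_lit 2052) (nat_lit 0) (XT.nd (nat_lit 156) (nat_lit 1140) (nat_lit 0) (XT.nd (nat_lit 78) (nat_lit 532) (nat_lit 0) (XT.lf (nat_lit 0) (nat_lit 1586008875) (nat_lit 608) (nat_lit 960976661) (nat_lit 76) (nat_lit 5994545573) (nat_lit 270) (nat_lit 5) (nat_lit 278) (nat_lit 5) (nat_lit 271) (nat_lit 5) (nat_lit 446) (nat_lit 353) (nat_lit 341)) (XT.lf (nat_lit 0) (nat_lit 5569488036) (nat_lit 608) (nat_lit 2331085035) (nat_lit 76) (nat_lit 709287304) (nat_lit 263) (nat_lit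 5) (nat_lit 271) (nat_lit 5) (nat_lit 264) (nat_lit 4) (nat_lit 447) (nat_lit 353) (nat_lit 340))) (XT.nd (nat_lit 78) (nat_lit 532) (nat_lit 0) (XT.lf (nat_lit 0) (nat_lit 934451977) (nat_lit 608) (nat_lit 3728654853) (nat_lit 76) (nat_lit 4016448208) (nat_lit 255) (nat_lit 5) (nat_lit 263) (nat_lit 5) (nat_lit 256) (nat_lit 5) (nat_lit 448) (nat_lit 353) (nat_lit 339)) (XT.lf (nat_lit 0) (nat_lit 3598658881) (nat_lit 532) (nat_lit 1327158068) (nat_lit 608) (nat_lit 3824869614) (nat_lit 248) (nat_lit 5) (nat_lit 255) (nat_lit 5) (nat_lit 256) (nat_lit 5) (nat_lit 449) (nat_lit 353) (nat_lit 338)))) (XT.nd (nat_lit 156) (nat_lit 988) (nat_lit 0) (XT.nd (nat_lit 78) (nat_lit 532) (nat_lit 0) (XT.lf (nat_lit 0) (nat_lit 163628997) (nat_lit 532) (nat_lit 6597135691) (nat_lit 76) (nat_lit 2062610677) (nat_lit 241) (nat_lit 5) (nat_lit 248) (nat_lit 5) (nat_lit 242) (nat_lit 5) (nat_lit 450) (nat_lit 353) (nat_lit 337)) (XT.lf (nat_lit 0) (nat_lit 812613593) (nat_lit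 532) (nat_lit 3356275312) (nat_lit 608) (nat_lit 4728359264) (nat_lit 234) (nat_lit 5) (nat_lit 241) (nat_lit 5) (nat_lit 242) (nat_lit 5) (nat_lit 451) (nat_lit 353) (nat_lit 336))) (XT.nd (nat_lit 78) (nat_lit 988) (nat_lit 0) (XT.lf (nat_lit 0) (nat_lit 8239299367) (nat_lit 608) (nat_lit 601991443) (nat_lit 76) (nat_lit 131606711) (nat_lit 234) (nat_lit 5) (nat_lit 242) (nat_lit 5) (nat_lit 235) (nat_lit 4) (nat_lit 452) (nat_lit 353) (nat_lit 335)) (XT.nd (nat_lit 78) (nat_lit 456) (nat_lit 0) (XT.lf (nat_lit 0) (nat_lit 3305962954) (nat_lit 532) (nat_lit 2059052030) (nat_lit 76) (nat_lit 3684436562) (nat_lit 227) (nat_lit 5) (nat_lit 234) (nat_lit 5) (nat_lit 228) (nat_lit 5) (nat_lit 453) (nat_lit 353) (nat_lit 334)) (XT.lf (nat_lit 0) (nat_lit 5596180772) (nat_lit 456) (nat_lit 1801837109) (nat_lit 532) (nat_lit 1729791278) (nat_lit 221) (nat_lit 5) (nat_lit 227) (nat_lit 5) (nat_lit 228) (nat_lit 5) (nat_lit 454) (nat_lit 353) (nat_lit 333)))))) (XT.nd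 (nat_lit 390) (nat_lit 1672) (nat_lit 0) (XT.nd (nat_lit 156) (nat_lit 988) (nat_lit 0) (XT.nd (nat_lit 78) (nat_lit 456) (nat_lit 0) (XT.lf (nat_lit 0) (nat_lit 2327599398) (nat_lit 532) (nat_lit 5043432161) (nat_lit 76) (nat_lit 1836506848) (nat_lit 214) (nat_lit 5) (nat_lit 221) (nat_lit 5) (nat_lit 215) (nat_lit 5) (nat_lit 455) (nat_lit 353) (nat_lit 332)) (XT.lf (nat_lit 0) (nat_lit 2696794179) (nat_lit 456) (nat_lit 3741214603) (nat_lit 532) (nat_lit 2850724125) (nat_lit 208) (nat_lit 5) (nat_lit 214) (nat_lit 5) (nat_lit 215) (nat_lit 5) (nat_lit 456) (nat_lit 353) (nat_lit 331))) (XT.nd (nat_lit 78) (nat_lit 532) (nat_lit 0) (XT.lf (nat_lit 0) (nat_lit 1208303560) (nat_lit 380) (nat_lit 18076210) (nat_lit 456) (nat_lit 8145331677) (nat_lit 202) (nat_lit 5) (nat_lit 207) (nat_lit 5) (nat_lit 208) (nat_lit 5) (nat_lit 457) (nat_lit 353) (nat_lit 330)) (XT.nd (nat_lit 78) (nat_lit 532) (nat_lit 0) (XT.lf (nat_lit 0) (nat_lit 5358233629) (nat_lit 456) (nat_lit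 334101652) (nat_lit 76) (nat_lit 3763409829) (nat_lit 202) (nat_lit 5) (nat_lit 208) (nat_lit 5) (nat_lit 203) (nat_lit 5) (nat_lit 458) (nat_lit 353) (nat_lit 329)) (XT.lf (nat_lit 0) (nat_lit 24105085) (nat_lit 532) (nat_lit 1876641907) (nat_lit 76) (nat_lit 7640843394) (nat_lit 195) (nat_lit 5) (nat_lit 202) (nat_lit 5) (nat_lit 196) (nat_lit 5) (nat_lit 459) (nat_lit 353) (nat_lit 328))))) (XT.nd (nat_lit 156) (nat_lit 912) (nat_lit 0) (XT.nd (nat_lit 78) (nat_lit 380) (nat_lit 0) (XT.lf (nat_lit 0) (nat_lit 4172242137) (nat_lit 456) (nat_lit 3476071350) (nat_lit 76) (nat_lit 1980318313) (nat_lit 190) (nat_lit 5) (nat_lit 196) (nat_lit 5) (nat_lit 191) (nat_lit 5) (nat_lit 460) (nat_lit 353) (nat_lit 327)) (XT.lf (nat_lit 0) (nat_lit 4610813531) (nat_lit 380) (nat_lit 3791656958) (nat_lit 456) (nat_lit 1314960983) (nat_lit 185) (nat_lit 5) (nat_lit 190) (nat_lit 5) (nat_lit 191) (nat_lit 5) (nat_lit 461) (nat_lit 353) (nat_lit 326))) (XT.nd (nat_lit 78) (nat_lit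 456) (nat_lit 0) (XT.lf (nat_lit 0) (nat_lit 2859527711) (nat_lit 456) (nat_lit 6777051929) (nat_lit 76) (nat_lit 171281966) (nat_lit 179) (nat_lit 5) (nat_lit 185) (nat_lit 5) (nat_lit 180) (nat_lit 5) (nat_lit 462) (nat_lit 353) (nat_lit 325)) (XT.nd (nat_lit 78) (nat_lit 76) (nat_lit 0) (XT.lf (nat_lit 0) (nat_lit 1396968268) (nat_lit 380) (nat_lit 5716040143) (nat_lit 456) (nat_lit 2786655905) (nat_lit 174) (nat_lit 5) (nat_lit 179) (nat_lit 5) (nat_lit 180) (nat_lit 5) (nat_lit 463) (nat_lit 353) (nat_lit 324)) (XT.lf (nat_lit 0) (nat_lit 1429483798) (nat_lit 456) (nat_lit 264086077) (nat_lit 76) (nat_lit 8299736776) (nat_lit 173) (nat_lit 5) (nat_lit 179) (nat_lit 5) (nat_lit 174) (nat_lit 5) (nat_lit 464) (nat_lit 353) (nat_lit 323))))))))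
noncomputable def xc10 : XT := (XT.nd (nat_lit 57720) (nat_lit 0) (nat_lit 2660) (XT.nd (nat_lit 56940) (nat_lit 0) (nat_lit 10868) (XT.nd (nat_lit 312) (nat_lit 760) (nat_lit 0) (XT.nd (nat_lit 156) (nat_lit 760) (nat_lit 0) (XT.nd (nat_lit 78) (nat_lit 380) (nat_lit 0) (XT.lf (nat_lit 0) (nat_lit 5707093014) (nat_lit 380) (nat_lit 1963301980) (nat_lit 76) (nat_lit 2417769242) (nat_lit 169) (nat_lit 5) (nat_lit 174) (nat_lit 5) (nat_lit 170) (nat_lit 5) (nat_lit 465) (nat_lit 353) (nat_lit 322)) (XT.lf (nat_lit 0) (nat_lit 6487315400) (nat_lit 380) (nat_lit 3584018791) (nat_lit 456) (nat_lit 113563187) (nat_lit 164) (nat_lit 5) (nat_lit 169) (nat_lit 5) (nat_lit 170) (nat_lit 5) (nat_lit 466) (nat_lit 353) (nat_lit 321))) (XT.nd (nat_lit 78) (nat_lit 380) (nat_lit 0) (XT.lf (nat_lit 0) (nat_lit 4178272892) (nat_lit 380) (nat_lit 5488648892) (nat_lit 76) (nat_lit 616201372) (nat_lit 159) (nat_lit 5) (nat_lit 164) (nat_lit 5) (nat_lit 160) (nat_lit 5) (nat_lit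 467) (nat_lit 353) (nat_lit 320)) (XT.lf (nat_lit 0) (nat_lit 3051797559) (nat_lit 380) (nat_lit 5517542310) (nat_lit 456) (nat_lit 1813660273) (nat_lit 154) (nat_lit 5) (nat_lit 159) (nat_lit 5) (nat_lit 160) (nat_lit 5) (nat_lit 468) (nat_lit 353) (nat_lit 319)))) (XT.nd (nat_lit 156) (nat_lit 380) (nat_lit 0) (XT.nd (nat_lit 78) (nat_lit 0) (nat_lit 0) (XT.lf (nat_lit 0) (nat_lit 1265638678) (nat_lit 304) (nat_lit 1255912457) (nat_lit 380) (nat_lit 7963154341) (nat_lit 149) (nat_lit 5) (nat_lit 153) (nat_lit 5) (nat_lit 154) (nat_lit 5) (nat_lit 469) (nat_lit 353) (nat_lit 318)) (XT.lf (nat_lit 0) (nat_lit 6935583859) (nat_lit 380) (nat_lit 573726937) (nat_lit 76) (nat_lit 3078566317) (nat_lit 149) (nat_lit 5) (nat_lit 154) (nat_lit 5) (nat_lit 150) (nat_lit 5) (nat_lit 470) (nat_lit 353) (nat_lit 317))) (XT.nd (nat_lit 56316) (nat_lit 0) (nat_lit 16188) (XT.lf (nat_lit 0) (nat_lit 744851369) (nat_lit 380) (nat_lit 2439237035) (nat_lit 76) (nat_lit 7508730379)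 (nat_lit 144) (nat_lit 5) (nat_lit 149) (nat_lit 5) (nat_lit 145) (nat_lit 5) (nat_lit 471) (nat_lit 353) (nat_lit 316)) (XT.nd (nat_lit 78) (nat_lit 760) (nat_lit 0) (XT.lf (nat_lit 0) (nat_lit 679357708) (nat_lit 760) (nat_lit 1591812826) (nat_lit 760) (nat_lit 1591812826) (nat_lit 367) (nat_lit 4) (nat_lit 377) (nat_lit 5) (nat_lit 377) (nat_lit 4) (nat_lit 432) (nat_lit 354) (nat_lit 354)) (XT.lf (nat_lit 0) (nat_lit 6628393) (nat_lit 684) (nat_lit 663862453) (nat_lit 760) (nat_lit 7105957621) (nat_lit 357) (nat_lit 5) (nat_lit 366) (nat_lit 5) (nat_lit 367) (nat_lit 4) (nat_lit 433) (nat_lit 354) (nat_lit 353)))))) (XT.nd (nat_lit 390) (nat_lit 2508) (nat_lit 0) (XT.nd (nat_lit 156) (nat_lit 2052) (nat_lit 0) (XT.nd (nat_lit 78) (nat_lit 760) (nat_lit 0) (XT.lf (nat_lit 0) (nat_lit 4545659924) (nat_lit 760) (nat_lit 1353231361) (nat_lit 0) (nat_lit 1928895703) (nat_lit 357) (nat_lit 5) (nat_lit 367) (nat_lit 4) (nat_lit 357) (nat_lit 4) (nat_lit 434) (nat_lit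 354) (nat_lit 352)) (XT.lf (nat_lit 0) (nat_lit 580362479) (nat_lit 760) (nat_lit 2714459298) (nat_lit 76) (nat_lit 4585844432) (nat_lit 347) (nat_lit 5) (nat_lit 357) (nat_lit 5) (nat_lit 348) (nat_lit 4) (nat_lit 435) (nat_lit 354) (nat_lit 351))) (XT.nd (nat_lit 78) (nat_lit 1368) (nat_lit 0) (XT.lf (nat_lit 0) (nat_lit 3843233398) (nat_lit 684) (nat_lit 599910015) (nat_lit 760) (nat_lit 3491685919) (nat_lit 338) (nat_lit 5) (nat_lit 347) (nat_lit 5) (nat_lit 348) (nat_lit 4) (nat_lit 436) (nat_lit 354) (nat_lit 350)) (XT.nd (nat_lit 78) (nat_lit 608) (nat_lit 0) (XT.lf (nat_lit 0) (nat_lit 369929332) (nat_lit 760) (nat_lit 5480808313) (nat_lit 76) (nat_lit 2139647411) (nat_lit 328) (nat_lit 5) (nat_lit 338) (nat_lit 5) (nat_lit 329) (nat_lit 4) (nat_lit 437) (nat_lit 354) (nat_lit 349)) (XT.lf (nat_lit 0) (nat_lit 1153287963) (nat_lit 608) (nat_lit 3081693436) (nat_lit 684) (nat_lit 3812149733) (nat_lit 320) (nat_lit 5) (nat_lit 328) (nat_lit 5) (nat_lit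 329) (nat_lit 4) (nat_lit 438) (nat_lit 354) (nat_lit 348))))) (XT.nd (nat_lit 156) (nat_lit 1824) (nat_lit 0) (XT.nd (nat_lit 78) (nat_lit 608) (nat_lit 0) (XT.lf (nat_lit 0) (nat_lit 42519362) (nat_lit 684) (nat_lit 197229375) (nat_lit 76) (nat_lit 7865831090) (nat_lit 319) (nat_lit 5) (nat_lit 328) (nat_lit 5) (nat_lit 320) (nat_lit 5) (nat_lit 439) (nat_lit 354) (nat_lit 347)) (XT.lf (nat_lit 0) (nat_lit 3919198703) (nat_lit 684) (nat_lit 1572851161) (nat_lit 76) (nat_lit 2672724435) (nat_lit 311) (nat_lit 5) (nat_lit 320) (nat_lit 5) (nat_lit 312) (nat_lit 4) (nat_lit 440) (nat_lit 354) (nat_lit 346))) (XT.nd (nat_lit 78) (nat_lit 1216) (nat_lit 0) (XT.lf (nat_lit 0) (nat_lit 5276524623) (nat_lit 608) (nat_lit 2570066082) (nat_lit 684) (nat_lit 379098374) (nat_lit 303) (nat_lit 5) (nat_lit 311) (nat_lit 5) (nat_lit 312) (nat_lit 4) (nat_lit 441) (nat_lit 354) (nat_lit 345)) (XT.nd (nat_lit 78) (nat_lit 532) (nat_lit 0) (XT.lf (nat_lit 0) (nat_lit 3493356355)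 (nat_lit 684) (nat_lit 4351548222) (nat_lit 76) (nat_lit 442946692) (nat_lit 294) (nat_lit 5) (nat_lit 303) (nat_lit 5) (nat_lit 295) (nat_lit 4) (nat_lit 442) (nat_lit 354) (nat_lit 344)) (XT.lf (nat_lit 0) (nat_lit 2576399889) (nat_lit 532) (nat_lit 4852295137) (nat_lit 608) (nat_lit 922701342) (nat_lit 287) (nat_lit 5) (nat_lit 294) (nat_lit 5) (nat_lit 295) (nat_lit 4) (nat_lit 443) (nat_lit 354) (nat_lit 343))))))) (XT.nd (nat_lit 702) (nat_lit 4180) (nat_lit 0) (XT.nd (nat_lit 312) (nat_lit 2204) (nat_lit 0) (XT.nd (nat_lit 156) (nat_lit 1140) (nat_lit 0) (XT.nd (nat_lit 78) (nat_lit 0) (nat_lit 0) (XT.lf (nat_lit 0) (nat_lit 1195508962) (nat_lit 608) (nat_lit 1765586926) (nat_lit 684) (nat_lit 5455238251) (nat_lit 278) (nat_lit 5) (nat_lit 286) (nat_lit 5) (nat_lit 287) (nat_lit 5) (nat_lit 444) (nat_lit 354) (nat_lit 342)) (XT.lf (nat_lit 0) (nat_lit 6895838810) (nat_lit 684) (nat_lit 200547087) (nat_lit 76) (nat_lit 1386350294) (nat_lit 278) (nat_lit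 5) (nat_lit 287) (nat_lit 5) (nat_lit 279) (nat_lit 4) (nat_lit 445) (nat_lit 354) (nat_lit 341))) (XT.nd (nat_lit 78) (nat_lit 532) (nat_lit 0) (XT.lf (nat_lit 0) (nat_lit 2323537646) (nat_lit 608) (nat_lit 1611592603) (nat_lit 76) (nat_lit 4615116464) (nat_lit 270) (nat_lit 5) (nat_lit 278) (nat_lit 5) (nat_lit 271) (nat_lit 5) (nat_lit 446) (nat_lit 354) (nat_lit 340)) (XT.lf (nat_lit 0) (nat_lit 5581307578) (nat_lit 532) (nat_lit 686332749) (nat_lit 608) (nat_lit 2351723179) (nat_lit 263) (nat_lit 5) (nat_lit 270) (nat_lit 5) (nat_lit 271) (nat_lit 5) (nat_lit 447) (nat_lit 354) (nat_lit 339)))) (XT.nd (nat_lit 156) (nat_lit 1064) (nat_lit 0) (XT.nd (nat_lit 78) (nat_lit 532) (nat_lit 0) (XT.lf (nat_lit 0) (nat_lit 1574537968) (nat_lit 608) (nat_lit 4498211563) (nat_lit 76) (nat_lit 2617009845) (nat_lit 255) (nat_lit 5) (nat_lit 263) (nat_lit 5) (nat_lit 256) (nat_lit 5) (nat_lit 448) (nat_lit 354) (nat_lit 338)) (XT.lf (nat_lit 0) (nat_lit 2775551923) (nat_lit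 532) (nat_lit 2755209450) (nat_lit 608) (nat_lit 3230832358) (nat_lit 248) (nat_lit 5) (nat_lit 255) (nat_lit 5) (nat_lit 256) (nat_lit 5) (nat_lit 449) (nat_lit 354) (nat_lit 337))) (XT.nd (nat_lit 78) (nat_lit 532) (nat_lit 0) (XT.lf (nat_lit 0) (nat_lit 705026517) (nat_lit 532) (nat_lit 7491748833) (nat_lit 76) (nat_lit 638327022) (nat_lit 241) (nat_lit 5) (nat_lit 248) (nat_lit 5) (nat_lit 242) (nat_lit 5) (nat_lit 450) (nat_lit 354) (nat_lit 336)) (XT.nd (nat_lit 78) (nat_lit 532) (nat_lit 0) (XT.lf (nat_lit 0) (nat_lit 4675545987) (nat_lit 532) (nat_lit 135745170) (nat_lit 76) (nat_lit 4098378828) (nat_lit 241) (nat_lit 5) (nat_lit 248) (nat_lit 5) (nat_lit 242) (nat_lit 5) (nat_lit 451) (nat_lit 354) (nat_lit 335)) (XT.lf (nat_lit 0) (nat_lit 7378821908) (nat_lit 532) (nat_lit 1336211051) (nat_lit 608) (nat_lit 270904847) (nat_lit 234) (nat_lit 5) (nat_lit 241) (nat_lit 5) (nat_lit 242) (nat_lit 5) (nat_lit 452) (nat_lit 354) (nat_lit 334)))))) (XT.nd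 (nat_lit 390) (nat_lit 2128) (nat_lit 0) (XT.nd (nat_lit 156) (nat_lit 1064) (nat_lit 0) (XT.nd (nat_lit 78) (nat_lit 456) (nat_lit 0) (XT.lf (nat_lit 0) (nat_lit 3718105311) (nat_lit 532) (nat_lit 3128393190) (nat_lit 76) (nat_lit 2216822900) (nat_lit 227) (nat_lit 5) (nat_lit 234) (nat_lit 5) (nat_lit 228) (nat_lit 5) (nat_lit 453) (nat_lit 354) (nat_lit 333)) (XT.lf (nat_lit 0) (nat_lit 4469512329) (nat_lit 456) (nat_lit 3304753789) (nat_lit 532) (nat_lit 1368130780) (nat_lit 221) (nat_lit 5) (nat_lit 227) (nat_lit 5) (nat_lit 228) (nat_lit 5) (nat_lit 454) (nat_lit 354) (nat_lit 332))) (XT.nd (nat_lit 78) (nat_lit 532) (nat_lit 0) (XT.lf (nat_lit 0) (nat_lit 2638345804) (nat_lit 532) (nat_lit 6250830957) (nat_lit 76) (nat_lit 333825839) (nat_lit 214) (nat_lit 5) (nat_lit 221) (nat_lit 5) (nat_lit 215) (nat_lit 5) (nat_lit 455) (nat_lit 354) (nat_lit 331)) (XT.nd (nat_lit 78) (nat_lit 76) (nat_lit 0) (XT.lf (nat_lit 0) (nat_lit 1429939641) (nat_lit 456) (nat_lit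 5282301140) (nat_lit 532) (nat_lit 2592686607) (nat_lit 208) (nat_lit 5) (nat_lit 214) (nat_lit 5) (nat_lit 215) (nat_lit 5) (nat_lit 456) (nat_lit 354) (nat_lit 330)) (XT.lf (nat_lit 0) (nat_lit 1444991691) (nat_lit 532) (nat_lit 135201512) (nat_lit 76) (nat_lit 7808400045) (nat_lit 207) (nat_lit 5) (nat_lit 214) (nat_lit 5) (nat_lit 208) (nat_lit 5) (nat_lit 457) (nat_lit 354) (nat_lit 329))))) (XT.nd (nat_lit 156) (nat_lit 1216) (nat_lit 0) (XT.nd (nat_lit 78) (nat_lit 532) (nat_lit 0) (XT.lf (nat_lit 0) (nat_lit 5537791903) (nat_lit 456) (nat_lit 1729268773) (nat_lit 76) (nat_lit 2206347309) (nat_lit 202) (nat_lit 5) (nat_lit 208) (nat_lit 5) (nat_lit 203) (nat_lit 5) (nat_lit 458) (nat_lit 354) (nat_lit 328)) (XT.lf (nat_lit 0) (nat_lit 146709217) (nat_lit 532) (nat_lit 3352388262) (nat_lit 76) (nat_lit 6060878119) (nat_lit 195) (nat_lit 5) (nat_lit 202) (nat_lit 5) (nat_lit 196) (nat_lit 5) (nat_lit 459) (nat_lit 354) (nat_lit 327))) (XT.nd (nat_lit 78)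 (nat_lit 836) (nat_lit 0) (XT.lf (nat_lit 0) (nat_lit 4246937007) (nat_lit 456) (nat_lit 5022938446) (nat_lit 76) (nat_lit 378099745) (nat_lit 190) (nat_lit 5) (nat_lit 196) (nat_lit 5) (nat_lit 191) (nat_lit 5) (nat_lit 460) (nat_lit 354) (nat_lit 326)) (XT.nd (nat_lit 78) (nat_lit 456) (nat_lit 0) (XT.lf (nat_lit 0) (nat_lit 3000303414) (nat_lit 380) (nat_lit 5439191174) (nat_lit 456) (nat_lit 1298033696) (nat_lit 185) (nat_lit 5) (nat_lit 190) (nat_lit 5) (nat_lit 191) (nat_lit 5) (nat_lit 461) (nat_lit 354) (nat_lit 325)) (XT.lf (nat_lit 0) (nat_lit 1336402978) (nat_lit 380) (nat_lit 1500561061) (nat_lit 456) (nat_lit 6991777562) (nat_lit 179) (nat_lit 5) (nat_lit 184) (nat_lit 5) (nat_lit 185) (nat_lit 5) (nat_lit 462) (nat_lit 354) (nat_lit 324))))))))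
noncomputable def xc11 : XT := (XT.nd (nat_lit 57564) (nat_lit 0) (nat_lit 4408) (XT.nd (nat_lit 56784) (nat_lit 0) (nat_lit 13300) (XT.nd (nat_lit 312) (nat_lit 1520) (nat_lit 0) (XT.nd (nat_lit 156) (nat_lit 684) (nat_lit 0) (XT.nd (nat_lit 78) (nat_lit 456) (nat_lit 0) (XT.lf (nat_lit 0) (nat_lit 7044655601) (nat_lit 456) (nat_lit 369655981) (nat_lit 76) (nat_lit 2507148510) (nat_lit 179) (nat_lit 5) (nat_lit 185) (nat_lit 5) (nat_lit 180) (nat_lit 5) (nat_lit 463) (nat_lit 354) (nat_lit 323)) (XT.lf (nat_lit 0) (nat_lit 1311169201) (nat_lit 456) (nat_lit 2099700754) (nat_lit 76) (nat_lit 6604831145) (nat_lit 173) (nat_lit 5) (nat_lit 179) (nat_lit 5) (nat_lit 174) (nat_lit 5) (nat_lit 464) (nat_lit 354) (nat_lit 322))) (XT.nd (nat_lit 78) (nat_lit 380) (nat_lit 0) (XT.lf (nat_lit 0) (nat_lit 5538719818) (nat_lit 380) (nat_lit 3877699962) (nat_lit 76) (nat_lit 695140077) (nat_lit 169) (nat_lit 5) (nat_lit 174) (nat_lit 5) (nat_lit 170) (nat_lit 5) (nat_lit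 465) (nat_lit 354) (nat_lit 321)) (XT.lf (nat_lit 0) (nat_lit 4504776056) (nat_lit 380) (nat_lit 5359085176) (nat_lit 456) (nat_lit 345213762) (nat_lit 164) (nat_lit 5) (nat_lit 169) (nat_lit 5) (nat_lit 170) (nat_lit 5) (nat_lit 466) (nat_lit 354) (nat_lit 320)))) (XT.nd (nat_lit 156) (nat_lit 760) (nat_lit 0) (XT.nd (nat_lit 78) (nat_lit 380) (nat_lit 0) (XT.lf (nat_lit 0) (nat_lit 2723976807) (nat_lit 304) (nat_lit 1182002380) (nat_lit 380) (nat_lit 6402225291) (nat_lit 159) (nat_lit 5) (nat_lit 163) (nat_lit 5) (nat_lit 164) (nat_lit 5) (nat_lit 467) (nat_lit 354) (nat_lit 319)) (XT.lf (nat_lit 0) (nat_lit 893236168) (nat_lit 380) (nat_lit 7356100069) (nat_lit 456) (nat_lit 2159699424) (nat_lit 154) (nat_lit 5) (nat_lit 159) (nat_lit 5) (nat_lit 160) (nat_lit 5) (nat_lit 468) (nat_lit 354) (nat_lit 318))) (XT.nd (nat_lit 78) (nat_lit 684) (nat_lit 0) (XT.lf (nat_lit 0) (nat_lit 2145878535) (nat_lit 456) (nat_lit 975723951) (nat_lit 76) (nat_lit 7389866881)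 (nat_lit 153) (nat_lit 5) (nat_lit 159) (nat_lit 5) (nat_lit 154) (nat_lit 5) (nat_lit 469) (nat_lit 354) (nat_lit 317)) (XT.nd (nat_lit 78) (nat_lit 380) (nat_lit 0) (XT.lf (nat_lit 0) (nat_lit 6515510533) (nat_lit 380) (nat_lit 2885335016) (nat_lit 76) (nat_lit 1214683470) (nat_lit 149) (nat_lit 5) (nat_lit 154) (nat_lit 5) (nat_lit 150) (nat_lit 5) (nat_lit 470) (nat_lit 354) (nat_lit 316)) (XT.lf (nat_lit 0) (nat_lit 261926286) (nat_lit 380) (nat_lit 4849118211) (nat_lit 76) (nat_lit 5610305767) (nat_lit 144) (nat_lit 5) (nat_lit 149) (nat_lit 5) (nat_lit 145) (nat_lit 5) (nat_lit 471) (nat_lit 354) (nat_lit 315)))))) (XT.nd (nat_lit 390) (nat_lit 2888) (nat_lit 0) (XT.nd (nat_lit 156) (nat_lit 1520) (nat_lit 0) (XT.nd (nat_lit 78) (nat_lit 836) (nat_lit 0) (XT.lf (nat_lit 0) (nat_lit 2049980432) (nat_lit 760) (nat_lit 882197152) (nat_lit 760) (nat_lit 882197152) (nat_lit 388) (nat_lit 4) (nat_lit 398) (nat_lit 5) (nat_lit 398) (nat_lit 4) (nat_lit 430) (nat_lit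 355) (nat_lit 355)) (XT.lf (nat_lit 0) (nat_lit 2045166189) (nat_lit 836) (nat_lit 4961474999) (nat_lit 0) (nat_lit 670447810) (nat_lit 377) (nat_lit 5) (nat_lit 388) (nat_lit 4) (nat_lit 377) (nat_lit 4) (nat_lit 431) (nat_lit 355) (nat_lit 354))) (XT.nd (nat_lit 78) (nat_lit 760) (nat_lit 0) (XT.lf (nat_lit 0) (nat_lit 1316599627) (nat_lit 760) (nat_lit 4566266232) (nat_lit 760) (nat_lit 1843784737) (nat_lit 367) (nat_lit 4) (nat_lit 377) (nat_lit 5) (nat_lit 377) (nat_lit 4) (nat_lit 432) (nat_lit 355) (nat_lit 353)) (XT.nd (nat_lit 78) (nat_lit 684) (nat_lit 0) (XT.lf (nat_lit 0) (nat_lit 1958971337) (nat_lit 836) (nat_lit 86695783) (nat_lit 76) (nat_lit 5731967000) (nat_lit 366) (nat_lit 5) (nat_lit 377) (nat_lit 5) (nat_lit 367) (nat_lit 4) (nat_lit 433) (nat_lit 355) (nat_lit 352)) (XT.lf (nat_lit 0) (nat_lit 5791189338) (nat_lit 760) (nat_lit 1482007609) (nat_lit 0) (nat_lit 556634714) (nat_lit 357) (nat_lit 5) (nat_lit 367) (nat_lit 4) (nat_lit 357)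 (nat_lit 4) (nat_lit 434) (nat_lit 355) (nat_lit 351))))) (XT.nd (nat_lit 156) (nat_lit 1444) (nat_lit 0) (XT.nd (nat_lit 78) (nat_lit 684) (nat_lit 0) (XT.lf (nat_lit 0) (nat_lit 1773445448) (nat_lit 760) (nat_lit 2897319609) (nat_lit 76) (nat_lit 3212466221) (nat_lit 347) (nat_lit 5) (nat_lit 357) (nat_lit 5) (nat_lit 348) (nat_lit 4) (nat_lit 435) (nat_lit 355) (nat_lit 350)) (XT.lf (nat_lit 0) (nat_lit 3615977728) (nat_lit 684) (nat_lit 1986184510) (nat_lit 760) (nat_lit 2335913446) (nat_lit 338) (nat_lit 5) (nat_lit 347) (nat_lit 5) (nat_lit 348) (nat_lit 4) (nat_lit 436) (nat_lit 355) (nat_lit 349))) (XT.nd (nat_lit 78) (nat_lit 684) (nat_lit 0) (XT.lf (nat_lit 0) (nat_lit 1467251703) (nat_lit 760) (nat_lit 5758862411) (nat_lit 76) (nat_lit 768233051) (nat_lit 328) (nat_lit 5) (nat_lit 338) (nat_lit 5) (nat_lit 329) (nat_lit 4) (nat_lit 437) (nat_lit 355) (nat_lit 348)) (XT.nd (nat_lit 78) (nat_lit 76) (nat_lit 0) (XT.lf (nat_lit 0) (nat_lit 829100957)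 (nat_lit 608) (nat_lit 4468975604) (nat_lit 684) (nat_lit 2753701225) (nat_lit 320) (nat_lit 5) (nat_lit 328) (nat_lit 5) (nat_lit 329) (nat_lit 4) (nat_lit 438) (nat_lit 355) (nat_lit 347)) (XT.lf (nat_lit 0) (nat_lit 1055113124) (nat_lit 684) (nat_lit 574965693) (nat_lit 76) (nat_lit 6480649681) (nat_lit 319) (nat_lit 5) (nat_lit 328) (nat_lit 5) (nat_lit 320) (nat_lit 5) (nat_lit 439) (nat_lit 355) (nat_lit 346))))))) (XT.nd (nat_lit 702) (nat_lit 4028) (nat_lit 0) (XT.nd (nat_lit 312) (nat_lit 2432) (nat_lit 0) (XT.nd (nat_lit 156) (nat_lit 1140) (nat_lit 0) (XT.nd (nat_lit 78) (nat_lit 684) (nat_lit 0) (XT.lf (nat_lit 0) (nat_lit 4888580964) (nat_lit 684) (nat_lit 1994082885) (nat_lit 76) (nat_lit 1288123350) (nat_lit 311) (nat_lit 5) (nat_lit 320) (nat_lit 5) (nat_lit 312) (nat_lit 4) (nat_lit 440) (nat_lit 355) (nat_lit 345)) (XT.lf (nat_lit 0) (nat_lit 542276318) (nat_lit 684) (nat_lit 3428298851) (nat_lit 76) (nat_lit 4261737578) (nat_lit 302) (nat_lit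 5) (nat_lit 311) (nat_lit 5) (nat_lit 303) (nat_lit 5) (nat_lit 441) (nat_lit 355) (nat_lit 344))) (XT.nd (nat_lit 78) (nat_lit 532) (nat_lit 0) (XT.lf (nat_lit 0) (nat_lit 3409097621) (nat_lit 608) (nat_lit 963381333) (nat_lit 684) (nat_lit 3922692360) (nat_lit 294) (nat_lit 5) (nat_lit 302) (nat_lit 5) (nat_lit 303) (nat_lit 5) (nat_lit 442) (nat_lit 355) (nat_lit 343)) (XT.lf (nat_lit 0) (nat_lit 1998655480) (nat_lit 532) (nat_lit 6268500301) (nat_lit 608) (nat_lit 92373868) (nat_lit 287) (nat_lit 5) (nat_lit 294) (nat_lit 5) (nat_lit 295) (nat_lit 4) (nat_lit 443) (nat_lit 355) (nat_lit 342)))) (XT.nd (nat_lit 156) (nat_lit 1748) (nat_lit 0) (XT.nd (nat_lit 78) (nat_lit 0) (nat_lit 0) (XT.lf (nat_lit 0) (nat_lit 553797410) (nat_lit 608) (nat_lit 3192043844) (nat_lit 684) (nat_lit 4679212190) (nat_lit 278) (nat_lit 5) (nat_lit 286) (nat_lit 5) (nat_lit 287) (nat_lit 5) (nat_lit 444) (nat_lit 355) (nat_lit 341)) (XT.lf (nat_lit 0) (nat_lit 7608030520) (nat_lit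 608) (nat_lit 33234607) (nat_lit 684) (nat_lit 850976749) (nat_lit 278) (nat_lit 5) (nat_lit 286) (nat_lit 5) (nat_lit 287) (nat_lit 5) (nat_lit 445) (nat_lit 355) (nat_lit 340))) (XT.nd (nat_lit 78) (nat_lit 1140) (nat_lit 0) (XT.lf (nat_lit 0) (nat_lit 3014912399) (nat_lit 608) (nat_lit 2360872241) (nat_lit 76) (nat_lit 3184570079) (nat_lit 270) (nat_lit 5) (nat_lit 278) (nat_lit 5) (nat_lit 271) (nat_lit 5) (nat_lit 446) (nat_lit 355) (nat_lit 339)) (XT.nd (nat_lit 78) (nat_lit 608) (nat_lit 0) (XT.lf (nat_lit 0) (nat_lit 4779947693) (nat_lit 532) (nat_lit 2144304830) (nat_lit 608) (nat_lit 1705914241) (nat_lit 263) (nat_lit 5) (nat_lit 270) (nat_lit 5) (nat_lit 271) (nat_lit 5) (nat_lit 447) (nat_lit 355) (nat_lit 338)) (XT.lf (nat_lit 0) (nat_lit 2167234910) (nat_lit 608) (nat_lit 5369524612) (nat_lit 76) (nat_lit 1164612093) (nat_lit 255) (nat_lit 5) (nat_lit 263) (nat_lit 5) (nat_lit 256) (nat_lit 5) (nat_lit 448) (nat_lit 355) (nat_lit 337)))))) (XT.nd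 (nat_lit 390) (nat_lit 1900) (nat_lit 0) (XT.nd (nat_lit 156) (nat_lit 1064) (nat_lit 0) (XT.nd (nat_lit 78) (nat_lit 532) (nat_lit 0) (XT.lf (nat_lit 0) (nat_lit 1850185814) (nat_lit 532) (nat_lit 4238051265) (nat_lit 608) (nat_lit 2685673317) (nat_lit 248) (nat_lit 5) (nat_lit 255) (nat_lit 5) (nat_lit 256) (nat_lit 5) (nat_lit 449) (nat_lit 355) (nat_lit 336)) (XT.lf (nat_lit 0) (nat_lit 351320166) (nat_lit 456) (nat_lit 851945101) (nat_lit 532) (nat_lit 7644878387) (nat_lit 241) (nat_lit 5) (nat_lit 247) (nat_lit 5) (nat_lit 248) (nat_lit 5) (nat_lit 450) (nat_lit 355) (nat_lit 335))) (XT.nd (nat_lit 78) (nat_lit 1064) (nat_lit 0) (XT.lf (nat_lit 0) (nat_lit 5139366665) (nat_lit 532) (nat_lit 1177531618) (nat_lit 76) (nat_lit 2606501344) (nat_lit 241) (nat_lit 5) (nat_lit 248) (nat_lit 5) (nat_lit 242) (nat_lit 5) (nat_lit 451) (nat_lit 355) (nat_lit 334)) (XT.nd (nat_lit 78) (nat_lit 456) (nat_lit 0) (XT.lf (nat_lit 0) (nat_lit 141154784) (nat_lit 608) (nat_lit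 2720079635) (nat_lit 76) (nat_lit 6139123389) (nat_lit 233) (nat_lit 5) (nat_lit 241) (nat_lit 5) (nat_lit 234) (nat_lit 5) (nat_lit 452) (nat_lit 355) (nat_lit 333)) (XT.lf (nat_lit 0) (nat_lit 4080760853) (nat_lit 532) (nat_lit 4305073837) (nat_lit 76) (nat_lit 692788559) (nat_lit 227) (nat_lit 5) (nat_lit 234) (nat_lit 5) (nat_lit 228) (nat_lit 5) (nat_lit 453) (nat_lit 355) (nat_lit 332))))) (XT.nd (nat_lit 156) (nat_lit 912) (nat_lit 0) (XT.nd (nat_lit 78) (nat_lit 532) (nat_lit 0) (XT.lf (nat_lit 0) (nat_lit 3234923332) (nat_lit 456) (nat_lit 4865963889) (nat_lit 532) (nat_lit 1057532213) (nat_lit 221) (nat_lit 5) (nat_lit 227) (nat_lit 5) (nat_lit 228) (nat_lit 5) (nat_lit 454) (nat_lit 355) (nat_lit 331)) (XT.lf (nat_lit 0) (nat_lit 1662768092) (nat_lit 456) (nat_lit 1243468390) (nat_lit 532) (nat_lit 6333521008) (nat_lit 214) (nat_lit 5) (nat_lit 220) (nat_lit 5) (nat_lit 221) (nat_lit 5) (nat_lit 455) (nat_lit 355) (nat_lit 330))) (XT.nd (nat_lit 78)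 (nat_lit 456) (nat_lit 0) (XT.lf (nat_lit 0) (nat_lit 51779094) (nat_lit 456) (nat_lit 6883596553) (nat_lit 532) (nat_lit 2387201747) (nat_lit 208) (nat_lit 5) (nat_lit 214) (nat_lit 5) (nat_lit 215) (nat_lit 5) (nat_lit 456) (nat_lit 355) (nat_lit 329)) (XT.nd (nat_lit 78) (nat_lit 380) (nat_lit 0) (XT.lf (nat_lit 0) (nat_lit 1620138169) (nat_lit 532) (nat_lit 1574437958) (nat_lit 76) (nat_lit 6212193313) (nat_lit 207) (nat_lit 5) (nat_lit 214) (nat_lit 5) (nat_lit 208) (nat_lit 5) (nat_lit 457) (nat_lit 355) (nat_lit 328)) (XT.lf (nat_lit 0) (nat_lit 5665458728) (nat_lit 456) (nat_lit 3237721648) (nat_lit 76) (nat_lit 589353393) (nat_lit 202) (nat_lit 5) (nat_lit 208) (nat_lit 5) (nat_lit 203) (nat_lit 5) (nat_lit 458) (nat_lit 355) (nat_lit 327))))))))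
noncomputable def xc12 : XT := (XT.nd (nat_lit 57408) (nat_lit 0) (nat_lit 6688) (XT.nd (nat_lit 702) (nat_lit 1064) (nat_lit 0) (XT.nd (nat_lit 312) (nat_lit 1900) (nat_lit 0) (XT.nd (nat_lit 156) (nat_lit 456) (nat_lit 0) (XT.nd (nat_lit 78) (nat_lit 380) (nat_lit 0) (XT.lf (nat_lit 0) (nat_lit 216456122) (nat_lit 532) (nat_lit 4943205260) (nat_lit 76) (nat_lit 4420173318) (nat_lit 195) (nat_lit 5) (nat_lit 202) (nat_lit 5) (nat_lit 196) (nat_lit 5) (nat_lit 459) (nat_lit 355) (nat_lit 326)) (XT.lf (nat_lit 0) (nat_lit 2973540213) (nat_lit 380) (nat_lit 1303073149) (nat_lit 456) (nat_lit 5392022349) (nat_lit 190) (nat_lit 5) (nat_lit 195) (nat_lit 5) (nat_lit 196) (nat_lit 5) (nat_lit 460) (nat_lit 355) (nat_lit 325))) (XT.nd (nat_lit 78) (nat_lit 76) (nat_lit 0) (XT.lf (nat_lit 0) (nat_lit 1272255977) (nat_lit 380) (nat_lit 7150554265) (nat_lit 456) (nat_lit 1336305770) (nat_lit 185) (nat_lit 5) (nat_lit 190) (nat_lit 5) (nat_lit 191) (nat_lit 5) (nat_lit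 461) (nat_lit 355) (nat_lit 324)) (XT.lf (nat_lit 0) (nat_lit 2763915700) (nat_lit 456) (nat_lit 472277272) (nat_lit 76) (nat_lit 6614846890) (nat_lit 184) (nat_lit 5) (nat_lit 190) (nat_lit 5) (nat_lit 185) (nat_lit 5) (nat_lit 462) (nat_lit 355) (nat_lit 323)))) (XT.nd (nat_lit 156) (nat_lit 1064) (nat_lit 0) (XT.nd (nat_lit 78) (nat_lit 456) (nat_lit 0) (XT.lf (nat_lit 0) (nat_lit 6930763218) (nat_lit 456) (nat_lit 2237603800) (nat_lit 76) (nat_lit 776208216) (nat_lit 179) (nat_lit 5) (nat_lit 185) (nat_lit 5) (nat_lit 180) (nat_lit 5) (nat_lit 463) (nat_lit 355) (nat_lit 322)) (XT.lf (nat_lit 0) (nat_lit 1137215222) (nat_lit 456) (nat_lit 4056857601) (nat_lit 76) (nat_lit 4845536077) (nat_lit 173) (nat_lit 5) (nat_lit 179) (nat_lit 5) (nat_lit 174) (nat_lit 5) (nat_lit 464) (nat_lit 355) (nat_lit 321))) (XT.nd (nat_lit 78) (nat_lit 760) (nat_lit 0) (XT.lf (nat_lit 0) (nat_lit 4213639515) (nat_lit 304) (nat_lit 1107550433) (nat_lit 380) (nat_lit 4815149227)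 (nat_lit 169) (nat_lit 5) (nat_lit 173) (nat_lit 5) (nat_lit 174) (nat_lit 5) (nat_lit 465) (nat_lit 355) (nat_lit 320)) (XT.nd (nat_lit 78) (nat_lit 380) (nat_lit 0) (XT.lf (nat_lit 0) (nat_lit 2398023139) (nat_lit 380) (nat_lit 7201725302) (nat_lit 456) (nat_lit 635037529) (nat_lit 164) (nat_lit 5) (nat_lit 169) (nat_lit 5) (nat_lit 170) (nat_lit 5) (nat_lit 466) (nat_lit 355) (nat_lit 319)) (XT.lf (nat_lit 0) (nat_lit 523147643) (nat_lit 304) (nat_lit 3056875095) (nat_lit 380) (nat_lit 6754729026) (nat_lit 159) (nat_lit 5) (nat_lit 163) (nat_lit 5) (nat_lit 164) (nat_lit 5) (nat_lit 467) (nat_lit 355) (nat_lit 318)))))) (XT.nd (nat_lit 56316) (nat_lit 0) (nat_lit 16796) (XT.nd (nat_lit 156) (nat_lit 608) (nat_lit 0) (XT.nd (nat_lit 78) (nat_lit 456) (nat_lit 0) (XT.lf (nat_lit 0) (nat_lit 7879896830) (nat_lit 380) (nat_lit 1375199016) (nat_lit 76) (nat_lit 1181356761) (nat_lit 159) (nat_lit 5) (nat_lit 164) (nat_lit 5) (nat_lit 160) (nat_lit 5) (nat_lit 468)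 (nat_lit 355) (nat_lit 317)) (XT.lf (nat_lit 0) (nat_lit 1719674208) (nat_lit 456) (nat_lit 3328977850) (nat_lit 76) (nat_lit 5490976844) (nat_lit 153) (nat_lit 5) (nat_lit 159) (nat_lit 5) (nat_lit 154) (nat_lit 5) (nat_lit 469) (nat_lit 355) (nat_lit 316))) (XT.nd (nat_lit 78) (nat_lit 304) (nat_lit 0) (XT.lf (nat_lit 0) (nat_lit 5312509606) (nat_lit 304) (nat_lit 728108520) (nat_lit 380) (nat_lit 4604044188) (nat_lit 149) (nat_lit 5) (nat_lit 153) (nat_lit 5) (nat_lit 154) (nat_lit 5) (nat_lit 470) (nat_lit 355) (nat_lit 315)) (XT.nd (nat_lit 56004) (nat_lit 0) (nat_lit 20064) (XT.lf (nat_lit 0) (nat_lit 3358011723) (nat_lit 304) (nat_lit 7108002150) (nat_lit 380) (nat_lit 285421863) (nat_lit 145) (nat_lit 5) (nat_lit 149) (nat_lit 5) (nat_lit 150) (nat_lit 5) (nat_lit 471) (nat_lit 355) (nat_lit 314)) (XT.lf (nat_lit 0) (nat_lit 3449639516) (nat_lit 836) (nat_lit 159088003) (nat_lit 836) (nat_lit 159088003) (nat_lit 409) (nat_lit 4) (nat_lit 420) (nat_lit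 5) (nat_lit 420) (nat_lit 4) (nat_lit 428) (nat_lit 356) (nat_lit 356))))) (XT.nd (nat_lit 156) (nat_lit 1672) (nat_lit 0) (XT.nd (nat_lit 78) (nat_lit 760) (nat_lit 0) (XT.lf (nat_lit 0) (nat_lit 3453351571) (nat_lit 836) (nat_lit 2105289729) (nat_lit 0) (nat_lit 2023094570) (nat_lit 398) (nat_lit 5) (nat_lit 409) (nat_lit 4) (nat_lit 398) (nat_lit 4) (nat_lit 429) (nat_lit 356) (nat_lit 355)) (XT.lf (nat_lit 0) (nat_lit 4059213597) (nat_lit 760) (nat_lit 3201343364) (nat_lit 760) (nat_lit 368873616) (nat_lit 388) (nat_lit 4) (nat_lit 398) (nat_lit 5) (nat_lit 398) (nat_lit 4) (nat_lit 430) (nat_lit 356) (nat_lit 354))) (XT.nd (nat_lit 78) (nat_lit 836) (nat_lit 0) (XT.lf (nat_lit 0) (nat_lit 2628021298) (nat_lit 760) (nat_lit 755745743) (nat_lit 836) (nat_lit 4294594195) (nat_lit 377) (nat_lit 5) (nat_lit 387) (nat_lit 5) (nat_lit 388) (nat_lit 4) (nat_lit 431) (nat_lit 356) (nat_lit 353)) (XT.nd (nat_lit 78) (nat_lit 76) (nat_lit 0) (XT.lf (nat_lit 0) (nat_lit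 1190235740) (nat_lit 760) (nat_lit 5992248685) (nat_lit 760) (nat_lit 546218054) (nat_lit 367) (nat_lit 4) (nat_lit 377) (nat_lit 5) (nat_lit 377) (nat_lit 4) (nat_lit 432) (nat_lit 356) (nat_lit 352)) (XT.lf (nat_lit 0) (nat_lit 3206436733) (nat_lit 836) (nat_lit 264456261) (nat_lit 76) (nat_lit 4309286185) (nat_lit 366) (nat_lit 5) (nat_lit 377) (nat_lit 5) (nat_lit 367) (nat_lit 4) (nat_lit 433) (nat_lit 356) (nat_lit 351))))))) (XT.nd (nat_lit 702) (nat_lit 4636) (nat_lit 0) (XT.nd (nat_lit 312) (nat_lit 2584) (nat_lit 0) (XT.nd (nat_lit 156) (nat_lit 1444) (nat_lit 0) (XT.nd (nat_lit 78) (nat_lit 760) (nat_lit 0) (XT.lf (nat_lit 0) (nat_lit 6130785710) (nat_lit 684) (nat_lit 870338774) (nat_lit 760) (nat_lit 832002843) (nat_lit 357) (nat_lit 5) (nat_lit 366) (nat_lit 5) (nat_lit 367) (nat_lit 4) (nat_lit 434) (nat_lit 356) (nat_lit 350)) (XT.lf (nat_lit 0) (nat_lit 2924561003) (nat_lit 760) (nat_lit 3167495144) (nat_lit 76) (nat_lit 1795108081) (nat_lit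 347) (nat_lit 5) (nat_lit 357) (nat_lit 5) (nat_lit 348) (nat_lit 4) (nat_lit 435) (nat_lit 356) (nat_lit 349))) (XT.nd (nat_lit 78) (nat_lit 760) (nat_lit 0) (XT.lf (nat_lit 0) (nat_lit 3301069307) (nat_lit 684) (nat_lit 3418214235) (nat_lit 760) (nat_lit 1223404977) (nat_lit 338) (nat_lit 5) (nat_lit 347) (nat_lit 5) (nat_lit 348) (nat_lit 4) (nat_lit 436) (nat_lit 356) (nat_lit 348)) (XT.lf (nat_lit 0) (nat_lit 1868253477) (nat_lit 684) (nat_lit 657649749) (nat_lit 760) (nat_lit 5473697638) (nat_lit 328) (nat_lit 5) (nat_lit 337) (nat_lit 5) (nat_lit 338) (nat_lit 5) (nat_lit 437) (nat_lit 356) (nat_lit 347)))) (XT.nd (nat_lit 156) (nat_lit 1900) (nat_lit 0) (XT.nd (nat_lit 78) (nat_lit 76) (nat_lit 0) (XT.lf (nat_lit 0) (nat_lit 414386891) (nat_lit 608) (nat_lit 5903886172) (nat_lit 684) (nat_lit 1739527520) (nat_lit 320) (nat_lit 5) (nat_lit 328) (nat_lit 5) (nat_lit 329) (nat_lit 4) (nat_lit 438) (nat_lit 356) (nat_lit 346)) (XT.lf (nat_lit 0) (nat_lit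 2024639678) (nat_lit 684) (nat_lit 1043493624) (nat_lit 76) (nat_lit 5049113221) (nat_lit 319) (nat_lit 5) (nat_lit 328) (nat_lit 5) (nat_lit 320) (nat_lit 5) (nat_lit 439) (nat_lit 356) (nat_lit 345))) (XT.nd (nat_lit 78) (nat_lit 1292) (nat_lit 0) (XT.lf (nat_lit 0) (nat_lit 5669658594) (nat_lit 608) (nat_lit 145894776) (nat_lit 684) (nat_lit 2362602938) (nat_lit 311) (nat_lit 5) (nat_lit 319) (nat_lit 5) (nat_lit 320) (nat_lit 5) (nat_lit 440) (nat_lit 356) (nat_lit 344)) (XT.nd (nat_lit 78) (nat_lit 608) (nat_lit 0) (XT.lf (nat_lit 0) (nat_lit 1414541126) (nat_lit 684) (nat_lit 4003616495) (nat_lit 76) (nat_lit 2822110375) (nat_lit 302) (nat_lit 5) (nat_lit 311) (nat_lit 5) (nat_lit 303) (nat_lit 5) (nat_lit 441) (nat_lit 356) (nat_lit 343)) (XT.lf (nat_lit 0) (nat_lit 2784779480) (nat_lit 608) (nat_lit 2425593383) (nat_lit 684) (nat_lit 3093441118) (nat_lit 294) (nat_lit 5) (nat_lit 302) (nat_lit 5) (nat_lit 303) (nat_lit 5) (nat_lit 442) (nat_lit 356) (nat_lit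 342)))))) (XT.nd (nat_lit 390) (nat_lit 2280) (nat_lit 0) (XT.nd (nat_lit 156) (nat_lit 1748) (nat_lit 0) (XT.nd (nat_lit 78) (nat_lit 0) (nat_lit 0) (XT.lf (nat_lit 0) (nat_lit 683001852) (nat_lit 608) (nat_lit 7048262378) (nat_lit 76) (nat_lit 637696625) (nat_lit 286) (nat_lit 5) (nat_lit 294) (nat_lit 5) (nat_lit 287) (nat_lit 5) (nat_lit 443) (nat_lit 356) (nat_lit 341)) (XT.lf (nat_lit 0) (nat_lit 4486482602) (nat_lit 608) (nat_lit 182656314) (nat_lit 76) (nat_lit 3766004196) (nat_lit 286) (nat_lit 5) (nat_lit 294) (nat_lit 5) (nat_lit 287) (nat_lit 5) (nat_lit 444) (nat_lit 356) (nat_lit 340))) (XT.nd (nat_lit 78) (nat_lit 1140) (nat_lit 0) (XT.lf (nat_lit 0) (nat_lit 6828217846) (nat_lit 608) (nat_lit 1522880743) (nat_lit 684) (nat_lit 151849113) (nat_lit 278) (nat_lit 5) (nat_lit 286) (nat_lit 5) (nat_lit 287) (nat_lit 5) (nat_lit 445) (nat_lit 356) (nat_lit 339)) (XT.nd (nat_lit 78) (nat_lit 532) (nat_lit 0) (XT.lf (nat_lit 0) (nat_lit 3660404260) (nat_lit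 608) (nat_lit 3209109412) (nat_lit 76) (nat_lit 1702345420) (nat_lit 270) (nat_lit 5) (nat_lit 278) (nat_lit 5) (nat_lit 271) (nat_lit 5) (nat_lit 446) (nat_lit 356) (nat_lit 338)) (XT.lf (nat_lit 0) (nat_lit 3879141118) (nat_lit 532) (nat_lit 3655774636) (nat_lit 608) (nat_lit 1107451957) (nat_lit 263) (nat_lit 5) (nat_lit 270) (nat_lit 5) (nat_lit 271) (nat_lit 5) (nat_lit 447) (nat_lit 356) (nat_lit 337))))) (XT.nd (nat_lit 156) (nat_lit 1140) (nat_lit 0) (XT.nd (nat_lit 78) (nat_lit 532) (nat_lit 0) (XT.lf (nat_lit 0) (nat_lit 2369170219) (nat_lit 532) (nat_lit 345850507) (nat_lit 608) (nat_lit 5999330675) (nat_lit 255) (nat_lit 5) (nat_lit 262) (nat_lit 5) (nat_lit 263) (nat_lit 5) (nat_lit 448) (nat_lit 356) (nat_lit 336)) (XT.lf (nat_lit 0) (nat_lit 822197665) (nat_lit 532) (nat_lit 5776265018) (nat_lit 608) (nat_lit 2189178703) (nat_lit 248) (nat_lit 5) (nat_lit 255) (nat_lit 5) (nat_lit 256) (nat_lit 5) (nat_lit 449) (nat_lit 356) (nat_lit 335))) (XT.nd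 (nat_lit 78) (nat_lit 1064) (nat_lit 0) (XT.lf (nat_lit 0) (nat_lit 1662435731) (nat_lit 608) (nat_lit 739433801) (nat_lit 76) (nat_lit 6460556892) (nat_lit 247) (nat_lit 5) (nat_lit 255) (nat_lit 5) (nat_lit 248) (nat_lit 5) (nat_lit 450) (nat_lit 356) (nat_lit 334)) (XT.nd (nat_lit 78) (nat_lit 608) (nat_lit 0) (XT.lf (nat_lit 0) (nat_lit 5555256805) (nat_lit 532) (nat_lit 2323811868) (nat_lit 76) (nat_lit 1059479330) (nat_lit 241) (nat_lit 5) (nat_lit 248) (nat_lit 5) (nat_lit 242) (nat_lit 5) (nat_lit 451) (nat_lit 356) (nat_lit 333)) (XT.lf (nat_lit 0) (nat_lit 500831747) (nat_lit 608) (nat_lit 3940961907) (nat_lit 76) (nat_lit 4574376672) (nat_lit 233) (nat_lit 5) (nat_lit 241) (nat_lit 5) (nat_lit 234) (nat_lit 5) (nat_lit 452) (nat_lit 356) (nat_lit 332))))))))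
noncomputable def xc13 : XT := (XT.nd (nat_lit 57252) (nat_lit 0) (nat_lit 10716) (XT.nd (nat_lit 702) (nat_lit 3420) (nat_lit 0) (XT.nd (nat_lit 312) (nat_lit 1824) (nat_lit 0) (XT.nd (nat_lit 156) (nat_lit 532) (nat_lit 0) (XT.nd (nat_lit 78) (nat_lit 456) (nat_lit 0) (XT.lf (nat_lit 0) (nat_lit 3499846955) (nat_lit 456) (nat_lit 900068684) (nat_lit 532) (nat_lit 4695330571) (nat_lit 227) (nat_lit 5) (nat_lit 233) (nat_lit 5) (nat_lit 234) (nat_lit 5) (nat_lit 453) (nat_lit 356) (nat_lit 331)) (XT.lf (nat_lit 0) (nat_lit 1891929630) (nat_lit 456) (nat_lit 6486079646) (nat_lit 532) (nat_lit 797873773) (nat_lit 221) (nat_lit 5) (nat_lit 227) (nat_lit 5) (nat_lit 228) (nat_lit 5) (nat_lit 454) (nat_lit 356) (nat_lit 330))) (XT.nd (nat_lit 78) (nat_lit 0) (nat_lit 0) (XT.lf (nat_lit 0) (nat_lit 240984708) (nat_lit 456) (nat_lit 2884899029) (nat_lit 532) (nat_lit 6132035767) (nat_lit 214) (nat_lit 5) (nat_lit 220) (nat_lit 5) (nat_lit 221) (nat_lit 5) (nat_lit 455)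 (nat_lit 356) (nat_lit 329)) (XT.lf (nat_lit 0) (nat_lit 7116838816) (nat_lit 532) (nat_lit 1419365298) (nat_lit 76) (nat_lit 805298975) (nat_lit 214) (nat_lit 5) (nat_lit 221) (nat_lit 5) (nat_lit 215) (nat_lit 5) (nat_lit 456) (nat_lit 356) (nat_lit 328)))) (XT.nd (nat_lit 156) (nat_lit 912) (nat_lit 0) (XT.nd (nat_lit 78) (nat_lit 380) (nat_lit 0) (XT.lf (nat_lit 0) (nat_lit 1744042781) (nat_lit 532) (nat_lit 3125817302) (nat_lit 76) (nat_lit 4556543969) (nat_lit 207) (nat_lit 5) (nat_lit 214) (nat_lit 5) (nat_lit 208) (nat_lit 5) (nat_lit 457) (nat_lit 356) (nat_lit 327)) (XT.lf (nat_lit 0) (nat_lit 4645775703) (nat_lit 380) (nat_lit 1102667718) (nat_lit 456) (nat_lit 3764543359) (nat_lit 202) (nat_lit 5) (nat_lit 207) (nat_lit 5) (nat_lit 208) (nat_lit 5) (nat_lit 458) (nat_lit 356) (nat_lit 326))) (XT.nd (nat_lit 78) (nat_lit 380) (nat_lit 0) (XT.lf (nat_lit 0) (nat_lit 233373153) (nat_lit 532) (nat_lit 6649716752) (nat_lit 76) (nat_lit 2718085576) (nat_lit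 195) (nat_lit 5) (nat_lit 202) (nat_lit 5) (nat_lit 196) (nat_lit 5) (nat_lit 459) (nat_lit 356) (nat_lit 325)) (XT.nd (nat_lit 78) (nat_lit 0) (nat_lit 0) (XT.lf (nat_lit 0) (nat_lit 1203099427) (nat_lit 380) (nat_lit 3052618476) (nat_lit 456) (nat_lit 5435014838) (nat_lit 190) (nat_lit 5) (nat_lit 195) (nat_lit 5) (nat_lit 196) (nat_lit 5) (nat_lit 460) (nat_lit 356) (nat_lit 324)) (XT.lf (nat_lit 0) (nat_lit 8356137737) (nat_lit 456) (nat_lit 566478249) (nat_lit 76) (nat_lit 859512597) (nat_lit 190) (nat_lit 5) (nat_lit 196) (nat_lit 5) (nat_lit 191) (nat_lit 5) (nat_lit 461) (nat_lit 356) (nat_lit 323)))))) (XT.nd (nat_lit 390) (nat_lit 1444) (nat_lit 0) (XT.nd (nat_lit 156) (nat_lit 1140) (nat_lit 0) (XT.nd (nat_lit 78) (nat_lit 380) (nat_lit 0) (XT.lf (nat_lit 0) (nat_lit 2645575548) (nat_lit 456) (nat_lit 2381967288) (nat_lit 76) (nat_lit 4847117869) (nat_lit 184) (nat_lit 5) (nat_lit 190) (nat_lit 5) (nat_lit 185) (nat_lit 5) (nat_lit 462) (nat_lit 356)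 (nat_lit 322)) (XT.lf (nat_lit 0) (nat_lit 5736433341) (nat_lit 380) (nat_lit 1032486801) (nat_lit 456) (nat_lit 3200145995) (nat_lit 179) (nat_lit 5) (nat_lit 184) (nat_lit 5) (nat_lit 185) (nat_lit 5) (nat_lit 463) (nat_lit 356) (nat_lit 321))) (XT.nd (nat_lit 78) (nat_lit 684) (nat_lit 0) (XT.lf (nat_lit 0) (nat_lit 907553644) (nat_lit 456) (nat_lit 6136324130) (nat_lit 76) (nat_lit 3021161653) (nat_lit 173) (nat_lit 5) (nat_lit 179) (nat_lit 5) (nat_lit 174) (nat_lit 5) (nat_lit 464) (nat_lit 356) (nat_lit 320)) (XT.nd (nat_lit 78) (nat_lit 380) (nat_lit 0) (XT.lf (nat_lit 0) (nat_lit 2065637280) (nat_lit 304) (nat_lit 2986596107) (nat_lit 380) (nat_lit 5110322214) (nat_lit 169) (nat_lit 5) (nat_lit 173) (nat_lit 5) (nat_lit 174) (nat_lit 5) (nat_lit 465) (nat_lit 356) (nat_lit 319)) (XT.lf (nat_lit 0) (nat_lit 166230472) (nat_lit 380) (nat_lit 9112661774) (nat_lit 456) (nat_lit 983148143) (nat_lit 164) (nat_lit 5) (nat_lit 169) (nat_lit 5) (nat_lit 170)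 (nat_lit 5) (nat_lit 466) (nat_lit 356) (nat_lit 318))))) (XT.nd (nat_lit 156) (nat_lit 1064) (nat_lit 0) (XT.nd (nat_lit 78) (nat_lit 304) (nat_lit 0) (XT.lf (nat_lit 0) (nat_lit 3207939340) (nat_lit 456) (nat_lit 1781071755) (nat_lit 76) (nat_lit 5373611057) (nat_lit 163) (nat_lit 5) (nat_lit 169) (nat_lit 5) (nat_lit 164) (nat_lit 5) (nat_lit 467) (nat_lit 356) (nat_lit 317)) (XT.lf (nat_lit 0) (nat_lit 6700987825) (nat_lit 304) (nat_lit 762425539) (nat_lit 380) (nat_lit 3001797632) (nat_lit 159) (nat_lit 5) (nat_lit 163) (nat_lit 5) (nat_lit 164) (nat_lit 5) (nat_lit 468) (nat_lit 356) (nat_lit 316))) (XT.nd (nat_lit 78) (nat_lit 608) (nat_lit 0) (XT.lf (nat_lit 0) (nat_lit 1234553650) (nat_lit 456) (nat_lit 5811644942) (nat_lit 76) (nat_lit 3523160879) (nat_lit 153) (nat_lit 5) (nat_lit 159) (nat_lit 5) (nat_lit 154) (nat_lit 5) (nat_lit 469) (nat_lit 356) (nat_lit 315)) (XT.nd (nat_lit 78) (nat_lit 304) (nat_lit 0) (XT.lf (nat_lit 0) (nat_lit 2756350982)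 (nat_lit 304) (nat_lit 2758092852) (nat_lit 380) (nat_lit 5160770124) (nat_lit 149) (nat_lit 5) (nat_lit 153) (nat_lit 5) (nat_lit 154) (nat_lit 5) (nat_lit 470) (nat_lit 356) (nat_lit 314)) (XT.lf (nat_lit 0) (nat_lit 709659450) (nat_lit 304) (nat_lit 9175469150) (nat_lit 380) (nat_lit 897952999) (nat_lit 145) (nat_lit 5) (nat_lit 149) (nat_lit 5) (nat_lit 150) (nat_lit 5) (nat_lit 471) (nat_lit 356) (nat_lit 313))))))) (XT.nd (nat_lit 702) (nat_lit 5320) (nat_lit 0) (XT.nd (nat_lit 312) (nat_lit 3192) (nat_lit 0) (XT.nd (nat_lit 156) (nat_lit 836) (nat_lit 0) (XT.nd (nat_lit 78) (nat_lit 836) (nat_lit 0) (XT.lf (nat_lit 0) (nat_lit 582187487) (nat_lit 912) (nat_lit 2558631438) (nat_lit 0) (nat_lit 582187487) (nat_lit 420) (nat_lit 5) (nat_lit 432) (nat_lit 4) (nat_lit 420) (nat_lit 4) (nat_lit 426) (nat_lit 357) (nat_lit 357)) (XT.lf (nat_lit 0) (nat_lit 817067513) (nat_lit 836) (nat_lit 4080673688) (nat_lit 836) (nat_lit 2592634304) (nat_lit 409) (nat_lit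 4) (nat_lit 420) (nat_lit 5) (nat_lit 420) (nat_lit 4) (nat_lit 427) (nat_lit 357) (nat_lit 356))) (XT.nd (nat_lit 78) (nat_lit 760) (nat_lit 0) (XT.lf (nat_lit 0) (nat_lit 1120354596) (nat_lit 912) (nat_lit 683785239) (nat_lit 76) (nat_lit 5732022613) (nat_lit 408) (nat_lit 5) (nat_lit 420) (nat_lit 5) (nat_lit 409) (nat_lit 4) (nat_lit 428) (nat_lit 357) (nat_lit 355)) (XT.lf (nat_lit 0) (nat_lit 4843956598) (nat_lit 836) (nat_lit 2186519706) (nat_lit 0) (nat_lit 552624709) (nat_lit 398) (nat_lit 5) (nat_lit 409) (nat_lit 4) (nat_lit 398) (nat_lit 4) (nat_lit 429) (nat_lit 357) (nat_lit 354)))) (XT.nd (nat_lit 156) (nat_lit 1596) (nat_lit 0) (XT.nd (nat_lit 78) (nat_lit 760) (nat_lit 0) (XT.lf (nat_lit 0) (nat_lit 972837464) (nat_lit 836) (nat_lit 3700918589) (nat_lit 76) (nat_lit 2957590099) (nat_lit 387) (nat_lit 5) (nat_lit 398) (nat_lit 5) (nat_lit 388) (nat_lit 4) (nat_lit 430) (nat_lit 357) (nat_lit 353)) (XT.lf (nat_lit 0) (nat_lit 2453026748) (nat_lit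 760) (nat_lit 2233527772) (nat_lit 836) (nat_lit 2994356106) (nat_lit 377) (nat_lit 5) (nat_lit 387) (nat_lit 5) (nat_lit 388) (nat_lit 4) (nat_lit 431) (nat_lit 357) (nat_lit 352))) (XT.nd (nat_lit 78) (nat_lit 760) (nat_lit 0) (XT.lf (nat_lit 0) (nat_lit 700276931) (nat_lit 836) (nat_lit 6757156063) (nat_lit 76) (nat_lit 274598045) (nat_lit 366) (nat_lit 5) (nat_lit 377) (nat_lit 5) (nat_lit 367) (nat_lit 4) (nat_lit 432) (nat_lit 357) (nat_lit 351)) (XT.nd (nat_lit 78) (nat_lit 760) (nat_lit 0) (XT.lf (nat_lit 0) (nat_lit 4413333200) (nat_lit 836) (nat_lit 526809685) (nat_lit 76) (nat_lit 2843942619) (nat_lit 366) (nat_lit 5) (nat_lit 377) (nat_lit 5) (nat_lit 367) (nat_lit 4) (nat_lit 433) (nat_lit 357) (nat_lit 350)) (XT.lf (nat_lit 0) (nat_lit 332114439) (nat_lit 760) (nat_lit 2014802299) (nat_lit 76) (nat_lit 5490748886) (nat_lit 356) (nat_lit 5) (nat_lit 366) (nat_lit 5) (nat_lit 357) (nat_lit 5) (nat_lit 434) (nat_lit 357) (nat_lit 349)))))) (XT.nd (nat_lit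 390) (nat_lit 2508) (nat_lit 0) (XT.nd (nat_lit 156) (nat_lit 1444) (nat_lit 0) (XT.nd (nat_lit 78) (nat_lit 684) (nat_lit 0) (XT.lf (nat_lit 0) (nat_lit 4034160563) (nat_lit 760) (nat_lit 3525091856) (nat_lit 76) (nat_lit 333214185) (nat_lit 347) (nat_lit 5) (nat_lit 357) (nat_lit 5) (nat_lit 348) (nat_lit 4) (nat_lit 435) (nat_lit 357) (nat_lit 348)) (XT.lf (nat_lit 0) (nat_lit 2898384641) (nat_lit 684) (nat_lit 4896560772) (nat_lit 760) (nat_lit 153724236) (nat_lit 338) (nat_lit 5) (nat_lit 347) (nat_lit 5) (nat_lit 348) (nat_lit 4) (nat_lit 436) (nat_lit 357) (nat_lit 347))) (XT.nd (nat_lit 78) (nat_lit 684) (nat_lit 0) (XT.lf (nat_lit 0) (nat_lit 1406629291) (nat_lit 684) (nat_lit 2140757616) (nat_lit 760) (nat_lit 4458739545) (nat_lit 328) (nat_lit 5) (nat_lit 337) (nat_lit 5) (nat_lit 338) (nat_lit 5) (nat_lit 437) (nat_lit 357) (nat_lit 346)) (XT.nd (nat_lit 78) (nat_lit 684) (nat_lit 0) (XT.lf (nat_lit 0) (nat_lit 7296561928) (nat_lit 760) (nat_lit 89823163)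 (nat_lit 76) (nat_lit 678804978) (nat_lit 328) (nat_lit 5) (nat_lit 338) (nat_lit 5) (nat_lit 329) (nat_lit 4) (nat_lit 438) (nat_lit 357) (nat_lit 345)) (XT.lf (nat_lit 0) (nat_lit 2951479229) (nat_lit 684) (nat_lit 1602996907) (nat_lit 76) (nat_lit 3570660323) (nat_lit 319) (nat_lit 5) (nat_lit 328) (nat_lit 5) (nat_lit 320) (nat_lit 5) (nat_lit 439) (nat_lit 357) (nat_lit 344))))) (XT.nd (nat_lit 156) (nat_lit 1216) (nat_lit 0) (XT.nd (nat_lit 78) (nat_lit 684) (nat_lit 0) (XT.lf (nat_lit 0) (nat_lit 5062587174) (nat_lit 608) (nat_lit 1645735363) (nat_lit 684) (nat_lit 1478405116) (nat_lit 311) (nat_lit 5) (nat_lit 319) (nat_lit 5) (nat_lit 320) (nat_lit 5) (nat_lit 440) (nat_lit 357) (nat_lit 343)) (XT.lf (nat_lit 0) (nat_lit 2243010058) (nat_lit 684) (nat_lit 4672881646) (nat_lit 76) (nat_lit 1333715470) (nat_lit 302) (nat_lit 5) (nat_lit 311) (nat_lit 5) (nat_lit 303) (nat_lit 5) (nat_lit 441) (nat_lit 357) (nat_lit 342))) (XT.nd (nat_lit 78) (nat_lit 608)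 (nat_lit 0) (XT.lf (nat_lit 0) (nat_lit 2066076199) (nat_lit 608) (nat_lit 3938376345) (nat_lit 684) (nat_lit 2309388400) (nat_lit 294) (nat_lit 5) (nat_lit 302) (nat_lit 5) (nat_lit 303) (nat_lit 5) (nat_lit 442) (nat_lit 357) (nat_lit 341)) (XT.nd (nat_lit 78) (nat_lit 0) (nat_lit 0) (XT.lf (nat_lit 0) (nat_lit 540729117) (nat_lit 532) (nat_lit 877162308) (nat_lit 608) (nat_lit 6961772185) (nat_lit 286) (nat_lit 5) (nat_lit 293) (nat_lit 5) (nat_lit 294) (nat_lit 5) (nat_lit 443) (nat_lit 357) (nat_lit 340)) (XT.lf (nat_lit 0) (nat_lit 5186336612) (nat_lit 608) (nat_lit 1008028027) (nat_lit 76) (nat_lit 2252181939) (nat_lit 286) (nat_lit 5) (nat_lit 294) (nat_lit 5) (nat_lit 287) (nat_lit 5) (nat_lit 444) (nat_lit 357) (nat_lit 339))))))))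
noncomputable def xc14 : XT := (XT.nd (nat_lit 1482) (nat_lit 2280) (nat_lit 0) (XT.nd (nat_lit 702) (nat_lit 3648) (nat_lit 0) (XT.nd (nat_lit 312) (nat_lit 2128) (nat_lit 0) (XT.nd (nat_lit 156) (nat_lit 1140) (nat_lit 0) (XT.nd (nat_lit 78) (nat_lit 532) (nat_lit 0) (XT.lf (nat_lit 0) (nat_lit 494879861) (nat_lit 684) (nat_lit 2566547656) (nat_lit 76) (nat_lit 5453547651) (nat_lit 277) (nat_lit 5) (nat_lit 286) (nat_lit 5) (nat_lit 278) (nat_lit 5) (nat_lit 445) (nat_lit 357) (nat_lit 338)) (XT.lf (nat_lit 0) (nat_lit 4260266365) (nat_lit 608) (nat_lit 4156636758) (nat_lit 76) (nat_lit 167861224) (nat_lit 270) (nat_lit 5) (nat_lit 278) (nat_lit 5) (nat_lit 271) (nat_lit 5) (nat_lit 446) (nat_lit 357) (nat_lit 337))) (XT.nd (nat_lit 78) (nat_lit 608) (nat_lit 0) (XT.lf (nat_lit 0) (nat_lit 2878534595) (nat_lit 532) (nat_lit 5221334901) (nat_lit 608) (nat_lit 556101636) (nat_lit 263) (nat_lit 5) (nat_lit 270) (nat_lit 5) (nat_lit 271) (nat_lit 5) (nat_lit 447)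 (nat_lit 357) (nat_lit 336)) (XT.lf (nat_lit 0) (nat_lit 1297252907) (nat_lit 532) (nat_lit 1926628925) (nat_lit 608) (nat_lit 5504706558) (nat_lit 255) (nat_lit 5) (nat_lit 262) (nat_lit 5) (nat_lit 263) (nat_lit 5) (nat_lit 448) (nat_lit 357) (nat_lit 335)))) (XT.nd (nat_lit 156) (nat_lit 1520) (nat_lit 0) (XT.nd (nat_lit 78) (nat_lit 608) (nat_lit 0) (XT.lf (nat_lit 0) (nat_lit 7063643310) (nat_lit 608) (nat_lit 304765483) (nat_lit 76) (nat_lit 1434343191) (nat_lit 255) (nat_lit 5) (nat_lit 263) (nat_lit 5) (nat_lit 256) (nat_lit 5) (nat_lit 449) (nat_lit 357) (nat_lit 334)) (XT.lf (nat_lit 0) (nat_lit 2076612605) (nat_lit 608) (nat_lit 1928902412) (nat_lit 76) (nat_lit 4872563370) (nat_lit 247) (nat_lit 5) (nat_lit 255) (nat_lit 5) (nat_lit 248) (nat_lit 5) (nat_lit 450) (nat_lit 357) (nat_lit 333))) (XT.nd (nat_lit 78) (nat_lit 1064) (nat_lit 0) (XT.lf (nat_lit 0) (nat_lit 5376439822) (nat_lit 456) (nat_lit 550513979) (nat_lit 532) (nat_lit 3028095764) (nat_lit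 241) (nat_lit 5) (nat_lit 247) (nat_lit 5) (nat_lit 248) (nat_lit 5) (nat_lit 451) (nat_lit 357) (nat_lit 332)) (XT.nd (nat_lit 78) (nat_lit 456) (nat_lit 0) (XT.lf (nat_lit 0) (nat_lit 811820057) (nat_lit 608) (nat_lit 5268482596) (nat_lit 76) (nat_lit 2953114085) (nat_lit 233) (nat_lit 5) (nat_lit 241) (nat_lit 5) (nat_lit 234) (nat_lit 5) (nat_lit 452) (nat_lit 357) (nat_lit 331)) (XT.lf (nat_lit 0) (nat_lit 2114248646) (nat_lit 456) (nat_lit 2560537067) (nat_lit 532) (nat_lit 4438429273) (nat_lit 227) (nat_lit 5) (nat_lit 233) (nat_lit 5) (nat_lit 234) (nat_lit 5) (nat_lit 453) (nat_lit 357) (nat_lit 330)))))) (XT.nd (nat_lit 390) (nat_lit 1748) (nat_lit 0) (XT.nd (nat_lit 156) (nat_lit 1368) (nat_lit 0) (XT.nd (nat_lit 78) (nat_lit 76) (nat_lit 0) (XT.lf (nat_lit 0) (nat_lit 440004558) (nat_lit 456) (nat_lit 8165736402) (nat_lit 532) (nat_lit 589053634) (nat_lit 221) (nat_lit 5) (nat_lit 227) (nat_lit 5) (nat_lit 228) (nat_lit 5) (nat_lit 454) (nat_lit 357)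 (nat_lit 329)) (XT.lf (nat_lit 0) (nat_lit 3303562728) (nat_lit 532) (nat_lit 1274557722) (nat_lit 76) (nat_lit 4699251530) (nat_lit 220) (nat_lit 5) (nat_lit 227) (nat_lit 5) (nat_lit 221) (nat_lit 5) (nat_lit 455) (nat_lit 357) (nat_lit 328))) (XT.nd (nat_lit 78) (nat_lit 912) (nat_lit 0) (XT.lf (nat_lit 0) (nat_lit 6355136085) (nat_lit 456) (nat_lit 899127663) (nat_lit 532) (nat_lit 2107496898) (nat_lit 214) (nat_lit 5) (nat_lit 220) (nat_lit 5) (nat_lit 221) (nat_lit 5) (nat_lit 456) (nat_lit 357) (nat_lit 327)) (XT.nd (nat_lit 78) (nat_lit 380) (nat_lit 0) (XT.lf (nat_lit 0) (nat_lit 1816754115) (nat_lit 532) (nat_lit 4789947929) (nat_lit 76) (nat_lit 2840802738) (nat_lit 207) (nat_lit 5) (nat_lit 214) (nat_lit 5) (nat_lit 208) (nat_lit 5) (nat_lit 457) (nat_lit 357) (nat_lit 326)) (XT.lf (nat_lit 0) (nat_lit 2919338546) (nat_lit 380) (nat_lit 2864558029) (nat_lit 456) (nat_lit 3750936098) (nat_lit 202) (nat_lit 5) (nat_lit 207) (nat_lit 5) (nat_lit 208)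 (nat_lit 5) (nat_lit 458) (nat_lit 357) (nat_lit 325))))) (XT.nd (nat_lit 156) (nat_lit 1216) (nat_lit 0) (XT.nd (nat_lit 78) (nat_lit 0) (nat_lit 0) (XT.lf (nat_lit 0) (nat_lit 197466944) (nat_lit 532) (nat_lit 8472591957) (nat_lit 76) (nat_lit 953947408) (nat_lit 195) (nat_lit 5) (nat_lit 202) (nat_lit 5) (nat_lit 196) (nat_lit 5) (nat_lit 459) (nat_lit 357) (nat_lit 324)) (XT.lf (nat_lit 0) (nat_lit 4186198792) (nat_lit 532) (nat_lit 675466060) (nat_lit 76) (nat_lit 4852570975) (nat_lit 195) (nat_lit 5) (nat_lit 202) (nat_lit 5) (nat_lit 196) (nat_lit 5) (nat_lit 460) (nat_lit 357) (nat_lit 323))) (XT.nd (nat_lit 78) (nat_lit 836) (nat_lit 0) (XT.lf (nat_lit 0) (nat_lit 7294227199) (nat_lit 380) (nat_lit 956739787) (nat_lit 456) (nat_lit 1555377716) (nat_lit 190) (nat_lit 5) (nat_lit 195) (nat_lit 5) (nat_lit 196) (nat_lit 5) (nat_lit 461) (nat_lit 357) (nat_lit 322)) (XT.nd (nat_lit 78) (nat_lit 380) (nat_lit 0) (XT.lf (nat_lit 0) (nat_lit 2473220362) (nat_lit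 456) (nat_lit 4410943131) (nat_lit 76) (nat_lit 3015623438) (nat_lit 184) (nat_lit 5) (nat_lit 190) (nat_lit 5) (nat_lit 185) (nat_lit 5) (nat_lit 462) (nat_lit 357) (nat_lit 321)) (XT.lf (nat_lit 0) (nat_lit 3640613018) (nat_lit 380) (nat_lit 2917277392) (nat_lit 456) (nat_lit 3437075443) (nat_lit 179) (nat_lit 5) (nat_lit 184) (nat_lit 5) (nat_lit 185) (nat_lit 5) (nat_lit 463) (nat_lit 357) (nat_lit 320))))))) (XT.nd (nat_lit 56316) (nat_lit 0) (nat_lit 15732) (XT.nd (nat_lit 312) (nat_lit 1064) (nat_lit 0) (XT.nd (nat_lit 156) (nat_lit 760) (nat_lit 0) (XT.nd (nat_lit 78) (nat_lit 0) (nat_lit 0) (XT.lf (nat_lit 0) (nat_lit 622094403) (nat_lit 456) (nat_lit 8338915817) (nat_lit 76) (nat_lit 1130992431) (nat_lit 173) (nat_lit 5) (nat_lit 179) (nat_lit 5) (nat_lit 174) (nat_lit 5) (nat_lit 464) (nat_lit 357) (nat_lit 319)) (XT.lf (nat_lit 0) (nat_lit 4728510965) (nat_lit 456) (nat_lit 203618427) (nat_lit 76) (nat_lit 5258154698) (nat_lit 173) (nat_lit 5) (nat_lit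 179) (nat_lit 5) (nat_lit 174) (nat_lit 5) (nat_lit 465) (nat_lit 357) (nat_lit 318))) (XT.nd (nat_lit 78) (nat_lit 456) (nat_lit 0) (XT.lf (nat_lit 0) (nat_lit 8122543841) (nat_lit 304) (nat_lit 798032859) (nat_lit 380) (nat_lit 1369884040) (nat_lit 169) (nat_lit 5) (nat_lit 173) (nat_lit 5) (nat_lit 174) (nat_lit 5) (nat_lit 466) (nat_lit 357) (nat_lit 317)) (XT.lf (nat_lit 0) (nat_lit 2782088408) (nat_lit 456) (nat_lit 4204724234) (nat_lit 76) (nat_lit 3405163824) (nat_lit 163) (nat_lit 5) (nat_lit 169) (nat_lit 5) (nat_lit 164) (nat_lit 5) (nat_lit 467) (nat_lit 357) (nat_lit 316)))) (XT.nd (nat_lit 156) (nat_lit 304) (nat_lit 0) (XT.nd (nat_lit 78) (nat_lit 456) (nat_lit 0) (XT.lf (nat_lit 0) (nat_lit 4205612176) (nat_lit 304) (nat_lit 2791583208) (nat_lit 380) (nat_lit 3498177266) (nat_lit 159) (nat_lit 5) (nat_lit 163) (nat_lit 5) (nat_lit 164) (nat_lit 5) (nat_lit 468) (nat_lit 357) (nat_lit 315)) (XT.lf (nat_lit 0) (nat_lit 690326617) (nat_lit 456) (nat_lit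 8424698821) (nat_lit 76) (nat_lit 1485647293) (nat_lit 153) (nat_lit 5) (nat_lit 159) (nat_lit 5) (nat_lit 154) (nat_lit 5) (nat_lit 469) (nat_lit 357) (nat_lit 314))) (XT.nd (nat_lit 78) (nat_lit 0) (nat_lit 0) (XT.lf (nat_lit 0) (nat_lit 68866880) (nat_lit 304) (nat_lit 4859923092) (nat_lit 380) (nat_lit 5778565782) (nat_lit 149) (nat_lit 5) (nat_lit 153) (nat_lit 5) (nat_lit 154) (nat_lit 5) (nat_lit 470) (nat_lit 357) (nat_lit 313)) (XT.nd (nat_lit 55692) (nat_lit 0) (nat_lit 22420) (XT.lf (nat_lit 0) (nat_lit 8767873196) (nat_lit 304) (nat_lit 492687403) (nat_lit 380) (nat_lit 1555441080) (nat_lit 149) (nat_lit 5) (nat_lit 153) (nat_lit 5) (nat_lit 154) (nat_lit 5) (nat_lit 471) (nat_lit 357) (nat_lit 312)) (XT.lf (nat_lit 0) (nat_lit 1339824305) (nat_lit 912) (nat_lit 1000516588) (nat_lit 0) (nat_lit 1339824305) (nat_lit 444) (nat_lit 5) (nat_lit 456) (nat_lit 4) (nat_lit 444) (nat_lit 4) (nat_lit 424) (nat_lit 358) (nat_lit 358)))))) (XT.nd (nat_lit 390)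 (nat_lit 3192) (nat_lit 0) (XT.nd (nat_lit 156) (nat_lit 1672) (nat_lit 0) (XT.nd (nat_lit 78) (nat_lit 912) (nat_lit 0) (XT.lf (nat_lit 0) (nat_lit 3827056903) (nat_lit 912) (nat_lit 2561969102) (nat_lit 912) (nat_lit 1013812927) (nat_lit 432) (nat_lit 4) (nat_lit 444) (nat_lit 5) (nat_lit 444) (nat_lit 4) (nat_lit 425) (nat_lit 358) (nat_lit 357)) (XT.lf (nat_lit 0) (nat_lit 2287390133) (nat_lit 836) (nat_lit 362781391) (nat_lit 912) (nat_lit 4796481374) (nat_lit 420) (nat_lit 5) (nat_lit 431) (nat_lit 5) (nat_lit 432) (nat_lit 4) (nat_lit 426) (nat_lit 358) (nat_lit 356))) (XT.nd (nat_lit 78) (nat_lit 836) (nat_lit 0) (XT.lf (nat_lit 0) (nat_lit 737512535) (nat_lit 836) (nat_lit 5609467943) (nat_lit 836) (nat_lit 1144766245) (nat_lit 409) (nat_lit 4) (nat_lit 420) (nat_lit 5) (nat_lit 420) (nat_lit 4) (nat_lit 427) (nat_lit 358) (nat_lit 355)) (XT.nd (nat_lit 78) (nat_lit 760) (nat_lit 0) (XT.lf (nat_lit 0) (nat_lit 2515737711) (nat_lit 912) (nat_lit 813168522)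 (nat_lit 76) (nat_lit 4209109342) (nat_lit 408) (nat_lit 5) (nat_lit 420) (nat_lit 5) (nat_lit 409) (nat_lit 4) (nat_lit 428) (nat_lit 358) (nat_lit 354)) (XT.lf (nat_lit 0) (nat_lit 5230387375) (nat_lit 760) (nat_lit 971374416) (nat_lit 836) (nat_lit 1383943904) (nat_lit 398) (nat_lit 5) (nat_lit 408) (nat_lit 5) (nat_lit 409) (nat_lit 4) (nat_lit 429) (nat_lit 358) (nat_lit 353))))) (XT.nd (nat_lit 156) (nat_lit 1596) (nat_lit 0) (XT.nd (nat_lit 78) (nat_lit 760) (nat_lit 0) (XT.lf (nat_lit 0) (nat_lit 2269890020) (nat_lit 836) (nat_lit 3916674927) (nat_lit 76) (nat_lit 1448017397) (nat_lit 387) (nat_lit 5) (nat_lit 398) (nat_lit 5) (nat_lit 388) (nat_lit 4) (nat_lit 430) (nat_lit 358) (nat_lit 352)) (XT.lf (nat_lit 0) (nat_lit 2195060784) (nat_lit 760) (nat_lit 3754567899) (nat_lit 836) (nat_lit 1735197702) (nat_lit 377) (nat_lit 5) (nat_lit 387) (nat_lit 5) (nat_lit 388) (nat_lit 4) (nat_lit 431) (nat_lit 358) (nat_lit 351))) (XT.nd (nat_lit 78) (nat_lit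 760) (nat_lit 0) (XT.lf (nat_lit 0) (nat_lit 663555543) (nat_lit 760) (nat_lit 1243393951) (nat_lit 836) (nat_lit 5829553232) (nat_lit 366) (nat_lit 5) (nat_lit 376) (nat_lit 5) (nat_lit 377) (nat_lit 5) (nat_lit 432) (nat_lit 358) (nat_lit 350)) (XT.nd (nat_lit 78) (nat_lit 760) (nat_lit 0) (XT.lf (nat_lit 0) (nat_lit 5580134032) (nat_lit 836) (nat_lit 873858937) (nat_lit 76) (nat_lit 1335361659) (nat_lit 366) (nat_lit 5) (nat_lit 377) (nat_lit 5) (nat_lit 367) (nat_lit 4) (nat_lit 433) (nat_lit 358) (nat_lit 349)) (XT.lf (nat_lit 0) (nat_lit 1444477000) (nat_lit 760) (nat_lit 2418797508) (nat_lit 76) (nat_lit 3980188121) (nat_lit 356) (nat_lit 5) (nat_lit 366) (nat_lit 5) (nat_lit 357) (nat_lit 5) (nat_lit 434) (nat_lit 358) (nat_lit 348))))))))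
noncomputable def xc15 : XT := (XT.nd (nat_lit 1482) (nat_lit 5624) (nat_lit 0) (XT.nd (nat_lit 702) (nat_lit 5016) (nat_lit 0) (XT.nd (nat_lit 312) (nat_lit 2584) (nat_lit 0) (XT.nd (nat_lit 156) (nat_lit 760) (nat_lit 0) (XT.nd (nat_lit 78) (nat_lit 760) (nat_lit 0) (XT.lf (nat_lit 0) (nat_lit 3921013767) (nat_lit 684) (nat_lit 1189387792) (nat_lit 760) (nat_lit 2788584481) (nat_lit 347) (nat_lit 5) (nat_lit 356) (nat_lit 5) (nat_lit 357) (nat_lit 5) (nat_lit 435) (nat_lit 358) (nat_lit 347)) (XT.lf (nat_lit 0) (nat_lit 862091518) (nat_lit 760) (nat_lit 5553927258) (nat_lit 76) (nat_lit 1539889210) (nat_lit 337) (nat_lit 5) (nat_lit 347) (nat_lit 5) (nat_lit 338) (nat_lit 5) (nat_lit 436) (nat_lit 358) (nat_lit 346))) (XT.nd (nat_lit 78) (nat_lit 76) (nat_lit 0) (XT.lf (nat_lit 0) (nat_lit 855586416) (nat_lit 684) (nat_lit 3671462746) (nat_lit 760) (nat_lit 3486978412) (nat_lit 328) (nat_lit 5) (nat_lit 337) (nat_lit 5) (nat_lit 338) (nat_lit 5) (nat_lit 437)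 (nat_lit 358) (nat_lit 345)) (XT.lf (nat_lit 0) (nat_lit 165560268) (nat_lit 760) (nat_lit 684912597) (nat_lit 76) (nat_lit 7223290119) (nat_lit 327) (nat_lit 5) (nat_lit 337) (nat_lit 5) (nat_lit 328) (nat_lit 5) (nat_lit 438) (nat_lit 358) (nat_lit 344)))) (XT.nd (nat_lit 156) (nat_lit 1368) (nat_lit 0) (XT.nd (nat_lit 78) (nat_lit 608) (nat_lit 0) (XT.lf (nat_lit 0) (nat_lit 3835995245) (nat_lit 684) (nat_lit 2253694954) (nat_lit 76) (nat_lit 2044711203) (nat_lit 319) (nat_lit 5) (nat_lit 328) (nat_lit 5) (nat_lit 320) (nat_lit 5) (nat_lit 439) (nat_lit 358) (nat_lit 343)) (XT.lf (nat_lit 0) (nat_lit 4363895974) (nat_lit 608) (nat_lit 3194868099) (nat_lit 684) (nat_lit 637910011) (nat_lit 311) (nat_lit 5) (nat_lit 319) (nat_lit 5) (nat_lit 320) (nat_lit 5) (nat_lit 440) (nat_lit 358) (nat_lit 342))) (XT.nd (nat_lit 78) (nat_lit 684) (nat_lit 0) (XT.lf (nat_lit 0) (nat_lit 2822608030) (nat_lit 608) (nat_lit 206742282) (nat_lit 684) (nat_lit 5230956785) (nat_lit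 302) (nat_lit 5) (nat_lit 310) (nat_lit 5) (nat_lit 311) (nat_lit 5) (nat_lit 441) (nat_lit 358) (nat_lit 341)) (XT.nd (nat_lit 78) (nat_lit 76) (nat_lit 0) (XT.lf (nat_lit 0) (nat_lit 1252705933) (nat_lit 608) (nat_lit 5502323468) (nat_lit 684) (nat_lit 1570226734) (nat_lit 294) (nat_lit 5) (nat_lit 302) (nat_lit 5) (nat_lit 303) (nat_lit 5) (nat_lit 442) (nat_lit 358) (nat_lit 340)) (XT.lf (nat_lit 0) (nat_lit 2114835418) (nat_lit 684) (nat_lit 335302367) (nat_lit 76) (nat_lit 5941495501) (nat_lit 293) (nat_lit 5) (nat_lit 302) (nat_lit 5) (nat_lit 294) (nat_lit 5) (nat_lit 443) (nat_lit 358) (nat_lit 339)))))) (XT.nd (nat_lit 390) (nat_lit 2128) (nat_lit 0) (XT.nd (nat_lit 156) (nat_lit 1672) (nat_lit 0) (XT.nd (nat_lit 78) (nat_lit 684) (nat_lit 0) (XT.lf (nat_lit 0) (nat_lit 5842082118) (nat_lit 608) (nat_lit 1929904554) (nat_lit 76) (nat_lit 687353552) (nat_lit 286) (nat_lit 5) (nat_lit 294) (nat_lit 5) (nat_lit 287) (nat_lit 5) (nat_lit 444) (nat_lit 358)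 (nat_lit 338)) (XT.lf (nat_lit 0) (nat_lit 1094649140) (nat_lit 684) (nat_lit 3557447485) (nat_lit 76) (nat_lit 3876283702) (nat_lit 277) (nat_lit 5) (nat_lit 286) (nat_lit 5) (nat_lit 278) (nat_lit 5) (nat_lit 445) (nat_lit 358) (nat_lit 337))) (XT.nd (nat_lit 78) (nat_lit 1140) (nat_lit 0) (XT.lf (nat_lit 0) (nat_lit 3385724198) (nat_lit 532) (nat_lit 1438348468) (nat_lit 608) (nat_lit 3774816101) (nat_lit 270) (nat_lit 5) (nat_lit 277) (nat_lit 5) (nat_lit 278) (nat_lit 5) (nat_lit 446) (nat_lit 358) (nat_lit 336)) (XT.nd (nat_lit 78) (nat_lit 608) (nat_lit 0) (XT.lf (nat_lit 0) (nat_lit 1777735730) (nat_lit 532) (nat_lit 6841599569) (nat_lit 608) (nat_lit 51647063) (nat_lit 263) (nat_lit 5) (nat_lit 270) (nat_lit 5) (nat_lit 271) (nat_lit 5) (nat_lit 447) (nat_lit 358) (nat_lit 335)) (XT.lf (nat_lit 0) (nat_lit 123489869) (nat_lit 532) (nat_lit 3562865991) (nat_lit 608) (nat_lit 5057885544) (nat_lit 255) (nat_lit 5) (nat_lit 262) (nat_lit 5) (nat_lit 263)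 (nat_lit 5) (nat_lit 448) (nat_lit 358) (nat_lit 334))))) (XT.nd (nat_lit 156) (nat_lit 1520) (nat_lit 0) (XT.nd (nat_lit 78) (nat_lit 608) (nat_lit 0) (XT.lf (nat_lit 0) (nat_lit 7294823531) (nat_lit 532) (nat_lit 194404273) (nat_lit 608) (nat_lit 1329914987) (nat_lit 255) (nat_lit 5) (nat_lit 262) (nat_lit 5) (nat_lit 263) (nat_lit 5) (nat_lit 449) (nat_lit 358) (nat_lit 333)) (XT.lf (nat_lit 0) (nat_lit 2443677310) (nat_lit 608) (nat_lit 3222159753) (nat_lit 76) (nat_lit 3229314241) (nat_lit 247) (nat_lit 5) (nat_lit 255) (nat_lit 5) (nat_lit 248) (nat_lit 5) (nat_lit 450) (nat_lit 358) (nat_lit 332))) (XT.nd (nat_lit 78) (nat_lit 1064) (nat_lit 0) (XT.lf (nat_lit 0) (nat_lit 4026652680) (nat_lit 456) (nat_lit 2231716213) (nat_lit 532) (nat_lit 2714466582) (nat_lit 241) (nat_lit 5) (nat_lit 247) (nat_lit 5) (nat_lit 248) (nat_lit 5) (nat_lit 451) (nat_lit 358) (nat_lit 331)) (XT.nd (nat_lit 78) (nat_lit 456) (nat_lit 0) (XT.lf (nat_lit 0) (nat_lit 1074241669)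 (nat_lit 608) (nat_lit 6703162301) (nat_lit 76) (nat_lit 1274699837) (nat_lit 233) (nat_lit 5) (nat_lit 241) (nat_lit 5) (nat_lit 234) (nat_lit 5) (nat_lit 452) (nat_lit 358) (nat_lit 330)) (XT.lf (nat_lit 0) (nat_lit 620860090) (nat_lit 456) (nat_lit 4280060958) (nat_lit 532) (nat_lit 4231706732) (nat_lit 227) (nat_lit 5) (nat_lit 233) (nat_lit 5) (nat_lit 234) (nat_lit 5) (nat_lit 453) (nat_lit 358) (nat_lit 329))))))) (XT.nd (nat_lit 780) (nat_lit 1976) (nat_lit 0) (XT.nd (nat_lit 390) (nat_lit 1748) (nat_lit 0) (XT.nd (nat_lit 156) (nat_lit 1368) (nat_lit 0) (XT.nd (nat_lit 78) (nat_lit 532) (nat_lit 0) (XT.lf (nat_lit 0) (nat_lit 8103717940) (nat_lit 456) (nat_lit 692229058) (nat_lit 532) (nat_lit 418978976) (nat_lit 227) (nat_lit 5) (nat_lit 233) (nat_lit 5) (nat_lit 234) (nat_lit 5) (nat_lit 454) (nat_lit 358) (nat_lit 328)) (XT.lf (nat_lit 0) (nat_lit 3433241851) (nat_lit 532) (nat_lit 2896778120) (nat_lit 76) (nat_lit 2968224604) (nat_lit 220) (nat_lit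 5) (nat_lit 227) (nat_lit 5) (nat_lit 221) (nat_lit 5) (nat_lit 455) (nat_lit 358) (nat_lit 327))) (XT.nd (nat_lit 78) (nat_lit 912) (nat_lit 0) (XT.lf (nat_lit 0) (nat_lit 4672215023) (nat_lit 456) (nat_lit 2675005552) (nat_lit 532) (nat_lit 2036147113) (nat_lit 214) (nat_lit 5) (nat_lit 220) (nat_lit 5) (nat_lit 221) (nat_lit 5) (nat_lit 456) (nat_lit 358) (nat_lit 326)) (XT.nd (nat_lit 78) (nat_lit 380) (nat_lit 0) (XT.lf (nat_lit 0) (nat_lit 1838300688) (nat_lit 532) (nat_lit 6567482439) (nat_lit 76) (nat_lit 1064296780) (nat_lit 207) (nat_lit 5) (nat_lit 214) (nat_lit 5) (nat_lit 208) (nat_lit 5) (nat_lit 457) (nat_lit 358) (nat_lit 325)) (XT.lf (nat_lit 0) (nat_lit 1078778491) (nat_lit 380) (nat_lit 4689176281) (nat_lit 456) (nat_lit 3790202795) (nat_lit 202) (nat_lit 5) (nat_lit 207) (nat_lit 5) (nat_lit 208) (nat_lit 5) (nat_lit 458) (nat_lit 358) (nat_lit 324))))) (XT.nd (nat_lit 156) (nat_lit 1216) (nat_lit 0) (XT.nd (nat_lit 78) (nat_lit 456) (nat_lit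 0) (XT.lf (nat_lit 0) (nat_lit 119466182) (nat_lit 456) (nat_lit 759967857) (nat_lit 76) (nat_lit 8768687242) (nat_lit 201) (nat_lit 5) (nat_lit 207) (nat_lit 5) (nat_lit 202) (nat_lit 5) (nat_lit 459) (nat_lit 358) (nat_lit 323)) (XT.lf (nat_lit 0) (nat_lit 4072159592) (nat_lit 532) (nat_lit 2654548671) (nat_lit 76) (nat_lit 3012363305) (nat_lit 195) (nat_lit 5) (nat_lit 202) (nat_lit 5) (nat_lit 196) (nat_lit 5) (nat_lit 460) (nat_lit 358) (nat_lit 322))) (XT.nd (nat_lit 78) (nat_lit 836) (nat_lit 0) (XT.lf (nat_lit 0) (nat_lit 5249972207) (nat_lit 380) (nat_lit 2848883244) (nat_lit 456) (nat_lit 1733086439) (nat_lit 190) (nat_lit 5) (nat_lit 195) (nat_lit 5) (nat_lit 196) (nat_lit 5) (nat_lit 461) (nat_lit 358) (nat_lit 321)) (XT.nd (nat_lit 78) (nat_lit 380) (nat_lit 0) (XT.lf (nat_lit 0) (nat_lit 2246782550) (nat_lit 456) (nat_lit 6560000479) (nat_lit 76) (nat_lit 1119645361) (nat_lit 184) (nat_lit 5) (nat_lit 190) (nat_lit 5) (nat_lit 185) (nat_lit 5) (nat_lit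 462) (nat_lit 358) (nat_lit 320)) (XT.lf (nat_lit 0) (nat_lit 1423897339) (nat_lit 380) (nat_lit 4868587292) (nat_lit 456) (nat_lit 3729902040) (nat_lit 179) (nat_lit 5) (nat_lit 184) (nat_lit 5) (nat_lit 185) (nat_lit 5) (nat_lit 463) (nat_lit 358) (nat_lit 319)))))) (XT.nd (nat_lit 390) (nat_lit 456) (nat_lit 0) (XT.nd (nat_lit 156) (nat_lit 1064) (nat_lit 0) (XT.nd (nat_lit 78) (nat_lit 380) (nat_lit 0) (XT.lf (nat_lit 0) (nat_lit 289732271) (nat_lit 456) (nat_lit 543307965) (nat_lit 76) (nat_lit 9287288779) (nat_lit 178) (nat_lit 5) (nat_lit 184) (nat_lit 5) (nat_lit 179) (nat_lit 5) (nat_lit 464) (nat_lit 358) (nat_lit 318)) (XT.lf (nat_lit 0) (nat_lit 4362777712) (nat_lit 456) (nat_lit 2568995912) (nat_lit 76) (nat_lit 3287504252) (nat_lit 173) (nat_lit 5) (nat_lit 179) (nat_lit 5) (nat_lit 174) (nat_lit 5) (nat_lit 465) (nat_lit 358) (nat_lit 317))) (XT.nd (nat_lit 78) (nat_lit 760) (nat_lit 0) (XT.lf (nat_lit 0) (nat_lit 5687190098) (nat_lit 304) (nat_lit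 2827954744) (nat_lit 380) (nat_lit 1805103656) (nat_lit 169) (nat_lit 5) (nat_lit 173) (nat_lit 5) (nat_lit 174) (nat_lit 5) (nat_lit 466) (nat_lit 358) (nat_lit 316)) (XT.nd (nat_lit 78) (nat_lit 304) (nat_lit 0) (XT.lf (nat_lit 0) (nat_lit 2298906321) (nat_lit 456) (nat_lit 6755621419) (nat_lit 76) (nat_lit 1368366407) (nat_lit 163) (nat_lit 5) (nat_lit 169) (nat_lit 5) (nat_lit 164) (nat_lit 5) (nat_lit 467) (nat_lit 358) (nat_lit 315)) (XT.lf (nat_lit 0) (nat_lit 1582075592) (nat_lit 304) (nat_lit 4891212384) (nat_lit 380) (nat_lit 4053816863) (nat_lit 159) (nat_lit 5) (nat_lit 163) (nat_lit 5) (nat_lit 164) (nat_lit 5) (nat_lit 468) (nat_lit 358) (nat_lit 314))))) (XT.nd (nat_lit 55692) (nat_lit 0) (nat_lit 22116) (XT.nd (nat_lit 78) (nat_lit 380) (nat_lit 0) (XT.lf (nat_lit 0) (nat_lit 94378658) (nat_lit 380) (nat_lit 532680588) (nat_lit 76) (nat_lit 10006369739) (nat_lit 158) (nat_lit 5) (nat_lit 163) (nat_lit 5) (nat_lit 159) (nat_lit 5) (nat_lit 469)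 (nat_lit 358) (nat_lit 313)) (XT.lf (nat_lit 0) (nat_lit 4301288170) (nat_lit 456) (nat_lit 2714916797) (nat_lit 76) (nat_lit 3724538119) (nat_lit 153) (nat_lit 5) (nat_lit 159) (nat_lit 5) (nat_lit 154) (nat_lit 5) (nat_lit 470) (nat_lit 358) (nat_lit 312))) (XT.nd (nat_lit 78) (nat_lit 912) (nat_lit 0) (XT.lf (nat_lit 0) (nat_lit 595781777) (nat_lit 912) (nat_lit 1521761644) (nat_lit 912) (nat_lit 1521761644) (nat_lit 456) (nat_lit 4) (nat_lit 468) (nat_lit 5) (nat_lit 468) (nat_lit 4) (nat_lit 422) (nat_lit 359) (nat_lit 359)) (XT.nd (nat_lit 78) (nat_lit 836) (nat_lit 0) (XT.lf (nat_lit 0) (nat_lit 587967992) (nat_lit 988) (nat_lit 423006339) (nat_lit 76) (nat_lit 6308364143) (nat_lit 455) (nat_lit 5) (nat_lit 468) (nat_lit 5) (nat_lit 456) (nat_lit 4) (nat_lit 423) (nat_lit 359) (nat_lit 358)) (XT.lf (nat_lit 0) (nat_lit 4224491226) (nat_lit 912) (nat_lit 2039308954) (nat_lit 0) (nat_lit 1097215752) (nat_lit 444) (nat_lit 5) (nat_lit 456) (nat_lit 4) (nat_lit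 444) (nat_lit 4) (nat_lit 424) (nat_lit 359) (nat_lit 357))))))))
noncomputable def xc16 : XT := (XT.nd (nat_lit 1482) (nat_lit 8284) (nat_lit 0) (XT.nd (nat_lit 702) (nat_lit 5548) (nat_lit 0) (XT.nd (nat_lit 312) (nat_lit 3192) (nat_lit 0) (XT.nd (nat_lit 156) (nat_lit 912) (nat_lit 0) (XT.nd (nat_lit 78) (nat_lit 836) (nat_lit 0) (XT.lf (nat_lit 0) (nat_lit 489059462) (nat_lit 988) (nat_lit 3657175531) (nat_lit 76) (nat_lit 3257907188) (nat_lit 431) (nat_lit 5) (nat_lit 444) (nat_lit 5) (nat_lit 432) (nat_lit 4) (nat_lit 425) (nat_lit 359) (nat_lit 356)) (XT.lf (nat_lit 0) (nat_lit 2160021458) (nat_lit 836) (nat_lit 1945491654) (nat_lit 912) (nat_lit 3342996078) (nat_lit 420) (nat_lit 5) (nat_lit 431) (nat_lit 5) (nat_lit 432) (nat_lit 4) (nat_lit 426) (nat_lit 359) (nat_lit 355))) (XT.nd (nat_lit 78) (nat_lit 0) (nat_lit 0) (XT.lf (nat_lit 0) (nat_lit 260042451) (nat_lit 912) (nat_lit 6917829122) (nat_lit 76) (nat_lit 316583907) (nat_lit 408) (nat_lit 5)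 (nat_lit 420) (nat_lit 5) (nat_lit 409) (nat_lit 4) (nat_lit 427) (nat_lit 359) (nat_lit 354)) (XT.lf (nat_lit 0) (nat_lit 3872693480) (nat_lit 912) (nat_lit 1022486789) (nat_lit 76) (nat_lit 2646052193) (nat_lit 408) (nat_lit 5) (nat_lit 420) (nat_lit 5) (nat_lit 409) (nat_lit 4) (nat_lit 428) (nat_lit 359) (nat_lit 353)))) (XT.nd (nat_lit 156) (nat_lit 1596) (nat_lit 0) (XT.nd (nat_lit 78) (nat_lit 836) (nat_lit 0) (XT.lf (nat_lit 0) (nat_lit 4980248539) (nat_lit 760) (nat_lit 2544649746) (nat_lit 836) (nat_lit 64700684) (nat_lit 398) (nat_lit 5) (nat_lit 408) (nat_lit 5) (nat_lit 409) (nat_lit 4) (nat_lit 429) (nat_lit 359) (nat_lit 352)) (XT.lf (nat_lit 0) (nat_lit 3423317359) (nat_lit 760) (nat_lit 104994879) (nat_lit 836) (nat_lit 4110862449) (nat_lit 387) (nat_lit 5) (nat_lit 397) (nat_lit 5) (nat_lit 398) (nat_lit 5) (nat_lit 430) (nat_lit 359) (nat_lit 351))) (XT.nd (nat_lit 78) (nat_lit 836) (nat_lit 0) (XT.lf (nat_lit 0) (nat_lit 1854022241) (nat_lit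 760) (nat_lit 5319462611) (nat_lit 836) (nat_lit 516625198) (nat_lit 377) (nat_lit 5) (nat_lit 387) (nat_lit 5) (nat_lit 388) (nat_lit 4) (nat_lit 431) (nat_lit 359) (nat_lit 350)) (XT.nd (nat_lit 78) (nat_lit 0) (nat_lit 0) (XT.lf (nat_lit 0) (nat_lit 265872601) (nat_lit 760) (nat_lit 2809583690) (nat_lit 836) (nat_lit 4666853543) (nat_lit 366) (nat_lit 5) (nat_lit 376) (nat_lit 5) (nat_lit 377) (nat_lit 5) (nat_lit 432) (nat_lit 359) (nat_lit 349)) (XT.lf (nat_lit 0) (nat_lit 6488791991) (nat_lit 760) (nat_lit 219932754) (nat_lit 836) (nat_lit 1087235311) (nat_lit 366) (nat_lit 5) (nat_lit 376) (nat_lit 5) (nat_lit 377) (nat_lit 5) (nat_lit 433) (nat_lit 359) (nat_lit 348)))))) (XT.nd (nat_lit 390) (nat_lit 2584) (nat_lit 0) (XT.nd (nat_lit 156) (nat_lit 1520) (nat_lit 0) (XT.nd (nat_lit 78) (nat_lit 684) (nat_lit 0) (XT.lf (nat_lit 0) (nat_lit 2516432924) (nat_lit 760) (nat_lit 2909083759) (nat_lit 76) (nat_lit 2425111966) (nat_lit 356) (nat_lit 5) (nat_lit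 366) (nat_lit 5) (nat_lit 357) (nat_lit 5) (nat_lit 434) (nat_lit 359) (nat_lit 347)) (XT.lf (nat_lit 0) (nat_lit 3385748211) (nat_lit 684) (nat_lit 2762725371) (nat_lit 760) (nat_lit 1758356158) (nat_lit 347) (nat_lit 5) (nat_lit 356) (nat_lit 5) (nat_lit 357) (nat_lit 5) (nat_lit 435) (nat_lit 359) (nat_lit 346))) (XT.nd (nat_lit 78) (nat_lit 760) (nat_lit 0) (XT.lf (nat_lit 0) (nat_lit 1816591444) (nat_lit 684) (nat_lit 17961843) (nat_lit 760) (nat_lit 6129949719) (nat_lit 337) (nat_lit 5) (nat_lit 346) (nat_lit 5) (nat_lit 347) (nat_lit 5) (nat_lit 436) (nat_lit 359) (nat_lit 345)) (XT.nd (nat_lit 78) (nat_lit 76) (nat_lit 0) (XT.lf (nat_lit 0) (nat_lit 214908758) (nat_lit 684) (nat_lit 5250365417) (nat_lit 760) (nat_lit 2558033155) (nat_lit 328) (nat_lit 5) (nat_lit 337) (nat_lit 5) (nat_lit 338) (nat_lit 5) (nat_lit 437) (nat_lit 359) (nat_lit 344)) (XT.lf (nat_lit 0) (nat_lit 1052505379) (nat_lit 760) (nat_lit 1379452281) (nat_lit 76) (nat_lit 5651560791)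 (nat_lit 327) (nat_lit 5) (nat_lit 337) (nat_lit 5) (nat_lit 328) (nat_lit 5) (nat_lit 438) (nat_lit 359) (nat_lit 343))))) (XT.nd (nat_lit 156) (nat_lit 1292) (nat_lit 0) (XT.nd (nat_lit 78) (nat_lit 684) (nat_lit 0) (XT.lf (nat_lit 0) (nat_lit 4678534594) (nat_lit 684) (nat_lit 2995842940) (nat_lit 76) (nat_lit 470667448) (nat_lit 319) (nat_lit 5) (nat_lit 328) (nat_lit 5) (nat_lit 320) (nat_lit 5) (nat_lit 439) (nat_lit 359) (nat_lit 342)) (XT.lf (nat_lit 0) (nat_lit 157123889) (nat_lit 684) (nat_lit 4635722216) (nat_lit 76) (nat_lit 3415132724) (nat_lit 310) (nat_lit 5) (nat_lit 319) (nat_lit 5) (nat_lit 311) (nat_lit 5) (nat_lit 440) (nat_lit 359) (nat_lit 341))) (XT.nd (nat_lit 78) (nat_lit 684) (nat_lit 0) (XT.lf (nat_lit 0) (nat_lit 1966087810) (nat_lit 608) (nat_lit 1815542704) (nat_lit 684) (nat_lit 4490586241) (nat_lit 302) (nat_lit 5) (nat_lit 310) (nat_lit 5) (nat_lit 311) (nat_lit 5) (nat_lit 441) (nat_lit 359) (nat_lit 340)) (XT.nd (nat_lit 78)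 (nat_lit 76) (nat_lit 0) (XT.lf (nat_lit 0) (nat_lit 344349714) (nat_lit 608) (nat_lit 7118048063) (nat_lit 684) (nat_lit 875666252) (nat_lit 294) (nat_lit 5) (nat_lit 302) (nat_lit 5) (nat_lit 303) (nat_lit 5) (nat_lit 442) (nat_lit 359) (nat_lit 339)) (XT.lf (nat_lit 0) (nat_lit 2771842826) (nat_lit 684) (nat_lit 1299559500) (nat_lit 76) (nat_lit 4333517540) (nat_lit 293) (nat_lit 5) (nat_lit 302) (nat_lit 5) (nat_lit 294) (nat_lit 5) (nat_lit 443) (nat_lit 359) (nat_lit 338))))))) (XT.nd (nat_lit 702) (nat_lit 3724) (nat_lit 0) (XT.nd (nat_lit 312) (nat_lit 2204) (nat_lit 0) (XT.nd (nat_lit 156) (nat_lit 1140) (nat_lit 0) (XT.nd (nat_lit 78) (nat_lit 684) (nat_lit 0) (XT.lf (nat_lit 0) (nat_lit 5518646939) (nat_lit 532) (nat_lit 941441799) (nat_lit 608) (nat_lit 2013318082) (nat_lit 286) (nat_lit 5) (nat_lit 293) (nat_lit 5) (nat_lit 294) (nat_lit 5) (nat_lit 444) (nat_lit 359) (nat_lit 337)) (XT.lf (nat_lit 0) (nat_lit 1649685456) (nat_lit 684) (nat_lit 4646832026)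 (nat_lit 76) (nat_lit 2246670676) (nat_lit 277) (nat_lit 5) (nat_lit 286) (nat_lit 5) (nat_lit 278) (nat_lit 5) (nat_lit 445) (nat_lit 359) (nat_lit 336))) (XT.nd (nat_lit 78) (nat_lit 608) (nat_lit 0) (XT.lf (nat_lit 0) (nat_lit 2243174601) (nat_lit 532) (nat_lit 3100983504) (nat_lit 608) (nat_lit 3270237510) (nat_lit 270) (nat_lit 5) (nat_lit 277) (nat_lit 5) (nat_lit 278) (nat_lit 5) (nat_lit 446) (nat_lit 359) (nat_lit 335)) (XT.lf (nat_lit 0) (nat_lit 400783388) (nat_lit 608) (nat_lit 8113731184) (nat_lit 76) (nat_lit 172839980) (nat_lit 262) (nat_lit 5) (nat_lit 270) (nat_lit 5) (nat_lit 263) (nat_lit 5) (nat_lit 447) (nat_lit 359) (nat_lit 334)))) (XT.nd (nat_lit 156) (nat_lit 1672) (nat_lit 0) (XT.nd (nat_lit 78) (nat_lit 532) (nat_lit 0) (XT.lf (nat_lit 0) (nat_lit 4110107484) (nat_lit 608) (nat_lit 1137462910) (nat_lit 76) (nat_lit 3513596524) (nat_lit 262) (nat_lit 5) (nat_lit 270) (nat_lit 5) (nat_lit 263) (nat_lit 5) (nat_lit 448) (nat_lit 359) (nat_lit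 333)) (XT.lf (nat_lit 0) (nat_lit 5980494535) (nat_lit 532) (nat_lit 1898086811) (nat_lit 608) (nat_lit 958174920) (nat_lit 255) (nat_lit 5) (nat_lit 262) (nat_lit 5) (nat_lit 263) (nat_lit 5) (nat_lit 449) (nat_lit 359) (nat_lit 332))) (XT.nd (nat_lit 78) (nat_lit 1064) (nat_lit 0) (XT.lf (nat_lit 0) (nat_lit 2763773792) (nat_lit 608) (nat_lit 4619712984) (nat_lit 76) (nat_lit 1530165095) (nat_lit 247) (nat_lit 5) (nat_lit 255) (nat_lit 5) (nat_lit 248) (nat_lit 5) (nat_lit 450) (nat_lit 359) (nat_lit 331)) (XT.nd (nat_lit 78) (nat_lit 608) (nat_lit 0) (XT.lf (nat_lit 0) (nat_lit 2571955044) (nat_lit 456) (nat_lit 3970706744) (nat_lit 532) (nat_lit 2449390324) (nat_lit 241) (nat_lit 5) (nat_lit 247) (nat_lit 5) (nat_lit 248) (nat_lit 5) (nat_lit 451) (nat_lit 359) (nat_lit 330)) (XT.lf (nat_lit 0) (nat_lit 823578153) (nat_lit 532) (nat_lit 467657685) (nat_lit 608) (nat_lit 7780942298) (nat_lit 233) (nat_lit 5) (nat_lit 240) (nat_lit 5) (nat_lit 241) (nat_lit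 5) (nat_lit 452) (nat_lit 359) (nat_lit 329)))))) (XT.nd (nat_lit 390) (nat_lit 1748) (nat_lit 0) (XT.nd (nat_lit 156) (nat_lit 1520) (nat_lit 0) (XT.nd (nat_lit 78) (nat_lit 456) (nat_lit 0) (XT.lf (nat_lit 0) (nat_lit 5084779008) (nat_lit 608) (nat_lit 968039618) (nat_lit 76) (nat_lit 3100546208) (nat_lit 233) (nat_lit 5) (nat_lit 241) (nat_lit 5) (nat_lit 234) (nat_lit 5) (nat_lit 453) (nat_lit 359) (nat_lit 328)) (XT.lf (nat_lit 0) (nat_lit 6463850156) (nat_lit 456) (nat_lit 2483781050) (nat_lit 532) (nat_lit 288675296) (nat_lit 227) (nat_lit 5) (nat_lit 233) (nat_lit 5) (nat_lit 234) (nat_lit 5) (nat_lit 454) (nat_lit 359) (nat_lit 327))) (XT.nd (nat_lit 78) (nat_lit 988) (nat_lit 0) (XT.lf (nat_lit 0) (nat_lit 3513407330) (nat_lit 532) (nat_lit 4629473207) (nat_lit 76) (nat_lit 1177696231) (nat_lit 220) (nat_lit 5) (nat_lit 227) (nat_lit 5) (nat_lit 221) (nat_lit 5) (nat_lit 455) (nat_lit 359) (nat_lit 326)) (XT.nd (nat_lit 78) (nat_lit 532) (nat_lit 0)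 (XT.lf (nat_lit 0) (nat_lit 2878118615) (nat_lit 456) (nat_lit 4512329114) (nat_lit 532) (nat_lit 2015990917) (nat_lit 214) (nat_lit 5) (nat_lit 220) (nat_lit 5) (nat_lit 221) (nat_lit 5) (nat_lit 456) (nat_lit 359) (nat_lit 325)) (XT.lf (nat_lit 0) (nat_lit 1029828640) (nat_lit 456) (nat_lit 783952246) (nat_lit 532) (nat_lit 7680255596) (nat_lit 207) (nat_lit 5) (nat_lit 213) (nat_lit 5) (nat_lit 214) (nat_lit 5) (nat_lit 457) (nat_lit 359) (nat_lit 324))))) (XT.nd (nat_lit 156) (nat_lit 1292) (nat_lit 0) (XT.nd (nat_lit 78) (nat_lit 456) (nat_lit 0) (XT.lf (nat_lit 0) (nat_lit 5706303397) (nat_lit 532) (nat_lit 865129142) (nat_lit 76) (nat_lit 3011424234) (nat_lit 207) (nat_lit 5) (nat_lit 214) (nat_lit 5) (nat_lit 208) (nat_lit 5) (nat_lit 458) (nat_lit 359) (nat_lit 323)) (XT.lf (nat_lit 0) (nat_lit 3562129) (nat_lit 456) (nat_lit 2777791941) (nat_lit 76) (nat_lit 6892091349) (nat_lit 201) (nat_lit 5) (nat_lit 207) (nat_lit 5) (nat_lit 202) (nat_lit 5) (nat_lit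 459) (nat_lit 359) (nat_lit 322))) (XT.nd (nat_lit 78) (nat_lit 836) (nat_lit 0) (XT.lf (nat_lit 0) (nat_lit 3905744264) (nat_lit 532) (nat_lit 4750703383) (nat_lit 76) (nat_lit 1108958285) (nat_lit 195) (nat_lit 5) (nat_lit 202) (nat_lit 5) (nat_lit 196) (nat_lit 5) (nat_lit 460) (nat_lit 359) (nat_lit 321)) (XT.nd (nat_lit 78) (nat_lit 456) (nat_lit 0) (XT.lf (nat_lit 0) (nat_lit 3087851473) (nat_lit 380) (nat_lit 4806237320) (nat_lit 456) (nat_lit 1964954487) (nat_lit 190) (nat_lit 5) (nat_lit 195) (nat_lit 5) (nat_lit 196) (nat_lit 5) (nat_lit 461) (nat_lit 359) (nat_lit 320)) (XT.lf (nat_lit 0) (nat_lit 1118966124) (nat_lit 380) (nat_lit 852743767) (nat_lit 456) (nat_lit 7982774909) (nat_lit 184) (nat_lit 5) (nat_lit 189) (nat_lit 5) (nat_lit 190) (nat_lit 5) (nat_lit 462) (nat_lit 359) (nat_lit 319))))))))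
noncomputable def xc17 : XT := (XT.nd (nat_lit 56862) (nat_lit 0) (nat_lit 7752) (XT.nd (nat_lit 56082) (nat_lit 0) (nat_lit 17784) (XT.nd (nat_lit 312) (nat_lit 1216) (nat_lit 0) (XT.nd (nat_lit 156) (nat_lit 760) (nat_lit 0) (XT.nd (nat_lit 78) (nat_lit 380) (nat_lit 0) (XT.lf (nat_lit 0) (nat_lit 5978536806) (nat_lit 456) (nat_lit 902588072) (nat_lit 76) (nat_lit 3170095708) (nat_lit 184) (nat_lit 5) (nat_lit 190) (nat_lit 5) (nat_lit 185) (nat_lit 5) (nat_lit 463) (nat_lit 359) (nat_lit 318)) (XT.lf (nat_lit 0) (nat_lit 7202904726) (nat_lit 380) (nat_lit 2867293894) (nat_lit 456) (nat_lit 79598500) (nat_lit 179) (nat_lit 5) (nat_lit 184) (nat_lit 5) (nat_lit 185) (nat_lit 5) (nat_lit 464) (nat_lit 359) (nat_lit 317))) (XT.nd (nat_lit 78) (nat_lit 304) (nat_lit 0) (XT.lf (nat_lit 0) (nat_lit 3941478714) (nat_lit 456) (nat_lit 5058513980) (nat_lit 76) (nat_lit 1249823865) (nat_lit 173) (nat_lit 5) (nat_lit 179) (nat_lit 5) (nat_lit 174) (nat_lit 5) (nat_lit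 465) (nat_lit 359) (nat_lit 316)) (XT.lf (nat_lit 0) (nat_lit 3126801729) (nat_lit 304) (nat_lit 4927002069) (nat_lit 380) (nat_lit 2297784224) (nat_lit 169) (nat_lit 5) (nat_lit 173) (nat_lit 5) (nat_lit 174) (nat_lit 5) (nat_lit 466) (nat_lit 359) (nat_lit 315)))) (XT.nd (nat_lit 156) (nat_lit 760) (nat_lit 0) (XT.nd (nat_lit 78) (nat_lit 0) (nat_lit 0) (XT.lf (nat_lit 0) (nat_lit 1015674112) (nat_lit 380) (nat_lit 747381984) (nat_lit 456) (nat_lit 8692234178) (nat_lit 163) (nat_lit 5) (nat_lit 168) (nat_lit 5) (nat_lit 169) (nat_lit 5) (nat_lit 467) (nat_lit 359) (nat_lit 314)) (XT.lf (nat_lit 0) (nat_lit 5899086326) (nat_lit 456) (nat_lit 1155297470) (nat_lit 76) (nat_lit 3505884197) (nat_lit 163) (nat_lit 5) (nat_lit 169) (nat_lit 5) (nat_lit 164) (nat_lit 5) (nat_lit 468) (nat_lit 359) (nat_lit 313))) (XT.nd (nat_lit 78) (nat_lit 456) (nat_lit 0) (XT.lf (nat_lit 0) (nat_lit 7311420347) (nat_lit 304) (nat_lit 2812838303) (nat_lit 380) (nat_lit 542958188)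 (nat_lit 159) (nat_lit 5) (nat_lit 163) (nat_lit 5) (nat_lit 164) (nat_lit 5) (nat_lit 469) (nat_lit 359) (nat_lit 312)) (XT.nd (nat_lit 55458) (nat_lit 0) (nat_lit 24928) (XT.lf (nat_lit 0) (nat_lit 3615137850) (nat_lit 456) (nat_lit 5629531813) (nat_lit 76) (nat_lit 1531050469) (nat_lit 153) (nat_lit 5) (nat_lit 159) (nat_lit 5) (nat_lit 154) (nat_lit 5) (nat_lit 470) (nat_lit 359) (nat_lit 311)) (XT.lf (nat_lit 0) (nat_lit 2238040329) (nat_lit 1140) (nat_lit 681168010) (nat_lit 1140) (nat_lit 681168010) (nat_lit 481) (nat_lit 4) (nat_lit 496) (nat_lit 5) (nat_lit 496) (nat_lit 4) (nat_lit 420) (nat_lit 360) (nat_lit 360)))))) (XT.nd (nat_lit 390) (nat_lit 3344) (nat_lit 0) (XT.nd (nat_lit 156) (nat_lit 1900) (nat_lit 0) (XT.nd (nat_lit 78) (nat_lit 912) (nat_lit 0) (XT.lf (nat_lit 0) (nat_lit 2230883711) (nat_lit 988) (nat_lit 4420536174) (nat_lit 0) (nat_lit 587967992) (nat_lit 468) (nat_lit 5) (nat_lit 481) (nat_lit 4) (nat_lit 468) (nat_lit 4) (nat_lit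 421) (nat_lit 360) (nat_lit 359)) (XT.lf (nat_lit 0) (nat_lit 1154163010) (nat_lit 912) (nat_lit 4689376889) (nat_lit 912) (nat_lit 1435759485) (nat_lit 456) (nat_lit 4) (nat_lit 468) (nat_lit 5) (nat_lit 468) (nat_lit 4) (nat_lit 422) (nat_lit 360) (nat_lit 358))) (XT.nd (nat_lit 78) (nat_lit 1824) (nat_lit 0) (XT.lf (nat_lit 0) (nat_lit 2140635004) (nat_lit 988) (nat_lit 508653992) (nat_lit 76) (nat_lit 4671210171) (nat_lit 455) (nat_lit 5) (nat_lit 468) (nat_lit 5) (nat_lit 456) (nat_lit 4) (nat_lit 423) (nat_lit 360) (nat_lit 357)) (XT.nd (nat_lit 78) (nat_lit 988) (nat_lit 0) (XT.lf (nat_lit 0) (nat_lit 5205409029) (nat_lit 836) (nat_lit 530383994) (nat_lit 912) (nat_lit 1627210908) (nat_lit 444) (nat_lit 5) (nat_lit 455) (nat_lit 5) (nat_lit 456) (nat_lit 4) (nat_lit 424) (nat_lit 360) (nat_lit 356)) (XT.lf (nat_lit 0) (nat_lit 1940943883) (nat_lit 988) (nat_lit 3823110070) (nat_lit 76) (nat_lit 1642632926) (nat_lit 431) (nat_lit 5) (nat_lit 444) (nat_lit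 5) (nat_lit 432) (nat_lit 4) (nat_lit 425) (nat_lit 360) (nat_lit 355))))) (XT.nd (nat_lit 156) (nat_lit 1596) (nat_lit 0) (XT.nd (nat_lit 78) (nat_lit 912) (nat_lit 0) (XT.lf (nat_lit 0) (nat_lit 1954407547) (nat_lit 836) (nat_lit 3568902553) (nat_lit 912) (nat_lit 1928425537) (nat_lit 420) (nat_lit 5) (nat_lit 431) (nat_lit 5) (nat_lit 432) (nat_lit 4) (nat_lit 426) (nat_lit 360) (nat_lit 354)) (XT.lf (nat_lit 0) (nat_lit 320162536) (nat_lit 836) (nat_lit 1299573379) (nat_lit 912) (nat_lit 5878488818) (nat_lit 408) (nat_lit 5) (nat_lit 419) (nat_lit 5) (nat_lit 420) (nat_lit 5) (nat_lit 427) (nat_lit 360) (nat_lit 353))) (XT.nd (nat_lit 78) (nat_lit 1596) (nat_lit 0) (XT.lf (nat_lit 0) (nat_lit 5191754045) (nat_lit 912) (nat_lit 1311822126) (nat_lit 76) (nat_lit 1042238203) (nat_lit 408) (nat_lit 5) (nat_lit 420) (nat_lit 5) (nat_lit 409) (nat_lit 4) (nat_lit 428) (nat_lit 360) (nat_lit 352)) (XT.nd (nat_lit 78) (nat_lit 760) (nat_lit 0) (XT.lf (nat_lit 0)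 (nat_lit 1199454080) (nat_lit 836) (nat_lit 2952971111) (nat_lit 76) (nat_lit 3442272059) (nat_lit 397) (nat_lit 5) (nat_lit 408) (nat_lit 5) (nat_lit 398) (nat_lit 5) (nat_lit 429) (nat_lit 360) (nat_lit 351)) (XT.lf (nat_lit 0) (nat_lit 3037234162) (nat_lit 760) (nat_lit 1720488654) (nat_lit 836) (nat_lit 2887219663) (nat_lit 387) (nat_lit 5) (nat_lit 397) (nat_lit 5) (nat_lit 398) (nat_lit 5) (nat_lit 430) (nat_lit 360) (nat_lit 350))))))) (XT.nd (nat_lit 702) (nat_lit 4864) (nat_lit 0) (XT.nd (nat_lit 312) (nat_lit 2812) (nat_lit 0) (XT.nd (nat_lit 156) (nat_lit 1520) (nat_lit 0) (XT.nd (nat_lit 78) (nat_lit 0) (nat_lit 0) (XT.lf (nat_lit 0) (nat_lit 653159138) (nat_lit 836) (nat_lit 6271283412) (nat_lit 76) (nat_lit 772235200) (nat_lit 376) (nat_lit 5) (nat_lit 387) (nat_lit 5) (nat_lit 377) (nat_lit 5) (nat_lit 431) (nat_lit 360) (nat_lit 349)) (XT.lf (nat_lit 0) (nat_lit 4205854569) (nat_lit 836) (nat_lit 213647840) (nat_lit 76) (nat_lit 3329960247) (nat_lit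 376) (nat_lit 5) (nat_lit 387) (nat_lit 5) (nat_lit 377) (nat_lit 5) (nat_lit 432) (nat_lit 360) (nat_lit 348))) (XT.nd (nat_lit 78) (nat_lit 684) (nat_lit 0) (XT.lf (nat_lit 0) (nat_lit 3400455) (nat_lit 836) (nat_lit 1834578485) (nat_lit 76) (nat_lit 5965772010) (nat_lit 365) (nat_lit 5) (nat_lit 376) (nat_lit 5) (nat_lit 366) (nat_lit 5) (nat_lit 433) (nat_lit 360) (nat_lit 347)) (XT.lf (nat_lit 0) (nat_lit 3548402588) (nat_lit 760) (nat_lit 3485853322) (nat_lit 76) (nat_lit 824910589) (nat_lit 356) (nat_lit 5) (nat_lit 366) (nat_lit 5) (nat_lit 357) (nat_lit 5) (nat_lit 434) (nat_lit 360) (nat_lit 346)))) (XT.nd (nat_lit 156) (nat_lit 1368) (nat_lit 0) (XT.nd (nat_lit 78) (nat_lit 760) (nat_lit 0) (XT.lf (nat_lit 0) (nat_lit 2763604215) (nat_lit 684) (nat_lit 4382987303) (nat_lit 760) (nat_lit 769453106) (nat_lit 347) (nat_lit 5) (nat_lit 356) (nat_lit 5) (nat_lit 357) (nat_lit 5) (nat_lit 435) (nat_lit 360) (nat_lit 345)) (XT.lf (nat_lit 0) (nat_lit 1132475370)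 (nat_lit 684) (nat_lit 1643906607) (nat_lit 760) (nat_lit 5197889596) (nat_lit 337) (nat_lit 5) (nat_lit 346) (nat_lit 5) (nat_lit 347) (nat_lit 5) (nat_lit 436) (nat_lit 360) (nat_lit 344))) (XT.nd (nat_lit 78) (nat_lit 1368) (nat_lit 0) (XT.lf (nat_lit 0) (nat_lit 6365777849) (nat_lit 760) (nat_lit 508892022) (nat_lit 76) (nat_lit 1159232525) (nat_lit 337) (nat_lit 5) (nat_lit 347) (nat_lit 5) (nat_lit 338) (nat_lit 5) (nat_lit 437) (nat_lit 360) (nat_lit 343)) (XT.nd (nat_lit 78) (nat_lit 608) (nat_lit 0) (XT.lf (nat_lit 0) (nat_lit 1898140310) (nat_lit 760) (nat_lit 2164228741) (nat_lit 76) (nat_lit 4032280955) (nat_lit 327) (nat_lit 5) (nat_lit 337) (nat_lit 5) (nat_lit 328) (nat_lit 5) (nat_lit 438) (nat_lit 360) (nat_lit 342)) (XT.lf (nat_lit 0) (nat_lit 4319608353) (nat_lit 608) (nat_lit 1167398858) (nat_lit 684) (nat_lit 2669912574) (nat_lit 319) (nat_lit 5) (nat_lit 327) (nat_lit 5) (nat_lit 328) (nat_lit 5) (nat_lit 439) (nat_lit 360) (nat_lit 341))))))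 (XT.nd (nat_lit 390) (nat_lit 2356) (nat_lit 0) (XT.nd (nat_lit 156) (nat_lit 1216) (nat_lit 0) (XT.nd (nat_lit 78) (nat_lit 608) (nat_lit 0) (XT.lf (nat_lit 0) (nat_lit 901295717) (nat_lit 684) (nat_lit 5536115718) (nat_lit 76) (nat_lit 1783178325) (nat_lit 310) (nat_lit 5) (nat_lit 319) (nat_lit 5) (nat_lit 311) (nat_lit 5) (nat_lit 440) (nat_lit 360) (nat_lit 340)) (XT.lf (nat_lit 0) (nat_lit 1015778911) (nat_lit 608) (nat_lit 3475592319) (nat_lit 684) (nat_lit 3794145078) (nat_lit 302) (nat_lit 5) (nat_lit 310) (nat_lit 5) (nat_lit 311) (nat_lit 5) (nat_lit 441) (nat_lit 360) (nat_lit 339))) (XT.nd (nat_lit 78) (nat_lit 1216) (nat_lit 0) (XT.lf (nat_lit 0) (nat_lit 7698599769) (nat_lit 608) (nat_lit 435342767) (nat_lit 684) (nat_lit 218184966) (nat_lit 302) (nat_lit 5) (nat_lit 310) (nat_lit 5) (nat_lit 311) (nat_lit 5) (nat_lit 442) (nat_lit 360) (nat_lit 338)) (XT.nd (nat_lit 78) (nat_lit 532) (nat_lit 0) (XT.lf (nat_lit 0) (nat_lit 3385660528) (nat_lit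 684) (nat_lit 2359512181) (nat_lit 76) (nat_lit 2674426065) (nat_lit 293) (nat_lit 5) (nat_lit 302) (nat_lit 5) (nat_lit 294) (nat_lit 5) (nat_lit 443) (nat_lit 360) (nat_lit 337)) (XT.lf (nat_lit 0) (nat_lit 4407029973) (nat_lit 532) (nat_lit 2632319831) (nat_lit 608) (nat_lit 1449427056) (nat_lit 286) (nat_lit 5) (nat_lit 293) (nat_lit 5) (nat_lit 294) (nat_lit 5) (nat_lit 444) (nat_lit 360) (nat_lit 336))))) (XT.nd (nat_lit 156) (nat_lit 1140) (nat_lit 0) (XT.nd (nat_lit 78) (nat_lit 532) (nat_lit 0) (XT.lf (nat_lit 0) (nat_lit 2160206470) (nat_lit 684) (nat_lit 5835128489) (nat_lit 76) (nat_lit 564069506) (nat_lit 277) (nat_lit 5) (nat_lit 286) (nat_lit 5) (nat_lit 278) (nat_lit 5) (nat_lit 445) (nat_lit 360) (nat_lit 335)) (XT.lf (nat_lit 0) (nat_lit 1001157177) (nat_lit 532) (nat_lit 4818465110) (nat_lit 608) (nat_lit 2811690771) (nat_lit 270) (nat_lit 5) (nat_lit 277) (nat_lit 5) (nat_lit 278) (nat_lit 5) (nat_lit 446) (nat_lit 360) (nat_lit 334))) (XT.nd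 (nat_lit 78) (nat_lit 1064) (nat_lit 0) (XT.lf (nat_lit 0) (nat_lit 821565378) (nat_lit 608) (nat_lit 732209889) (nat_lit 76) (nat_lit 7151072201) (nat_lit 269) (nat_lit 5) (nat_lit 277) (nat_lit 5) (nat_lit 270) (nat_lit 5) (nat_lit 447) (nat_lit 360) (nat_lit 333)) (XT.nd (nat_lit 78) (nat_lit 532) (nat_lit 0) (XT.lf (nat_lit 0) (nat_lit 4489285900) (nat_lit 608) (nat_lit 2498254218) (nat_lit 76) (nat_lit 1791951789) (nat_lit 262) (nat_lit 5) (nat_lit 270) (nat_lit 5) (nat_lit 263) (nat_lit 5) (nat_lit 448) (nat_lit 360) (nat_lit 332)) (XT.lf (nat_lit 0) (nat_lit 4564109289) (nat_lit 532) (nat_lit 3658310868) (nat_lit 608) (nat_lit 633367890) (nat_lit 255) (nat_lit 5) (nat_lit 262) (nat_lit 5) (nat_lit 263) (nat_lit 5) (nat_lit 449) (nat_lit 360) (nat_lit 331))))))))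
noncomputable def xc18 : XT := (XT.nd (nat_lit 1482) (nat_lit 760) (nat_lit 0) (XT.nd (nat_lit 702) (nat_lit 3344) (nat_lit 0) (XT.nd (nat_lit 312) (nat_lit 1976) (nat_lit 0) (XT.nd (nat_lit 156) (nat_lit 608) (nat_lit 0) (XT.nd (nat_lit 78) (nat_lit 456) (nat_lit 0) (XT.lf (nat_lit 0) (nat_lit 2809963616) (nat_lit 532) (nat_lit 228547847) (nat_lit 608) (nat_lit 5895046200) (nat_lit 247) (nat_lit 5) (nat_lit 254) (nat_lit 5) (nat_lit 255) (nat_lit 5) (nat_lit 450) (nat_lit 360) (nat_lit 330)) (XT.lf (nat_lit 0) (nat_lit 1011776445) (nat_lit 456) (nat_lit 5768167529) (nat_lit 532) (nat_lit 2232763041) (nat_lit 241) (nat_lit 5) (nat_lit 247) (nat_lit 5) (nat_lit 248) (nat_lit 5) (nat_lit 451) (nat_lit 360) (nat_lit 329))) (XT.nd (nat_lit 78) (nat_lit 532) (nat_lit 0) (XT.lf (nat_lit 0) (nat_lit 1473929532) (nat_lit 532) (nat_lit 806879226) (nat_lit 76) (nat_lit 6812617999) (nat_lit 240) (nat_lit 5) (nat_lit 247) (nat_lit 5) (nat_lit 241) (nat_lit 5) (nat_lit 452)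 (nat_lit 360) (nat_lit 328)) (XT.lf (nat_lit 0) (nat_lit 5224799274) (nat_lit 608) (nat_lit 2656371060) (nat_lit 76) (nat_lit 1294296590) (nat_lit 233) (nat_lit 5) (nat_lit 241) (nat_lit 5) (nat_lit 234) (nat_lit 5) (nat_lit 453) (nat_lit 360) (nat_lit 327)))) (XT.nd (nat_lit 156) (nat_lit 988) (nat_lit 0) (XT.nd (nat_lit 78) (nat_lit 532) (nat_lit 0) (XT.lf (nat_lit 0) (nat_lit 4715725463) (nat_lit 456) (nat_lit 4335519477) (nat_lit 532) (nat_lit 207891783) (nat_lit 227) (nat_lit 5) (nat_lit 233) (nat_lit 5) (nat_lit 234) (nat_lit 5) (nat_lit 454) (nat_lit 360) (nat_lit 326)) (XT.lf (nat_lit 0) (nat_lit 2866538418) (nat_lit 456) (nat_lit 681980049) (nat_lit 532) (nat_lit 5795770290) (nat_lit 220) (nat_lit 5) (nat_lit 226) (nat_lit 5) (nat_lit 227) (nat_lit 5) (nat_lit 455) (nat_lit 360) (nat_lit 325))) (XT.nd (nat_lit 78) (nat_lit 532) (nat_lit 0) (XT.lf (nat_lit 0) (nat_lit 972143294) (nat_lit 456) (nat_lit 6411818869) (nat_lit 532) (nat_lit 2047020406) (nat_lit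 214) (nat_lit 5) (nat_lit 220) (nat_lit 5) (nat_lit 221) (nat_lit 5) (nat_lit 456) (nat_lit 360) (nat_lit 324)) (XT.nd (nat_lit 78) (nat_lit 456) (nat_lit 0) (XT.lf (nat_lit 0) (nat_lit 1751762156) (nat_lit 532) (nat_lit 951208486) (nat_lit 76) (nat_lit 6816241716) (nat_lit 213) (nat_lit 5) (nat_lit 220) (nat_lit 5) (nat_lit 214) (nat_lit 5) (nat_lit 457) (nat_lit 360) (nat_lit 323)) (XT.lf (nat_lit 0) (nat_lit 5600979174) (nat_lit 532) (nat_lit 2908983648) (nat_lit 76) (nat_lit 1098935936) (nat_lit 207) (nat_lit 5) (nat_lit 214) (nat_lit 5) (nat_lit 208) (nat_lit 5) (nat_lit 458) (nat_lit 360) (nat_lit 322)))))) (XT.nd (nat_lit 390) (nat_lit 1596) (nat_lit 0) (XT.nd (nat_lit 156) (nat_lit 836) (nat_lit 0) (XT.nd (nat_lit 78) (nat_lit 532) (nat_lit 0) (XT.lf (nat_lit 0) (nat_lit 4787530753) (nat_lit 380) (nat_lit 4746447642) (nat_lit 456) (nat_lit 166264535) (nat_lit 202) (nat_lit 5) (nat_lit 207) (nat_lit 5) (nat_lit 208) (nat_lit 5) (nat_lit 459) (nat_lit 360)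 (nat_lit 321)) (XT.lf (nat_lit 0) (nat_lit 2822736775) (nat_lit 456) (nat_lit 869798075) (nat_lit 532) (nat_lit 6100601448) (nat_lit 195) (nat_lit 5) (nat_lit 201) (nat_lit 5) (nat_lit 202) (nat_lit 5) (nat_lit 460) (nat_lit 360) (nat_lit 320))) (XT.nd (nat_lit 78) (nat_lit 456) (nat_lit 0) (XT.lf (nat_lit 0) (nat_lit 807017106) (nat_lit 380) (nat_lit 6829569604) (nat_lit 456) (nat_lit 2251072789) (nat_lit 190) (nat_lit 5) (nat_lit 195) (nat_lit 5) (nat_lit 196) (nat_lit 5) (nat_lit 461) (nat_lit 360) (nat_lit 319)) (XT.nd (nat_lit 78) (nat_lit 380) (nat_lit 0) (XT.lf (nat_lit 0) (nat_lit 1658315564) (nat_lit 456) (nat_lit 1240247439) (nat_lit 76) (nat_lit 7085195742) (nat_lit 189) (nat_lit 5) (nat_lit 195) (nat_lit 5) (nat_lit 190) (nat_lit 5) (nat_lit 462) (nat_lit 360) (nat_lit 318)) (XT.lf (nat_lit 0) (nat_lit 5620024824) (nat_lit 456) (nat_lit 3331471529) (nat_lit 76) (nat_lit 1129900529) (nat_lit 184) (nat_lit 5) (nat_lit 190) (nat_lit 5) (nat_lit 185)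 (nat_lit 5) (nat_lit 463) (nat_lit 360) (nat_lit 317))))) (XT.nd (nat_lit 156) (nat_lit 760) (nat_lit 0) (XT.nd (nat_lit 78) (nat_lit 456) (nat_lit 0) (XT.lf (nat_lit 0) (nat_lit 4704899307) (nat_lit 380) (nat_lit 4967410507) (nat_lit 456) (nat_lit 508451138) (nat_lit 179) (nat_lit 5) (nat_lit 184) (nat_lit 5) (nat_lit 185) (nat_lit 5) (nat_lit 464) (nat_lit 360) (nat_lit 316)) (XT.lf (nat_lit 0) (nat_lit 2603021105) (nat_lit 380) (nat_lit 867057162) (nat_lit 456) (nat_lit 6811721259) (nat_lit 173) (nat_lit 5) (nat_lit 178) (nat_lit 5) (nat_lit 179) (nat_lit 5) (nat_lit 465) (nat_lit 360) (nat_lit 315))) (XT.nd (nat_lit 78) (nat_lit 456) (nat_lit 0) (XT.lf (nat_lit 0) (nat_lit 440374659) (nat_lit 304) (nat_lit 7095997992) (nat_lit 380) (nat_lit 2848118952) (nat_lit 169) (nat_lit 5) (nat_lit 173) (nat_lit 5) (nat_lit 174) (nat_lit 5) (nat_lit 466) (nat_lit 360) (nat_lit 314)) (XT.nd (nat_lit 78) (nat_lit 380) (nat_lit 0) (XT.lf (nat_lit 0) (nat_lit 1190449300)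 (nat_lit 380) (nat_lit 1750027059) (nat_lit 76) (nat_lit 7548378753) (nat_lit 168) (nat_lit 5) (nat_lit 173) (nat_lit 5) (nat_lit 169) (nat_lit 5) (nat_lit 467) (nat_lit 360) (nat_lit 313)) (XT.lf (nat_lit 0) (nat_lit 5277879314) (nat_lit 456) (nat_lit 4000482095) (nat_lit 76) (nat_lit 1316443428) (nat_lit 163) (nat_lit 5) (nat_lit 169) (nat_lit 5) (nat_lit 164) (nat_lit 5) (nat_lit 468) (nat_lit 360) (nat_lit 312))))))) (XT.nd (nat_lit 55926) (nat_lit 0) (nat_lit 15428) (XT.nd (nat_lit 55536) (nat_lit 0) (nat_lit 22116) (XT.nd (nat_lit 55380) (nat_lit 0) (nat_lit 26068) (XT.nd (nat_lit 78) (nat_lit 456) (nat_lit 0) (XT.lf (nat_lit 0) (nat_lit 4391919791) (nat_lit 304) (nat_lit 5069851406) (nat_lit 380) (nat_lit 1240808094) (nat_lit 159) (nat_lit 5) (nat_lit 163) (nat_lit 5) (nat_lit 164) (nat_lit 5) (nat_lit 469) (nat_lit 360) (nat_lit 311)) (XT.lf (nat_lit 0) (nat_lit 2130357410) (nat_lit 380) (nat_lit 744096564) (nat_lit 456) (nat_lit 7937758957) (nat_lit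 153) (nat_lit 5) (nat_lit 158) (nat_lit 5) (nat_lit 159) (nat_lit 5) (nat_lit 470) (nat_lit 360) (nat_lit 310))) (XT.nd (nat_lit 78) (nat_lit 0) (nat_lit 0) (XT.lf (nat_lit 0) (nat_lit 176861467) (nat_lit 1900) (nat_lit 3209706016) (nat_lit 0) (nat_lit 176861467) (nat_lit 496) (nat_lit 5) (nat_lit 521) (nat_lit 4) (nat_lit 496) (nat_lit 4) (nat_lit 418) (nat_lit 361) (nat_lit 361)) (XT.lf (nat_lit 0) (nat_lit 3917977542) (nat_lit 1900) (nat_lit 1036716378) (nat_lit 0) (nat_lit 2208688028) (nat_lit 496) (nat_lit 5) (nat_lit 521) (nat_lit 4) (nat_lit 496) (nat_lit 4) (nat_lit 419) (nat_lit 361) (nat_lit 360)))) (XT.nd (nat_lit 156) (nat_lit 1824) (nat_lit 0) (XT.nd (nat_lit 78) (nat_lit 912) (nat_lit 0) (XT.lf (nat_lit 0) (nat_lit 307752359) (nat_lit 1216) (nat_lit 2763403780) (nat_lit 76) (nat_lit 4130244522) (nat_lit 480) (nat_lit 5) (nat_lit 496) (nat_lit 5) (nat_lit 481) (nat_lit 4) (nat_lit 420) (nat_lit 361) (nat_lit 359)) (XT.lf (nat_lit 0) (nat_lit 2738348983)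 (nat_lit 912) (nat_lit 1106367971) (nat_lit 988) (nat_lit 3395909739) (nat_lit 468) (nat_lit 5) (nat_lit 480) (nat_lit 5) (nat_lit 481) (nat_lit 4) (nat_lit 421) (nat_lit 361) (nat_lit 358))) (XT.nd (nat_lit 78) (nat_lit 836) (nat_lit 0) (XT.lf (nat_lit 0) (nat_lit 132780431) (nat_lit 988) (nat_lit 6240294263) (nat_lit 76) (nat_lit 908275249) (nat_lit 455) (nat_lit 5) (nat_lit 468) (nat_lit 5) (nat_lit 456) (nat_lit 4) (nat_lit 422) (nat_lit 361) (nat_lit 357)) (XT.nd (nat_lit 78) (nat_lit 836) (nat_lit 0) (XT.lf (nat_lit 0) (nat_lit 3657000875) (nat_lit 988) (nat_lit 669525141) (nat_lit 76) (nat_lit 2996504148) (nat_lit 455) (nat_lit 5) (nat_lit 468) (nat_lit 5) (nat_lit 456) (nat_lit 4) (nat_lit 423) (nat_lit 361) (nat_lit 356)) (XT.lf (nat_lit 0) (nat_lit 5006248045) (nat_lit 836) (nat_lit 2211927760) (nat_lit 912) (nat_lit 148038784) (nat_lit 444) (nat_lit 5) (nat_lit 455) (nat_lit 5) (nat_lit 456) (nat_lit 4) (nat_lit 424) (nat_lit 361) (nat_lit 355))))))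 (XT.nd (nat_lit 390) (nat_lit 3116) (nat_lit 0) (XT.nd (nat_lit 156) (nat_lit 1748) (nat_lit 0) (XT.nd (nat_lit 78) (nat_lit 836) (nat_lit 0) (XT.lf (nat_lit 0) (nat_lit 3343455639) (nat_lit 912) (nat_lit 12330458) (nat_lit 988) (nat_lit 4054817972) (nat_lit 431) (nat_lit 5) (nat_lit 443) (nat_lit 5) (nat_lit 444) (nat_lit 5) (nat_lit 425) (nat_lit 361) (nat_lit 354)) (XT.lf (nat_lit 0) (nat_lit 1670467765) (nat_lit 836) (nat_lit 5233650720) (nat_lit 912) (nat_lit 552215018) (nat_lit 420) (nat_lit 5) (nat_lit 431) (nat_lit 5) (nat_lit 432) (nat_lit 4) (nat_lit 426) (nat_lit 361) (nat_lit 353))) (XT.nd (nat_lit 78) (nat_lit 1672) (nat_lit 0) (XT.lf (nat_lit 0) (nat_lit 2943893956) (nat_lit 912) (nat_lit 17952653) (nat_lit 76) (nat_lit 4541477350) (nat_lit 419) (nat_lit 5) (nat_lit 431) (nat_lit 5) (nat_lit 420) (nat_lit 5) (nat_lit 427) (nat_lit 361) (nat_lit 352)) (XT.nd (nat_lit 78) (nat_lit 836) (nat_lit 0) (XT.lf (nat_lit 0) (nat_lit 5866428920) (nat_lit 836)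 (nat_lit 610974615) (nat_lit 912) (nat_lit 1074280236) (nat_lit 408) (nat_lit 5) (nat_lit 419) (nat_lit 5) (nat_lit 420) (nat_lit 5) (nat_lit 428) (nat_lit 361) (nat_lit 351)) (XT.lf (nat_lit 0) (nat_lit 2424620794) (nat_lit 836) (nat_lit 3378590037) (nat_lit 76) (nat_lit 1797946209) (nat_lit 397) (nat_lit 5) (nat_lit 408) (nat_lit 5) (nat_lit 398) (nat_lit 5) (nat_lit 429) (nat_lit 361) (nat_lit 350))))) (XT.nd (nat_lit 156) (nat_lit 1520) (nat_lit 0) (XT.nd (nat_lit 78) (nat_lit 836) (nat_lit 0) (XT.lf (nat_lit 0) (nat_lit 2569223380) (nat_lit 760) (nat_lit 3379854065) (nat_lit 836) (nat_lit 1703001066) (nat_lit 387) (nat_lit 5) (nat_lit 397) (nat_lit 5) (nat_lit 398) (nat_lit 5) (nat_lit 430) (nat_lit 361) (nat_lit 349)) (XT.lf (nat_lit 0) (nat_lit 904418211) (nat_lit 760) (nat_lit 878326387) (nat_lit 836) (nat_lit 5921697445) (nat_lit 376) (nat_lit 5) (nat_lit 386) (nat_lit 5) (nat_lit 387) (nat_lit 5) (nat_lit 431) (nat_lit 361) (nat_lit 348))) (XT.nd (nat_lit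 78) (nat_lit 1520) (nat_lit 0) (XT.lf (nat_lit 0) (nat_lit 5299458719) (nat_lit 836) (nat_lit 773434211) (nat_lit 76) (nat_lit 1685053646) (nat_lit 376) (nat_lit 5) (nat_lit 387) (nat_lit 5) (nat_lit 377) (nat_lit 5) (nat_lit 432) (nat_lit 361) (nat_lit 347)) (XT.nd (nat_lit 78) (nat_lit 684) (nat_lit 0) (XT.lf (nat_lit 0) (nat_lit 1040461824) (nat_lit 836) (nat_lit 2454289769) (nat_lit 76) (nat_lit 4318018917) (nat_lit 365) (nat_lit 5) (nat_lit 376) (nat_lit 5) (nat_lit 366) (nat_lit 5) (nat_lit 433) (nat_lit 361) (nat_lit 346)) (XT.lf (nat_lit 0) (nat_lit 3714237511) (nat_lit 684) (nat_lit 831954776) (nat_lit 760) (nat_lit 3322779206) (nat_lit 356) (nat_lit 5) (nat_lit 365) (nat_lit 5) (nat_lit 366) (nat_lit 5) (nat_lit 434) (nat_lit 361) (nat_lit 345))))))))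
noncomputable def xc19 : XT := (XT.nd (nat_lit 1482) (nat_lit 5700) (nat_lit 0) (XT.nd (nat_lit 702) (nat_lit 4560) (nat_lit 0) (XT.nd (nat_lit 312) (nat_lit 2584) (nat_lit 0) (XT.nd (nat_lit 156) (nat_lit 760) (nat_lit 0) (XT.nd (nat_lit 78) (nat_lit 684) (nat_lit 0) (XT.lf (nat_lit 0) (nat_lit 176171256) (nat_lit 760) (nat_lit 5873455528) (nat_lit 76) (nat_lit 1876984342) (nat_lit 346) (nat_lit 5) (nat_lit 356) (nat_lit 5) (nat_lit 347) (nat_lit 5) (nat_lit 435) (nat_lit 361) (nat_lit 344)) (XT.lf (nat_lit 0) (nat_lit 359697693) (nat_lit 684) (nat_lit 3318118387) (nat_lit 760) (nat_lit 4307604053) (nat_lit 337) (nat_lit 5) (nat_lit 346) (nat_lit 5) (nat_lit 347) (nat_lit 5) (nat_lit 436) (nat_lit 361) (nat_lit 343))) (XT.nd (nat_lit 78) (nat_lit 760) (nat_lit 0) (XT.lf (nat_lit 0) (nat_lit 6723621114) (nat_lit 684) (nat_lit 507216899) (nat_lit 760) (nat_lit 814940422) (nat_lit 337) (nat_lit 5) (nat_lit 346) (nat_lit 5) (nat_lit 347) (nat_lit 5) (nat_lit 437)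 (nat_lit 361) (nat_lit 342)) (XT.lf (nat_lit 0) (nat_lit 2702796683) (nat_lit 760) (nat_lit 3039549734) (nat_lit 76) (nat_lit 2364815602) (nat_lit 327) (nat_lit 5) (nat_lit 337) (nat_lit 5) (nat_lit 328) (nat_lit 5) (nat_lit 438) (nat_lit 361) (nat_lit 341)))) (XT.nd (nat_lit 156) (nat_lit 1292) (nat_lit 0) (XT.nd (nat_lit 78) (nat_lit 684) (nat_lit 0) (XT.lf (nat_lit 0) (nat_lit 3395844619) (nat_lit 608) (nat_lit 2861724183) (nat_lit 684) (nat_lit 1912544891) (nat_lit 319) (nat_lit 5) (nat_lit 327) (nat_lit 5) (nat_lit 328) (nat_lit 5) (nat_lit 439) (nat_lit 361) (nat_lit 340)) (XT.lf (nat_lit 0) (nat_lit 1603263609) (nat_lit 684) (nat_lit 6530169977) (nat_lit 76) (nat_lit 101161071) (nat_lit 310) (nat_lit 5) (nat_lit 319) (nat_lit 5) (nat_lit 311) (nat_lit 5) (nat_lit 440) (nat_lit 361) (nat_lit 339))) (XT.nd (nat_lit 78) (nat_lit 1292) (nat_lit 0) (XT.lf (nat_lit 0) (nat_lit 5159037076) (nat_lit 684) (nat_lit 28315043) (nat_lit 76) (nat_lit 3112855127) (nat_lit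 310) (nat_lit 5) (nat_lit 319) (nat_lit 5) (nat_lit 311) (nat_lit 5) (nat_lit 441) (nat_lit 361) (nat_lit 338)) (XT.nd (nat_lit 78) (nat_lit 608) (nat_lit 0) (XT.lf (nat_lit 0) (nat_lit 401318125) (nat_lit 684) (nat_lit 1752356915) (nat_lit 76) (nat_lit 6213642331) (nat_lit 301) (nat_lit 5) (nat_lit 310) (nat_lit 5) (nat_lit 302) (nat_lit 5) (nat_lit 442) (nat_lit 361) (nat_lit 337)) (XT.lf (nat_lit 0) (nat_lit 3956529237) (nat_lit 684) (nat_lit 3515576077) (nat_lit 76) (nat_lit 963570454) (nat_lit 293) (nat_lit 5) (nat_lit 302) (nat_lit 5) (nat_lit 294) (nat_lit 5) (nat_lit 443) (nat_lit 361) (nat_lit 336)))))) (XT.nd (nat_lit 390) (nat_lit 2204) (nat_lit 0) (XT.nd (nat_lit 156) (nat_lit 1140) (nat_lit 0) (XT.nd (nat_lit 78) (nat_lit 684) (nat_lit 0) (XT.lf (nat_lit 0) (nat_lit 3198761350) (nat_lit 532) (nat_lit 4376809066) (nat_lit 608) (nat_lit 929976401) (nat_lit 286) (nat_lit 5) (nat_lit 293) (nat_lit 5) (nat_lit 294) (nat_lit 5) (nat_lit 444) (nat_lit 361)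 (nat_lit 335)) (XT.lf (nat_lit 0) (nat_lit 1446366795) (nat_lit 608) (nat_lit 1187757300) (nat_lit 684) (nat_lit 5942757280) (nat_lit 277) (nat_lit 5) (nat_lit 285) (nat_lit 5) (nat_lit 286) (nat_lit 5) (nat_lit 445) (nat_lit 361) (nat_lit 334))) (XT.nd (nat_lit 78) (nat_lit 1140) (nat_lit 0) (XT.lf (nat_lit 0) (nat_lit 6252864468) (nat_lit 684) (nat_lit 336345286) (nat_lit 76) (nat_lit 2060393723) (nat_lit 277) (nat_lit 5) (nat_lit 286) (nat_lit 5) (nat_lit 278) (nat_lit 5) (nat_lit 446) (nat_lit 361) (nat_lit 333)) (XT.nd (nat_lit 78) (nat_lit 532) (nat_lit 0) (XT.lf (nat_lit 0) (nat_lit 1202492770) (nat_lit 608) (nat_lit 2132002900) (nat_lit 76) (nat_lit 5389159979) (nat_lit 269) (nat_lit 5) (nat_lit 277) (nat_lit 5) (nat_lit 270) (nat_lit 5) (nat_lit 447) (nat_lit 361) (nat_lit 332)) (XT.lf (nat_lit 0) (nat_lit 4823238028) (nat_lit 608) (nat_lit 3961037289) (nat_lit 76) (nat_lit 14964274) (nat_lit 262) (nat_lit 5) (nat_lit 270) (nat_lit 5) (nat_lit 263) (nat_lit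 5) (nat_lit 448) (nat_lit 361) (nat_lit 331))))) (XT.nd (nat_lit 156) (nat_lit 1064) (nat_lit 0) (XT.nd (nat_lit 78) (nat_lit 608) (nat_lit 0) (XT.lf (nat_lit 0) (nat_lit 3045112347) (nat_lit 532) (nat_lit 5475766726) (nat_lit 608) (nat_lit 355366522) (nat_lit 255) (nat_lit 5) (nat_lit 262) (nat_lit 5) (nat_lit 263) (nat_lit 5) (nat_lit 449) (nat_lit 361) (nat_lit 330)) (XT.lf (nat_lit 0) (nat_lit 1211345518) (nat_lit 532) (nat_lit 2065611632) (nat_lit 608) (nat_lit 5677740156) (nat_lit 247) (nat_lit 5) (nat_lit 254) (nat_lit 5) (nat_lit 255) (nat_lit 5) (nat_lit 450) (nat_lit 361) (nat_lit 329))) (XT.nd (nat_lit 78) (nat_lit 1064) (nat_lit 0) (XT.lf (nat_lit 0) (nat_lit 6974557917) (nat_lit 608) (nat_lit 645911132) (nat_lit 76) (nat_lit 1414254243) (nat_lit 247) (nat_lit 5) (nat_lit 255) (nat_lit 5) (nat_lit 248) (nat_lit 5) (nat_lit 451) (nat_lit 361) (nat_lit 328)) (XT.nd (nat_lit 78) (nat_lit 532) (nat_lit 0) (XT.lf (nat_lit 0) (nat_lit 1614745532) (nat_lit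 532) (nat_lit 2533026733) (nat_lit 76) (nat_lit 4968238718) (nat_lit 240) (nat_lit 5) (nat_lit 247) (nat_lit 5) (nat_lit 241) (nat_lit 5) (nat_lit 452) (nat_lit 361) (nat_lit 327)) (XT.lf (nat_lit 0) (nat_lit 4742253140) (nat_lit 532) (nat_lit 578508643) (nat_lit 608) (nat_lit 3878186437) (nat_lit 233) (nat_lit 5) (nat_lit 240) (nat_lit 5) (nat_lit 241) (nat_lit 5) (nat_lit 453) (nat_lit 361) (nat_lit 326))))))) (XT.nd (nat_lit 702) (nat_lit 2356) (nat_lit 0) (XT.nd (nat_lit 312) (nat_lit 1824) (nat_lit 0) (XT.nd (nat_lit 156) (nat_lit 532) (nat_lit 0) (XT.nd (nat_lit 78) (nat_lit 532) (nat_lit 0) (XT.lf (nat_lit 0) (nat_lit 2858658323) (nat_lit 456) (nat_lit 6248170511) (nat_lit 532) (nat_lit 176596757) (nat_lit 227) (nat_lit 5) (nat_lit 233) (nat_lit 5) (nat_lit 234) (nat_lit 5) (nat_lit 454) (nat_lit 361) (nat_lit 325)) (XT.lf (nat_lit 0) (nat_lit 923261877) (nat_lit 456) (nat_lit 2619046404) (nat_lit 532) (nat_lit 5827007174) (nat_lit 220) (nat_lit 5) (nat_lit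 226) (nat_lit 5) (nat_lit 227) (nat_lit 5) (nat_lit 455) (nat_lit 361) (nat_lit 324))) (XT.nd (nat_lit 78) (nat_lit 532) (nat_lit 0) (XT.lf (nat_lit 0) (nat_lit 7334555636) (nat_lit 532) (nat_lit 1032733890) (nat_lit 76) (nat_lit 1089583669) (nat_lit 220) (nat_lit 5) (nat_lit 227) (nat_lit 5) (nat_lit 221) (nat_lit 5) (nat_lit 456) (nat_lit 361) (nat_lit 323)) (XT.lf (nat_lit 0) (nat_lit 1646387880) (nat_lit 532) (nat_lit 3031786092) (nat_lit 76) (nat_lit 4867560084) (nat_lit 213) (nat_lit 5) (nat_lit 220) (nat_lit 5) (nat_lit 214) (nat_lit 5) (nat_lit 457) (nat_lit 361) (nat_lit 322)))) (XT.nd (nat_lit 156) (nat_lit 988) (nat_lit 0) (XT.nd (nat_lit 78) (nat_lit 380) (nat_lit 0) (XT.lf (nat_lit 0) (nat_lit 4562818890) (nat_lit 456) (nat_lit 887882486) (nat_lit 532) (nat_lit 4185617150) (nat_lit 207) (nat_lit 5) (nat_lit 213) (nat_lit 5) (nat_lit 214) (nat_lit 5) (nat_lit 458) (nat_lit 361) (nat_lit 321)) (XT.lf (nat_lit 0) (nat_lit 2563688493) (nat_lit 380) (nat_lit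 6776215337) (nat_lit 456) (nat_lit 388634802) (nat_lit 202) (nat_lit 5) (nat_lit 207) (nat_lit 5) (nat_lit 208) (nat_lit 5) (nat_lit 459) (nat_lit 361) (nat_lit 320))) (XT.nd (nat_lit 78) (nat_lit 456) (nat_lit 0) (XT.lf (nat_lit 0) (nat_lit 505652526) (nat_lit 456) (nat_lit 2928867233) (nat_lit 532) (nat_lit 6387712343) (nat_lit 195) (nat_lit 5) (nat_lit 201) (nat_lit 5) (nat_lit 202) (nat_lit 5) (nat_lit 460) (nat_lit 361) (nat_lit 319)) (XT.nd (nat_lit 78) (nat_lit 456) (nat_lit 0) (XT.lf (nat_lit 0) (nat_lit 7336593798) (nat_lit 532) (nat_lit 1572527277) (nat_lit 76) (nat_lit 1008473784) (nat_lit 195) (nat_lit 5) (nat_lit 202) (nat_lit 5) (nat_lit 196) (nat_lit 5) (nat_lit 461) (nat_lit 361) (nat_lit 318)) (XT.lf (nat_lit 0) (nat_lit 1299002772) (nat_lit 456) (nat_lit 3704842317) (nat_lit 76) (nat_lit 5010566089) (nat_lit 189) (nat_lit 5) (nat_lit 195) (nat_lit 5) (nat_lit 190) (nat_lit 5) (nat_lit 462) (nat_lit 361) (nat_lit 317)))))) (XT.nd (nat_lit 390)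 (nat_lit 760) (nat_lit 0) (XT.nd (nat_lit 156) (nat_lit 836) (nat_lit 0) (XT.nd (nat_lit 78) (nat_lit 380) (nat_lit 0) (XT.lf (nat_lit 0) (nat_lit 4224177039) (nat_lit 380) (nat_lit 989812689) (nat_lit 456) (nat_lit 4898994034) (nat_lit 184) (nat_lit 5) (nat_lit 189) (nat_lit 5) (nat_lit 190) (nat_lit 5) (nat_lit 463) (nat_lit 361) (nat_lit 316)) (XT.lf (nat_lit 0) (nat_lit 2083969439) (nat_lit 380) (nat_lit 7136157908) (nat_lit 456) (nat_lit 993143432) (nat_lit 179) (nat_lit 5) (nat_lit 184) (nat_lit 5) (nat_lit 185) (nat_lit 5) (nat_lit 464) (nat_lit 361) (nat_lit 315))) (XT.nd (nat_lit 78) (nat_lit 760) (nat_lit 0) (XT.lf (nat_lit 0) (nat_lit 2952204547) (nat_lit 456) (nat_lit 117124285) (nat_lit 76) (nat_lit 7245834225) (nat_lit 178) (nat_lit 5) (nat_lit 184) (nat_lit 5) (nat_lit 179) (nat_lit 5) (nat_lit 465) (nat_lit 361) (nat_lit 314)) (XT.nd (nat_lit 78) (nat_lit 380) (nat_lit 0) (XT.lf (nat_lit 0) (nat_lit 6978056516) (nat_lit 456) (nat_lit 2342020392)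 (nat_lit 76) (nat_lit 1098587075) (nat_lit 173) (nat_lit 5) (nat_lit 179) (nat_lit 5) (nat_lit 174) (nat_lit 5) (nat_lit 466) (nat_lit 361) (nat_lit 313)) (XT.lf (nat_lit 0) (nat_lit 567774861) (nat_lit 380) (nat_lit 4629982817) (nat_lit 76) (nat_lit 5326105881) (nat_lit 168) (nat_lit 5) (nat_lit 173) (nat_lit 5) (nat_lit 169) (nat_lit 5) (nat_lit 467) (nat_lit 361) (nat_lit 312))))) (XT.nd (nat_lit 156) (nat_lit 76) (nat_lit 0) (XT.nd (nat_lit 78) (nat_lit 304) (nat_lit 0) (XT.lf (nat_lit 0) (nat_lit 3649259318) (nat_lit 380) (nat_lit 956099761) (nat_lit 456) (nat_lit 6025451120) (nat_lit 163) (nat_lit 5) (nat_lit 168) (nat_lit 5) (nat_lit 169) (nat_lit 5) (nat_lit 468) (nat_lit 361) (nat_lit 311)) (XT.lf (nat_lit 0) (nat_lit 1341735157) (nat_lit 304) (nat_lit 7399616989) (nat_lit 380) (nat_lit 1998190483) (nat_lit 159) (nat_lit 5) (nat_lit 163) (nat_lit 5) (nat_lit 164) (nat_lit 5) (nat_lit 469) (nat_lit 361) (nat_lit 310))) (XT.nd (nat_lit 55146) (nat_lit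 0) (nat_lit 27588) (XT.lf (nat_lit 0) (nat_lit 2091343476) (nat_lit 380) (nat_lit 1015190652) (nat_lit 76) (nat_lit 7743453717) (nat_lit 158) (nat_lit 5) (nat_lit 163) (nat_lit 5) (nat_lit 159) (nat_lit 5) (nat_lit 470) (nat_lit 361) (nat_lit 309)) (XT.nd (nat_lit 78) (nat_lit 1748) (nat_lit 0) (XT.lf (nat_lit 0) (nat_lit 1056792903) (nat_lit 1748) (nat_lit 1414615098) (nat_lit 0) (nat_lit 1056792903) (nat_lit 544) (nat_lit 5) (nat_lit 567) (nat_lit 4) (nat_lit 544) (nat_lit 4) (nat_lit 416) (nat_lit 362) (nat_lit 362)) (XT.lf (nat_lit 0) (nat_lit 2446038810) (nat_lit 1748) (nat_lit 3211759398) (nat_lit 1748) (nat_lit 1433414588) (nat_lit 521) (nat_lit 4) (nat_lit 544) (nat_lit 5) (nat_lit 544) (nat_lit 4) (nat_lit 417) (nat_lit 362) (nat_lit 361))))))))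
noncomputable def xc20 : XT := (XT.nd (nat_lit 1482) (nat_lit 9120) (nat_lit 0) (XT.nd (nat_lit 702) (nat_lit 5548) (nat_lit 0) (XT.nd (nat_lit 312) (nat_lit 3724) (nat_lit 0) (XT.nd (nat_lit 156) (nat_lit 2128) (nat_lit 0) (XT.nd (nat_lit 78) (nat_lit 0) (nat_lit 0) (XT.lf (nat_lit 0) (nat_lit 662555612) (nat_lit 1824) (nat_lit 1408917519) (nat_lit 1900) (nat_lit 5055899270) (nat_lit 496) (nat_lit 5) (nat_lit 520) (nat_lit 5) (nat_lit 521) (nat_lit 4) (nat_lit 418) (nat_lit 362) (nat_lit 360)) (XT.lf (nat_lit 0) (nat_lit 5592391158) (nat_lit 1900) (nat_lit 1108519716) (nat_lit 0) (nat_lit 463852308) (nat_lit 496) (nat_lit 5) (nat_lit 521) (nat_lit 4) (nat_lit 496) (nat_lit 4) (nat_lit 419) (nat_lit 362) (nat_lit 359))) (XT.nd (nat_lit 78) (nat_lit 912) (nat_lit 0) (XT.lf (nat_lit 0) (nat_lit 1924395753) (nat_lit 1216) (nat_lit 2884175147) (nat_lit 76) (nat_lit 2394682684) (nat_lit 480) (nat_lit 5) (nat_lit 496) (nat_lit 5) (nat_lit 481) (nat_lit 4) (nat_lit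 420) (nat_lit 362) (nat_lit 358)) (XT.lf (nat_lit 0) (nat_lit 2580444105) (nat_lit 912) (nat_lit 2846585775) (nat_lit 988) (nat_lit 1816136345) (nat_lit 468) (nat_lit 5) (nat_lit 480) (nat_lit 5) (nat_lit 481) (nat_lit 4) (nat_lit 421) (nat_lit 362) (nat_lit 357)))) (XT.nd (nat_lit 156) (nat_lit 2736) (nat_lit 0) (XT.nd (nat_lit 78) (nat_lit 0) (nat_lit 0) (XT.lf (nat_lit 0) (nat_lit 838440350) (nat_lit 912) (nat_lit 812967792) (nat_lit 988) (nat_lit 5633084727) (nat_lit 455) (nat_lit 5) (nat_lit 467) (nat_lit 5) (nat_lit 468) (nat_lit 5) (nat_lit 422) (nat_lit 362) (nat_lit 356)) (XT.lf (nat_lit 0) (nat_lit 5137660258) (nat_lit 988) (nat_lit 905682874) (nat_lit 76) (nat_lit 1283589326) (nat_lit 455) (nat_lit 5) (nat_lit 468) (nat_lit 5) (nat_lit 456) (nat_lit 4) (nat_lit 423) (nat_lit 362) (nat_lit 355))) (XT.nd (nat_lit 78) (nat_lit 1824) (nat_lit 0) (XT.lf (nat_lit 0) (nat_lit 1277235055) (nat_lit 912) (nat_lit 2647687580) (nat_lit 76) (nat_lit 3445702846)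 (nat_lit 443) (nat_lit 5) (nat_lit 455) (nat_lit 5) (nat_lit 444) (nat_lit 5) (nat_lit 424) (nat_lit 362) (nat_lit 354)) (XT.nd (nat_lit 78) (nat_lit 912) (nat_lit 0) (XT.lf (nat_lit 0) (nat_lit 3015298128) (nat_lit 912) (nat_lit 1729833842) (nat_lit 988) (nat_lit 2670543496) (nat_lit 431) (nat_lit 5) (nat_lit 443) (nat_lit 5) (nat_lit 444) (nat_lit 5) (nat_lit 425) (nat_lit 362) (nat_lit 353)) (XT.lf (nat_lit 0) (nat_lit 775864340) (nat_lit 912) (nat_lit 6159318199) (nat_lit 76) (nat_lit 527019964) (nat_lit 419) (nat_lit 5) (nat_lit 431) (nat_lit 5) (nat_lit 420) (nat_lit 5) (nat_lit 426) (nat_lit 362) (nat_lit 352)))))) (XT.nd (nat_lit 390) (nat_lit 2280) (nat_lit 0) (XT.nd (nat_lit 156) (nat_lit 2356) (nat_lit 0) (XT.nd (nat_lit 78) (nat_lit 912) (nat_lit 0) (XT.lf (nat_lit 0) (nat_lit 4233432363) (nat_lit 912) (nat_lit 430719168) (nat_lit 76) (nat_lit 2845595693) (nat_lit 419) (nat_lit 5) (nat_lit 431) (nat_lit 5) (nat_lit 420) (nat_lit 5) (nat_lit 427) (nat_lit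 362) (nat_lit 351)) (XT.lf (nat_lit 0) (nat_lit 172242404) (nat_lit 912) (nat_lit 2147229522) (nat_lit 76) (nat_lit 5239285064) (nat_lit 407) (nat_lit 5) (nat_lit 419) (nat_lit 5) (nat_lit 408) (nat_lit 5) (nat_lit 428) (nat_lit 362) (nat_lit 350))) (XT.nd (nat_lit 78) (nat_lit 1596) (nat_lit 0) (XT.lf (nat_lit 0) (nat_lit 3612128475) (nat_lit 836) (nat_lit 3885954039) (nat_lit 76) (nat_lit 110906758) (nat_lit 397) (nat_lit 5) (nat_lit 408) (nat_lit 5) (nat_lit 398) (nat_lit 5) (nat_lit 429) (nat_lit 362) (nat_lit 349)) (XT.nd (nat_lit 78) (nat_lit 836) (nat_lit 0) (XT.lf (nat_lit 0) (nat_lit 2019101478) (nat_lit 760) (nat_lit 5083741842) (nat_lit 836) (nat_lit 557742258) (nat_lit 387) (nat_lit 5) (nat_lit 397) (nat_lit 5) (nat_lit 398) (nat_lit 5) (nat_lit 430) (nat_lit 362) (nat_lit 348)) (XT.lf (nat_lit 0) (nat_lit 294648351) (nat_lit 760) (nat_lit 2584370618) (nat_lit 836) (nat_lit 4834460710) (nat_lit 376) (nat_lit 5) (nat_lit 386) (nat_lit 5) (nat_lit 387)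 (nat_lit 5) (nat_lit 431) (nat_lit 362) (nat_lit 347))))) (XT.nd (nat_lit 156) (nat_lit 1444) (nat_lit 0) (XT.nd (nat_lit 78) (nat_lit 836) (nat_lit 0) (XT.lf (nat_lit 0) (nat_lit 6350577154) (nat_lit 760) (nat_lit 4422947) (nat_lit 836) (nat_lit 1412798770) (nat_lit 376) (nat_lit 5) (nat_lit 386) (nat_lit 5) (nat_lit 387) (nat_lit 5) (nat_lit 432) (nat_lit 362) (nat_lit 346)) (XT.lf (nat_lit 0) (nat_lit 2038614772) (nat_lit 836) (nat_lit 3159485890) (nat_lit 76) (nat_lit 2625062793) (nat_lit 365) (nat_lit 5) (nat_lit 376) (nat_lit 5) (nat_lit 366) (nat_lit 5) (nat_lit 433) (nat_lit 362) (nat_lit 345))) (XT.nd (nat_lit 78) (nat_lit 760) (nat_lit 0) (XT.lf (nat_lit 0) (nat_lit 2963724284) (nat_lit 684) (nat_lit 2546797603) (nat_lit 760) (nat_lit 2369519018) (nat_lit 356) (nat_lit 5) (nat_lit 365) (nat_lit 5) (nat_lit 366) (nat_lit 5) (nat_lit 434) (nat_lit 362) (nat_lit 344)) (XT.nd (nat_lit 78) (nat_lit 0) (nat_lit 0) (XT.lf (nat_lit 0) (nat_lit 1071670415) (nat_lit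 760) (nat_lit 6687982578) (nat_lit 76) (nat_lit 178808937) (nat_lit 346) (nat_lit 5) (nat_lit 356) (nat_lit 5) (nat_lit 347) (nat_lit 5) (nat_lit 435) (nat_lit 362) (nat_lit 343)) (XT.lf (nat_lit 0) (nat_lit 4542468708) (nat_lit 760) (nat_lit 495460230) (nat_lit 76) (nat_lit 2959958930) (nat_lit 346) (nat_lit 5) (nat_lit 356) (nat_lit 5) (nat_lit 347) (nat_lit 5) (nat_lit 436) (nat_lit 362) (nat_lit 342))))))) (XT.nd (nat_lit 702) (nat_lit 3876) (nat_lit 0) (XT.nd (nat_lit 312) (nat_lit 2508) (nat_lit 0) (XT.nd (nat_lit 156) (nat_lit 1292) (nat_lit 0) (XT.nd (nat_lit 78) (nat_lit 684) (nat_lit 0) (XT.lf (nat_lit 0) (nat_lit 5104427) (nat_lit 760) (nat_lit 2232706936) (nat_lit 76) (nat_lit 5821063002) (nat_lit 336) (nat_lit 5) (nat_lit 346) (nat_lit 5) (nat_lit 337) (nat_lit 5) (nat_lit 437) (nat_lit 362) (nat_lit 341)) (XT.lf (nat_lit 0) (nat_lit 3466790050) (nat_lit 760) (nat_lit 4005758522) (nat_lit 76) (nat_lit 648510823) (nat_lit 327) (nat_lit 5) (nat_lit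 337) (nat_lit 5) (nat_lit 328) (nat_lit 5) (nat_lit 438) (nat_lit 362) (nat_lit 340))) (XT.nd (nat_lit 78) (nat_lit 684) (nat_lit 0) (XT.lf (nat_lit 0) (nat_lit 2380707008) (nat_lit 608) (nat_lit 4606718042) (nat_lit 684) (nat_lit 1197268761) (nat_lit 319) (nat_lit 5) (nat_lit 327) (nat_lit 5) (nat_lit 328) (nat_lit 5) (nat_lit 439) (nat_lit 362) (nat_lit 339)) (XT.lf (nat_lit 0) (nat_lit 620775443) (nat_lit 608) (nat_lit 1653261474) (nat_lit 684) (nat_lit 5975747414) (nat_lit 310) (nat_lit 5) (nat_lit 318) (nat_lit 5) (nat_lit 319) (nat_lit 5) (nat_lit 440) (nat_lit 362) (nat_lit 338)))) (XT.nd (nat_lit 156) (nat_lit 1824) (nat_lit 0) (XT.nd (nat_lit 78) (nat_lit 684) (nat_lit 0) (XT.lf (nat_lit 0) (nat_lit 5791912651) (nat_lit 684) (nat_lit 1152417504) (nat_lit 76) (nat_lit 1371824719) (nat_lit 310) (nat_lit 5) (nat_lit 319) (nat_lit 5) (nat_lit 311) (nat_lit 5) (nat_lit 441) (nat_lit 362) (nat_lit 337)) (XT.lf (nat_lit 0) (nat_lit 975669435) (nat_lit 684)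 (nat_lit 2947570329) (nat_lit 76) (nat_lit 4460634835) (nat_lit 301) (nat_lit 5) (nat_lit 310) (nat_lit 5) (nat_lit 302) (nat_lit 5) (nat_lit 442) (nat_lit 362) (nat_lit 336))) (XT.nd (nat_lit 78) (nat_lit 1216) (nat_lit 0) (XT.lf (nat_lit 0) (nat_lit 3679586061) (nat_lit 608) (nat_lit 810348078) (nat_lit 684) (nat_lit 3963117785) (nat_lit 293) (nat_lit 5) (nat_lit 301) (nat_lit 5) (nat_lit 302) (nat_lit 5) (nat_lit 443) (nat_lit 362) (nat_lit 335)) (XT.nd (nat_lit 78) (nat_lit 684) (nat_lit 0) (XT.lf (nat_lit 0) (nat_lit 1893367237) (nat_lit 532) (nat_lit 6175593616) (nat_lit 608) (nat_lit 454762409) (nat_lit 286) (nat_lit 5) (nat_lit 293) (nat_lit 5) (nat_lit 294) (nat_lit 5) (nat_lit 444) (nat_lit 362) (nat_lit 334)) (XT.lf (nat_lit 0) (nat_lit 65846695) (nat_lit 608) (nat_lit 3002131163) (nat_lit 684) (nat_lit 5527720809) (nat_lit 277) (nat_lit 5) (nat_lit 285) (nat_lit 5) (nat_lit 286) (nat_lit 5) (nat_lit 445) (nat_lit 362) (nat_lit 333)))))) (XT.nd (nat_lit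 390) (nat_lit 2128) (nat_lit 0) (XT.nd (nat_lit 156) (nat_lit 1140) (nat_lit 0) (XT.nd (nat_lit 78) (nat_lit 608) (nat_lit 0) (XT.lf (nat_lit 0) (nat_lit 6648993447) (nat_lit 684) (nat_lit 1759880721) (nat_lit 76) (nat_lit 260301097) (nat_lit 277) (nat_lit 5) (nat_lit 286) (nat_lit 5) (nat_lit 278) (nat_lit 5) (nat_lit 446) (nat_lit 362) (nat_lit 332)) (XT.lf (nat_lit 0) (nat_lit 1538845967) (nat_lit 608) (nat_lit 3632683140) (nat_lit 76) (nat_lit 3572354740) (nat_lit 269) (nat_lit 5) (nat_lit 277) (nat_lit 5) (nat_lit 270) (nat_lit 5) (nat_lit 447) (nat_lit 362) (nat_lit 331))) (XT.nd (nat_lit 78) (nat_lit 608) (nat_lit 0) (XT.lf (nat_lit 0) (nat_lit 3281831795) (nat_lit 532) (nat_lit 1842223975) (nat_lit 608) (nat_lit 3696122729) (nat_lit 262) (nat_lit 5) (nat_lit 269) (nat_lit 5) (nat_lit 270) (nat_lit 5) (nat_lit 448) (nat_lit 362) (nat_lit 330)) (XT.nd (nat_lit 78) (nat_lit 76) (nat_lit 0) (XT.lf (nat_lit 0) (nat_lit 1422908025) (nat_lit 532) (nat_lit 7351167115)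 (nat_lit 608) (nat_lit 124061796) (nat_lit 255) (nat_lit 5) (nat_lit 262) (nat_lit 5) (nat_lit 263) (nat_lit 5) (nat_lit 449) (nat_lit 362) (nat_lit 329)) (XT.lf (nat_lit 0) (nat_lit 3472333657) (nat_lit 608) (nat_lit 485817837) (nat_lit 76) (nat_lit 5019065010) (nat_lit 254) (nat_lit 5) (nat_lit 262) (nat_lit 5) (nat_lit 255) (nat_lit 5) (nat_lit 450) (nat_lit 362) (nat_lit 328))))) (XT.nd (nat_lit 156) (nat_lit 1064) (nat_lit 0) (XT.nd (nat_lit 78) (nat_lit 532) (nat_lit 0) (XT.lf (nat_lit 0) (nat_lit 6659238764) (nat_lit 532) (nat_lit 473426078) (nat_lit 608) (nat_lit 1925323038) (nat_lit 247) (nat_lit 5) (nat_lit 254) (nat_lit 5) (nat_lit 255) (nat_lit 5) (nat_lit 451) (nat_lit 362) (nat_lit 327)) (XT.lf (nat_lit 0) (nat_lit 1708391844) (nat_lit 532) (nat_lit 4366342665) (nat_lit 76) (nat_lit 3065312105) (nat_lit 240) (nat_lit 5) (nat_lit 247) (nat_lit 5) (nat_lit 241) (nat_lit 5) (nat_lit 452) (nat_lit 362) (nat_lit 326))) (XT.nd (nat_lit 78) (nat_lit 532)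 (nat_lit 0) (XT.lf (nat_lit 0) (nat_lit 2848846898) (nat_lit 532) (nat_lit 2529007606) (nat_lit 608) (nat_lit 3845860418) (nat_lit 233) (nat_lit 5) (nat_lit 240) (nat_lit 5) (nat_lit 241) (nat_lit 5) (nat_lit 453) (nat_lit 362) (nat_lit 325)) (XT.nd (nat_lit 78) (nat_lit 76) (nat_lit 0) (XT.lf (nat_lit 0) (nat_lit 891920473) (nat_lit 456) (nat_lit 8222484213) (nat_lit 532) (nat_lit 194777945) (nat_lit 227) (nat_lit 5) (nat_lit 233) (nat_lit 5) (nat_lit 234) (nat_lit 5) (nat_lit 454) (nat_lit 362) (nat_lit 324)) (XT.lf (nat_lit 0) (nat_lit 3494373340) (nat_lit 532) (nat_lit 1116744225) (nat_lit 76) (nat_lit 4784557136) (nat_lit 226) (nat_lit 5) (nat_lit 233) (nat_lit 5) (nat_lit 227) (nat_lit 5) (nat_lit 455) (nat_lit 362) (nat_lit 323))))))))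
noncomputable def xc21 : XT := (XT.nd (nat_lit 56394) (nat_lit 0) (nat_lit 14288) (XT.nd (nat_lit 702) (nat_lit 1976) (nat_lit 0) (XT.nd (nat_lit 312) (nat_lit 1368) (nat_lit 0) (XT.nd (nat_lit 156) (nat_lit 836) (nat_lit 0) (XT.nd (nat_lit 78) (nat_lit 532) (nat_lit 0) (XT.lf (nat_lit 0) (nat_lit 6341317115) (nat_lit 456) (nat_lit 907031927) (nat_lit 532) (nat_lit 2235648831) (nat_lit 220) (nat_lit 5) (nat_lit 226) (nat_lit 5) (nat_lit 227) (nat_lit 5) (nat_lit 456) (nat_lit 362) (nat_lit 322)) (XT.lf (nat_lit 0) (nat_lit 1490930403) (nat_lit 532) (nat_lit 5226226478) (nat_lit 76) (nat_lit 2856588819) (nat_lit 213) (nat_lit 5) (nat_lit 220) (nat_lit 5) (nat_lit 214) (nat_lit 5) (nat_lit 457) (nat_lit 362) (nat_lit 321))) (XT.nd (nat_lit 78) (nat_lit 380) (nat_lit 0) (XT.lf (nat_lit 0) (nat_lit 2303682927) (nat_lit 456) (nat_lit 2953608503) (nat_lit 532) (nat_lit 4407797791) (nat_lit 207) (nat_lit 5) (nat_lit 213) (nat_lit 5) (nat_lit 214) (nat_lit 5) (nat_lit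 458) (nat_lit 362) (nat_lit 320)) (XT.lf (nat_lit 0) (nat_lit 223278508) (nat_lit 380) (nat_lit 8871477048) (nat_lit 456) (nat_lit 663588537) (nat_lit 202) (nat_lit 5) (nat_lit 207) (nat_lit 5) (nat_lit 208) (nat_lit 5) (nat_lit 459) (nat_lit 362) (nat_lit 319)))) (XT.nd (nat_lit 156) (nat_lit 836) (nat_lit 0) (XT.nd (nat_lit 78) (nat_lit 456) (nat_lit 0) (XT.lf (nat_lit 0) (nat_lit 3136832979) (nat_lit 456) (nat_lit 1904704643) (nat_lit 76) (nat_lit 4811062426) (nat_lit 201) (nat_lit 5) (nat_lit 207) (nat_lit 5) (nat_lit 202) (nat_lit 5) (nat_lit 460) (nat_lit 362) (nat_lit 318)) (XT.lf (nat_lit 0) (nat_lit 5881102303) (nat_lit 456) (nat_lit 1115807413) (nat_lit 532) (nat_lit 2951893036) (nat_lit 195) (nat_lit 5) (nat_lit 201) (nat_lit 5) (nat_lit 202) (nat_lit 5) (nat_lit 461) (nat_lit 362) (nat_lit 317))) (XT.nd (nat_lit 78) (nat_lit 380) (nat_lit 0) (XT.lf (nat_lit 0) (nat_lit 886365540) (nat_lit 456) (nat_lit 6290460459) (nat_lit 76) (nat_lit 2869773425)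 (nat_lit 189) (nat_lit 5) (nat_lit 195) (nat_lit 5) (nat_lit 190) (nat_lit 5) (nat_lit 462) (nat_lit 362) (nat_lit 316)) (XT.nd (nat_lit 78) (nat_lit 0) (nat_lit 0) (XT.lf (nat_lit 0) (nat_lit 1568920437) (nat_lit 380) (nat_lit 3192799543) (nat_lit 456) (nat_lit 5384244679) (nat_lit 184) (nat_lit 5) (nat_lit 189) (nat_lit 5) (nat_lit 190) (nat_lit 5) (nat_lit 463) (nat_lit 362) (nat_lit 315)) (XT.lf (nat_lit 0) (nat_lit 8717764977) (nat_lit 456) (nat_lit 652244703) (nat_lit 76) (nat_lit 877243848) (nat_lit 184) (nat_lit 5) (nat_lit 190) (nat_lit 5) (nat_lit 185) (nat_lit 5) (nat_lit 464) (nat_lit 362) (nat_lit 314)))))) (XT.nd (nat_lit 390) (nat_lit 380) (nat_lit 0) (XT.nd (nat_lit 156) (nat_lit 760) (nat_lit 0) (XT.nd (nat_lit 78) (nat_lit 380) (nat_lit 0) (XT.lf (nat_lit 0) (nat_lit 2396380353) (nat_lit 456) (nat_lit 2927577545) (nat_lit 76) (nat_lit 5025787821) (nat_lit 178) (nat_lit 5) (nat_lit 184) (nat_lit 5) (nat_lit 179) (nat_lit 5) (nat_lit 465) (nat_lit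 362) (nat_lit 313)) (XT.lf (nat_lit 0) (nat_lit 5201430050) (nat_lit 380) (nat_lit 1173100403) (nat_lit 456) (nat_lit 4079670229) (nat_lit 173) (nat_lit 5) (nat_lit 178) (nat_lit 5) (nat_lit 179) (nat_lit 5) (nat_lit 466) (nat_lit 362) (nat_lit 312))) (XT.nd (nat_lit 78) (nat_lit 456) (nat_lit 0) (XT.lf (nat_lit 0) (nat_lit 2921067651) (nat_lit 304) (nat_lit 7526087191) (nat_lit 380) (nat_lit 113291677) (nat_lit 169) (nat_lit 5) (nat_lit 173) (nat_lit 5) (nat_lit 174) (nat_lit 5) (nat_lit 467) (nat_lit 362) (nat_lit 311)) (XT.nd (nat_lit 78) (nat_lit 0) (nat_lit 0) (XT.lf (nat_lit 0) (nat_lit 565646103) (nat_lit 380) (nat_lit 3318536591) (nat_lit 456) (nat_lit 6784057091) (nat_lit 163) (nat_lit 5) (nat_lit 168) (nat_lit 5) (nat_lit 169) (nat_lit 5) (nat_lit 468) (nat_lit 362) (nat_lit 310)) (XT.lf (nat_lit 0) (nat_lit 7974667623) (nat_lit 456) (nat_lit 1816193449) (nat_lit 76) (nat_lit 987021303) (nat_lit 163) (nat_lit 5) (nat_lit 169) (nat_lit 5) (nat_lit 164)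 (nat_lit 5) (nat_lit 469) (nat_lit 362) (nat_lit 309))))) (XT.nd (nat_lit 55068) (nat_lit 0) (nat_lit 27512) (XT.nd (nat_lit 54990) (nat_lit 0) (nat_lit 31084) (XT.lf (nat_lit 0) (nat_lit 1263447881) (nat_lit 380) (nat_lit 4265212175) (nat_lit 76) (nat_lit 5360440658) (nat_lit 158) (nat_lit 5) (nat_lit 163) (nat_lit 5) (nat_lit 159) (nat_lit 5) (nat_lit 470) (nat_lit 362) (nat_lit 308)) (XT.lf (nat_lit 0) (nat_lit 420775588) (nat_lit 1596) (nat_lit 1537116479) (nat_lit 1596) (nat_lit 1537116479) (nat_lit 567) (nat_lit 4) (nat_lit 588) (nat_lit 5) (nat_lit 588) (nat_lit 4) (nat_lit 414) (nat_lit 363) (nat_lit 363))) (XT.nd (nat_lit 78) (nat_lit 3496) (nat_lit 0) (XT.lf (nat_lit 0) (nat_lit 415257040) (nat_lit 1672) (nat_lit 1011370717) (nat_lit 76) (nat_lit 5596396078) (nat_lit 566) (nat_lit 5) (nat_lit 588) (nat_lit 5) (nat_lit 567) (nat_lit 4) (nat_lit 415) (nat_lit 363) (nat_lit 362)) (XT.nd (nat_lit 78) (nat_lit 1824) (nat_lit 0) (XT.lf (nat_lit 0) (nat_lit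 3892629281) (nat_lit 1748) (nat_lit 2864097126) (nat_lit 0) (nat_lit 300372765) (nat_lit 544) (nat_lit 5) (nat_lit 567) (nat_lit 4) (nat_lit 544) (nat_lit 4) (nat_lit 416) (nat_lit 363) (nat_lit 361)) (XT.lf (nat_lit 0) (nat_lit 305539469) (nat_lit 1824) (nat_lit 4718542091) (nat_lit 76) (nat_lit 2068481174) (nat_lit 520) (nat_lit 5) (nat_lit 544) (nat_lit 5) (nat_lit 521) (nat_lit 4) (nat_lit 417) (nat_lit 363) (nat_lit 360))))))) (XT.nd (nat_lit 702) (nat_lit 5548) (nat_lit 0) (XT.nd (nat_lit 312) (nat_lit 3724) (nat_lit 0) (XT.nd (nat_lit 156) (nat_lit 2052) (nat_lit 0) (XT.nd (nat_lit 78) (nat_lit 76) (nat_lit 0) (XT.lf (nat_lit 0) (nat_lit 543915177) (nat_lit 1824) (nat_lit 3212984085) (nat_lit 1900) (nat_lit 3372331513) (nat_lit 496) (nat_lit 5) (nat_lit 520) (nat_lit 5) (nat_lit 521) (nat_lit 4) (nat_lit 418) (nat_lit 363) (nat_lit 359)) (XT.lf (nat_lit 0) (nat_lit 72929324) (nat_lit 1900) (nat_lit 1261300228) (nat_lit 76) (nat_lit 5833113725) (nat_lit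 495) (nat_lit 5) (nat_lit 520) (nat_lit 5) (nat_lit 496) (nat_lit 5) (nat_lit 419) (nat_lit 363) (nat_lit 358))) (XT.nd (nat_lit 78) (nat_lit 912) (nat_lit 0) (XT.lf (nat_lit 0) (nat_lit 3506095421) (nat_lit 1216) (nat_lit 3078188312) (nat_lit 76) (nat_lit 622205363) (nat_lit 480) (nat_lit 5) (nat_lit 496) (nat_lit 5) (nat_lit 481) (nat_lit 4) (nat_lit 420) (nat_lit 363) (nat_lit 357)) (XT.lf (nat_lit 0) (nat_lit 2349020721) (nat_lit 912) (nat_lit 4625554072) (nat_lit 988) (nat_lit 272510040) (nat_lit 468) (nat_lit 5) (nat_lit 480) (nat_lit 5) (nat_lit 481) (nat_lit 4) (nat_lit 421) (nat_lit 363) (nat_lit 356)))) (XT.nd (nat_lit 156) (nat_lit 2736) (nat_lit 0) (XT.nd (nat_lit 78) (nat_lit 0) (nat_lit 0) (XT.lf (nat_lit 0) (nat_lit 554775687) (nat_lit 912) (nat_lit 2585724938) (nat_lit 988) (nat_lit 4148396185) (nat_lit 455) (nat_lit 5) (nat_lit 467) (nat_lit 5) (nat_lit 468) (nat_lit 5) (nat_lit 422) (nat_lit 363) (nat_lit 355)) (XT.lf (nat_lit 0) (nat_lit 6111845868)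 (nat_lit 912) (nat_lit 474428237) (nat_lit 988) (nat_lit 745871865) (nat_lit 455) (nat_lit 5) (nat_lit 467) (nat_lit 5) (nat_lit 468) (nat_lit 5) (nat_lit 423) (nat_lit 363) (nat_lit 354))) (XT.nd (nat_lit 78) (nat_lit 1824) (nat_lit 0) (XT.lf (nat_lit 0) (nat_lit 2664685279) (nat_lit 912) (nat_lit 3013189783) (nat_lit 76) (nat_lit 1698516895) (nat_lit 443) (nat_lit 5) (nat_lit 455) (nat_lit 5) (nat_lit 444) (nat_lit 5) (nat_lit 424) (nat_lit 363) (nat_lit 353)) (XT.nd (nat_lit 78) (nat_lit 912) (nat_lit 0) (XT.lf (nat_lit 0) (nat_lit 2609998520) (nat_lit 912) (nat_lit 3488721028) (nat_lit 988) (nat_lit 1323399647) (nat_lit 431) (nat_lit 5) (nat_lit 443) (nat_lit 5) (nat_lit 444) (nat_lit 5) (nat_lit 425) (nat_lit 363) (nat_lit 352)) (XT.lf (nat_lit 0) (nat_lit 845214644) (nat_lit 836) (nat_lit 1222618368) (nat_lit 912) (nat_lit 5401388432) (nat_lit 419) (nat_lit 5) (nat_lit 430) (nat_lit 5) (nat_lit 431) (nat_lit 5) (nat_lit 426) (nat_lit 363) (nat_lit 351))))))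 (XT.nd (nat_lit 390) (nat_lit 3040) (nat_lit 0) (XT.nd (nat_lit 156) (nat_lit 1596) (nat_lit 0) (XT.nd (nat_lit 78) (nat_lit 912) (nat_lit 0) (XT.lf (nat_lit 0) (nat_lit 5486778132) (nat_lit 912) (nat_lit 922497865) (nat_lit 76) (nat_lit 1108262627) (nat_lit 419) (nat_lit 5) (nat_lit 431) (nat_lit 5) (nat_lit 420) (nat_lit 5) (nat_lit 427) (nat_lit 363) (nat_lit 350)) (XT.lf (nat_lit 0) (nat_lit 1367694448) (nat_lit 912) (nat_lit 2696668501) (nat_lit 76) (nat_lit 3502699034) (nat_lit 407) (nat_lit 5) (nat_lit 419) (nat_lit 5) (nat_lit 408) (nat_lit 5) (nat_lit 428) (nat_lit 363) (nat_lit 349))) (XT.nd (nat_lit 78) (nat_lit 836) (nat_lit 0) (XT.lf (nat_lit 0) (nat_lit 3132067186) (nat_lit 760) (nat_lit 1641030282) (nat_lit 836) (nat_lit 2844886458) (nat_lit 397) (nat_lit 5) (nat_lit 407) (nat_lit 5) (nat_lit 408) (nat_lit 5) (nat_lit 429) (nat_lit 363) (nat_lit 348)) (XT.nd (nat_lit 78) (nat_lit 0) (nat_lit 0) (XT.lf (nat_lit 0) (nat_lit 541805570) (nat_lit 836)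 (nat_lit 6287378807) (nat_lit 76) (nat_lit 841211353) (nat_lit 386) (nat_lit 5) (nat_lit 397) (nat_lit 5) (nat_lit 387) (nat_lit 5) (nat_lit 430) (nat_lit 363) (nat_lit 347)) (XT.lf (nat_lit 0) (nat_lit 3939922061) (nat_lit 836) (nat_lit 393739668) (nat_lit 76) (nat_lit 3390182275) (nat_lit 386) (nat_lit 5) (nat_lit 397) (nat_lit 5) (nat_lit 387) (nat_lit 5) (nat_lit 431) (nat_lit 363) (nat_lit 346))))) (XT.nd (nat_lit 156) (nat_lit 1444) (nat_lit 0) (XT.nd (nat_lit 78) (nat_lit 836) (nat_lit 0) (XT.lf (nat_lit 0) (nat_lit 5622179141) (nat_lit 760) (nat_lit 1762067866) (nat_lit 836) (nat_lit 394549313) (nat_lit 376) (nat_lit 5) (nat_lit 386) (nat_lit 5) (nat_lit 387) (nat_lit 5) (nat_lit 432) (nat_lit 363) (nat_lit 345)) (XT.lf (nat_lit 0) (nat_lit 2998250731) (nat_lit 836) (nat_lit 3950443394) (nat_lit 76) (nat_lit 886239734) (nat_lit 365) (nat_lit 5) (nat_lit 376) (nat_lit 5) (nat_lit 366) (nat_lit 5) (nat_lit 433) (nat_lit 363) (nat_lit 344))) (XT.nd (nat_lit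 78) (nat_lit 760) (nat_lit 0) (XT.lf (nat_lit 0) (nat_lit 2127014761) (nat_lit 684) (nat_lit 4309327750) (nat_lit 760) (nat_lit 1456145105) (nat_lit 356) (nat_lit 5) (nat_lit 365) (nat_lit 5) (nat_lit 366) (nat_lit 5) (nat_lit 434) (nat_lit 363) (nat_lit 343)) (XT.nd (nat_lit 78) (nat_lit 0) (nat_lit 0) (XT.lf (nat_lit 0) (nat_lit 349840145) (nat_lit 684) (nat_lit 1587956988) (nat_lit 760) (nat_lit 6013698266) (nat_lit 346) (nat_lit 5) (nat_lit 355) (nat_lit 5) (nat_lit 356) (nat_lit 5) (nat_lit 435) (nat_lit 363) (nat_lit 342)) (XT.lf (nat_lit 0) (nat_lit 5370333262) (nat_lit 760) (nat_lit 1434032026) (nat_lit 76) (nat_lit 1207321292) (nat_lit 346) (nat_lit 5) (nat_lit 356) (nat_lit 5) (nat_lit 347) (nat_lit 5) (nat_lit 436) (nat_lit 363) (nat_lit 341))))))))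
noncomputable def xc22 : XT := (XT.nd (nat_lit 1482) (nat_lit 5168) (nat_lit 0) (XT.nd (nat_lit 702) (nat_lit 4484) (nat_lit 0) (XT.nd (nat_lit 312) (nat_lit 2508) (nat_lit 0) (XT.nd (nat_lit 156) (nat_lit 684) (nat_lit 0) (XT.nd (nat_lit 78) (nat_lit 684) (nat_lit 0) (XT.lf (nat_lit 0) (nat_lit 774463843) (nat_lit 760) (nat_lit 3238265814) (nat_lit 76) (nat_lit 4060518308) (nat_lit 336) (nat_lit 5) (nat_lit 346) (nat_lit 5) (nat_lit 337) (nat_lit 5) (nat_lit 437) (nat_lit 363) (nat_lit 340)) (XT.lf (nat_lit 0) (nat_lit 3065615859) (nat_lit 684) (nat_lit 1132154857) (nat_lit 760) (nat_lit 3938429853) (nat_lit 327) (nat_lit 5) (nat_lit 336) (nat_lit 5) (nat_lit 337) (nat_lit 5) (nat_lit 438) (nat_lit 363) (nat_lit 339))) (XT.nd (nat_lit 78) (nat_lit 76) (nat_lit 0) (XT.lf (nat_lit 0) (nat_lit 1273797425) (nat_lit 608) (nat_lit 6403064748) (nat_lit 684) (nat_lit 523803683) (nat_lit 319) (nat_lit 5) (nat_lit 327) (nat_lit 5) (nat_lit 328) (nat_lit 5) (nat_lit 439)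 (nat_lit 363) (nat_lit 338)) (XT.lf (nat_lit 0) (nat_lit 2907760329) (nat_lit 684) (nat_lit 549664610) (nat_lit 76) (nat_lit 4808862167) (nat_lit 318) (nat_lit 5) (nat_lit 327) (nat_lit 5) (nat_lit 319) (nat_lit 5) (nat_lit 440) (nat_lit 363) (nat_lit 337)))) (XT.nd (nat_lit 156) (nat_lit 1216) (nat_lit 0) (XT.nd (nat_lit 78) (nat_lit 684) (nat_lit 0) (XT.lf (nat_lit 0) (nat_lit 5960384522) (nat_lit 608) (nat_lit 426032595) (nat_lit 684) (nat_lit 1947024911) (nat_lit 310) (nat_lit 5) (nat_lit 318) (nat_lit 5) (nat_lit 319) (nat_lit 5) (nat_lit 441) (nat_lit 363) (nat_lit 336)) (XT.lf (nat_lit 0) (nat_lit 1507955736) (nat_lit 684) (nat_lit 4238220085) (nat_lit 76) (nat_lit 2655658192) (nat_lit 301) (nat_lit 5) (nat_lit 310) (nat_lit 5) (nat_lit 302) (nat_lit 5) (nat_lit 442) (nat_lit 363) (nat_lit 335))) (XT.nd (nat_lit 78) (nat_lit 608) (nat_lit 0) (XT.lf (nat_lit 0) (nat_lit 2336605304) (nat_lit 608) (nat_lit 2650904526) (nat_lit 684) (nat_lit 3484195721) (nat_lit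 293) (nat_lit 5) (nat_lit 301) (nat_lit 5) (nat_lit 302) (nat_lit 5) (nat_lit 443) (nat_lit 363) (nat_lit 334)) (XT.nd (nat_lit 78) (nat_lit 76) (nat_lit 0) (XT.lf (nat_lit 0) (nat_lit 490335717) (nat_lit 532) (nat_lit 8029378887) (nat_lit 608) (nat_lit 23598723) (nat_lit 286) (nat_lit 5) (nat_lit 293) (nat_lit 5) (nat_lit 294) (nat_lit 5) (nat_lit 444) (nat_lit 363) (nat_lit 333)) (XT.lf (nat_lit 0) (nat_lit 3467407805) (nat_lit 608) (nat_lit 1395495105) (nat_lit 76) (nat_lit 3752851414) (nat_lit 285) (nat_lit 5) (nat_lit 293) (nat_lit 5) (nat_lit 286) (nat_lit 5) (nat_lit 445) (nat_lit 363) (nat_lit 332)))))) (XT.nd (nat_lit 390) (nat_lit 2128) (nat_lit 0) (XT.nd (nat_lit 156) (nat_lit 1140) (nat_lit 0) (XT.nd (nat_lit 78) (nat_lit 608) (nat_lit 0) (XT.lf (nat_lit 0) (nat_lit 5396327522) (nat_lit 608) (nat_lit 1615827896) (nat_lit 684) (nat_lit 1677800863) (nat_lit 277) (nat_lit 5) (nat_lit 285) (nat_lit 5) (nat_lit 286) (nat_lit 5) (nat_lit 446) (nat_lit 363)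 (nat_lit 331)) (XT.lf (nat_lit 0) (nat_lit 1830756873) (nat_lit 608) (nat_lit 5234839111) (nat_lit 76) (nat_lit 1699944013) (nat_lit 269) (nat_lit 5) (nat_lit 277) (nat_lit 5) (nat_lit 270) (nat_lit 5) (nat_lit 447) (nat_lit 363) (nat_lit 330))) (XT.nd (nat_lit 78) (nat_lit 608) (nat_lit 0) (XT.lf (nat_lit 0) (nat_lit 1623239469) (nat_lit 532) (nat_lit 3757123854) (nat_lit 608) (nat_lit 3462183392) (nat_lit 262) (nat_lit 5) (nat_lit 269) (nat_lit 5) (nat_lit 270) (nat_lit 5) (nat_lit 448) (nat_lit 363) (nat_lit 329)) (XT.nd (nat_lit 78) (nat_lit 532) (nat_lit 0) (XT.lf (nat_lit 0) (nat_lit 64219032) (nat_lit 608) (nat_lit 301966915) (nat_lit 76) (nat_lit 8555189287) (nat_lit 261) (nat_lit 5) (nat_lit 269) (nat_lit 5) (nat_lit 262) (nat_lit 5) (nat_lit 449) (nat_lit 363) (nat_lit 328)) (XT.lf (nat_lit 0) (nat_lit 3630071111) (nat_lit 608) (nat_lit 2271377912) (nat_lit 76) (nat_lit 3099567993) (nat_lit 254) (nat_lit 5) (nat_lit 262) (nat_lit 5) (nat_lit 255) (nat_lit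 5) (nat_lit 450) (nat_lit 363) (nat_lit 327))))) (XT.nd (nat_lit 156) (nat_lit 1064) (nat_lit 0) (XT.nd (nat_lit 78) (nat_lit 532) (nat_lit 0) (XT.lf (nat_lit 0) (nat_lit 4815200353) (nat_lit 532) (nat_lit 2439171402) (nat_lit 608) (nat_lit 1828137250) (nat_lit 247) (nat_lit 5) (nat_lit 254) (nat_lit 5) (nat_lit 255) (nat_lit 5) (nat_lit 451) (nat_lit 363) (nat_lit 326)) (XT.lf (nat_lit 0) (nat_lit 1754905192) (nat_lit 532) (nat_lit 6307545967) (nat_lit 76) (nat_lit 1103091914) (nat_lit 240) (nat_lit 5) (nat_lit 247) (nat_lit 5) (nat_lit 241) (nat_lit 5) (nat_lit 452) (nat_lit 363) (nat_lit 325))) (XT.nd (nat_lit 78) (nat_lit 532) (nat_lit 0) (XT.lf (nat_lit 0) (nat_lit 846820039) (nat_lit 532) (nat_lit 4540764679) (nat_lit 608) (nat_lit 3862362327) (nat_lit 233) (nat_lit 5) (nat_lit 240) (nat_lit 5) (nat_lit 241) (nat_lit 5) (nat_lit 453) (nat_lit 363) (nat_lit 324)) (XT.nd (nat_lit 78) (nat_lit 532) (nat_lit 0) (XT.lf (nat_lit 0) (nat_lit 8160408622) (nat_lit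 532) (nat_lit 927282869) (nat_lit 608) (nat_lit 248452131) (nat_lit 233) (nat_lit 5) (nat_lit 240) (nat_lit 5) (nat_lit 241) (nat_lit 5) (nat_lit 454) (nat_lit 363) (nat_lit 323)) (XT.lf (nat_lit 0) (nat_lit 3404069009) (nat_lit 532) (nat_lit 3255544075) (nat_lit 76) (nat_lit 2763776260) (nat_lit 226) (nat_lit 5) (nat_lit 233) (nat_lit 5) (nat_lit 227) (nat_lit 5) (nat_lit 455) (nat_lit 363) (nat_lit 322))))))) (XT.nd (nat_lit 702) (nat_lit 1976) (nat_lit 0) (XT.nd (nat_lit 312) (nat_lit 1748) (nat_lit 0) (XT.nd (nat_lit 156) (nat_lit 456) (nat_lit 0) (XT.nd (nat_lit 78) (nat_lit 532) (nat_lit 0) (XT.lf (nat_lit 0) (nat_lit 4139498814) (nat_lit 456) (nat_lit 2981184320) (nat_lit 532) (nat_lit 2391776615) (nat_lit 220) (nat_lit 5) (nat_lit 226) (nat_lit 5) (nat_lit 227) (nat_lit 5) (nat_lit 456) (nat_lit 363) (nat_lit 321)) (XT.lf (nat_lit 0) (nat_lit 1285328763) (nat_lit 532) (nat_lit 7535390209) (nat_lit 76) (nat_lit 782539307) (nat_lit 213) (nat_lit 5) (nat_lit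 220) (nat_lit 5) (nat_lit 214) (nat_lit 5) (nat_lit 457) (nat_lit 363) (nat_lit 320))) (XT.nd (nat_lit 78) (nat_lit 456) (nat_lit 0) (XT.lf (nat_lit 0) (nat_lit 5013904654) (nat_lit 532) (nat_lit 70073041) (nat_lit 76) (nat_lit 4611379806) (nat_lit 213) (nat_lit 5) (nat_lit 220) (nat_lit 5) (nat_lit 214) (nat_lit 5) (nat_lit 458) (nat_lit 363) (nat_lit 319)) (XT.lf (nat_lit 0) (nat_lit 7575824828) (nat_lit 456) (nat_lit 1245205927) (nat_lit 532) (nat_lit 968188380) (nat_lit 207) (nat_lit 5) (nat_lit 213) (nat_lit 5) (nat_lit 214) (nat_lit 5) (nat_lit 459) (nat_lit 363) (nat_lit 318)))) (XT.nd (nat_lit 156) (nat_lit 836) (nat_lit 0) (XT.nd (nat_lit 78) (nat_lit 456) (nat_lit 0) (XT.lf (nat_lit 0) (nat_lit 2790881073) (nat_lit 456) (nat_lit 4426402900) (nat_lit 76) (nat_lit 2667137609) (nat_lit 201) (nat_lit 5) (nat_lit 207) (nat_lit 5) (nat_lit 202) (nat_lit 5) (nat_lit 460) (nat_lit 363) (nat_lit 317)) (XT.lf (nat_lit 0) (nat_lit 3291516536) (nat_lit 456) (nat_lit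 3320467181) (nat_lit 532) (nat_lit 3369420051) (nat_lit 195) (nat_lit 5) (nat_lit 201) (nat_lit 5) (nat_lit 202) (nat_lit 5) (nat_lit 461) (nat_lit 363) (nat_lit 316))) (XT.nd (nat_lit 78) (nat_lit 380) (nat_lit 0) (XT.lf (nat_lit 0) (nat_lit 420242049) (nat_lit 456) (nat_lit 8998115834) (nat_lit 76) (nat_lit 661978223) (nat_lit 189) (nat_lit 5) (nat_lit 195) (nat_lit 5) (nat_lit 190) (nat_lit 5) (nat_lit 462) (nat_lit 363) (nat_lit 315)) (XT.nd (nat_lit 78) (nat_lit 380) (nat_lit 0) (XT.lf (nat_lit 0) (nat_lit 4263456264) (nat_lit 456) (nat_lit 1193443269) (nat_lit 76) (nat_lit 4723444612) (nat_lit 189) (nat_lit 5) (nat_lit 195) (nat_lit 5) (nat_lit 190) (nat_lit 5) (nat_lit 463) (nat_lit 363) (nat_lit 314)) (XT.lf (nat_lit 0) (nat_lit 6788764545) (nat_lit 380) (nat_lit 1395370337) (nat_lit 456) (nat_lit 2098205459) (nat_lit 184) (nat_lit 5) (nat_lit 189) (nat_lit 5) (nat_lit 190) (nat_lit 5) (nat_lit 464) (nat_lit 363) (nat_lit 313)))))) (XT.nd (nat_lit 390)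 (nat_lit 380) (nat_lit 0) (XT.nd (nat_lit 156) (nat_lit 760) (nat_lit 0) (XT.nd (nat_lit 78) (nat_lit 380) (nat_lit 0) (XT.lf (nat_lit 0) (nat_lit 1785487174) (nat_lit 456) (nat_lit 5863579904) (nat_lit 76) (nat_lit 2736832006) (nat_lit 178) (nat_lit 5) (nat_lit 184) (nat_lit 5) (nat_lit 179) (nat_lit 5) (nat_lit 465) (nat_lit 363) (nat_lit 312)) (XT.lf (nat_lit 0) (nat_lit 2192308850) (nat_lit 380) (nat_lit 3530459191) (nat_lit 456) (nat_lit 4768403391) (nat_lit 173) (nat_lit 5) (nat_lit 178) (nat_lit 5) (nat_lit 179) (nat_lit 5) (nat_lit 466) (nat_lit 363) (nat_lit 311))) (XT.nd (nat_lit 78) (nat_lit 760) (nat_lit 0) (XT.lf (nat_lit 0) (nat_lit 9739910703) (nat_lit 456) (nat_lit 181804105) (nat_lit 76) (nat_lit 676812095) (nat_lit 173) (nat_lit 5) (nat_lit 179) (nat_lit 5) (nat_lit 174) (nat_lit 5) (nat_lit 467) (nat_lit 363) (nat_lit 310)) (XT.nd (nat_lit 78) (nat_lit 380) (nat_lit 0) (XT.lf (nat_lit 0) (nat_lit 3122604895) (nat_lit 380) (nat_lit 2614151438)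 (nat_lit 76) (nat_lit 4970181186) (nat_lit 168) (nat_lit 5) (nat_lit 173) (nat_lit 5) (nat_lit 169) (nat_lit 5) (nat_lit 468) (nat_lit 363) (nat_lit 309)) (XT.lf (nat_lit 0) (nat_lit 5720162804) (nat_lit 380) (nat_lit 1448279818) (nat_lit 456) (nat_lit 3649030432) (nat_lit 163) (nat_lit 5) (nat_lit 168) (nat_lit 5) (nat_lit 169) (nat_lit 5) (nat_lit 469) (nat_lit 363) (nat_lit 308))))) (XT.nd (nat_lit 54912) (nat_lit 0) (nat_lit 31008) (XT.nd (nat_lit 54834) (nat_lit 0) (nat_lit 34276) (XT.lf (nat_lit 0) (nat_lit 376610832) (nat_lit 380) (nat_lit 7648921696) (nat_lit 76) (nat_lit 2904310983) (nat_lit 158) (nat_lit 5) (nat_lit 163) (nat_lit 5) (nat_lit 159) (nat_lit 5) (nat_lit 470) (nat_lit 363) (nat_lit 307)) (XT.lf (nat_lit 0) (nat_lit 2312382888) (nat_lit 1444) (nat_lit 575674096) (nat_lit 1444) (nat_lit 575674096) (nat_lit 609) (nat_lit 4) (nat_lit 628) (nat_lit 5) (nat_lit 628) (nat_lit 4) (nat_lit 412) (nat_lit 364) (nat_lit 364))) (XT.nd (nat_lit 78) (nat_lit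 1672) (nat_lit 0) (XT.lf (nat_lit 0) (nat_lit 2302450779) (nat_lit 1596) (nat_lit 4240728854) (nat_lit 0) (nat_lit 415257040) (nat_lit 588) (nat_lit 5) (nat_lit 609) (nat_lit 4) (nat_lit 588) (nat_lit 4) (nat_lit 413) (nat_lit 364) (nat_lit 363)) (XT.nd (nat_lit 78) (nat_lit 76) (nat_lit 0) (XT.lf (nat_lit 0) (nat_lit 807629745) (nat_lit 1596) (nat_lit 4960236629) (nat_lit 1596) (nat_lit 1222852949) (nat_lit 567) (nat_lit 4) (nat_lit 588) (nat_lit 5) (nat_lit 588) (nat_lit 4) (nat_lit 414) (nat_lit 364) (nat_lit 362)) (XT.lf (nat_lit 0) (nat_lit 2207704861) (nat_lit 1672) (nat_lit 1091731564) (nat_lit 76) (nat_lit 3724742253) (nat_lit 566) (nat_lit 5) (nat_lit 588) (nat_lit 5) (nat_lit 567) (nat_lit 4) (nat_lit 415) (nat_lit 364) (nat_lit 361))))))))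
noncomputable def xc23 : XT := (XT.nd (nat_lit 1482) (nat_lit 9348) (nat_lit 0) (XT.nd (nat_lit 702) (nat_lit 6612) (nat_lit 0) (XT.nd (nat_lit 312) (nat_lit 3952) (nat_lit 0) (XT.nd (nat_lit 156) (nat_lit 1900) (nat_lit 0) (XT.nd (nat_lit 78) (nat_lit 1824) (nat_lit 0) (XT.lf (nat_lit 0) (nat_lit 4080093928) (nat_lit 1672) (nat_lit 1568289301) (nat_lit 1748) (nat_lit 1410604663) (nat_lit 544) (nat_lit 5) (nat_lit 566) (nat_lit 5) (nat_lit 567) (nat_lit 4) (nat_lit 416) (nat_lit 364) (nat_lit 360)) (XT.lf (nat_lit 0) (nat_lit 1991501677) (nat_lit 1824) (nat_lit 4872377884) (nat_lit 76) (nat_lit 231242163) (nat_lit 520) (nat_lit 5) (nat_lit 544) (nat_lit 5) (nat_lit 521) (nat_lit 4) (nat_lit 417) (nat_lit 364) (nat_lit 359))) (XT.nd (nat_lit 78) (nat_lit 76) (nat_lit 0) (XT.lf (nat_lit 0) (nat_lit 353851706) (nat_lit 1824) (nat_lit 5054483448) (nat_lit 1900) (nat_lit 1724145137) (nat_lit 496) (nat_lit 5) (nat_lit 520) (nat_lit 5) (nat_lit 521) (nat_lit 4) (nat_lit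 418) (nat_lit 364) (nat_lit 358)) (XT.lf (nat_lit 0) (nat_lit 1666424745) (nat_lit 1900) (nat_lit 1499266901) (nat_lit 76) (nat_lit 4005348618) (nat_lit 495) (nat_lit 5) (nat_lit 520) (nat_lit 5) (nat_lit 496) (nat_lit 5) (nat_lit 419) (nat_lit 364) (nat_lit 357)))) (XT.nd (nat_lit 156) (nat_lit 1824) (nat_lit 0) (XT.nd (nat_lit 78) (nat_lit 988) (nat_lit 0) (XT.lf (nat_lit 0) (nat_lit 3857617791) (nat_lit 1140) (nat_lit 1203668862) (nat_lit 1216) (nat_lit 2149665515) (nat_lit 480) (nat_lit 5) (nat_lit 495) (nat_lit 5) (nat_lit 496) (nat_lit 5) (nat_lit 420) (nat_lit 364) (nat_lit 356)) (XT.lf (nat_lit 0) (nat_lit 1219369737) (nat_lit 988) (nat_lit 5216418147) (nat_lit 76) (nat_lit 816435726) (nat_lit 467) (nat_lit 5) (nat_lit 480) (nat_lit 5) (nat_lit 468) (nat_lit 5) (nat_lit 421) (nat_lit 364) (nat_lit 355))) (XT.nd (nat_lit 78) (nat_lit 912) (nat_lit 0) (XT.lf (nat_lit 0) (nat_lit 196045453) (nat_lit 912) (nat_lit 4398620889) (nat_lit 988) (nat_lit 2700016660)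 (nat_lit 455) (nat_lit 5) (nat_lit 467) (nat_lit 5) (nat_lit 468) (nat_lit 5) (nat_lit 422) (nat_lit 364) (nat_lit 354)) (XT.nd (nat_lit 78) (nat_lit 836) (nat_lit 0) (XT.lf (nat_lit 0) (nat_lit 661680308) (nat_lit 988) (nat_lit 1623476837) (nat_lit 76) (nat_lit 5053316072) (nat_lit 454) (nat_lit 5) (nat_lit 467) (nat_lit 5) (nat_lit 455) (nat_lit 5) (nat_lit 423) (nat_lit 364) (nat_lit 353)) (XT.lf (nat_lit 0) (nat_lit 3927283498) (nat_lit 836) (nat_lit 90099023) (nat_lit 912) (nat_lit 3366141281) (nat_lit 443) (nat_lit 5) (nat_lit 454) (nat_lit 5) (nat_lit 455) (nat_lit 5) (nat_lit 424) (nat_lit 364) (nat_lit 352)))))) (XT.nd (nat_lit 390) (nat_lit 3116) (nat_lit 0) (XT.nd (nat_lit 156) (nat_lit 1672) (nat_lit 0) (XT.nd (nat_lit 78) (nat_lit 912) (nat_lit 0) (XT.lf (nat_lit 0) (nat_lit 2127397874) (nat_lit 912) (nat_lit 5289681775) (nat_lit 988) (nat_lit 12858134) (nat_lit 431) (nat_lit 5) (nat_lit 443) (nat_lit 5) (nat_lit 444) (nat_lit 5) (nat_lit 425) (nat_lit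 364) (nat_lit 351)) (XT.lf (nat_lit 0) (nat_lit 305216537) (nat_lit 836) (nat_lit 3022027260) (nat_lit 912) (nat_lit 4150304912) (nat_lit 419) (nat_lit 5) (nat_lit 430) (nat_lit 5) (nat_lit 431) (nat_lit 5) (nat_lit 426) (nat_lit 364) (nat_lit 350))) (XT.nd (nat_lit 78) (nat_lit 1672) (nat_lit 0) (XT.lf (nat_lit 0) (nat_lit 6028715486) (nat_lit 836) (nat_lit 680123093) (nat_lit 912) (nat_lit 817774316) (nat_lit 419) (nat_lit 5) (nat_lit 430) (nat_lit 5) (nat_lit 431) (nat_lit 5) (nat_lit 427) (nat_lit 364) (nat_lit 349)) (XT.nd (nat_lit 78) (nat_lit 760) (nat_lit 0) (XT.lf (nat_lit 0) (nat_lit 2526634078) (nat_lit 912) (nat_lit 3326812314) (nat_lit 76) (nat_lit 1723295113) (nat_lit 407) (nat_lit 5) (nat_lit 419) (nat_lit 5) (nat_lit 408) (nat_lit 5) (nat_lit 428) (nat_lit 364) (nat_lit 348)) (XT.lf (nat_lit 0) (nat_lit 2459263254) (nat_lit 760) (nat_lit 3439080445) (nat_lit 836) (nat_lit 1729993616) (nat_lit 397) (nat_lit 5) (nat_lit 407) (nat_lit 5) (nat_lit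 408) (nat_lit 5) (nat_lit 429) (nat_lit 364) (nat_lit 347))))) (XT.nd (nat_lit 156) (nat_lit 2280) (nat_lit 0) (XT.nd (nat_lit 78) (nat_lit 0) (nat_lit 0) (XT.lf (nat_lit 0) (nat_lit 654638002) (nat_lit 760) (nat_lit 947978142) (nat_lit 836) (nat_lit 6078777409) (nat_lit 386) (nat_lit 5) (nat_lit 396) (nat_lit 5) (nat_lit 397) (nat_lit 5) (nat_lit 430) (nat_lit 364) (nat_lit 346)) (XT.lf (nat_lit 0) (nat_lit 4965737737) (nat_lit 836) (nat_lit 1161282797) (nat_lit 76) (nat_lit 1608521189) (nat_lit 386) (nat_lit 5) (nat_lit 397) (nat_lit 5) (nat_lit 387) (nat_lit 5) (nat_lit 431) (nat_lit 364) (nat_lit 345))) (XT.nd (nat_lit 78) (nat_lit 1444) (nat_lit 0) (XT.lf (nat_lit 0) (nat_lit 577675231) (nat_lit 836) (nat_lit 2984625169) (nat_lit 76) (nat_lit 4228788540) (nat_lit 375) (nat_lit 5) (nat_lit 386) (nat_lit 5) (nat_lit 376) (nat_lit 5) (nat_lit 432) (nat_lit 364) (nat_lit 344)) (XT.nd (nat_lit 78) (nat_lit 684) (nat_lit 0) (XT.lf (nat_lit 0) (nat_lit 3014580228)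 (nat_lit 760) (nat_lit 911081143) (nat_lit 836) (nat_lit 3922306661) (nat_lit 365) (nat_lit 5) (nat_lit 375) (nat_lit 5) (nat_lit 376) (nat_lit 5) (nat_lit 433) (nat_lit 364) (nat_lit 343)) (XT.lf (nat_lit 0) (nat_lit 1203780822) (nat_lit 684) (nat_lit 6120236405) (nat_lit 760) (nat_lit 582299280) (nat_lit 356) (nat_lit 5) (nat_lit 365) (nat_lit 5) (nat_lit 366) (nat_lit 5) (nat_lit 434) (nat_lit 364) (nat_lit 342))))))) (XT.nd (nat_lit 780) (nat_lit 4484) (nat_lit 0) (XT.nd (nat_lit 390) (nat_lit 1976) (nat_lit 0) (XT.nd (nat_lit 156) (nat_lit 2128) (nat_lit 0) (XT.nd (nat_lit 78) (nat_lit 684) (nat_lit 0) (XT.lf (nat_lit 0) (nat_lit 2770228154) (nat_lit 760) (nat_lit 631724551) (nat_lit 76) (nat_lit 4563857197) (nat_lit 355) (nat_lit 5) (nat_lit 365) (nat_lit 5) (nat_lit 356) (nat_lit 5) (nat_lit 435) (nat_lit 364) (nat_lit 341)) (XT.lf (nat_lit 0) (nat_lit 5561781532) (nat_lit 684) (nat_lit 601522952) (nat_lit 760) (nat_lit 1863485795) (nat_lit 346) (nat_lit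 5) (nat_lit 355) (nat_lit 5) (nat_lit 356) (nat_lit 5) (nat_lit 436) (nat_lit 364) (nat_lit 340))) (XT.nd (nat_lit 78) (nat_lit 1368) (nat_lit 0) (XT.lf (nat_lit 0) (nat_lit 1504127624) (nat_lit 760) (nat_lit 4333937157) (nat_lit 76) (nat_lit 2250945912) (nat_lit 336) (nat_lit 5) (nat_lit 346) (nat_lit 5) (nat_lit 337) (nat_lit 5) (nat_lit 437) (nat_lit 364) (nat_lit 339)) (XT.nd (nat_lit 78) (nat_lit 684) (nat_lit 0) (XT.lf (nat_lit 0) (nat_lit 1920957506) (nat_lit 684) (nat_lit 2972311067) (nat_lit 760) (nat_lit 3259378043) (nat_lit 327) (nat_lit 5) (nat_lit 336) (nat_lit 5) (nat_lit 337) (nat_lit 5) (nat_lit 438) (nat_lit 364) (nat_lit 338)) (XT.lf (nat_lit 0) (nat_lit 73746160) (nat_lit 608) (nat_lit 33165680) (nat_lit 684) (nat_lit 8111105907) (nat_lit 318) (nat_lit 5) (nat_lit 326) (nat_lit 5) (nat_lit 327) (nat_lit 5) (nat_lit 439) (nat_lit 364) (nat_lit 337))))) (XT.nd (nat_lit 156) (nat_lit 1368) (nat_lit 0) (XT.nd (nat_lit 78) (nat_lit 608) (nat_lit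 0) (XT.lf (nat_lit 0) (nat_lit 3505039205) (nat_lit 684) (nat_lit 1804610433) (nat_lit 76) (nat_lit 2974452678) (nat_lit 318) (nat_lit 5) (nat_lit 327) (nat_lit 5) (nat_lit 319) (nat_lit 5) (nat_lit 440) (nat_lit 364) (nat_lit 336)) (XT.lf (nat_lit 0) (nat_lit 4654630043) (nat_lit 608) (nat_lit 2294753288) (nat_lit 684) (nat_lit 1402560160) (nat_lit 310) (nat_lit 5) (nat_lit 318) (nat_lit 5) (nat_lit 319) (nat_lit 5) (nat_lit 441) (nat_lit 364) (nat_lit 335))) (XT.nd (nat_lit 78) (nat_lit 684) (nat_lit 0) (XT.lf (nat_lit 0) (nat_lit 1998385765) (nat_lit 684) (nat_lit 5624812321) (nat_lit 76) (nat_lit 798004569) (nat_lit 301) (nat_lit 5) (nat_lit 310) (nat_lit 5) (nat_lit 302) (nat_lit 5) (nat_lit 442) (nat_lit 364) (nat_lit 334)) (XT.nd (nat_lit 78) (nat_lit 76) (nat_lit 0) (XT.lf (nat_lit 0) (nat_lit 897096825) (nat_lit 608) (nat_lit 4546015332) (nat_lit 684) (nat_lit 3048658590) (nat_lit 293) (nat_lit 5) (nat_lit 301) (nat_lit 5) (nat_lit 302) (nat_lit 5) (nat_lit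 443) (nat_lit 364) (nat_lit 333)) (XT.lf (nat_lit 0) (nat_lit 374580382) (nat_lit 684) (nat_lit 1009089870) (nat_lit 76) (nat_lit 7180293888) (nat_lit 292) (nat_lit 5) (nat_lit 301) (nat_lit 5) (nat_lit 293) (nat_lit 5) (nat_lit 444) (nat_lit 364) (nat_lit 332)))))) (XT.nd (nat_lit 390) (nat_lit 2128) (nat_lit 0) (XT.nd (nat_lit 156) (nat_lit 1216) (nat_lit 0) (XT.nd (nat_lit 78) (nat_lit 608) (nat_lit 0) (XT.lf (nat_lit 0) (nat_lit 3824462529) (nat_lit 608) (nat_lit 2954609929) (nat_lit 76) (nat_lit 1858145911) (nat_lit 285) (nat_lit 5) (nat_lit 293) (nat_lit 5) (nat_lit 286) (nat_lit 5) (nat_lit 445) (nat_lit 364) (nat_lit 331)) (XT.lf (nat_lit 0) (nat_lit 3782349172) (nat_lit 608) (nat_lit 3551726598) (nat_lit 684) (nat_lit 1378047244) (nat_lit 277) (nat_lit 5) (nat_lit 285) (nat_lit 5) (nat_lit 286) (nat_lit 5) (nat_lit 446) (nat_lit 364) (nat_lit 330))) (XT.nd (nat_lit 78) (nat_lit 608) (nat_lit 0) (XT.lf (nat_lit 0) (nat_lit 1847998069) (nat_lit 532) (nat_lit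 231847198) (nat_lit 608) (nat_lit 6708757216) (nat_lit 269) (nat_lit 5) (nat_lit 276) (nat_lit 5) (nat_lit 277) (nat_lit 5) (nat_lit 447) (nat_lit 364) (nat_lit 329)) (XT.nd (nat_lit 78) (nat_lit 608) (nat_lit 0) (XT.lf (nat_lit 0) (nat_lit 5593059550) (nat_lit 608) (nat_lit 136313152) (nat_lit 76) (nat_lit 3136964344) (nat_lit 269) (nat_lit 5) (nat_lit 277) (nat_lit 5) (nat_lit 270) (nat_lit 5) (nat_lit 448) (nat_lit 364) (nat_lit 328)) (XT.lf (nat_lit 0) (nat_lit 225495491) (nat_lit 608) (nat_lit 2122461995) (nat_lit 76) (nat_lit 6597686586) (nat_lit 261) (nat_lit 5) (nat_lit 269) (nat_lit 5) (nat_lit 262) (nat_lit 5) (nat_lit 449) (nat_lit 364) (nat_lit 327))))) (XT.nd (nat_lit 156) (nat_lit 1064) (nat_lit 0) (XT.nd (nat_lit 78) (nat_lit 532) (nat_lit 0) (XT.lf (nat_lit 0) (nat_lit 3742366515) (nat_lit 608) (nat_lit 4161921939) (nat_lit 76) (nat_lit 1121977023) (nat_lit 254) (nat_lit 5) (nat_lit 262) (nat_lit 5) (nat_lit 255) (nat_lit 5) (nat_lit 450) (nat_lit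 364) (nat_lit 326)) (XT.lf (nat_lit 0) (nat_lit 2865464165) (nat_lit 532) (nat_lit 4464957912) (nat_lit 608) (nat_lit 1778060289) (nat_lit 247) (nat_lit 5) (nat_lit 254) (nat_lit 5) (nat_lit 255) (nat_lit 5) (nat_lit 451) (nat_lit 364) (nat_lit 325))) (XT.nd (nat_lit 78) (nat_lit 532) (nat_lit 0) (XT.lf (nat_lit 0) (nat_lit 828944209) (nat_lit 456) (nat_lit 931406919) (nat_lit 532) (nat_lit 7432038289) (nat_lit 240) (nat_lit 5) (nat_lit 246) (nat_lit 5) (nat_lit 247) (nat_lit 5) (nat_lit 452) (nat_lit 364) (nat_lit 324)) (XT.nd (nat_lit 78) (nat_lit 532) (nat_lit 0) (XT.lf (nat_lit 0) (nat_lit 5358166943) (nat_lit 532) (nat_lit 1248026925) (nat_lit 76) (nat_lit 2671296794) (nat_lit 240) (nat_lit 5) (nat_lit 247) (nat_lit 5) (nat_lit 241) (nat_lit 5) (nat_lit 453) (nat_lit 364) (nat_lit 323)) (XT.lf (nat_lit 0) (nat_lit 6015310151) (nat_lit 532) (nat_lit 3011673218) (nat_lit 608) (nat_lit 337329677) (nat_lit 233) (nat_lit 5) (nat_lit 240) (nat_lit 5) (nat_lit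 241) (nat_lit 5) (nat_lit 454) (nat_lit 364) (nat_lit 322))))))))
noncomputable def xc24 : XT := (XT.nd (nat_lit 56082) (nat_lit 0) (nat_lit 16948) (XT.nd (nat_lit 702) (nat_lit 1976) (nat_lit 0) (XT.nd (nat_lit 312) (nat_lit 1824) (nat_lit 0) (XT.nd (nat_lit 156) (nat_lit 532) (nat_lit 0) (XT.nd (nat_lit 78) (nat_lit 456) (nat_lit 0) (XT.lf (nat_lit 0) (nat_lit 3265365448) (nat_lit 532) (nat_lit 5506085162) (nat_lit 76) (nat_lit 681139533) (nat_lit 226) (nat_lit 5) (nat_lit 233) (nat_lit 5) (nat_lit 227) (nat_lit 5) (nat_lit 455) (nat_lit 364) (nat_lit 321)) (XT.lf (nat_lit 0) (nat_lit 1825132625) (nat_lit 456) (nat_lit 5119206907) (nat_lit 532) (nat_lit 2598073816) (nat_lit 220) (nat_lit 5) (nat_lit 226) (nat_lit 5) (nat_lit 227) (nat_lit 5) (nat_lit 456) (nat_lit 364) (nat_lit 320))) (XT.nd (nat_lit 78) (nat_lit 456) (nat_lit 0) (XT.lf (nat_lit 0) (nat_lit 1040594457) (nat_lit 532) (nat_lit 330601414) (nat_lit 76) (nat_lit 8262865650) (nat_lit 219) (nat_lit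 5) (nat_lit 226) (nat_lit 5) (nat_lit 220) (nat_lit 5) (nat_lit 457) (nat_lit 364) (nat_lit 319)) (XT.lf (nat_lit 0) (nat_lit 4735697733) (nat_lit 532) (nat_lit 2528570595) (nat_lit 76) (nat_lit 2462561868) (nat_lit 213) (nat_lit 5) (nat_lit 220) (nat_lit 5) (nat_lit 214) (nat_lit 5) (nat_lit 458) (nat_lit 364) (nat_lit 318)))) (XT.nd (nat_lit 156) (nat_lit 912) (nat_lit 0) (XT.nd (nat_lit 78) (nat_lit 456) (nat_lit 0) (XT.lf (nat_lit 0) (nat_lit 5051171954) (nat_lit 456) (nat_lit 3453318502) (nat_lit 532) (nat_lit 1316968041) (nat_lit 207) (nat_lit 5) (nat_lit 213) (nat_lit 5) (nat_lit 214) (nat_lit 5) (nat_lit 459) (nat_lit 364) (nat_lit 317)) (XT.lf (nat_lit 0) (nat_lit 2393245343) (nat_lit 456) (nat_lit 7067062869) (nat_lit 76) (nat_lit 457466631) (nat_lit 201) (nat_lit 5) (nat_lit 207) (nat_lit 5) (nat_lit 202) (nat_lit 5) (nat_lit 460) (nat_lit 364) (nat_lit 316))) (XT.nd (nat_lit 78) (nat_lit 456) (nat_lit 0) (XT.lf (nat_lit 0) (nat_lit 582062147) (nat_lit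 456) (nat_lit 5592968004) (nat_lit 532) (nat_lit 3840513234) (nat_lit 195) (nat_lit 5) (nat_lit 201) (nat_lit 5) (nat_lit 202) (nat_lit 5) (nat_lit 461) (nat_lit 364) (nat_lit 315)) (XT.nd (nat_lit 78) (nat_lit 456) (nat_lit 0) (XT.lf (nat_lit 0) (nat_lit 8413223497) (nat_lit 456) (nat_lit 1623191022) (nat_lit 532) (nat_lit 78773502) (nat_lit 195) (nat_lit 5) (nat_lit 201) (nat_lit 5) (nat_lit 202) (nat_lit 5) (nat_lit 462) (nat_lit 364) (nat_lit 314)) (XT.lf (nat_lit 0) (nat_lit 3722140432) (nat_lit 456) (nat_lit 4057660112) (nat_lit 76) (nat_lit 2436272413) (nat_lit 189) (nat_lit 5) (nat_lit 195) (nat_lit 5) (nat_lit 190) (nat_lit 5) (nat_lit 463) (nat_lit 364) (nat_lit 313)))))) (XT.nd (nat_lit 390) (nat_lit 380) (nat_lit 0) (XT.nd (nat_lit 156) (nat_lit 760) (nat_lit 0) (XT.nd (nat_lit 78) (nat_lit 456) (nat_lit 0) (XT.lf (nat_lit 0) (nat_lit 3853241505) (nat_lit 380) (nat_lit 3749416920) (nat_lit 456) (nat_lit 2716213942) (nat_lit 184) (nat_lit 5) (nat_lit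 189) (nat_lit 5) (nat_lit 190) (nat_lit 5) (nat_lit 464) (nat_lit 364) (nat_lit 312)) (XT.lf (nat_lit 0) (nat_lit 1119285445) (nat_lit 456) (nat_lit 8926282735) (nat_lit 76) (nat_lit 378069150) (nat_lit 178) (nat_lit 5) (nat_lit 184) (nat_lit 5) (nat_lit 179) (nat_lit 5) (nat_lit 465) (nat_lit 364) (nat_lit 311))) (XT.nd (nat_lit 78) (nat_lit 760) (nat_lit 0) (XT.lf (nat_lit 0) (nat_lit 5021418641) (nat_lit 456) (nat_lit 932140304) (nat_lit 76) (nat_lit 4576053687) (nat_lit 178) (nat_lit 5) (nat_lit 184) (nat_lit 5) (nat_lit 179) (nat_lit 5) (nat_lit 466) (nat_lit 364) (nat_lit 310)) (XT.nd (nat_lit 78) (nat_lit 380) (nat_lit 0) (XT.lf (nat_lit 0) (nat_lit 7251651020) (nat_lit 380) (nat_lit 1755608586) (nat_lit 456) (nat_lit 1630334530) (nat_lit 173) (nat_lit 5) (nat_lit 178) (nat_lit 5) (nat_lit 179) (nat_lit 5) (nat_lit 467) (nat_lit 364) (nat_lit 309)) (XT.lf (nat_lit 0) (nat_lit 2307652702) (nat_lit 380) (nat_lit 5916982416) (nat_lit 76) (nat_lit 2522536945)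 (nat_lit 168) (nat_lit 5) (nat_lit 173) (nat_lit 5) (nat_lit 169) (nat_lit 5) (nat_lit 468) (nat_lit 364) (nat_lit 308))))) (XT.nd (nat_lit 54756) (nat_lit 0) (nat_lit 33820) (XT.nd (nat_lit 78) (nat_lit 0) (nat_lit 0) (XT.lf (nat_lit 0) (nat_lit 2340486669) (nat_lit 380) (nat_lit 3970730222) (nat_lit 456) (nat_lit 4547336179) (nat_lit 163) (nat_lit 5) (nat_lit 168) (nat_lit 5) (nat_lit 169) (nat_lit 5) (nat_lit 469) (nat_lit 364) (nat_lit 307)) (XT.lf (nat_lit 0) (nat_lit 10396366840) (nat_lit 456) (nat_lit 196622681) (nat_lit 76) (nat_lit 379141887) (nat_lit 163) (nat_lit 5) (nat_lit 169) (nat_lit 5) (nat_lit 164) (nat_lit 5) (nat_lit 470) (nat_lit 364) (nat_lit 306))) (XT.nd (nat_lit 78) (nat_lit 1520) (nat_lit 0) (XT.lf (nat_lit 0) (nat_lit 407220190) (nat_lit 1444) (nat_lit 2619919279) (nat_lit 0) (nat_lit 407220190) (nat_lit 628) (nat_lit 5) (nat_lit 647) (nat_lit 4) (nat_lit 628) (nat_lit 4) (nat_lit 410) (nat_lit 365) (nat_lit 365)) (XT.nd (nat_lit 78)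 (nat_lit 1520) (nat_lit 0) (XT.lf (nat_lit 0) (nat_lit 4245491937) (nat_lit 1444) (nat_lit 370196840) (nat_lit 0) (nat_lit 2282055571) (nat_lit 628) (nat_lit 5) (nat_lit 647) (nat_lit 4) (nat_lit 628) (nat_lit 4) (nat_lit 411) (nat_lit 365) (nat_lit 364)) (XT.lf (nat_lit 0) (nat_lit 766051213) (nat_lit 1520) (nat_lit 2340950528) (nat_lit 76) (nat_lit 3821062694) (nat_lit 608) (nat_lit 5) (nat_lit 628) (nat_lit 5) (nat_lit 609) (nat_lit 4) (nat_lit 412) (nat_lit 365) (nat_lit 363))))))) (XT.nd (nat_lit 702) (nat_lit 6156) (nat_lit 0) (XT.nd (nat_lit 312) (nat_lit 5776) (nat_lit 0) (XT.nd (nat_lit 156) (nat_lit 1748) (nat_lit 0) (XT.nd (nat_lit 78) (nat_lit 1672) (nat_lit 0) (XT.lf (nat_lit 0) (nat_lit 2641392690) (nat_lit 1520) (nat_lit 1525419393) (nat_lit 1596) (nat_lit 2792836116) (nat_lit 588) (nat_lit 5) (nat_lit 608) (nat_lit 5) (nat_lit 609) (nat_lit 4) (nat_lit 413) (nat_lit 365) (nat_lit 362)) (XT.lf (nat_lit 0) (nat_lit 586830757) (nat_lit 1672) (nat_lit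 6290834868) (nat_lit 76) (nat_lit 115083448) (nat_lit 566) (nat_lit 5) (nat_lit 588) (nat_lit 5) (nat_lit 567) (nat_lit 4) (nat_lit 414) (nat_lit 365) (nat_lit 361))) (XT.nd (nat_lit 78) (nat_lit 1748) (nat_lit 0) (XT.lf (nat_lit 0) (nat_lit 3967379058) (nat_lit 1672) (nat_lit 1240472111) (nat_lit 76) (nat_lit 1818877901) (nat_lit 566) (nat_lit 5) (nat_lit 588) (nat_lit 5) (nat_lit 567) (nat_lit 4) (nat_lit 415) (nat_lit 365) (nat_lit 360)) (XT.lf (nat_lit 0) (nat_lit 307248793) (nat_lit 1748) (nat_lit 3167711117) (nat_lit 76) (nat_lit 3587227890) (nat_lit 543) (nat_lit 5) (nat_lit 566) (nat_lit 5) (nat_lit 544) (nat_lit 5) (nat_lit 416) (nat_lit 365) (nat_lit 359)))) (XT.nd (nat_lit 156) (nat_lit 2204) (nat_lit 0) (XT.nd (nat_lit 78) (nat_lit 1824) (nat_lit 0) (XT.lf (nat_lit 0) (nat_lit 1990621252) (nat_lit 1748) (nat_lit 1664115980) (nat_lit 1824) (nat_lit 3444123580) (nat_lit 520) (nat_lit 5) (nat_lit 543) (nat_lit 5) (nat_lit 544) (nat_lit 5) (nat_lit 417)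 (nat_lit 365) (nat_lit 358)) (XT.lf (nat_lit 0) (nat_lit 92290663) (nat_lit 1824) (nat_lit 6934137766) (nat_lit 1900) (nat_lit 110693796) (nat_lit 496) (nat_lit 5) (nat_lit 520) (nat_lit 5) (nat_lit 521) (nat_lit 4) (nat_lit 418) (nat_lit 365) (nat_lit 357))) (XT.nd (nat_lit 78) (nat_lit 2128) (nat_lit 0) (XT.lf (nat_lit 0) (nat_lit 3226289212) (nat_lit 1900) (nat_lit 1809232304) (nat_lit 76) (nat_lit 2140599694) (nat_lit 495) (nat_lit 5) (nat_lit 520) (nat_lit 5) (nat_lit 496) (nat_lit 5) (nat_lit 419) (nat_lit 365) (nat_lit 356)) (XT.nd (nat_lit 78) (nat_lit 988) (nat_lit 0) (XT.lf (nat_lit 0) (nat_lit 3510465274) (nat_lit 1140) (nat_lit 3076641538) (nat_lit 1216) (nat_lit 629607186) (nat_lit 480) (nat_lit 5) (nat_lit 495) (nat_lit 5) (nat_lit 496) (nat_lit 5) (nat_lit 420) (nat_lit 365) (nat_lit 355)) (XT.lf (nat_lit 0) (nat_lit 1640403783) (nat_lit 912) (nat_lit 1039529066) (nat_lit 988) (nat_lit 4578646395) (nat_lit 467) (nat_lit 5) (nat_lit 479) (nat_lit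 5) (nat_lit 480) (nat_lit 5) (nat_lit 421) (nat_lit 365) (nat_lit 354)))))) (XT.nd (nat_lit 390) (nat_lit 3344) (nat_lit 0) (XT.nd (nat_lit 156) (nat_lit 1824) (nat_lit 0) (XT.nd (nat_lit 78) (nat_lit 988) (nat_lit 0) (XT.lf (nat_lit 0) (nat_lit 6016020101) (nat_lit 988) (nat_lit 234771044) (nat_lit 76) (nat_lit 1051031678) (nat_lit 467) (nat_lit 5) (nat_lit 480) (nat_lit 5) (nat_lit 468) (nat_lit 5) (nat_lit 422) (nat_lit 365) (nat_lit 353)) (XT.lf (nat_lit 0) (nat_lit 2024797842) (nat_lit 988) (nat_lit 2107186369) (nat_lit 76) (nat_lit 3214096161) (nat_lit 454) (nat_lit 5) (nat_lit 467) (nat_lit 5) (nat_lit 455) (nat_lit 5) (nat_lit 423) (nat_lit 365) (nat_lit 352))) (XT.nd (nat_lit 78) (nat_lit 988) (nat_lit 0) (XT.lf (nat_lit 0) (nat_lit 3403935108) (nat_lit 836) (nat_lit 1942780790) (nat_lit 912) (nat_lit 2045090743) (nat_lit 443) (nat_lit 5) (nat_lit 454) (nat_lit 5) (nat_lit 455) (nat_lit 5) (nat_lit 424) (nat_lit 365) (nat_lit 351)) (XT.nd (nat_lit 78)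 (nat_lit 0) (nat_lit 0) (XT.lf (nat_lit 0) (nat_lit 1245048934) (nat_lit 988) (nat_lit 5880018475) (nat_lit 76) (nat_lit 313903065) (nat_lit 430) (nat_lit 5) (nat_lit 443) (nat_lit 5) (nat_lit 431) (nat_lit 5) (nat_lit 425) (nat_lit 365) (nat_lit 350)) (XT.lf (nat_lit 0) (nat_lit 4553160646) (nat_lit 988) (nat_lit 309669848) (nat_lit 76) (nat_lit 2624385669) (nat_lit 430) (nat_lit 5) (nat_lit 443) (nat_lit 5) (nat_lit 431) (nat_lit 5) (nat_lit 426) (nat_lit 365) (nat_lit 349))))) (XT.nd (nat_lit 156) (nat_lit 1596) (nat_lit 0) (XT.nd (nat_lit 78) (nat_lit 836) (nat_lit 0) (XT.lf (nat_lit 0) (nat_lit 361533308) (nat_lit 912) (nat_lit 2162677396) (nat_lit 76) (nat_lit 5012652216) (nat_lit 418) (nat_lit 5) (nat_lit 430) (nat_lit 5) (nat_lit 419) (nat_lit 5) (nat_lit 427) (nat_lit 365) (nat_lit 348)) (XT.lf (nat_lit 0) (nat_lit 3549222744) (nat_lit 836) (nat_lit 100948460) (nat_lit 912) (nat_lit 3937615039) (nat_lit 407) (nat_lit 5) (nat_lit 418) (nat_lit 5) (nat_lit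 419) (nat_lit 5) (nat_lit 428) (nat_lit 365) (nat_lit 347))) (XT.nd (nat_lit 78) (nat_lit 836) (nat_lit 0) (XT.lf (nat_lit 0) (nat_lit 1705103836) (nat_lit 760) (nat_lit 5282474956) (nat_lit 836) (nat_lit 652489303) (nat_lit 397) (nat_lit 5) (nat_lit 407) (nat_lit 5) (nat_lit 408) (nat_lit 5) (nat_lit 429) (nat_lit 365) (nat_lit 346)) (XT.nd (nat_lit 78) (nat_lit 760) (nat_lit 0) (XT.lf (nat_lit 0) (nat_lit 2633150027) (nat_lit 836) (nat_lit 160168166) (nat_lit 76) (nat_lit 4900322996) (nat_lit 396) (nat_lit 5) (nat_lit 407) (nat_lit 5) (nat_lit 397) (nat_lit 5) (nat_lit 430) (nat_lit 365) (nat_lit 345)) (XT.lf (nat_lit 0) (nat_lit 5735003133) (nat_lit 760) (nat_lit 221389501) (nat_lit 836) (nat_lit 1792194306) (nat_lit 386) (nat_lit 5) (nat_lit 396) (nat_lit 5) (nat_lit 397) (nat_lit 5) (nat_lit 431) (nat_lit 365) (nat_lit 344))))))))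
noncomputable def xc25 : XT := (XT.nd (nat_lit 1482) (nat_lit 6536) (nat_lit 0) (XT.nd (nat_lit 702) (nat_lit 4864) (nat_lit 0) (XT.nd (nat_lit 312) (nat_lit 2812) (nat_lit 0) (XT.nd (nat_lit 156) (nat_lit 760) (nat_lit 0) (XT.nd (nat_lit 78) (nat_lit 760) (nat_lit 0) (XT.lf (nat_lit 0) (nat_lit 1507259453) (nat_lit 836) (nat_lit 3900083602) (nat_lit 76) (nat_lit 2397368234) (nat_lit 375) (nat_lit 5) (nat_lit 386) (nat_lit 5) (nat_lit 376) (nat_lit 5) (nat_lit 432) (nat_lit 365) (nat_lit 343)) (XT.lf (nat_lit 0) (nat_lit 2053377527) (nat_lit 760) (nat_lit 2768056568) (nat_lit 836) (nat_lit 3040832516) (nat_lit 365) (nat_lit 5) (nat_lit 375) (nat_lit 5) (nat_lit 376) (nat_lit 5) (nat_lit 433) (nat_lit 365) (nat_lit 342))) (XT.nd (nat_lit 78) (nat_lit 0) (nat_lit 0) (XT.lf (nat_lit 0) (nat_lit 191606230) (nat_lit 684) (nat_lit 57820557) (nat_lit 760) (nat_lit 7672065938) (nat_lit 355) (nat_lit 5) (nat_lit 364) (nat_lit 5) (nat_lit 365) (nat_lit 5) (nat_lit 434)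 (nat_lit 365) (nat_lit 341)) (XT.lf (nat_lit 0) (nat_lit 3566801888) (nat_lit 760) (nat_lit 1696049313) (nat_lit 76) (nat_lit 2718609613) (nat_lit 355) (nat_lit 5) (nat_lit 365) (nat_lit 5) (nat_lit 356) (nat_lit 5) (nat_lit 435) (nat_lit 365) (nat_lit 340)))) (XT.nd (nat_lit 156) (nat_lit 1368) (nat_lit 0) (XT.nd (nat_lit 78) (nat_lit 760) (nat_lit 0) (XT.lf (nat_lit 0) (nat_lit 4449964612) (nat_lit 684) (nat_lit 2476087144) (nat_lit 760) (nat_lit 1117065963) (nat_lit 346) (nat_lit 5) (nat_lit 355) (nat_lit 5) (nat_lit 356) (nat_lit 5) (nat_lit 436) (nat_lit 365) (nat_lit 339)) (XT.lf (nat_lit 0) (nat_lit 2194381913) (nat_lit 760) (nat_lit 5520150640) (nat_lit 76) (nat_lit 391636178) (nat_lit 336) (nat_lit 5) (nat_lit 346) (nat_lit 5) (nat_lit 337) (nat_lit 5) (nat_lit 437) (nat_lit 365) (nat_lit 338))) (XT.nd (nat_lit 78) (nat_lit 684) (nat_lit 0) (XT.lf (nat_lit 0) (nat_lit 685228776) (nat_lit 684) (nat_lit 4864061069) (nat_lit 760) (nat_lit 2621199469) (nat_lit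 327) (nat_lit 5) (nat_lit 336) (nat_lit 5) (nat_lit 337) (nat_lit 5) (nat_lit 438) (nat_lit 365) (nat_lit 337)) (XT.nd (nat_lit 78) (nat_lit 608) (nat_lit 0) (XT.lf (nat_lit 0) (nat_lit 710159418) (nat_lit 760) (nat_lit 1218371868) (nat_lit 76) (nat_lit 6307777513) (nat_lit 326) (nat_lit 5) (nat_lit 336) (nat_lit 5) (nat_lit 327) (nat_lit 5) (nat_lit 439) (nat_lit 365) (nat_lit 336)) (XT.lf (nat_lit 0) (nat_lit 4062077287) (nat_lit 684) (nat_lit 3152695743) (nat_lit 76) (nat_lit 1088544527) (nat_lit 318) (nat_lit 5) (nat_lit 327) (nat_lit 5) (nat_lit 319) (nat_lit 5) (nat_lit 440) (nat_lit 365) (nat_lit 335)))))) (XT.nd (nat_lit 390) (nat_lit 2356) (nat_lit 0) (XT.nd (nat_lit 156) (nat_lit 1216) (nat_lit 0) (XT.nd (nat_lit 78) (nat_lit 684) (nat_lit 0) (XT.lf (nat_lit 0) (nat_lit 3255167540) (nat_lit 608) (nat_lit 4216839362) (nat_lit 684) (nat_lit 899840122) (nat_lit 310) (nat_lit 5) (nat_lit 318) (nat_lit 5) (nat_lit 319) (nat_lit 5) (nat_lit 441) (nat_lit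 365) (nat_lit 334)) (XT.lf (nat_lit 0) (nat_lit 1326628141) (nat_lit 608) (nat_lit 1127846434) (nat_lit 684) (nat_lit 5987367091) (nat_lit 301) (nat_lit 5) (nat_lit 309) (nat_lit 5) (nat_lit 310) (nat_lit 5) (nat_lit 442) (nat_lit 365) (nat_lit 333))) (XT.nd (nat_lit 78) (nat_lit 1216) (nat_lit 0) (XT.lf (nat_lit 0) (nat_lit 5861071872) (nat_lit 684) (nat_lit 631116679) (nat_lit 76) (nat_lit 2020983790) (nat_lit 301) (nat_lit 5) (nat_lit 310) (nat_lit 5) (nat_lit 302) (nat_lit 5) (nat_lit 443) (nat_lit 365) (nat_lit 332)) (XT.nd (nat_lit 78) (nat_lit 532) (nat_lit 0) (XT.lf (nat_lit 0) (nat_lit 736887154) (nat_lit 684) (nat_lit 2603202865) (nat_lit 76) (nat_lit 5245805228) (nat_lit 292) (nat_lit 5) (nat_lit 301) (nat_lit 5) (nat_lit 293) (nat_lit 5) (nat_lit 444) (nat_lit 365) (nat_lit 331)) (XT.lf (nat_lit 0) (nat_lit 4046519499) (nat_lit 532) (nat_lit 92938450) (nat_lit 608) (nat_lit 4520637754) (nat_lit 285) (nat_lit 5) (nat_lit 292) (nat_lit 5) (nat_lit 293)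 (nat_lit 5) (nat_lit 445) (nat_lit 365) (nat_lit 330))))) (XT.nd (nat_lit 156) (nat_lit 1140) (nat_lit 0) (XT.nd (nat_lit 78) (nat_lit 608) (nat_lit 0) (XT.lf (nat_lit 0) (nat_lit 2068473320) (nat_lit 608) (nat_lit 5544694918) (nat_lit 684) (nat_lit 1122550169) (nat_lit 277) (nat_lit 5) (nat_lit 285) (nat_lit 5) (nat_lit 286) (nat_lit 5) (nat_lit 446) (nat_lit 365) (nat_lit 329)) (XT.lf (nat_lit 0) (nat_lit 52177723) (nat_lit 532) (nat_lit 2244084689) (nat_lit 608) (nat_lit 6516616868) (nat_lit 269) (nat_lit 5) (nat_lit 276) (nat_lit 5) (nat_lit 277) (nat_lit 5) (nat_lit 447) (nat_lit 365) (nat_lit 328))) (XT.nd (nat_lit 78) (nat_lit 1140) (nat_lit 0) (XT.lf (nat_lit 0) (nat_lit 5772541605) (nat_lit 608) (nat_lit 1976682326) (nat_lit 76) (nat_lit 1142128615) (nat_lit 269) (nat_lit 5) (nat_lit 277) (nat_lit 5) (nat_lit 270) (nat_lit 5) (nat_lit 448) (nat_lit 365) (nat_lit 327)) (XT.nd (nat_lit 78) (nat_lit 532) (nat_lit 0) (XT.lf (nat_lit 0) (nat_lit 341974623)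 (nat_lit 608) (nat_lit 4046902504) (nat_lit 76) (nat_lit 4582481617) (nat_lit 261) (nat_lit 5) (nat_lit 269) (nat_lit 5) (nat_lit 262) (nat_lit 5) (nat_lit 449) (nat_lit 365) (nat_lit 326)) (XT.lf (nat_lit 0) (nat_lit 2888643811) (nat_lit 532) (nat_lit 926636431) (nat_lit 608) (nat_lit 5237571216) (nat_lit 254) (nat_lit 5) (nat_lit 261) (nat_lit 5) (nat_lit 262) (nat_lit 5) (nat_lit 450) (nat_lit 365) (nat_lit 325))))))) (XT.nd (nat_lit 702) (nat_lit 2964) (nat_lit 0) (XT.nd (nat_lit 312) (nat_lit 1976) (nat_lit 0) (XT.nd (nat_lit 156) (nat_lit 988) (nat_lit 0) (XT.nd (nat_lit 78) (nat_lit 76) (nat_lit 0) (XT.lf (nat_lit 0) (nat_lit 809265597) (nat_lit 532) (nat_lit 6551580037) (nat_lit 608) (nat_lit 1775072517) (nat_lit 247) (nat_lit 5) (nat_lit 254) (nat_lit 5) (nat_lit 255) (nat_lit 5) (nat_lit 451) (nat_lit 365) (nat_lit 324)) (XT.lf (nat_lit 0) (nat_lit 1734883294) (nat_lit 608) (nat_lit 1298632338) (nat_lit 76) (nat_lit 6186877510) (nat_lit 246) (nat_lit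 5) (nat_lit 254) (nat_lit 5) (nat_lit 247) (nat_lit 5) (nat_lit 452) (nat_lit 365) (nat_lit 323))) (XT.nd (nat_lit 78) (nat_lit 532) (nat_lit 0) (XT.lf (nat_lit 0) (nat_lit 5287589548) (nat_lit 532) (nat_lit 3440555697) (nat_lit 76) (nat_lit 578251333) (nat_lit 240) (nat_lit 5) (nat_lit 247) (nat_lit 5) (nat_lit 241) (nat_lit 5) (nat_lit 453) (nat_lit 365) (nat_lit 322)) (XT.lf (nat_lit 0) (nat_lit 3760638056) (nat_lit 532) (nat_lit 5158716286) (nat_lit 608) (nat_lit 474605653) (nat_lit 233) (nat_lit 5) (nat_lit 240) (nat_lit 5) (nat_lit 241) (nat_lit 5) (nat_lit 454) (nat_lit 365) (nat_lit 321)))) (XT.nd (nat_lit 156) (nat_lit 1444) (nat_lit 0) (XT.nd (nat_lit 78) (nat_lit 0) (nat_lit 0) (XT.lf (nat_lit 0) (nat_lit 1604213148) (nat_lit 456) (nat_lit 1483627810) (nat_lit 532) (nat_lit 6395254936) (nat_lit 226) (nat_lit 5) (nat_lit 232) (nat_lit 5) (nat_lit 233) (nat_lit 5) (nat_lit 455) (nat_lit 365) (nat_lit 320)) (XT.lf (nat_lit 0) (nat_lit 6723162141) (nat_lit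 532) (nat_lit 594784669) (nat_lit 76) (nat_lit 2255845348) (nat_lit 226) (nat_lit 5) (nat_lit 233) (nat_lit 5) (nat_lit 227) (nat_lit 5) (nat_lit 456) (nat_lit 365) (nat_lit 319))) (XT.nd (nat_lit 78) (nat_lit 912) (nat_lit 0) (XT.lf (nat_lit 0) (nat_lit 765319076) (nat_lit 532) (nat_lit 2821107650) (nat_lit 76) (nat_lit 6079567031) (nat_lit 219) (nat_lit 5) (nat_lit 226) (nat_lit 5) (nat_lit 220) (nat_lit 5) (nat_lit 457) (nat_lit 365) (nat_lit 318)) (XT.nd (nat_lit 78) (nat_lit 456) (nat_lit 0) (XT.lf (nat_lit 0) (nat_lit 4407604529) (nat_lit 532) (nat_lit 5102987067) (nat_lit 76) (nat_lit 249227192) (nat_lit 213) (nat_lit 5) (nat_lit 220) (nat_lit 5) (nat_lit 214) (nat_lit 5) (nat_lit 458) (nat_lit 365) (nat_lit 317)) (XT.lf (nat_lit 0) (nat_lit 2409716195) (nat_lit 456) (nat_lit 5728019548) (nat_lit 532) (nat_lit 1717484576) (nat_lit 207) (nat_lit 5) (nat_lit 213) (nat_lit 5) (nat_lit 214) (nat_lit 5) (nat_lit 459) (nat_lit 365) (nat_lit 316)))))) (XT.nd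 (nat_lit 390) (nat_lit 1216) (nat_lit 0) (XT.nd (nat_lit 156) (nat_lit 1292) (nat_lit 0) (XT.nd (nat_lit 78) (nat_lit 0) (nat_lit 0) (XT.lf (nat_lit 0) (nat_lit 112747588) (nat_lit 380) (nat_lit 1842988166) (nat_lit 456) (nat_lit 7996697837) (nat_lit 201) (nat_lit 5) (nat_lit 206) (nat_lit 5) (nat_lit 207) (nat_lit 5) (nat_lit 460) (nat_lit 365) (nat_lit 315)) (XT.lf (nat_lit 0) (nat_lit 5700475273) (nat_lit 456) (nat_lit 2218836228) (nat_lit 76) (nat_lit 2131631539) (nat_lit 201) (nat_lit 5) (nat_lit 207) (nat_lit 5) (nat_lit 202) (nat_lit 5) (nat_lit 461) (nat_lit 365) (nat_lit 314))) (XT.nd (nat_lit 78) (nat_lit 836) (nat_lit 0) (XT.lf (nat_lit 0) (nat_lit 5550445185) (nat_lit 456) (nat_lit 3975723931) (nat_lit 532) (nat_lit 625132370) (nat_lit 195) (nat_lit 5) (nat_lit 201) (nat_lit 5) (nat_lit 202) (nat_lit 5) (nat_lit 462) (nat_lit 365) (nat_lit 313)) (XT.nd (nat_lit 78) (nat_lit 380) (nat_lit 0) (XT.lf (nat_lit 0) (nat_lit 3127373732) (nat_lit 456) (nat_lit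 7045429987) (nat_lit 76) (nat_lit 80565117) (nat_lit 189) (nat_lit 5) (nat_lit 195) (nat_lit 5) (nat_lit 190) (nat_lit 5) (nat_lit 463) (nat_lit 365) (nat_lit 312)) (XT.lf (nat_lit 0) (nat_lit 793175287) (nat_lit 380) (nat_lit 6174160947) (nat_lit 456) (nat_lit 3389643123) (nat_lit 184) (nat_lit 5) (nat_lit 189) (nat_lit 5) (nat_lit 190) (nat_lit 5) (nat_lit 464) (nat_lit 365) (nat_lit 311))))) (XT.nd (nat_lit 156) (nat_lit 760) (nat_lit 0) (XT.nd (nat_lit 78) (nat_lit 380) (nat_lit 0) (XT.lf (nat_lit 0) (nat_lit 421837805) (nat_lit 456) (nat_lit 1645806088) (nat_lit 76) (nat_lit 8394844887) (nat_lit 183) (nat_lit 5) (nat_lit 189) (nat_lit 5) (nat_lit 184) (nat_lit 5) (nat_lit 465) (nat_lit 365) (nat_lit 310)) (XT.lf (nat_lit 0) (nat_lit 4279143433) (nat_lit 456) (nat_lit 4155091528) (nat_lit 76) (nat_lit 2135125671) (nat_lit 178) (nat_lit 5) (nat_lit 184) (nat_lit 5) (nat_lit 179) (nat_lit 5) (nat_lit 466) (nat_lit 365) (nat_lit 309))) (XT.nd (nat_lit 78) (nat_lit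 380) (nat_lit 0) (XT.lf (nat_lit 0) (nat_lit 3953734417) (nat_lit 380) (nat_lit 4269736077) (nat_lit 456) (nat_lit 2454701921) (nat_lit 173) (nat_lit 5) (nat_lit 178) (nat_lit 5) (nat_lit 179) (nat_lit 5) (nat_lit 467) (nat_lit 365) (nat_lit 308)) (XT.nd (nat_lit 78) (nat_lit 0) (nat_lit 0) (XT.lf (nat_lit 0) (nat_lit 1435333978) (nat_lit 380) (nat_lit 9351560609) (nat_lit 76) (nat_lit 2138062) (nat_lit 168) (nat_lit 5) (nat_lit 173) (nat_lit 5) (nat_lit 169) (nat_lit 5) (nat_lit 468) (nat_lit 365) (nat_lit 307)) (XT.lf (nat_lit 0) (nat_lit 5403770371) (nat_lit 380) (nat_lit 1156669875) (nat_lit 76) (nat_lit 4340675966) (nat_lit 168) (nat_lit 5) (nat_lit 173) (nat_lit 5) (nat_lit 169) (nat_lit 5) (nat_lit 469) (nat_lit 365) (nat_lit 306))))))))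
noncomputable def xc26 : XT := (XT.nd (nat_lit 55926) (nat_lit 0) (nat_lit 9804) (XT.nd (nat_lit 55146) (nat_lit 0) (nat_lit 20292) (XT.nd (nat_lit 54756) (nat_lit 0) (nat_lit 30628) (XT.nd (nat_lit 54600) (nat_lit 0) (nat_lit 35340) (XT.nd (nat_lit 54522) (nat_lit 0) (nat_lit 38076) (XT.lf (nat_lit 0) (nat_lit 7233852195) (nat_lit 380) (nat_lit 2225217475) (nat_lit 456) (nat_lit 1556221892) (nat_lit 163) (nat_lit 5) (nat_lit 168) (nat_lit 5) (nat_lit 169) (nat_lit 5) (nat_lit 470) (nat_lit 365) (nat_lit 305)) (XT.lf (nat_lit 0) (nat_lit 1413983604) (nat_lit 1292) (nat_lit 578846109) (nat_lit 0) (nat_lit 1413983604) (nat_lit 664) (nat_lit 5) (nat_lit 681) (nat_lit 4) (nat_lit 664) (nat_lit 4) (nat_lit 408) (nat_lit 366) (nat_lit 366))) (XT.nd (nat_lit 78) (nat_lit 1444) (nat_lit 0) (XT.lf (nat_lit 0) (nat_lit 3624995021) (nat_lit 1292) (nat_lit 2629297864) (nat_lit 1292) (nat_lit 586538669) (nat_lit 647) (nat_lit 4) (nat_lit 664) (nat_lit 5) (nat_lit 664) (nat_lit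 4) (nat_lit 409) (nat_lit 366) (nat_lit 365)) (XT.lf (nat_lit 0) (nat_lit 1588917477) (nat_lit 1368) (nat_lit 1200380426) (nat_lit 1444) (nat_lit 4079978366) (nat_lit 628) (nat_lit 5) (nat_lit 646) (nat_lit 5) (nat_lit 647) (nat_lit 4) (nat_lit 410) (nat_lit 366) (nat_lit 364)))) (XT.nd (nat_lit 156) (nat_lit 3192) (nat_lit 0) (XT.nd (nat_lit 78) (nat_lit 1520) (nat_lit 0) (XT.lf (nat_lit 0) (nat_lit 6177613407) (nat_lit 1444) (nat_lit 435008281) (nat_lit 0) (nat_lit 286534333) (nat_lit 628) (nat_lit 5) (nat_lit 647) (nat_lit 4) (nat_lit 628) (nat_lit 4) (nat_lit 411) (nat_lit 366) (nat_lit 363)) (XT.lf (nat_lit 0) (nat_lit 2636317761) (nat_lit 1520) (nat_lit 2452910934) (nat_lit 76) (nat_lit 1840699136) (nat_lit 608) (nat_lit 5) (nat_lit 628) (nat_lit 5) (nat_lit 609) (nat_lit 4) (nat_lit 412) (nat_lit 366) (nat_lit 362))) (XT.nd (nat_lit 78) (nat_lit 1672) (nat_lit 0) (XT.lf (nat_lit 0) (nat_lit 2495822287) (nat_lit 1520) (nat_lit 3506299019) (nat_lit 1596)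 (nat_lit 960089436) (nat_lit 588) (nat_lit 5) (nat_lit 608) (nat_lit 5) (nat_lit 609) (nat_lit 4) (nat_lit 413) (nat_lit 366) (nat_lit 361)) (XT.nd (nat_lit 78) (nat_lit 0) (nat_lit 0) (XT.lf (nat_lit 0) (nat_lit 508161830) (nat_lit 1596) (nat_lit 1851586762) (nat_lit 1672) (nat_lit 4636040877) (nat_lit 566) (nat_lit 5) (nat_lit 587) (nat_lit 5) (nat_lit 588) (nat_lit 5) (nat_lit 414) (nat_lit 366) (nat_lit 360)) (XT.lf (nat_lit 0) (nat_lit 5572207011) (nat_lit 1596) (nat_lit 123564953) (nat_lit 1672) (nat_lit 1334888000) (nat_lit 566) (nat_lit 5) (nat_lit 587) (nat_lit 5) (nat_lit 588) (nat_lit 5) (nat_lit 415) (nat_lit 366) (nat_lit 359)))))) (XT.nd (nat_lit 390) (nat_lit 3724) (nat_lit 0) (XT.nd (nat_lit 156) (nat_lit 3116) (nat_lit 0) (XT.nd (nat_lit 78) (nat_lit 1748) (nat_lit 0) (XT.lf (nat_lit 0) (nat_lit 1973769258) (nat_lit 1748) (nat_lit 3435566904) (nat_lit 76) (nat_lit 1657265103) (nat_lit 543) (nat_lit 5) (nat_lit 566) (nat_lit 5) (nat_lit 544) (nat_lit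 5) (nat_lit 416) (nat_lit 366) (nat_lit 358)) (XT.lf (nat_lit 0) (nat_lit 1686786569) (nat_lit 1748) (nat_lit 3600067972) (nat_lit 1824) (nat_lit 1817107800) (nat_lit 520) (nat_lit 5) (nat_lit 543) (nat_lit 5) (nat_lit 544) (nat_lit 5) (nat_lit 417) (nat_lit 366) (nat_lit 357))) (XT.nd (nat_lit 78) (nat_lit 3040) (nat_lit 0) (XT.lf (nat_lit 0) (nat_lit 1462278812) (nat_lit 1824) (nat_lit 258568311) (nat_lit 76) (nat_lit 5421862857) (nat_lit 519) (nat_lit 5) (nat_lit 543) (nat_lit 5) (nat_lit 520) (nat_lit 5) (nat_lit 418) (nat_lit 366) (nat_lit 356)) (XT.nd (nat_lit 78) (nat_lit 1216) (nat_lit 0) (XT.lf (nat_lit 0) (nat_lit 4753134435) (nat_lit 1900) (nat_lit 2191317991) (nat_lit 76) (nat_lit 238135678) (nat_lit 495) (nat_lit 5) (nat_lit 520) (nat_lit 5) (nat_lit 496) (nat_lit 5) (nat_lit 419) (nat_lit 366) (nat_lit 355)) (XT.lf (nat_lit 0) (nat_lit 844972840) (nat_lit 1216) (nat_lit 4138535329) (nat_lit 76) (nat_lit 2240239368) (nat_lit 479) (nat_lit 5) (nat_lit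 495) (nat_lit 5) (nat_lit 480) (nat_lit 5) (nat_lit 420) (nat_lit 366) (nat_lit 354))))) (XT.nd (nat_lit 156) (nat_lit 2736) (nat_lit 0) (XT.nd (nat_lit 78) (nat_lit 76) (nat_lit 0) (XT.lf (nat_lit 0) (nat_lit 1165607012) (nat_lit 912) (nat_lit 2946599768) (nat_lit 988) (nat_lit 3154005219) (nat_lit 467) (nat_lit 5) (nat_lit 479) (nat_lit 5) (nat_lit 480) (nat_lit 5) (nat_lit 421) (nat_lit 366) (nat_lit 353)) (XT.lf (nat_lit 0) (nat_lit 99288188) (nat_lit 988) (nat_lit 743533913) (nat_lit 76) (nat_lit 6467370035) (nat_lit 466) (nat_lit 5) (nat_lit 479) (nat_lit 5) (nat_lit 467) (nat_lit 5) (nat_lit 422) (nat_lit 366) (nat_lit 352))) (XT.nd (nat_lit 78) (nat_lit 1824) (nat_lit 0) (XT.lf (nat_lit 0) (nat_lit 3353797536) (nat_lit 988) (nat_lit 2666775694) (nat_lit 76) (nat_lit 1334494044) (nat_lit 454) (nat_lit 5) (nat_lit 467) (nat_lit 5) (nat_lit 455) (nat_lit 5) (nat_lit 423) (nat_lit 366) (nat_lit 351)) (XT.nd (nat_lit 78) (nat_lit 988) (nat_lit 0) (XT.lf (nat_lit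 0) (nat_lit 2804349710) (nat_lit 836) (nat_lit 3837682552) (nat_lit 912) (nat_lit 759434948) (nat_lit 443) (nat_lit 5) (nat_lit 454) (nat_lit 5) (nat_lit 455) (nat_lit 5) (nat_lit 424) (nat_lit 366) (nat_lit 350)) (XT.lf (nat_lit 0) (nat_lit 902513741) (nat_lit 912) (nat_lit 1575380177) (nat_lit 988) (nat_lit 4971289163) (nat_lit 430) (nat_lit 5) (nat_lit 442) (nat_lit 5) (nat_lit 443) (nat_lit 5) (nat_lit 425) (nat_lit 366) (nat_lit 349))))))) (XT.nd (nat_lit 702) (nat_lit 5472) (nat_lit 0) (XT.nd (nat_lit 312) (nat_lit 2432) (nat_lit 0) (XT.nd (nat_lit 156) (nat_lit 1672) (nat_lit 0) (XT.nd (nat_lit 78) (nat_lit 912) (nat_lit 0) (XT.lf (nat_lit 0) (nat_lit 5746522398) (nat_lit 988) (nat_lit 998760308) (nat_lit 76) (nat_lit 752935728) (nat_lit 430) (nat_lit 5) (nat_lit 443) (nat_lit 5) (nat_lit 431) (nat_lit 5) (nat_lit 426) (nat_lit 366) (nat_lit 348)) (XT.lf (nat_lit 0) (nat_lit 1494739178) (nat_lit 912) (nat_lit 2912504673) (nat_lit 76) (nat_lit 3141140741)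 (nat_lit 418) (nat_lit 5) (nat_lit 430) (nat_lit 5) (nat_lit 419) (nat_lit 5) (nat_lit 427) (nat_lit 366) (nat_lit 347))) (XT.nd (nat_lit 78) (nat_lit 836) (nat_lit 0) (XT.lf (nat_lit 0) (nat_lit 2756807119) (nat_lit 836) (nat_lit 1992912087) (nat_lit 912) (nat_lit 2850261867) (nat_lit 407) (nat_lit 5) (nat_lit 418) (nat_lit 5) (nat_lit 419) (nat_lit 5) (nat_lit 428) (nat_lit 366) (nat_lit 346)) (XT.lf (nat_lit 0) (nat_lit 382959699) (nat_lit 836) (nat_lit 6786407153) (nat_lit 76) (nat_lit 483763622) (nat_lit 396) (nat_lit 5) (nat_lit 407) (nat_lit 5) (nat_lit 397) (nat_lit 5) (nat_lit 429) (nat_lit 366) (nat_lit 345)))) (XT.nd (nat_lit 156) (nat_lit 1672) (nat_lit 0) (XT.nd (nat_lit 78) (nat_lit 760) (nat_lit 0) (XT.lf (nat_lit 0) (nat_lit 3632013649) (nat_lit 836) (nat_lit 1048528241) (nat_lit 76) (nat_lit 3026637508) (nat_lit 396) (nat_lit 5) (nat_lit 407) (nat_lit 5) (nat_lit 397) (nat_lit 5) (nat_lit 430) (nat_lit 366) (nat_lit 344)) (XT.lf (nat_lit 0) (nat_lit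 4802371437) (nat_lit 760) (nat_lit 2119351255) (nat_lit 836) (nat_lit 841073128) (nat_lit 386) (nat_lit 5) (nat_lit 396) (nat_lit 5) (nat_lit 397) (nat_lit 5) (nat_lit 431) (nat_lit 366) (nat_lit 343))) (XT.nd (nat_lit 78) (nat_lit 836) (nat_lit 0) (XT.lf (nat_lit 0) (nat_lit 2399742480) (nat_lit 836) (nat_lit 4900789805) (nat_lit 76) (nat_lit 519187658) (nat_lit 375) (nat_lit 5) (nat_lit 386) (nat_lit 5) (nat_lit 376) (nat_lit 5) (nat_lit 432) (nat_lit 366) (nat_lit 342)) (XT.nd (nat_lit 78) (nat_lit 76) (nat_lit 0) (XT.lf (nat_lit 0) (nat_lit 1006452556) (nat_lit 760) (nat_lit 4673637105) (nat_lit 836) (nat_lit 2197862154) (nat_lit 365) (nat_lit 5) (nat_lit 375) (nat_lit 5) (nat_lit 376) (nat_lit 5) (nat_lit 433) (nat_lit 366) (nat_lit 341)) (XT.lf (nat_lit 0) (nat_lit 1053210848) (nat_lit 836) (nat_lit 911621746) (nat_lit 76) (nat_lit 5972798483) (nat_lit 364) (nat_lit 5) (nat_lit 375) (nat_lit 5) (nat_lit 365) (nat_lit 5) (nat_lit 434) (nat_lit 366) (nat_lit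 340)))))) (XT.nd (nat_lit 390) (nat_lit 2584) (nat_lit 0) (XT.nd (nat_lit 156) (nat_lit 1520) (nat_lit 0) (XT.nd (nat_lit 78) (nat_lit 684) (nat_lit 0) (XT.lf (nat_lit 0) (nat_lit 4325559323) (nat_lit 760) (nat_lit 2848139739) (nat_lit 76) (nat_lit 824800637) (nat_lit 355) (nat_lit 5) (nat_lit 365) (nat_lit 5) (nat_lit 356) (nat_lit 5) (nat_lit 435) (nat_lit 366) (nat_lit 339)) (XT.lf (nat_lit 0) (nat_lit 3249869548) (nat_lit 684) (nat_lit 4401061743) (nat_lit 760) (nat_lit 409902872) (nat_lit 346) (nat_lit 5) (nat_lit 355) (nat_lit 5) (nat_lit 356) (nat_lit 5) (nat_lit 436) (nat_lit 366) (nat_lit 338))) (XT.nd (nat_lit 78) (nat_lit 760) (nat_lit 0) (XT.lf (nat_lit 0) (nat_lit 1317169843) (nat_lit 684) (nat_lit 1538315318) (nat_lit 760) (nat_lit 5269043891) (nat_lit 336) (nat_lit 5) (nat_lit 345) (nat_lit 5) (nat_lit 346) (nat_lit 5) (nat_lit 437) (nat_lit 366) (nat_lit 337)) (XT.nd (nat_lit 78) (nat_lit 760) (nat_lit 0) (XT.lf (nat_lit 0) (nat_lit 6170260442)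 (nat_lit 760) (nat_lit 633634263) (nat_lit 76) (nat_lit 1385757583) (nat_lit 336) (nat_lit 5) (nat_lit 346) (nat_lit 5) (nat_lit 337) (nat_lit 5) (nat_lit 438) (nat_lit 366) (nat_lit 336)) (XT.lf (nat_lit 0) (nat_lit 1274307031) (nat_lit 760) (nat_lit 2601561969) (nat_lit 76) (nat_lit 4380119969) (nat_lit 326) (nat_lit 5) (nat_lit 336) (nat_lit 5) (nat_lit 327) (nat_lit 5) (nat_lit 439) (nat_lit 366) (nat_lit 335))))) (XT.nd (nat_lit 156) (nat_lit 1368) (nat_lit 0) (XT.nd (nat_lit 78) (nat_lit 608) (nat_lit 0) (XT.lf (nat_lit 0) (nat_lit 3723789890) (nat_lit 608) (nat_lit 860892616) (nat_lit 684) (nat_lit 3739146070) (nat_lit 318) (nat_lit 5) (nat_lit 326) (nat_lit 5) (nat_lit 327) (nat_lit 5) (nat_lit 440) (nat_lit 366) (nat_lit 334)) (XT.lf (nat_lit 0) (nat_lit 1761448202) (nat_lit 608) (nat_lit 6193044577) (nat_lit 684) (nat_lit 438667650) (nat_lit 310) (nat_lit 5) (nat_lit 318) (nat_lit 5) (nat_lit 319) (nat_lit 5) (nat_lit 441) (nat_lit 366) (nat_lit 333)))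 (XT.nd (nat_lit 78) (nat_lit 1292) (nat_lit 0) (XT.lf (nat_lit 0) (nat_lit 2876269167) (nat_lit 684) (nat_lit 241288755) (nat_lit 76) (nat_lit 5346203857) (nat_lit 309) (nat_lit 5) (nat_lit 318) (nat_lit 5) (nat_lit 310) (nat_lit 5) (nat_lit 442) (nat_lit 366) (nat_lit 332)) (XT.nd (nat_lit 78) (nat_lit 684) (nat_lit 0) (XT.lf (nat_lit 0) (nat_lit 6243858015) (nat_lit 684) (nat_lit 2243978135) (nat_lit 76) (nat_lit 48036471) (nat_lit 301) (nat_lit 5) (nat_lit 310) (nat_lit 5) (nat_lit 302) (nat_lit 5) (nat_lit 443) (nat_lit 366) (nat_lit 331)) (XT.lf (nat_lit 0) (nat_lit 1057186050) (nat_lit 684) (nat_lit 4295502493) (nat_lit 76) (nat_lit 3256561514) (nat_lit 292) (nat_lit 5) (nat_lit 301) (nat_lit 5) (nat_lit 293) (nat_lit 5) (nat_lit 444) (nat_lit 366) (nat_lit 330))))))))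
noncomputable def xc27 : XT := (XT.nd (nat_lit 1482) (nat_lit 1596) (nat_lit 0) (XT.nd (nat_lit 702) (nat_lit 3876) (nat_lit 0) (XT.nd (nat_lit 312) (nat_lit 2204) (nat_lit 0) (XT.nd (nat_lit 156) (nat_lit 608) (nat_lit 0) (XT.nd (nat_lit 78) (nat_lit 608) (nat_lit 0) (XT.lf (nat_lit 0) (nat_lit 2299122100) (nat_lit 532) (nat_lit 2125384410) (nat_lit 608) (nat_lit 4259649010) (nat_lit 285) (nat_lit 5) (nat_lit 292) (nat_lit 5) (nat_lit 293) (nat_lit 5) (nat_lit 445) (nat_lit 366) (nat_lit 329)) (XT.lf (nat_lit 0) (nat_lit 254027858) (nat_lit 608) (nat_lit 7595514414) (nat_lit 684) (nat_lit 911209443) (nat_lit 277) (nat_lit 5) (nat_lit 285) (nat_lit 5) (nat_lit 286) (nat_lit 5) (nat_lit 446) (nat_lit 366) (nat_lit 328))) (XT.nd (nat_lit 78) (nat_lit 532) (nat_lit 0) (XT.lf (nat_lit 0) (nat_lit 2480895161) (nat_lit 684) (nat_lit 1821845507) (nat_lit 76) (nat_lit 4535623201) (nat_lit 276) (nat_lit 5) (nat_lit 285) (nat_lit 5) (nat_lit 277) (nat_lit 5) (nat_lit 447)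 (nat_lit 366) (nat_lit 327)) (XT.lf (nat_lit 0) (nat_lit 4991825663) (nat_lit 532) (nat_lit 922504573) (nat_lit 608) (nat_lit 3003363779) (nat_lit 269) (nat_lit 5) (nat_lit 276) (nat_lit 5) (nat_lit 277) (nat_lit 5) (nat_lit 448) (nat_lit 366) (nat_lit 326)))) (XT.nd (nat_lit 156) (nat_lit 1064) (nat_lit 0) (XT.nd (nat_lit 78) (nat_lit 532) (nat_lit 0) (XT.lf (nat_lit 0) (nat_lit 413702106) (nat_lit 608) (nat_lit 6076043125) (nat_lit 76) (nat_lit 2508784104) (nat_lit 261) (nat_lit 5) (nat_lit 269) (nat_lit 5) (nat_lit 262) (nat_lit 5) (nat_lit 449) (nat_lit 366) (nat_lit 325)) (XT.lf (nat_lit 0) (nat_lit 799974751) (nat_lit 532) (nat_lit 3050621418) (nat_lit 608) (nat_lit 5230154109) (nat_lit 254) (nat_lit 5) (nat_lit 261) (nat_lit 5) (nat_lit 262) (nat_lit 5) (nat_lit 450) (nat_lit 366) (nat_lit 324))) (XT.nd (nat_lit 78) (nat_lit 1064) (nat_lit 0) (XT.lf (nat_lit 0) (nat_lit 7354446730) (nat_lit 608) (nat_lit 1336441103) (nat_lit 76) (nat_lit 473763435) (nat_lit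 254) (nat_lit 5) (nat_lit 262) (nat_lit 5) (nat_lit 255) (nat_lit 5) (nat_lit 451) (nat_lit 366) (nat_lit 323)) (XT.nd (nat_lit 78) (nat_lit 456) (nat_lit 0) (XT.lf (nat_lit 0) (nat_lit 1668778719) (nat_lit 608) (nat_lit 3523125261) (nat_lit 76) (nat_lit 4057855508) (nat_lit 246) (nat_lit 5) (nat_lit 254) (nat_lit 5) (nat_lit 247) (nat_lit 5) (nat_lit 452) (nat_lit 366) (nat_lit 322)) (XT.lf (nat_lit 0) (nat_lit 3583476181) (nat_lit 456) (nat_lit 1597220773) (nat_lit 532) (nat_lit 4155881731) (nat_lit 240) (nat_lit 5) (nat_lit 246) (nat_lit 5) (nat_lit 247) (nat_lit 5) (nat_lit 453) (nat_lit 366) (nat_lit 321)))))) (XT.nd (nat_lit 390) (nat_lit 1824) (nat_lit 0) (XT.nd (nat_lit 156) (nat_lit 1444) (nat_lit 0) (XT.nd (nat_lit 78) (nat_lit 76) (nat_lit 0) (XT.lf (nat_lit 0) (nat_lit 1395508153) (nat_lit 532) (nat_lit 7369254048) (nat_lit 608) (nat_lit 660333892) (nat_lit 233) (nat_lit 5) (nat_lit 240) (nat_lit 5) (nat_lit 241) (nat_lit 5) (nat_lit 454) (nat_lit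 366) (nat_lit 320)) (XT.lf (nat_lit 0) (nat_lit 2872240471) (nat_lit 608) (nat_lit 843901580) (nat_lit 76) (nat_lit 5798760221) (nat_lit 232) (nat_lit 5) (nat_lit 240) (nat_lit 5) (nat_lit 233) (nat_lit 5) (nat_lit 455) (nat_lit 366) (nat_lit 319))) (XT.nd (nat_lit 78) (nat_lit 988) (nat_lit 0) (XT.lf (nat_lit 0) (nat_lit 6465742413) (nat_lit 532) (nat_lit 3103672115) (nat_lit 76) (nat_lit 37020392) (nat_lit 226) (nat_lit 5) (nat_lit 233) (nat_lit 5) (nat_lit 227) (nat_lit 5) (nat_lit 456) (nat_lit 366) (nat_lit 318)) (XT.nd (nat_lit 78) (nat_lit 456) (nat_lit 0) (XT.lf (nat_lit 0) (nat_lit 440786318) (nat_lit 532) (nat_lit 5426565386) (nat_lit 76) (nat_lit 3832087971) (nat_lit 219) (nat_lit 5) (nat_lit 226) (nat_lit 5) (nat_lit 220) (nat_lit 5) (nat_lit 457) (nat_lit 366) (nat_lit 317)) (XT.lf (nat_lit 0) (nat_lit 1986385222) (nat_lit 456) (nat_lit 2056463078) (nat_lit 532) (nat_lit 5751220875) (nat_lit 213) (nat_lit 5) (nat_lit 219) (nat_lit 5) (nat_lit 220)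 (nat_lit 5) (nat_lit 458) (nat_lit 366) (nat_lit 316))))) (XT.nd (nat_lit 156) (nat_lit 1292) (nat_lit 0) (XT.nd (nat_lit 78) (nat_lit 532) (nat_lit 0) (XT.lf (nat_lit 0) (nat_lit 7722892483) (nat_lit 532) (nat_lit 344993532) (nat_lit 76) (nat_lit 1822586433) (nat_lit 213) (nat_lit 5) (nat_lit 220) (nat_lit 5) (nat_lit 214) (nat_lit 5) (nat_lit 459) (nat_lit 366) (nat_lit 315)) (XT.lf (nat_lit 0) (nat_lit 1487507438) (nat_lit 532) (nat_lit 2712217083) (nat_lit 76) (nat_lit 5788500365) (nat_lit 206) (nat_lit 5) (nat_lit 213) (nat_lit 5) (nat_lit 207) (nat_lit 5) (nat_lit 460) (nat_lit 366) (nat_lit 314))) (XT.nd (nat_lit 78) (nat_lit 912) (nat_lit 0) (XT.lf (nat_lit 0) (nat_lit 4953780705) (nat_lit 380) (nat_lit 225786404) (nat_lit 456) (nat_lit 4908220821) (nat_lit 201) (nat_lit 5) (nat_lit 206) (nat_lit 5) (nat_lit 207) (nat_lit 5) (nat_lit 461) (nat_lit 366) (nat_lit 313)) (XT.nd (nat_lit 78) (nat_lit 456) (nat_lit 0) (XT.lf (nat_lit 0) (nat_lit 2566260917)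 (nat_lit 456) (nat_lit 6397685637) (nat_lit 532) (nat_lit 1225026111) (nat_lit 195) (nat_lit 5) (nat_lit 201) (nat_lit 5) (nat_lit 202) (nat_lit 5) (nat_lit 462) (nat_lit 366) (nat_lit 312)) (XT.lf (nat_lit 0) (nat_lit 118588334) (nat_lit 380) (nat_lit 2375759596) (nat_lit 456) (nat_lit 7797589979) (nat_lit 189) (nat_lit 5) (nat_lit 194) (nat_lit 5) (nat_lit 195) (nat_lit 5) (nat_lit 463) (nat_lit 366) (nat_lit 311))))))) (XT.nd (nat_lit 55068) (nat_lit 0) (nat_lit 26676) (XT.nd (nat_lit 312) (nat_lit 380) (nat_lit 0) (XT.nd (nat_lit 156) (nat_lit 836) (nat_lit 0) (XT.nd (nat_lit 78) (nat_lit 380) (nat_lit 0) (XT.lf (nat_lit 0) (nat_lit 6293453730) (nat_lit 456) (nat_lit 2361254307) (nat_lit 76) (nat_lit 1741657526) (nat_lit 189) (nat_lit 5) (nat_lit 195) (nat_lit 5) (nat_lit 190) (nat_lit 5) (nat_lit 464) (nat_lit 366) (nat_lit 310)) (XT.lf (nat_lit 0) (nat_lit 5602379097) (nat_lit 380) (nat_lit 4578104350) (nat_lit 456) (nat_lit 322159486) (nat_lit 184) (nat_lit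 5) (nat_lit 189) (nat_lit 5) (nat_lit 190) (nat_lit 5) (nat_lit 465) (nat_lit 366) (nat_lit 309))) (XT.nd (nat_lit 78) (nat_lit 380) (nat_lit 0) (XT.lf (nat_lit 0) (nat_lit 3101622816) (nat_lit 380) (nat_lit 382276579) (nat_lit 456) (nat_lit 7126766662) (nat_lit 178) (nat_lit 5) (nat_lit 183) (nat_lit 5) (nat_lit 184) (nat_lit 5) (nat_lit 466) (nat_lit 366) (nat_lit 308)) (XT.lf (nat_lit 0) (nat_lit 526221452) (nat_lit 380) (nat_lit 6857561833) (nat_lit 456) (nat_lit 3336583420) (nat_lit 173) (nat_lit 5) (nat_lit 178) (nat_lit 5) (nat_lit 179) (nat_lit 5) (nat_lit 467) (nat_lit 366) (nat_lit 307)))) (XT.nd (nat_lit 54522) (nat_lit 0) (nat_lit 37696) (XT.nd (nat_lit 78) (nat_lit 304) (nat_lit 0) (XT.lf (nat_lit 0) (nat_lit 536020445) (nat_lit 456) (nat_lit 2076495397) (nat_lit 76) (nat_lit 8219405573) (nat_lit 172) (nat_lit 5) (nat_lit 178) (nat_lit 5) (nat_lit 173) (nat_lit 5) (nat_lit 468) (nat_lit 366) (nat_lit 306)) (XT.lf (nat_lit 0) (nat_lit 4454202044)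 (nat_lit 380) (nat_lit 4755599480) (nat_lit 76) (nat_lit 1735208551) (nat_lit 168) (nat_lit 5) (nat_lit 173) (nat_lit 5) (nat_lit 169) (nat_lit 5) (nat_lit 469) (nat_lit 366) (nat_lit 305))) (XT.nd (nat_lit 78) (nat_lit 1292) (nat_lit 0) (XT.lf (nat_lit 0) (nat_lit 1522558617) (nat_lit 1140) (nat_lit 929329227) (nat_lit 1140) (nat_lit 929329227) (nat_lit 681) (nat_lit 4) (nat_lit 696) (nat_lit 5) (nat_lit 696) (nat_lit 4) (nat_lit 406) (nat_lit 367) (nat_lit 367)) (XT.nd (nat_lit 78) (nat_lit 0) (nat_lit 0) (XT.lf (nat_lit 0) (nat_lit 922037798) (nat_lit 1216) (nat_lit 586538669) (nat_lit 1292) (nat_lit 5279255926) (nat_lit 664) (nat_lit 5) (nat_lit 680) (nat_lit 5) (nat_lit 681) (nat_lit 4) (nat_lit 407) (nat_lit 367) (nat_lit 366)) (XT.lf (nat_lit 0) (nat_lit 4875858924) (nat_lit 1292) (nat_lit 1188996814) (nat_lit 0) (nat_lit 749485350) (nat_lit 664) (nat_lit 5) (nat_lit 681) (nat_lit 4) (nat_lit 664) (nat_lit 4) (nat_lit 408) (nat_lit 367) (nat_lit 365))))))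 (XT.nd (nat_lit 390) (nat_lit 5168) (nat_lit 0) (XT.nd (nat_lit 156) (nat_lit 3116) (nat_lit 0) (XT.nd (nat_lit 78) (nat_lit 1368) (nat_lit 0) (XT.lf (nat_lit 0) (nat_lit 1405817335) (nat_lit 1368) (nat_lit 3289327650) (nat_lit 76) (nat_lit 2146924648) (nat_lit 646) (nat_lit 5) (nat_lit 664) (nat_lit 5) (nat_lit 647) (nat_lit 4) (nat_lit 409) (nat_lit 367) (nat_lit 364)) (XT.lf (nat_lit 0) (nat_lit 1479228737) (nat_lit 1368) (nat_lit 3259258277) (nat_lit 1444) (nat_lit 2132660657) (nat_lit 628) (nat_lit 5) (nat_lit 646) (nat_lit 5) (nat_lit 647) (nat_lit 4) (nat_lit 410) (nat_lit 367) (nat_lit 363))) (XT.nd (nat_lit 78) (nat_lit 3040) (nat_lit 0) (XT.lf (nat_lit 0) (nat_lit 1173294053) (nat_lit 1444) (nat_lit 583835186) (nat_lit 76) (nat_lit 5144467108) (nat_lit 627) (nat_lit 5) (nat_lit 646) (nat_lit 5) (nat_lit 628) (nat_lit 5) (nat_lit 411) (nat_lit 367) (nat_lit 362)) (XT.nd (nat_lit 78) (nat_lit 1596) (nat_lit 0) (XT.lf (nat_lit 0) (nat_lit 4300893938) (nat_lit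 1444) (nat_lit 175530749) (nat_lit 1520) (nat_lit 2456755108) (nat_lit 608) (nat_lit 5) (nat_lit 627) (nat_lit 5) (nat_lit 628) (nat_lit 5) (nat_lit 412) (nat_lit 367) (nat_lit 361)) (XT.lf (nat_lit 0) (nat_lit 829167081) (nat_lit 1596) (nat_lit 4687908876) (nat_lit 76) (nat_lit 1448994887) (nat_lit 587) (nat_lit 5) (nat_lit 608) (nat_lit 5) (nat_lit 588) (nat_lit 5) (nat_lit 413) (nat_lit 367) (nat_lit 360))))) (XT.nd (nat_lit 156) (nat_lit 3496) (nat_lit 0) (XT.nd (nat_lit 78) (nat_lit 76) (nat_lit 0) (XT.lf (nat_lit 0) (nat_lit 245650213) (nat_lit 1596) (nat_lit 3855949016) (nat_lit 1672) (nat_lit 2898621955) (nat_lit 566) (nat_lit 5) (nat_lit 587) (nat_lit 5) (nat_lit 588) (nat_lit 5) (nat_lit 414) (nat_lit 367) (nat_lit 359)) (XT.lf (nat_lit 0) (nat_lit 364372842) (nat_lit 1672) (nat_lit 1759555479) (nat_lit 76) (nat_lit 4911768663) (nat_lit 565) (nat_lit 5) (nat_lit 587) (nat_lit 5) (nat_lit 566) (nat_lit 5) (nat_lit 415) (nat_lit 367) (nat_lit 358))) (XT.nd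 (nat_lit 78) (nat_lit 1824) (nat_lit 0) (XT.lf (nat_lit 0) (nat_lit 3296931146) (nat_lit 1672) (nat_lit 313213044) (nat_lit 1748) (nat_lit 3462228329) (nat_lit 543) (nat_lit 5) (nat_lit 565) (nat_lit 5) (nat_lit 566) (nat_lit 5) (nat_lit 416) (nat_lit 367) (nat_lit 357)) (XT.nd (nat_lit 78) (nat_lit 76) (nat_lit 0) (XT.lf (nat_lit 0) (nat_lit 1312672397) (nat_lit 1748) (nat_lit 5574299922) (nat_lit 1824) (nat_lit 223486418) (nat_lit 520) (nat_lit 5) (nat_lit 543) (nat_lit 5) (nat_lit 544) (nat_lit 5) (nat_lit 417) (nat_lit 367) (nat_lit 356)) (XT.lf (nat_lit 0) (nat_lit 3003418332) (nat_lit 1824) (nat_lit 681105779) (nat_lit 76) (nat_lit 3465106953) (nat_lit 519) (nat_lit 5) (nat_lit 543) (nat_lit 5) (nat_lit 520) (nat_lit 5) (nat_lit 418) (nat_lit 367) (nat_lit 355))))))))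
noncomputable def xc28 : XT := (XT.nd (nat_lit 1482) (nat_lit 9044) (nat_lit 0) (XT.nd (nat_lit 702) (nat_lit 5548) (nat_lit 0) (XT.nd (nat_lit 312) (nat_lit 3648) (nat_lit 0) (XT.nd (nat_lit 156) (nat_lit 988) (nat_lit 0) (XT.nd (nat_lit 78) (nat_lit 1216) (nat_lit 0) (XT.lf (nat_lit 0) (nat_lit 4533343071) (nat_lit 1824) (nat_lit 1725418669) (nat_lit 1900) (nat_lit 931457693) (nat_lit 495) (nat_lit 5) (nat_lit 519) (nat_lit 5) (nat_lit 520) (nat_lit 5) (nat_lit 419) (nat_lit 367) (nat_lit 354)) (XT.lf (nat_lit 0) (nat_lit 2278070610) (nat_lit 1216) (nat_lit 4648671744) (nat_lit 76) (nat_lit 305347026) (nat_lit 479) (nat_lit 5) (nat_lit 495) (nat_lit 5) (nat_lit 480) (nat_lit 5) (nat_lit 420) (nat_lit 367) (nat_lit 353))) (XT.nd (nat_lit 78) (nat_lit 76) (nat_lit 0) (XT.lf (nat_lit 0) (nat_lit 616707669) (nat_lit 912) (nat_lit 4894674250) (nat_lit 988) (nat_lit 1763850377) (nat_lit 467) (nat_lit 5) (nat_lit 479) (nat_lit 5) (nat_lit 480) (nat_lit 5) (nat_lit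 421) (nat_lit 367) (nat_lit 352)) (XT.lf (nat_lit 0) (nat_lit 1441045314) (nat_lit 988) (nat_lit 1342236601) (nat_lit 76) (nat_lit 4536353314) (nat_lit 466) (nat_lit 5) (nat_lit 479) (nat_lit 5) (nat_lit 467) (nat_lit 5) (nat_lit 422) (nat_lit 367) (nat_lit 351)))) (XT.nd (nat_lit 156) (nat_lit 1824) (nat_lit 0) (XT.nd (nat_lit 78) (nat_lit 912) (nat_lit 0) (XT.lf (nat_lit 0) (nat_lit 4059039295) (nat_lit 912) (nat_lit 594018030) (nat_lit 988) (nat_lit 2712302987) (nat_lit 454) (nat_lit 5) (nat_lit 466) (nat_lit 5) (nat_lit 467) (nat_lit 5) (nat_lit 423) (nat_lit 367) (nat_lit 350)) (XT.lf (nat_lit 0) (nat_lit 484886396) (nat_lit 912) (nat_lit 5287407167) (nat_lit 76) (nat_lit 1640151934) (nat_lit 442) (nat_lit 5) (nat_lit 454) (nat_lit 5) (nat_lit 443) (nat_lit 5) (nat_lit 424) (nat_lit 367) (nat_lit 349))) (XT.nd (nat_lit 78) (nat_lit 912) (nat_lit 0) (XT.lf (nat_lit 0) (nat_lit 165952316) (nat_lit 912) (nat_lit 3512492789) (nat_lit 988) (nat_lit 3782293848)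 (nat_lit 430) (nat_lit 5) (nat_lit 442) (nat_lit 5) (nat_lit 443) (nat_lit 5) (nat_lit 425) (nat_lit 367) (nat_lit 348)) (XT.nd (nat_lit 78) (nat_lit 912) (nat_lit 0) (XT.lf (nat_lit 0) (nat_lit 5736476856) (nat_lit 912) (nat_lit 1176980249) (nat_lit 988) (nat_lit 596989530) (nat_lit 430) (nat_lit 5) (nat_lit 442) (nat_lit 5) (nat_lit 443) (nat_lit 5) (nat_lit 426) (nat_lit 367) (nat_lit 347)) (XT.lf (nat_lit 0) (nat_lit 2593012947) (nat_lit 912) (nat_lit 3742363757) (nat_lit 76) (nat_lit 1225911919) (nat_lit 418) (nat_lit 5) (nat_lit 430) (nat_lit 5) (nat_lit 419) (nat_lit 5) (nat_lit 427) (nat_lit 367) (nat_lit 346)))))) (XT.nd (nat_lit 390) (nat_lit 2280) (nat_lit 0) (XT.nd (nat_lit 156) (nat_lit 2356) (nat_lit 0) (XT.nd (nat_lit 78) (nat_lit 76) (nat_lit 0) (XT.lf (nat_lit 0) (nat_lit 1883935784) (nat_lit 836) (nat_lit 3930436029) (nat_lit 912) (nat_lit 1799185714) (nat_lit 407) (nat_lit 5) (nat_lit 418) (nat_lit 5) (nat_lit 419) (nat_lit 5) (nat_lit 428)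 (nat_lit 367) (nat_lit 345)) (XT.lf (nat_lit 0) (nat_lit 1383627505) (nat_lit 912) (nat_lit 66438320) (nat_lit 76) (nat_lit 6217237083) (nat_lit 406) (nat_lit 5) (nat_lit 418) (nat_lit 5) (nat_lit 407) (nat_lit 5) (nat_lit 429) (nat_lit 367) (nat_lit 344))) (XT.nd (nat_lit 78) (nat_lit 1596) (nat_lit 0) (XT.lf (nat_lit 0) (nat_lit 4595348377) (nat_lit 836) (nat_lit 2019376294) (nat_lit 76) (nat_lit 1107373823) (nat_lit 396) (nat_lit 5) (nat_lit 407) (nat_lit 5) (nat_lit 397) (nat_lit 5) (nat_lit 430) (nat_lit 367) (nat_lit 343)) (XT.nd (nat_lit 78) (nat_lit 760) (nat_lit 0) (XT.lf (nat_lit 0) (nat_lit 72179288) (nat_lit 836) (nat_lit 3992068320) (nat_lit 76) (nat_lit 3714128476) (nat_lit 385) (nat_lit 5) (nat_lit 396) (nat_lit 5) (nat_lit 386) (nat_lit 5) (nat_lit 431) (nat_lit 367) (nat_lit 342)) (XT.lf (nat_lit 0) (nat_lit 1839546288) (nat_lit 760) (nat_lit 1425181238) (nat_lit 836) (nat_lit 4571208196) (nat_lit 375) (nat_lit 5) (nat_lit 385) (nat_lit 5) (nat_lit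 386) (nat_lit 5) (nat_lit 432) (nat_lit 367) (nat_lit 341))))) (XT.nd (nat_lit 156) (nat_lit 1444) (nat_lit 0) (XT.nd (nat_lit 78) (nat_lit 836) (nat_lit 0) (XT.lf (nat_lit 0) (nat_lit 6502786802) (nat_lit 836) (nat_lit 124944793) (nat_lit 76) (nat_lit 1267281757) (nat_lit 375) (nat_lit 5) (nat_lit 386) (nat_lit 5) (nat_lit 376) (nat_lit 5) (nat_lit 433) (nat_lit 367) (nat_lit 340)) (XT.lf (nat_lit 0) (nat_lit 1821093573) (nat_lit 836) (nat_lit 2098974692) (nat_lit 76) (nat_lit 4035063471) (nat_lit 364) (nat_lit 5) (nat_lit 375) (nat_lit 5) (nat_lit 365) (nat_lit 5) (nat_lit 434) (nat_lit 367) (nat_lit 339))) (XT.nd (nat_lit 78) (nat_lit 760) (nat_lit 0) (XT.lf (nat_lit 0) (nat_lit 3920981146) (nat_lit 684) (nat_lit 1133174181) (nat_lit 760) (nat_lit 2962630765) (nat_lit 355) (nat_lit 5) (nat_lit 364) (nat_lit 5) (nat_lit 365) (nat_lit 5) (nat_lit 435) (nat_lit 367) (nat_lit 338)) (XT.nd (nat_lit 78) (nat_lit 0) (nat_lit 0) (XT.lf (nat_lit 0) (nat_lit 254893398)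 (nat_lit 760) (nat_lit 6120597773) (nat_lit 76) (nat_lit 1704421847) (nat_lit 345) (nat_lit 5) (nat_lit 355) (nat_lit 5) (nat_lit 346) (nat_lit 5) (nat_lit 436) (nat_lit 367) (nat_lit 337)) (XT.lf (nat_lit 0) (nat_lit 3480908983) (nat_lit 760) (nat_lit 44162155) (nat_lit 76) (nat_lit 4619163471) (nat_lit 345) (nat_lit 5) (nat_lit 355) (nat_lit 5) (nat_lit 346) (nat_lit 5) (nat_lit 437) (nat_lit 367) (nat_lit 336))))))) (XT.nd (nat_lit 702) (nat_lit 4484) (nat_lit 0) (XT.nd (nat_lit 312) (nat_lit 1900) (nat_lit 0) (XT.nd (nat_lit 156) (nat_lit 1216) (nat_lit 0) (XT.nd (nat_lit 78) (nat_lit 760) (nat_lit 0) (XT.lf (nat_lit 0) (nat_lit 6171844699) (nat_lit 684) (nat_lit 589281684) (nat_lit 760) (nat_lit 1448922619) (nat_lit 336) (nat_lit 5) (nat_lit 345) (nat_lit 5) (nat_lit 346) (nat_lit 5) (nat_lit 438) (nat_lit 367) (nat_lit 335)) (XT.lf (nat_lit 0) (nat_lit 1799097105) (nat_lit 760) (nat_lit 4077333765) (nat_lit 76) (nat_lit 2400644684) (nat_lit 326) (nat_lit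 5) (nat_lit 336) (nat_lit 5) (nat_lit 327) (nat_lit 5) (nat_lit 439) (nat_lit 367) (nat_lit 334))) (XT.nd (nat_lit 78) (nat_lit 608) (nat_lit 0) (XT.lf (nat_lit 0) (nat_lit 2196479725) (nat_lit 608) (nat_lit 2878498554) (nat_lit 684) (nat_lit 3270626768) (nat_lit 318) (nat_lit 5) (nat_lit 326) (nat_lit 5) (nat_lit 327) (nat_lit 5) (nat_lit 440) (nat_lit 367) (nat_lit 333)) (XT.lf (nat_lit 0) (nat_lit 172886259) (nat_lit 608) (nat_lit 8224143915) (nat_lit 684) (nat_lit 18861894) (nat_lit 310) (nat_lit 5) (nat_lit 318) (nat_lit 5) (nat_lit 319) (nat_lit 5) (nat_lit 441) (nat_lit 367) (nat_lit 332)))) (XT.nd (nat_lit 156) (nat_lit 1216) (nat_lit 0) (XT.nd (nat_lit 78) (nat_lit 608) (nat_lit 0) (XT.lf (nat_lit 0) (nat_lit 3266337555) (nat_lit 684) (nat_lit 1887161866) (nat_lit 76) (nat_lit 3333424114) (nat_lit 309) (nat_lit 5) (nat_lit 318) (nat_lit 5) (nat_lit 310) (nat_lit 5) (nat_lit 442) (nat_lit 367) (nat_lit 331)) (XT.lf (nat_lit 0) (nat_lit 4592826631) (nat_lit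 608) (nat_lit 2005993762) (nat_lit 684) (nat_lit 1960916104) (nat_lit 301) (nat_lit 5) (nat_lit 309) (nat_lit 5) (nat_lit 310) (nat_lit 5) (nat_lit 443) (nat_lit 367) (nat_lit 330))) (XT.nd (nat_lit 78) (nat_lit 532) (nat_lit 0) (XT.lf (nat_lit 0) (nat_lit 1335602677) (nat_lit 684) (nat_lit 6086652400) (nat_lit 76) (nat_lit 1211782650) (nat_lit 292) (nat_lit 5) (nat_lit 301) (nat_lit 5) (nat_lit 293) (nat_lit 5) (nat_lit 444) (nat_lit 367) (nat_lit 329)) (XT.nd (nat_lit 78) (nat_lit 0) (nat_lit 0) (XT.lf (nat_lit 0) (nat_lit 452200127) (nat_lit 532) (nat_lit 4215295223) (nat_lit 608) (nat_lit 4042156397) (nat_lit 285) (nat_lit 5) (nat_lit 292) (nat_lit 5) (nat_lit 293) (nat_lit 5) (nat_lit 445) (nat_lit 367) (nat_lit 328)) (XT.lf (nat_lit 0) (nat_lit 7141025461) (nat_lit 532) (nat_lit 919020847) (nat_lit 608) (nat_lit 726851328) (nat_lit 285) (nat_lit 5) (nat_lit 292) (nat_lit 5) (nat_lit 293) (nat_lit 5) (nat_lit 446) (nat_lit 367) (nat_lit 327)))))) (XT.nd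 (nat_lit 390) (nat_lit 2128) (nat_lit 0) (XT.nd (nat_lit 156) (nat_lit 1140) (nat_lit 0) (XT.nd (nat_lit 78) (nat_lit 532) (nat_lit 0) (XT.lf (nat_lit 0) (nat_lit 2622833937) (nat_lit 684) (nat_lit 3796990134) (nat_lit 76) (nat_lit 2445461811) (nat_lit 276) (nat_lit 5) (nat_lit 285) (nat_lit 5) (nat_lit 277) (nat_lit 5) (nat_lit 447) (nat_lit 367) (nat_lit 326)) (XT.lf (nat_lit 0) (nat_lit 2958790991) (nat_lit 532) (nat_lit 3061597094) (nat_lit 608) (nat_lit 2924945560) (nat_lit 269) (nat_lit 5) (nat_lit 276) (nat_lit 5) (nat_lit 277) (nat_lit 5) (nat_lit 448) (nat_lit 367) (nat_lit 325))) (XT.nd (nat_lit 78) (nat_lit 532) (nat_lit 0) (XT.lf (nat_lit 0) (nat_lit 440706069) (nat_lit 608) (nat_lit 8210679599) (nat_lit 76) (nat_lit 375780831) (nat_lit 261) (nat_lit 5) (nat_lit 269) (nat_lit 5) (nat_lit 262) (nat_lit 5) (nat_lit 449) (nat_lit 367) (nat_lit 324)) (XT.nd (nat_lit 78) (nat_lit 532) (nat_lit 0) (XT.lf (nat_lit 0) (nat_lit 3850003685) (nat_lit 608) (nat_lit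 1376658602) (nat_lit 76) (nat_lit 3883277084) (nat_lit 261) (nat_lit 5) (nat_lit 269) (nat_lit 5) (nat_lit 262) (nat_lit 5) (nat_lit 450) (nat_lit 367) (nat_lit 323)) (XT.lf (nat_lit 0) (nat_lit 5605163149) (nat_lit 532) (nat_lit 1714350845) (nat_lit 608) (nat_lit 1875013172) (nat_lit 254) (nat_lit 5) (nat_lit 261) (nat_lit 5) (nat_lit 262) (nat_lit 5) (nat_lit 451) (nat_lit 367) (nat_lit 322))))) (XT.nd (nat_lit 156) (nat_lit 1064) (nat_lit 0) (XT.nd (nat_lit 78) (nat_lit 456) (nat_lit 0) (XT.lf (nat_lit 0) (nat_lit 1556629426) (nat_lit 608) (nat_lit 5856278662) (nat_lit 76) (nat_lit 1867699526) (nat_lit 246) (nat_lit 5) (nat_lit 254) (nat_lit 5) (nat_lit 247) (nat_lit 5) (nat_lit 452) (nat_lit 367) (nat_lit 321)) (XT.lf (nat_lit 0) (nat_lit 1187757764) (nat_lit 456) (nat_lit 3843529506) (nat_lit 532) (nat_lit 4336884749) (nat_lit 240) (nat_lit 5) (nat_lit 246) (nat_lit 5) (nat_lit 247) (nat_lit 5) (nat_lit 453) (nat_lit 367) (nat_lit 320))) (XT.nd (nat_lit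 78) (nat_lit 1064) (nat_lit 0) (XT.lf (nat_lit 0) (nat_lit 8389559843) (nat_lit 456) (nat_lit 181785365) (nat_lit 532) (nat_lit 886224365) (nat_lit 240) (nat_lit 5) (nat_lit 246) (nat_lit 5) (nat_lit 247) (nat_lit 5) (nat_lit 454) (nat_lit 367) (nat_lit 319)) (XT.nd (nat_lit 78) (nat_lit 456) (nat_lit 0) (XT.lf (nat_lit 0) (nat_lit 2619596181) (nat_lit 608) (nat_lit 3382920634) (nat_lit 76) (nat_lit 3545482599) (nat_lit 232) (nat_lit 5) (nat_lit 240) (nat_lit 5) (nat_lit 233) (nat_lit 5) (nat_lit 455) (nat_lit 367) (nat_lit 318)) (XT.lf (nat_lit 0) (nat_lit 3899069139) (nat_lit 456) (nat_lit 2275836529) (nat_lit 532) (nat_lit 3465390242) (nat_lit 226) (nat_lit 5) (nat_lit 232) (nat_lit 5) (nat_lit 233) (nat_lit 5) (nat_lit 456) (nat_lit 367) (nat_lit 317))))))))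
noncomputable def xc29 : XT := (XT.nd (nat_lit 55692) (nat_lit 0) (nat_lit 18164) (XT.nd (nat_lit 702) (nat_lit 1216) (nat_lit 0) (XT.nd (nat_lit 312) (nat_lit 1672) (nat_lit 0) (XT.nd (nat_lit 156) (nat_lit 988) (nat_lit 0) (XT.nd (nat_lit 78) (nat_lit 0) (nat_lit 0) (XT.lf (nat_lit 0) (nat_lit 66868914) (nat_lit 532) (nat_lit 8147996371) (nat_lit 76) (nat_lit 1519547105) (nat_lit 219) (nat_lit 5) (nat_lit 226) (nat_lit 5) (nat_lit 220) (nat_lit 5) (nat_lit 457) (nat_lit 367) (nat_lit 316)) (XT.lf (nat_lit 0) (nat_lit 3635215684) (nat_lit 532) (nat_lit 792093530) (nat_lit 76) (nat_lit 5402406981) (nat_lit 219) (nat_lit 5) (nat_lit 226) (nat_lit 5) (nat_lit 220) (nat_lit 5) (nat_lit 458) (nat_lit 367) (nat_lit 315))) (XT.nd (nat_lit 78) (nat_lit 532) (nat_lit 0) (XT.lf (nat_lit 0) (nat_lit 6737912122) (nat_lit 456) (nat_lit 539535897) (nat_lit 532) (nat_lit 2649427684) (nat_lit 213) (nat_lit 5) (nat_lit 219) (nat_lit 5) (nat_lit 220) (nat_lit 5) (nat_lit 459)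 (nat_lit 367) (nat_lit 314)) (XT.lf (nat_lit 0) (nat_lit 969034863) (nat_lit 532) (nat_lit 5655211194) (nat_lit 76) (nat_lit 3401303542) (nat_lit 206) (nat_lit 5) (nat_lit 213) (nat_lit 5) (nat_lit 207) (nat_lit 5) (nat_lit 460) (nat_lit 367) (nat_lit 313)))) (XT.nd (nat_lit 156) (nat_lit 1292) (nat_lit 0) (XT.nd (nat_lit 78) (nat_lit 0) (nat_lit 0) (XT.lf (nat_lit 0) (nat_lit 1940673921) (nat_lit 380) (nat_lit 2680654477) (nat_lit 456) (nat_lit 5504579569) (nat_lit 201) (nat_lit 5) (nat_lit 206) (nat_lit 5) (nat_lit 207) (nat_lit 5) (nat_lit 461) (nat_lit 367) (nat_lit 312)) (XT.lf (nat_lit 0) (nat_lit 8353035636) (nat_lit 456) (nat_lit 533410825) (nat_lit 76) (nat_lit 1341699684) (nat_lit 201) (nat_lit 5) (nat_lit 207) (nat_lit 5) (nat_lit 202) (nat_lit 5) (nat_lit 462) (nat_lit 367) (nat_lit 311))) (XT.nd (nat_lit 78) (nat_lit 760) (nat_lit 0) (XT.lf (nat_lit 0) (nat_lit 1828479070) (nat_lit 532) (nat_lit 3055517438) (nat_lit 76) (nat_lit 5447685506) (nat_lit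 194) (nat_lit 5) (nat_lit 201) (nat_lit 5) (nat_lit 195) (nat_lit 5) (nat_lit 463) (nat_lit 367) (nat_lit 310)) (XT.nd (nat_lit 78) (nat_lit 380) (nat_lit 0) (XT.lf (nat_lit 0) (nat_lit 4801498945) (nat_lit 380) (nat_lit 774711320) (nat_lit 456) (nat_lit 4860926895) (nat_lit 189) (nat_lit 5) (nat_lit 194) (nat_lit 5) (nat_lit 195) (nat_lit 5) (nat_lit 464) (nat_lit 367) (nat_lit 309)) (XT.lf (nat_lit 0) (nat_lit 2258866422) (nat_lit 380) (nat_lit 7158141014) (nat_lit 456) (nat_lit 1127331745) (nat_lit 184) (nat_lit 5) (nat_lit 189) (nat_lit 5) (nat_lit 190) (nat_lit 5) (nat_lit 465) (nat_lit 367) (nat_lit 308)))))) (XT.nd (nat_lit 54600) (nat_lit 0) (nat_lit 36328) (XT.nd (nat_lit 156) (nat_lit 760) (nat_lit 0) (XT.nd (nat_lit 78) (nat_lit 380) (nat_lit 0) (XT.lf (nat_lit 0) (nat_lit 2649713911) (nat_lit 456) (nat_lit 349403562) (nat_lit 76) (nat_lit 7654140851) (nat_lit 183) (nat_lit 5) (nat_lit 189) (nat_lit 5) (nat_lit 184) (nat_lit 5) (nat_lit 466) (nat_lit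 367) (nat_lit 307)) (XT.lf (nat_lit 0) (nat_lit 6507555953) (nat_lit 456) (nat_lit 2992463726) (nat_lit 76) (nat_lit 1263780129) (nat_lit 178) (nat_lit 5) (nat_lit 184) (nat_lit 5) (nat_lit 179) (nat_lit 5) (nat_lit 467) (nat_lit 367) (nat_lit 306))) (XT.nd (nat_lit 78) (nat_lit 380) (nat_lit 0) (XT.lf (nat_lit 0) (nat_lit 5170288914) (nat_lit 380) (nat_lit 5289793485) (nat_lit 456) (nat_lit 416119171) (nat_lit 173) (nat_lit 5) (nat_lit 178) (nat_lit 5) (nat_lit 179) (nat_lit 5) (nat_lit 468) (nat_lit 367) (nat_lit 305)) (XT.nd (nat_lit 54288) (nat_lit 0) (nat_lit 40128) (XT.lf (nat_lit 0) (nat_lit 2495806313) (nat_lit 304) (nat_lit 957352996) (nat_lit 380) (nat_lit 7537272166) (nat_lit 168) (nat_lit 5) (nat_lit 172) (nat_lit 5) (nat_lit 173) (nat_lit 5) (nat_lit 469) (nat_lit 367) (nat_lit 304)) (XT.lf (nat_lit 0) (nat_lit 159717919) (nat_lit 1140) (nat_lit 3038190589) (nat_lit 0) (nat_lit 159717919) (nat_lit 696) (nat_lit 5) (nat_lit 711) (nat_lit 4) (nat_lit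 696) (nat_lit 4) (nat_lit 404) (nat_lit 368) (nat_lit 368))))) (XT.nd (nat_lit 156) (nat_lit 2584) (nat_lit 0) (XT.nd (nat_lit 78) (nat_lit 1216) (nat_lit 0) (XT.lf (nat_lit 0) (nat_lit 3670382387) (nat_lit 1140) (nat_lit 1565471419) (nat_lit 0) (nat_lit 1502589986) (nat_lit 696) (nat_lit 5) (nat_lit 711) (nat_lit 4) (nat_lit 696) (nat_lit 4) (nat_lit 405) (nat_lit 368) (nat_lit 367)) (XT.lf (nat_lit 0) (nat_lit 268810395) (nat_lit 1216) (nat_lit 3750082068) (nat_lit 76) (nat_lit 2744226921) (nat_lit 680) (nat_lit 5) (nat_lit 696) (nat_lit 5) (nat_lit 681) (nat_lit 4) (nat_lit 406) (nat_lit 368) (nat_lit 366))) (XT.nd (nat_lit 78) (nat_lit 1368) (nat_lit 0) (XT.lf (nat_lit 0) (nat_lit 846053490) (nat_lit 1216) (nat_lit 2729563804) (nat_lit 1292) (nat_lit 3213380015) (nat_lit 664) (nat_lit 5) (nat_lit 680) (nat_lit 5) (nat_lit 681) (nat_lit 4) (nat_lit 407) (nat_lit 368) (nat_lit 365)) (XT.nd (nat_lit 78) (nat_lit 1292) (nat_lit 0) (XT.lf (nat_lit 0) (nat_lit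 85471996) (nat_lit 1292) (nat_lit 1292435206) (nat_lit 76) (nat_lit 5438387280) (nat_lit 663) (nat_lit 5) (nat_lit 680) (nat_lit 5) (nat_lit 664) (nat_lit 5) (nat_lit 408) (nat_lit 368) (nat_lit 364)) (XT.lf (nat_lit 0) (nat_lit 3359954483) (nat_lit 1368) (nat_lit 3430693643) (nat_lit 76) (nat_lit 54011051) (nat_lit 646) (nat_lit 5) (nat_lit 664) (nat_lit 5) (nat_lit 647) (nat_lit 4) (nat_lit 409) (nat_lit 368) (nat_lit 363))))))) (XT.nd (nat_lit 702) (nat_lit 8512) (nat_lit 0) (XT.nd (nat_lit 312) (nat_lit 5168) (nat_lit 0) (XT.nd (nat_lit 156) (nat_lit 3040) (nat_lit 0) (XT.nd (nat_lit 78) (nat_lit 76) (nat_lit 0) (XT.lf (nat_lit 0) (nat_lit 1305236850) (nat_lit 1368) (nat_lit 5352177092) (nat_lit 1444) (nat_lit 217027478) (nat_lit 628) (nat_lit 5) (nat_lit 646) (nat_lit 5) (nat_lit 647) (nat_lit 4) (nat_lit 410) (nat_lit 368) (nat_lit 362)) (XT.lf (nat_lit 0) (nat_lit 3029972766) (nat_lit 1444) (nat_lit 804152303) (nat_lit 76) (nat_lit 3071192887) (nat_lit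 627) (nat_lit 5) (nat_lit 646) (nat_lit 5) (nat_lit 628) (nat_lit 5) (nat_lit 411) (nat_lit 368) (nat_lit 361))) (XT.nd (nat_lit 78) (nat_lit 1596) (nat_lit 0) (XT.lf (nat_lit 0) (nat_lit 4047256280) (nat_lit 1444) (nat_lit 2251033091) (nat_lit 1520) (nat_lit 639308314) (nat_lit 608) (nat_lit 5) (nat_lit 627) (nat_lit 5) (nat_lit 628) (nat_lit 5) (nat_lit 412) (nat_lit 368) (nat_lit 360)) (XT.lf (nat_lit 0) (nat_lit 1983807541) (nat_lit 1520) (nat_lit 594536062) (nat_lit 1596) (nat_lit 4392797813) (nat_lit 587) (nat_lit 5) (nat_lit 607) (nat_lit 5) (nat_lit 608) (nat_lit 5) (nat_lit 413) (nat_lit 368) (nat_lit 359)))) (XT.nd (nat_lit 156) (nat_lit 3496) (nat_lit 0) (XT.nd (nat_lit 78) (nat_lit 1672) (nat_lit 0) (XT.lf (nat_lit 0) (nat_lit 5812860179) (nat_lit 1596) (nat_lit 83837168) (nat_lit 76) (nat_lit 1109352721) (nat_lit 587) (nat_lit 5) (nat_lit 608) (nat_lit 5) (nat_lit 588) (nat_lit 5) (nat_lit 414) (nat_lit 368) (nat_lit 358)) (XT.lf (nat_lit 0) (nat_lit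 2014648517) (nat_lit 1672) (nat_lit 2137993223) (nat_lit 76) (nat_lit 2889318458) (nat_lit 565) (nat_lit 5) (nat_lit 587) (nat_lit 5) (nat_lit 566) (nat_lit 5) (nat_lit 415) (nat_lit 368) (nat_lit 357))) (XT.nd (nat_lit 78) (nat_lit 1824) (nat_lit 0) (XT.lf (nat_lit 0) (nat_lit 2882740478) (nat_lit 1672) (nat_lit 2343388097) (nat_lit 1748) (nat_lit 1853192983) (nat_lit 543) (nat_lit 5) (nat_lit 565) (nat_lit 5) (nat_lit 566) (nat_lit 5) (nat_lit 416) (nat_lit 368) (nat_lit 356)) (XT.nd (nat_lit 78) (nat_lit 0) (nat_lit 0) (XT.lf (nat_lit 0) (nat_lit 856184763) (nat_lit 1748) (nat_lit 466670898) (nat_lit 1824) (nat_lit 5795262628) (nat_lit 519) (nat_lit 5) (nat_lit 542) (nat_lit 5) (nat_lit 543) (nat_lit 5) (nat_lit 417) (nat_lit 368) (nat_lit 355)) (XT.lf (nat_lit 0) (nat_lit 4512837420) (nat_lit 1824) (nat_lit 1174634886) (nat_lit 76) (nat_lit 1470469129) (nat_lit 519) (nat_lit 5) (nat_lit 543) (nat_lit 5) (nat_lit 520) (nat_lit 5) (nat_lit 418) (nat_lit 368)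 (nat_lit 354)))))) (XT.nd (nat_lit 390) (nat_lit 3572) (nat_lit 0) (XT.nd (nat_lit 156) (nat_lit 1900) (nat_lit 0) (XT.nd (nat_lit 78) (nat_lit 1140) (nat_lit 0) (XT.lf (nat_lit 0) (nat_lit 528154606) (nat_lit 1900) (nat_lit 3200182459) (nat_lit 76) (nat_lit 3470799274) (nat_lit 494) (nat_lit 5) (nat_lit 519) (nat_lit 5) (nat_lit 495) (nat_lit 5) (nat_lit 419) (nat_lit 368) (nat_lit 353)) (XT.lf (nat_lit 0) (nat_lit 1997851465) (nat_lit 1140) (nat_lit 1691637300) (nat_lit 1216) (nat_lit 3552116127) (nat_lit 479) (nat_lit 5) (nat_lit 494) (nat_lit 5) (nat_lit 495) (nat_lit 5) (nat_lit 420) (nat_lit 368) (nat_lit 352))) (XT.nd (nat_lit 78) (nat_lit 1900) (nat_lit 0) (XT.lf (nat_lit 0) (nat_lit 6878049226) (nat_lit 1216) (nat_lit 6424126) (nat_lit 76) (nat_lit 401169472) (nat_lit 479) (nat_lit 5) (nat_lit 495) (nat_lit 5) (nat_lit 480) (nat_lit 5) (nat_lit 421) (nat_lit 368) (nat_lit 351)) (XT.nd (nat_lit 78) (nat_lit 912) (nat_lit 0) (XT.lf (nat_lit 0) (nat_lit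 2749897892) (nat_lit 988) (nat_lit 2015805133) (nat_lit 76) (nat_lit 2564758950) (nat_lit 466) (nat_lit 5) (nat_lit 479) (nat_lit 5) (nat_lit 467) (nat_lit 5) (nat_lit 422) (nat_lit 368) (nat_lit 350)) (XT.lf (nat_lit 0) (nat_lit 3345589674) (nat_lit 912) (nat_lit 2582693822) (nat_lit 988) (nat_lit 1448576092) (nat_lit 454) (nat_lit 5) (nat_lit 466) (nat_lit 5) (nat_lit 467) (nat_lit 5) (nat_lit 423) (nat_lit 368) (nat_lit 349))))) (XT.nd (nat_lit 156) (nat_lit 2660) (nat_lit 0) (XT.nd (nat_lit 78) (nat_lit 0) (nat_lit 0) (XT.lf (nat_lit 0) (nat_lit 1362033315) (nat_lit 836) (nat_lit 325377964) (nat_lit 912) (nat_lit 5737261954) (nat_lit 442) (nat_lit 5) (nat_lit 453) (nat_lit 5) (nat_lit 454) (nat_lit 5) (nat_lit 424) (nat_lit 368) (nat_lit 348)) (XT.lf (nat_lit 0) (nat_lit 4849321333) (nat_lit 912) (nat_lit 640404033) (nat_lit 76) (nat_lit 1983874297) (nat_lit 442) (nat_lit 5) (nat_lit 454) (nat_lit 5) (nat_lit 443) (nat_lit 5) (nat_lit 425) (nat_lit 368) (nat_lit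 347))) (XT.nd (nat_lit 78) (nat_lit 1672) (nat_lit 0) (XT.lf (nat_lit 0) (nat_lit 521139908) (nat_lit 988) (nat_lit 2636627641) (nat_lit 76) (nat_lit 4366117508) (nat_lit 429) (nat_lit 5) (nat_lit 442) (nat_lit 5) (nat_lit 430) (nat_lit 5) (nat_lit 426) (nat_lit 368) (nat_lit 346)) (XT.nd (nat_lit 78) (nat_lit 836) (nat_lit 0) (XT.lf (nat_lit 0) (nat_lit 2918075903) (nat_lit 836) (nat_lit 743536939) (nat_lit 912) (nat_lit 3913870679) (nat_lit 418) (nat_lit 5) (nat_lit 429) (nat_lit 5) (nat_lit 430) (nat_lit 5) (nat_lit 427) (nat_lit 368) (nat_lit 345)) (XT.lf (nat_lit 0) (nat_lit 930266436) (nat_lit 836) (nat_lit 5914280098) (nat_lit 912) (nat_lit 783974394) (nat_lit 407) (nat_lit 5) (nat_lit 418) (nat_lit 5) (nat_lit 419) (nat_lit 5) (nat_lit 428) (nat_lit 368) (nat_lit 344))))))))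
noncomputable def xc30 : XT := (XT.nd (nat_lit 1482) (nat_lit 7068) (nat_lit 0) (XT.nd (nat_lit 702) (nat_lit 5244) (nat_lit 0) (XT.nd (nat_lit 312) (nat_lit 2280) (nat_lit 0) (XT.nd (nat_lit 156) (nat_lit 1596) (nat_lit 0) (XT.nd (nat_lit 78) (nat_lit 760) (nat_lit 0) (XT.lf (nat_lit 0) (nat_lit 2358276872) (nat_lit 912) (nat_lit 1072766485) (nat_lit 76) (nat_lit 4251636069) (nat_lit 406) (nat_lit 5) (nat_lit 418) (nat_lit 5) (nat_lit 407) (nat_lit 5) (nat_lit 429) (nat_lit 368) (nat_lit 343)) (XT.lf (nat_lit 0) (nat_lit 4659552166) (nat_lit 760) (nat_lit 869626012) (nat_lit 836) (nat_lit 2209113225) (nat_lit 396) (nat_lit 5) (nat_lit 406) (nat_lit 5) (nat_lit 407) (nat_lit 5) (nat_lit 430) (nat_lit 368) (nat_lit 342))) (XT.nd (nat_lit 78) (nat_lit 760) (nat_lit 0) (XT.lf (nat_lit 0) (nat_lit 938329230) (nat_lit 836) (nat_lit 5113668627) (nat_lit 76) (nat_lit 1743241019) (nat_lit 385) (nat_lit 5) (nat_lit 396) (nat_lit 5) (nat_lit 386) (nat_lit 5) (nat_lit 431)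 (nat_lit 368) (nat_lit 341)) (XT.lf (nat_lit 0) (nat_lit 671687019) (nat_lit 760) (nat_lit 3425343090) (nat_lit 836) (nat_lit 3756445353) (nat_lit 375) (nat_lit 5) (nat_lit 385) (nat_lit 5) (nat_lit 386) (nat_lit 5) (nat_lit 432) (nat_lit 368) (nat_lit 340)))) (XT.nd (nat_lit 156) (nat_lit 1444) (nat_lit 0) (XT.nd (nat_lit 78) (nat_lit 836) (nat_lit 0) (XT.lf (nat_lit 0) (nat_lit 6579974708) (nat_lit 760) (nat_lit 720827874) (nat_lit 836) (nat_lit 612436245) (nat_lit 375) (nat_lit 5) (nat_lit 385) (nat_lit 5) (nat_lit 386) (nat_lit 5) (nat_lit 433) (nat_lit 368) (nat_lit 339)) (XT.lf (nat_lit 0) (nat_lit 2552132060) (nat_lit 836) (nat_lit 3373431188) (nat_lit 76) (nat_lit 2048463200) (nat_lit 364) (nat_lit 5) (nat_lit 375) (nat_lit 5) (nat_lit 365) (nat_lit 5) (nat_lit 434) (nat_lit 368) (nat_lit 338))) (XT.nd (nat_lit 78) (nat_lit 760) (nat_lit 0) (XT.lf (nat_lit 0) (nat_lit 2598429542) (nat_lit 684) (nat_lit 3152841585) (nat_lit 760) (nat_lit 2285088131) (nat_lit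 355) (nat_lit 5) (nat_lit 364) (nat_lit 5) (nat_lit 365) (nat_lit 5) (nat_lit 435) (nat_lit 368) (nat_lit 337)) (XT.nd (nat_lit 78) (nat_lit 0) (nat_lit 0) (XT.lf (nat_lit 0) (nat_lit 575041741) (nat_lit 684) (nat_lit 303029844) (nat_lit 760) (nat_lit 7222236182) (nat_lit 345) (nat_lit 5) (nat_lit 354) (nat_lit 5) (nat_lit 355) (nat_lit 5) (nat_lit 436) (nat_lit 368) (nat_lit 336)) (XT.lf (nat_lit 0) (nat_lit 4077174054) (nat_lit 760) (nat_lit 1478002705) (nat_lit 76) (nat_lit 2609990863) (nat_lit 345) (nat_lit 5) (nat_lit 355) (nat_lit 5) (nat_lit 346) (nat_lit 5) (nat_lit 437) (nat_lit 368) (nat_lit 335)))))) (XT.nd (nat_lit 390) (nat_lit 2508) (nat_lit 0) (XT.nd (nat_lit 156) (nat_lit 1292) (nat_lit 0) (XT.nd (nat_lit 78) (nat_lit 760) (nat_lit 0) (XT.lf (nat_lit 0) (nat_lit 4688014264) (nat_lit 684) (nat_lit 2635286663) (nat_lit 760) (nat_lit 908362899) (nat_lit 336) (nat_lit 5) (nat_lit 345) (nat_lit 5) (nat_lit 346) (nat_lit 5) (nat_lit 438) (nat_lit 368)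 (nat_lit 334)) (XT.lf (nat_lit 0) (nat_lit 2284735440) (nat_lit 760) (nat_lit 5646265989) (nat_lit 76) (nat_lit 368575393) (nat_lit 326) (nat_lit 5) (nat_lit 336) (nat_lit 5) (nat_lit 327) (nat_lit 5) (nat_lit 439) (nat_lit 368) (nat_lit 333))) (XT.nd (nat_lit 78) (nat_lit 684) (nat_lit 0) (XT.lf (nat_lit 0) (nat_lit 575397081) (nat_lit 608) (nat_lit 4950598319) (nat_lit 684) (nat_lit 2842803338) (nat_lit 318) (nat_lit 5) (nat_lit 326) (nat_lit 5) (nat_lit 327) (nat_lit 5) (nat_lit 440) (nat_lit 368) (nat_lit 332)) (XT.nd (nat_lit 78) (nat_lit 608) (nat_lit 0) (XT.lf (nat_lit 0) (nat_lit 377224983) (nat_lit 684) (nat_lit 1506048001) (nat_lit 76) (nat_lit 6556287128) (nat_lit 317) (nat_lit 5) (nat_lit 326) (nat_lit 5) (nat_lit 318) (nat_lit 5) (nat_lit 441) (nat_lit 368) (nat_lit 331)) (XT.lf (nat_lit 0) (nat_lit 3616219358) (nat_lit 684) (nat_lit 3629035597) (nat_lit 76) (nat_lit 1266253328) (nat_lit 309) (nat_lit 5) (nat_lit 318) (nat_lit 5) (nat_lit 310) (nat_lit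 5) (nat_lit 442) (nat_lit 368) (nat_lit 330))))) (XT.nd (nat_lit 156) (nat_lit 1216) (nat_lit 0) (XT.nd (nat_lit 78) (nat_lit 684) (nat_lit 0) (XT.lf (nat_lit 0) (nat_lit 2796780483) (nat_lit 608) (nat_lit 4116969990) (nat_lit 684) (nat_lit 1671269808) (nat_lit 301) (nat_lit 5) (nat_lit 309) (nat_lit 5) (nat_lit 310) (nat_lit 5) (nat_lit 443) (nat_lit 368) (nat_lit 329)) (XT.lf (nat_lit 0) (nat_lit 676945089) (nat_lit 608) (nat_lit 901152007) (nat_lit 684) (nat_lit 7082053867) (nat_lit 292) (nat_lit 5) (nat_lit 300) (nat_lit 5) (nat_lit 301) (nat_lit 5) (nat_lit 444) (nat_lit 368) (nat_lit 328))) (XT.nd (nat_lit 78) (nat_lit 1216) (nat_lit 0) (XT.lf (nat_lit 0) (nat_lit 4878226100) (nat_lit 684) (nat_lit 1475363895) (nat_lit 76) (nat_lit 2382810261) (nat_lit 292) (nat_lit 5) (nat_lit 301) (nat_lit 5) (nat_lit 293) (nat_lit 5) (nat_lit 445) (nat_lit 368) (nat_lit 327)) (XT.nd (nat_lit 78) (nat_lit 684) (nat_lit 0) (XT.lf (nat_lit 0) (nat_lit 5163127383) (nat_lit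 532) (nat_lit 3075217548) (nat_lit 608) (nat_lit 575949857) (nat_lit 285) (nat_lit 5) (nat_lit 292) (nat_lit 5) (nat_lit 293) (nat_lit 5) (nat_lit 446) (nat_lit 368) (nat_lit 326)) (XT.lf (nat_lit 0) (nat_lit 2721795631) (nat_lit 684) (nat_lit 5874715041) (nat_lit 76) (nat_lit 297151978) (nat_lit 276) (nat_lit 5) (nat_lit 285) (nat_lit 5) (nat_lit 277) (nat_lit 5) (nat_lit 447) (nat_lit 368) (nat_lit 325))))))) (XT.nd (nat_lit 702) (nat_lit 3268) (nat_lit 0) (XT.nd (nat_lit 312) (nat_lit 2128) (nat_lit 0) (XT.nd (nat_lit 156) (nat_lit 1064) (nat_lit 0) (XT.nd (nat_lit 78) (nat_lit 76) (nat_lit 0) (XT.lf (nat_lit 0) (nat_lit 822433220) (nat_lit 532) (nat_lit 5260809518) (nat_lit 608) (nat_lit 2891189818) (nat_lit 269) (nat_lit 5) (nat_lit 276) (nat_lit 5) (nat_lit 277) (nat_lit 5) (nat_lit 448) (nat_lit 368) (nat_lit 324)) (XT.lf (nat_lit 0) (nat_lit 444085786) (nat_lit 608) (nat_lit 1388115717) (nat_lit 76) (nat_lit 7224658189) (nat_lit 268) (nat_lit 5) (nat_lit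 276) (nat_lit 5) (nat_lit 269) (nat_lit 5) (nat_lit 449) (nat_lit 368) (nat_lit 323))) (XT.nd (nat_lit 78) (nat_lit 532) (nat_lit 0) (XT.lf (nat_lit 0) (nat_lit 3810331500) (nat_lit 608) (nat_lit 3648515361) (nat_lit 76) (nat_lit 1681646741) (nat_lit 261) (nat_lit 5) (nat_lit 269) (nat_lit 5) (nat_lit 262) (nat_lit 5) (nat_lit 450) (nat_lit 368) (nat_lit 322)) (XT.lf (nat_lit 0) (nat_lit 3272430494) (nat_lit 532) (nat_lit 3970733103) (nat_lit 608) (nat_lit 1982651365) (nat_lit 254) (nat_lit 5) (nat_lit 261) (nat_lit 5) (nat_lit 262) (nat_lit 5) (nat_lit 451) (nat_lit 368) (nat_lit 321)))) (XT.nd (nat_lit 156) (nat_lit 1520) (nat_lit 0) (XT.nd (nat_lit 78) (nat_lit 0) (nat_lit 0) (XT.lf (nat_lit 0) (nat_lit 1011362258) (nat_lit 532) (nat_lit 389558448) (nat_lit 608) (nat_lit 7911978326) (nat_lit 246) (nat_lit 5) (nat_lit 253) (nat_lit 5) (nat_lit 254) (nat_lit 5) (nat_lit 452) (nat_lit 368) (nat_lit 320)) (XT.lf (nat_lit 0) (nat_lit 4844057372) (nat_lit 608) (nat_lit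 1301082790) (nat_lit 76) (nat_lit 3255953697) (nat_lit 246) (nat_lit 5) (nat_lit 254) (nat_lit 5) (nat_lit 247) (nat_lit 5) (nat_lit 453) (nat_lit 368) (nat_lit 319))) (XT.nd (nat_lit 78) (nat_lit 1064) (nat_lit 0) (XT.lf (nat_lit 0) (nat_lit 5853095407) (nat_lit 456) (nat_lit 2501400269) (nat_lit 532) (nat_lit 1136588130) (nat_lit 240) (nat_lit 5) (nat_lit 246) (nat_lit 5) (nat_lit 247) (nat_lit 5) (nat_lit 454) (nat_lit 368) (nat_lit 318)) (XT.nd (nat_lit 78) (nat_lit 456) (nat_lit 0) (XT.lf (nat_lit 0) (nat_lit 2319393397) (nat_lit 608) (nat_lit 6034879248) (nat_lit 76) (nat_lit 1228335964) (nat_lit 232) (nat_lit 5) (nat_lit 240) (nat_lit 5) (nat_lit 233) (nat_lit 5) (nat_lit 455) (nat_lit 368) (nat_lit 317)) (XT.lf (nat_lit 0) (nat_lit 1181297965) (nat_lit 456) (nat_lit 4655129561) (nat_lit 532) (nat_lit 3839243087) (nat_lit 226) (nat_lit 5) (nat_lit 232) (nat_lit 5) (nat_lit 233) (nat_lit 5) (nat_lit 456) (nat_lit 368) (nat_lit 316)))))) (XT.nd (nat_lit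 390) (nat_lit 1748) (nat_lit 0) (XT.nd (nat_lit 156) (nat_lit 988) (nat_lit 0) (XT.nd (nat_lit 78) (nat_lit 532) (nat_lit 0) (XT.lf (nat_lit 0) (nat_lit 8563063651) (nat_lit 456) (nat_lit 859987777) (nat_lit 532) (nat_lit 347557448) (nat_lit 226) (nat_lit 5) (nat_lit 232) (nat_lit 5) (nat_lit 233) (nat_lit 5) (nat_lit 457) (nat_lit 368) (nat_lit 315)) (XT.lf (nat_lit 0) (nat_lit 3191356919) (nat_lit 532) (nat_lit 3660953198) (nat_lit 76) (nat_lit 3014327508) (nat_lit 219) (nat_lit 5) (nat_lit 226) (nat_lit 5) (nat_lit 220) (nat_lit 5) (nat_lit 458) (nat_lit 368) (nat_lit 314))) (XT.nd (nat_lit 78) (nat_lit 532) (nat_lit 0) (XT.lf (nat_lit 0) (nat_lit 3800738538) (nat_lit 456) (nat_lit 2993770755) (nat_lit 532) (nat_lit 3170069441) (nat_lit 213) (nat_lit 5) (nat_lit 219) (nat_lit 5) (nat_lit 220) (nat_lit 5) (nat_lit 459) (nat_lit 368) (nat_lit 313)) (XT.nd (nat_lit 78) (nat_lit 0) (nat_lit 0) (XT.lf (nat_lit 0) (nat_lit 399382677) (nat_lit 532) (nat_lit 8718867564)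 (nat_lit 76) (nat_lit 946186770) (nat_lit 206) (nat_lit 5) (nat_lit 213) (nat_lit 5) (nat_lit 207) (nat_lit 5) (nat_lit 460) (nat_lit 368) (nat_lit 312)) (XT.lf (nat_lit 0) (nat_lit 4019269159) (nat_lit 532) (nat_lit 1178430066) (nat_lit 76) (nat_lit 4967744295) (nat_lit 206) (nat_lit 5) (nat_lit 213) (nat_lit 5) (nat_lit 207) (nat_lit 5) (nat_lit 461) (nat_lit 368) (nat_lit 311))))) (XT.nd (nat_lit 156) (nat_lit 836) (nat_lit 0) (XT.nd (nat_lit 78) (nat_lit 532) (nat_lit 0) (XT.lf (nat_lit 0) (nat_lit 6539176137) (nat_lit 380) (nat_lit 1175608449) (nat_lit 456) (nat_lit 2553620948) (nat_lit 201) (nat_lit 5) (nat_lit 206) (nat_lit 5) (nat_lit 207) (nat_lit 5) (nat_lit 462) (nat_lit 368) (nat_lit 310)) (XT.lf (nat_lit 0) (nat_lit 1110454581) (nat_lit 532) (nat_lit 6352495834) (nat_lit 76) (nat_lit 2910047352) (nat_lit 194) (nat_lit 5) (nat_lit 201) (nat_lit 5) (nat_lit 195) (nat_lit 5) (nat_lit 463) (nat_lit 368) (nat_lit 309))) (XT.nd (nat_lit 78) (nat_lit 456)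 (nat_lit 0) (XT.lf (nat_lit 0) (nat_lit 1430717443) (nat_lit 380) (nat_lit 3386351958) (nat_lit 456) (nat_lit 5662205839) (nat_lit 189) (nat_lit 5) (nat_lit 194) (nat_lit 5) (nat_lit 195) (nat_lit 5) (nat_lit 464) (nat_lit 368) (nat_lit 308)) (XT.nd (nat_lit 78) (nat_lit 456) (nat_lit 0) (XT.lf (nat_lit 0) (nat_lit 8607131946) (nat_lit 456) (nat_lit 1196435758) (nat_lit 76) (nat_lit 783924250) (nat_lit 189) (nat_lit 5) (nat_lit 195) (nat_lit 5) (nat_lit 190) (nat_lit 5) (nat_lit 465) (nat_lit 368) (nat_lit 307)) (XT.lf (nat_lit 0) (nat_lit 1780895524) (nat_lit 456) (nat_lit 3888096790) (nat_lit 76) (nat_lit 5028069106) (nat_lit 183) (nat_lit 5) (nat_lit 189) (nat_lit 5) (nat_lit 184) (nat_lit 5) (nat_lit 466) (nat_lit 368) (nat_lit 306))))))))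
noncomputable def xc31 : XT := (XT.nd (nat_lit 55536) (nat_lit 0) (nat_lit 13148) (XT.nd (nat_lit 54756) (nat_lit 0) (nat_lit 26372) (XT.nd (nat_lit 54366) (nat_lit 0) (nat_lit 37392) (XT.nd (nat_lit 156) (nat_lit 76) (nat_lit 0) (XT.nd (nat_lit 78) (nat_lit 380) (nat_lit 0) (XT.lf (nat_lit 0) (nat_lit 4164520578) (nat_lit 380) (nat_lit 1423749032) (nat_lit 456) (nat_lit 5220342652) (nat_lit 178) (nat_lit 5) (nat_lit 183) (nat_lit 5) (nat_lit 184) (nat_lit 5) (nat_lit 467) (nat_lit 368) (nat_lit 305)) (XT.lf (nat_lit 0) (nat_lit 1449812613) (nat_lit 380) (nat_lit 8039012911) (nat_lit 456) (nat_lit 1433227911) (nat_lit 173) (nat_lit 5) (nat_lit 178) (nat_lit 5) (nat_lit 179) (nat_lit 5) (nat_lit 468) (nat_lit 368) (nat_lit 304))) (XT.nd (nat_lit 54132) (nat_lit 0) (nat_lit 41952) (XT.lf (nat_lit 0) (nat_lit 2414668234) (nat_lit 456) (nat_lit 1326001946) (nat_lit 76) (nat_lit 7296439673) (nat_lit 172) (nat_lit 5) (nat_lit 178) (nat_lit 5) (nat_lit 173) (nat_lit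 5) (nat_lit 469) (nat_lit 368) (nat_lit 303)) (XT.lf (nat_lit 0) (nat_lit 1276950119) (nat_lit 988) (nat_lit 781826217) (nat_lit 0) (nat_lit 1276950119) (nat_lit 724) (nat_lit 5) (nat_lit 737) (nat_lit 4) (nat_lit 724) (nat_lit 4) (nat_lit 402) (nat_lit 369) (nat_lit 369)))) (XT.nd (nat_lit 156) (nat_lit 2432) (nat_lit 0) (XT.nd (nat_lit 78) (nat_lit 1140) (nat_lit 0) (XT.lf (nat_lit 0) (nat_lit 2853153379) (nat_lit 988) (nat_lit 3047587489) (nat_lit 988) (nat_lit 792216276) (nat_lit 711) (nat_lit 4) (nat_lit 724) (nat_lit 5) (nat_lit 724) (nat_lit 4) (nat_lit 403) (nat_lit 369) (nat_lit 368)) (XT.lf (nat_lit 0) (nat_lit 596477411) (nat_lit 1064) (nat_lit 1909956684) (nat_lit 1140) (nat_lit 4209301762) (nat_lit 696) (nat_lit 5) (nat_lit 710) (nat_lit 5) (nat_lit 711) (nat_lit 4) (nat_lit 404) (nat_lit 369) (nat_lit 367))) (XT.nd (nat_lit 78) (nat_lit 2432) (nat_lit 0) (XT.lf (nat_lit 0) (nat_lit 5109400162) (nat_lit 1064) (nat_lit 704318661) (nat_lit 1140) (nat_lit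 926081205) (nat_lit 696) (nat_lit 5) (nat_lit 710) (nat_lit 5) (nat_lit 711) (nat_lit 4) (nat_lit 405) (nat_lit 369) (nat_lit 366)) (XT.nd (nat_lit 78) (nat_lit 1216) (nat_lit 0) (XT.lf (nat_lit 0) (nat_lit 2342137204) (nat_lit 1216) (nat_lit 3856724541) (nat_lit 76) (nat_lit 566146951) (nat_lit 680) (nat_lit 5) (nat_lit 696) (nat_lit 5) (nat_lit 681) (nat_lit 4) (nat_lit 406) (nat_lit 369) (nat_lit 365)) (XT.lf (nat_lit 0) (nat_lit 708037225) (nat_lit 1216) (nat_lit 4905149960) (nat_lit 1292) (nat_lit 1178414575) (nat_lit 664) (nat_lit 5) (nat_lit 680) (nat_lit 5) (nat_lit 681) (nat_lit 4) (nat_lit 407) (nat_lit 369) (nat_lit 364)))))) (XT.nd (nat_lit 390) (nat_lit 6688) (nat_lit 0) (XT.nd (nat_lit 156) (nat_lit 2964) (nat_lit 0) (XT.nd (nat_lit 78) (nat_lit 1292) (nat_lit 0) (XT.lf (nat_lit 0) (nat_lit 2059152931) (nat_lit 1292) (nat_lit 1476097210) (nat_lit 76) (nat_lit 3284076455) (nat_lit 663) (nat_lit 5) (nat_lit 680) (nat_lit 5) (nat_lit 664) (nat_lit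 5) (nat_lit 408) (nat_lit 369) (nat_lit 363)) (XT.lf (nat_lit 0) (nat_lit 3198592503) (nat_lit 1292) (nat_lit 2099369660) (nat_lit 1368) (nat_lit 1550442595) (nat_lit 646) (nat_lit 5) (nat_lit 663) (nat_lit 5) (nat_lit 664) (nat_lit 5) (nat_lit 409) (nat_lit 369) (nat_lit 362))) (XT.nd (nat_lit 78) (nat_lit 1520) (nat_lit 0) (XT.lf (nat_lit 0) (nat_lit 1051870376) (nat_lit 1368) (nat_lit 597811584) (nat_lit 1444) (nat_lit 5229182667) (nat_lit 627) (nat_lit 5) (nat_lit 645) (nat_lit 5) (nat_lit 646) (nat_lit 5) (nat_lit 410) (nat_lit 369) (nat_lit 361)) (XT.nd (nat_lit 78) (nat_lit 1520) (nat_lit 0) (XT.lf (nat_lit 0) (nat_lit 4856787218) (nat_lit 1444) (nat_lit 1089463718) (nat_lit 76) (nat_lit 964203019) (nat_lit 627) (nat_lit 5) (nat_lit 646) (nat_lit 5) (nat_lit 628) (nat_lit 5) (nat_lit 411) (nat_lit 369) (nat_lit 360)) (XT.lf (nat_lit 0) (nat_lit 1132046668) (nat_lit 1520) (nat_lit 3222516591) (nat_lit 76) (nat_lit 2588713219) (nat_lit 607) (nat_lit 5) (nat_lit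 627) (nat_lit 5) (nat_lit 608) (nat_lit 5) (nat_lit 412) (nat_lit 369) (nat_lit 359))))) (XT.nd (nat_lit 156) (nat_lit 5092) (nat_lit 0) (XT.nd (nat_lit 78) (nat_lit 76) (nat_lit 0) (XT.lf (nat_lit 0) (nat_lit 1612976565) (nat_lit 1520) (nat_lit 2693648332) (nat_lit 1596) (nat_lit 2670806077) (nat_lit 587) (nat_lit 5) (nat_lit 607) (nat_lit 5) (nat_lit 608) (nat_lit 5) (nat_lit 413) (nat_lit 369) (nat_lit 358)) (XT.lf (nat_lit 0) (nat_lit 482469366) (nat_lit 1596) (nat_lit 486916713) (nat_lit 76) (nat_lit 6043672822) (nat_lit 586) (nat_lit 5) (nat_lit 607) (nat_lit 5) (nat_lit 587) (nat_lit 5) (nat_lit 414) (nat_lit 369) (nat_lit 357))) (XT.nd (nat_lit 78) (nat_lit 3496) (nat_lit 0) (XT.lf (nat_lit 0) (nat_lit 3634093486) (nat_lit 1672) (nat_lit 2585247614) (nat_lit 76) (nat_lit 830284301) (nat_lit 565) (nat_lit 5) (nat_lit 587) (nat_lit 5) (nat_lit 566) (nat_lit 5) (nat_lit 415) (nat_lit 369) (nat_lit 356)) (XT.nd (nat_lit 78) (nat_lit 1824) (nat_lit 0) (XT.lf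 (nat_lit 0) (nat_lit 2399421052) (nat_lit 1672) (nat_lit 4412032022) (nat_lit 1748) (nat_lit 276216096) (nat_lit 543) (nat_lit 5) (nat_lit 565) (nat_lit 5) (nat_lit 566) (nat_lit 5) (nat_lit 416) (nat_lit 369) (nat_lit 355)) (XT.lf (nat_lit 0) (nat_lit 317271448) (nat_lit 1748) (nat_lit 2527610680) (nat_lit 1824) (nat_lit 4282064359) (nat_lit 519) (nat_lit 5) (nat_lit 542) (nat_lit 5) (nat_lit 543) (nat_lit 5) (nat_lit 417) (nat_lit 369) (nat_lit 354))))))) (XT.nd (nat_lit 780) (nat_lit 5548) (nat_lit 0) (XT.nd (nat_lit 390) (nat_lit 3648) (nat_lit 0) (XT.nd (nat_lit 156) (nat_lit 2128) (nat_lit 0) (XT.nd (nat_lit 78) (nat_lit 1900) (nat_lit 0) (XT.lf (nat_lit 0) (nat_lit 5424518275) (nat_lit 1748) (nat_lit 570312578) (nat_lit 1824) (nat_lit 1172739441) (nat_lit 519) (nat_lit 5) (nat_lit 542) (nat_lit 5) (nat_lit 543) (nat_lit 5) (nat_lit 418) (nat_lit 369) (nat_lit 353)) (XT.lf (nat_lit 0) (nat_lit 1943587795) (nat_lit 1900) (nat_lit 3822243956) (nat_lit 76)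 (nat_lit 1443494677) (nat_lit 494) (nat_lit 5) (nat_lit 519) (nat_lit 5) (nat_lit 495) (nat_lit 5) (nat_lit 419) (nat_lit 369) (nat_lit 352))) (XT.nd (nat_lit 78) (nat_lit 988) (nat_lit 0) (XT.lf (nat_lit 0) (nat_lit 1337169322) (nat_lit 1140) (nat_lit 3733900436) (nat_lit 1216) (nat_lit 2181402266) (nat_lit 479) (nat_lit 5) (nat_lit 494) (nat_lit 5) (nat_lit 495) (nat_lit 5) (nat_lit 420) (nat_lit 369) (nat_lit 351)) (XT.nd (nat_lit 78) (nat_lit 912) (nat_lit 0) (XT.lf (nat_lit 0) (nat_lit 918462634) (nat_lit 1216) (nat_lit 711718772) (nat_lit 76) (nat_lit 5666844009) (nat_lit 478) (nat_lit 5) (nat_lit 494) (nat_lit 5) (nat_lit 479) (nat_lit 5) (nat_lit 421) (nat_lit 369) (nat_lit 350)) (XT.lf (nat_lit 0) (nat_lit 4026359199) (nat_lit 988) (nat_lit 2764503655) (nat_lit 76) (nat_lit 551813771) (nat_lit 466) (nat_lit 5) (nat_lit 479) (nat_lit 5) (nat_lit 467) (nat_lit 5) (nat_lit 422) (nat_lit 369) (nat_lit 349))))) (XT.nd (nat_lit 156) (nat_lit 1824) (nat_lit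 0) (XT.nd (nat_lit 78) (nat_lit 912) (nat_lit 0) (XT.lf (nat_lit 0) (nat_lit 2556618090) (nat_lit 912) (nat_lit 4614578479) (nat_lit 988) (nat_lit 218548632) (nat_lit 454) (nat_lit 5) (nat_lit 466) (nat_lit 5) (nat_lit 467) (nat_lit 5) (nat_lit 423) (nat_lit 369) (nat_lit 348)) (XT.lf (nat_lit 0) (nat_lit 510923435) (nat_lit 836) (nat_lit 2356610109) (nat_lit 912) (nat_lit 4570541042) (nat_lit 442) (nat_lit 5) (nat_lit 453) (nat_lit 5) (nat_lit 454) (nat_lit 5) (nat_lit 424) (nat_lit 369) (nat_lit 347))) (XT.nd (nat_lit 78) (nat_lit 1824) (nat_lit 0) (XT.lf (nat_lit 0) (nat_lit 5965492575) (nat_lit 836) (nat_lit 23011721) (nat_lit 912) (nat_lit 1499315506) (nat_lit 442) (nat_lit 5) (nat_lit 453) (nat_lit 5) (nat_lit 454) (nat_lit 5) (nat_lit 425) (nat_lit 369) (nat_lit 346)) (XT.nd (nat_lit 78) (nat_lit 836) (nat_lit 0) (XT.lf (nat_lit 0) (nat_lit 1597626297) (nat_lit 988) (nat_lit 3582342362) (nat_lit 76) (nat_lit 2358664904) (nat_lit 429) (nat_lit 5) (nat_lit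 442) (nat_lit 5) (nat_lit 430) (nat_lit 5) (nat_lit 426) (nat_lit 369) (nat_lit 345)) (XT.lf (nat_lit 0) (nat_lit 1929375696) (nat_lit 836) (nat_lit 2775115624) (nat_lit 912) (nat_lit 2886412866) (nat_lit 418) (nat_lit 5) (nat_lit 429) (nat_lit 5) (nat_lit 430) (nat_lit 5) (nat_lit 427) (nat_lit 369) (nat_lit 344)))))) (XT.nd (nat_lit 390) (nat_lit 3040) (nat_lit 0) (XT.nd (nat_lit 156) (nat_lit 1596) (nat_lit 0) (XT.nd (nat_lit 78) (nat_lit 836) (nat_lit 0) (XT.lf (nat_lit 0) (nat_lit 195870662) (nat_lit 912) (nat_lit 106463504) (nat_lit 76) (nat_lit 7342464200) (nat_lit 417) (nat_lit 5) (nat_lit 429) (nat_lit 5) (nat_lit 418) (nat_lit 5) (nat_lit 428) (nat_lit 369) (nat_lit 343)) (XT.lf (nat_lit 0) (nat_lit 3298458941) (nat_lit 912) (nat_lit 2160819311) (nat_lit 76) (nat_lit 2240164428) (nat_lit 406) (nat_lit 5) (nat_lit 418) (nat_lit 5) (nat_lit 407) (nat_lit 5) (nat_lit 429) (nat_lit 369) (nat_lit 342))) (XT.nd (nat_lit 78) (nat_lit 836) (nat_lit 0) (XT.lf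 (nat_lit 0) (nat_lit 3526746201) (nat_lit 760) (nat_lit 2909069889) (nat_lit 836) (nat_lit 1319909450) (nat_lit 396) (nat_lit 5) (nat_lit 406) (nat_lit 5) (nat_lit 407) (nat_lit 5) (nat_lit 430) (nat_lit 369) (nat_lit 341)) (XT.nd (nat_lit 78) (nat_lit 0) (nat_lit 0) (XT.lf (nat_lit 0) (nat_lit 1491447257) (nat_lit 760) (nat_lit 279112112) (nat_lit 836) (nat_lit 6042904411) (nat_lit 385) (nat_lit 5) (nat_lit 395) (nat_lit 5) (nat_lit 396) (nat_lit 5) (nat_lit 431) (nat_lit 369) (nat_lit 340)) (XT.lf (nat_lit 0) (nat_lit 4897337185) (nat_lit 836) (nat_lit 573993558) (nat_lit 76) (nat_lit 2401008084) (nat_lit 385) (nat_lit 5) (nat_lit 396) (nat_lit 5) (nat_lit 386) (nat_lit 5) (nat_lit 432) (nat_lit 369) (nat_lit 339))))) (XT.nd (nat_lit 156) (nat_lit 1444) (nat_lit 0) (XT.nd (nat_lit 78) (nat_lit 760) (nat_lit 0) (XT.lf (nat_lit 0) (nat_lit 137380529) (nat_lit 836) (nat_lit 2637060282) (nat_lit 76) (nat_lit 5158227642) (nat_lit 374) (nat_lit 5) (nat_lit 385) (nat_lit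 5) (nat_lit 375) (nat_lit 5) (nat_lit 433) (nat_lit 369) (nat_lit 338)) (XT.lf (nat_lit 0) (nat_lit 3246612989) (nat_lit 836) (nat_lit 4735491019) (nat_lit 76) (nat_lit 12218610) (nat_lit 364) (nat_lit 5) (nat_lit 375) (nat_lit 5) (nat_lit 365) (nat_lit 5) (nat_lit 434) (nat_lit 369) (nat_lit 337))) (XT.nd (nat_lit 78) (nat_lit 760) (nat_lit 0) (XT.lf (nat_lit 0) (nat_lit 1187721345) (nat_lit 684) (nat_lit 5224032433) (nat_lit 760) (nat_lit 1645581617) (nat_lit 355) (nat_lit 5) (nat_lit 364) (nat_lit 5) (nat_lit 365) (nat_lit 5) (nat_lit 435) (nat_lit 369) (nat_lit 336)) (XT.nd (nat_lit 78) (nat_lit 684) (nat_lit 0) (XT.lf (nat_lit 0) (nat_lit 1480748316) (nat_lit 760) (nat_lit 898613178) (nat_lit 76) (nat_lit 5742408221) (nat_lit 354) (nat_lit 5) (nat_lit 364) (nat_lit 5) (nat_lit 355) (nat_lit 5) (nat_lit 436) (nat_lit 369) (nat_lit 335)) (XT.lf (nat_lit 0) (nat_lit 4635962265) (nat_lit 760) (nat_lit 3002189014) (nat_lit 76) (nat_lit 549356059) (nat_lit 345)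 (nat_lit 5) (nat_lit 355) (nat_lit 5) (nat_lit 346) (nat_lit 5) (nat_lit 437) (nat_lit 369) (nat_lit 334))))))))
noncomputable def xc32 : XT := (XT.nd (nat_lit 1482) (nat_lit 4560) (nat_lit 0) (XT.nd (nat_lit 702) (nat_lit 4028) (nat_lit 0) (XT.nd (nat_lit 312) (nat_lit 2432) (nat_lit 0) (XT.nd (nat_lit 156) (nat_lit 684) (nat_lit 0) (XT.nd (nat_lit 78) (nat_lit 760) (nat_lit 0) (XT.lf (nat_lit 0) (nat_lit 3113243989) (nat_lit 684) (nat_lit 4734643720) (nat_lit 760) (nat_lit 406799863) (nat_lit 336) (nat_lit 5) (nat_lit 345) (nat_lit 5) (nat_lit 346) (nat_lit 5) (nat_lit 438) (nat_lit 369) (nat_lit 333)) (XT.lf (nat_lit 0) (nat_lit 1003006486) (nat_lit 684) (nat_lit 1739701289) (nat_lit 760) (nat_lit 5580567913) (nat_lit 326) (nat_lit 5) (nat_lit 335) (nat_lit 5) (nat_lit 336) (nat_lit 5) (nat_lit 439) (nat_lit 369) (nat_lit 332))) (XT.nd (nat_lit 78) (nat_lit 684) (nat_lit 0) (XT.lf (nat_lit 0) (nat_lit 5945312986) (nat_lit 760) (nat_lit 1125141224) (nat_lit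 76) (nat_lit 1322816491) (nat_lit 326) (nat_lit 5) (nat_lit 336) (nat_lit 5) (nat_lit 327) (nat_lit 5) (nat_lit 440) (nat_lit 369) (nat_lit 331)) (XT.lf (nat_lit 0) (nat_lit 735930475) (nat_lit 684) (nat_lit 3279070582) (nat_lit 76) (nat_lit 4449598979) (nat_lit 317) (nat_lit 5) (nat_lit 326) (nat_lit 5) (nat_lit 318) (nat_lit 5) (nat_lit 441) (nat_lit 369) (nat_lit 330)))) (XT.nd (nat_lit 156) (nat_lit 1216) (nat_lit 0) (XT.nd (nat_lit 78) (nat_lit 608) (nat_lit 0) (XT.lf (nat_lit 0) (nat_lit 3064187622) (nat_lit 608) (nat_lit 867496527) (nat_lit 684) (nat_lit 4605728873) (nat_lit 309) (nat_lit 5) (nat_lit 317) (nat_lit 5) (nat_lit 318) (nat_lit 5) (nat_lit 442) (nat_lit 369) (nat_lit 329)) (XT.lf (nat_lit 0) (nat_lit 903374062) (nat_lit 608) (nat_lit 6285081667) (nat_lit 684) (nat_lit 1423284481) (nat_lit 301) (nat_lit 5) (nat_lit 309) (nat_lit 5) (nat_lit 310) (nat_lit 5) (nat_lit 443) (nat_lit 369) (nat_lit 328))) (XT.nd (nat_lit 78) (nat_lit 1140) (nat_lit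 0) (XT.lf (nat_lit 0) (nat_lit 1795705536) (nat_lit 684) (nat_lit 1283790800) (nat_lit 76) (nat_lit 5607884844) (nat_lit 300) (nat_lit 5) (nat_lit 309) (nat_lit 5) (nat_lit 301) (nat_lit 5) (nat_lit 444) (nat_lit 369) (nat_lit 327)) (XT.nd (nat_lit 78) (nat_lit 532) (nat_lit 0) (XT.lf (nat_lit 0) (nat_lit 5050663074) (nat_lit 684) (nat_lit 3496684889) (nat_lit 76) (nat_lit 217185939) (nat_lit 292) (nat_lit 5) (nat_lit 301) (nat_lit 5) (nat_lit 293) (nat_lit 5) (nat_lit 445) (nat_lit 369) (nat_lit 326)) (XT.lf (nat_lit 0) (nat_lit 3084819345) (nat_lit 532) (nat_lit 5290384214) (nat_lit 608) (nat_lit 467936442) (nat_lit 285) (nat_lit 5) (nat_lit 292) (nat_lit 5) (nat_lit 293) (nat_lit 5) (nat_lit 446) (nat_lit 369) (nat_lit 325)))))) (XT.nd (nat_lit 390) (nat_lit 1672) (nat_lit 0) (XT.nd (nat_lit 156) (nat_lit 1672) (nat_lit 0) (XT.nd (nat_lit 78) (nat_lit 0) (nat_lit 0) (XT.lf (nat_lit 0) (nat_lit 854852178) (nat_lit 608) (nat_lit 1935533642) (nat_lit 684) (nat_lit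 6132868150) (nat_lit 276) (nat_lit 5) (nat_lit 284) (nat_lit 5) (nat_lit 285) (nat_lit 5) (nat_lit 447) (nat_lit 369) (nat_lit 324)) (XT.lf (nat_lit 0) (nat_lit 6112125996) (nat_lit 684) (nat_lit 1399486991) (nat_lit 76) (nat_lit 1493205027) (nat_lit 276) (nat_lit 5) (nat_lit 285) (nat_lit 5) (nat_lit 277) (nat_lit 5) (nat_lit 448) (nat_lit 369) (nat_lit 323))) (XT.nd (nat_lit 78) (nat_lit 1064) (nat_lit 0) (XT.lf (nat_lit 0) (nat_lit 411625825) (nat_lit 608) (nat_lit 3689238164) (nat_lit 76) (nat_lit 4987000905) (nat_lit 268) (nat_lit 5) (nat_lit 276) (nat_lit 5) (nat_lit 269) (nat_lit 5) (nat_lit 449) (nat_lit 369) (nat_lit 322)) (XT.nd (nat_lit 78) (nat_lit 532) (nat_lit 0) (XT.lf (nat_lit 0) (nat_lit 3141652966) (nat_lit 532) (nat_lit 588538306) (nat_lit 608) (nat_lit 5442261139) (nat_lit 261) (nat_lit 5) (nat_lit 268) (nat_lit 5) (nat_lit 269) (nat_lit 5) (nat_lit 450) (nat_lit 369) (nat_lit 321)) (XT.lf (nat_lit 0) (nat_lit 832276606) (nat_lit 532) (nat_lit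 6289972127) (nat_lit 608) (nat_lit 2136340530) (nat_lit 254) (nat_lit 5) (nat_lit 261) (nat_lit 5) (nat_lit 262) (nat_lit 5) (nat_lit 451) (nat_lit 369) (nat_lit 320))))) (XT.nd (nat_lit 156) (nat_lit 1064) (nat_lit 0) (XT.nd (nat_lit 78) (nat_lit 532) (nat_lit 0) (XT.lf (nat_lit 0) (nat_lit 1221654523) (nat_lit 608) (nat_lit 1503604317) (nat_lit 76) (nat_lit 6620986304) (nat_lit 253) (nat_lit 5) (nat_lit 261) (nat_lit 5) (nat_lit 254) (nat_lit 5) (nat_lit 452) (nat_lit 369) (nat_lit 319)) (XT.lf (nat_lit 0) (nat_lit 4618805692) (nat_lit 608) (nat_lit 3884280353) (nat_lit 76) (nat_lit 932273636) (nat_lit 246) (nat_lit 5) (nat_lit 254) (nat_lit 5) (nat_lit 247) (nat_lit 5) (nat_lit 453) (nat_lit 369) (nat_lit 318))) (XT.nd (nat_lit 78) (nat_lit 608) (nat_lit 0) (XT.lf (nat_lit 0) (nat_lit 3205830101) (nat_lit 456) (nat_lit 4885772234) (nat_lit 532) (nat_lit 1434500125) (nat_lit 240) (nat_lit 5) (nat_lit 246) (nat_lit 5) (nat_lit 247) (nat_lit 5) (nat_lit 454)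 (nat_lit 369) (nat_lit 317)) (XT.nd (nat_lit 78) (nat_lit 0) (nat_lit 0) (XT.lf (nat_lit 0) (nat_lit 810184840) (nat_lit 532) (nat_lit 1168918948) (nat_lit 608) (nat_lit 7639487856) (nat_lit 232) (nat_lit 5) (nat_lit 239) (nat_lit 5) (nat_lit 240) (nat_lit 5) (nat_lit 455) (nat_lit 369) (nat_lit 316)) (XT.lf (nat_lit 0) (nat_lit 5460653472) (nat_lit 608) (nat_lit 1629710091) (nat_lit 76) (nat_lit 2621999774) (nat_lit 232) (nat_lit 5) (nat_lit 240) (nat_lit 5) (nat_lit 233) (nat_lit 5) (nat_lit 456) (nat_lit 369) (nat_lit 315))))))) (XT.nd (nat_lit 702) (nat_lit 1292) (nat_lit 0) (XT.nd (nat_lit 312) (nat_lit 1824) (nat_lit 0) (XT.nd (nat_lit 156) (nat_lit 456) (nat_lit 0) (XT.nd (nat_lit 78) (nat_lit 532) (nat_lit 0) (XT.lf (nat_lit 0) (nat_lit 5701015228) (nat_lit 456) (nat_lit 3315520894) (nat_lit 532) (nat_lit 791380302) (nat_lit 226) (nat_lit 5) (nat_lit 232) (nat_lit 5) (nat_lit 233) (nat_lit 5) (nat_lit 457) (nat_lit 369) (nat_lit 314)) (XT.lf (nat_lit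 0) (nat_lit 2698201015) (nat_lit 532) (nat_lit 6647370621) (nat_lit 76) (nat_lit 559534248) (nat_lit 219) (nat_lit 5) (nat_lit 226) (nat_lit 5) (nat_lit 220) (nat_lit 5) (nat_lit 458) (nat_lit 369) (nat_lit 313))) (XT.nd (nat_lit 78) (nat_lit 0) (nat_lit 0) (XT.lf (nat_lit 0) (nat_lit 745036843) (nat_lit 456) (nat_lit 5516859370) (nat_lit 532) (nat_lit 3741939922) (nat_lit 213) (nat_lit 5) (nat_lit 219) (nat_lit 5) (nat_lit 220) (nat_lit 5) (nat_lit 459) (nat_lit 369) (nat_lit 312)) (XT.lf (nat_lit 0) (nat_lit 8316786926) (nat_lit 456) (nat_lit 1585454786) (nat_lit 532) (nat_lit 202191751) (nat_lit 213) (nat_lit 5) (nat_lit 219) (nat_lit 5) (nat_lit 220) (nat_lit 5) (nat_lit 460) (nat_lit 369) (nat_lit 311)))) (XT.nd (nat_lit 156) (nat_lit 912) (nat_lit 0) (XT.nd (nat_lit 78) (nat_lit 380) (nat_lit 0) (XT.lf (nat_lit 0) (nat_lit 3378795427) (nat_lit 532) (nat_lit 4393357315) (nat_lit 76) (nat_lit 2434144507) (nat_lit 206) (nat_lit 5) (nat_lit 213) (nat_lit 5)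 (nat_lit 207) (nat_lit 5) (nat_lit 461) (nat_lit 369) (nat_lit 310)) (XT.lf (nat_lit 0) (nat_lit 3252310478) (nat_lit 380) (nat_lit 3781622079) (nat_lit 456) (nat_lit 3276134273) (nat_lit 201) (nat_lit 5) (nat_lit 206) (nat_lit 5) (nat_lit 207) (nat_lit 5) (nat_lit 462) (nat_lit 369) (nat_lit 309))) (XT.nd (nat_lit 78) (nat_lit 380) (nat_lit 0) (XT.lf (nat_lit 0) (nat_lit 339222929) (nat_lit 532) (nat_lit 9775195094) (nat_lit 76) (nat_lit 301498745) (nat_lit 194) (nat_lit 5) (nat_lit 201) (nat_lit 5) (nat_lit 195) (nat_lit 5) (nat_lit 463) (nat_lit 369) (nat_lit 308)) (XT.nd (nat_lit 78) (nat_lit 380) (nat_lit 0) (XT.lf (nat_lit 0) (nat_lit 4017694636) (nat_lit 532) (nat_lit 2039760345) (nat_lit 76) (nat_lit 4465302122) (nat_lit 194) (nat_lit 5) (nat_lit 201) (nat_lit 5) (nat_lit 195) (nat_lit 5) (nat_lit 464) (nat_lit 369) (nat_lit 307)) (XT.lf (nat_lit 0) (nat_lit 5869908082) (nat_lit 380) (nat_lit 1900600822) (nat_lit 456) (nat_lit 2861209878) (nat_lit 189)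 (nat_lit 5) (nat_lit 194) (nat_lit 5) (nat_lit 195) (nat_lit 5) (nat_lit 465) (nat_lit 369) (nat_lit 306)))))) (XT.nd (nat_lit 54288) (nat_lit 0) (nat_lit 39748) (XT.nd (nat_lit 156) (nat_lit 456) (nat_lit 0) (XT.nd (nat_lit 78) (nat_lit 380) (nat_lit 0) (XT.lf (nat_lit 0) (nat_lit 856965731) (nat_lit 456) (nat_lit 7556522930) (nat_lit 76) (nat_lit 2329006617) (nat_lit 183) (nat_lit 5) (nat_lit 189) (nat_lit 5) (nat_lit 184) (nat_lit 5) (nat_lit 466) (nat_lit 369) (nat_lit 305)) (XT.lf (nat_lit 0) (nat_lit 418347363) (nat_lit 380) (nat_lit 4203355389) (nat_lit 456) (nat_lit 6233196110) (nat_lit 178) (nat_lit 5) (nat_lit 183) (nat_lit 5) (nat_lit 184) (nat_lit 5) (nat_lit 467) (nat_lit 369) (nat_lit 304))) (XT.nd (nat_lit 78) (nat_lit 456) (nat_lit 0) (XT.lf (nat_lit 0) (nat_lit 8476591797) (nat_lit 456) (nat_lit 2372337794) (nat_lit 76) (nat_lit 120323781) (nat_lit 178) (nat_lit 5) (nat_lit 184) (nat_lit 5) (nat_lit 179) (nat_lit 5) (nat_lit 468) (nat_lit 369)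 (nat_lit 303)) (XT.nd (nat_lit 53976) (nat_lit 0) (nat_lit 42940) (XT.lf (nat_lit 0) (nat_lit 1335264004) (nat_lit 456) (nat_lit 5248985037) (nat_lit 76) (nat_lit 4500875624) (nat_lit 172) (nat_lit 5) (nat_lit 178) (nat_lit 5) (nat_lit 173) (nat_lit 5) (nat_lit 469) (nat_lit 369) (nat_lit 302)) (XT.lf (nat_lit 0) (nat_lit 1539233435) (nat_lit 836) (nat_lit 888298796) (nat_lit 836) (nat_lit 888298796) (nat_lit 737) (nat_lit 4) (nat_lit 748) (nat_lit 5) (nat_lit 748) (nat_lit 4) (nat_lit 400) (nat_lit 370) (nat_lit 370))))) (XT.nd (nat_lit 156) (nat_lit 2204) (nat_lit 0) (XT.nd (nat_lit 78) (nat_lit 0) (nat_lit 0) (XT.lf (nat_lit 0) (nat_lit 731579736) (nat_lit 912) (nat_lit 792216276) (nat_lit 988) (nat_lit 5127561650) (nat_lit 724) (nat_lit 5) (nat_lit 736) (nat_lit 5) (nat_lit 737) (nat_lit 4) (nat_lit 401) (nat_lit 370) (nat_lit 369)) (XT.lf (nat_lit 0) (nat_lit 4817683371) (nat_lit 988) (nat_lit 1592669930) (nat_lit 0) (nat_lit 261833521) (nat_lit 724) (nat_lit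 5) (nat_lit 737) (nat_lit 4) (nat_lit 724) (nat_lit 4) (nat_lit 402) (nat_lit 370) (nat_lit 368))) (XT.nd (nat_lit 78) (nat_lit 1140) (nat_lit 0) (XT.lf (nat_lit 0) (nat_lit 1414947901) (nat_lit 1064) (nat_lit 3908803338) (nat_lit 76) (nat_lit 1370480720) (nat_lit 710) (nat_lit 5) (nat_lit 724) (nat_lit 5) (nat_lit 711) (nat_lit 4) (nat_lit 403) (nat_lit 370) (nat_lit 367)) (XT.nd (nat_lit 78) (nat_lit 76) (nat_lit 0) (XT.lf (nat_lit 0) (nat_lit 492231391) (nat_lit 1064) (nat_lit 4174611128) (nat_lit 1140) (nat_lit 2050792593) (nat_lit 696) (nat_lit 5) (nat_lit 710) (nat_lit 5) (nat_lit 711) (nat_lit 4) (nat_lit 404) (nat_lit 370) (nat_lit 366)) (XT.lf (nat_lit 0) (nat_lit 1180857083) (nat_lit 1140) (nat_lit 1773564026) (nat_lit 76) (nat_lit 3787826287) (nat_lit 695) (nat_lit 5) (nat_lit 710) (nat_lit 5) (nat_lit 696) (nat_lit 5) (nat_lit 405) (nat_lit 370) (nat_lit 365))))))))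
noncomputable def xc33 : XT := (XT.nd (nat_lit 1482) (nat_lit 10944) (nat_lit 0) (XT.nd (nat_lit 702) (nat_lit 10108) (nat_lit 0) (XT.nd (nat_lit 312) (nat_lit 4484) (nat_lit 0) (XT.nd (nat_lit 156) (nat_lit 1368) (nat_lit 0) (XT.nd (nat_lit 78) (nat_lit 1292) (nat_lit 0) (XT.lf (nat_lit 0) (nat_lit 2732097682) (nat_lit 1140) (nat_lit 1665225749) (nat_lit 1216) (nat_lit 2370804505) (nat_lit 680) (nat_lit 5) (nat_lit 695) (nat_lit 5) (nat_lit 696) (nat_lit 5) (nat_lit 406) (nat_lit 370) (nat_lit 364)) (XT.lf (nat_lit 0) (nat_lit 500360458) (nat_lit 1216) (nat_lit 317299189) (nat_lit 1292) (nat_lit 5977838600) (nat_lit 663) (nat_lit 5) (nat_lit 679) (nat_lit 5) (nat_lit 680) (nat_lit 5) (nat_lit 407) (nat_lit 370) (nat_lit 363))) (XT.nd (nat_lit 78) (nat_lit 1368) (nat_lit 0) (XT.lf (nat_lit 0) (nat_lit 4003794697) (nat_lit 1292) (nat_lit 1722505458) (nat_lit 76) (nat_lit 1097489455) (nat_lit 663) (nat_lit 5) (nat_lit 680) (nat_lit 5) (nat_lit 664) (nat_lit 5)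 (nat_lit 408) (nat_lit 370) (nat_lit 362)) (XT.lf (nat_lit 0) (nat_lit 349330591) (nat_lit 1368) (nat_lit 3936009284) (nat_lit 76) (nat_lit 2568183169) (nat_lit 645) (nat_lit 5) (nat_lit 663) (nat_lit 5) (nat_lit 646) (nat_lit 5) (nat_lit 409) (nat_lit 370) (nat_lit 361)))) (XT.nd (nat_lit 156) (nat_lit 3116) (nat_lit 0) (XT.nd (nat_lit 78) (nat_lit 0) (nat_lit 0) (XT.lf (nat_lit 0) (nat_lit 722364712) (nat_lit 1368) (nat_lit 2771614514) (nat_lit 1444) (nat_lit 3390505190) (nat_lit 627) (nat_lit 5) (nat_lit 645) (nat_lit 5) (nat_lit 646) (nat_lit 5) (nat_lit 410) (nat_lit 370) (nat_lit 360)) (XT.lf (nat_lit 0) (nat_lit 5469224542) (nat_lit 1368) (nat_lit 1192974846) (nat_lit 1444) (nat_lit 254652057) (nat_lit 627) (nat_lit 5) (nat_lit 645) (nat_lit 5) (nat_lit 646) (nat_lit 5) (nat_lit 411) (nat_lit 370) (nat_lit 359))) (XT.nd (nat_lit 78) (nat_lit 1596) (nat_lit 0) (XT.lf (nat_lit 0) (nat_lit 2865068057) (nat_lit 1520) (nat_lit 3625444862) (nat_lit 76) (nat_lit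 459775419) (nat_lit 607) (nat_lit 5) (nat_lit 627) (nat_lit 5) (nat_lit 608) (nat_lit 5) (nat_lit 412) (nat_lit 370) (nat_lit 358)) (XT.nd (nat_lit 78) (nat_lit 76) (nat_lit 0) (XT.lf (nat_lit 0) (nat_lit 1175247137) (nat_lit 1520) (nat_lit 4829908722) (nat_lit 1596) (nat_lit 979976784) (nat_lit 587) (nat_lit 5) (nat_lit 607) (nat_lit 5) (nat_lit 608) (nat_lit 5) (nat_lit 413) (nat_lit 370) (nat_lit 357)) (XT.lf (nat_lit 0) (nat_lit 2119701128) (nat_lit 1596) (nat_lit 972612448) (nat_lit 76) (nat_lit 3928855874) (nat_lit 586) (nat_lit 5) (nat_lit 607) (nat_lit 5) (nat_lit 587) (nat_lit 5) (nat_lit 414) (nat_lit 370) (nat_lit 356)))))) (XT.nd (nat_lit 390) (nat_lit 3116) (nat_lit 0) (XT.nd (nat_lit 156) (nat_lit 3648) (nat_lit 0) (XT.nd (nat_lit 78) (nat_lit 1748) (nat_lit 0) (XT.lf (nat_lit 0) (nat_lit 3948705079) (nat_lit 1596) (nat_lit 1282967623) (nat_lit 1672) (nat_lit 1826856298) (nat_lit 565) (nat_lit 5) (nat_lit 586) (nat_lit 5) (nat_lit 587) (nat_lit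 5) (nat_lit 415) (nat_lit 370) (nat_lit 355)) (XT.lf (nat_lit 0) (nat_lit 1252673383) (nat_lit 1748) (nat_lit 5258876570) (nat_lit 76) (nat_lit 585703849) (nat_lit 542) (nat_lit 5) (nat_lit 565) (nat_lit 5) (nat_lit 543) (nat_lit 5) (nat_lit 416) (nat_lit 370) (nat_lit 354))) (XT.nd (nat_lit 78) (nat_lit 3648) (nat_lit 0) (XT.lf (nat_lit 0) (nat_lit 4337923262) (nat_lit 1748) (nat_lit 288663955) (nat_lit 76) (nat_lit 2510552550) (nat_lit 542) (nat_lit 5) (nat_lit 565) (nat_lit 5) (nat_lit 543) (nat_lit 5) (nat_lit 417) (nat_lit 370) (nat_lit 353)) (XT.nd (nat_lit 78) (nat_lit 1824) (nat_lit 0) (XT.lf (nat_lit 0) (nat_lit 274168871) (nat_lit 1824) (nat_lit 2394613285) (nat_lit 76) (nat_lit 4509578596) (nat_lit 518) (nat_lit 5) (nat_lit 542) (nat_lit 5) (nat_lit 519) (nat_lit 5) (nat_lit 418) (nat_lit 370) (nat_lit 352)) (XT.lf (nat_lit 0) (nat_lit 2699470420) (nat_lit 1824) (nat_lit 632247731) (nat_lit 1900) (nat_lit 3889114397) (nat_lit 494) (nat_lit 5) (nat_lit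 518) (nat_lit 5) (nat_lit 519) (nat_lit 5) (nat_lit 419) (nat_lit 370) (nat_lit 351))))) (XT.nd (nat_lit 156) (nat_lit 1900) (nat_lit 0) (XT.nd (nat_lit 78) (nat_lit 76) (nat_lit 0) (XT.lf (nat_lit 0) (nat_lit 603161158) (nat_lit 1140) (nat_lit 5818185368) (nat_lit 1216) (nat_lit 843388690) (nat_lit 479) (nat_lit 5) (nat_lit 494) (nat_lit 5) (nat_lit 495) (nat_lit 5) (nat_lit 420) (nat_lit 370) (nat_lit 350)) (XT.lf (nat_lit 0) (nat_lit 2210134410) (nat_lit 1216) (nat_lit 1496235152) (nat_lit 76) (nat_lit 3603321170) (nat_lit 478) (nat_lit 5) (nat_lit 494) (nat_lit 5) (nat_lit 479) (nat_lit 5) (nat_lit 421) (nat_lit 370) (nat_lit 349))) (XT.nd (nat_lit 78) (nat_lit 988) (nat_lit 0) (XT.lf (nat_lit 0) (nat_lit 3757570448) (nat_lit 912) (nat_lit 1523249302) (nat_lit 988) (nat_lit 2075266416) (nat_lit 466) (nat_lit 5) (nat_lit 478) (nat_lit 5) (nat_lit 479) (nat_lit 5) (nat_lit 422) (nat_lit 370) (nat_lit 348)) (XT.nd (nat_lit 78) (nat_lit 0) (nat_lit 0) (XT.lf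 (nat_lit 0) (nat_lit 965431678) (nat_lit 988) (nat_lit 5718558587) (nat_lit 76) (nat_lit 719904910) (nat_lit 453) (nat_lit 5) (nat_lit 466) (nat_lit 5) (nat_lit 454) (nat_lit 5) (nat_lit 423) (nat_lit 370) (nat_lit 347)) (XT.lf (nat_lit 0) (nat_lit 4017636970) (nat_lit 988) (nat_lit 412141648) (nat_lit 76) (nat_lit 3023037775) (nat_lit 453) (nat_lit 5) (nat_lit 466) (nat_lit 5) (nat_lit 454) (nat_lit 5) (nat_lit 424) (nat_lit 370) (nat_lit 346))))))) (XT.nd (nat_lit 702) (nat_lit 4940) (nat_lit 0) (XT.nd (nat_lit 312) (nat_lit 3268) (nat_lit 0) (XT.nd (nat_lit 156) (nat_lit 912) (nat_lit 0) (XT.nd (nat_lit 78) (nat_lit 988) (nat_lit 0) (XT.lf (nat_lit 0) (nat_lit 5007630722) (nat_lit 836) (nat_lit 2100924858) (nat_lit 912) (nat_lit 394607072) (nat_lit 442) (nat_lit 5) (nat_lit 453) (nat_lit 5) (nat_lit 454) (nat_lit 5) (nat_lit 425) (nat_lit 370) (nat_lit 345)) (XT.lf (nat_lit 0) (nat_lit 2640721413) (nat_lit 988) (nat_lit 4607608759) (nat_lit 76) (nat_lit 306445289)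 (nat_lit 429) (nat_lit 5) (nat_lit 442) (nat_lit 5) (nat_lit 430) (nat_lit 5) (nat_lit 426) (nat_lit 370) (nat_lit 344))) (XT.nd (nat_lit 78) (nat_lit 76) (nat_lit 0) (XT.lf (nat_lit 0) (nat_lit 860663032) (nat_lit 836) (nat_lit 4853329106) (nat_lit 912) (nat_lit 1893725830) (nat_lit 418) (nat_lit 5) (nat_lit 429) (nat_lit 5) (nat_lit 430) (nat_lit 5) (nat_lit 427) (nat_lit 370) (nat_lit 343)) (XT.lf (nat_lit 0) (nat_lit 1149041438) (nat_lit 912) (nat_lit 1228023553) (nat_lit 76) (nat_lit 5284948192) (nat_lit 417) (nat_lit 5) (nat_lit 429) (nat_lit 5) (nat_lit 418) (nat_lit 5) (nat_lit 428) (nat_lit 370) (nat_lit 342)))) (XT.nd (nat_lit 156) (nat_lit 1672) (nat_lit 0) (XT.nd (nat_lit 78) (nat_lit 760) (nat_lit 0) (XT.lf (nat_lit 0) (nat_lit 4204542411) (nat_lit 912) (nat_lit 3331023486) (nat_lit 76) (nat_lit 182033349) (nat_lit 406) (nat_lit 5) (nat_lit 418) (nat_lit 5) (nat_lit 407) (nat_lit 5) (nat_lit 429) (nat_lit 370) (nat_lit 341)) (XT.lf (nat_lit 0) (nat_lit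 2311291130) (nat_lit 760) (nat_lit 4997041175) (nat_lit 836) (nat_lit 466221145) (nat_lit 396) (nat_lit 5) (nat_lit 406) (nat_lit 5) (nat_lit 407) (nat_lit 5) (nat_lit 430) (nat_lit 370) (nat_lit 340))) (XT.nd (nat_lit 78) (nat_lit 836) (nat_lit 0) (XT.lf (nat_lit 0) (nat_lit 205297048) (nat_lit 760) (nat_lit 2373874538) (nat_lit 836) (nat_lit 5253686846) (nat_lit 385) (nat_lit 5) (nat_lit 395) (nat_lit 5) (nat_lit 396) (nat_lit 5) (nat_lit 431) (nat_lit 370) (nat_lit 339)) (XT.nd (nat_lit 78) (nat_lit 836) (nat_lit 0) (XT.lf (nat_lit 0) (nat_lit 5667103868) (nat_lit 836) (nat_lit 1895678584) (nat_lit 76) (nat_lit 329727937) (nat_lit 385) (nat_lit 5) (nat_lit 396) (nat_lit 5) (nat_lit 386) (nat_lit 5) (nat_lit 432) (nat_lit 370) (nat_lit 338)) (XT.lf (nat_lit 0) (nat_lit 843284742) (nat_lit 836) (nat_lit 4031343306) (nat_lit 76) (nat_lit 3078791826) (nat_lit 374) (nat_lit 5) (nat_lit 385) (nat_lit 5) (nat_lit 375) (nat_lit 5) (nat_lit 433) (nat_lit 370) (nat_lit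 337)))))) (XT.nd (nat_lit 390) (nat_lit 1976) (nat_lit 0) (XT.nd (nat_lit 156) (nat_lit 2204) (nat_lit 0) (XT.nd (nat_lit 78) (nat_lit 0) (nat_lit 0) (XT.lf (nat_lit 0) (nat_lit 1816419106) (nat_lit 760) (nat_lit 2102037422) (nat_lit 836) (nat_lit 4097298727) (nat_lit 364) (nat_lit 5) (nat_lit 374) (nat_lit 5) (nat_lit 375) (nat_lit 5) (nat_lit 434) (nat_lit 370) (nat_lit 336)) (XT.lf (nat_lit 0) (nat_lit 7037886036) (nat_lit 836) (nat_lit 307608704) (nat_lit 76) (nat_lit 734187516) (nat_lit 364) (nat_lit 5) (nat_lit 375) (nat_lit 5) (nat_lit 365) (nat_lit 5) (nat_lit 435) (nat_lit 370) (nat_lit 335))) (XT.nd (nat_lit 78) (nat_lit 1444) (nat_lit 0) (XT.lf (nat_lit 0) (nat_lit 2050353315) (nat_lit 760) (nat_lit 2454008343) (nat_lit 76) (nat_lit 3640201746) (nat_lit 354) (nat_lit 5) (nat_lit 364) (nat_lit 5) (nat_lit 355) (nat_lit 5) (nat_lit 436) (nat_lit 370) (nat_lit 334)) (XT.nd (nat_lit 78) (nat_lit 760) (nat_lit 0) (XT.lf (nat_lit 0) (nat_lit 3583451479)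 (nat_lit 684) (nat_lit 1584327774) (nat_lit 760) (nat_lit 3043277535) (nat_lit 345) (nat_lit 5) (nat_lit 354) (nat_lit 5) (nat_lit 355) (nat_lit 5) (nat_lit 437) (nat_lit 370) (nat_lit 333)) (XT.lf (nat_lit 0) (nat_lit 55229212) (nat_lit 760) (nat_lit 6832576302) (nat_lit 76) (nat_lit 1391316485) (nat_lit 335) (nat_lit 5) (nat_lit 345) (nat_lit 5) (nat_lit 336) (nat_lit 5) (nat_lit 438) (nat_lit 370) (nat_lit 332))))) (XT.nd (nat_lit 156) (nat_lit 1292) (nat_lit 0) (XT.nd (nat_lit 78) (nat_lit 684) (nat_lit 0) (XT.lf (nat_lit 0) (nat_lit 3169500353) (nat_lit 760) (nat_lit 733383532) (nat_lit 76) (nat_lit 4445371433) (nat_lit 335) (nat_lit 5) (nat_lit 345) (nat_lit 5) (nat_lit 336) (nat_lit 5) (nat_lit 439) (nat_lit 370) (nat_lit 331)) (XT.lf (nat_lit 0) (nat_lit 5501602323) (nat_lit 684) (nat_lit 833855130) (nat_lit 760) (nat_lit 2083525839) (nat_lit 326) (nat_lit 5) (nat_lit 335) (nat_lit 5) (nat_lit 336) (nat_lit 5) (nat_lit 440) (nat_lit 370) (nat_lit 330)))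 (XT.nd (nat_lit 78) (nat_lit 608) (nat_lit 0) (XT.lf (nat_lit 0) (nat_lit 1055250279) (nat_lit 684) (nat_lit 5147751902) (nat_lit 76) (nat_lit 2288069774) (nat_lit 317) (nat_lit 5) (nat_lit 326) (nat_lit 5) (nat_lit 318) (nat_lit 5) (nat_lit 441) (nat_lit 370) (nat_lit 329)) (XT.nd (nat_lit 78) (nat_lit 0) (nat_lit 0) (XT.lf (nat_lit 0) (nat_lit 1141067439) (nat_lit 608) (nat_lit 3074852886) (nat_lit 684) (nat_lit 4348666288) (nat_lit 309) (nat_lit 5) (nat_lit 317) (nat_lit 5) (nat_lit 318) (nat_lit 5) (nat_lit 442) (nat_lit 370) (nat_lit 328)) (XT.lf (nat_lit 0) (nat_lit 7430108783) (nat_lit 684) (nat_lit 1073864056) (nat_lit 76) (nat_lit 135792624) (nat_lit 309) (nat_lit 5) (nat_lit 318) (nat_lit 5) (nat_lit 310) (nat_lit 5) (nat_lit 443) (nat_lit 370) (nat_lit 327))))))))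
noncomputable def xc34 : XT := (XT.nd (nat_lit 1482) (nat_lit 2584) (nat_lit 0) (XT.nd (nat_lit 702) (nat_lit 3572) (nat_lit 0) (XT.nd (nat_lit 312) (nat_lit 2356) (nat_lit 0) (XT.nd (nat_lit 156) (nat_lit 608) (nat_lit 0) (XT.nd (nat_lit 78) (nat_lit 608) (nat_lit 0) (XT.lf (nat_lit 0) (nat_lit 1977136222) (nat_lit 684) (nat_lit 3334337372) (nat_lit 76) (nat_lit 3404493007) (nat_lit 300) (nat_lit 5) (nat_lit 309) (nat_lit 5) (nat_lit 301) (nat_lit 5) (nat_lit 444) (nat_lit 370) (nat_lit 326)) (XT.lf (nat_lit 0) (nat_lit 3162172883) (nat_lit 608) (nat_lit 2032964382) (nat_lit 684) (nat_lit 3598721187) (nat_lit 292) (nat_lit 5) (nat_lit 300) (nat_lit 5) (nat_lit 301) (nat_lit 5) (nat_lit 445) (nat_lit 370) (nat_lit 325))) (XT.nd (nat_lit 78) (nat_lit 76) (nat_lit 0) (XT.lf (nat_lit 0) (nat_lit 905286325) (nat_lit 532) (nat_lit 7565389538) (nat_lit 608) (nat_lit 402768726) (nat_lit 285) (nat_lit 5) (nat_lit 292) (nat_lit 5) (nat_lit 293) (nat_lit 5) (nat_lit 446)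 (nat_lit 370) (nat_lit 324)) (XT.lf (nat_lit 0) (nat_lit 2827591746) (nat_lit 608) (nat_lit 1395861530) (nat_lit 76) (nat_lit 4730638961) (nat_lit 284) (nat_lit 5) (nat_lit 292) (nat_lit 5) (nat_lit 285) (nat_lit 5) (nat_lit 447) (nat_lit 370) (nat_lit 323)))) (XT.nd (nat_lit 156) (nat_lit 1140) (nat_lit 0) (XT.nd (nat_lit 78) (nat_lit 608) (nat_lit 0) (XT.lf (nat_lit 0) (nat_lit 5317038169) (nat_lit 608) (nat_lit 791963976) (nat_lit 684) (nat_lit 2927460732) (nat_lit 276) (nat_lit 5) (nat_lit 284) (nat_lit 5) (nat_lit 285) (nat_lit 5) (nat_lit 448) (nat_lit 370) (nat_lit 322)) (XT.lf (nat_lit 0) (nat_lit 335523666) (nat_lit 608) (nat_lit 6096002599) (nat_lit 76) (nat_lit 2688823796) (nat_lit 268) (nat_lit 5) (nat_lit 276) (nat_lit 5) (nat_lit 269) (nat_lit 5) (nat_lit 449) (nat_lit 370) (nat_lit 321))) (XT.nd (nat_lit 78) (nat_lit 608) (nat_lit 0) (XT.lf (nat_lit 0) (nat_lit 673583450) (nat_lit 532) (nat_lit 2943614982) (nat_lit 608) (nat_lit 5588476959) (nat_lit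 261) (nat_lit 5) (nat_lit 268) (nat_lit 5) (nat_lit 269) (nat_lit 5) (nat_lit 450) (nat_lit 370) (nat_lit 320)) (XT.nd (nat_lit 78) (nat_lit 608) (nat_lit 0) (XT.lf (nat_lit 0) (nat_lit 6967865053) (nat_lit 608) (nat_lit 1693746439) (nat_lit 76) (nat_lit 631028567) (nat_lit 261) (nat_lit 5) (nat_lit 269) (nat_lit 5) (nat_lit 262) (nat_lit 5) (nat_lit 451) (nat_lit 370) (nat_lit 319)) (XT.lf (nat_lit 0) (nat_lit 1003860567) (nat_lit 608) (nat_lit 4114301059) (nat_lit 76) (nat_lit 4262795399) (nat_lit 253) (nat_lit 5) (nat_lit 261) (nat_lit 5) (nat_lit 254) (nat_lit 5) (nat_lit 452) (nat_lit 370) (nat_lit 318)))))) (XT.nd (nat_lit 390) (nat_lit 1520) (nat_lit 0) (XT.nd (nat_lit 156) (nat_lit 1064) (nat_lit 0) (XT.nd (nat_lit 78) (nat_lit 456) (nat_lit 0) (XT.lf (nat_lit 0) (nat_lit 2882947600) (nat_lit 532) (nat_lit 1474357088) (nat_lit 608) (nat_lit 5113641016) (nat_lit 246) (nat_lit 5) (nat_lit 253) (nat_lit 5) (nat_lit 254) (nat_lit 5) (nat_lit 453) (nat_lit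 370) (nat_lit 317)) (XT.lf (nat_lit 0) (nat_lit 446725780) (nat_lit 456) (nat_lit 7335836309) (nat_lit 532) (nat_lit 1780077179) (nat_lit 240) (nat_lit 5) (nat_lit 246) (nat_lit 5) (nat_lit 247) (nat_lit 5) (nat_lit 454) (nat_lit 370) (nat_lit 316))) (XT.nd (nat_lit 78) (nat_lit 988) (nat_lit 0) (XT.lf (nat_lit 0) (nat_lit 1612822163) (nat_lit 532) (nat_lit 2022687400) (nat_lit 76) (nat_lit 6020168501) (nat_lit 239) (nat_lit 5) (nat_lit 246) (nat_lit 5) (nat_lit 240) (nat_lit 5) (nat_lit 455) (nat_lit 370) (nat_lit 315)) (XT.nd (nat_lit 78) (nat_lit 456) (nat_lit 0) (XT.lf (nat_lit 0) (nat_lit 5045133118) (nat_lit 608) (nat_lit 4539709498) (nat_lit 76) (nat_lit 165591915) (nat_lit 232) (nat_lit 5) (nat_lit 240) (nat_lit 5) (nat_lit 233) (nat_lit 5) (nat_lit 456) (nat_lit 370) (nat_lit 314)) (XT.lf (nat_lit 0) (nat_lit 2723537207) (nat_lit 456) (nat_lit 5838706892) (nat_lit 532) (nat_lit 1284518953) (nat_lit 226) (nat_lit 5) (nat_lit 232) (nat_lit 5) (nat_lit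 233) (nat_lit 5) (nat_lit 457) (nat_lit 370) (nat_lit 313))))) (XT.nd (nat_lit 156) (nat_lit 988) (nat_lit 0) (XT.nd (nat_lit 78) (nat_lit 0) (nat_lit 0) (XT.lf (nat_lit 0) (nat_lit 179446782) (nat_lit 456) (nat_lit 1989021843) (nat_lit 532) (nat_lit 7776409150) (nat_lit 219) (nat_lit 5) (nat_lit 225) (nat_lit 5) (nat_lit 226) (nat_lit 5) (nat_lit 458) (nat_lit 370) (nat_lit 312)) (XT.lf (nat_lit 0) (nat_lit 5695179626) (nat_lit 532) (nat_lit 2398516255) (nat_lit 76) (nat_lit 1950651829) (nat_lit 219) (nat_lit 5) (nat_lit 226) (nat_lit 5) (nat_lit 220) (nat_lit 5) (nat_lit 459) (nat_lit 370) (nat_lit 311))) (XT.nd (nat_lit 78) (nat_lit 532) (nat_lit 0) (XT.lf (nat_lit 0) (nat_lit 5112911715) (nat_lit 456) (nat_lit 4187793239) (nat_lit 532) (nat_lit 844936487) (nat_lit 213) (nat_lit 5) (nat_lit 219) (nat_lit 5) (nat_lit 220) (nat_lit 5) (nat_lit 460) (nat_lit 370) (nat_lit 310)) (XT.nd (nat_lit 78) (nat_lit 0) (nat_lit 0) (XT.lf (nat_lit 0) (nat_lit 2516781294)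 (nat_lit 456) (nat_lit 171387361) (nat_lit 532) (nat_lit 7560546270) (nat_lit 206) (nat_lit 5) (nat_lit 212) (nat_lit 5) (nat_lit 213) (nat_lit 5) (nat_lit 461) (nat_lit 370) (nat_lit 309)) (XT.lf (nat_lit 0) (nat_lit 6302412373) (nat_lit 532) (nat_lit 156072982) (nat_lit 76) (nat_lit 3894817018) (nat_lit 206) (nat_lit 5) (nat_lit 213) (nat_lit 5) (nat_lit 207) (nat_lit 5) (nat_lit 462) (nat_lit 370) (nat_lit 308))))))) (XT.nd (nat_lit 54444) (nat_lit 0) (nat_lit 35948) (XT.nd (nat_lit 312) (nat_lit 1292) (nat_lit 0) (XT.nd (nat_lit 156) (nat_lit 380) (nat_lit 0) (XT.nd (nat_lit 78) (nat_lit 532) (nat_lit 0) (XT.lf (nat_lit 0) (nat_lit 7614053224) (nat_lit 380) (nat_lit 2388495221) (nat_lit 456) (nat_lit 457160976) (nat_lit 201) (nat_lit 5) (nat_lit 206) (nat_lit 5) (nat_lit 207) (nat_lit 5) (nat_lit 463) (nat_lit 370) (nat_lit 307)) (XT.lf (nat_lit 0) (nat_lit 3174469116) (nat_lit 532) (nat_lit 5617968206) (nat_lit 76) (nat_lit 1775228546) (nat_lit 194) (nat_lit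 5) (nat_lit 201) (nat_lit 5) (nat_lit 195) (nat_lit 5) (nat_lit 464) (nat_lit 370) (nat_lit 306))) (XT.nd (nat_lit 78) (nat_lit 0) (nat_lit 0) (XT.lf (nat_lit 0) (nat_lit 2215889361) (nat_lit 380) (nat_lit 4669547885) (nat_lit 456) (nat_lit 3792027224) (nat_lit 189) (nat_lit 5) (nat_lit 194) (nat_lit 5) (nat_lit 195) (nat_lit 5) (nat_lit 465) (nat_lit 370) (nat_lit 305)) (XT.lf (nat_lit 0) (nat_lit 10226614482) (nat_lit 380) (nat_lit 445458114) (nat_lit 456) (nat_lit 117357492) (nat_lit 189) (nat_lit 5) (nat_lit 194) (nat_lit 5) (nat_lit 195) (nat_lit 5) (nat_lit 466) (nat_lit 370) (nat_lit 304)))) (XT.nd (nat_lit 156) (nat_lit 456) (nat_lit 0) (XT.nd (nat_lit 78) (nat_lit 380) (nat_lit 0) (XT.lf (nat_lit 0) (nat_lit 3621627722) (nat_lit 456) (nat_lit 3414791243) (nat_lit 76) (nat_lit 3865975766) (nat_lit 183) (nat_lit 5) (nat_lit 189) (nat_lit 5) (nat_lit 184) (nat_lit 5) (nat_lit 467) (nat_lit 370) (nat_lit 303)) (XT.lf (nat_lit 0) (nat_lit 4691333942) (nat_lit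 380) (nat_lit 2744141287) (nat_lit 456) (nat_lit 3582094842) (nat_lit 178) (nat_lit 5) (nat_lit 183) (nat_lit 5) (nat_lit 184) (nat_lit 5) (nat_lit 468) (nat_lit 370) (nat_lit 302))) (XT.nd (nat_lit 53820) (nat_lit 0) (nat_lit 43776) (XT.lf (nat_lit 0) (nat_lit 198318895) (nat_lit 456) (nat_lit 9307414332) (nat_lit 76) (nat_lit 1629085603) (nat_lit 172) (nat_lit 5) (nat_lit 178) (nat_lit 5) (nat_lit 173) (nat_lit 5) (nat_lit 469) (nat_lit 370) (nat_lit 301)) (XT.nd (nat_lit 78) (nat_lit 0) (nat_lit 0) (XT.lf (nat_lit 0) (nat_lit 312290560) (nat_lit 836) (nat_lit 2673315549) (nat_lit 0) (nat_lit 312290560) (nat_lit 748) (nat_lit 5) (nat_lit 759) (nat_lit 4) (nat_lit 748) (nat_lit 4) (nat_lit 398) (nat_lit 371) (nat_lit 371)) (XT.lf (nat_lit 0) (nat_lit 3912464086) (nat_lit 836) (nat_lit 1181865454) (nat_lit 0) (nat_lit 1519046112) (nat_lit 748) (nat_lit 5) (nat_lit 759) (nat_lit 4) (nat_lit 748) (nat_lit 4) (nat_lit 399) (nat_lit 371) (nat_lit 370)))))) (XT.nd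 (nat_lit 390) (nat_lit 3800) (nat_lit 0) (XT.nd (nat_lit 156) (nat_lit 2204) (nat_lit 0) (XT.nd (nat_lit 78) (nat_lit 912) (nat_lit 0) (XT.lf (nat_lit 0) (nat_lit 571431741) (nat_lit 912) (nat_lit 3585614065) (nat_lit 76) (nat_lit 2475282133) (nat_lit 736) (nat_lit 5) (nat_lit 748) (nat_lit 5) (nat_lit 737) (nat_lit 4) (nat_lit 400) (nat_lit 371) (nat_lit 369)) (XT.lf (nat_lit 0) (nat_lit 658814749) (nat_lit 912) (nat_lit 3152670186) (nat_lit 988) (nat_lit 2841048712) (nat_lit 724) (nat_lit 5) (nat_lit 736) (nat_lit 5) (nat_lit 737) (nat_lit 4) (nat_lit 401) (nat_lit 371) (nat_lit 368))) (XT.nd (nat_lit 78) (nat_lit 2128) (nat_lit 0) (XT.lf (nat_lit 0) (nat_lit 388340754) (nat_lit 988) (nat_lit 1695837455) (nat_lit 76) (nat_lit 4589888558) (nat_lit 723) (nat_lit 5) (nat_lit 736) (nat_lit 5) (nat_lit 724) (nat_lit 5) (nat_lit 402) (nat_lit 371) (nat_lit 367)) (XT.nd (nat_lit 78) (nat_lit 1140) (nat_lit 0) (XT.lf (nat_lit 0) (nat_lit 2648158557) (nat_lit 988) (nat_lit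 941520422) (nat_lit 1064) (nat_lit 3107067931) (nat_lit 710) (nat_lit 5) (nat_lit 723) (nat_lit 5) (nat_lit 724) (nat_lit 5) (nat_lit 403) (nat_lit 371) (nat_lit 366)) (XT.lf (nat_lit 0) (nat_lit 77384974) (nat_lit 1140) (nat_lit 6393266191) (nat_lit 76) (nat_lit 250332053) (nat_lit 695) (nat_lit 5) (nat_lit 710) (nat_lit 5) (nat_lit 696) (nat_lit 5) (nat_lit 404) (nat_lit 371) (nat_lit 365))))) (XT.nd (nat_lit 156) (nat_lit 2660) (nat_lit 0) (XT.nd (nat_lit 78) (nat_lit 1140) (nat_lit 0) (XT.lf (nat_lit 0) (nat_lit 3247425034) (nat_lit 1140) (nat_lit 1983189782) (nat_lit 76) (nat_lit 1515408646) (nat_lit 695) (nat_lit 5) (nat_lit 710) (nat_lit 5) (nat_lit 696) (nat_lit 5) (nat_lit 405) (nat_lit 371) (nat_lit 364)) (XT.lf (nat_lit 0) (nat_lit 2491425088) (nat_lit 1140) (nat_lit 3936871233) (nat_lit 1216) (nat_lit 344319581) (nat_lit 680) (nat_lit 5) (nat_lit 695) (nat_lit 5) (nat_lit 696) (nat_lit 5) (nat_lit 406) (nat_lit 371) (nat_lit 363))) (XT.nd (nat_lit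 78) (nat_lit 1368) (nat_lit 0) (XT.lf (nat_lit 0) (nat_lit 210079900) (nat_lit 1216) (nat_lit 2571835068) (nat_lit 1292) (nat_lit 4018521137) (nat_lit 663) (nat_lit 5) (nat_lit 679) (nat_lit 5) (nat_lit 680) (nat_lit 5) (nat_lit 407) (nat_lit 371) (nat_lit 362)) (XT.nd (nat_lit 78) (nat_lit 1368) (nat_lit 0) (XT.lf (nat_lit 0) (nat_lit 4790397928) (nat_lit 1216) (nat_lit 1137145068) (nat_lit 1292) (nat_lit 901994612) (nat_lit 663) (nat_lit 5) (nat_lit 679) (nat_lit 5) (nat_lit 680) (nat_lit 5) (nat_lit 408) (nat_lit 371) (nat_lit 361)) (XT.lf (nat_lit 0) (nat_lit 2199693739) (nat_lit 1368) (nat_lit 4296617713) (nat_lit 76) (nat_lit 363560177) (nat_lit 645) (nat_lit 5) (nat_lit 663) (nat_lit 5) (nat_lit 646) (nat_lit 5) (nat_lit 409) (nat_lit 371) (nat_lit 360))))))))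
noncomputable def xc35 : XT := (XT.nd (nat_lit 1482) (nat_lit 10108) (nat_lit 0) (XT.nd (nat_lit 702) (nat_lit 7676) (nat_lit 0) (XT.nd (nat_lit 312) (nat_lit 5168) (nat_lit 0) (XT.nd (nat_lit 156) (nat_lit 3040) (nat_lit 0) (XT.nd (nat_lit 78) (nat_lit 76) (nat_lit 0) (XT.lf (nat_lit 0) (nat_lit 328233646) (nat_lit 1368) (nat_lit 4981194650) (nat_lit 1444) (nat_lit 1582102987) (nat_lit 627) (nat_lit 5) (nat_lit 645) (nat_lit 5) (nat_lit 646) (nat_lit 5) (nat_lit 410) (nat_lit 371) (nat_lit 359)) (XT.lf (nat_lit 0) (nat_lit 1501257569) (nat_lit 1444) (nat_lit 1887486603) (nat_lit 76) (nat_lit 3535594676) (nat_lit 626) (nat_lit 5) (nat_lit 645) (nat_lit 5) (nat_lit 627) (nat_lit 5) (nat_lit 411) (nat_lit 371) (nat_lit 358))) (XT.nd (nat_lit 78) (nat_lit 1596) (nat_lit 0) (XT.lf (nat_lit 0) (nat_lit 2852142592) (nat_lit 1444) (nat_lit 1727896166) (nat_lit 1520) (nat_lit 2378455900) (nat_lit 607) (nat_lit 5) (nat_lit 626) (nat_lit 5) (nat_lit 627) (nat_lit 5) (nat_lit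 412) (nat_lit 371) (nat_lit 357)) (XT.lf (nat_lit 0) (nat_lit 665905117) (nat_lit 1520) (nat_lit 5561170) (nat_lit 1596) (nat_lit 6322694086) (nat_lit 586) (nat_lit 5) (nat_lit 606) (nat_lit 5) (nat_lit 607) (nat_lit 5) (nat_lit 413) (nat_lit 371) (nat_lit 356)))) (XT.nd (nat_lit 156) (nat_lit 3572) (nat_lit 0) (XT.nd (nat_lit 78) (nat_lit 1596) (nat_lit 0) (XT.lf (nat_lit 0) (nat_lit 3727449639) (nat_lit 1596) (nat_lit 1526021155) (nat_lit 76) (nat_lit 1777215974) (nat_lit 586) (nat_lit 5) (nat_lit 607) (nat_lit 5) (nat_lit 587) (nat_lit 5) (nat_lit 414) (nat_lit 371) (nat_lit 355)) (XT.lf (nat_lit 0) (nat_lit 3359418354) (nat_lit 1596) (nat_lit 3445974972) (nat_lit 1672) (nat_lit 263333549) (nat_lit 565) (nat_lit 5) (nat_lit 586) (nat_lit 5) (nat_lit 587) (nat_lit 5) (nat_lit 415) (nat_lit 371) (nat_lit 354))) (XT.nd (nat_lit 78) (nat_lit 1824) (nat_lit 0) (XT.lf (nat_lit 0) (nat_lit 1195830165) (nat_lit 1672) (nat_lit 1561820900) (nat_lit 1748) (nat_lit 4350358367)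 (nat_lit 542) (nat_lit 5) (nat_lit 564) (nat_lit 5) (nat_lit 565) (nat_lit 5) (nat_lit 416) (nat_lit 371) (nat_lit 353)) (XT.nd (nat_lit 78) (nat_lit 1824) (nat_lit 0) (XT.lf (nat_lit 0) (nat_lit 5803186268) (nat_lit 1748) (nat_lit 960603238) (nat_lit 76) (nat_lit 384900184) (nat_lit 542) (nat_lit 5) (nat_lit 565) (nat_lit 5) (nat_lit 543) (nat_lit 5) (nat_lit 417) (nat_lit 371) (nat_lit 352)) (XT.lf (nat_lit 0) (nat_lit 1674993048) (nat_lit 1824) (nat_lit 3125507815) (nat_lit 76) (nat_lit 2389897508) (nat_lit 518) (nat_lit 5) (nat_lit 542) (nat_lit 5) (nat_lit 519) (nat_lit 5) (nat_lit 418) (nat_lit 371) (nat_lit 351)))))) (XT.nd (nat_lit 390) (nat_lit 2736) (nat_lit 0) (XT.nd (nat_lit 156) (nat_lit 3040) (nat_lit 0) (XT.nd (nat_lit 78) (nat_lit 76) (nat_lit 0) (XT.lf (nat_lit 0) (nat_lit 1930075335) (nat_lit 1824) (nat_lit 2768674249) (nat_lit 1900) (nat_lit 2534796437) (nat_lit 494) (nat_lit 5) (nat_lit 518) (nat_lit 5) (nat_lit 519) (nat_lit 5) (nat_lit 419)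 (nat_lit 371) (nat_lit 350)) (XT.lf (nat_lit 0) (nat_lit 462128323) (nat_lit 1900) (nat_lit 209198484) (nat_lit 76) (nat_lit 6606897537) (nat_lit 493) (nat_lit 5) (nat_lit 518) (nat_lit 5) (nat_lit 494) (nat_lit 5) (nat_lit 420) (nat_lit 371) (nat_lit 349))) (XT.nd (nat_lit 78) (nat_lit 1900) (nat_lit 0) (XT.lf (nat_lit 0) (nat_lit 3470617178) (nat_lit 1216) (nat_lit 2354977801) (nat_lit 76) (nat_lit 1498154825) (nat_lit 478) (nat_lit 5) (nat_lit 494) (nat_lit 5) (nat_lit 479) (nat_lit 5) (nat_lit 421) (nat_lit 371) (nat_lit 348)) (XT.nd (nat_lit 78) (nat_lit 988) (nat_lit 0) (XT.lf (nat_lit 0) (nat_lit 2858628019) (nat_lit 912) (nat_lit 3649162545) (nat_lit 988) (nat_lit 863024913) (nat_lit 466) (nat_lit 5) (nat_lit 478) (nat_lit 5) (nat_lit 479) (nat_lit 5) (nat_lit 422) (nat_lit 371) (nat_lit 347)) (XT.lf (nat_lit 0) (nat_lit 727409874) (nat_lit 912) (nat_lit 1395880551) (nat_lit 988) (nat_lit 5295946327) (nat_lit 453) (nat_lit 5) (nat_lit 465) (nat_lit 5)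 (nat_lit 466) (nat_lit 5) (nat_lit 423) (nat_lit 371) (nat_lit 346))))) (XT.nd (nat_lit 156) (nat_lit 1824) (nat_lit 0) (XT.nd (nat_lit 78) (nat_lit 912) (nat_lit 0) (XT.lf (nat_lit 0) (nat_lit 5139282414) (nat_lit 988) (nat_lit 1405282049) (nat_lit 76) (nat_lit 924317773) (nat_lit 453) (nat_lit 5) (nat_lit 466) (nat_lit 5) (nat_lit 454) (nat_lit 5) (nat_lit 424) (nat_lit 371) (nat_lit 345)) (XT.lf (nat_lit 0) (nat_lit 668088801) (nat_lit 912) (nat_lit 3551743306) (nat_lit 76) (nat_lit 3299975249) (nat_lit 441) (nat_lit 5) (nat_lit 453) (nat_lit 5) (nat_lit 442) (nat_lit 5) (nat_lit 425) (nat_lit 371) (nat_lit 344))) (XT.nd (nat_lit 78) (nat_lit 912) (nat_lit 0) (XT.lf (nat_lit 0) (nat_lit 1847467305) (nat_lit 912) (nat_lit 1815152177) (nat_lit 988) (nat_lit 3909461891) (nat_lit 429) (nat_lit 5) (nat_lit 441) (nat_lit 5) (nat_lit 442) (nat_lit 5) (nat_lit 426) (nat_lit 371) (nat_lit 343)) (XT.nd (nat_lit 78) (nat_lit 912) (nat_lit 0) (XT.lf (nat_lit 0) (nat_lit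 6692384194) (nat_lit 988) (nat_lit 284697707) (nat_lit 76) (nat_lit 648812101) (nat_lit 429) (nat_lit 5) (nat_lit 442) (nat_lit 5) (nat_lit 430) (nat_lit 5) (nat_lit 427) (nat_lit 371) (nat_lit 342)) (XT.lf (nat_lit 0) (nat_lit 2068801196) (nat_lit 912) (nat_lit 2430611481) (nat_lit 76) (nat_lit 3181209110) (nat_lit 417) (nat_lit 5) (nat_lit 429) (nat_lit 5) (nat_lit 418) (nat_lit 5) (nat_lit 428) (nat_lit 371) (nat_lit 341))))))) (XT.nd (nat_lit 702) (nat_lit 4636) (nat_lit 0) (XT.nd (nat_lit 312) (nat_lit 3040) (nat_lit 0) (XT.nd (nat_lit 156) (nat_lit 760) (nat_lit 0) (XT.nd (nat_lit 78) (nat_lit 836) (nat_lit 0) (XT.lf (nat_lit 0) (nat_lit 3140410199) (nat_lit 836) (nat_lit 1949127436) (nat_lit 912) (nat_lit 2647365505) (nat_lit 406) (nat_lit 5) (nat_lit 417) (nat_lit 5) (nat_lit 418) (nat_lit 5) (nat_lit 429) (nat_lit 371) (nat_lit 340)) (XT.lf (nat_lit 0) (nat_lit 347666168) (nat_lit 836) (nat_lit 6784359491) (nat_lit 76) (nat_lit 662711112) (nat_lit 395)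 (nat_lit 5) (nat_lit 406) (nat_lit 5) (nat_lit 396) (nat_lit 5) (nat_lit 430) (nat_lit 371) (nat_lit 339))) (XT.nd (nat_lit 78) (nat_lit 760) (nat_lit 0) (XT.lf (nat_lit 0) (nat_lit 3360582703) (nat_lit 836) (nat_lit 1150398495) (nat_lit 76) (nat_lit 3342527245) (nat_lit 395) (nat_lit 5) (nat_lit 406) (nat_lit 5) (nat_lit 396) (nat_lit 5) (nat_lit 431) (nat_lit 371) (nat_lit 338)) (XT.lf (nat_lit 0) (nat_lit 4599371863) (nat_lit 760) (nat_lit 1814681241) (nat_lit 836) (nat_lit 1499796534) (nat_lit 385) (nat_lit 5) (nat_lit 395) (nat_lit 5) (nat_lit 396) (nat_lit 5) (nat_lit 432) (nat_lit 371) (nat_lit 337)))) (XT.nd (nat_lit 156) (nat_lit 1444) (nat_lit 0) (XT.nd (nat_lit 78) (nat_lit 760) (nat_lit 0) (XT.lf (nat_lit 0) (nat_lit 1513585431) (nat_lit 836) (nat_lit 5512683627) (nat_lit 76) (nat_lit 949311699) (nat_lit 374) (nat_lit 5) (nat_lit 385) (nat_lit 5) (nat_lit 375) (nat_lit 5) (nat_lit 433) (nat_lit 371) (nat_lit 336)) (XT.lf (nat_lit 0) (nat_lit 286292378)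 (nat_lit 760) (nat_lit 4268398222) (nat_lit 836) (nat_lit 3483906869) (nat_lit 364) (nat_lit 5) (nat_lit 374) (nat_lit 5) (nat_lit 375) (nat_lit 5) (nat_lit 434) (nat_lit 371) (nat_lit 335))) (XT.nd (nat_lit 78) (nat_lit 1444) (nat_lit 0) (XT.lf (nat_lit 0) (nat_lit 6218344028) (nat_lit 760) (nat_lit 1427101825) (nat_lit 836) (nat_lit 457652103) (nat_lit 364) (nat_lit 5) (nat_lit 374) (nat_lit 5) (nat_lit 375) (nat_lit 5) (nat_lit 435) (nat_lit 371) (nat_lit 334)) (XT.nd (nat_lit 78) (nat_lit 684) (nat_lit 0) (XT.lf (nat_lit 0) (nat_lit 2583376407) (nat_lit 760) (nat_lit 4099295488) (nat_lit 76) (nat_lit 1486100553) (nat_lit 354) (nat_lit 5) (nat_lit 364) (nat_lit 5) (nat_lit 355) (nat_lit 5) (nat_lit 436) (nat_lit 371) (nat_lit 333)) (XT.lf (nat_lit 0) (nat_lit 1887389760) (nat_lit 684) (nat_lit 3779116796) (nat_lit 760) (nat_lit 2569445193) (nat_lit 345) (nat_lit 5) (nat_lit 354) (nat_lit 5) (nat_lit 355) (nat_lit 5) (nat_lit 437) (nat_lit 371) (nat_lit 332))))))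 (XT.nd (nat_lit 390) (nat_lit 2508) (nat_lit 0) (XT.nd (nat_lit 156) (nat_lit 1368) (nat_lit 0) (XT.nd (nat_lit 78) (nat_lit 684) (nat_lit 0) (XT.lf (nat_lit 0) (nat_lit 481077509) (nat_lit 760) (nat_lit 315895657) (nat_lit 76) (nat_lit 7507817657) (nat_lit 344) (nat_lit 5) (nat_lit 354) (nat_lit 5) (nat_lit 345) (nat_lit 5) (nat_lit 438) (nat_lit 371) (nat_lit 331)) (XT.lf (nat_lit 0) (nat_lit 3565151694) (nat_lit 760) (nat_lit 2549428922) (nat_lit 76) (nat_lit 2259947465) (nat_lit 335) (nat_lit 5) (nat_lit 345) (nat_lit 5) (nat_lit 336) (nat_lit 5) (nat_lit 439) (nat_lit 371) (nat_lit 330))) (XT.nd (nat_lit 78) (nat_lit 684) (nat_lit 0) (XT.lf (nat_lit 0) (nat_lit 3632728871) (nat_lit 684) (nat_lit 3063765121) (nat_lit 760) (nat_lit 1749454360) (nat_lit 326) (nat_lit 5) (nat_lit 335) (nat_lit 5) (nat_lit 336) (nat_lit 5) (nat_lit 440) (nat_lit 371) (nat_lit 329)) (XT.nd (nat_lit 78) (nat_lit 0) (nat_lit 0) (XT.lf (nat_lit 0) (nat_lit 1335309618) (nat_lit 684)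 (nat_lit 7112824776) (nat_lit 76) (nat_lit 70851855) (nat_lit 317) (nat_lit 5) (nat_lit 326) (nat_lit 5) (nat_lit 318) (nat_lit 5) (nat_lit 441) (nat_lit 371) (nat_lit 328)) (XT.lf (nat_lit 0) (nat_lit 4466416730) (nat_lit 684) (nat_lit 867614656) (nat_lit 76) (nat_lit 3259060780) (nat_lit 317) (nat_lit 5) (nat_lit 326) (nat_lit 5) (nat_lit 318) (nat_lit 5) (nat_lit 442) (nat_lit 371) (nat_lit 327))))) (XT.nd (nat_lit 156) (nat_lit 1216) (nat_lit 0) (XT.nd (nat_lit 78) (nat_lit 684) (nat_lit 0) (XT.lf (nat_lit 0) (nat_lit 5518144938) (nat_lit 608) (nat_lit 2133954164) (nat_lit 684) (nat_lit 1016742035) (nat_lit 309) (nat_lit 5) (nat_lit 317) (nat_lit 5) (nat_lit 318) (nat_lit 5) (nat_lit 443) (nat_lit 371) (nat_lit 326)) (XT.lf (nat_lit 0) (nat_lit 2118065125) (nat_lit 684) (nat_lit 5484377017) (nat_lit 76) (nat_lit 1143564195) (nat_lit 300) (nat_lit 5) (nat_lit 309) (nat_lit 5) (nat_lit 301) (nat_lit 5) (nat_lit 444) (nat_lit 371) (nat_lit 325))) (XT.nd (nat_lit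 78) (nat_lit 608) (nat_lit 0) (XT.lf (nat_lit 0) (nat_lit 954799258) (nat_lit 608) (nat_lit 4345516814) (nat_lit 684) (nat_lit 3524297118) (nat_lit 292) (nat_lit 5) (nat_lit 300) (nat_lit 5) (nat_lit 301) (nat_lit 5) (nat_lit 445) (nat_lit 371) (nat_lit 324)) (XT.nd (nat_lit 78) (nat_lit 608) (nat_lit 0) (XT.lf (nat_lit 0) (nat_lit 7540143005) (nat_lit 608) (nat_lit 1000085519) (nat_lit 684) (nat_lit 364683326) (nat_lit 292) (nat_lit 5) (nat_lit 300) (nat_lit 5) (nat_lit 301) (nat_lit 5) (nat_lit 446) (nat_lit 371) (nat_lit 323)) (XT.lf (nat_lit 0) (nat_lit 2828512074) (nat_lit 608) (nat_lit 3738063280) (nat_lit 76) (nat_lit 2419712511) (nat_lit 284) (nat_lit 5) (nat_lit 292) (nat_lit 5) (nat_lit 285) (nat_lit 5) (nat_lit 447) (nat_lit 371) (nat_lit 322))))))))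
noncomputable def xc36 : XT := (XT.nd (nat_lit 1482) (nat_lit 836) (nat_lit 0) (XT.nd (nat_lit 702) (nat_lit 3268) (nat_lit 0) (XT.nd (nat_lit 312) (nat_lit 2204) (nat_lit 0) (XT.nd (nat_lit 156) (nat_lit 532) (nat_lit 0) (XT.nd (nat_lit 78) (nat_lit 608) (nat_lit 0) (XT.lf (nat_lit 0) (nat_lit 2915230309) (nat_lit 608) (nat_lit 3158378276) (nat_lit 684) (nat_lit 2995776198) (nat_lit 276) (nat_lit 5) (nat_lit 284) (nat_lit 5) (nat_lit 285) (nat_lit 5) (nat_lit 448) (nat_lit 371) (nat_lit 321)) (XT.lf (nat_lit 0) (nat_lit 215749465) (nat_lit 608) (nat_lit 8609352851) (nat_lit 76) (nat_lit 329225615) (nat_lit 268) (nat_lit 5) (nat_lit 276) (nat_lit 5) (nat_lit 269) (nat_lit 5) (nat_lit 449) (nat_lit 371) (nat_lit 320))) (XT.nd (nat_lit 78) (nat_lit 532) (nat_lit 0) (XT.lf (nat_lit 0) (nat_lit 3472593688) (nat_lit 608) (nat_lit 1876969504) (nat_lit 76) (nat_lit 3890586679) (nat_lit 268) (nat_lit 5) (nat_lit 276) (nat_lit 5) (nat_lit 269) (nat_lit 5) (nat_lit 450)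 (nat_lit 371) (nat_lit 319)) (XT.lf (nat_lit 0) (nat_lit 4999449363) (nat_lit 532) (nat_lit 1787071911) (nat_lit 608) (nat_lit 2541328046) (nat_lit 261) (nat_lit 5) (nat_lit 268) (nat_lit 5) (nat_lit 269) (nat_lit 5) (nat_lit 451) (nat_lit 371) (nat_lit 318)))) (XT.nd (nat_lit 156) (nat_lit 1064) (nat_lit 0) (XT.nd (nat_lit 78) (nat_lit 532) (nat_lit 0) (XT.lf (nat_lit 0) (nat_lit 740886997) (nat_lit 608) (nat_lit 6835015967) (nat_lit 76) (nat_lit 1841276656) (nat_lit 253) (nat_lit 5) (nat_lit 261) (nat_lit 5) (nat_lit 254) (nat_lit 5) (nat_lit 452) (nat_lit 371) (nat_lit 317)) (XT.lf (nat_lit 0) (nat_lit 97648129) (nat_lit 532) (nat_lit 3958785476) (nat_lit 608) (nat_lit 5451492644) (nat_lit 246) (nat_lit 5) (nat_lit 253) (nat_lit 5) (nat_lit 254) (nat_lit 5) (nat_lit 453) (nat_lit 371) (nat_lit 316))) (XT.nd (nat_lit 78) (nat_lit 1064) (nat_lit 0) (XT.lf (nat_lit 0) (nat_lit 7205317968) (nat_lit 532) (nat_lit 239235708) (nat_lit 608) (nat_lit 2155808884) (nat_lit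 246) (nat_lit 5) (nat_lit 253) (nat_lit 5) (nat_lit 254) (nat_lit 5) (nat_lit 454) (nat_lit 371) (nat_lit 315)) (XT.nd (nat_lit 78) (nat_lit 532) (nat_lit 0) (XT.lf (nat_lit 0) (nat_lit 1205018827) (nat_lit 532) (nat_lit 4958511398) (nat_lit 76) (nat_lit 3530659909) (nat_lit 239) (nat_lit 5) (nat_lit 246) (nat_lit 5) (nat_lit 240) (nat_lit 5) (nat_lit 455) (nat_lit 371) (nat_lit 314)) (XT.lf (nat_lit 0) (nat_lit 2208899326) (nat_lit 532) (nat_lit 2388643074) (nat_lit 608) (nat_lit 5192199949) (nat_lit 232) (nat_lit 5) (nat_lit 239) (nat_lit 5) (nat_lit 240) (nat_lit 5) (nat_lit 456) (nat_lit 371) (nat_lit 313)))))) (XT.nd (nat_lit 390) (nat_lit 1748) (nat_lit 0) (XT.nd (nat_lit 156) (nat_lit 988) (nat_lit 0) (XT.nd (nat_lit 78) (nat_lit 532) (nat_lit 0) (XT.lf (nat_lit 0) (nat_lit 8062402984) (nat_lit 608) (nat_lit 365678374) (nat_lit 76) (nat_lit 1459034520) (nat_lit 232) (nat_lit 5) (nat_lit 240) (nat_lit 5) (nat_lit 233) (nat_lit 5) (nat_lit 457) (nat_lit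 371) (nat_lit 312)) (XT.lf (nat_lit 0) (nat_lit 1612782896) (nat_lit 532) (nat_lit 2981799694) (nat_lit 76) (nat_lit 5391169686) (nat_lit 225) (nat_lit 5) (nat_lit 232) (nat_lit 5) (nat_lit 226) (nat_lit 5) (nat_lit 458) (nat_lit 371) (nat_lit 311))) (XT.nd (nat_lit 78) (nat_lit 532) (nat_lit 0) (XT.lf (nat_lit 0) (nat_lit 4430292112) (nat_lit 456) (nat_lit 657953850) (nat_lit 532) (nat_lit 4998001209) (nat_lit 219) (nat_lit 5) (nat_lit 225) (nat_lit 5) (nat_lit 226) (nat_lit 5) (nat_lit 459) (nat_lit 371) (nat_lit 310)) (XT.nd (nat_lit 78) (nat_lit 76) (nat_lit 0) (XT.lf (nat_lit 0) (nat_lit 1788622601) (nat_lit 456) (nat_lit 6860807288) (nat_lit 532) (nat_lit 1538997841) (nat_lit 213) (nat_lit 5) (nat_lit 219) (nat_lit 5) (nat_lit 220) (nat_lit 5) (nat_lit 460) (nat_lit 371) (nat_lit 309)) (XT.lf (nat_lit 0) (nat_lit 1968447134) (nat_lit 532) (nat_lit 906383121) (nat_lit 76) (nat_lit 7417456343) (nat_lit 212) (nat_lit 5) (nat_lit 219) (nat_lit 5) (nat_lit 213)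 (nat_lit 5) (nat_lit 461) (nat_lit 371) (nat_lit 308))))) (XT.nd (nat_lit 156) (nat_lit 912) (nat_lit 0) (XT.nd (nat_lit 78) (nat_lit 380) (nat_lit 0) (XT.lf (nat_lit 0) (nat_lit 5540837246) (nat_lit 532) (nat_lit 3645092700) (nat_lit 76) (nat_lit 1211781173) (nat_lit 206) (nat_lit 5) (nat_lit 213) (nat_lit 5) (nat_lit 207) (nat_lit 5) (nat_lit 462) (nat_lit 371) (nat_lit 307)) (XT.lf (nat_lit 0) (nat_lit 4051137532) (nat_lit 380) (nat_lit 5148763244) (nat_lit 456) (nat_lit 1305038842) (nat_lit 201) (nat_lit 5) (nat_lit 206) (nat_lit 5) (nat_lit 207) (nat_lit 5) (nat_lit 463) (nat_lit 371) (nat_lit 306))) (XT.nd (nat_lit 78) (nat_lit 380) (nat_lit 0) (XT.lf (nat_lit 0) (nat_lit 1283503862) (nat_lit 456) (nat_lit 1000766778) (nat_lit 532) (nat_lit 8329804337) (nat_lit 194) (nat_lit 5) (nat_lit 200) (nat_lit 5) (nat_lit 201) (nat_lit 5) (nat_lit 464) (nat_lit 371) (nat_lit 305)) (XT.nd (nat_lit 78) (nat_lit 380) (nat_lit 0) (XT.lf (nat_lit 0) (nat_lit 5956587611)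 (nat_lit 532) (nat_lit 1546618622) (nat_lit 76) (nat_lit 3221440370) (nat_lit 194) (nat_lit 5) (nat_lit 201) (nat_lit 5) (nat_lit 195) (nat_lit 5) (nat_lit 465) (nat_lit 371) (nat_lit 304)) (XT.lf (nat_lit 0) (nat_lit 6416391695) (nat_lit 380) (nat_lit 3299061662) (nat_lit 456) (nat_lit 1121714255) (nat_lit 189) (nat_lit 5) (nat_lit 194) (nat_lit 5) (nat_lit 195) (nat_lit 5) (nat_lit 466) (nat_lit 371) (nat_lit 303))))))) (XT.nd (nat_lit 54288) (nat_lit 0) (nat_lit 34048) (XT.nd (nat_lit 53898) (nat_lit 0) (nat_lit 41496) (XT.nd (nat_lit 156) (nat_lit 0) (nat_lit 0) (XT.nd (nat_lit 78) (nat_lit 380) (nat_lit 0) (XT.lf (nat_lit 0) (nat_lit 2568763133) (nat_lit 456) (nat_lit 7374554613) (nat_lit 76) (nat_lit 1008178531) (nat_lit 183) (nat_lit 5) (nat_lit 189) (nat_lit 5) (nat_lit 184) (nat_lit 5) (nat_lit 467) (nat_lit 371) (nat_lit 302)) (XT.lf (nat_lit 0) (nat_lit 651624177) (nat_lit 380) (nat_lit 5687499897) (nat_lit 456) (nat_lit 4728417275) (nat_lit 178) (nat_lit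 5) (nat_lit 183) (nat_lit 5) (nat_lit 184) (nat_lit 5) (nat_lit 468) (nat_lit 371) (nat_lit 301))) (XT.nd (nat_lit 53664) (nat_lit 0) (nat_lit 44840) (XT.lf (nat_lit 0) (nat_lit 8884179874) (nat_lit 380) (nat_lit 1315670393) (nat_lit 456) (nat_lit 985757894) (nat_lit 178) (nat_lit 5) (nat_lit 183) (nat_lit 5) (nat_lit 184) (nat_lit 5) (nat_lit 469) (nat_lit 371) (nat_lit 300)) (XT.lf (nat_lit 0) (nat_lit 1543139516) (nat_lit 684) (nat_lit 195461714) (nat_lit 0) (nat_lit 1543139516) (nat_lit 768) (nat_lit 5) (nat_lit 777) (nat_lit 4) (nat_lit 768) (nat_lit 4) (nat_lit 396) (nat_lit 372) (nat_lit 372)))) (XT.nd (nat_lit 156) (nat_lit 1824) (nat_lit 0) (XT.nd (nat_lit 78) (nat_lit 836) (nat_lit 0) (XT.lf (nat_lit 0) (nat_lit 3693057694) (nat_lit 684) (nat_lit 2688171357) (nat_lit 684) (nat_lit 198059297) (nat_lit 759) (nat_lit 4) (nat_lit 768) (nat_lit 5) (nat_lit 768) (nat_lit 4) (nat_lit 397) (nat_lit 372) (nat_lit 371)) (XT.lf (nat_lit 0) (nat_lit 1209688949)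 (nat_lit 760) (nat_lit 1830453299) (nat_lit 836) (nat_lit 3556165594) (nat_lit 748) (nat_lit 5) (nat_lit 758) (nat_lit 5) (nat_lit 759) (nat_lit 4) (nat_lit 398) (nat_lit 372) (nat_lit 370))) (XT.nd (nat_lit 78) (nat_lit 1824) (nat_lit 0) (XT.lf (nat_lit 0) (nat_lit 5371291941) (nat_lit 760) (nat_lit 913910192) (nat_lit 836) (nat_lit 329544485) (nat_lit 748) (nat_lit 5) (nat_lit 758) (nat_lit 5) (nat_lit 759) (nat_lit 4) (nat_lit 399) (nat_lit 372) (nat_lit 369)) (XT.nd (nat_lit 78) (nat_lit 912) (nat_lit 0) (XT.lf (nat_lit 0) (nat_lit 2868788754) (nat_lit 912) (nat_lit 3686717872) (nat_lit 76) (nat_lit 78742533) (nat_lit 736) (nat_lit 5) (nat_lit 748) (nat_lit 5) (nat_lit 737) (nat_lit 4) (nat_lit 400) (nat_lit 372) (nat_lit 368)) (XT.lf (nat_lit 0) (nat_lit 528693663) (nat_lit 912) (nat_lit 5543452887) (nat_lit 988) (nat_lit 583042225) (nat_lit 724) (nat_lit 5) (nat_lit 736) (nat_lit 5) (nat_lit 737) (nat_lit 4) (nat_lit 401) (nat_lit 372) (nat_lit 367))))))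 (XT.nd (nat_lit 390) (nat_lit 4028) (nat_lit 0) (XT.nd (nat_lit 156) (nat_lit 2356) (nat_lit 0) (XT.nd (nat_lit 78) (nat_lit 988) (nat_lit 0) (XT.lf (nat_lit 0) (nat_lit 2581175381) (nat_lit 988) (nat_lit 1870877730) (nat_lit 76) (nat_lit 2225086727) (nat_lit 723) (nat_lit 5) (nat_lit 736) (nat_lit 5) (nat_lit 724) (nat_lit 5) (nat_lit 402) (nat_lit 372) (nat_lit 366)) (XT.lf (nat_lit 0) (nat_lit 2443370106) (nat_lit 988) (nat_lit 3302953389) (nat_lit 1064) (nat_lit 954220288) (nat_lit 710) (nat_lit 5) (nat_lit 723) (nat_lit 5) (nat_lit 724) (nat_lit 5) (nat_lit 403) (nat_lit 372) (nat_lit 365))) (XT.nd (nat_lit 78) (nat_lit 1216) (nat_lit 0) (XT.lf (nat_lit 0) (nat_lit 76168883) (nat_lit 1064) (nat_lit 2087958710) (nat_lit 1140) (nat_lit 4561130345) (nat_lit 695) (nat_lit 5) (nat_lit 709) (nat_lit 5) (nat_lit 710) (nat_lit 5) (nat_lit 404) (nat_lit 372) (nat_lit 364)) (XT.nd (nat_lit 78) (nat_lit 1216) (nat_lit 0) (XT.lf (nat_lit 0) (nat_lit 4492610926) (nat_lit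 1064) (nat_lit 799156515) (nat_lit 1140) (nat_lit 1459378746) (nat_lit 695) (nat_lit 5) (nat_lit 709) (nat_lit 5) (nat_lit 710) (nat_lit 5) (nat_lit 405) (nat_lit 372) (nat_lit 363)) (XT.lf (nat_lit 0) (nat_lit 1631891852) (nat_lit 1216) (nat_lit 4599313841) (nat_lit 76) (nat_lit 547128432) (nat_lit 679) (nat_lit 5) (nat_lit 695) (nat_lit 5) (nat_lit 680) (nat_lit 5) (nat_lit 406) (nat_lit 372) (nat_lit 362))))) (XT.nd (nat_lit 156) (nat_lit 2736) (nat_lit 0) (XT.nd (nat_lit 78) (nat_lit 1292) (nat_lit 0) (XT.lf (nat_lit 0) (nat_lit 4719141517) (nat_lit 1216) (nat_lit 140637474) (nat_lit 76) (nat_lit 1947020007) (nat_lit 679) (nat_lit 5) (nat_lit 695) (nat_lit 5) (nat_lit 680) (nat_lit 5) (nat_lit 407) (nat_lit 372) (nat_lit 361)) (XT.lf (nat_lit 0) (nat_lit 981593732) (nat_lit 1292) (nat_lit 2432639944) (nat_lit 76) (nat_lit 3422208854) (nat_lit 662) (nat_lit 5) (nat_lit 679) (nat_lit 5) (nat_lit 663) (nat_lit 5) (nat_lit 408) (nat_lit 372) (nat_lit 360))) (XT.nd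 (nat_lit 78) (nat_lit 1444) (nat_lit 0) (XT.lf (nat_lit 0) (nat_lit 2133354507) (nat_lit 1292) (nat_lit 1900692864) (nat_lit 1368) (nat_lit 2833360150) (nat_lit 645) (nat_lit 5) (nat_lit 662) (nat_lit 5) (nat_lit 663) (nat_lit 5) (nat_lit 409) (nat_lit 372) (nat_lit 359)) (XT.nd (nat_lit 78) (nat_lit 1368) (nat_lit 0) (XT.lf (nat_lit 0) (nat_lit 197169656) (nat_lit 1368) (nat_lit 132409128) (nat_lit 76) (nat_lit 6570343326) (nat_lit 644) (nat_lit 5) (nat_lit 662) (nat_lit 5) (nat_lit 645) (nat_lit 5) (nat_lit 410) (nat_lit 372) (nat_lit 358)) (XT.lf (nat_lit 0) (nat_lit 3225278762) (nat_lit 1444) (nat_lit 2394456853) (nat_lit 76) (nat_lit 1313478659) (nat_lit 626) (nat_lit 5) (nat_lit 645) (nat_lit 5) (nat_lit 627) (nat_lit 5) (nat_lit 411) (nat_lit 372) (nat_lit 357))))))))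
noncomputable def xc37 : XT := (XT.nd (nat_lit 1482) (nat_lit 9880) (nat_lit 0) (XT.nd (nat_lit 702) (nat_lit 6688) (nat_lit 0) (XT.nd (nat_lit 312) (nat_lit 5396) (nat_lit 0) (XT.nd (nat_lit 156) (nat_lit 1672) (nat_lit 0) (XT.nd (nat_lit 78) (nat_lit 1596) (nat_lit 0) (XT.lf (nat_lit 0) (nat_lit 2310586275) (nat_lit 1444) (nat_lit 3959089728) (nat_lit 1520) (nat_lit 698381758) (nat_lit 607) (nat_lit 5) (nat_lit 626) (nat_lit 5) (nat_lit 627) (nat_lit 5) (nat_lit 412) (nat_lit 372) (nat_lit 356)) (XT.lf (nat_lit 0) (nat_lit 68330387) (nat_lit 1520) (nat_lit 2226654308) (nat_lit 1596) (nat_lit 4709211043) (nat_lit 586) (nat_lit 5) (nat_lit 606) (nat_lit 5) (nat_lit 607) (nat_lit 5) (nat_lit 413) (nat_lit 372) (nat_lit 355))) (XT.nd (nat_lit 78) (nat_lit 1672) (nat_lit 0) (XT.lf (nat_lit 0) (nat_lit 4891489384) (nat_lit 1520) (nat_lit 417567128) (nat_lit 1596) (nat_lit 1732503851) (nat_lit 586) (nat_lit 5) (nat_lit 606) (nat_lit 5) (nat_lit 607) (nat_lit 5) (nat_lit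 414) (nat_lit 372) (nat_lit 354)) (XT.lf (nat_lit 0) (nat_lit 1253420533) (nat_lit 1672) (nat_lit 4386720296) (nat_lit 76) (nat_lit 1440026520) (nat_lit 564) (nat_lit 5) (nat_lit 586) (nat_lit 5) (nat_lit 565) (nat_lit 5) (nat_lit 415) (nat_lit 372) (nat_lit 353)))) (XT.nd (nat_lit 156) (nat_lit 3648) (nat_lit 0) (XT.nd (nat_lit 78) (nat_lit 76) (nat_lit 0) (XT.lf (nat_lit 0) (nat_lit 479507330) (nat_lit 1672) (nat_lit 3757392810) (nat_lit 1748) (nat_lit 2883196599) (nat_lit 542) (nat_lit 5) (nat_lit 564) (nat_lit 5) (nat_lit 565) (nat_lit 5) (nat_lit 416) (nat_lit 372) (nat_lit 352)) (XT.lf (nat_lit 0) (nat_lit 88318320) (nat_lit 1748) (nat_lit 1715265934) (nat_lit 76) (nat_lit 5357811834) (nat_lit 541) (nat_lit 5) (nat_lit 564) (nat_lit 5) (nat_lit 542) (nat_lit 5) (nat_lit 417) (nat_lit 372) (nat_lit 351))) (XT.nd (nat_lit 78) (nat_lit 1900) (nat_lit 0) (XT.lf (nat_lit 0) (nat_lit 3045663121) (nat_lit 1824) (nat_lit 3928408031) (nat_lit 76) (nat_lit 229769002)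 (nat_lit 518) (nat_lit 5) (nat_lit 542) (nat_lit 5) (nat_lit 519) (nat_lit 5) (nat_lit 418) (nat_lit 372) (nat_lit 350)) (XT.nd (nat_lit 78) (nat_lit 76) (nat_lit 0) (XT.lf (nat_lit 0) (nat_lit 1088282104) (nat_lit 1824) (nat_lit 4947439405) (nat_lit 1900) (nat_lit 1211940257) (nat_lit 494) (nat_lit 5) (nat_lit 518) (nat_lit 5) (nat_lit 519) (nat_lit 5) (nat_lit 419) (nat_lit 372) (nat_lit 349)) (XT.lf (nat_lit 0) (nat_lit 1739591777) (nat_lit 1900) (nat_lit 1101738503) (nat_lit 76) (nat_lit 4451398897) (nat_lit 493) (nat_lit 5) (nat_lit 518) (nat_lit 5) (nat_lit 494) (nat_lit 5) (nat_lit 420) (nat_lit 372) (nat_lit 348)))))) (XT.nd (nat_lit 390) (nat_lit 2736) (nat_lit 0) (XT.nd (nat_lit 156) (nat_lit 1824) (nat_lit 0) (XT.nd (nat_lit 78) (nat_lit 988) (nat_lit 0) (XT.lf (nat_lit 0) (nat_lit 4046566309) (nat_lit 1140) (nat_lit 658111834) (nat_lit 1216) (nat_lit 2634444543) (nat_lit 478) (nat_lit 5) (nat_lit 493) (nat_lit 5) (nat_lit 494) (nat_lit 5) (nat_lit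 421) (nat_lit 372) (nat_lit 347)) (XT.lf (nat_lit 0) (nat_lit 313019642) (nat_lit 988) (nat_lit 5504306162) (nat_lit 76) (nat_lit 1569575950) (nat_lit 465) (nat_lit 5) (nat_lit 478) (nat_lit 5) (nat_lit 466) (nat_lit 5) (nat_lit 422) (nat_lit 372) (nat_lit 346))) (XT.nd (nat_lit 78) (nat_lit 1824) (nat_lit 0) (XT.lf (nat_lit 0) (nat_lit 3256335671) (nat_lit 988) (nat_lit 307880212) (nat_lit 76) (nat_lit 3871628692) (nat_lit 465) (nat_lit 5) (nat_lit 478) (nat_lit 5) (nat_lit 466) (nat_lit 5) (nat_lit 423) (nat_lit 372) (nat_lit 345)) (XT.nd (nat_lit 78) (nat_lit 912) (nat_lit 0) (XT.lf (nat_lit 0) (nat_lit 5002577647) (nat_lit 912) (nat_lit 1235033494) (nat_lit 988) (nat_lit 1248573248) (nat_lit 453) (nat_lit 5) (nat_lit 465) (nat_lit 5) (nat_lit 466) (nat_lit 5) (nat_lit 424) (nat_lit 372) (nat_lit 344)) (XT.lf (nat_lit 0) (nat_lit 1693324593) (nat_lit 912) (nat_lit 4689328163) (nat_lit 76) (nat_lit 1155148637) (nat_lit 441) (nat_lit 5) (nat_lit 453) (nat_lit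 5) (nat_lit 442) (nat_lit 5) (nat_lit 425) (nat_lit 372) (nat_lit 343))))) (XT.nd (nat_lit 156) (nat_lit 1748) (nat_lit 0) (XT.nd (nat_lit 78) (nat_lit 76) (nat_lit 0) (XT.lf (nat_lit 0) (nat_lit 666419605) (nat_lit 912) (nat_lit 3987833167) (nat_lit 988) (nat_lit 2936494688) (nat_lit 429) (nat_lit 5) (nat_lit 441) (nat_lit 5) (nat_lit 442) (nat_lit 5) (nat_lit 426) (nat_lit 372) (nat_lit 342)) (XT.lf (nat_lit 0) (nat_lit 8867290) (nat_lit 988) (nat_lit 1508502611) (nat_lit 76) (nat_lit 6127786516) (nat_lit 428) (nat_lit 5) (nat_lit 441) (nat_lit 5) (nat_lit 429) (nat_lit 5) (nat_lit 427) (nat_lit 372) (nat_lit 341))) (XT.nd (nat_lit 78) (nat_lit 912) (nat_lit 0) (XT.lf (nat_lit 0) (nat_lit 2955510625) (nat_lit 912) (nat_lit 3714698890) (nat_lit 76) (nat_lit 1030421958) (nat_lit 417) (nat_lit 5) (nat_lit 429) (nat_lit 5) (nat_lit 418) (nat_lit 5) (nat_lit 428) (nat_lit 372) (nat_lit 340)) (XT.nd (nat_lit 78) (nat_lit 76) (nat_lit 0) (XT.lf (nat_lit 0) (nat_lit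 1811005579) (nat_lit 836) (nat_lit 4131641401) (nat_lit 912) (nat_lit 1814937847) (nat_lit 406) (nat_lit 5) (nat_lit 417) (nat_lit 5) (nat_lit 418) (nat_lit 5) (nat_lit 429) (nat_lit 372) (nat_lit 339)) (XT.lf (nat_lit 0) (nat_lit 1133405268) (nat_lit 912) (nat_lit 382004435) (nat_lit 76) (nat_lit 6300616084) (nat_lit 405) (nat_lit 5) (nat_lit 417) (nat_lit 5) (nat_lit 406) (nat_lit 5) (nat_lit 430) (nat_lit 372) (nat_lit 338))))))) (XT.nd (nat_lit 702) (nat_lit 4560) (nat_lit 0) (XT.nd (nat_lit 312) (nat_lit 2964) (nat_lit 0) (XT.nd (nat_lit 156) (nat_lit 836) (nat_lit 0) (XT.nd (nat_lit 78) (nat_lit 760) (nat_lit 0) (XT.lf (nat_lit 0) (nat_lit 4109414988) (nat_lit 836) (nat_lit 2587653038) (nat_lit 76) (nat_lit 1178467570) (nat_lit 395) (nat_lit 5) (nat_lit 406) (nat_lit 5) (nat_lit 396) (nat_lit 5) (nat_lit 431) (nat_lit 372) (nat_lit 337)) (XT.lf (nat_lit 0) (nat_lit 3114890633) (nat_lit 760) (nat_lit 4014299716) (nat_lit 836) (nat_lit 807360343) (nat_lit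 385) (nat_lit 5) (nat_lit 395) (nat_lit 5) (nat_lit 396) (nat_lit 5) (nat_lit 432) (nat_lit 372) (nat_lit 336))) (XT.nd (nat_lit 78) (nat_lit 0) (nat_lit 0) (XT.lf (nat_lit 0) (nat_lit 909236650) (nat_lit 760) (nat_lit 1247407806) (nat_lit 836) (nat_lit 5842353356) (nat_lit 374) (nat_lit 5) (nat_lit 384) (nat_lit 5) (nat_lit 385) (nat_lit 5) (nat_lit 433) (nat_lit 372) (nat_lit 335)) (XT.lf (nat_lit 0) (nat_lit 5164132986) (nat_lit 836) (nat_lit 1314596343) (nat_lit 76) (nat_lit 1583957527) (nat_lit 374) (nat_lit 5) (nat_lit 385) (nat_lit 5) (nat_lit 375) (nat_lit 5) (nat_lit 434) (nat_lit 372) (nat_lit 334)))) (XT.nd (nat_lit 156) (nat_lit 1444) (nat_lit 0) (XT.nd (nat_lit 78) (nat_lit 684) (nat_lit 0) (XT.lf (nat_lit 0) (nat_lit 93788784) (nat_lit 836) (nat_lit 3556430044) (nat_lit 76) (nat_lit 4477596678) (nat_lit 363) (nat_lit 5) (nat_lit 374) (nat_lit 5) (nat_lit 364) (nat_lit 5) (nat_lit 435) (nat_lit 372) (nat_lit 333)) (XT.lf (nat_lit 0) (nat_lit 2354449972)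 (nat_lit 684) (nat_lit 730318360) (nat_lit 760) (nat_lit 5109543175) (nat_lit 354) (nat_lit 5) (nat_lit 363) (nat_lit 5) (nat_lit 364) (nat_lit 5) (nat_lit 436) (nat_lit 372) (nat_lit 332))) (XT.nd (nat_lit 78) (nat_lit 760) (nat_lit 0) (XT.lf (nat_lit 0) (nat_lit 100154513) (nat_lit 684) (nat_lit 6028571053) (nat_lit 760) (nat_lit 2133548699) (nat_lit 345) (nat_lit 5) (nat_lit 354) (nat_lit 5) (nat_lit 355) (nat_lit 5) (nat_lit 437) (nat_lit 372) (nat_lit 331)) (XT.nd (nat_lit 78) (nat_lit 684) (nat_lit 0) (XT.lf (nat_lit 0) (nat_lit 888547633) (nat_lit 760) (nat_lit 2160372327) (nat_lit 76) (nat_lit 5282590967) (nat_lit 344) (nat_lit 5) (nat_lit 354) (nat_lit 5) (nat_lit 345) (nat_lit 5) (nat_lit 438) (nat_lit 372) (nat_lit 330)) (XT.lf (nat_lit 0) (nat_lit 3923304773) (nat_lit 760) (nat_lit 4458996469) (nat_lit 76) (nat_lit 19933284) (nat_lit 335) (nat_lit 5) (nat_lit 345) (nat_lit 5) (nat_lit 336) (nat_lit 5) (nat_lit 439) (nat_lit 372) (nat_lit 329))))))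 (XT.nd (nat_lit 390) (nat_lit 1900) (nat_lit 0) (XT.nd (nat_lit 156) (nat_lit 1900) (nat_lit 0) (XT.nd (nat_lit 78) (nat_lit 76) (nat_lit 0) (XT.lf (nat_lit 0) (nat_lit 1669653026) (nat_lit 684) (nat_lit 5350208419) (nat_lit 760) (nat_lit 1454489064) (nat_lit 326) (nat_lit 5) (nat_lit 335) (nat_lit 5) (nat_lit 336) (nat_lit 5) (nat_lit 440) (nat_lit 372) (nat_lit 328)) (XT.lf (nat_lit 0) (nat_lit 1594876214) (nat_lit 760) (nat_lit 633075495) (nat_lit 76) (nat_lit 6320028999) (nat_lit 325) (nat_lit 5) (nat_lit 335) (nat_lit 5) (nat_lit 326) (nat_lit 5) (nat_lit 441) (nat_lit 372) (nat_lit 327))) (XT.nd (nat_lit 78) (nat_lit 1292) (nat_lit 0) (XT.lf (nat_lit 0) (nat_lit 4685605463) (nat_lit 684) (nat_lit 2957931973) (nat_lit 76) (nat_lit 979356745) (nat_lit 317) (nat_lit 5) (nat_lit 326) (nat_lit 5) (nat_lit 318) (nat_lit 5) (nat_lit 442) (nat_lit 372) (nat_lit 326)) (XT.nd (nat_lit 78) (nat_lit 684) (nat_lit 0) (XT.lf (nat_lit 0) (nat_lit 3372150884) (nat_lit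 608) (nat_lit 4463909648) (nat_lit 684) (nat_lit 863287168) (nat_lit 309) (nat_lit 5) (nat_lit 317) (nat_lit 5) (nat_lit 318) (nat_lit 5) (nat_lit 443) (nat_lit 372) (nat_lit 325)) (XT.lf (nat_lit 0) (nat_lit 1034869124) (nat_lit 608) (nat_lit 1191413838) (nat_lit 684) (nat_lit 6551074498) (nat_lit 300) (nat_lit 5) (nat_lit 308) (nat_lit 5) (nat_lit 309) (nat_lit 5) (nat_lit 444) (nat_lit 372) (nat_lit 324))))) (XT.nd (nat_lit 156) (nat_lit 1292) (nat_lit 0) (XT.nd (nat_lit 78) (nat_lit 608) (nat_lit 0) (XT.lf (nat_lit 0) (nat_lit 5373600875) (nat_lit 684) (nat_lit 1335926308) (nat_lit 76) (nat_lit 2147135791) (nat_lit 300) (nat_lit 5) (nat_lit 309) (nat_lit 5) (nat_lit 301) (nat_lit 5) (nat_lit 445) (nat_lit 372) (nat_lit 323)) (XT.lf (nat_lit 0) (nat_lit 5204019424) (nat_lit 608) (nat_lit 3379938767) (nat_lit 684) (nat_lit 353594546) (nat_lit 292) (nat_lit 5) (nat_lit 300) (nat_lit 5) (nat_lit 301) (nat_lit 5) (nat_lit 446) (nat_lit 372) (nat_lit 322))) (XT.nd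 (nat_lit 78) (nat_lit 684) (nat_lit 0) (XT.lf (nat_lit 0) (nat_lit 2787596896) (nat_lit 608) (nat_lit 6183883122) (nat_lit 76) (nat_lit 48484465) (nat_lit 284) (nat_lit 5) (nat_lit 292) (nat_lit 5) (nat_lit 285) (nat_lit 5) (nat_lit 447) (nat_lit 372) (nat_lit 321)) (XT.nd (nat_lit 78) (nat_lit 76) (nat_lit 0) (XT.lf (nat_lit 0) (nat_lit 408985748) (nat_lit 608) (nat_lit 5587121969) (nat_lit 684) (nat_lit 3107685397) (nat_lit 276) (nat_lit 5) (nat_lit 284) (nat_lit 5) (nat_lit 285) (nat_lit 5) (nat_lit 448) (nat_lit 372) (nat_lit 320)) (XT.lf (nat_lit 0) (nat_lit 79363354) (nat_lit 684) (nat_lit 2027560748) (nat_lit 76) (nat_lit 7082345584) (nat_lit 275) (nat_lit 5) (nat_lit 284) (nat_lit 5) (nat_lit 276) (nat_lit 5) (nat_lit 449) (nat_lit 372) (nat_lit 319))))))))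
noncomputable def xc38 : XT := (XT.nd (nat_lit 54990) (nat_lit 0) (nat_lit 32148) (XT.nd (nat_lit 702) (nat_lit 3192) (nat_lit 0) (XT.nd (nat_lit 312) (nat_lit 2128) (nat_lit 0) (XT.nd (nat_lit 156) (nat_lit 608) (nat_lit 0) (XT.nd (nat_lit 78) (nat_lit 532) (nat_lit 0) (XT.lf (nat_lit 0) (nat_lit 3289044404) (nat_lit 608) (nat_lit 4525703490) (nat_lit 76) (nat_lit 1461286997) (nat_lit 268) (nat_lit 5) (nat_lit 276) (nat_lit 5) (nat_lit 269) (nat_lit 5) (nat_lit 450) (nat_lit 372) (nat_lit 318)) (XT.lf (nat_lit 0) (nat_lit 2287885784) (nat_lit 532) (nat_lit 4277818123) (nat_lit 608) (nat_lit 2798775796) (nat_lit 261) (nat_lit 5) (nat_lit 268) (nat_lit 5) (nat_lit 269) (nat_lit 5) (nat_lit 451) (nat_lit 372) (nat_lit 317))) (XT.nd (nat_lit 78) (nat_lit 532) (nat_lit 0) (XT.lf (nat_lit 0) (nat_lit 438274749) (nat_lit 608) (nat_lit 213378236) (nat_lit 76) (nat_lit 8803161267) (nat_lit 260) (nat_lit 5) (nat_lit 268) (nat_lit 5) (nat_lit 261) (nat_lit 5) (nat_lit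 452) (nat_lit 372) (nat_lit 316)) (XT.lf (nat_lit 0) (nat_lit 3728118297) (nat_lit 608) (nat_lit 2762937328) (nat_lit 76) (nat_lit 3055019317) (nat_lit 253) (nat_lit 5) (nat_lit 261) (nat_lit 5) (nat_lit 254) (nat_lit 5) (nat_lit 453) (nat_lit 372) (nat_lit 315)))) (XT.nd (nat_lit 156) (nat_lit 1064) (nat_lit 0) (XT.nd (nat_lit 78) (nat_lit 532) (nat_lit 0) (XT.lf (nat_lit 0) (nat_lit 4280690715) (nat_lit 532) (nat_lit 2798148910) (nat_lit 608) (nat_lit 2560419602) (nat_lit 246) (nat_lit 5) (nat_lit 253) (nat_lit 5) (nat_lit 254) (nat_lit 5) (nat_lit 454) (nat_lit 372) (nat_lit 314)) (XT.lf (nat_lit 0) (nat_lit 750273600) (nat_lit 532) (nat_lit 8009064175) (nat_lit 76) (nat_lit 974910387) (nat_lit 239) (nat_lit 5) (nat_lit 246) (nat_lit 5) (nat_lit 240) (nat_lit 5) (nat_lit 455) (nat_lit 372) (nat_lit 313))) (XT.nd (nat_lit 78) (nat_lit 1064) (nat_lit 0) (XT.lf (nat_lit 0) (nat_lit 4109631120) (nat_lit 532) (nat_lit 897808721) (nat_lit 76) (nat_lit 4823023858)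 (nat_lit 239) (nat_lit 5) (nat_lit 246) (nat_lit 5) (nat_lit 240) (nat_lit 5) (nat_lit 456) (nat_lit 372) (nat_lit 312)) (XT.nd (nat_lit 78) (nat_lit 532) (nat_lit 0) (XT.lf (nat_lit 0) (nat_lit 6385582633) (nat_lit 532) (nat_lit 1154772871) (nat_lit 608) (nat_lit 2388164447) (nat_lit 232) (nat_lit 5) (nat_lit 239) (nat_lit 5) (nat_lit 240) (nat_lit 5) (nat_lit 457) (nat_lit 372) (nat_lit 311)) (XT.lf (nat_lit 0) (nat_lit 1009564727) (nat_lit 532) (nat_lit 6259202778) (nat_lit 76) (nat_lit 2759405138) (nat_lit 225) (nat_lit 5) (nat_lit 232) (nat_lit 5) (nat_lit 226) (nat_lit 5) (nat_lit 458) (nat_lit 372) (nat_lit 310)))))) (XT.nd (nat_lit 390) (nat_lit 1368) (nat_lit 0) (XT.nd (nat_lit 156) (nat_lit 1368) (nat_lit 0) (XT.nd (nat_lit 78) (nat_lit 0) (nat_lit 0) (XT.lf (nat_lit 0) (nat_lit 1082122088) (nat_lit 456) (nat_lit 3362914828) (nat_lit 532) (nat_lit 5684430439) (nat_lit 219) (nat_lit 5) (nat_lit 225) (nat_lit 5) (nat_lit 226) (nat_lit 5) (nat_lit 459)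 (nat_lit 372) (nat_lit 309)) (XT.lf (nat_lit 0) (nat_lit 7958921951) (nat_lit 532) (nat_lit 1635647169) (nat_lit 76) (nat_lit 638024773) (nat_lit 219) (nat_lit 5) (nat_lit 226) (nat_lit 5) (nat_lit 220) (nat_lit 5) (nat_lit 460) (nat_lit 372) (nat_lit 308))) (XT.nd (nat_lit 78) (nat_lit 836) (nat_lit 0) (XT.lf (nat_lit 0) (nat_lit 1214515244) (nat_lit 532) (nat_lit 4418976258) (nat_lit 76) (nat_lit 4703634521) (nat_lit 212) (nat_lit 5) (nat_lit 219) (nat_lit 5) (nat_lit 213) (nat_lit 5) (nat_lit 461) (nat_lit 372) (nat_lit 307)) (XT.nd (nat_lit 78) (nat_lit 380) (nat_lit 0) (XT.lf (nat_lit 0) (nat_lit 3174608041) (nat_lit 456) (nat_lit 1563334525) (nat_lit 532) (nat_lit 5705587234) (nat_lit 206) (nat_lit 5) (nat_lit 212) (nat_lit 5) (nat_lit 213) (nat_lit 5) (nat_lit 462) (nat_lit 372) (nat_lit 306)) (XT.lf (nat_lit 0) (nat_lit 362445827) (nat_lit 380) (nat_lit 7982872660) (nat_lit 456) (nat_lit 2206473563) (nat_lit 201) (nat_lit 5) (nat_lit 206) (nat_lit 5)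 (nat_lit 207) (nat_lit 5) (nat_lit 463) (nat_lit 372) (nat_lit 305))))) (XT.nd (nat_lit 156) (nat_lit 836) (nat_lit 0) (XT.nd (nat_lit 78) (nat_lit 456) (nat_lit 0) (XT.lf (nat_lit 0) (nat_lit 1368794806) (nat_lit 456) (nat_lit 2489713678) (nat_lit 76) (nat_lit 6803053253) (nat_lit 200) (nat_lit 5) (nat_lit 206) (nat_lit 5) (nat_lit 201) (nat_lit 5) (nat_lit 464) (nat_lit 372) (nat_lit 304)) (XT.lf (nat_lit 0) (nat_lit 4988651118) (nat_lit 532) (nat_lit 5408879504) (nat_lit 76) (nat_lit 375651953) (nat_lit 194) (nat_lit 5) (nat_lit 201) (nat_lit 5) (nat_lit 195) (nat_lit 5) (nat_lit 465) (nat_lit 372) (nat_lit 303))) (XT.nd (nat_lit 78) (nat_lit 456) (nat_lit 0) (XT.lf (nat_lit 0) (nat_lit 2476174914) (nat_lit 380) (nat_lit 6228682849) (nat_lit 456) (nat_lit 2181699004) (nat_lit 189) (nat_lit 5) (nat_lit 194) (nat_lit 5) (nat_lit 195) (nat_lit 5) (nat_lit 466) (nat_lit 372) (nat_lit 302)) (XT.nd (nat_lit 78) (nat_lit 380) (nat_lit 0) (XT.lf (nat_lit 0) (nat_lit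 1475756458) (nat_lit 456) (nat_lit 472350289) (nat_lit 76) (nat_lit 9053854804) (nat_lit 188) (nat_lit 5) (nat_lit 194) (nat_lit 5) (nat_lit 189) (nat_lit 5) (nat_lit 467) (nat_lit 372) (nat_lit 301)) (XT.lf (nat_lit 0) (nat_lit 5209190378) (nat_lit 456) (nat_lit 3476785826) (nat_lit 76) (nat_lit 2432768959) (nat_lit 183) (nat_lit 5) (nat_lit 189) (nat_lit 5) (nat_lit 184) (nat_lit 5) (nat_lit 468) (nat_lit 372) (nat_lit 300))))))) (XT.nd (nat_lit 702) (nat_lit 8892) (nat_lit 0) (XT.nd (nat_lit 312) (nat_lit 2660) (nat_lit 0) (XT.nd (nat_lit 156) (nat_lit 760) (nat_lit 0) (XT.nd (nat_lit 78) (nat_lit 684) (nat_lit 0) (XT.lf (nat_lit 0) (nat_lit 2362782681) (nat_lit 532) (nat_lit 452385931) (nat_lit 532) (nat_lit 452385931) (nat_lit 777) (nat_lit 4) (nat_lit 784) (nat_lit 5) (nat_lit 784) (nat_lit 4) (nat_lit 394) (nat_lit 373) (nat_lit 373)) (XT.lf (nat_lit 0) (nat_lit 2147679222) (nat_lit 608) (nat_lit 198059297) (nat_lit 684) (nat_lit 4203248290) (nat_lit 768)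 (nat_lit 5) (nat_lit 776) (nat_lit 5) (nat_lit 777) (nat_lit 4) (nat_lit 395) (nat_lit 373) (nat_lit 372))) (XT.nd (nat_lit 78) (nat_lit 760) (nat_lit 0) (XT.lf (nat_lit 0) (nat_lit 5588369907) (nat_lit 684) (nat_lit 417524510) (nat_lit 0) (nat_lit 558343545) (nat_lit 768) (nat_lit 5) (nat_lit 777) (nat_lit 4) (nat_lit 768) (nat_lit 4) (nat_lit 396) (nat_lit 373) (nat_lit 371)) (XT.lf (nat_lit 0) (nat_lit 2235390996) (nat_lit 760) (nat_lit 2955822882) (nat_lit 76) (nat_lit 1389285375) (nat_lit 758) (nat_lit 5) (nat_lit 768) (nat_lit 5) (nat_lit 759) (nat_lit 4) (nat_lit 397) (nat_lit 373) (nat_lit 370)))) (XT.nd (nat_lit 156) (nat_lit 1824) (nat_lit 0) (XT.nd (nat_lit 78) (nat_lit 76) (nat_lit 0) (XT.lf (nat_lit 0) (nat_lit 1111121560) (nat_lit 760) (nat_lit 4322468652) (nat_lit 836) (nat_lit 1164650913) (nat_lit 748) (nat_lit 5) (nat_lit 758) (nat_lit 5) (nat_lit 759) (nat_lit 4) (nat_lit 398) (nat_lit 373) (nat_lit 369)) (XT.lf (nat_lit 0) (nat_lit 1998473096)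 (nat_lit 836) (nat_lit 1384050321) (nat_lit 76) (nat_lit 3234617808) (nat_lit 747) (nat_lit 5) (nat_lit 758) (nat_lit 5) (nat_lit 748) (nat_lit 5) (nat_lit 399) (nat_lit 373) (nat_lit 368))) (XT.nd (nat_lit 78) (nat_lit 988) (nat_lit 0) (XT.lf (nat_lit 0) (nat_lit 2776895960) (nat_lit 836) (nat_lit 2378219783) (nat_lit 912) (nat_lit 1482232602) (nat_lit 736) (nat_lit 5) (nat_lit 747) (nat_lit 5) (nat_lit 748) (nat_lit 5) (nat_lit 400) (nat_lit 373) (nat_lit 367)) (XT.nd (nat_lit 78) (nat_lit 0) (nat_lit 0) (XT.lf (nat_lit 0) (nat_lit 321562523) (nat_lit 912) (nat_lit 1312698485) (nat_lit 988) (nat_lit 5024678705) (nat_lit 723) (nat_lit 5) (nat_lit 735) (nat_lit 5) (nat_lit 736) (nat_lit 5) (nat_lit 401) (nat_lit 373) (nat_lit 366)) (XT.lf (nat_lit 0) (nat_lit 4576458215) (nat_lit 912) (nat_lit 172107737) (nat_lit 988) (nat_lit 1933094435) (nat_lit 723) (nat_lit 5) (nat_lit 735) (nat_lit 5) (nat_lit 736) (nat_lit 5) (nat_lit 402) (nat_lit 373) (nat_lit 365))))))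 (XT.nd (nat_lit 390) (nat_lit 5548) (nat_lit 0) (XT.nd (nat_lit 156) (nat_lit 2280) (nat_lit 0) (XT.nd (nat_lit 78) (nat_lit 0) (nat_lit 0) (XT.lf (nat_lit 0) (nat_lit 1155549827) (nat_lit 1064) (nat_lit 4533227091) (nat_lit 76) (nat_lit 1016875432) (nat_lit 709) (nat_lit 5) (nat_lit 723) (nat_lit 5) (nat_lit 710) (nat_lit 5) (nat_lit 403) (nat_lit 373) (nat_lit 364)) (XT.lf (nat_lit 0) (nat_lit 4226987425) (nat_lit 1064) (nat_lit 233886609) (nat_lit 76) (nat_lit 2270056471) (nat_lit 709) (nat_lit 5) (nat_lit 723) (nat_lit 5) (nat_lit 710) (nat_lit 5) (nat_lit 404) (nat_lit 373) (nat_lit 363))) (XT.nd (nat_lit 78) (nat_lit 1140) (nat_lit 0) (XT.lf (nat_lit 0) (nat_lit 554788823) (nat_lit 1140) (nat_lit 2608351749) (nat_lit 76) (nat_lit 3594304140) (nat_lit 694) (nat_lit 5) (nat_lit 709) (nat_lit 5) (nat_lit 695) (nat_lit 5) (nat_lit 405) (nat_lit 373) (nat_lit 362)) (XT.nd (nat_lit 78) (nat_lit 0) (nat_lit 0) (XT.lf (nat_lit 0) (nat_lit 1791725165) (nat_lit 1140)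 (nat_lit 1796085308) (nat_lit 1216) (nat_lit 3197414853) (nat_lit 679) (nat_lit 5) (nat_lit 694) (nat_lit 5) (nat_lit 695) (nat_lit 5) (nat_lit 406) (nat_lit 373) (nat_lit 361)) (XT.lf (nat_lit 0) (nat_lit 6261887770) (nat_lit 1140) (nat_lit 371466827) (nat_lit 1216) (nat_lit 181169713) (nat_lit 679) (nat_lit 5) (nat_lit 694) (nat_lit 5) (nat_lit 695) (nat_lit 5) (nat_lit 407) (nat_lit 373) (nat_lit 360))))) (XT.nd (nat_lit 156) (nat_lit 2964) (nat_lit 0) (XT.nd (nat_lit 78) (nat_lit 1292) (nat_lit 0) (XT.lf (nat_lit 0) (nat_lit 2825731276) (nat_lit 1292) (nat_lit 2895154480) (nat_lit 76) (nat_lit 1123781447) (nat_lit 662) (nat_lit 5) (nat_lit 679) (nat_lit 5) (nat_lit 663) (nat_lit 5) (nat_lit 408) (nat_lit 373) (nat_lit 359)) (XT.lf (nat_lit 0) (nat_lit 1637560808) (nat_lit 1292) (nat_lit 4205830563) (nat_lit 1368) (nat_lit 1032936695) (nat_lit 645) (nat_lit 5) (nat_lit 662) (nat_lit 5) (nat_lit 663) (nat_lit 5) (nat_lit 409) (nat_lit 373) (nat_lit 358))) (XT.nd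 (nat_lit 78) (nat_lit 2888) (nat_lit 0) (XT.lf (nat_lit 0) (nat_lit 1942645963) (nat_lit 1368) (nat_lit 675829908) (nat_lit 76) (nat_lit 4290759679) (nat_lit 644) (nat_lit 5) (nat_lit 662) (nat_lit 5) (nat_lit 645) (nat_lit 5) (nat_lit 410) (nat_lit 373) (nat_lit 357)) (XT.nd (nat_lit 78) (nat_lit 1520) (nat_lit 0) (XT.lf (nat_lit 0) (nat_lit 3970089749) (nat_lit 1368) (nat_lit 957554744) (nat_lit 1444) (nat_lit 2015745431) (nat_lit 626) (nat_lit 5) (nat_lit 644) (nat_lit 5) (nat_lit 645) (nat_lit 5) (nat_lit 411) (nat_lit 373) (nat_lit 356)) (XT.lf (nat_lit 0) (nat_lit 940082460) (nat_lit 1520) (nat_lit 5282179162) (nat_lit 76) (nat_lit 756656577) (nat_lit 606) (nat_lit 5) (nat_lit 626) (nat_lit 5) (nat_lit 607) (nat_lit 5) (nat_lit 412) (nat_lit 373) (nat_lit 355))))))))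
noncomputable def xc39 : XT := (XT.nd (nat_lit 1482) (nat_lit 9652) (nat_lit 0) (XT.nd (nat_lit 702) (nat_lit 6308) (nat_lit 0) (XT.nd (nat_lit 312) (nat_lit 6536) (nat_lit 0) (XT.nd (nat_lit 156) (nat_lit 1672) (nat_lit 0) (XT.nd (nat_lit 78) (nat_lit 1520) (nat_lit 0) (XT.lf (nat_lit 0) (nat_lit 3893805269) (nat_lit 1520) (nat_lit 588974335) (nat_lit 76) (nat_lit 2532795571) (nat_lit 606) (nat_lit 5) (nat_lit 626) (nat_lit 5) (nat_lit 607) (nat_lit 5) (nat_lit 413) (nat_lit 373) (nat_lit 354)) (XT.lf (nat_lit 0) (nat_lit 4199369705) (nat_lit 1520) (nat_lit 2675005761) (nat_lit 1596) (nat_lit 179234366) (nat_lit 586) (nat_lit 5) (nat_lit 606) (nat_lit 5) (nat_lit 607) (nat_lit 5) (nat_lit 414) (nat_lit 373) (nat_lit 353))) (XT.nd (nat_lit 78) (nat_lit 0) (nat_lit 0) (XT.lf (nat_lit 0) (nat_lit 1952160356) (nat_lit 1596) (nat_lit 790570502) (nat_lit 1672) (nat_lit 4350156018) (nat_lit 564) (nat_lit 5) (nat_lit 585) (nat_lit 5) (nat_lit 586) (nat_lit 5) (nat_lit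 415) (nat_lit 373) (nat_lit 352)) (XT.lf (nat_lit 0) (nat_lit 5689140259) (nat_lit 1672) (nat_lit 302916204) (nat_lit 76) (nat_lit 1141501206) (nat_lit 564) (nat_lit 5) (nat_lit 586) (nat_lit 5) (nat_lit 565) (nat_lit 5) (nat_lit 416) (nat_lit 373) (nat_lit 351)))) (XT.nd (nat_lit 156) (nat_lit 3040) (nat_lit 0) (XT.nd (nat_lit 78) (nat_lit 1748) (nat_lit 0) (XT.lf (nat_lit 0) (nat_lit 1477598607) (nat_lit 1748) (nat_lit 2552006593) (nat_lit 76) (nat_lit 3145677570) (nat_lit 541) (nat_lit 5) (nat_lit 564) (nat_lit 5) (nat_lit 542) (nat_lit 5) (nat_lit 417) (nat_lit 373) (nat_lit 350)) (XT.lf (nat_lit 0) (nat_lit 2401831739) (nat_lit 1748) (nat_lit 1997856276) (nat_lit 1824) (nat_lit 2818743928) (nat_lit 518) (nat_lit 5) (nat_lit 541) (nat_lit 5) (nat_lit 542) (nat_lit 5) (nat_lit 418) (nat_lit 373) (nat_lit 349))) (XT.nd (nat_lit 78) (nat_lit 1140) (nat_lit 0) (XT.lf (nat_lit 0) (nat_lit 78924050) (nat_lit 1900) (nat_lit 7089943946) (nat_lit 76) (nat_lit 94306939)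 (nat_lit 493) (nat_lit 5) (nat_lit 518) (nat_lit 5) (nat_lit 494) (nat_lit 5) (nat_lit 419) (nat_lit 373) (nat_lit 348)) (XT.nd (nat_lit 78) (nat_lit 1140) (nat_lit 0) (XT.lf (nat_lit 0) (nat_lit 2987067909) (nat_lit 1900) (nat_lit 2067663842) (nat_lit 76) (nat_lit 2253903087) (nat_lit 493) (nat_lit 5) (nat_lit 518) (nat_lit 5) (nat_lit 494) (nat_lit 5) (nat_lit 420) (nat_lit 373) (nat_lit 347)) (XT.lf (nat_lit 0) (nat_lit 3040492865) (nat_lit 1140) (nat_lit 2878175037) (nat_lit 1216) (nat_lit 1437030172) (nat_lit 478) (nat_lit 5) (nat_lit 493) (nat_lit 5) (nat_lit 494) (nat_lit 5) (nat_lit 421) (nat_lit 373) (nat_lit 346)))))) (XT.nd (nat_lit 390) (nat_lit 3496) (nat_lit 0) (XT.nd (nat_lit 156) (nat_lit 1824) (nat_lit 0) (XT.nd (nat_lit 78) (nat_lit 0) (nat_lit 0) (XT.lf (nat_lit 0) (nat_lit 821518899) (nat_lit 912) (nat_lit 629151287) (nat_lit 988) (nat_lit 5953532659) (nat_lit 465) (nat_lit 5) (nat_lit 477) (nat_lit 5) (nat_lit 478) (nat_lit 5) (nat_lit 422)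 (nat_lit 373) (nat_lit 345)) (XT.lf (nat_lit 0) (nat_lit 4363472174) (nat_lit 988) (nat_lit 1409651502) (nat_lit 76) (nat_lit 1680632270) (nat_lit 465) (nat_lit 5) (nat_lit 478) (nat_lit 5) (nat_lit 466) (nat_lit 5) (nat_lit 423) (nat_lit 373) (nat_lit 344))) (XT.nd (nat_lit 78) (nat_lit 912) (nat_lit 0) (XT.lf (nat_lit 0) (nat_lit 3858866801) (nat_lit 912) (nat_lit 3452544160) (nat_lit 988) (nat_lit 193351534) (nat_lit 453) (nat_lit 5) (nat_lit 465) (nat_lit 5) (nat_lit 466) (nat_lit 5) (nat_lit 424) (nat_lit 373) (nat_lit 343)) (XT.nd (nat_lit 78) (nat_lit 0) (nat_lit 0) (XT.lf (nat_lit 0) (nat_lit 1644082774) (nat_lit 836) (nat_lit 1049408381) (nat_lit 912) (nat_lit 4863575635) (nat_lit 441) (nat_lit 5) (nat_lit 452) (nat_lit 5) (nat_lit 453) (nat_lit 5) (nat_lit 425) (nat_lit 373) (nat_lit 342)) (XT.lf (nat_lit 0) (nat_lit 5617853200) (nat_lit 912) (nat_lit 586587701) (nat_lit 76) (nat_lit 1406303277) (nat_lit 441) (nat_lit 5) (nat_lit 453) (nat_lit 5) (nat_lit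 442) (nat_lit 5) (nat_lit 426) (nat_lit 373) (nat_lit 341))))) (XT.nd (nat_lit 156) (nat_lit 1672) (nat_lit 0) (XT.nd (nat_lit 78) (nat_lit 836) (nat_lit 0) (XT.lf (nat_lit 0) (nat_lit 910940345) (nat_lit 988) (nat_lit 2823060307) (nat_lit 76) (nat_lit 3931613057) (nat_lit 428) (nat_lit 5) (nat_lit 441) (nat_lit 5) (nat_lit 429) (nat_lit 5) (nat_lit 427) (nat_lit 373) (nat_lit 340)) (XT.lf (nat_lit 0) (nat_lit 2633421129) (nat_lit 836) (nat_lit 1183782226) (nat_lit 912) (nat_lit 3904693017) (nat_lit 417) (nat_lit 5) (nat_lit 428) (nat_lit 5) (nat_lit 429) (nat_lit 5) (nat_lit 428) (nat_lit 373) (nat_lit 339))) (XT.nd (nat_lit 78) (nat_lit 836) (nat_lit 0) (XT.lf (nat_lit 0) (nat_lit 399062106) (nat_lit 836) (nat_lit 6363945308) (nat_lit 912) (nat_lit 1016668958) (nat_lit 406) (nat_lit 5) (nat_lit 417) (nat_lit 5) (nat_lit 418) (nat_lit 5) (nat_lit 429) (nat_lit 373) (nat_lit 338)) (XT.nd (nat_lit 78) (nat_lit 760) (nat_lit 0) (XT.lf (nat_lit 0) (nat_lit 1896869163)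 (nat_lit 912) (nat_lit 1848701041) (nat_lit 76) (nat_lit 4092930180) (nat_lit 405) (nat_lit 5) (nat_lit 417) (nat_lit 5) (nat_lit 406) (nat_lit 5) (nat_lit 430) (nat_lit 373) (nat_lit 337)) (XT.lf (nat_lit 0) (nat_lit 3782304547) (nat_lit 760) (nat_lit 1049136317) (nat_lit 836) (nat_lit 3067398089) (nat_lit 395) (nat_lit 5) (nat_lit 405) (nat_lit 5) (nat_lit 406) (nat_lit 5) (nat_lit 431) (nat_lit 373) (nat_lit 336))))))) (XT.nd (nat_lit 780) (nat_lit 4332) (nat_lit 0) (XT.nd (nat_lit 390) (nat_lit 2204) (nat_lit 0) (XT.nd (nat_lit 156) (nat_lit 2280) (nat_lit 0) (XT.nd (nat_lit 78) (nat_lit 76) (nat_lit 0) (XT.lf (nat_lit 0) (nat_lit 1545018614) (nat_lit 760) (nat_lit 6265608170) (nat_lit 836) (nat_lit 150039053) (nat_lit 385) (nat_lit 5) (nat_lit 395) (nat_lit 5) (nat_lit 396) (nat_lit 5) (nat_lit 432) (nat_lit 373) (nat_lit 335)) (XT.lf (nat_lit 0) (nat_lit 2775989027) (nat_lit 836) (nat_lit 728288903) (nat_lit 76) (nat_lit 4519336789) (nat_lit 384) (nat_lit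 5) (nat_lit 395) (nat_lit 5) (nat_lit 385) (nat_lit 5) (nat_lit 433) (nat_lit 373) (nat_lit 334))) (XT.nd (nat_lit 78) (nat_lit 1520) (nat_lit 0) (XT.lf (nat_lit 0) (nat_lit 5084349657) (nat_lit 760) (nat_lit 660746760) (nat_lit 836) (nat_lit 2342974968) (nat_lit 374) (nat_lit 5) (nat_lit 384) (nat_lit 5) (nat_lit 385) (nat_lit 5) (nat_lit 434) (nat_lit 373) (nat_lit 333)) (XT.nd (nat_lit 78) (nat_lit 684) (nat_lit 0) (XT.lf (nat_lit 0) (nat_lit 603534946) (nat_lit 836) (nat_lit 5320581718) (nat_lit 76) (nat_lit 2229782152) (nat_lit 363) (nat_lit 5) (nat_lit 374) (nat_lit 5) (nat_lit 364) (nat_lit 5) (nat_lit 435) (nat_lit 373) (nat_lit 332)) (XT.lf (nat_lit 0) (nat_lit 539307743) (nat_lit 684) (nat_lit 3020804040) (nat_lit 760) (nat_lit 4660971089) (nat_lit 354) (nat_lit 5) (nat_lit 363) (nat_lit 5) (nat_lit 364) (nat_lit 5) (nat_lit 436) (nat_lit 373) (nat_lit 331))))) (XT.nd (nat_lit 156) (nat_lit 1444) (nat_lit 0) (XT.nd (nat_lit 78) (nat_lit 760) (nat_lit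 0) (XT.lf (nat_lit 0) (nat_lit 6533965180) (nat_lit 684) (nat_lit 32412969) (nat_lit 760) (nat_lit 1723421298) (nat_lit 354) (nat_lit 5) (nat_lit 363) (nat_lit 5) (nat_lit 364) (nat_lit 5) (nat_lit 437) (nat_lit 373) (nat_lit 330)) (XT.lf (nat_lit 0) (nat_lit 1259193427) (nat_lit 760) (nat_lit 4097365324) (nat_lit 76) (nat_lit 3003106156) (nat_lit 344) (nat_lit 5) (nat_lit 354) (nat_lit 5) (nat_lit 345) (nat_lit 5) (nat_lit 438) (nat_lit 373) (nat_lit 329))) (XT.nd (nat_lit 78) (nat_lit 760) (nat_lit 0) (XT.lf (nat_lit 0) (nat_lit 1953280360) (nat_lit 684) (nat_lit 2305790402) (nat_lit 760) (nat_lit 4172015341) (nat_lit 335) (nat_lit 5) (nat_lit 344) (nat_lit 5) (nat_lit 345) (nat_lit 5) (nat_lit 439) (nat_lit 373) (nat_lit 328)) (XT.nd (nat_lit 78) (nat_lit 760) (nat_lit 0) (XT.lf (nat_lit 0) (nat_lit 7308208341) (nat_lit 760) (nat_lit 383301175) (nat_lit 76) (nat_lit 812640951) (nat_lit 335) (nat_lit 5) (nat_lit 345) (nat_lit 5) (nat_lit 336) (nat_lit 5) (nat_lit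 440) (nat_lit 373) (nat_lit 327)) (XT.lf (nat_lit 0) (nat_lit 1825992640) (nat_lit 760) (nat_lit 2749960442) (nat_lit 76) (nat_lit 4002274802) (nat_lit 325) (nat_lit 5) (nat_lit 335) (nat_lit 5) (nat_lit 326) (nat_lit 5) (nat_lit 441) (nat_lit 373) (nat_lit 326)))))) (XT.nd (nat_lit 390) (nat_lit 1824) (nat_lit 0) (XT.nd (nat_lit 156) (nat_lit 1292) (nat_lit 0) (XT.nd (nat_lit 78) (nat_lit 608) (nat_lit 0) (XT.lf (nat_lit 0) (nat_lit 3499372216) (nat_lit 608) (nat_lit 1375723809) (nat_lit 684) (nat_lit 3778877851) (nat_lit 317) (nat_lit 5) (nat_lit 325) (nat_lit 5) (nat_lit 326) (nat_lit 5) (nat_lit 442) (nat_lit 373) (nat_lit 325)) (XT.lf (nat_lit 0) (nat_lit 1127988917) (nat_lit 608) (nat_lit 6853182922) (nat_lit 684) (nat_lit 750143140) (nat_lit 309) (nat_lit 5) (nat_lit 317) (nat_lit 5) (nat_lit 318) (nat_lit 5) (nat_lit 443) (nat_lit 373) (nat_lit 324))) (XT.nd (nat_lit 78) (nat_lit 1216) (nat_lit 0) (XT.lf (nat_lit 0) (nat_lit 2310446024) (nat_lit 684)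 (nat_lit 1282657577) (nat_lit 76) (nat_lit 5216756389) (nat_lit 308) (nat_lit 5) (nat_lit 317) (nat_lit 5) (nat_lit 309) (nat_lit 5) (nat_lit 444) (nat_lit 373) (nat_lit 323)) (XT.nd (nat_lit 78) (nat_lit 608) (nat_lit 0) (XT.lf (nat_lit 0) (nat_lit 5173660404) (nat_lit 608) (nat_lit 240993778) (nat_lit 684) (nat_lit 3475373517) (nat_lit 300) (nat_lit 5) (nat_lit 308) (nat_lit 5) (nat_lit 309) (nat_lit 5) (nat_lit 445) (nat_lit 373) (nat_lit 322)) (XT.lf (nat_lit 0) (nat_lit 2766426902) (nat_lit 608) (nat_lit 5821010435) (nat_lit 684) (nat_lit 384231607) (nat_lit 292) (nat_lit 5) (nat_lit 300) (nat_lit 5) (nat_lit 301) (nat_lit 5) (nat_lit 446) (nat_lit 373) (nat_lit 321))))) (XT.nd (nat_lit 156) (nat_lit 1216) (nat_lit 0) (XT.nd (nat_lit 78) (nat_lit 0) (nat_lit 0) (XT.lf (nat_lit 0) (nat_lit 304857371) (nat_lit 532) (nat_lit 2415656844) (nat_lit 608) (nat_lit 6334307403) (nat_lit 284) (nat_lit 5) (nat_lit 291) (nat_lit 5) (nat_lit 292) (nat_lit 5) (nat_lit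 447) (nat_lit 373) (nat_lit 320)) (XT.lf (nat_lit 0) (nat_lit 5890770398) (nat_lit 608) (nat_lit 2173789831) (nat_lit 76) (nat_lit 1074855112) (nat_lit 284) (nat_lit 5) (nat_lit 292) (nat_lit 5) (nat_lit 285) (nat_lit 5) (nat_lit 448) (nat_lit 373) (nat_lit 319))) (XT.nd (nat_lit 78) (nat_lit 608) (nat_lit 0) (XT.lf (nat_lit 0) (nat_lit 4523740555) (nat_lit 608) (nat_lit 4606620126) (nat_lit 684) (nat_lit 95221680) (nat_lit 276) (nat_lit 5) (nat_lit 284) (nat_lit 5) (nat_lit 285) (nat_lit 5) (nat_lit 449) (nat_lit 373) (nat_lit 318)) (XT.nd (nat_lit 78) (nat_lit 0) (nat_lit 0) (XT.lf (nat_lit 0) (nat_lit 2024020937) (nat_lit 532) (nat_lit 1044868289) (nat_lit 608) (nat_lit 6244407082) (nat_lit 268) (nat_lit 5) (nat_lit 275) (nat_lit 5) (nat_lit 276) (nat_lit 5) (nat_lit 450) (nat_lit 373) (nat_lit 317)) (XT.lf (nat_lit 0) (nat_lit 6304633010) (nat_lit 608) (nat_lit 525640457) (nat_lit 76) (nat_lit 2572285967) (nat_lit 268) (nat_lit 5) (nat_lit 276) (nat_lit 5)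 (nat_lit 269) (nat_lit 5) (nat_lit 451) (nat_lit 373) (nat_lit 316))))))))
noncomputable def xc40 : XT := (XT.nd (nat_lit 54834) (nat_lit 0) (nat_lit 32148) (XT.nd (nat_lit 702) (nat_lit 2736) (nat_lit 0) (XT.nd (nat_lit 312) (nat_lit 1976) (nat_lit 0) (XT.nd (nat_lit 156) (nat_lit 608) (nat_lit 0) (XT.nd (nat_lit 78) (nat_lit 532) (nat_lit 0) (XT.lf (nat_lit 0) (nat_lit 120368464) (nat_lit 608) (nat_lit 3096885236) (nat_lit 76) (nat_lit 6276132711) (nat_lit 260) (nat_lit 5) (nat_lit 268) (nat_lit 5) (nat_lit 261) (nat_lit 5) (nat_lit 452) (nat_lit 373) (nat_lit 315)) (XT.lf (nat_lit 0) (nat_lit 3355414239) (nat_lit 608) (nat_lit 5733898428) (nat_lit 76) (nat_lit 496430390) (nat_lit 253) (nat_lit 5) (nat_lit 261) (nat_lit 5) (nat_lit 254) (nat_lit 5) (nat_lit 453) (nat_lit 373) (nat_lit 314))) (XT.nd (nat_lit 78) (nat_lit 76) (nat_lit 0) (XT.lf (nat_lit 0) (nat_lit 1243459056) (nat_lit 532) (nat_lit 5424286086) (nat_lit 608) (nat_lit 3011950009) (nat_lit 246)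 (nat_lit 5) (nat_lit 253) (nat_lit 5) (nat_lit 254) (nat_lit 5) (nat_lit 454) (nat_lit 373) (nat_lit 313)) (XT.lf (nat_lit 0) (nat_lit 268410217) (nat_lit 608) (nat_lit 1392231643) (nat_lit 76) (nat_lit 8114825955) (nat_lit 245) (nat_lit 5) (nat_lit 253) (nat_lit 5) (nat_lit 246) (nat_lit 5) (nat_lit 455) (nat_lit 373) (nat_lit 312)))) (XT.nd (nat_lit 156) (nat_lit 988) (nat_lit 0) (XT.nd (nat_lit 78) (nat_lit 532) (nat_lit 0) (XT.lf (nat_lit 0) (nat_lit 3589310363) (nat_lit 532) (nat_lit 4090938689) (nat_lit 76) (nat_lit 2192203448) (nat_lit 239) (nat_lit 5) (nat_lit 246) (nat_lit 5) (nat_lit 240) (nat_lit 5) (nat_lit 456) (nat_lit 373) (nat_lit 311)) (XT.lf (nat_lit 0) (nat_lit 3123540875) (nat_lit 532) (nat_lit 3857221094) (nat_lit 608) (nat_lit 2990532239) (nat_lit 232) (nat_lit 5) (nat_lit 239) (nat_lit 5) (nat_lit 240) (nat_lit 5) (nat_lit 457) (nat_lit 373) (nat_lit 310))) (XT.nd (nat_lit 78) (nat_lit 456) (nat_lit 0) (XT.lf (nat_lit 0) (nat_lit 357412475)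 (nat_lit 532) (nat_lit 9656401201) (nat_lit 76) (nat_lit 58365135) (nat_lit 225) (nat_lit 5) (nat_lit 232) (nat_lit 5) (nat_lit 226) (nat_lit 5) (nat_lit 458) (nat_lit 373) (nat_lit 309)) (XT.nd (nat_lit 78) (nat_lit 456) (nat_lit 0) (XT.lf (nat_lit 0) (nat_lit 3767964363) (nat_lit 532) (nat_lit 2355597077) (nat_lit 76) (nat_lit 4050410489) (nat_lit 225) (nat_lit 5) (nat_lit 232) (nat_lit 5) (nat_lit 226) (nat_lit 5) (nat_lit 459) (nat_lit 373) (nat_lit 308)) (XT.lf (nat_lit 0) (nat_lit 5106049091) (nat_lit 456) (nat_lit 2138392032) (nat_lit 532) (nat_lit 3033405510) (nat_lit 219) (nat_lit 5) (nat_lit 225) (nat_lit 5) (nat_lit 226) (nat_lit 5) (nat_lit 460) (nat_lit 373) (nat_lit 307)))))) (XT.nd (nat_lit 390) (nat_lit 836) (nat_lit 0) (XT.nd (nat_lit 156) (nat_lit 1368) (nat_lit 0) (XT.nd (nat_lit 78) (nat_lit 0) (nat_lit 0) (XT.lf (nat_lit 0) (nat_lit 409736713) (nat_lit 532) (nat_lit 8055383644) (nat_lit 76) (nat_lit 1918457241) (nat_lit 212) (nat_lit 5) (nat_lit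 219) (nat_lit 5) (nat_lit 213) (nat_lit 5) (nat_lit 461) (nat_lit 373) (nat_lit 306)) (XT.lf (nat_lit 0) (nat_lit 3895192636) (nat_lit 532) (nat_lit 529431009) (nat_lit 76) (nat_lit 6066117157) (nat_lit 212) (nat_lit 5) (nat_lit 219) (nat_lit 5) (nat_lit 213) (nat_lit 5) (nat_lit 462) (nat_lit 373) (nat_lit 305))) (XT.nd (nat_lit 78) (nat_lit 912) (nat_lit 0) (XT.lf (nat_lit 0) (nat_lit 7189854419) (nat_lit 456) (nat_lit 272805473) (nat_lit 532) (nat_lit 3137141335) (nat_lit 206) (nat_lit 5) (nat_lit 212) (nat_lit 5) (nat_lit 213) (nat_lit 5) (nat_lit 463) (nat_lit 373) (nat_lit 304)) (XT.nd (nat_lit 78) (nat_lit 456) (nat_lit 0) (XT.lf (nat_lit 0) (nat_lit 408792743) (nat_lit 456) (nat_lit 6374087595) (nat_lit 76) (nat_lit 3927642227) (nat_lit 200) (nat_lit 5) (nat_lit 206) (nat_lit 5) (nat_lit 201) (nat_lit 5) (nat_lit 464) (nat_lit 373) (nat_lit 303)) (XT.lf (nat_lit 0) (nat_lit 1404831514) (nat_lit 456) (nat_lit 2578772751) (nat_lit 532) (nat_lit 6839440035)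 (nat_lit 194) (nat_lit 5) (nat_lit 200) (nat_lit 5) (nat_lit 201) (nat_lit 5) (nat_lit 465) (nat_lit 373) (nat_lit 302))))) (XT.nd (nat_lit 156) (nat_lit 380) (nat_lit 0) (XT.nd (nat_lit 78) (nat_lit 456) (nat_lit 0) (XT.lf (nat_lit 0) (nat_lit 7650249073) (nat_lit 532) (nat_lit 1574654711) (nat_lit 76) (nat_lit 1712505944) (nat_lit 194) (nat_lit 5) (nat_lit 201) (nat_lit 5) (nat_lit 195) (nat_lit 5) (nat_lit 466) (nat_lit 373) (nat_lit 301)) (XT.lf (nat_lit 0) (nat_lit 357675486) (nat_lit 456) (nat_lit 4613736666) (nat_lit 76) (nat_lit 6082088261) (nat_lit 188) (nat_lit 5) (nat_lit 194) (nat_lit 5) (nat_lit 189) (nat_lit 5) (nat_lit 467) (nat_lit 373) (nat_lit 300))) (XT.nd (nat_lit 53430) (nat_lit 0) (nat_lit 45144) (XT.lf (nat_lit 0) (nat_lit 3436214855) (nat_lit 380) (nat_lit 595114788) (nat_lit 456) (nat_lit 7140149977) (nat_lit 183) (nat_lit 5) (nat_lit 188) (nat_lit 5) (nat_lit 189) (nat_lit 5) (nat_lit 468) (nat_lit 373) (nat_lit 299)) (XT.nd (nat_lit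 78) (nat_lit 532) (nat_lit 0) (XT.lf (nat_lit 0) (nat_lit 866232092) (nat_lit 532) (nat_lit 1522731172) (nat_lit 0) (nat_lit 866232092) (nat_lit 784) (nat_lit 5) (nat_lit 791) (nat_lit 4) (nat_lit 784) (nat_lit 4) (nat_lit 392) (nat_lit 374) (nat_lit 374)) (XT.lf (nat_lit 0) (nat_lit 793981951) (nat_lit 532) (nat_lit 4185494307) (nat_lit 532) (nat_lit 1542967468) (nat_lit 777) (nat_lit 4) (nat_lit 784) (nat_lit 5) (nat_lit 784) (nat_lit 4) (nat_lit 393) (nat_lit 374) (nat_lit 373))))))) (XT.nd (nat_lit 702) (nat_lit 8816) (nat_lit 0) (XT.nd (nat_lit 312) (nat_lit 2736) (nat_lit 0) (XT.nd (nat_lit 156) (nat_lit 760) (nat_lit 0) (XT.nd (nat_lit 78) (nat_lit 608) (nat_lit 0) (XT.lf (nat_lit 0) (nat_lit 1676474351) (nat_lit 608) (nat_lit 1846761236) (nat_lit 76) (nat_lit 3012417640) (nat_lit 776) (nat_lit 5) (nat_lit 784) (nat_lit 5) (nat_lit 777) (nat_lit 4) (nat_lit 394) (nat_lit 374) (nat_lit 372)) (XT.lf (nat_lit 0) (nat_lit 2078250434) (nat_lit 608) (nat_lit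 2798682319) (nat_lit 684) (nat_lit 1673244423) (nat_lit 768) (nat_lit 5) (nat_lit 776) (nat_lit 5) (nat_lit 777) (nat_lit 4) (nat_lit 395) (nat_lit 374) (nat_lit 371))) (XT.nd (nat_lit 78) (nat_lit 684) (nat_lit 0) (XT.lf (nat_lit 0) (nat_lit 1492650260) (nat_lit 684) (nat_lit 520292649) (nat_lit 76) (nat_lit 4553105665) (nat_lit 767) (nat_lit 5) (nat_lit 776) (nat_lit 5) (nat_lit 768) (nat_lit 5) (nat_lit 396) (nat_lit 374) (nat_lit 370)) (XT.lf (nat_lit 0) (nat_lit 3494111676) (nat_lit 684) (nat_lit 1153976606) (nat_lit 760) (nat_lit 1934955312) (nat_lit 758) (nat_lit 5) (nat_lit 767) (nat_lit 5) (nat_lit 768) (nat_lit 5) (nat_lit 397) (nat_lit 374) (nat_lit 369)))) (XT.nd (nat_lit 156) (nat_lit 1900) (nat_lit 0) (XT.nd (nat_lit 78) (nat_lit 0) (nat_lit 0) (XT.lf (nat_lit 0) (nat_lit 948090360) (nat_lit 760) (nat_lit 237792709) (nat_lit 836) (nat_lit 5415606343) (nat_lit 747) (nat_lit 5) (nat_lit 757) (nat_lit 5) (nat_lit 758) (nat_lit 5) (nat_lit 398) (nat_lit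 374) (nat_lit 368)) (XT.lf (nat_lit 0) (nat_lit 4296449359) (nat_lit 836) (nat_lit 1582531209) (nat_lit 76) (nat_lit 742003374) (nat_lit 747) (nat_lit 5) (nat_lit 758) (nat_lit 5) (nat_lit 748) (nat_lit 5) (nat_lit 399) (nat_lit 374) (nat_lit 367))) (XT.nd (nat_lit 78) (nat_lit 988) (nat_lit 0) (XT.lf (nat_lit 0) (nat_lit 764497794) (nat_lit 912) (nat_lit 4097184910) (nat_lit 76) (nat_lit 1780138028) (nat_lit 735) (nat_lit 5) (nat_lit 747) (nat_lit 5) (nat_lit 736) (nat_lit 5) (nat_lit 400) (nat_lit 374) (nat_lit 366)) (XT.nd (nat_lit 78) (nat_lit 76) (nat_lit 0) (XT.lf (nat_lit 0) (nat_lit 45624298) (nat_lit 912) (nat_lit 3779390217) (nat_lit 988) (nat_lit 2838935855) (nat_lit 723) (nat_lit 5) (nat_lit 735) (nat_lit 5) (nat_lit 736) (nat_lit 5) (nat_lit 401) (nat_lit 374) (nat_lit 365)) (XT.lf (nat_lit 0) (nat_lit 214876440) (nat_lit 988) (nat_lit 2414041625) (nat_lit 76) (nat_lit 4058409339) (nat_lit 722) (nat_lit 5) (nat_lit 735) (nat_lit 5) (nat_lit 723)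 (nat_lit 5) (nat_lit 402) (nat_lit 374) (nat_lit 364)))))) (XT.nd (nat_lit 390) (nat_lit 5472) (nat_lit 0) (XT.nd (nat_lit 156) (nat_lit 2356) (nat_lit 0) (XT.nd (nat_lit 78) (nat_lit 0) (nat_lit 0) (XT.lf (nat_lit 0) (nat_lit 1827510024) (nat_lit 988) (nat_lit 1407901316) (nat_lit 1064) (nat_lit 3476512139) (nat_lit 709) (nat_lit 5) (nat_lit 722) (nat_lit 5) (nat_lit 723) (nat_lit 5) (nat_lit 403) (nat_lit 374) (nat_lit 363)) (XT.lf (nat_lit 0) (nat_lit 6134971978) (nat_lit 988) (nat_lit 130345974) (nat_lit 1064) (nat_lit 472714302) (nat_lit 709) (nat_lit 5) (nat_lit 722) (nat_lit 5) (nat_lit 723) (nat_lit 5) (nat_lit 404) (nat_lit 374) (nat_lit 362))) (XT.nd (nat_lit 78) (nat_lit 1216) (nat_lit 0) (XT.lf (nat_lit 0) (nat_lit 2523115530) (nat_lit 1140) (nat_lit 3028454870) (nat_lit 76) (nat_lit 1213437543) (nat_lit 694) (nat_lit 5) (nat_lit 709) (nat_lit 5) (nat_lit 695) (nat_lit 5) (nat_lit 405) (nat_lit 374) (nat_lit 361)) (XT.nd (nat_lit 78) (nat_lit 76)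 (nat_lit 0) (XT.lf (nat_lit 0) (nat_lit 1339666450) (nat_lit 1140) (nat_lit 4181211164) (nat_lit 1216) (nat_lit 1272616133) (nat_lit 679) (nat_lit 5) (nat_lit 694) (nat_lit 5) (nat_lit 695) (nat_lit 5) (nat_lit 406) (nat_lit 374) (nat_lit 360)) (XT.lf (nat_lit 0) (nat_lit 1688691456) (nat_lit 1216) (nat_lit 1050566194) (nat_lit 76) (nat_lit 4083950055) (nat_lit 678) (nat_lit 5) (nat_lit 694) (nat_lit 5) (nat_lit 679) (nat_lit 5) (nat_lit 407) (nat_lit 374) (nat_lit 359))))) (XT.nd (nat_lit 156) (nat_lit 2888) (nat_lit 0) (XT.nd (nat_lit 78) (nat_lit 1368) (nat_lit 0) (XT.lf (nat_lit 0) (nat_lit 3425206290) (nat_lit 1216) (nat_lit 1225722949) (nat_lit 1292) (nat_lit 2203243577) (nat_lit 662) (nat_lit 5) (nat_lit 678) (nat_lit 5) (nat_lit 679) (nat_lit 5) (nat_lit 408) (nat_lit 374) (nat_lit 358)) (XT.lf (nat_lit 0) (nat_lit 729662017) (nat_lit 1368) (nat_lit 5813366935) (nat_lit 76) (nat_lit 343559636) (nat_lit 644) (nat_lit 5) (nat_lit 662) (nat_lit 5) (nat_lit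 645) (nat_lit 5) (nat_lit 409) (nat_lit 374) (nat_lit 357))) (XT.nd (nat_lit 78) (nat_lit 2888) (nat_lit 0) (XT.lf (nat_lit 0) (nat_lit 3660977652) (nat_lit 1368) (nat_lit 1283623342) (nat_lit 76) (nat_lit 1975375345) (nat_lit 644) (nat_lit 5) (nat_lit 662) (nat_lit 5) (nat_lit 645) (nat_lit 5) (nat_lit 410) (nat_lit 374) (nat_lit 356)) (XT.nd (nat_lit 78) (nat_lit 1520) (nat_lit 0) (XT.lf (nat_lit 0) (nat_lit 3327906070) (nat_lit 1368) (nat_lit 3283783107) (nat_lit 1444) (nat_lit 343127277) (nat_lit 626) (nat_lit 5) (nat_lit 644) (nat_lit 5) (nat_lit 645) (nat_lit 5) (nat_lit 411) (nat_lit 374) (nat_lit 355)) (XT.lf (nat_lit 0) (nat_lit 1001973795) (nat_lit 1444) (nat_lit 1549377155) (nat_lit 1520) (nat_lit 4439564844) (nat_lit 606) (nat_lit 5) (nat_lit 625) (nat_lit 5) (nat_lit 626) (nat_lit 5) (nat_lit 412) (nat_lit 374) (nat_lit 354))))))))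
noncomputable def xc41 : XT := (XT.nd (nat_lit 1482) (nat_lit 9120) (nat_lit 0) (XT.nd (nat_lit 702) (nat_lit 6308) (nat_lit 0) (XT.nd (nat_lit 312) (nat_lit 6536) (nat_lit 0) (XT.nd (nat_lit 156) (nat_lit 1596) (nat_lit 0) (XT.nd (nat_lit 78) (nat_lit 1596) (nat_lit 0) (XT.lf (nat_lit 0) (nat_lit 5465562611) (nat_lit 1520) (nat_lit 1312311436) (nat_lit 76) (nat_lit 250488946) (nat_lit 606) (nat_lit 5) (nat_lit 626) (nat_lit 5) (nat_lit 607) (nat_lit 5) (nat_lit 413) (nat_lit 374) (nat_lit 353)) (XT.lf (nat_lit 0) (nat_lit 1327611143) (nat_lit 1596) (nat_lit 3635846817) (nat_lit 76) (nat_lit 2103441097) (nat_lit 585) (nat_lit 5) (nat_lit 606) (nat_lit 5) (nat_lit 586) (nat_lit 5) (nat_lit 414) (nat_lit 374) (nat_lit 352))) (XT.nd (nat_lit 78) (nat_lit 0) (nat_lit 0) (XT.lf (nat_lit 0) (nat_lit 1132316792) (nat_lit 1596) (nat_lit 3080920988) (nat_lit 1672) (nat_lit 2893594805) (nat_lit 564) (nat_lit 5) (nat_lit 585) (nat_lit 5) (nat_lit 586) (nat_lit 5) (nat_lit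 415) (nat_lit 374) (nat_lit 351)) (XT.lf (nat_lit 0) (nat_lit 5992310369) (nat_lit 1596) (nat_lit 1131554297) (nat_lit 1672) (nat_lit 24354364) (nat_lit 564) (nat_lit 5) (nat_lit 585) (nat_lit 5) (nat_lit 586) (nat_lit 5) (nat_lit 416) (nat_lit 374) (nat_lit 350)))) (XT.nd (nat_lit 156) (nat_lit 3040) (nat_lit 0) (XT.nd (nat_lit 78) (nat_lit 1748) (nat_lit 0) (XT.lf (nat_lit 0) (nat_lit 2837979764) (nat_lit 1748) (nat_lit 3459868440) (nat_lit 76) (nat_lit 892732676) (nat_lit 541) (nat_lit 5) (nat_lit 564) (nat_lit 5) (nat_lit 542) (nat_lit 5) (nat_lit 417) (nat_lit 374) (nat_lit 349)) (XT.lf (nat_lit 0) (nat_lit 1455158068) (nat_lit 1748) (nat_lit 4271253150) (nat_lit 1824) (nat_lit 1507991994) (nat_lit 518) (nat_lit 5) (nat_lit 541) (nat_lit 5) (nat_lit 542) (nat_lit 5) (nat_lit 418) (nat_lit 374) (nat_lit 348))) (XT.nd (nat_lit 78) (nat_lit 2964) (nat_lit 0) (XT.lf (nat_lit 0) (nat_lit 1343413876) (nat_lit 1824) (nat_lit 826157092) (nat_lit 76) (nat_lit 5109986459)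 (nat_lit 517) (nat_lit 5) (nat_lit 541) (nat_lit 5) (nat_lit 518) (nat_lit 5) (nat_lit 419) (nat_lit 374) (nat_lit 347)) (XT.nd (nat_lit 78) (nat_lit 1140) (nat_lit 0) (XT.lf (nat_lit 0) (nat_lit 4205045925) (nat_lit 1900) (nat_lit 3107353296) (nat_lit 76) (nat_lit 13548345) (nat_lit 493) (nat_lit 5) (nat_lit 518) (nat_lit 5) (nat_lit 494) (nat_lit 5) (nat_lit 420) (nat_lit 374) (nat_lit 346)) (XT.lf (nat_lit 0) (nat_lit 1960210539) (nat_lit 1140) (nat_lit 5142995709) (nat_lit 1216) (nat_lit 270473348) (nat_lit 478) (nat_lit 5) (nat_lit 493) (nat_lit 5) (nat_lit 494) (nat_lit 5) (nat_lit 421) (nat_lit 374) (nat_lit 345)))))) (XT.nd (nat_lit 390) (nat_lit 3496) (nat_lit 0) (XT.nd (nat_lit 156) (nat_lit 1824) (nat_lit 0) (XT.nd (nat_lit 78) (nat_lit 912) (nat_lit 0) (XT.lf (nat_lit 0) (nat_lit 2570342813) (nat_lit 1216) (nat_lit 321693162) (nat_lit 76) (nat_lit 4530628601) (nat_lit 477) (nat_lit 5) (nat_lit 493) (nat_lit 5) (nat_lit 478) (nat_lit 5) (nat_lit 422)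 (nat_lit 374) (nat_lit 344)) (XT.lf (nat_lit 0) (nat_lit 4881470388) (nat_lit 912) (nat_lit 562593622) (nat_lit 988) (nat_lit 2028935284) (nat_lit 465) (nat_lit 5) (nat_lit 477) (nat_lit 5) (nat_lit 478) (nat_lit 5) (nat_lit 423) (nat_lit 374) (nat_lit 343))) (XT.nd (nat_lit 78) (nat_lit 836) (nat_lit 0) (XT.lf (nat_lit 0) (nat_lit 819387247) (nat_lit 988) (nat_lit 4891914371) (nat_lit 76) (nat_lit 1813336027) (nat_lit 452) (nat_lit 5) (nat_lit 465) (nat_lit 5) (nat_lit 453) (nat_lit 5) (nat_lit 424) (nat_lit 374) (nat_lit 342)) (XT.nd (nat_lit 78) (nat_lit 0) (nat_lit 0) (XT.lf (nat_lit 0) (nat_lit 353306935) (nat_lit 836) (nat_lit 3316765376) (nat_lit 912) (nat_lit 3907516957) (nat_lit 441) (nat_lit 5) (nat_lit 452) (nat_lit 5) (nat_lit 453) (nat_lit 5) (nat_lit 425) (nat_lit 374) (nat_lit 341)) (XT.lf (nat_lit 0) (nat_lit 5716419458) (nat_lit 836) (nat_lit 843845220) (nat_lit 912) (nat_lit 1071685373) (nat_lit 441) (nat_lit 5) (nat_lit 452) (nat_lit 5) (nat_lit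 453) (nat_lit 5) (nat_lit 426) (nat_lit 374) (nat_lit 340))))) (XT.nd (nat_lit 156) (nat_lit 1672) (nat_lit 0) (XT.nd (nat_lit 78) (nat_lit 836) (nat_lit 0) (XT.lf (nat_lit 0) (nat_lit 1781009488) (nat_lit 988) (nat_lit 4218528573) (nat_lit 76) (nat_lit 1687942992) (nat_lit 428) (nat_lit 5) (nat_lit 441) (nat_lit 5) (nat_lit 429) (nat_lit 5) (nat_lit 427) (nat_lit 374) (nat_lit 339)) (XT.lf (nat_lit 0) (nat_lit 1192546399) (nat_lit 836) (nat_lit 3461081831) (nat_lit 912) (nat_lit 3090808371) (nat_lit 417) (nat_lit 5) (nat_lit 428) (nat_lit 5) (nat_lit 429) (nat_lit 5) (nat_lit 428) (nat_lit 374) (nat_lit 338))) (XT.nd (nat_lit 78) (nat_lit 1672) (nat_lit 0) (XT.lf (nat_lit 0) (nat_lit 6715829980) (nat_lit 836) (nat_lit 847730480) (nat_lit 912) (nat_lit 239373577) (nat_lit 417) (nat_lit 5) (nat_lit 428) (nat_lit 5) (nat_lit 429) (nat_lit 5) (nat_lit 429) (nat_lit 374) (nat_lit 337)) (XT.nd (nat_lit 78) (nat_lit 760) (nat_lit 0) (XT.lf (nat_lit 0) (nat_lit 2627408395)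 (nat_lit 912) (nat_lit 3399150177) (nat_lit 76) (nat_lit 1835829779) (nat_lit 405) (nat_lit 5) (nat_lit 417) (nat_lit 5) (nat_lit 406) (nat_lit 5) (nat_lit 430) (nat_lit 374) (nat_lit 336)) (XT.lf (nat_lit 0) (nat_lit 2184488094) (nat_lit 760) (nat_lit 3343727344) (nat_lit 836) (nat_lit 2395186776) (nat_lit 395) (nat_lit 5) (nat_lit 405) (nat_lit 5) (nat_lit 406) (nat_lit 5) (nat_lit 431) (nat_lit 374) (nat_lit 335))))))) (XT.nd (nat_lit 702) (nat_lit 4560) (nat_lit 0) (XT.nd (nat_lit 312) (nat_lit 2128) (nat_lit 0) (XT.nd (nat_lit 156) (nat_lit 1596) (nat_lit 0) (XT.nd (nat_lit 78) (nat_lit 760) (nat_lit 0) (XT.lf (nat_lit 0) (nat_lit 470811757) (nat_lit 836) (nat_lit 116335992) (nat_lit 76) (nat_lit 7398903786) (nat_lit 394) (nat_lit 5) (nat_lit 405) (nat_lit 5) (nat_lit 395) (nat_lit 5) (nat_lit 432) (nat_lit 374) (nat_lit 334)) (XT.lf (nat_lit 0) (nat_lit 3367296847) (nat_lit 836) (nat_lit 2440557120) (nat_lit 76) (nat_lit 2241678470) (nat_lit 384) (nat_lit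 5) (nat_lit 395) (nat_lit 5) (nat_lit 385) (nat_lit 5) (nat_lit 433) (nat_lit 374) (nat_lit 333))) (XT.nd (nat_lit 78) (nat_lit 836) (nat_lit 0) (XT.lf (nat_lit 0) (nat_lit 3322693047) (nat_lit 760) (nat_lit 2979731571) (nat_lit 836) (nat_lit 1812244079) (nat_lit 374) (nat_lit 5) (nat_lit 384) (nat_lit 5) (nat_lit 385) (nat_lit 5) (nat_lit 434) (nat_lit 374) (nat_lit 332)) (XT.lf (nat_lit 0) (nat_lit 1006009688) (nat_lit 760) (nat_lit 72247865) (nat_lit 836) (nat_lit 7103150610) (nat_lit 363) (nat_lit 5) (nat_lit 373) (nat_lit 5) (nat_lit 374) (nat_lit 5) (nat_lit 435) (nat_lit 374) (nat_lit 331)))) (XT.nd (nat_lit 156) (nat_lit 1444) (nat_lit 0) (XT.nd (nat_lit 78) (nat_lit 684) (nat_lit 0) (XT.lf (nat_lit 0) (nat_lit 4008689645) (nat_lit 836) (nat_lit 1348764656) (nat_lit 76) (nat_lit 2891660812) (nat_lit 363) (nat_lit 5) (nat_lit 374) (nat_lit 5) (nat_lit 364) (nat_lit 5) (nat_lit 436) (nat_lit 374) (nat_lit 330)) (XT.lf (nat_lit 0) (nat_lit 4601492142) (nat_lit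 684) (nat_lit 2382679181) (nat_lit 760) (nat_lit 1334276059) (nat_lit 354) (nat_lit 5) (nat_lit 363) (nat_lit 5) (nat_lit 364) (nat_lit 5) (nat_lit 437) (nat_lit 374) (nat_lit 329))) (XT.nd (nat_lit 78) (nat_lit 684) (nat_lit 0) (XT.lf (nat_lit 0) (nat_lit 1593160242) (nat_lit 760) (nat_lit 6127634255) (nat_lit 76) (nat_lit 668469309) (nat_lit 344) (nat_lit 5) (nat_lit 354) (nat_lit 5) (nat_lit 345) (nat_lit 5) (nat_lit 438) (nat_lit 374) (nat_lit 328)) (XT.nd (nat_lit 78) (nat_lit 684) (nat_lit 0) (XT.lf (nat_lit 0) (nat_lit 4558955908) (nat_lit 760) (nat_lit 129074875) (nat_lit 76) (nat_lit 3773335850) (nat_lit 344) (nat_lit 5) (nat_lit 354) (nat_lit 5) (nat_lit 345) (nat_lit 5) (nat_lit 439) (nat_lit 374) (nat_lit 327)) (XT.lf (nat_lit 0) (nat_lit 6015937422) (nat_lit 684) (nat_lit 1564809769) (nat_lit 760) (nat_lit 954230734) (nat_lit 335) (nat_lit 5) (nat_lit 344) (nat_lit 5) (nat_lit 345) (nat_lit 5) (nat_lit 440) (nat_lit 374) (nat_lit 326)))))) (XT.nd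 (nat_lit 390) (nat_lit 1900) (nat_lit 0) (XT.nd (nat_lit 156) (nat_lit 1292) (nat_lit 0) (XT.nd (nat_lit 78) (nat_lit 608) (nat_lit 0) (XT.lf (nat_lit 0) (nat_lit 2019150582) (nat_lit 760) (nat_lit 4963296361) (nat_lit 76) (nat_lit 1627484679) (nat_lit 325) (nat_lit 5) (nat_lit 335) (nat_lit 5) (nat_lit 326) (nat_lit 5) (nat_lit 441) (nat_lit 374) (nat_lit 325)) (XT.lf (nat_lit 0) (nat_lit 1230009721) (nat_lit 608) (nat_lit 3802843754) (nat_lit 684) (nat_lit 3653532148) (nat_lit 317) (nat_lit 5) (nat_lit 325) (nat_lit 5) (nat_lit 326) (nat_lit 5) (nat_lit 442) (nat_lit 374) (nat_lit 324))) (XT.nd (nat_lit 78) (nat_lit 1292) (nat_lit 0) (XT.lf (nat_lit 0) (nat_lit 7561757514) (nat_lit 608) (nat_lit 537109710) (nat_lit 684) (nat_lit 665660743) (nat_lit 317) (nat_lit 5) (nat_lit 325) (nat_lit 5) (nat_lit 326) (nat_lit 5) (nat_lit 443) (nat_lit 374) (nat_lit 323)) (XT.nd (nat_lit 78) (nat_lit 608) (nat_lit 0) (XT.lf (nat_lit 0) (nat_lit 2361997186) (nat_lit 684)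 (nat_lit 3686340393) (nat_lit 76) (nat_lit 2795360893) (nat_lit 308) (nat_lit 5) (nat_lit 317) (nat_lit 5) (nat_lit 309) (nat_lit 5) (nat_lit 444) (nat_lit 374) (nat_lit 322)) (XT.lf (nat_lit 0) (nat_lit 2711649468) (nat_lit 608) (nat_lit 2718599698) (nat_lit 684) (nat_lit 3494336139) (nat_lit 300) (nat_lit 5) (nat_lit 308) (nat_lit 5) (nat_lit 309) (nat_lit 5) (nat_lit 445) (nat_lit 374) (nat_lit 321))))) (XT.nd (nat_lit 156) (nat_lit 1216) (nat_lit 0) (XT.nd (nat_lit 78) (nat_lit 76) (nat_lit 0) (XT.lf (nat_lit 0) (nat_lit 226409520) (nat_lit 608) (nat_lit 8324257806) (nat_lit 684) (nat_lit 456606525) (nat_lit 292) (nat_lit 5) (nat_lit 300) (nat_lit 5) (nat_lit 301) (nat_lit 5) (nat_lit 446) (nat_lit 374) (nat_lit 320)) (XT.lf (nat_lit 0) (nat_lit 2627411175) (nat_lit 684) (nat_lit 2300604846) (nat_lit 76) (nat_lit 4162853446) (nat_lit 291) (nat_lit 5) (nat_lit 300) (nat_lit 5) (nat_lit 292) (nat_lit 5) (nat_lit 447) (nat_lit 374) (nat_lit 319))) (XT.nd (nat_lit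 78) (nat_lit 684) (nat_lit 0) (XT.lf (nat_lit 0) (nat_lit 4310663835) (nat_lit 532) (nat_lit 1445315081) (nat_lit 608) (nat_lit 3420318046) (nat_lit 284) (nat_lit 5) (nat_lit 291) (nat_lit 5) (nat_lit 292) (nat_lit 5) (nat_lit 448) (nat_lit 374) (nat_lit 318)) (XT.nd (nat_lit 78) (nat_lit 76) (nat_lit 0) (XT.lf (nat_lit 0) (nat_lit 1779322091) (nat_lit 608) (nat_lit 7169902725) (nat_lit 684) (nat_lit 314166052) (nat_lit 276) (nat_lit 5) (nat_lit 284) (nat_lit 5) (nat_lit 285) (nat_lit 5) (nat_lit 449) (nat_lit 374) (nat_lit 317)) (XT.lf (nat_lit 0) (nat_lit 2820615672) (nat_lit 684) (nat_lit 809377934) (nat_lit 76) (nat_lit 5721783655) (nat_lit 275) (nat_lit 5) (nat_lit 284) (nat_lit 5) (nat_lit 276) (nat_lit 5) (nat_lit 450) (nat_lit 374) (nat_lit 316))))))))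
noncomputable def xc42 : XT := (XT.nd (nat_lit 54678) (nat_lit 0) (nat_lit 34656) (XT.nd (nat_lit 702) (nat_lit 2812) (nat_lit 0) (XT.nd (nat_lit 312) (nat_lit 2128) (nat_lit 0) (XT.nd (nat_lit 156) (nat_lit 608) (nat_lit 0) (XT.nd (nat_lit 78) (nat_lit 532) (nat_lit 0) (XT.lf (nat_lit 0) (nat_lit 6015315705) (nat_lit 608) (nat_lit 3417771513) (nat_lit 76) (nat_lit 8774043) (nat_lit 268) (nat_lit 5) (nat_lit 276) (nat_lit 5) (nat_lit 269) (nat_lit 5) (nat_lit 451) (nat_lit 374) (nat_lit 315)) (XT.lf (nat_lit 0) (nat_lit 3440707237) (nat_lit 532) (nat_lit 5847620877) (nat_lit 608) (nat_lit 245130461) (nat_lit 261) (nat_lit 5) (nat_lit 268) (nat_lit 5) (nat_lit 269) (nat_lit 5) (nat_lit 452) (nat_lit 374) (nat_lit 314))) (XT.nd (nat_lit 78) (nat_lit 0) (nat_lit 0) (XT.lf (nat_lit 0) (nat_lit 794996138) (nat_lit 532) (nat_lit 2156546872) (nat_lit 608) (nat_lit 6675135785) (nat_lit 253) (nat_lit 5) (nat_lit 260) (nat_lit 5) (nat_lit 261) (nat_lit 5) (nat_lit 453)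 (nat_lit 374) (nat_lit 313)) (XT.lf (nat_lit 0) (nat_lit 6223494209) (nat_lit 608) (nat_lit 1882549983) (nat_lit 76) (nat_lit 1615394293) (nat_lit 253) (nat_lit 5) (nat_lit 261) (nat_lit 5) (nat_lit 254) (nat_lit 5) (nat_lit 454) (nat_lit 374) (nat_lit 312)))) (XT.nd (nat_lit 156) (nat_lit 1064) (nat_lit 0) (XT.nd (nat_lit 78) (nat_lit 532) (nat_lit 0) (XT.lf (nat_lit 0) (nat_lit 5208262372) (nat_lit 532) (nat_lit 4364469010) (nat_lit 608) (nat_lit 245125046) (nat_lit 246) (nat_lit 5) (nat_lit 253) (nat_lit 5) (nat_lit 254) (nat_lit 5) (nat_lit 455) (nat_lit 374) (nat_lit 311)) (XT.lf (nat_lit 0) (nat_lit 2511898694) (nat_lit 456) (nat_lit 513469533) (nat_lit 532) (nat_lit 6890577149) (nat_lit 239) (nat_lit 5) (nat_lit 245) (nat_lit 5) (nat_lit 246) (nat_lit 5) (nat_lit 456) (nat_lit 374) (nat_lit 310))) (XT.nd (nat_lit 78) (nat_lit 1064) (nat_lit 0) (XT.lf (nat_lit 0) (nat_lit 6375467284) (nat_lit 532) (nat_lit 252816315) (nat_lit 76) (nat_lit 3387330536) (nat_lit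 239) (nat_lit 5) (nat_lit 246) (nat_lit 5) (nat_lit 240) (nat_lit 5) (nat_lit 457) (nat_lit 374) (nat_lit 309)) (XT.nd (nat_lit 78) (nat_lit 532) (nat_lit 0) (XT.lf (nat_lit 0) (nat_lit 7080163753) (nat_lit 532) (nat_lit 2726644632) (nat_lit 608) (nat_lit 310183083) (nat_lit 232) (nat_lit 5) (nat_lit 239) (nat_lit 5) (nat_lit 240) (nat_lit 5) (nat_lit 458) (nat_lit 374) (nat_lit 308)) (XT.lf (nat_lit 0) (nat_lit 3049078707) (nat_lit 532) (nat_lit 5899735347) (nat_lit 76) (nat_lit 1271117975) (nat_lit 225) (nat_lit 5) (nat_lit 232) (nat_lit 5) (nat_lit 226) (nat_lit 5) (nat_lit 459) (nat_lit 374) (nat_lit 307)))))) (XT.nd (nat_lit 390) (nat_lit 988) (nat_lit 0) (XT.nd (nat_lit 156) (nat_lit 1368) (nat_lit 0) (XT.nd (nat_lit 78) (nat_lit 0) (nat_lit 0) (XT.lf (nat_lit 0) (nat_lit 1489168635) (nat_lit 456) (nat_lit 4995704061) (nat_lit 532) (nat_lit 3839747691) (nat_lit 219) (nat_lit 5) (nat_lit 225) (nat_lit 5) (nat_lit 226) (nat_lit 5) (nat_lit 460) (nat_lit 374)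 (nat_lit 306)) (XT.lf (nat_lit 0) (nat_lit 9055041046) (nat_lit 456) (nat_lit 939540215) (nat_lit 532) (nat_lit 436717278) (nat_lit 219) (nat_lit 5) (nat_lit 225) (nat_lit 5) (nat_lit 226) (nat_lit 5) (nat_lit 461) (nat_lit 374) (nat_lit 305))) (XT.nd (nat_lit 78) (nat_lit 836) (nat_lit 0) (XT.lf (nat_lit 0) (nat_lit 3022232512) (nat_lit 532) (nat_lit 4316565067) (nat_lit 76) (nat_lit 3200365549) (nat_lit 212) (nat_lit 5) (nat_lit 219) (nat_lit 5) (nat_lit 213) (nat_lit 5) (nat_lit 462) (nat_lit 374) (nat_lit 304)) (XT.nd (nat_lit 78) (nat_lit 380) (nat_lit 0) (XT.lf (nat_lit 0) (nat_lit 3327072633) (nat_lit 456) (nat_lit 3220861755) (nat_lit 532) (nat_lit 4101124471) (nat_lit 206) (nat_lit 5) (nat_lit 212) (nat_lit 5) (nat_lit 213) (nat_lit 5) (nat_lit 463) (nat_lit 374) (nat_lit 303)) (XT.lf (nat_lit 0) (nat_lit 369112630) (nat_lit 380) (nat_lit 9779473033) (nat_lit 456) (nat_lit 612478136) (nat_lit 201) (nat_lit 5) (nat_lit 206) (nat_lit 5) (nat_lit 207) (nat_lit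 5) (nat_lit 464) (nat_lit 374) (nat_lit 302))))) (XT.nd (nat_lit 156) (nat_lit 456) (nat_lit 0) (XT.nd (nat_lit 78) (nat_lit 456) (nat_lit 0) (XT.lf (nat_lit 0) (nat_lit 2944725918) (nat_lit 456) (nat_lit 2652633221) (nat_lit 76) (nat_lit 5276818732) (nat_lit 200) (nat_lit 5) (nat_lit 206) (nat_lit 5) (nat_lit 201) (nat_lit 5) (nat_lit 465) (nat_lit 374) (nat_lit 301)) (XT.lf (nat_lit 0) (nat_lit 5256542323) (nat_lit 456) (nat_lit 1309752918) (nat_lit 532) (nat_lit 4423149568) (nat_lit 194) (nat_lit 5) (nat_lit 200) (nat_lit 5) (nat_lit 201) (nat_lit 5) (nat_lit 466) (nat_lit 374) (nat_lit 300))) (XT.nd (nat_lit 78) (nat_lit 76) (nat_lit 0) (XT.lf (nat_lit 0) (nat_lit 2212179418) (nat_lit 380) (nat_lit 8067783720) (nat_lit 456) (nat_lit 826660604) (nat_lit 189) (nat_lit 5) (nat_lit 194) (nat_lit 5) (nat_lit 195) (nat_lit 5) (nat_lit 467) (nat_lit 374) (nat_lit 299)) (XT.nd (nat_lit 53274) (nat_lit 0) (nat_lit 45828) (XT.lf (nat_lit 0) (nat_lit 2819483771) (nat_lit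 456) (nat_lit 909005934) (nat_lit 76) (nat_lit 7496987620) (nat_lit 188) (nat_lit 5) (nat_lit 194) (nat_lit 5) (nat_lit 189) (nat_lit 5) (nat_lit 468) (nat_lit 374) (nat_lit 298)) (XT.lf (nat_lit 0) (nat_lit 1200751573) (nat_lit 380) (nat_lit 1022009023) (nat_lit 380) (nat_lit 1022009023) (nat_lit 791) (nat_lit 4) (nat_lit 796) (nat_lit 5) (nat_lit 796) (nat_lit 4) (nat_lit 390) (nat_lit 375) (nat_lit 375))))))) (XT.nd (nat_lit 702) (nat_lit 7828) (nat_lit 0) (XT.nd (nat_lit 312) (nat_lit 2204) (nat_lit 0) (XT.nd (nat_lit 156) (nat_lit 608) (nat_lit 0) (XT.nd (nat_lit 78) (nat_lit 456) (nat_lit 0) (XT.lf (nat_lit 0) (nat_lit 1185003500) (nat_lit 456) (nat_lit 355577853) (nat_lit 76) (nat_lit 4959182542) (nat_lit 790) (nat_lit 5) (nat_lit 796) (nat_lit 5) (nat_lit 791) (nat_lit 4) (nat_lit 391) (nat_lit 375) (nat_lit 374)) (XT.lf (nat_lit 0) (nat_lit 3433745726) (nat_lit 456) (nat_lit 961505771) (nat_lit 532) (nat_lit 2115791018) (nat_lit 784) (nat_lit 5) (nat_lit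 790) (nat_lit 5) (nat_lit 791) (nat_lit 4) (nat_lit 392) (nat_lit 375) (nat_lit 373))) (XT.nd (nat_lit 78) (nat_lit 0) (nat_lit 0) (XT.lf (nat_lit 0) (nat_lit 733342263) (nat_lit 532) (nat_lit 328336252) (nat_lit 608) (nat_lit 5462127912) (nat_lit 776) (nat_lit 5) (nat_lit 783) (nat_lit 5) (nat_lit 784) (nat_lit 5) (nat_lit 393) (nat_lit 375) (nat_lit 372)) (XT.lf (nat_lit 0) (nat_lit 4221017307) (nat_lit 608) (nat_lit 1942076144) (nat_lit 76) (nat_lit 374519454) (nat_lit 776) (nat_lit 5) (nat_lit 784) (nat_lit 5) (nat_lit 777) (nat_lit 4) (nat_lit 394) (nat_lit 375) (nat_lit 371)))) (XT.nd (nat_lit 156) (nat_lit 1520) (nat_lit 0) (XT.nd (nat_lit 78) (nat_lit 0) (nat_lit 0) (XT.lf (nat_lit 0) (nat_lit 819900952) (nat_lit 684) (nat_lit 4601876870) (nat_lit 76) (nat_lit 1131006872) (nat_lit 767) (nat_lit 5) (nat_lit 776) (nat_lit 5) (nat_lit 768) (nat_lit 5) (nat_lit 395) (nat_lit 375) (nat_lit 370)) (XT.lf (nat_lit 0) (nat_lit 3927179029) (nat_lit 684) (nat_lit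 686357710) (nat_lit 76) (nat_lit 1955635512) (nat_lit 767) (nat_lit 5) (nat_lit 776) (nat_lit 5) (nat_lit 768) (nat_lit 5) (nat_lit 396) (nat_lit 375) (nat_lit 369))) (XT.nd (nat_lit 78) (nat_lit 760) (nat_lit 0) (XT.lf (nat_lit 0) (nat_lit 452484285) (nat_lit 760) (nat_lit 3289133599) (nat_lit 76) (nat_lit 2845234010) (nat_lit 757) (nat_lit 5) (nat_lit 767) (nat_lit 5) (nat_lit 758) (nat_lit 5) (nat_lit 397) (nat_lit 375) (nat_lit 368)) (XT.nd (nat_lit 78) (nat_lit 0) (nat_lit 0) (XT.lf (nat_lit 0) (nat_lit 707098217) (nat_lit 760) (nat_lit 2803640621) (nat_lit 836) (nat_lit 3095051744) (nat_lit 747) (nat_lit 5) (nat_lit 757) (nat_lit 5) (nat_lit 758) (nat_lit 5) (nat_lit 398) (nat_lit 375) (nat_lit 367)) (XT.lf (nat_lit 0) (nat_lit 4777537943) (nat_lit 760) (nat_lit 1803780904) (nat_lit 836) (nat_lit 44765990) (nat_lit 747) (nat_lit 5) (nat_lit 757) (nat_lit 5) (nat_lit 758) (nat_lit 5) (nat_lit 399) (nat_lit 375) (nat_lit 366)))))) (XT.nd (nat_lit 390) (nat_lit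 4864) (nat_lit 0) (XT.nd (nat_lit 156) (nat_lit 2052) (nat_lit 0) (XT.nd (nat_lit 78) (nat_lit 0) (nat_lit 0) (XT.lf (nat_lit 0) (nat_lit 2241848305) (nat_lit 836) (nat_lit 729033269) (nat_lit 912) (nat_lit 3676613724) (nat_lit 735) (nat_lit 5) (nat_lit 746) (nat_lit 5) (nat_lit 747) (nat_lit 5) (nat_lit 400) (nat_lit 375) (nat_lit 365)) (XT.lf (nat_lit 0) (nat_lit 5992304421) (nat_lit 912) (nat_lit 284156793) (nat_lit 76) (nat_lit 393945599) (nat_lit 735) (nat_lit 5) (nat_lit 747) (nat_lit 5) (nat_lit 736) (nat_lit 5) (nat_lit 401) (nat_lit 375) (nat_lit 364))) (XT.nd (nat_lit 78) (nat_lit 1064) (nat_lit 0) (XT.lf (nat_lit 0) (nat_lit 2311705562) (nat_lit 988) (nat_lit 2793845526) (nat_lit 76) (nat_lit 1588665460) (nat_lit 722) (nat_lit 5) (nat_lit 735) (nat_lit 5) (nat_lit 723) (nat_lit 5) (nat_lit 402) (nat_lit 375) (nat_lit 363)) (XT.nd (nat_lit 78) (nat_lit 76) (nat_lit 0) (XT.lf (nat_lit 0) (nat_lit 1417092541) (nat_lit 988) (nat_lit 3879362836) (nat_lit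 1064) (nat_lit 1423072947) (nat_lit 709) (nat_lit 5) (nat_lit 722) (nat_lit 5) (nat_lit 723) (nat_lit 5) (nat_lit 403) (nat_lit 375) (nat_lit 362)) (XT.lf (nat_lit 0) (nat_lit 1527143581) (nat_lit 1064) (nat_lit 1056847165) (nat_lit 76) (nat_lit 4162098087) (nat_lit 708) (nat_lit 5) (nat_lit 722) (nat_lit 5) (nat_lit 709) (nat_lit 5) (nat_lit 404) (nat_lit 375) (nat_lit 361))))) (XT.nd (nat_lit 156) (nat_lit 2584) (nat_lit 0) (XT.nd (nat_lit 78) (nat_lit 1216) (nat_lit 0) (XT.lf (nat_lit 0) (nat_lit 3256434764) (nat_lit 1064) (nat_lit 1216979957) (nat_lit 1140) (nat_lit 2300455598) (nat_lit 694) (nat_lit 5) (nat_lit 708) (nat_lit 5) (nat_lit 709) (nat_lit 5) (nat_lit 405) (nat_lit 375) (nat_lit 360)) (XT.lf (nat_lit 0) (nat_lit 616839713) (nat_lit 1216) (nat_lit 5980934397) (nat_lit 76) (nat_lit 205359349) (nat_lit 678) (nat_lit 5) (nat_lit 694) (nat_lit 5) (nat_lit 679) (nat_lit 5) (nat_lit 406) (nat_lit 375) (nat_lit 359))) (XT.nd (nat_lit 78) (nat_lit 2584)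 (nat_lit 0) (XT.lf (nat_lit 0) (nat_lit 3530015987) (nat_lit 1216) (nat_lit 1611702356) (nat_lit 76) (nat_lit 1691592637) (nat_lit 678) (nat_lit 5) (nat_lit 694) (nat_lit 5) (nat_lit 679) (nat_lit 5) (nat_lit 407) (nat_lit 375) (nat_lit 358)) (XT.nd (nat_lit 78) (nat_lit 1368) (nat_lit 0) (XT.lf (nat_lit 0) (nat_lit 2831016046) (nat_lit 1216) (nat_lit 3626555604) (nat_lit 1292) (nat_lit 407398082) (nat_lit 662) (nat_lit 5) (nat_lit 678) (nat_lit 5) (nat_lit 679) (nat_lit 5) (nat_lit 408) (nat_lit 375) (nat_lit 357)) (XT.lf (nat_lit 0) (nat_lit 424844902) (nat_lit 1292) (nat_lit 2040040863) (nat_lit 1368) (nat_lit 4433007921) (nat_lit 644) (nat_lit 5) (nat_lit 661) (nat_lit 5) (nat_lit 662) (nat_lit 5) (nat_lit 409) (nat_lit 375) (nat_lit 356))))))))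
noncomputable def xc43 : XT := (XT.nd (nat_lit 1482) (nat_lit 10412) (nat_lit 0) (XT.nd (nat_lit 702) (nat_lit 6840) (nat_lit 0) (XT.nd (nat_lit 312) (nat_lit 6688) (nat_lit 0) (XT.nd (nat_lit 156) (nat_lit 1444) (nat_lit 0) (XT.nd (nat_lit 78) (nat_lit 1444) (nat_lit 0) (XT.lf (nat_lit 0) (nat_lit 4973592937) (nat_lit 1292) (nat_lit 381724048) (nat_lit 1368) (nat_lit 1576782141) (nat_lit 644) (nat_lit 5) (nat_lit 661) (nat_lit 5) (nat_lit 662) (nat_lit 5) (nat_lit 410) (nat_lit 375) (nat_lit 355)) (XT.lf (nat_lit 0) (nat_lit 1284687917) (nat_lit 1444) (nat_lit 4355354387) (nat_lit 76) (nat_lit 1327459830) (nat_lit 625) (nat_lit 5) (nat_lit 644) (nat_lit 5) (nat_lit 626) (nat_lit 5) (nat_lit 411) (nat_lit 375) (nat_lit 354))) (XT.nd (nat_lit 78) (nat_lit 0) (nat_lit 0) (XT.lf (nat_lit 0) (nat_lit 235569784) (nat_lit 1444) (nat_lit 3904815156) (nat_lit 1520) (nat_lit 2863857599) (nat_lit 606) (nat_lit 5) (nat_lit 625) (nat_lit 5) (nat_lit 626) (nat_lit 5) (nat_lit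 412) (nat_lit 375) (nat_lit 353)) (XT.lf (nat_lit 0) (nat_lit 4925816739) (nat_lit 1444) (nat_lit 2098235851) (nat_lit 1520) (nat_lit 18248028) (nat_lit 606) (nat_lit 5) (nat_lit 625) (nat_lit 5) (nat_lit 626) (nat_lit 5) (nat_lit 413) (nat_lit 375) (nat_lit 352)))) (XT.nd (nat_lit 156) (nat_lit 3496) (nat_lit 0) (XT.nd (nat_lit 78) (nat_lit 1596) (nat_lit 0) (XT.lf (nat_lit 0) (nat_lit 2592737631) (nat_lit 1520) (nat_lit 212937604) (nat_lit 1596) (nat_lit 4275885506) (nat_lit 585) (nat_lit 5) (nat_lit 605) (nat_lit 5) (nat_lit 606) (nat_lit 5) (nat_lit 414) (nat_lit 375) (nat_lit 351)) (XT.lf (nat_lit 0) (nat_lit 243258191) (nat_lit 1596) (nat_lit 5412785920) (nat_lit 1672) (nat_lit 1466155313) (nat_lit 564) (nat_lit 5) (nat_lit 585) (nat_lit 5) (nat_lit 586) (nat_lit 5) (nat_lit 415) (nat_lit 375) (nat_lit 350))) (XT.nd (nat_lit 78) (nat_lit 3420) (nat_lit 0) (XT.lf (nat_lit 0) (nat_lit 1356781575) (nat_lit 1672) (nat_lit 2095449569) (nat_lit 76) (nat_lit 3711730565)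 (nat_lit 563) (nat_lit 5) (nat_lit 585) (nat_lit 5) (nat_lit 564) (nat_lit 5) (nat_lit 416) (nat_lit 375) (nat_lit 349)) (XT.nd (nat_lit 78) (nat_lit 1748) (nat_lit 0) (XT.lf (nat_lit 0) (nat_lit 2758681389) (nat_lit 1672) (nat_lit 1420536953) (nat_lit 1748) (nat_lit 3027893615) (nat_lit 541) (nat_lit 5) (nat_lit 563) (nat_lit 5) (nat_lit 564) (nat_lit 5) (nat_lit 417) (nat_lit 375) (nat_lit 348)) (XT.lf (nat_lit 0) (nat_lit 436581739) (nat_lit 1748) (nat_lit 6588259638) (nat_lit 1824) (nat_lit 226949081) (nat_lit 518) (nat_lit 5) (nat_lit 541) (nat_lit 5) (nat_lit 542) (nat_lit 5) (nat_lit 418) (nat_lit 375) (nat_lit 347)))))) (XT.nd (nat_lit 390) (nat_lit 2812) (nat_lit 0) (XT.nd (nat_lit 156) (nat_lit 2128) (nat_lit 0) (XT.nd (nat_lit 78) (nat_lit 1824) (nat_lit 0) (XT.lf (nat_lit 0) (nat_lit 2580869326) (nat_lit 1824) (nat_lit 1896502229) (nat_lit 76) (nat_lit 2819942496) (nat_lit 517) (nat_lit 5) (nat_lit 541) (nat_lit 5) (nat_lit 518) (nat_lit 5) (nat_lit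 419) (nat_lit 375) (nat_lit 346)) (XT.lf (nat_lit 0) (nat_lit 3108223019) (nat_lit 1824) (nat_lit 2300718233) (nat_lit 1900) (nat_lit 1935434141) (nat_lit 493) (nat_lit 5) (nat_lit 517) (nat_lit 5) (nat_lit 518) (nat_lit 5) (nat_lit 420) (nat_lit 375) (nat_lit 345))) (XT.nd (nat_lit 78) (nat_lit 912) (nat_lit 0) (XT.lf (nat_lit 0) (nat_lit 799195173) (nat_lit 1140) (nat_lit 55494946) (nat_lit 1216) (nat_lit 6538264563) (nat_lit 477) (nat_lit 5) (nat_lit 492) (nat_lit 5) (nat_lit 493) (nat_lit 5) (nat_lit 421) (nat_lit 375) (nat_lit 344)) (XT.nd (nat_lit 78) (nat_lit 912) (nat_lit 0) (XT.lf (nat_lit 0) (nat_lit 3665862636) (nat_lit 1216) (nat_lit 1529457619) (nat_lit 76) (nat_lit 2247106213) (nat_lit 477) (nat_lit 5) (nat_lit 493) (nat_lit 5) (nat_lit 478) (nat_lit 5) (nat_lit 422) (nat_lit 375) (nat_lit 343)) (XT.lf (nat_lit 0) (nat_lit 3631748722) (nat_lit 912) (nat_lit 2874489688) (nat_lit 988) (nat_lit 987189684) (nat_lit 465) (nat_lit 5) (nat_lit 477) (nat_lit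 5) (nat_lit 478) (nat_lit 5) (nat_lit 423) (nat_lit 375) (nat_lit 342))))) (XT.nd (nat_lit 156) (nat_lit 1824) (nat_lit 0) (XT.nd (nat_lit 78) (nat_lit 0) (nat_lit 0) (XT.lf (nat_lit 0) (nat_lit 1324934262) (nat_lit 912) (nat_lit 476969537) (nat_lit 988) (nat_lit 5743938699) (nat_lit 452) (nat_lit 5) (nat_lit 464) (nat_lit 5) (nat_lit 465) (nat_lit 5) (nat_lit 424) (nat_lit 375) (nat_lit 341)) (XT.lf (nat_lit 0) (nat_lit 4622451871) (nat_lit 988) (nat_lit 1003275809) (nat_lit 76) (nat_lit 1973669180) (nat_lit 452) (nat_lit 5) (nat_lit 465) (nat_lit 5) (nat_lit 453) (nat_lit 5) (nat_lit 425) (nat_lit 375) (nat_lit 340))) (XT.nd (nat_lit 78) (nat_lit 988) (nat_lit 0) (XT.lf (nat_lit 0) (nat_lit 4320623101) (nat_lit 836) (nat_lit 3160991538) (nat_lit 912) (nat_lit 172763596) (nat_lit 441) (nat_lit 5) (nat_lit 452) (nat_lit 5) (nat_lit 453) (nat_lit 5) (nat_lit 426) (nat_lit 375) (nat_lit 339)) (XT.nd (nat_lit 78) (nat_lit 0) (nat_lit 0) (XT.lf (nat_lit 0) (nat_lit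 2011258521) (nat_lit 912) (nat_lit 612131768) (nat_lit 988) (nat_lit 5087297249) (nat_lit 428) (nat_lit 5) (nat_lit 440) (nat_lit 5) (nat_lit 441) (nat_lit 5) (nat_lit 427) (nat_lit 375) (nat_lit 338)) (XT.lf (nat_lit 0) (nat_lit 5460478969) (nat_lit 988) (nat_lit 326009486) (nat_lit 76) (nat_lit 1981865234) (nat_lit 428) (nat_lit 5) (nat_lit 441) (nat_lit 5) (nat_lit 429) (nat_lit 5) (nat_lit 428) (nat_lit 375) (nat_lit 337))))))) (XT.nd (nat_lit 702) (nat_lit 4788) (nat_lit 0) (XT.nd (nat_lit 312) (nat_lit 3040) (nat_lit 0) (XT.nd (nat_lit 156) (nat_lit 836) (nat_lit 0) (XT.nd (nat_lit 78) (nat_lit 836) (nat_lit 0) (XT.lf (nat_lit 0) (nat_lit 510602856) (nat_lit 912) (nat_lit 2663600285) (nat_lit 76) (nat_lit 4653093967) (nat_lit 416) (nat_lit 5) (nat_lit 428) (nat_lit 5) (nat_lit 417) (nat_lit 5) (nat_lit 429) (nat_lit 375) (nat_lit 336)) (XT.lf (nat_lit 0) (nat_lit 2850574712) (nat_lit 836) (nat_lit 477837175) (nat_lit 912) (nat_lit 4559225122) (nat_lit 405)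 (nat_lit 5) (nat_lit 416) (nat_lit 5) (nat_lit 417) (nat_lit 5) (nat_lit 430) (nat_lit 375) (nat_lit 335))) (XT.nd (nat_lit 78) (nat_lit 76) (nat_lit 0) (XT.lf (nat_lit 0) (nat_lit 501714744) (nat_lit 760) (nat_lit 5690544134) (nat_lit 836) (nat_lit 1757131195) (nat_lit 395) (nat_lit 5) (nat_lit 405) (nat_lit 5) (nat_lit 406) (nat_lit 5) (nat_lit 431) (nat_lit 375) (nat_lit 334)) (XT.lf (nat_lit 0) (nat_lit 1077699825) (nat_lit 836) (nat_lit 1855266309) (nat_lit 76) (nat_lit 5079446392) (nat_lit 394) (nat_lit 5) (nat_lit 405) (nat_lit 5) (nat_lit 395) (nat_lit 5) (nat_lit 432) (nat_lit 375) (nat_lit 333)))) (XT.nd (nat_lit 156) (nat_lit 1520) (nat_lit 0) (XT.nd (nat_lit 78) (nat_lit 760) (nat_lit 0) (XT.lf (nat_lit 0) (nat_lit 3836123173) (nat_lit 760) (nat_lit 89353403) (nat_lit 836) (nat_lit 4151391019) (nat_lit 384) (nat_lit 5) (nat_lit 394) (nat_lit 5) (nat_lit 395) (nat_lit 5) (nat_lit 433) (nat_lit 375) (nat_lit 332)) (XT.lf (nat_lit 0) (nat_lit 1473059025)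 (nat_lit 760) (nat_lit 5352856348) (nat_lit 836) (nat_lit 1316782261) (nat_lit 374) (nat_lit 5) (nat_lit 384) (nat_lit 5) (nat_lit 385) (nat_lit 5) (nat_lit 434) (nat_lit 375) (nat_lit 331))) (XT.nd (nat_lit 78) (nat_lit 1444) (nat_lit 0) (XT.lf (nat_lit 0) (nat_lit 1538712373) (nat_lit 836) (nat_lit 913955248) (nat_lit 76) (nat_lit 5757275320) (nat_lit 373) (nat_lit 5) (nat_lit 384) (nat_lit 5) (nat_lit 374) (nat_lit 5) (nat_lit 435) (nat_lit 375) (nat_lit 330)) (XT.nd (nat_lit 78) (nat_lit 684) (nat_lit 0) (XT.lf (nat_lit 0) (nat_lit 4425897182) (nat_lit 836) (nat_lit 3320164554) (nat_lit 76) (nat_lit 532453100) (nat_lit 363) (nat_lit 5) (nat_lit 374) (nat_lit 5) (nat_lit 364) (nat_lit 5) (nat_lit 436) (nat_lit 375) (nat_lit 329)) (XT.lf (nat_lit 0) (nat_lit 2577936253) (nat_lit 684) (nat_lit 4788991268) (nat_lit 760) (nat_lit 981608612) (nat_lit 354) (nat_lit 5) (nat_lit 363) (nat_lit 5) (nat_lit 364) (nat_lit 5) (nat_lit 437) (nat_lit 375) (nat_lit 328))))))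 (XT.nd (nat_lit 390) (nat_lit 2584) (nat_lit 0) (XT.nd (nat_lit 156) (nat_lit 1444) (nat_lit 0) (XT.nd (nat_lit 78) (nat_lit 0) (nat_lit 0) (XT.lf (nat_lit 0) (nat_lit 156786823) (nat_lit 684) (nat_lit 1745122716) (nat_lit 760) (nat_lit 6518183079) (nat_lit 344) (nat_lit 5) (nat_lit 353) (nat_lit 5) (nat_lit 354) (nat_lit 5) (nat_lit 438) (nat_lit 375) (nat_lit 327)) (XT.lf (nat_lit 0) (nat_lit 4835394636) (nat_lit 760) (nat_lit 2279365610) (nat_lit 76) (nat_lit 1378081412) (nat_lit 344) (nat_lit 5) (nat_lit 354) (nat_lit 5) (nat_lit 345) (nat_lit 5) (nat_lit 439) (nat_lit 375) (nat_lit 326))) (XT.nd (nat_lit 78) (nat_lit 760) (nat_lit 0) (XT.lf (nat_lit 0) (nat_lit 3811291488) (nat_lit 684) (nat_lit 4011011705) (nat_lit 760) (nat_lit 744847411) (nat_lit 335) (nat_lit 5) (nat_lit 344) (nat_lit 5) (nat_lit 345) (nat_lit 5) (nat_lit 440) (nat_lit 375) (nat_lit 325)) (XT.nd (nat_lit 78) (nat_lit 0) (nat_lit 0) (XT.lf (nat_lit 0) (nat_lit 1363749323) (nat_lit 684)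 (nat_lit 815974309) (nat_lit 760) (nat_lit 6463274763) (nat_lit 325) (nat_lit 5) (nat_lit 334) (nat_lit 5) (nat_lit 335) (nat_lit 5) (nat_lit 441) (nat_lit 375) (nat_lit 324)) (XT.lf (nat_lit 0) (nat_lit 5159881577) (nat_lit 760) (nat_lit 1122525450) (nat_lit 76) (nat_lit 2437716268) (nat_lit 325) (nat_lit 5) (nat_lit 335) (nat_lit 5) (nat_lit 326) (nat_lit 5) (nat_lit 442) (nat_lit 375) (nat_lit 323))))) (XT.nd (nat_lit 156) (nat_lit 1292) (nat_lit 0) (XT.nd (nat_lit 78) (nat_lit 684) (nat_lit 0) (XT.lf (nat_lit 0) (nat_lit 5168725459) (nat_lit 608) (nat_lit 3029754967) (nat_lit 684) (nat_lit 600333512) (nat_lit 317) (nat_lit 5) (nat_lit 325) (nat_lit 5) (nat_lit 326) (nat_lit 5) (nat_lit 443) (nat_lit 375) (nat_lit 322)) (XT.lf (nat_lit 0) (nat_lit 2374237609) (nat_lit 684) (nat_lit 6190694440) (nat_lit 76) (nat_lit 314088511) (nat_lit 308) (nat_lit 5) (nat_lit 317) (nat_lit 5) (nat_lit 309) (nat_lit 5) (nat_lit 444) (nat_lit 375) (nat_lit 321))) (XT.nd (nat_lit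 78) (nat_lit 684) (nat_lit 0) (XT.lf (nat_lit 0) (nat_lit 148146776) (nat_lit 608) (nat_lit 5258119275) (nat_lit 684) (nat_lit 3554365813) (nat_lit 300) (nat_lit 5) (nat_lit 308) (nat_lit 5) (nat_lit 309) (nat_lit 5) (nat_lit 445) (nat_lit 375) (nat_lit 320)) (XT.nd (nat_lit 78) (nat_lit 684) (nat_lit 0) (XT.lf (nat_lit 0) (nat_lit 6646454312) (nat_lit 608) (nat_lit 1854915725) (nat_lit 684) (nat_lit 542456656) (nat_lit 300) (nat_lit 5) (nat_lit 308) (nat_lit 5) (nat_lit 309) (nat_lit 5) (nat_lit 446) (nat_lit 375) (nat_lit 319)) (XT.lf (nat_lit 0) (nat_lit 2495455241) (nat_lit 684) (nat_lit 5006205324) (nat_lit 76) (nat_lit 1626717527) (nat_lit 291) (nat_lit 5) (nat_lit 300) (nat_lit 5) (nat_lit 292) (nat_lit 5) (nat_lit 447) (nat_lit 375) (nat_lit 318))))))))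
noncomputable def xc44 : XT := (XT.nd (nat_lit 1482) (nat_lit 456) (nat_lit 0) (XT.nd (nat_lit 702) (nat_lit 3876) (nat_lit 0) (XT.nd (nat_lit 312) (nat_lit 1748) (nat_lit 0) (XT.nd (nat_lit 156) (nat_lit 1216) (nat_lit 0) (XT.nd (nat_lit 78) (nat_lit 0) (nat_lit 0) (XT.lf (nat_lit 0) (nat_lit 1543481395) (nat_lit 532) (nat_lit 4043642103) (nat_lit 608) (nat_lit 3627420077) (nat_lit 284) (nat_lit 5) (nat_lit 291) (nat_lit 5) (nat_lit 292) (nat_lit 5) (nat_lit 448) (nat_lit 375) (nat_lit 317)) (XT.lf (nat_lit 0) (nat_lit 8241272841) (nat_lit 532) (nat_lit 495122094) (nat_lit 608) (nat_lit 566122037) (nat_lit 284) (nat_lit 5) (nat_lit 291) (nat_lit 5) (nat_lit 292) (nat_lit 5) (nat_lit 449) (nat_lit 375) (nat_lit 316))) (XT.nd (nat_lit 78) (nat_lit 532) (nat_lit 0) (XT.lf (nat_lit 0) (nat_lit 2543035690) (nat_lit 684) (nat_lit 3723953798) (nat_lit 76) (nat_lit 3124525162) (nat_lit 275) (nat_lit 5) (nat_lit 284) (nat_lit 5) (nat_lit 276) (nat_lit 5) (nat_lit 450)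 (nat_lit 375) (nat_lit 315)) (XT.lf (nat_lit 0) (nat_lit 3045470304) (nat_lit 532) (nat_lit 2654548848) (nat_lit 608) (nat_lit 3782333830) (nat_lit 268) (nat_lit 5) (nat_lit 275) (nat_lit 5) (nat_lit 276) (nat_lit 5) (nat_lit 451) (nat_lit 375) (nat_lit 314)))) (XT.nd (nat_lit 156) (nat_lit 1140) (nat_lit 0) (XT.nd (nat_lit 78) (nat_lit 76) (nat_lit 0) (XT.lf (nat_lit 0) (nat_lit 373412595) (nat_lit 532) (nat_lit 8544303562) (nat_lit 608) (nat_lit 657340447) (nat_lit 261) (nat_lit 5) (nat_lit 268) (nat_lit 5) (nat_lit 269) (nat_lit 5) (nat_lit 452) (nat_lit 375) (nat_lit 313)) (XT.lf (nat_lit 0) (nat_lit 2521486879) (nat_lit 608) (nat_lit 2346911844) (nat_lit 76) (nat_lit 4800396675) (nat_lit 260) (nat_lit 5) (nat_lit 268) (nat_lit 5) (nat_lit 261) (nat_lit 5) (nat_lit 453) (nat_lit 375) (nat_lit 312))) (XT.nd (nat_lit 78) (nat_lit 608) (nat_lit 0) (XT.lf (nat_lit 0) (nat_lit 4651532523) (nat_lit 532) (nat_lit 1097938799) (nat_lit 608) (nat_lit 4014963101) (nat_lit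 253) (nat_lit 5) (nat_lit 260) (nat_lit 5) (nat_lit 261) (nat_lit 5) (nat_lit 454) (nat_lit 375) (nat_lit 311)) (XT.nd (nat_lit 78) (nat_lit 76) (nat_lit 0) (XT.lf (nat_lit 0) (nat_lit 1916961081) (nat_lit 532) (nat_lit 7135655735) (nat_lit 608) (nat_lit 809157384) (nat_lit 246) (nat_lit 5) (nat_lit 253) (nat_lit 5) (nat_lit 254) (nat_lit 5) (nat_lit 455) (nat_lit 375) (nat_lit 310)) (XT.lf (nat_lit 0) (nat_lit 2434899543) (nat_lit 608) (nat_lit 877583213) (nat_lit 76) (nat_lit 6648130308) (nat_lit 245) (nat_lit 5) (nat_lit 253) (nat_lit 5) (nat_lit 246) (nat_lit 5) (nat_lit 456) (nat_lit 375) (nat_lit 309)))))) (XT.nd (nat_lit 390) (nat_lit 1900) (nat_lit 0) (XT.nd (nat_lit 156) (nat_lit 988) (nat_lit 0) (XT.nd (nat_lit 78) (nat_lit 532) (nat_lit 0) (XT.lf (nat_lit 0) (nat_lit 5743622891) (nat_lit 532) (nat_lit 3705647599) (nat_lit 76) (nat_lit 611838848) (nat_lit 239) (nat_lit 5) (nat_lit 246) (nat_lit 5) (nat_lit 240) (nat_lit 5) (nat_lit 457) (nat_lit 375)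 (nat_lit 308)) (XT.lf (nat_lit 0) (nat_lit 3556496504) (nat_lit 532) (nat_lit 5578539650) (nat_lit 608) (nat_lit 1028249073) (nat_lit 232) (nat_lit 5) (nat_lit 239) (nat_lit 5) (nat_lit 240) (nat_lit 5) (nat_lit 458) (nat_lit 375) (nat_lit 307))) (XT.nd (nat_lit 78) (nat_lit 456) (nat_lit 0) (XT.lf (nat_lit 0) (nat_lit 691032512) (nat_lit 456) (nat_lit 1600430723) (nat_lit 532) (nat_lit 7975835136) (nat_lit 225) (nat_lit 5) (nat_lit 231) (nat_lit 5) (nat_lit 232) (nat_lit 5) (nat_lit 459) (nat_lit 375) (nat_lit 306)) (XT.nd (nat_lit 78) (nat_lit 456) (nat_lit 0) (XT.lf (nat_lit 0) (nat_lit 5690335159) (nat_lit 532) (nat_lit 2221311485) (nat_lit 76) (nat_lit 2461078528) (nat_lit 225) (nat_lit 5) (nat_lit 232) (nat_lit 5) (nat_lit 226) (nat_lit 5) (nat_lit 460) (nat_lit 375) (nat_lit 305)) (XT.lf (nat_lit 0) (nat_lit 5290394138) (nat_lit 456) (nat_lit 3878343967) (nat_lit 532) (nat_lit 1311291330) (nat_lit 219) (nat_lit 5) (nat_lit 225) (nat_lit 5) (nat_lit 226)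 (nat_lit 5) (nat_lit 461) (nat_lit 375) (nat_lit 304))))) (XT.nd (nat_lit 156) (nat_lit 1368) (nat_lit 0) (XT.nd (nat_lit 78) (nat_lit 0) (nat_lit 0) (XT.lf (nat_lit 0) (nat_lit 2098108197) (nat_lit 532) (nat_lit 8229914838) (nat_lit 76) (nat_lit 261204965) (nat_lit 212) (nat_lit 5) (nat_lit 219) (nat_lit 5) (nat_lit 213) (nat_lit 5) (nat_lit 462) (nat_lit 375) (nat_lit 303)) (XT.lf (nat_lit 0) (nat_lit 5585850043) (nat_lit 532) (nat_lit 654409008) (nat_lit 76) (nat_lit 4459623881) (nat_lit 212) (nat_lit 5) (nat_lit 219) (nat_lit 5) (nat_lit 213) (nat_lit 5) (nat_lit 463) (nat_lit 375) (nat_lit 302))) (XT.nd (nat_lit 78) (nat_lit 912) (nat_lit 0) (XT.lf (nat_lit 0) (nat_lit 7117440345) (nat_lit 456) (nat_lit 2039721341) (nat_lit 532) (nat_lit 1655312979) (nat_lit 206) (nat_lit 5) (nat_lit 212) (nat_lit 5) (nat_lit 213) (nat_lit 5) (nat_lit 464) (nat_lit 375) (nat_lit 301)) (XT.nd (nat_lit 78) (nat_lit 456) (nat_lit 0) (XT.lf (nat_lit 0) (nat_lit 1861659167) (nat_lit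 456) (nat_lit 6822267257) (nat_lit 76) (nat_lit 2242875906) (nat_lit 200) (nat_lit 5) (nat_lit 206) (nat_lit 5) (nat_lit 201) (nat_lit 5) (nat_lit 465) (nat_lit 375) (nat_lit 300)) (XT.lf (nat_lit 0) (nat_lit 1006998324) (nat_lit 456) (nat_lit 4432761636) (nat_lit 532) (nat_lit 5603178679) (nat_lit 194) (nat_lit 5) (nat_lit 200) (nat_lit 5) (nat_lit 201) (nat_lit 5) (nat_lit 466) (nat_lit 375) (nat_lit 299))))))) (XT.nd (nat_lit 53742) (nat_lit 0) (nat_lit 39520) (XT.nd (nat_lit 53352) (nat_lit 0) (nat_lit 44612) (XT.nd (nat_lit 53196) (nat_lit 0) (nat_lit 46208) (XT.nd (nat_lit 78) (nat_lit 456) (nat_lit 0) (XT.lf (nat_lit 0) (nat_lit 9036811749) (nat_lit 456) (nat_lit 66633013) (nat_lit 532) (nat_lit 2057672471) (nat_lit 194) (nat_lit 5) (nat_lit 200) (nat_lit 5) (nat_lit 201) (nat_lit 5) (nat_lit 467) (nat_lit 375) (nat_lit 298)) (XT.lf (nat_lit 0) (nat_lit 1574389111) (nat_lit 456) (nat_lit 5344304259) (nat_lit 76) (nat_lit 4362041852) (nat_lit 188) (nat_lit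 5) (nat_lit 194) (nat_lit 5) (nat_lit 189) (nat_lit 5) (nat_lit 468) (nat_lit 375) (nat_lit 297))) (XT.nd (nat_lit 78) (nat_lit 0) (nat_lit 0) (XT.lf (nat_lit 0) (nat_lit 384426527) (nat_lit 380) (nat_lit 2467447967) (nat_lit 0) (nat_lit 384426527) (nat_lit 796) (nat_lit 5) (nat_lit 801) (nat_lit 4) (nat_lit 796) (nat_lit 4) (nat_lit 388) (nat_lit 376) (nat_lit 376)) (XT.lf (nat_lit 0) (nat_lit 3989274122) (nat_lit 380) (nat_lit 1306468461) (nat_lit 0) (nat_lit 1185003500) (nat_lit 796) (nat_lit 5) (nat_lit 801) (nat_lit 4) (nat_lit 796) (nat_lit 4) (nat_lit 389) (nat_lit 376) (nat_lit 375)))) (XT.nd (nat_lit 156) (nat_lit 1140) (nat_lit 0) (XT.nd (nat_lit 78) (nat_lit 0) (nat_lit 0) (XT.lf (nat_lit 0) (nat_lit 710741921) (nat_lit 456) (nat_lit 4117856864) (nat_lit 76) (nat_lit 1661632529) (nat_lit 790) (nat_lit 5) (nat_lit 796) (nat_lit 5) (nat_lit 791) (nat_lit 4) (nat_lit 390) (nat_lit 376) (nat_lit 374)) (XT.lf (nat_lit 0) (nat_lit 3874191291) (nat_lit 456)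 (nat_lit 423066513) (nat_lit 76) (nat_lit 2203708033) (nat_lit 790) (nat_lit 5) (nat_lit 796) (nat_lit 5) (nat_lit 791) (nat_lit 4) (nat_lit 391) (nat_lit 376) (nat_lit 373))) (XT.nd (nat_lit 78) (nat_lit 608) (nat_lit 0) (XT.lf (nat_lit 0) (nat_lit 525828936) (nat_lit 532) (nat_lit 3175352064) (nat_lit 76) (nat_lit 2811766386) (nat_lit 783) (nat_lit 5) (nat_lit 790) (nat_lit 5) (nat_lit 784) (nat_lit 5) (nat_lit 392) (nat_lit 376) (nat_lit 372)) (XT.nd (nat_lit 78) (nat_lit 76) (nat_lit 0) (XT.lf (nat_lit 0) (nat_lit 595480243) (nat_lit 532) (nat_lit 3041512872) (nat_lit 608) (nat_lit 2889214568) (nat_lit 776) (nat_lit 5) (nat_lit 783) (nat_lit 5) (nat_lit 784) (nat_lit 5) (nat_lit 393) (nat_lit 376) (nat_lit 371)) (XT.lf (nat_lit 0) (nat_lit 213150958) (nat_lit 608) (nat_lit 2106121299) (nat_lit 76) (nat_lit 4221504722) (nat_lit 775) (nat_lit 5) (nat_lit 783) (nat_lit 5) (nat_lit 776) (nat_lit 5) (nat_lit 394) (nat_lit 376) (nat_lit 370)))))) (XT.nd (nat_lit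 390) (nat_lit 2888) (nat_lit 0) (XT.nd (nat_lit 156) (nat_lit 1596) (nat_lit 0) (XT.nd (nat_lit 78) (nat_lit 0) (nat_lit 0) (XT.lf (nat_lit 0) (nat_lit 1750082138) (nat_lit 608) (nat_lit 1526276048) (nat_lit 684) (nat_lit 3280147901) (nat_lit 767) (nat_lit 5) (nat_lit 775) (nat_lit 5) (nat_lit 776) (nat_lit 5) (nat_lit 395) (nat_lit 376) (nat_lit 369)) (XT.lf (nat_lit 0) (nat_lit 5663565560) (nat_lit 608) (nat_lit 678614468) (nat_lit 684) (nat_lit 231542740) (nat_lit 767) (nat_lit 5) (nat_lit 775) (nat_lit 5) (nat_lit 776) (nat_lit 5) (nat_lit 396) (nat_lit 376) (nat_lit 368))) (XT.nd (nat_lit 78) (nat_lit 836) (nat_lit 0) (XT.lf (nat_lit 0) (nat_lit 2789791284) (nat_lit 760) (nat_lit 3556788510) (nat_lit 76) (nat_lit 245340212) (nat_lit 757) (nat_lit 5) (nat_lit 767) (nat_lit 5) (nat_lit 758) (nat_lit 5) (nat_lit 397) (nat_lit 376) (nat_lit 367)) (XT.nd (nat_lit 78) (nat_lit 76) (nat_lit 0) (XT.lf (nat_lit 0) (nat_lit 410984433) (nat_lit 760) (nat_lit 5400195838)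 (nat_lit 836) (nat_lit 800415736) (nat_lit 747) (nat_lit 5) (nat_lit 757) (nat_lit 5) (nat_lit 758) (nat_lit 5) (nat_lit 398) (nat_lit 376) (nat_lit 366)) (XT.lf (nat_lit 0) (nat_lit 2185718292) (nat_lit 836) (nat_lit 2189947764) (nat_lit 76) (nat_lit 2256624938) (nat_lit 746) (nat_lit 5) (nat_lit 757) (nat_lit 5) (nat_lit 747) (nat_lit 5) (nat_lit 399) (nat_lit 376) (nat_lit 365))))) (XT.nd (nat_lit 156) (nat_lit 1976) (nat_lit 0) (XT.nd (nat_lit 78) (nat_lit 76) (nat_lit 0) (XT.lf (nat_lit 0) (nat_lit 1870905517) (nat_lit 836) (nat_lit 3293499843) (nat_lit 912) (nat_lit 1490017748) (nat_lit 735) (nat_lit 5) (nat_lit 746) (nat_lit 5) (nat_lit 747) (nat_lit 5) (nat_lit 400) (nat_lit 376) (nat_lit 364)) (XT.lf (nat_lit 0) (nat_lit 1452422655) (nat_lit 912) (nat_lit 693886032) (nat_lit 76) (nat_lit 4531555788) (nat_lit 734) (nat_lit 5) (nat_lit 746) (nat_lit 5) (nat_lit 735) (nat_lit 5) (nat_lit 401) (nat_lit 376) (nat_lit 363))) (XT.nd (nat_lit 78) (nat_lit 1064)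 (nat_lit 0) (XT.lf (nat_lit 0) (nat_lit 3464241610) (nat_lit 912) (nat_lit 925334370) (nat_lit 988) (nat_lit 2312885401) (nat_lit 722) (nat_lit 5) (nat_lit 734) (nat_lit 5) (nat_lit 735) (nat_lit 5) (nat_lit 402) (nat_lit 376) (nat_lit 362)) (XT.nd (nat_lit 78) (nat_lit 0) (nat_lit 0) (XT.lf (nat_lit 0) (nat_lit 596272407) (nat_lit 1064) (nat_lit 5784690882) (nat_lit 76) (nat_lit 347561924) (nat_lit 708) (nat_lit 5) (nat_lit 722) (nat_lit 5) (nat_lit 709) (nat_lit 5) (nat_lit 403) (nat_lit 376) (nat_lit 361)) (XT.lf (nat_lit 0) (nat_lit 3495619376) (nat_lit 1064) (nat_lit 1573343215) (nat_lit 76) (nat_lit 1686582454) (nat_lit 708) (nat_lit 5) (nat_lit 722) (nat_lit 5) (nat_lit 709) (nat_lit 5) (nat_lit 404) (nat_lit 376) (nat_lit 360))))))))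
noncomputable def xc45 : XT := (XT.nd (nat_lit 1482) (nat_lit 10564) (nat_lit 0) (XT.nd (nat_lit 702) (nat_lit 10716) (nat_lit 0) (XT.nd (nat_lit 312) (nat_lit 4256) (nat_lit 0) (XT.nd (nat_lit 156) (nat_lit 1292) (nat_lit 0) (XT.nd (nat_lit 78) (nat_lit 1216) (nat_lit 0) (XT.lf (nat_lit 0) (nat_lit 2708237819) (nat_lit 1064) (nat_lit 3698519219) (nat_lit 1140) (nat_lit 377272161) (nat_lit 694) (nat_lit 5) (nat_lit 708) (nat_lit 5) (nat_lit 709) (nat_lit 5) (nat_lit 405) (nat_lit 376) (nat_lit 359)) (XT.lf (nat_lit 0) (nat_lit 220053247) (nat_lit 1140) (nat_lit 2258158221) (nat_lit 1216) (nat_lit 4335562916) (nat_lit 678) (nat_lit 5) (nat_lit 693) (nat_lit 5) (nat_lit 694) (nat_lit 5) (nat_lit 406) (nat_lit 376) (nat_lit 358))) (XT.nd (nat_lit 78) (nat_lit 1292) (nat_lit 0) (XT.lf (nat_lit 0) (nat_lit 4604832999) (nat_lit 1140) (nat_lit 745911995) (nat_lit 1216) (nat_lit 1494019765) (nat_lit 678) (nat_lit 5) (nat_lit 693) (nat_lit 5) (nat_lit 694) (nat_lit 5)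 (nat_lit 407) (nat_lit 376) (nat_lit 357)) (XT.lf (nat_lit 0) (nat_lit 1343903870) (nat_lit 1292) (nat_lit 4711801383) (nat_lit 76) (nat_lit 821327968) (nat_lit 661) (nat_lit 5) (nat_lit 678) (nat_lit 5) (nat_lit 662) (nat_lit 5) (nat_lit 408) (nat_lit 376) (nat_lit 356)))) (XT.nd (nat_lit 156) (nat_lit 2888) (nat_lit 0) (XT.nd (nat_lit 78) (nat_lit 1368) (nat_lit 0) (XT.lf (nat_lit 0) (nat_lit 4178101942) (nat_lit 1292) (nat_lit 286221205) (nat_lit 76) (nat_lit 2446235980) (nat_lit 661) (nat_lit 5) (nat_lit 678) (nat_lit 5) (nat_lit 662) (nat_lit 5) (nat_lit 409) (nat_lit 376) (nat_lit 355)) (XT.lf (nat_lit 0) (nat_lit 90496463) (nat_lit 1368) (nat_lit 2712102564) (nat_lit 76) (nat_lit 4142782445) (nat_lit 643) (nat_lit 5) (nat_lit 661) (nat_lit 5) (nat_lit 644) (nat_lit 5) (nat_lit 410) (nat_lit 376) (nat_lit 354))) (XT.nd (nat_lit 78) (nat_lit 1520) (nat_lit 0) (XT.lf (nat_lit 0) (nat_lit 1822004543) (nat_lit 1368) (nat_lit 1066190959) (nat_lit 1444) (nat_lit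 4093246053) (nat_lit 625) (nat_lit 5) (nat_lit 643) (nat_lit 5) (nat_lit 644) (nat_lit 5) (nat_lit 411) (nat_lit 376) (nat_lit 353)) (XT.nd (nat_lit 78) (nat_lit 1520) (nat_lit 0) (XT.lf (nat_lit 0) (nat_lit 5706710214) (nat_lit 1444) (nat_lit 589857091) (nat_lit 76) (nat_lit 722358301) (nat_lit 625) (nat_lit 5) (nat_lit 644) (nat_lit 5) (nat_lit 626) (nat_lit 5) (nat_lit 412) (nat_lit 376) (nat_lit 352)) (XT.lf (nat_lit 0) (nat_lit 1480860018) (nat_lit 1520) (nat_lit 2999830906) (nat_lit 76) (nat_lit 2576742113) (nat_lit 605) (nat_lit 5) (nat_lit 625) (nat_lit 5) (nat_lit 606) (nat_lit 5) (nat_lit 413) (nat_lit 376) (nat_lit 351)))))) (XT.nd (nat_lit 390) (nat_lit 5776) (nat_lit 0) (XT.nd (nat_lit 156) (nat_lit 3420) (nat_lit 0) (XT.nd (nat_lit 78) (nat_lit 0) (nat_lit 0) (XT.lf (nat_lit 0) (nat_lit 1672307909) (nat_lit 1520) (nat_lit 2598302086) (nat_lit 1596) (nat_lit 2826759475) (nat_lit 585) (nat_lit 5) (nat_lit 605) (nat_lit 5) (nat_lit 606) (nat_lit 5)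 (nat_lit 414) (nat_lit 376) (nat_lit 350)) (XT.lf (nat_lit 0) (nat_lit 6428600725) (nat_lit 1520) (nat_lit 651992718) (nat_lit 1596) (nat_lit 58222419) (nat_lit 585) (nat_lit 5) (nat_lit 605) (nat_lit 5) (nat_lit 606) (nat_lit 5) (nat_lit 415) (nat_lit 376) (nat_lit 349))) (XT.nd (nat_lit 78) (nat_lit 1748) (nat_lit 0) (XT.lf (nat_lit 0) (nat_lit 2709957853) (nat_lit 1672) (nat_lit 3105444086) (nat_lit 76) (nat_lit 1365719211) (nat_lit 563) (nat_lit 5) (nat_lit 585) (nat_lit 5) (nat_lit 564) (nat_lit 5) (nat_lit 416) (nat_lit 376) (nat_lit 348)) (XT.nd (nat_lit 78) (nat_lit 76) (nat_lit 0) (XT.lf (nat_lit 0) (nat_lit 1709936519) (nat_lit 1672) (nat_lit 3788830578) (nat_lit 1748) (nat_lit 1726176850) (nat_lit 541) (nat_lit 5) (nat_lit 563) (nat_lit 5) (nat_lit 564) (nat_lit 5) (nat_lit 417) (nat_lit 376) (nat_lit 347)) (XT.lf (nat_lit 0) (nat_lit 1026814152) (nat_lit 1748) (nat_lit 663490143) (nat_lit 76) (nat_lit 5579855745) (nat_lit 540) (nat_lit 5) (nat_lit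 563) (nat_lit 5) (nat_lit 541) (nat_lit 5) (nat_lit 418) (nat_lit 376) (nat_lit 346))))) (XT.nd (nat_lit 156) (nat_lit 2204) (nat_lit 0) (XT.nd (nat_lit 78) (nat_lit 1824) (nat_lit 0) (XT.lf (nat_lit 0) (nat_lit 3790026398) (nat_lit 1824) (nat_lit 3039871570) (nat_lit 76) (nat_lit 486588789) (nat_lit 517) (nat_lit 5) (nat_lit 541) (nat_lit 5) (nat_lit 518) (nat_lit 5) (nat_lit 419) (nat_lit 376) (nat_lit 345)) (XT.lf (nat_lit 0) (nat_lit 1924273894) (nat_lit 1824) (nat_lit 4660391239) (nat_lit 1900) (nat_lit 779551630) (nat_lit 493) (nat_lit 5) (nat_lit 517) (nat_lit 5) (nat_lit 518) (nat_lit 5) (nat_lit 420) (nat_lit 376) (nat_lit 344))) (XT.nd (nat_lit 78) (nat_lit 2128) (nat_lit 0) (XT.lf (nat_lit 0) (nat_lit 1964652921) (nat_lit 1900) (nat_lit 447808755) (nat_lit 76) (nat_lit 5000799482) (nat_lit 492) (nat_lit 5) (nat_lit 517) (nat_lit 5) (nat_lit 493) (nat_lit 5) (nat_lit 421) (nat_lit 376) (nat_lit 343)) (XT.nd (nat_lit 78) (nat_lit 988) (nat_lit 0) (XT.lf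 (nat_lit 0) (nat_lit 4650031921) (nat_lit 1140) (nat_lit 82831299) (nat_lit 1216) (nat_lit 2730728970) (nat_lit 477) (nat_lit 5) (nat_lit 492) (nat_lit 5) (nat_lit 493) (nat_lit 5) (nat_lit 422) (nat_lit 376) (nat_lit 342)) (XT.lf (nat_lit 0) (nat_lit 23767764) (nat_lit 988) (nat_lit 5209700575) (nat_lit 76) (nat_lit 2281800026) (nat_lit 464) (nat_lit 5) (nat_lit 477) (nat_lit 5) (nat_lit 465) (nat_lit 5) (nat_lit 423) (nat_lit 376) (nat_lit 341))))))) (XT.nd (nat_lit 702) (nat_lit 5244) (nat_lit 0) (XT.nd (nat_lit 312) (nat_lit 2584) (nat_lit 0) (XT.nd (nat_lit 156) (nat_lit 1824) (nat_lit 0) (XT.nd (nat_lit 78) (nat_lit 912) (nat_lit 0) (XT.lf (nat_lit 0) (nat_lit 2766736743) (nat_lit 988) (nat_lit 72100438) (nat_lit 76) (nat_lit 4729380946) (nat_lit 464) (nat_lit 5) (nat_lit 477) (nat_lit 5) (nat_lit 465) (nat_lit 5) (nat_lit 424) (nat_lit 376) (nat_lit 340)) (XT.lf (nat_lit 0) (nat_lit 5186311245) (nat_lit 912) (nat_lit 363258722) (nat_lit 988) (nat_lit 2072956820)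 (nat_lit 452) (nat_lit 5) (nat_lit 464) (nat_lit 5) (nat_lit 465) (nat_lit 5) (nat_lit 425) (nat_lit 376) (nat_lit 339))) (XT.nd (nat_lit 78) (nat_lit 912) (nat_lit 0) (XT.lf (nat_lit 0) (nat_lit 685677540) (nat_lit 912) (nat_lit 4837076532) (nat_lit 76) (nat_lit 2155378275) (nat_lit 440) (nat_lit 5) (nat_lit 452) (nat_lit 5) (nat_lit 441) (nat_lit 5) (nat_lit 426) (nat_lit 376) (nat_lit 338)) (XT.lf (nat_lit 0) (nat_lit 461297674) (nat_lit 912) (nat_lit 2984568564) (nat_lit 988) (nat_lit 4289226965) (nat_lit 428) (nat_lit 5) (nat_lit 440) (nat_lit 5) (nat_lit 441) (nat_lit 5) (nat_lit 427) (nat_lit 376) (nat_lit 337)))) (XT.nd (nat_lit 156) (nat_lit 1672) (nat_lit 0) (XT.nd (nat_lit 78) (nat_lit 912) (nat_lit 0) (XT.lf (nat_lit 0) (nat_lit 5880658698) (nat_lit 912) (nat_lit 365922622) (nat_lit 988) (nat_lit 1546905505) (nat_lit 428) (nat_lit 5) (nat_lit 440) (nat_lit 5) (nat_lit 441) (nat_lit 5) (nat_lit 428) (nat_lit 376) (nat_lit 336)) (XT.lf (nat_lit 0) (nat_lit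 1225502057) (nat_lit 912) (nat_lit 4324965114) (nat_lit 76) (nat_lit 2302586055) (nat_lit 416) (nat_lit 5) (nat_lit 428) (nat_lit 5) (nat_lit 417) (nat_lit 5) (nat_lit 429) (nat_lit 376) (nat_lit 335))) (XT.nd (nat_lit 78) (nat_lit 836) (nat_lit 0) (XT.lf (nat_lit 0) (nat_lit 1141679269) (nat_lit 836) (nat_lit 2867786320) (nat_lit 912) (nat_lit 3904604448) (nat_lit 405) (nat_lit 5) (nat_lit 416) (nat_lit 5) (nat_lit 417) (nat_lit 5) (nat_lit 430) (nat_lit 376) (nat_lit 334)) (XT.nd (nat_lit 78) (nat_lit 836) (nat_lit 0) (XT.lf (nat_lit 0) (nat_lit 6725877739) (nat_lit 836) (nat_lit 106871833) (nat_lit 912) (nat_lit 1143884789) (nat_lit 405) (nat_lit 5) (nat_lit 416) (nat_lit 5) (nat_lit 417) (nat_lit 5) (nat_lit 431) (nat_lit 376) (nat_lit 333)) (XT.lf (nat_lit 0) (nat_lit 1651574101) (nat_lit 836) (nat_lit 3680517765) (nat_lit 76) (nat_lit 2708111902) (nat_lit 394) (nat_lit 5) (nat_lit 405) (nat_lit 5) (nat_lit 395) (nat_lit 5) (nat_lit 432) (nat_lit 376) (nat_lit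 332)))))) (XT.nd (nat_lit 390) (nat_lit 2204) (nat_lit 0) (XT.nd (nat_lit 156) (nat_lit 2280) (nat_lit 0) (XT.nd (nat_lit 78) (nat_lit 0) (nat_lit 0) (XT.lf (nat_lit 0) (nat_lit 1961266850) (nat_lit 760) (nat_lit 2503997216) (nat_lit 836) (nat_lit 3640076506) (nat_lit 384) (nat_lit 5) (nat_lit 394) (nat_lit 5) (nat_lit 395) (nat_lit 5) (nat_lit 433) (nat_lit 376) (nat_lit 331)) (XT.lf (nat_lit 0) (nat_lit 7318794867) (nat_lit 836) (nat_lit 459175551) (nat_lit 76) (nat_lit 394138353) (nat_lit 384) (nat_lit 5) (nat_lit 395) (nat_lit 5) (nat_lit 385) (nat_lit 5) (nat_lit 434) (nat_lit 376) (nat_lit 330))) (XT.nd (nat_lit 78) (nat_lit 1444) (nat_lit 0) (XT.lf (nat_lit 0) (nat_lit 1971515041) (nat_lit 836) (nat_lit 2910136166) (nat_lit 76) (nat_lit 3358134433) (nat_lit 373) (nat_lit 5) (nat_lit 384) (nat_lit 5) (nat_lit 374) (nat_lit 5) (nat_lit 435) (nat_lit 376) (nat_lit 329)) (XT.nd (nat_lit 78) (nat_lit 684) (nat_lit 0) (XT.lf (nat_lit 0) (nat_lit 2913997763)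 (nat_lit 760) (nat_lit 1906778773) (nat_lit 836) (nat_lit 3488339466) (nat_lit 363) (nat_lit 5) (nat_lit 373) (nat_lit 5) (nat_lit 374) (nat_lit 5) (nat_lit 436) (nat_lit 376) (nat_lit 328)) (XT.lf (nat_lit 0) (nat_lit 462503962) (nat_lit 684) (nat_lit 7252292882) (nat_lit 760) (nat_lit 665280655) (nat_lit 354) (nat_lit 5) (nat_lit 363) (nat_lit 5) (nat_lit 364) (nat_lit 5) (nat_lit 437) (nat_lit 376) (nat_lit 327))))) (XT.nd (nat_lit 156) (nat_lit 1444) (nat_lit 0) (XT.nd (nat_lit 78) (nat_lit 684) (nat_lit 0) (XT.lf (nat_lit 0) (nat_lit 2192286649) (nat_lit 760) (nat_lit 2019522319) (nat_lit 76) (nat_lit 4240219983) (nat_lit 353) (nat_lit 5) (nat_lit 363) (nat_lit 5) (nat_lit 354) (nat_lit 5) (nat_lit 438) (nat_lit 376) (nat_lit 326)) (XT.lf (nat_lit 0) (nat_lit 3994516737) (nat_lit 684) (nat_lit 1088362997) (nat_lit 760) (nat_lit 3442756096) (nat_lit 344) (nat_lit 5) (nat_lit 353) (nat_lit 5) (nat_lit 354) (nat_lit 5) (nat_lit 439) (nat_lit 376) (nat_lit 325)))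 (XT.nd (nat_lit 78) (nat_lit 760) (nat_lit 0) (XT.lf (nat_lit 0) (nat_lit 1511500171) (nat_lit 684) (nat_lit 6516124582) (nat_lit 760) (nat_lit 573163294) (nat_lit 335) (nat_lit 5) (nat_lit 344) (nat_lit 5) (nat_lit 345) (nat_lit 5) (nat_lit 440) (nat_lit 376) (nat_lit 324)) (XT.nd (nat_lit 78) (nat_lit 684) (nat_lit 0) (XT.lf (nat_lit 0) (nat_lit 2320238854) (nat_lit 760) (nat_lit 1013724504) (nat_lit 76) (nat_lit 5343228532) (nat_lit 334) (nat_lit 5) (nat_lit 344) (nat_lit 5) (nat_lit 335) (nat_lit 5) (nat_lit 441) (nat_lit 376) (nat_lit 323)) (XT.lf (nat_lit 0) (nat_lit 5198130715) (nat_lit 684) (nat_lit 59728228) (nat_lit 760) (nat_lit 3497308603) (nat_lit 325) (nat_lit 5) (nat_lit 334) (nat_lit 5) (nat_lit 335) (nat_lit 5) (nat_lit 442) (nat_lit 376) (nat_lit 322))))))))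
noncomputable def xc46 : XT := (XT.nd (nat_lit 1482) (nat_lit 2356) (nat_lit 0) (XT.nd (nat_lit 702) (nat_lit 4256) (nat_lit 0) (XT.nd (nat_lit 312) (nat_lit 1900) (nat_lit 0) (XT.nd (nat_lit 156) (nat_lit 608) (nat_lit 0) (XT.nd (nat_lit 78) (nat_lit 684) (nat_lit 0) (XT.lf (nat_lit 0) (nat_lit 2677176091) (nat_lit 608) (nat_lit 5583242813) (nat_lit 684) (nat_lit 574160063) (nat_lit 317) (nat_lit 5) (nat_lit 325) (nat_lit 5) (nat_lit 326) (nat_lit 5) (nat_lit 443) (nat_lit 376) (nat_lit 321)) (XT.lf (nat_lit 0) (nat_lit 104187008) (nat_lit 608) (nat_lit 2257643201) (nat_lit 684) (nat_lit 6553716733) (nat_lit 308) (nat_lit 5) (nat_lit 316) (nat_lit 5) (nat_lit 317) (nat_lit 5) (nat_lit 444) (nat_lit 376) (nat_lit 320))) (XT.nd (nat_lit 78) (nat_lit 608) (nat_lit 0) (XT.lf (nat_lit 0) (nat_lit 5359043002) (nat_lit 684) (nat_lit 2484830872) (nat_lit 76) (nat_lit 1153980684) (nat_lit 308) (nat_lit 5) (nat_lit 317) (nat_lit 5) (nat_lit 309) (nat_lit 5) (nat_lit 445)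 (nat_lit 376) (nat_lit 319)) (XT.lf (nat_lit 0) (nat_lit 3955591922) (nat_lit 608) (nat_lit 4463226790) (nat_lit 684) (nat_lit 662937241) (nat_lit 300) (nat_lit 5) (nat_lit 308) (nat_lit 5) (nat_lit 309) (nat_lit 5) (nat_lit 446) (nat_lit 376) (nat_lit 318)))) (XT.nd (nat_lit 156) (nat_lit 1216) (nat_lit 0) (XT.nd (nat_lit 78) (nat_lit 0) (nat_lit 0) (XT.lf (nat_lit 0) (nat_lit 1343874360) (nat_lit 608) (nat_lit 985137132) (nat_lit 684) (nat_lit 6838262372) (nat_lit 291) (nat_lit 5) (nat_lit 299) (nat_lit 5) (nat_lit 300) (nat_lit 5) (nat_lit 447) (nat_lit 376) (nat_lit 317)) (XT.lf (nat_lit 0) (nat_lit 5385700420) (nat_lit 684) (nat_lit 1312353643) (nat_lit 76) (nat_lit 2556084871) (nat_lit 291) (nat_lit 5) (nat_lit 300) (nat_lit 5) (nat_lit 292) (nat_lit 5) (nat_lit 448) (nat_lit 376) (nat_lit 316))) (XT.nd (nat_lit 78) (nat_lit 684) (nat_lit 0) (XT.lf (nat_lit 0) (nat_lit 5343366444) (nat_lit 532) (nat_lit 3164613682) (nat_lit 608) (nat_lit 834672038) (nat_lit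 284) (nat_lit 5) (nat_lit 291) (nat_lit 5) (nat_lit 292) (nat_lit 5) (nat_lit 449) (nat_lit 376) (nat_lit 315)) (XT.nd (nat_lit 78) (nat_lit 0) (nat_lit 0) (XT.lf (nat_lit 0) (nat_lit 2222899140) (nat_lit 684) (nat_lit 6747395024) (nat_lit 76) (nat_lit 462492723) (nat_lit 275) (nat_lit 5) (nat_lit 284) (nat_lit 5) (nat_lit 276) (nat_lit 5) (nat_lit 450) (nat_lit 376) (nat_lit 314)) (XT.lf (nat_lit 0) (nat_lit 5342149300) (nat_lit 684) (nat_lit 42458455) (nat_lit 76) (nat_lit 4139772130) (nat_lit 275) (nat_lit 5) (nat_lit 284) (nat_lit 5) (nat_lit 276) (nat_lit 5) (nat_lit 451) (nat_lit 376) (nat_lit 313)))))) (XT.nd (nat_lit 390) (nat_lit 1976) (nat_lit 0) (XT.nd (nat_lit 156) (nat_lit 1140) (nat_lit 0) (XT.nd (nat_lit 78) (nat_lit 608) (nat_lit 0) (XT.lf (nat_lit 0) (nat_lit 6837643771) (nat_lit 532) (nat_lit 1694967190) (nat_lit 608) (nat_lit 1085017252) (nat_lit 268) (nat_lit 5) (nat_lit 275) (nat_lit 5) (nat_lit 276) (nat_lit 5) (nat_lit 452) (nat_lit 376)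 (nat_lit 312)) (XT.lf (nat_lit 0) (nat_lit 2052267796) (nat_lit 608) (nat_lit 5591057818) (nat_lit 76) (nat_lit 2069039958) (nat_lit 260) (nat_lit 5) (nat_lit 268) (nat_lit 5) (nat_lit 261) (nat_lit 5) (nat_lit 453) (nat_lit 376) (nat_lit 311))) (XT.nd (nat_lit 78) (nat_lit 608) (nat_lit 0) (XT.lf (nat_lit 0) (nat_lit 1339666774) (nat_lit 532) (nat_lit 3901694407) (nat_lit 608) (nat_lit 4567421234) (nat_lit 253) (nat_lit 5) (nat_lit 260) (nat_lit 5) (nat_lit 261) (nat_lit 5) (nat_lit 454) (nat_lit 376) (nat_lit 310)) (XT.nd (nat_lit 78) (nat_lit 608) (nat_lit 0) (XT.lf (nat_lit 0) (nat_lit 8436063040) (nat_lit 532) (nat_lit 60940433) (nat_lit 608) (nat_lit 1410068783) (nat_lit 253) (nat_lit 5) (nat_lit 260) (nat_lit 5) (nat_lit 261) (nat_lit 5) (nat_lit 455) (nat_lit 376) (nat_lit 309)) (XT.lf (nat_lit 0) (nat_lit 1814550560) (nat_lit 608) (nat_lit 4350723880) (nat_lit 76) (nat_lit 3841261084) (nat_lit 245) (nat_lit 5) (nat_lit 253) (nat_lit 5) (nat_lit 246)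 (nat_lit 5) (nat_lit 456) (nat_lit 376) (nat_lit 308))))) (XT.nd (nat_lit 156) (nat_lit 1520) (nat_lit 0) (XT.nd (nat_lit 78) (nat_lit 0) (nat_lit 0) (XT.lf (nat_lit 0) (nat_lit 2815940654) (nat_lit 456) (nat_lit 2263456111) (nat_lit 532) (nat_lit 5028512575) (nat_lit 239) (nat_lit 5) (nat_lit 245) (nat_lit 5) (nat_lit 246) (nat_lit 5) (nat_lit 457) (nat_lit 376) (nat_lit 307)) (XT.lf (nat_lit 0) (nat_lit 8416307496) (nat_lit 532) (nat_lit 85912458) (nat_lit 76) (nat_lit 1708955327) (nat_lit 239) (nat_lit 5) (nat_lit 246) (nat_lit 5) (nat_lit 240) (nat_lit 5) (nat_lit 458) (nat_lit 376) (nat_lit 306))) (XT.nd (nat_lit 78) (nat_lit 912) (nat_lit 0) (XT.lf (nat_lit 0) (nat_lit 1513190223) (nat_lit 608) (nat_lit 3028703554) (nat_lit 76) (nat_lit 5773828369) (nat_lit 231) (nat_lit 5) (nat_lit 239) (nat_lit 5) (nat_lit 232) (nat_lit 5) (nat_lit 459) (nat_lit 376) (nat_lit 305)) (XT.nd (nat_lit 78) (nat_lit 456) (nat_lit 0) (XT.lf (nat_lit 0) (nat_lit 4383899962) (nat_lit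 456) (nat_lit 475562579) (nat_lit 532) (nat_lit 5562738397) (nat_lit 225) (nat_lit 5) (nat_lit 231) (nat_lit 5) (nat_lit 232) (nat_lit 5) (nat_lit 460) (nat_lit 376) (nat_lit 304)) (XT.lf (nat_lit 0) (nat_lit 1401644108) (nat_lit 456) (nat_lit 6891677816) (nat_lit 532) (nat_lit 2237074150) (nat_lit 219) (nat_lit 5) (nat_lit 225) (nat_lit 5) (nat_lit 226) (nat_lit 5) (nat_lit 461) (nat_lit 376) (nat_lit 303))))))) (XT.nd (nat_lit 53586) (nat_lit 0) (nat_lit 43244) (XT.nd (nat_lit 312) (nat_lit 1292) (nat_lit 0) (XT.nd (nat_lit 156) (nat_lit 532) (nat_lit 0) (XT.nd (nat_lit 78) (nat_lit 456) (nat_lit 0) (XT.lf (nat_lit 0) (nat_lit 1151269311) (nat_lit 532) (nat_lit 1626909978) (nat_lit 76) (nat_lit 7862199523) (nat_lit 218) (nat_lit 5) (nat_lit 225) (nat_lit 5) (nat_lit 219) (nat_lit 5) (nat_lit 462) (nat_lit 376) (nat_lit 302)) (XT.lf (nat_lit 0) (nat_lit 4594161421) (nat_lit 532) (nat_lit 4719525527) (nat_lit 76) (nat_lit 1438243791) (nat_lit 212) (nat_lit 5)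 (nat_lit 219) (nat_lit 5) (nat_lit 213) (nat_lit 5) (nat_lit 463) (nat_lit 376) (nat_lit 301))) (XT.nd (nat_lit 78) (nat_lit 76) (nat_lit 0) (XT.lf (nat_lit 0) (nat_lit 2974442183) (nat_lit 456) (nat_lit 5148408540) (nat_lit 532) (nat_lit 2742524195) (nat_lit 206) (nat_lit 5) (nat_lit 212) (nat_lit 5) (nat_lit 213) (nat_lit 5) (nat_lit 464) (nat_lit 376) (nat_lit 300)) (XT.lf (nat_lit 0) (nat_lit 731534164) (nat_lit 532) (nat_lit 146881496) (nat_lit 76) (nat_lit 10102571555) (nat_lit 205) (nat_lit 5) (nat_lit 212) (nat_lit 5) (nat_lit 206) (nat_lit 5) (nat_lit 465) (nat_lit 376) (nat_lit 299)))) (XT.nd (nat_lit 156) (nat_lit 456) (nat_lit 0) (XT.nd (nat_lit 78) (nat_lit 456) (nat_lit 0) (XT.lf (nat_lit 0) (nat_lit 4280854529) (nat_lit 456) (nat_lit 3331774126) (nat_lit 76) (nat_lit 3485070478) (nat_lit 200) (nat_lit 5) (nat_lit 206) (nat_lit 5) (nat_lit 201) (nat_lit 5) (nat_lit 466) (nat_lit 376) (nat_lit 298)) (XT.lf (nat_lit 0) (nat_lit 4630215329) (nat_lit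 456) (nat_lit 3276990433) (nat_lit 532) (nat_lit 3309418636) (nat_lit 194) (nat_lit 5) (nat_lit 200) (nat_lit 5) (nat_lit 201) (nat_lit 5) (nat_lit 467) (nat_lit 376) (nat_lit 297))) (XT.nd (nat_lit 52962) (nat_lit 0) (nat_lit 46512) (XT.lf (nat_lit 0) (nat_lit 273247206) (nat_lit 456) (nat_lit 9916486028) (nat_lit 76) (nat_lit 1147987950) (nat_lit 188) (nat_lit 5) (nat_lit 194) (nat_lit 5) (nat_lit 189) (nat_lit 5) (nat_lit 468) (nat_lit 376) (nat_lit 296)) (XT.nd (nat_lit 78) (nat_lit 76) (nat_lit 0) (XT.lf (nat_lit 0) (nat_lit 428335771) (nat_lit 228) (nat_lit 1400644220) (nat_lit 228) (nat_lit 1400644220) (nat_lit 801) (nat_lit 4) (nat_lit 804) (nat_lit 5) (nat_lit 804) (nat_lit 4) (nat_lit 386) (nat_lit 377) (nat_lit 377)) (XT.lf (nat_lit 0) (nat_lit 422718070) (nat_lit 304) (nat_lit 2063672652) (nat_lit 76) (nat_lit 3979211277) (nat_lit 800) (nat_lit 5) (nat_lit 804) (nat_lit 5) (nat_lit 801) (nat_lit 4) (nat_lit 387) (nat_lit 377) (nat_lit 376)))))) (XT.nd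 (nat_lit 390) (nat_lit 1976) (nat_lit 0) (XT.nd (nat_lit 156) (nat_lit 912) (nat_lit 0) (XT.nd (nat_lit 78) (nat_lit 76) (nat_lit 0) (XT.lf (nat_lit 0) (nat_lit 1500057125) (nat_lit 304) (nat_lit 2102901446) (nat_lit 380) (nat_lit 2870168482) (nat_lit 796) (nat_lit 5) (nat_lit 800) (nat_lit 5) (nat_lit 801) (nat_lit 4) (nat_lit 388) (nat_lit 377) (nat_lit 375)) (XT.lf (nat_lit 0) (nat_lit 295380106) (nat_lit 380) (nat_lit 1367783309) (nat_lit 76) (nat_lit 4818908086) (nat_lit 795) (nat_lit 5) (nat_lit 800) (nat_lit 5) (nat_lit 796) (nat_lit 5) (nat_lit 389) (nat_lit 377) (nat_lit 374))) (XT.nd (nat_lit 78) (nat_lit 532) (nat_lit 0) (XT.lf (nat_lit 0) (nat_lit 2273532067) (nat_lit 380) (nat_lit 1148876152) (nat_lit 456) (nat_lit 3069675181) (nat_lit 790) (nat_lit 5) (nat_lit 795) (nat_lit 5) (nat_lit 796) (nat_lit 5) (nat_lit 390) (nat_lit 377) (nat_lit 373)) (XT.nd (nat_lit 78) (nat_lit 456) (nat_lit 0) (XT.lf (nat_lit 0) (nat_lit 40006252) (nat_lit 456) (nat_lit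 544278626) (nat_lit 76) (nat_lit 5919361150) (nat_lit 789) (nat_lit 5) (nat_lit 795) (nat_lit 5) (nat_lit 790) (nat_lit 5) (nat_lit 391) (nat_lit 377) (nat_lit 372)) (XT.lf (nat_lit 0) (nat_lit 3115901537) (nat_lit 532) (nat_lit 3338388620) (nat_lit 76) (nat_lit 61841476) (nat_lit 783) (nat_lit 5) (nat_lit 790) (nat_lit 5) (nat_lit 784) (nat_lit 5) (nat_lit 392) (nat_lit 377) (nat_lit 371))))) (XT.nd (nat_lit 156) (nat_lit 1368) (nat_lit 0) (XT.nd (nat_lit 78) (nat_lit 76) (nat_lit 0) (XT.lf (nat_lit 0) (nat_lit 406175089) (nat_lit 532) (nat_lit 5782738704) (nat_lit 608) (nat_lit 341241175) (nat_lit 776) (nat_lit 5) (nat_lit 783) (nat_lit 5) (nat_lit 784) (nat_lit 5) (nat_lit 393) (nat_lit 377) (nat_lit 370)) (XT.lf (nat_lit 0) (nat_lit 2691114210) (nat_lit 608) (nat_lit 2340032514) (nat_lit 76) (nat_lit 1513978538) (nat_lit 775) (nat_lit 5) (nat_lit 783) (nat_lit 5) (nat_lit 776) (nat_lit 5) (nat_lit 394) (nat_lit 377) (nat_lit 369))) (XT.nd (nat_lit 78) (nat_lit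 760) (nat_lit 0) (XT.lf (nat_lit 0) (nat_lit 1489105380) (nat_lit 608) (nat_lit 4227646123) (nat_lit 684) (nat_lit 844854266) (nat_lit 767) (nat_lit 5) (nat_lit 775) (nat_lit 5) (nat_lit 776) (nat_lit 5) (nat_lit 395) (nat_lit 377) (nat_lit 368)) (XT.nd (nat_lit 78) (nat_lit 684) (nat_lit 0) (XT.lf (nat_lit 0) (nat_lit 2139289812) (nat_lit 684) (nat_lit 1214501656) (nat_lit 76) (nat_lit 3225455986) (nat_lit 766) (nat_lit 5) (nat_lit 775) (nat_lit 5) (nat_lit 767) (nat_lit 5) (nat_lit 396) (nat_lit 377) (nat_lit 367)) (XT.lf (nat_lit 0) (nat_lit 2703063360) (nat_lit 684) (nat_lit 2415881709) (nat_lit 760) (nat_lit 1479242398) (nat_lit 757) (nat_lit 5) (nat_lit 766) (nat_lit 5) (nat_lit 767) (nat_lit 5) (nat_lit 397) (nat_lit 377) (nat_lit 366))))))))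
noncomputable def xc47 : XT := (XT.nd (nat_lit 1482) (nat_lit 15200) (nat_lit 0) (XT.nd (nat_lit 702) (nat_lit 9880) (nat_lit 0) (XT.nd (nat_lit 312) (nat_lit 3116) (nat_lit 0) (XT.nd (nat_lit 156) (nat_lit 912) (nat_lit 0) (XT.nd (nat_lit 78) (nat_lit 0) (nat_lit 0) (XT.lf (nat_lit 0) (nat_lit 40508136) (nat_lit 760) (nat_lit 1418635281) (nat_lit 836) (nat_lit 5159389546) (nat_lit 746) (nat_lit 5) (nat_lit 756) (nat_lit 5) (nat_lit 757) (nat_lit 5) (nat_lit 398) (nat_lit 377) (nat_lit 365)) (XT.lf (nat_lit 0) (nat_lit 4049976898) (nat_lit 760) (nat_lit 343859820) (nat_lit 836) (nat_lit 2246106159) (nat_lit 746) (nat_lit 5) (nat_lit 756) (nat_lit 5) (nat_lit 757) (nat_lit 5) (nat_lit 399) (nat_lit 377) (nat_lit 364))) (XT.nd (nat_lit 78) (nat_lit 0) (nat_lit 0) (XT.lf (nat_lit 0) (nat_lit 662571586) (nat_lit 912) (nat_lit 5223592477) (nat_lit 76) (nat_lit 776589864) (nat_lit 734) (nat_lit 5) (nat_lit 746) (nat_lit 5) (nat_lit 735) (nat_lit 5) (nat_lit 400) (nat_lit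 377) (nat_lit 363)) (XT.lf (nat_lit 0) (nat_lit 3552452638) (nat_lit 912) (nat_lit 1167824721) (nat_lit 76) (nat_lit 1966384803) (nat_lit 734) (nat_lit 5) (nat_lit 746) (nat_lit 5) (nat_lit 735) (nat_lit 5) (nat_lit 401) (nat_lit 377) (nat_lit 362)))) (XT.nd (nat_lit 156) (nat_lit 1140) (nat_lit 0) (XT.nd (nat_lit 78) (nat_lit 1064) (nat_lit 0) (XT.lf (nat_lit 0) (nat_lit 2959974048) (nat_lit 912) (nat_lit 3493987776) (nat_lit 988) (nat_lit 258010126) (nat_lit 722) (nat_lit 5) (nat_lit 734) (nat_lit 5) (nat_lit 735) (nat_lit 5) (nat_lit 402) (nat_lit 377) (nat_lit 361)) (XT.lf (nat_lit 0) (nat_lit 387737129) (nat_lit 988) (nat_lit 2198448672) (nat_lit 1064) (nat_lit 4152343385) (nat_lit 708) (nat_lit 5) (nat_lit 721) (nat_lit 5) (nat_lit 722) (nat_lit 5) (nat_lit 403) (nat_lit 377) (nat_lit 360))) (XT.nd (nat_lit 78) (nat_lit 1140) (nat_lit 0) (XT.lf (nat_lit 0) (nat_lit 4611262086) (nat_lit 988) (nat_lit 833836498) (nat_lit 1064) (nat_lit 1321259118) (nat_lit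 708) (nat_lit 5) (nat_lit 721) (nat_lit 5) (nat_lit 722) (nat_lit 5) (nat_lit 404) (nat_lit 377) (nat_lit 359)) (XT.nd (nat_lit 78) (nat_lit 0) (nat_lit 0) (XT.lf (nat_lit 0) (nat_lit 1500330677) (nat_lit 1140) (nat_lit 4705628763) (nat_lit 76) (nat_lit 589491378) (nat_lit 693) (nat_lit 5) (nat_lit 708) (nat_lit 5) (nat_lit 694) (nat_lit 5) (nat_lit 405) (nat_lit 377) (nat_lit 358)) (XT.lf (nat_lit 0) (nat_lit 4318732427) (nat_lit 1140) (nat_lit 439400216) (nat_lit 76) (nat_lit 2067657049) (nat_lit 693) (nat_lit 5) (nat_lit 708) (nat_lit 5) (nat_lit 694) (nat_lit 5) (nat_lit 406) (nat_lit 377) (nat_lit 357)))))) (XT.nd (nat_lit 390) (nat_lit 4712) (nat_lit 0) (XT.nd (nat_lit 156) (nat_lit 2736) (nat_lit 0) (XT.nd (nat_lit 78) (nat_lit 1216) (nat_lit 0) (XT.lf (nat_lit 0) (nat_lit 296729009) (nat_lit 1216) (nat_lit 2943975905) (nat_lit 76) (nat_lit 3616699119) (nat_lit 677) (nat_lit 5) (nat_lit 693) (nat_lit 5) (nat_lit 678) (nat_lit 5) (nat_lit 407) (nat_lit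 377) (nat_lit 356)) (XT.lf (nat_lit 0) (nat_lit 1423149536) (nat_lit 1216) (nat_lit 1651788580) (nat_lit 1292) (nat_lit 3815342780) (nat_lit 661) (nat_lit 5) (nat_lit 677) (nat_lit 5) (nat_lit 678) (nat_lit 5) (nat_lit 408) (nat_lit 377) (nat_lit 355))) (XT.nd (nat_lit 78) (nat_lit 2736) (nat_lit 0) (XT.lf (nat_lit 0) (nat_lit 5869015306) (nat_lit 1292) (nat_lit 1055337847) (nat_lit 76) (nat_lit 256066) (nat_lit 661) (nat_lit 5) (nat_lit 678) (nat_lit 5) (nat_lit 662) (nat_lit 5) (nat_lit 409) (nat_lit 377) (nat_lit 354)) (XT.nd (nat_lit 78) (nat_lit 1368) (nat_lit 0) (XT.lf (nat_lit 0) (nat_lit 1711103904) (nat_lit 1368) (nat_lit 3541183021) (nat_lit 76) (nat_lit 1707612163) (nat_lit 643) (nat_lit 5) (nat_lit 661) (nat_lit 5) (nat_lit 644) (nat_lit 5) (nat_lit 410) (nat_lit 377) (nat_lit 353)) (XT.lf (nat_lit 0) (nat_lit 957331223) (nat_lit 1368) (nat_lit 3517259668) (nat_lit 1444) (nat_lit 2522052520) (nat_lit 625) (nat_lit 5) (nat_lit 643) (nat_lit 5) (nat_lit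 644) (nat_lit 5) (nat_lit 411) (nat_lit 377) (nat_lit 352))))) (XT.nd (nat_lit 156) (nat_lit 3192) (nat_lit 0) (XT.nd (nat_lit 78) (nat_lit 1444) (nat_lit 0) (XT.lf (nat_lit 0) (nat_lit 222417351) (nat_lit 1444) (nat_lit 1491100018) (nat_lit 76) (nat_lit 5321239749) (nat_lit 624) (nat_lit 5) (nat_lit 643) (nat_lit 5) (nat_lit 625) (nat_lit 5) (nat_lit 412) (nat_lit 377) (nat_lit 351)) (XT.lf (nat_lit 0) (nat_lit 2953231113) (nat_lit 1520) (nat_lit 3951248805) (nat_lit 76) (nat_lit 169515271) (nat_lit 605) (nat_lit 5) (nat_lit 625) (nat_lit 5) (nat_lit 606) (nat_lit 5) (nat_lit 413) (nat_lit 377) (nat_lit 350))) (XT.nd (nat_lit 78) (nat_lit 1672) (nat_lit 0) (XT.lf (nat_lit 0) (nat_lit 683517319) (nat_lit 1520) (nat_lit 5025634158) (nat_lit 1596) (nat_lit 1405456735) (nat_lit 585) (nat_lit 5) (nat_lit 605) (nat_lit 5) (nat_lit 606) (nat_lit 5) (nat_lit 414) (nat_lit 377) (nat_lit 349)) (XT.nd (nat_lit 78) (nat_lit 1596) (nat_lit 0) (XT.lf (nat_lit 0) (nat_lit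 1317994583) (nat_lit 1596) (nat_lit 1749700049) (nat_lit 76) (nat_lit 4088727146) (nat_lit 584) (nat_lit 5) (nat_lit 605) (nat_lit 5) (nat_lit 585) (nat_lit 5) (nat_lit 415) (nat_lit 377) (nat_lit 348)) (XT.lf (nat_lit 0) (nat_lit 3006715918) (nat_lit 1596) (nat_lit 1036035247) (nat_lit 1672) (nat_lit 3156821542) (nat_lit 563) (nat_lit 5) (nat_lit 584) (nat_lit 5) (nat_lit 585) (nat_lit 5) (nat_lit 416) (nat_lit 377) (nat_lit 347))))))) (XT.nd (nat_lit 780) (nat_lit 5852) (nat_lit 0) (XT.nd (nat_lit 390) (nat_lit 3952) (nat_lit 0) (XT.nd (nat_lit 156) (nat_lit 3648) (nat_lit 0) (XT.nd (nat_lit 78) (nat_lit 76) (nat_lit 0) (XT.lf (nat_lit 0) (nat_lit 590057264) (nat_lit 1672) (nat_lit 6201212993) (nat_lit 1748) (nat_lit 452931051) (nat_lit 541) (nat_lit 5) (nat_lit 563) (nat_lit 5) (nat_lit 564) (nat_lit 5) (nat_lit 417) (nat_lit 377) (nat_lit 346)) (XT.lf (nat_lit 0) (nat_lit 2257254302) (nat_lit 1748) (nat_lit 1835585000) (nat_lit 76) (nat_lit 3196934900) (nat_lit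 540) (nat_lit 5) (nat_lit 563) (nat_lit 5) (nat_lit 541) (nat_lit 5) (nat_lit 418) (nat_lit 377) (nat_lit 345))) (XT.nd (nat_lit 78) (nat_lit 1900) (nat_lit 0) (XT.lf (nat_lit 0) (nat_lit 3067680033) (nat_lit 1748) (nat_lit 1916119959) (nat_lit 1824) (nat_lit 2353034257) (nat_lit 517) (nat_lit 5) (nat_lit 540) (nat_lit 5) (nat_lit 541) (nat_lit 5) (nat_lit 419) (nat_lit 377) (nat_lit 344)) (XT.nd (nat_lit 78) (nat_lit 0) (nat_lit 0) (XT.lf (nat_lit 0) (nat_lit 342555874) (nat_lit 1900) (nat_lit 6721361379) (nat_lit 76) (nat_lit 321518914) (nat_lit 492) (nat_lit 5) (nat_lit 517) (nat_lit 5) (nat_lit 493) (nat_lit 5) (nat_lit 420) (nat_lit 377) (nat_lit 343)) (XT.lf (nat_lit 0) (nat_lit 3051466665) (nat_lit 1900) (nat_lit 1759021073) (nat_lit 76) (nat_lit 2624392994) (nat_lit 492) (nat_lit 5) (nat_lit 517) (nat_lit 5) (nat_lit 493) (nat_lit 5) (nat_lit 421) (nat_lit 377) (nat_lit 342))))) (XT.nd (nat_lit 156) (nat_lit 1824) (nat_lit 0) (XT.nd (nat_lit 78) (nat_lit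 988) (nat_lit 0) (XT.lf (nat_lit 0) (nat_lit 3296824555) (nat_lit 1140) (nat_lit 2489488253) (nat_lit 1216) (nat_lit 1699566238) (nat_lit 477) (nat_lit 5) (nat_lit 492) (nat_lit 5) (nat_lit 493) (nat_lit 5) (nat_lit 422) (nat_lit 377) (nat_lit 341)) (XT.lf (nat_lit 0) (nat_lit 895585252) (nat_lit 912) (nat_lit 97142241) (nat_lit 988) (nat_lit 6545667412) (nat_lit 464) (nat_lit 5) (nat_lit 476) (nat_lit 5) (nat_lit 477) (nat_lit 5) (nat_lit 423) (nat_lit 377) (nat_lit 340))) (XT.nd (nat_lit 78) (nat_lit 1824) (nat_lit 0) (XT.lf (nat_lit 0) (nat_lit 3710972637) (nat_lit 988) (nat_lit 1529311408) (nat_lit 76) (nat_lit 2351555097) (nat_lit 464) (nat_lit 5) (nat_lit 477) (nat_lit 5) (nat_lit 465) (nat_lit 5) (nat_lit 424) (nat_lit 377) (nat_lit 339)) (XT.nd (nat_lit 78) (nat_lit 912) (nat_lit 0) (XT.lf (nat_lit 0) (nat_lit 3685164817) (nat_lit 912) (nat_lit 2775273898) (nat_lit 988) (nat_lit 1186376430) (nat_lit 452) (nat_lit 5) (nat_lit 464) (nat_lit 5) (nat_lit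 465) (nat_lit 5) (nat_lit 425) (nat_lit 377) (nat_lit 338)) (XT.lf (nat_lit 0) (nat_lit 1279255488) (nat_lit 836) (nat_lit 233492159) (nat_lit 912) (nat_lit 6190515586) (nat_lit 440) (nat_lit 5) (nat_lit 451) (nat_lit 5) (nat_lit 452) (nat_lit 5) (nat_lit 426) (nat_lit 377) (nat_lit 337)))))) (XT.nd (nat_lit 390) (nat_lit 3192) (nat_lit 0) (XT.nd (nat_lit 156) (nat_lit 1748) (nat_lit 0) (XT.nd (nat_lit 78) (nat_lit 912) (nat_lit 0) (XT.lf (nat_lit 0) (nat_lit 4245252772) (nat_lit 912) (nat_lit 1154863376) (nat_lit 76) (nat_lit 2360661613) (nat_lit 440) (nat_lit 5) (nat_lit 452) (nat_lit 5) (nat_lit 441) (nat_lit 5) (nat_lit 427) (nat_lit 377) (nat_lit 336)) (XT.lf (nat_lit 0) (nat_lit 4224616771) (nat_lit 912) (nat_lit 2790875836) (nat_lit 988) (nat_lit 804288279) (nat_lit 428) (nat_lit 5) (nat_lit 440) (nat_lit 5) (nat_lit 441) (nat_lit 5) (nat_lit 428) (nat_lit 377) (nat_lit 335))) (XT.nd (nat_lit 78) (nat_lit 836) (nat_lit 0) (XT.lf (nat_lit 0) (nat_lit 1809284713)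 (nat_lit 836) (nat_lit 100109065) (nat_lit 912) (nat_lit 5970836797) (nat_lit 416) (nat_lit 5) (nat_lit 427) (nat_lit 5) (nat_lit 428) (nat_lit 5) (nat_lit 429) (nat_lit 377) (nat_lit 334)) (XT.nd (nat_lit 78) (nat_lit 836) (nat_lit 0) (XT.lf (nat_lit 0) (nat_lit 4662990664) (nat_lit 912) (nat_lit 643250464) (nat_lit 76) (nat_lit 2635613592) (nat_lit 416) (nat_lit 5) (nat_lit 428) (nat_lit 5) (nat_lit 417) (nat_lit 5) (nat_lit 430) (nat_lit 377) (nat_lit 333)) (XT.lf (nat_lit 0) (nat_lit 4907935925) (nat_lit 836) (nat_lit 2552081178) (nat_lit 912) (nat_lit 544927091) (nat_lit 405) (nat_lit 5) (nat_lit 416) (nat_lit 5) (nat_lit 417) (nat_lit 5) (nat_lit 431) (nat_lit 377) (nat_lit 332))))) (XT.nd (nat_lit 156) (nat_lit 2356) (nat_lit 0) (XT.nd (nat_lit 78) (nat_lit 0) (nat_lit 0) (XT.lf (nat_lit 0) (nat_lit 2192659634) (nat_lit 836) (nat_lit 5592806145) (nat_lit 76) (nat_lit 283970381) (nat_lit 394) (nat_lit 5) (nat_lit 405) (nat_lit 5) (nat_lit 395) (nat_lit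 5) (nat_lit 432) (nat_lit 377) (nat_lit 331)) (XT.lf (nat_lit 0) (nat_lit 4972131465) (nat_lit 836) (nat_lit 1269181) (nat_lit 76) (nat_lit 3161856680) (nat_lit 394) (nat_lit 5) (nat_lit 405) (nat_lit 5) (nat_lit 395) (nat_lit 5) (nat_lit 433) (nat_lit 377) (nat_lit 330))) (XT.nd (nat_lit 78) (nat_lit 1596) (nat_lit 0) (XT.lf (nat_lit 0) (nat_lit 5728661265) (nat_lit 760) (nat_lit 2073178419) (nat_lit 836) (nat_lit 400662293) (nat_lit 384) (nat_lit 5) (nat_lit 394) (nat_lit 5) (nat_lit 395) (nat_lit 5) (nat_lit 434) (nat_lit 377) (nat_lit 329)) (XT.nd (nat_lit 78) (nat_lit 760) (nat_lit 0) (XT.lf (nat_lit 0) (nat_lit 2370303602) (nat_lit 836) (nat_lit 4996509878) (nat_lit 76) (nat_lit 904265116) (nat_lit 373) (nat_lit 5) (nat_lit 384) (nat_lit 5) (nat_lit 374) (nat_lit 5) (nat_lit 435) (nat_lit 377) (nat_lit 328)) (XT.lf (nat_lit 0) (nat_lit 775175233) (nat_lit 760) (nat_lit 4409793560) (nat_lit 836) (nat_lit 3156132091) (nat_lit 363) (nat_lit 5) (nat_lit 373)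 (nat_lit 5) (nat_lit 374) (nat_lit 5) (nat_lit 436) (nat_lit 377) (nat_lit 327))))))))
noncomputable def xc48 : XT := (XT.nd (nat_lit 1482) (nat_lit 4484) (nat_lit 0) (XT.nd (nat_lit 702) (nat_lit 4180) (nat_lit 0) (XT.nd (nat_lit 312) (nat_lit 2736) (nat_lit 0) (XT.nd (nat_lit 156) (nat_lit 684) (nat_lit 0) (XT.nd (nat_lit 78) (nat_lit 760) (nat_lit 0) (XT.lf (nat_lit 0) (nat_lit 6681063782) (nat_lit 760) (nat_lit 1367061614) (nat_lit 836) (nat_lit 364554259) (nat_lit 363) (nat_lit 5) (nat_lit 373) (nat_lit 5) (nat_lit 374) (nat_lit 5) (nat_lit 437) (nat_lit 377) (nat_lit 326)) (XT.lf (nat_lit 0) (nat_lit 2448348787) (nat_lit 760) (nat_lit 4287216391) (nat_lit 76) (nat_lit 1749841282) (nat_lit 353) (nat_lit 5) (nat_lit 363) (nat_lit 5) (nat_lit 354) (nat_lit 5) (nat_lit 438) (nat_lit 377) (nat_lit 325))) (XT.nd (nat_lit 78) (nat_lit 0) (nat_lit 0) (XT.lf (nat_lit 0) (nat_lit 1672118134) (nat_lit 684) (nat_lit 3631768077) (nat_lit 760) (nat_lit 3255828243) (nat_lit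 344) (nat_lit 5) (nat_lit 353) (nat_lit 5) (nat_lit 354) (nat_lit 5) (nat_lit 439) (nat_lit 377) (nat_lit 324)) (XT.lf (nat_lit 0) (nat_lit 7760099283) (nat_lit 684) (nat_lit 445326170) (nat_lit 760) (nat_lit 430305332) (nat_lit 344) (nat_lit 5) (nat_lit 353) (nat_lit 5) (nat_lit 354) (nat_lit 5) (nat_lit 440) (nat_lit 377) (nat_lit 323)))) (XT.nd (nat_lit 156) (nat_lit 1292) (nat_lit 0) (XT.nd (nat_lit 78) (nat_lit 684) (nat_lit 0) (XT.lf (nat_lit 0) (nat_lit 2432863500) (nat_lit 760) (nat_lit 3470102330) (nat_lit 76) (nat_lit 2809717441) (nat_lit 334) (nat_lit 5) (nat_lit 344) (nat_lit 5) (nat_lit 335) (nat_lit 5) (nat_lit 441) (nat_lit 377) (nat_lit 322)) (XT.lf (nat_lit 0) (nat_lit 2684716963) (nat_lit 684) (nat_lit 2650164081) (nat_lit 760) (nat_lit 3456489935) (nat_lit 325) (nat_lit 5) (nat_lit 334) (nat_lit 5) (nat_lit 335) (nat_lit 5) (nat_lit 442) (nat_lit 377) (nat_lit 321))) (XT.nd (nat_lit 78) (nat_lit 684) (nat_lit 0) (XT.lf (nat_lit 0) (nat_lit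 86132334) (nat_lit 608) (nat_lit 8198574615) (nat_lit 684) (nat_lit 587130132) (nat_lit 317) (nat_lit 5) (nat_lit 325) (nat_lit 5) (nat_lit 326) (nat_lit 5) (nat_lit 443) (nat_lit 377) (nat_lit 320)) (XT.nd (nat_lit 78) (nat_lit 608) (nat_lit 0) (XT.lf (nat_lit 0) (nat_lit 2329354208) (nat_lit 684) (nat_lit 2549753345) (nat_lit 76) (nat_lit 4074092708) (nat_lit 316) (nat_lit 5) (nat_lit 325) (nat_lit 5) (nat_lit 317) (nat_lit 5) (nat_lit 444) (nat_lit 377) (nat_lit 319)) (XT.lf (nat_lit 0) (nat_lit 3808746247) (nat_lit 608) (nat_lit 1474669941) (nat_lit 684) (nat_lit 3752954706) (nat_lit 308) (nat_lit 5) (nat_lit 316) (nat_lit 5) (nat_lit 317) (nat_lit 5) (nat_lit 445) (nat_lit 377) (nat_lit 318)))))) (XT.nd (nat_lit 390) (nat_lit 2280) (nat_lit 0) (XT.nd (nat_lit 156) (nat_lit 1216) (nat_lit 0) (XT.nd (nat_lit 78) (nat_lit 76) (nat_lit 0) (XT.lf (nat_lit 0) (nat_lit 1161674494) (nat_lit 608) (nat_lit 7135352630) (nat_lit 684) (nat_lit 824168460) (nat_lit 300)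 (nat_lit 5) (nat_lit 308) (nat_lit 5) (nat_lit 309) (nat_lit 5) (nat_lit 446) (nat_lit 377) (nat_lit 317)) (XT.lf (nat_lit 0) (nat_lit 2142805047) (nat_lit 684) (nat_lit 1530202287) (nat_lit 76) (nat_lit 5534268894) (nat_lit 299) (nat_lit 5) (nat_lit 308) (nat_lit 5) (nat_lit 300) (nat_lit 5) (nat_lit 447) (nat_lit 377) (nat_lit 316))) (XT.nd (nat_lit 78) (nat_lit 608) (nat_lit 0) (XT.lf (nat_lit 0) (nat_lit 5040543305) (nat_lit 608) (nat_lit 113907099) (nat_lit 684) (nat_lit 4140591763) (nat_lit 291) (nat_lit 5) (nat_lit 299) (nat_lit 5) (nat_lit 300) (nat_lit 5) (nat_lit 448) (nat_lit 377) (nat_lit 315)) (XT.nd (nat_lit 78) (nat_lit 76) (nat_lit 0) (XT.lf (nat_lit 0) (nat_lit 2338723142) (nat_lit 532) (nat_lit 5899918190) (nat_lit 608) (nat_lit 1145675842) (nat_lit 284) (nat_lit 5) (nat_lit 291) (nat_lit 5) (nat_lit 292) (nat_lit 5) (nat_lit 449) (nat_lit 377) (nat_lit 314)) (XT.lf (nat_lit 0) (nat_lit 1877714175) (nat_lit 608) (nat_lit 414964203) (nat_lit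 76) (nat_lit 7182579105) (nat_lit 283) (nat_lit 5) (nat_lit 291) (nat_lit 5) (nat_lit 284) (nat_lit 5) (nat_lit 450) (nat_lit 377) (nat_lit 313))))) (XT.nd (nat_lit 156) (nat_lit 1140) (nat_lit 0) (XT.nd (nat_lit 78) (nat_lit 532) (nat_lit 0) (XT.lf (nat_lit 0) (nat_lit 4961722708) (nat_lit 684) (nat_lit 3200015063) (nat_lit 76) (nat_lit 1405817543) (nat_lit 275) (nat_lit 5) (nat_lit 284) (nat_lit 5) (nat_lit 276) (nat_lit 5) (nat_lit 451) (nat_lit 377) (nat_lit 312)) (XT.lf (nat_lit 0) (nat_lit 3614218859) (nat_lit 532) (nat_lit 4499774219) (nat_lit 608) (nat_lit 1547574389) (nat_lit 268) (nat_lit 5) (nat_lit 275) (nat_lit 5) (nat_lit 276) (nat_lit 5) (nat_lit 452) (nat_lit 377) (nat_lit 311))) (XT.nd (nat_lit 78) (nat_lit 532) (nat_lit 0) (XT.lf (nat_lit 0) (nat_lit 803469287) (nat_lit 532) (nat_lit 739874580) (nat_lit 608) (nat_lit 8214069688) (nat_lit 260) (nat_lit 5) (nat_lit 267) (nat_lit 5) (nat_lit 268) (nat_lit 5) (nat_lit 453) (nat_lit 377) (nat_lit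 310)) (XT.nd (nat_lit 78) (nat_lit 532) (nat_lit 0) (XT.lf (nat_lit 0) (nat_lit 4701888211) (nat_lit 608) (nat_lit 2059793792) (nat_lit 76) (nat_lit 3092759379) (nat_lit 260) (nat_lit 5) (nat_lit 268) (nat_lit 5) (nat_lit 261) (nat_lit 5) (nat_lit 454) (nat_lit 377) (nat_lit 309)) (XT.lf (nat_lit 0) (nat_lit 4985577626) (nat_lit 532) (nat_lit 2941535019) (nat_lit 608) (nat_lit 2026226934) (nat_lit 253) (nat_lit 5) (nat_lit 260) (nat_lit 5) (nat_lit 261) (nat_lit 5) (nat_lit 455) (nat_lit 377) (nat_lit 308))))))) (XT.nd (nat_lit 702) (nat_lit 1368) (nat_lit 0) (XT.nd (nat_lit 312) (nat_lit 1444) (nat_lit 0) (XT.nd (nat_lit 156) (nat_lit 1064) (nat_lit 0) (XT.nd (nat_lit 78) (nat_lit 0) (nat_lit 0) (XT.lf (nat_lit 0) (nat_lit 1147769091) (nat_lit 608) (nat_lit 7941829327) (nat_lit 76) (nat_lit 964458526) (nat_lit 245) (nat_lit 5) (nat_lit 253) (nat_lit 5) (nat_lit 246) (nat_lit 5) (nat_lit 456) (nat_lit 377) (nat_lit 307)) (XT.lf (nat_lit 0) (nat_lit 4377818314)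 (nat_lit 608) (nat_lit 835636432) (nat_lit 76) (nat_lit 4942671954) (nat_lit 245) (nat_lit 5) (nat_lit 253) (nat_lit 5) (nat_lit 246) (nat_lit 5) (nat_lit 457) (nat_lit 377) (nat_lit 306))) (XT.nd (nat_lit 78) (nat_lit 608) (nat_lit 0) (XT.lf (nat_lit 0) (nat_lit 6450663354) (nat_lit 456) (nat_lit 1230982897) (nat_lit 532) (nat_lit 2578408045) (nat_lit 239) (nat_lit 5) (nat_lit 245) (nat_lit 5) (nat_lit 246) (nat_lit 5) (nat_lit 458) (nat_lit 377) (nat_lit 305)) (XT.lf (nat_lit 0) (nat_lit 690948565) (nat_lit 608) (nat_lit 6861519793) (nat_lit 76) (nat_lit 2813214102) (nat_lit 231) (nat_lit 5) (nat_lit 239) (nat_lit 5) (nat_lit 232) (nat_lit 5) (nat_lit 459) (nat_lit 377) (nat_lit 304)))) (XT.nd (nat_lit 156) (nat_lit 988) (nat_lit 0) (XT.nd (nat_lit 78) (nat_lit 0) (nat_lit 0) (XT.lf (nat_lit 0) (nat_lit 476576127) (nat_lit 456) (nat_lit 3519269431) (nat_lit 532) (nat_lit 6477143200) (nat_lit 225) (nat_lit 5) (nat_lit 231) (nat_lit 5) (nat_lit 232) (nat_lit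 5) (nat_lit 460) (nat_lit 377) (nat_lit 303)) (XT.lf (nat_lit 0) (nat_lit 7384953017) (nat_lit 532) (nat_lit 2578467567) (nat_lit 76) (nat_lit 618658348) (nat_lit 225) (nat_lit 5) (nat_lit 232) (nat_lit 5) (nat_lit 226) (nat_lit 5) (nat_lit 461) (nat_lit 377) (nat_lit 302))) (XT.nd (nat_lit 78) (nat_lit 456) (nat_lit 0) (XT.lf (nat_lit 0) (nat_lit 170899700) (nat_lit 532) (nat_lit 5710400202) (nat_lit 76) (nat_lit 4811544616) (nat_lit 218) (nat_lit 5) (nat_lit 225) (nat_lit 5) (nat_lit 219) (nat_lit 5) (nat_lit 462) (nat_lit 377) (nat_lit 301)) (XT.nd (nat_lit 78) (nat_lit 0) (nat_lit 0) (XT.lf (nat_lit 0) (nat_lit 1881017531) (nat_lit 456) (nat_lit 1680773225) (nat_lit 532) (nat_lit 7243645710) (nat_lit 212) (nat_lit 5) (nat_lit 218) (nat_lit 5) (nat_lit 219) (nat_lit 5) (nat_lit 463) (nat_lit 377) (nat_lit 300)) (XT.lf (nat_lit 0) (nat_lit 7044840363) (nat_lit 532) (nat_lit 1281632677) (nat_lit 76) (nat_lit 2593320400) (nat_lit 212) (nat_lit 5) (nat_lit 219)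 (nat_lit 5) (nat_lit 213) (nat_lit 5) (nat_lit 464) (nat_lit 377) (nat_lit 299)))))) (XT.nd (nat_lit 53118) (nat_lit 0) (nat_lit 45676) (XT.nd (nat_lit 156) (nat_lit 456) (nat_lit 0) (XT.nd (nat_lit 78) (nat_lit 456) (nat_lit 0) (XT.lf (nat_lit 0) (nat_lit 6542975680) (nat_lit 456) (nat_lit 4077659919) (nat_lit 532) (nat_lit 415340260) (nat_lit 206) (nat_lit 5) (nat_lit 212) (nat_lit 5) (nat_lit 213) (nat_lit 5) (nat_lit 465) (nat_lit 377) (nat_lit 298)) (XT.lf (nat_lit 0) (nat_lit 3074612384) (nat_lit 456) (nat_lit 7790790932) (nat_lit 76) (nat_lit 288634693) (nat_lit 200) (nat_lit 5) (nat_lit 206) (nat_lit 5) (nat_lit 201) (nat_lit 5) (nat_lit 466) (nat_lit 377) (nat_lit 297))) (XT.nd (nat_lit 78) (nat_lit 0) (nat_lit 0) (XT.lf (nat_lit 0) (nat_lit 88855785) (nat_lit 456) (nat_lit 6567660429) (nat_lit 532) (nat_lit 4617336010) (nat_lit 194) (nat_lit 5) (nat_lit 200) (nat_lit 5) (nat_lit 201) (nat_lit 5) (nat_lit 467) (nat_lit 377) (nat_lit 296)) (XT.nd (nat_lit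 52806) (nat_lit 0) (nat_lit 46360) (XT.lf (nat_lit 0) (nat_lit 8185984801) (nat_lit 456) (nat_lit 2146426402) (nat_lit 532) (nat_lit 1063204456) (nat_lit 194) (nat_lit 5) (nat_lit 200) (nat_lit 5) (nat_lit 201) (nat_lit 5) (nat_lit 468) (nat_lit 377) (nat_lit 295)) (XT.lf (nat_lit 0) (nat_lit 96021884) (nat_lit 228) (nat_lit 3032947267) (nat_lit 0) (nat_lit 96021884) (nat_lit 804) (nat_lit 5) (nat_lit 807) (nat_lit 4) (nat_lit 804) (nat_lit 4) (nat_lit 384) (nat_lit 378) (nat_lit 378))))) (XT.nd (nat_lit 156) (nat_lit 380) (nat_lit 0) (XT.nd (nat_lit 78) (nat_lit 304) (nat_lit 0) (XT.lf (nat_lit 0) (nat_lit 3398632489) (nat_lit 228) (nat_lit 2632867542) (nat_lit 0) (nat_lit 422718070) (nat_lit 804) (nat_lit 5) (nat_lit 807) (nat_lit 4) (nat_lit 804) (nat_lit 4) (nat_lit 385) (nat_lit 378) (nat_lit 377)) (XT.lf (nat_lit 0) (nat_lit 131681497) (nat_lit 304) (nat_lit 5627480949) (nat_lit 76) (nat_lit 700876387) (nat_lit 800) (nat_lit 5) (nat_lit 804) (nat_lit 5)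 (nat_lit 801) (nat_lit 4) (nat_lit 386) (nat_lit 378) (nat_lit 376))) (XT.nd (nat_lit 78) (nat_lit 380) (nat_lit 0) (XT.lf (nat_lit 0) (nat_lit 3279091519) (nat_lit 304) (nat_lit 2130068738) (nat_lit 76) (nat_lit 1057665535) (nat_lit 800) (nat_lit 5) (nat_lit 804) (nat_lit 5) (nat_lit 801) (nat_lit 4) (nat_lit 387) (nat_lit 378) (nat_lit 375)) (XT.nd (nat_lit 78) (nat_lit 76) (nat_lit 0) (XT.lf (nat_lit 0) (nat_lit 1409627791) (nat_lit 304) (nat_lit 5010041526) (nat_lit 380) (nat_lit 55474784) (nat_lit 796) (nat_lit 5) (nat_lit 800) (nat_lit 5) (nat_lit 801) (nat_lit 4) (nat_lit 388) (nat_lit 378) (nat_lit 374)) (XT.lf (nat_lit 0) (nat_lit 3034447157) (nat_lit 380) (nat_lit 1501715945) (nat_lit 76) (nat_lit 1948334179) (nat_lit 795) (nat_lit 5) (nat_lit 800) (nat_lit 5) (nat_lit 796) (nat_lit 5) (nat_lit 389) (nat_lit 378) (nat_lit 373))))))))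
noncomputable def xc49 : XT := (XT.nd (nat_lit 1482) (nat_lit 16796) (nat_lit 0) (XT.nd (nat_lit 702) (nat_lit 7220) (nat_lit 0) (XT.nd (nat_lit 312) (nat_lit 1444) (nat_lit 0) (XT.nd (nat_lit 156) (nat_lit 1064) (nat_lit 0) (XT.nd (nat_lit 78) (nat_lit 76) (nat_lit 0) (XT.lf (nat_lit 0) (nat_lit 2114760849) (nat_lit 380) (nat_lit 4007731189) (nat_lit 456) (nat_lit 372796807) (nat_lit 790) (nat_lit 5) (nat_lit 795) (nat_lit 5) (nat_lit 796) (nat_lit 5) (nat_lit 390) (nat_lit 378) (nat_lit 372)) (XT.lf (nat_lit 0) (nat_lit 2663912200) (nat_lit 456) (nat_lit 746871486) (nat_lit 76) (nat_lit 3096469636) (nat_lit 789) (nat_lit 5) (nat_lit 795) (nat_lit 5) (nat_lit 790) (nat_lit 5) (nat_lit 391) (nat_lit 378) (nat_lit 371))) (XT.nd (nat_lit 78) (nat_lit 608) (nat_lit 0) (XT.lf (nat_lit 0) (nat_lit 2949918532) (nat_lit 456) (nat_lit 2751135139) (nat_lit 532) (nat_lit 819460331) (nat_lit 783) (nat_lit 5) (nat_lit 789) (nat_lit 5) (nat_lit 790) (nat_lit 5) (nat_lit 392)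 (nat_lit 378) (nat_lit 370)) (XT.lf (nat_lit 0) (nat_lit 137454017) (nat_lit 532) (nat_lit 2029889139) (nat_lit 608) (nat_lit 4367759645) (nat_lit 775) (nat_lit 5) (nat_lit 782) (nat_lit 5) (nat_lit 783) (nat_lit 5) (nat_lit 393) (nat_lit 378) (nat_lit 369)))) (XT.nd (nat_lit 156) (nat_lit 760) (nat_lit 0) (XT.nd (nat_lit 78) (nat_lit 684) (nat_lit 0) (XT.lf (nat_lit 0) (nat_lit 3916432331) (nat_lit 532) (nat_lit 1237772322) (nat_lit 608) (nat_lit 1396644498) (nat_lit 775) (nat_lit 5) (nat_lit 782) (nat_lit 5) (nat_lit 783) (nat_lit 5) (nat_lit 394) (nat_lit 378) (nat_lit 368)) (XT.lf (nat_lit 0) (nat_lit 1162536711) (nat_lit 608) (nat_lit 385787478) (nat_lit 684) (nat_lit 5019656873) (nat_lit 766) (nat_lit 5) (nat_lit 774) (nat_lit 5) (nat_lit 775) (nat_lit 5) (nat_lit 395) (nat_lit 378) (nat_lit 367))) (XT.nd (nat_lit 78) (nat_lit 760) (nat_lit 0) (XT.lf (nat_lit 0) (nat_lit 4484021797) (nat_lit 684) (nat_lit 1573916180) (nat_lit 76) (nat_lit 528322385) (nat_lit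 766) (nat_lit 5) (nat_lit 775) (nat_lit 5) (nat_lit 767) (nat_lit 5) (nat_lit 396) (nat_lit 378) (nat_lit 366)) (XT.nd (nat_lit 78) (nat_lit 0) (nat_lit 0) (XT.lf (nat_lit 0) (nat_lit 810280805) (nat_lit 760) (nat_lit 4295728096) (nat_lit 76) (nat_lit 1499818733) (nat_lit 756) (nat_lit 5) (nat_lit 766) (nat_lit 5) (nat_lit 757) (nat_lit 5) (nat_lit 397) (nat_lit 378) (nat_lit 365)) (XT.lf (nat_lit 0) (nat_lit 3695124098) (nat_lit 760) (nat_lit 393559478) (nat_lit 76) (nat_lit 2537980310) (nat_lit 756) (nat_lit 5) (nat_lit 766) (nat_lit 5) (nat_lit 757) (nat_lit 5) (nat_lit 398) (nat_lit 378) (nat_lit 364)))))) (XT.nd (nat_lit 390) (nat_lit 4560) (nat_lit 0) (XT.nd (nat_lit 156) (nat_lit 988) (nat_lit 0) (XT.nd (nat_lit 78) (nat_lit 912) (nat_lit 0) (XT.lf (nat_lit 0) (nat_lit 3587504427) (nat_lit 760) (nat_lit 3006358605) (nat_lit 836) (nat_lit 54929856) (nat_lit 746) (nat_lit 5) (nat_lit 756) (nat_lit 5) (nat_lit 757) (nat_lit 5) (nat_lit 399) (nat_lit 378)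 (nat_lit 363)) (XT.lf (nat_lit 0) (nat_lit 928905436) (nat_lit 836) (nat_lit 1854721311) (nat_lit 912) (nat_lit 3888520329) (nat_lit 734) (nat_lit 5) (nat_lit 745) (nat_lit 5) (nat_lit 746) (nat_lit 5) (nat_lit 400) (nat_lit 378) (nat_lit 362))) (XT.nd (nat_lit 78) (nat_lit 988) (nat_lit 0) (XT.lf (nat_lit 0) (nat_lit 4993560088) (nat_lit 836) (nat_lit 639688815) (nat_lit 912) (nat_lit 1063611585) (nat_lit 734) (nat_lit 5) (nat_lit 745) (nat_lit 5) (nat_lit 746) (nat_lit 5) (nat_lit 401) (nat_lit 378) (nat_lit 361)) (XT.nd (nat_lit 78) (nat_lit 0) (nat_lit 0) (XT.lf (nat_lit 0) (nat_lit 1749016381) (nat_lit 988) (nat_lit 4336436342) (nat_lit 76) (nat_lit 637278164) (nat_lit 721) (nat_lit 5) (nat_lit 734) (nat_lit 5) (nat_lit 722) (nat_lit 5) (nat_lit 402) (nat_lit 378) (nat_lit 360)) (XT.lf (nat_lit 0) (nat_lit 4555840881) (nat_lit 988) (nat_lit 226977289) (nat_lit 76) (nat_lit 1967116199) (nat_lit 721) (nat_lit 5) (nat_lit 734) (nat_lit 5) (nat_lit 722) (nat_lit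 5) (nat_lit 403) (nat_lit 378) (nat_lit 359))))) (XT.nd (nat_lit 156) (nat_lit 2432) (nat_lit 0) (XT.nd (nat_lit 78) (nat_lit 1064) (nat_lit 0) (XT.lf (nat_lit 0) (nat_lit 595923292) (nat_lit 1064) (nat_lit 2812162995) (nat_lit 76) (nat_lit 3370248148) (nat_lit 707) (nat_lit 5) (nat_lit 721) (nat_lit 5) (nat_lit 708) (nat_lit 5) (nat_lit 404) (nat_lit 378) (nat_lit 358)) (XT.lf (nat_lit 0) (nat_lit 1395666695) (nat_lit 1064) (nat_lit 1965508896) (nat_lit 1140) (nat_lit 3446860570) (nat_lit 693) (nat_lit 5) (nat_lit 707) (nat_lit 5) (nat_lit 708) (nat_lit 5) (nat_lit 405) (nat_lit 378) (nat_lit 357))) (XT.nd (nat_lit 78) (nat_lit 2432) (nat_lit 0) (XT.lf (nat_lit 0) (nat_lit 5678997302) (nat_lit 1064) (nat_lit 460706771) (nat_lit 1140) (nat_lit 699468427) (nat_lit 693) (nat_lit 5) (nat_lit 707) (nat_lit 5) (nat_lit 708) (nat_lit 5) (nat_lit 406) (nat_lit 378) (nat_lit 356)) (XT.nd (nat_lit 78) (nat_lit 1216) (nat_lit 0) (XT.lf (nat_lit 0) (nat_lit 2042983594)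 (nat_lit 1216) (nat_lit 3720565409) (nat_lit 76) (nat_lit 1107755665) (nat_lit 677) (nat_lit 5) (nat_lit 693) (nat_lit 5) (nat_lit 678) (nat_lit 5) (nat_lit 407) (nat_lit 378) (nat_lit 355)) (XT.lf (nat_lit 0) (nat_lit 612353049) (nat_lit 1216) (nat_lit 4174298128) (nat_lit 1292) (nat_lit 2118221184) (nat_lit 661) (nat_lit 5) (nat_lit 677) (nat_lit 5) (nat_lit 678) (nat_lit 5) (nat_lit 408) (nat_lit 378) (nat_lit 354))))))) (XT.nd (nat_lit 702) (nat_lit 9272) (nat_lit 0) (XT.nd (nat_lit 312) (nat_lit 4712) (nat_lit 0) (XT.nd (nat_lit 156) (nat_lit 1444) (nat_lit 0) (XT.nd (nat_lit 78) (nat_lit 1292) (nat_lit 0) (XT.lf (nat_lit 0) (nat_lit 604065862) (nat_lit 1292) (nat_lit 1908693492) (nat_lit 76) (nat_lit 4426938987) (nat_lit 660) (nat_lit 5) (nat_lit 677) (nat_lit 5) (nat_lit 661) (nat_lit 5) (nat_lit 409) (nat_lit 378) (nat_lit 353)) (XT.lf (nat_lit 0) (nat_lit 2534884778) (nat_lit 1292) (nat_lit 776512351) (nat_lit 1368) (nat_lit 3664364454) (nat_lit 643)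 (nat_lit 5) (nat_lit 660) (nat_lit 5) (nat_lit 661) (nat_lit 5) (nat_lit 410) (nat_lit 378) (nat_lit 352))) (XT.nd (nat_lit 78) (nat_lit 76) (nat_lit 0) (XT.lf (nat_lit 0) (nat_lit 26696654) (nat_lit 1368) (nat_lit 6009066259) (nat_lit 1444) (nat_lit 977525418) (nat_lit 625) (nat_lit 5) (nat_lit 643) (nat_lit 5) (nat_lit 644) (nat_lit 5) (nat_lit 411) (nat_lit 378) (nat_lit 351)) (XT.lf (nat_lit 0) (nat_lit 1718863767) (nat_lit 1444) (nat_lit 2472397917) (nat_lit 76) (nat_lit 2860496270) (nat_lit 624) (nat_lit 5) (nat_lit 643) (nat_lit 5) (nat_lit 625) (nat_lit 5) (nat_lit 412) (nat_lit 378) (nat_lit 350)))) (XT.nd (nat_lit 156) (nat_lit 3268) (nat_lit 0) (XT.nd (nat_lit 78) (nat_lit 0) (nat_lit 0) (XT.lf (nat_lit 0) (nat_lit 2105712604) (nat_lit 1444) (nat_lit 2308960680) (nat_lit 1520) (nat_lit 2677022825) (nat_lit 605) (nat_lit 5) (nat_lit 624) (nat_lit 5) (nat_lit 625) (nat_lit 5) (nat_lit 413) (nat_lit 378) (nat_lit 349)) (XT.lf (nat_lit 0) (nat_lit 6761701675)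 (nat_lit 1444) (nat_lit 364960104) (nat_lit 1520) (nat_lit 6525992) (nat_lit 605) (nat_lit 5) (nat_lit 624) (nat_lit 5) (nat_lit 625) (nat_lit 5) (nat_lit 414) (nat_lit 378) (nat_lit 348))) (XT.nd (nat_lit 78) (nat_lit 1672) (nat_lit 0) (XT.lf (nat_lit 0) (nat_lit 2667073173) (nat_lit 1596) (nat_lit 2859088893) (nat_lit 76) (nat_lit 1649287714) (nat_lit 584) (nat_lit 5) (nat_lit 605) (nat_lit 5) (nat_lit 585) (nat_lit 5) (nat_lit 415) (nat_lit 378) (nat_lit 347)) (XT.nd (nat_lit 78) (nat_lit 76) (nat_lit 0) (XT.lf (nat_lit 0) (nat_lit 1858619489) (nat_lit 1596) (nat_lit 3499603915) (nat_lit 1672) (nat_lit 1861049431) (nat_lit 563) (nat_lit 5) (nat_lit 584) (nat_lit 5) (nat_lit 585) (nat_lit 5) (nat_lit 416) (nat_lit 378) (nat_lit 346)) (XT.lf (nat_lit 0) (nat_lit 795086088) (nat_lit 1672) (nat_lit 607882607) (nat_lit 76) (nat_lit 5861557314) (nat_lit 562) (nat_lit 5) (nat_lit 584) (nat_lit 5) (nat_lit 563) (nat_lit 5) (nat_lit 417) (nat_lit 378) (nat_lit 345))))))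 (XT.nd (nat_lit 390) (nat_lit 2812) (nat_lit 0) (XT.nd (nat_lit 156) (nat_lit 3040) (nat_lit 0) (XT.nd (nat_lit 78) (nat_lit 1748) (nat_lit 0) (XT.lf (nat_lit 0) (nat_lit 3460601549) (nat_lit 1748) (nat_lit 3080020576) (nat_lit 76) (nat_lit 770192556) (nat_lit 540) (nat_lit 5) (nat_lit 563) (nat_lit 5) (nat_lit 541) (nat_lit 5) (nat_lit 418) (nat_lit 378) (nat_lit 344)) (XT.lf (nat_lit 0) (nat_lit 1782658485) (nat_lit 1748) (nat_lit 4371052501) (nat_lit 1824) (nat_lit 1204832469) (nat_lit 517) (nat_lit 5) (nat_lit 540) (nat_lit 5) (nat_lit 541) (nat_lit 5) (nat_lit 419) (nat_lit 378) (nat_lit 343))) (XT.nd (nat_lit 78) (nat_lit 2964) (nat_lit 0) (XT.lf (nat_lit 0) (nat_lit 1444339879) (nat_lit 1824) (nat_lit 680598743) (nat_lit 76) (nat_lit 5282684830) (nat_lit 516) (nat_lit 5) (nat_lit 540) (nat_lit 5) (nat_lit 517) (nat_lit 5) (nat_lit 420) (nat_lit 378) (nat_lit 342)) (XT.nd (nat_lit 78) (nat_lit 1140) (nat_lit 0) (XT.lf (nat_lit 0) (nat_lit 4110368648) (nat_lit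 1900) (nat_lit 3145437568) (nat_lit 76) (nat_lit 202119442) (nat_lit 492) (nat_lit 5) (nat_lit 517) (nat_lit 5) (nat_lit 493) (nat_lit 5) (nat_lit 421) (nat_lit 378) (nat_lit 341)) (XT.lf (nat_lit 0) (nat_lit 1867895346) (nat_lit 1140) (nat_lit 4943945578) (nat_lit 1216) (nat_lit 697750524) (nat_lit 477) (nat_lit 5) (nat_lit 492) (nat_lit 5) (nat_lit 493) (nat_lit 5) (nat_lit 422) (nat_lit 378) (nat_lit 340))))) (XT.nd (nat_lit 156) (nat_lit 1824) (nat_lit 0) (XT.nd (nat_lit 78) (nat_lit 912) (nat_lit 0) (XT.lf (nat_lit 0) (nat_lit 1951654854) (nat_lit 1216) (nat_lit 599240305) (nat_lit 76) (nat_lit 5011677046) (nat_lit 476) (nat_lit 5) (nat_lit 492) (nat_lit 5) (nat_lit 477) (nat_lit 5) (nat_lit 423) (nat_lit 378) (nat_lit 339)) (XT.lf (nat_lit 0) (nat_lit 4551742486) (nat_lit 912) (nat_lit 75124693) (nat_lit 988) (nat_lit 2990009920) (nat_lit 464) (nat_lit 5) (nat_lit 476) (nat_lit 5) (nat_lit 477) (nat_lit 5) (nat_lit 424) (nat_lit 378) (nat_lit 338))) (XT.nd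 (nat_lit 78) (nat_lit 912) (nat_lit 0) (XT.lf (nat_lit 0) (nat_lit 2105337443) (nat_lit 912) (nat_lit 5237093211) (nat_lit 988) (nat_lit 330100500) (nat_lit 452) (nat_lit 5) (nat_lit 464) (nat_lit 5) (nat_lit 465) (nat_lit 5) (nat_lit 425) (nat_lit 378) (nat_lit 337)) (XT.nd (nat_lit 78) (nat_lit 836) (nat_lit 0) (XT.lf (nat_lit 0) (nat_lit 2326479403) (nat_lit 988) (nat_lit 372546650) (nat_lit 76) (nat_lit 5030468278) (nat_lit 451) (nat_lit 5) (nat_lit 464) (nat_lit 5) (nat_lit 452) (nat_lit 5) (nat_lit 426) (nat_lit 378) (nat_lit 336)) (XT.lf (nat_lit 0) (nat_lit 4941238380) (nat_lit 836) (nat_lit 77053175) (nat_lit 912) (nat_lit 2769531162) (nat_lit 440) (nat_lit 5) (nat_lit 451) (nat_lit 5) (nat_lit 452) (nat_lit 5) (nat_lit 427) (nat_lit 378) (nat_lit 335))))))))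
noncomputable def xc50 : XT := (XT.nd (nat_lit 1482) (nat_lit 7752) (nat_lit 0) (XT.nd (nat_lit 702) (nat_lit 4940) (nat_lit 0) (XT.nd (nat_lit 312) (nat_lit 2356) (nat_lit 0) (XT.nd (nat_lit 156) (nat_lit 1748) (nat_lit 0) (XT.nd (nat_lit 78) (nat_lit 76) (nat_lit 0) (XT.lf (nat_lit 0) (nat_lit 2486868353) (nat_lit 912) (nat_lit 5267607424) (nat_lit 988) (nat_lit 93031180) (nat_lit 428) (nat_lit 5) (nat_lit 440) (nat_lit 5) (nat_lit 441) (nat_lit 5) (nat_lit 428) (nat_lit 378) (nat_lit 334)) (XT.lf (nat_lit 0) (nat_lit 2577440813) (nat_lit 988) (nat_lit 8411670) (nat_lit 76) (nat_lit 5322689440) (nat_lit 427) (nat_lit 5) (nat_lit 440) (nat_lit 5) (nat_lit 428) (nat_lit 5) (nat_lit 429) (nat_lit 378) (nat_lit 333))) (XT.nd (nat_lit 78) (nat_lit 912) (nat_lit 0) (XT.lf (nat_lit 0) (nat_lit 5292976098) (nat_lit 912) (nat_lit 2497374402) (nat_lit 76) (nat_lit 180576799) (nat_lit 416) (nat_lit 5) (nat_lit 428) (nat_lit 5) (nat_lit 417) (nat_lit 5) (nat_lit 430) (nat_lit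 378) (nat_lit 332)) (XT.lf (nat_lit 0) (nat_lit 21235772) (nat_lit 912) (nat_lit 5029644606) (nat_lit 76) (nat_lit 2983809440) (nat_lit 404) (nat_lit 5) (nat_lit 416) (nat_lit 5) (nat_lit 405) (nat_lit 5) (nat_lit 431) (nat_lit 378) (nat_lit 331)))) (XT.nd (nat_lit 156) (nat_lit 1596) (nat_lit 0) (XT.nd (nat_lit 78) (nat_lit 0) (nat_lit 0) (XT.lf (nat_lit 0) (nat_lit 492517381) (nat_lit 760) (nat_lit 2223084974) (nat_lit 836) (nat_lit 5384230133) (nat_lit 394) (nat_lit 5) (nat_lit 404) (nat_lit 5) (nat_lit 405) (nat_lit 5) (nat_lit 432) (nat_lit 378) (nat_lit 330)) (XT.lf (nat_lit 0) (nat_lit 5459577417) (nat_lit 836) (nat_lit 2025388798) (nat_lit 76) (nat_lit 681397376) (nat_lit 394) (nat_lit 5) (nat_lit 405) (nat_lit 5) (nat_lit 395) (nat_lit 5) (nat_lit 433) (nat_lit 378) (nat_lit 329))) (XT.nd (nat_lit 78) (nat_lit 760) (nat_lit 0) (XT.lf (nat_lit 0) (nat_lit 20599513) (nat_lit 836) (nat_lit 4580670245) (nat_lit 76) (nat_lit 3633018207) (nat_lit 383) (nat_lit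 5) (nat_lit 394) (nat_lit 5) (nat_lit 384) (nat_lit 5) (nat_lit 434) (nat_lit 378) (nat_lit 328)) (XT.nd (nat_lit 78) (nat_lit 0) (nat_lit 0) (XT.lf (nat_lit 0) (nat_lit 1119167137) (nat_lit 760) (nat_lit 1626628456) (nat_lit 836) (nat_lit 5557827266) (nat_lit 373) (nat_lit 5) (nat_lit 383) (nat_lit 5) (nat_lit 384) (nat_lit 5) (nat_lit 435) (nat_lit 378) (nat_lit 327)) (XT.lf (nat_lit 0) (nat_lit 5524563105) (nat_lit 836) (nat_lit 1436295408) (nat_lit 76) (nat_lit 1413504587) (nat_lit 373) (nat_lit 5) (nat_lit 384) (nat_lit 5) (nat_lit 374) (nat_lit 5) (nat_lit 436) (nat_lit 378) (nat_lit 326)))))) (XT.nd (nat_lit 390) (nat_lit 1976) (nat_lit 0) (XT.nd (nat_lit 156) (nat_lit 1444) (nat_lit 0) (XT.nd (nat_lit 78) (nat_lit 760) (nat_lit 0) (XT.lf (nat_lit 0) (nat_lit 4426743507) (nat_lit 760) (nat_lit 3931467142) (nat_lit 836) (nat_lit 88321403) (nat_lit 363) (nat_lit 5) (nat_lit 373) (nat_lit 5) (nat_lit 374) (nat_lit 5) (nat_lit 437) (nat_lit 378) (nat_lit 325))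 (XT.lf (nat_lit 0) (nat_lit 1865661544) (nat_lit 684) (nat_lit 808767920) (nat_lit 760) (nat_lit 5845724110) (nat_lit 353) (nat_lit 5) (nat_lit 362) (nat_lit 5) (nat_lit 363) (nat_lit 5) (nat_lit 438) (nat_lit 378) (nat_lit 324))) (XT.nd (nat_lit 78) (nat_lit 1444) (nat_lit 0) (XT.lf (nat_lit 0) (nat_lit 5494273929) (nat_lit 760) (nat_lit 735607024) (nat_lit 76) (nat_lit 2365294474) (nat_lit 353) (nat_lit 5) (nat_lit 363) (nat_lit 5) (nat_lit 354) (nat_lit 5) (nat_lit 439) (nat_lit 378) (nat_lit 323)) (XT.nd (nat_lit 78) (nat_lit 760) (nat_lit 0) (XT.lf (nat_lit 0) (nat_lit 5318984233) (nat_lit 684) (nat_lit 3052634725) (nat_lit 760) (nat_lit 300056683) (nat_lit 344) (nat_lit 5) (nat_lit 353) (nat_lit 5) (nat_lit 354) (nat_lit 5) (nat_lit 440) (nat_lit 378) (nat_lit 322)) (XT.lf (nat_lit 0) (nat_lit 2508787371) (nat_lit 760) (nat_lit 6024233259) (nat_lit 76) (nat_lit 216642916) (nat_lit 334) (nat_lit 5) (nat_lit 344) (nat_lit 5) (nat_lit 335) (nat_lit 5) (nat_lit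 441) (nat_lit 378) (nat_lit 321))))) (XT.nd (nat_lit 156) (nat_lit 1292) (nat_lit 0) (XT.nd (nat_lit 78) (nat_lit 0) (nat_lit 0) (XT.lf (nat_lit 0) (nat_lit 72729295) (nat_lit 684) (nat_lit 5302211181) (nat_lit 760) (nat_lit 3454128067) (nat_lit 325) (nat_lit 5) (nat_lit 334) (nat_lit 5) (nat_lit 335) (nat_lit 5) (nat_lit 442) (nat_lit 378) (nat_lit 320)) (XT.lf (nat_lit 0) (nat_lit 6325932697) (nat_lit 684) (nat_lit 1975161575) (nat_lit 760) (nat_lit 608913814) (nat_lit 325) (nat_lit 5) (nat_lit 334) (nat_lit 5) (nat_lit 335) (nat_lit 5) (nat_lit 443) (nat_lit 378) (nat_lit 319))) (XT.nd (nat_lit 78) (nat_lit 608) (nat_lit 0) (XT.lf (nat_lit 0) (nat_lit 2259292036) (nat_lit 684) (nat_lit 5303613696) (nat_lit 76) (nat_lit 1429439646) (nat_lit 316) (nat_lit 5) (nat_lit 325) (nat_lit 5) (nat_lit 317) (nat_lit 5) (nat_lit 444) (nat_lit 378) (nat_lit 318)) (XT.nd (nat_lit 78) (nat_lit 0) (nat_lit 0) (XT.lf (nat_lit 0) (nat_lit 994566950) (nat_lit 608) (nat_lit 4182253738)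 (nat_lit 684) (nat_lit 3899425990) (nat_lit 308) (nat_lit 5) (nat_lit 316) (nat_lit 5) (nat_lit 317) (nat_lit 5) (nat_lit 445) (nat_lit 378) (nat_lit 317)) (XT.lf (nat_lit 0) (nat_lit 7443625035) (nat_lit 608) (nat_lit 708194362) (nat_lit 684) (nat_lit 1010024217) (nat_lit 308) (nat_lit 5) (nat_lit 316) (nat_lit 5) (nat_lit 317) (nat_lit 5) (nat_lit 446) (nat_lit 378) (nat_lit 316))))))) (XT.nd (nat_lit 702) (nat_lit 3572) (nat_lit 0) (XT.nd (nat_lit 312) (nat_lit 2280) (nat_lit 0) (XT.nd (nat_lit 156) (nat_lit 608) (nat_lit 0) (XT.nd (nat_lit 78) (nat_lit 608) (nat_lit 0) (XT.lf (nat_lit 0) (nat_lit 1925405432) (nat_lit 684) (nat_lit 4491591960) (nat_lit 76) (nat_lit 2831630626) (nat_lit 299) (nat_lit 5) (nat_lit 308) (nat_lit 5) (nat_lit 300) (nat_lit 5) (nat_lit 447) (nat_lit 378) (nat_lit 315)) (XT.lf (nat_lit 0) (nat_lit 2016286135) (nat_lit 608) (nat_lit 2883477807) (nat_lit 684) (nat_lit 4437375754) (nat_lit 291) (nat_lit 5) (nat_lit 299) (nat_lit 5) (nat_lit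 300) (nat_lit 5) (nat_lit 448) (nat_lit 378) (nat_lit 314))) (XT.nd (nat_lit 78) (nat_lit 608) (nat_lit 0) (XT.lf (nat_lit 0) (nat_lit 7933297181) (nat_lit 684) (nat_lit 763686367) (nat_lit 76) (nat_lit 730444307) (nat_lit 291) (nat_lit 5) (nat_lit 300) (nat_lit 5) (nat_lit 292) (nat_lit 5) (nat_lit 449) (nat_lit 378) (nat_lit 313)) (XT.lf (nat_lit 0) (nat_lit 1511358314) (nat_lit 608) (nat_lit 3591879830) (nat_lit 76) (nat_lit 4415624690) (nat_lit 283) (nat_lit 5) (nat_lit 291) (nat_lit 5) (nat_lit 284) (nat_lit 5) (nat_lit 450) (nat_lit 378) (nat_lit 312)))) (XT.nd (nat_lit 156) (nat_lit 1140) (nat_lit 0) (XT.nd (nat_lit 78) (nat_lit 532) (nat_lit 0) (XT.lf (nat_lit 0) (nat_lit 3134551450) (nat_lit 608) (nat_lit 1413442531) (nat_lit 684) (nat_lit 5064114141) (nat_lit 275) (nat_lit 5) (nat_lit 283) (nat_lit 5) (nat_lit 284) (nat_lit 5) (nat_lit 451) (nat_lit 378) (nat_lit 311)) (XT.lf (nat_lit 0) (nat_lit 278982118) (nat_lit 532) (nat_lit 7373526466) (nat_lit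 608) (nat_lit 2054566808) (nat_lit 268) (nat_lit 5) (nat_lit 275) (nat_lit 5) (nat_lit 276) (nat_lit 5) (nat_lit 452) (nat_lit 378) (nat_lit 310))) (XT.nd (nat_lit 78) (nat_lit 1064) (nat_lit 0) (XT.lf (nat_lit 0) (nat_lit 1020931685) (nat_lit 608) (nat_lit 2607722988) (nat_lit 76) (nat_lit 6174774022) (nat_lit 267) (nat_lit 5) (nat_lit 275) (nat_lit 5) (nat_lit 268) (nat_lit 5) (nat_lit 453) (nat_lit 378) (nat_lit 309)) (XT.nd (nat_lit 78) (nat_lit 532) (nat_lit 0) (XT.lf (nat_lit 0) (nat_lit 4126737442) (nat_lit 608) (nat_lit 5556471183) (nat_lit 76) (nat_lit 218302668) (nat_lit 260) (nat_lit 5) (nat_lit 268) (nat_lit 5) (nat_lit 261) (nat_lit 5) (nat_lit 454) (nat_lit 378) (nat_lit 308)) (XT.lf (nat_lit 0) (nat_lit 1419243712) (nat_lit 532) (nat_lit 5893177844) (nat_lit 608) (nat_lit 2688778741) (nat_lit 253) (nat_lit 5) (nat_lit 260) (nat_lit 5) (nat_lit 261) (nat_lit 5) (nat_lit 455) (nat_lit 378) (nat_lit 307)))))) (XT.nd (nat_lit 390) (nat_lit 1900) (nat_lit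 0) (XT.nd (nat_lit 156) (nat_lit 1064) (nat_lit 0) (XT.nd (nat_lit 78) (nat_lit 532) (nat_lit 0) (XT.lf (nat_lit 0) (nat_lit 457486652) (nat_lit 608) (nat_lit 1541930124) (nat_lit 76) (nat_lit 8103315322) (nat_lit 252) (nat_lit 5) (nat_lit 260) (nat_lit 5) (nat_lit 253) (nat_lit 5) (nat_lit 456) (nat_lit 378) (nat_lit 306)) (XT.lf (nat_lit 0) (nat_lit 3648152652) (nat_lit 608) (nat_lit 4569193438) (nat_lit 76) (nat_lit 1988243430) (nat_lit 245) (nat_lit 5) (nat_lit 253) (nat_lit 5) (nat_lit 246) (nat_lit 5) (nat_lit 457) (nat_lit 378) (nat_lit 305))) (XT.nd (nat_lit 78) (nat_lit 608) (nat_lit 0) (XT.lf (nat_lit 0) (nat_lit 2644562671) (nat_lit 456) (nat_lit 4266833420) (nat_lit 532) (nat_lit 3398932716) (nat_lit 239) (nat_lit 5) (nat_lit 245) (nat_lit 5) (nat_lit 246) (nat_lit 5) (nat_lit 458) (nat_lit 378) (nat_lit 304)) (XT.nd (nat_lit 78) (nat_lit 608) (nat_lit 0) (XT.lf (nat_lit 0) (nat_lit 10019126723) (nat_lit 456) (nat_lit 219710268) (nat_lit 532) (nat_lit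 178347235) (nat_lit 239) (nat_lit 5) (nat_lit 245) (nat_lit 5) (nat_lit 246) (nat_lit 5) (nat_lit 459) (nat_lit 378) (nat_lit 303)) (XT.lf (nat_lit 0) (nat_lit 3106039382) (nat_lit 608) (nat_lit 3508942962) (nat_lit 76) (nat_lit 3909988328) (nat_lit 231) (nat_lit 5) (nat_lit 239) (nat_lit 5) (nat_lit 232) (nat_lit 5) (nat_lit 460) (nat_lit 378) (nat_lit 302))))) (XT.nd (nat_lit 156) (nat_lit 988) (nat_lit 0) (XT.nd (nat_lit 78) (nat_lit 456) (nat_lit 0) (XT.lf (nat_lit 0) (nat_lit 3952955618) (nat_lit 456) (nat_lit 2499504012) (nat_lit 532) (nat_lit 4182454960) (nat_lit 225) (nat_lit 5) (nat_lit 231) (nat_lit 5) (nat_lit 232) (nat_lit 5) (nat_lit 461) (nat_lit 378) (nat_lit 301)) (XT.lf (nat_lit 0) (nat_lit 819240836) (nat_lit 456) (nat_lit 9055764750) (nat_lit 532) (nat_lit 871867855) (nat_lit 219) (nat_lit 5) (nat_lit 225) (nat_lit 5) (nat_lit 226) (nat_lit 5) (nat_lit 462) (nat_lit 378) (nat_lit 300))) (XT.nd (nat_lit 78) (nat_lit 912) (nat_lit 0) (XT.lf (nat_lit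 0) (nat_lit 2503026760) (nat_lit 532) (nat_lit 2377749553) (nat_lit 76) (nat_lit 5979350914) (nat_lit 218) (nat_lit 5) (nat_lit 225) (nat_lit 5) (nat_lit 219) (nat_lit 5) (nat_lit 463) (nat_lit 378) (nat_lit 299)) (XT.nd (nat_lit 78) (nat_lit 456) (nat_lit 0) (XT.lf (nat_lit 0) (nat_lit 5342819834) (nat_lit 456) (nat_lit 595486903) (nat_lit 532) (nat_lit 5037132857) (nat_lit 212) (nat_lit 5) (nat_lit 218) (nat_lit 5) (nat_lit 219) (nat_lit 5) (nat_lit 464) (nat_lit 378) (nat_lit 298)) (XT.lf (nat_lit 0) (nat_lit 2115601657) (nat_lit 456) (nat_lit 7351072202) (nat_lit 532) (nat_lit 1625896715) (nat_lit 206) (nat_lit 5) (nat_lit 212) (nat_lit 5) (nat_lit 213) (nat_lit 5) (nat_lit 465) (nat_lit 378) (nat_lit 297))))))))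
noncomputable def xc51 : XT := (XT.nd (nat_lit 54132) (nat_lit 0) (nat_lit 27512) (XT.nd (nat_lit 53352) (nat_lit 0) (nat_lit 42256) (XT.nd (nat_lit 52962) (nat_lit 0) (nat_lit 45220) (XT.nd (nat_lit 52806) (nat_lit 0) (nat_lit 46056) (XT.nd (nat_lit 78) (nat_lit 380) (nat_lit 0) (XT.lf (nat_lit 0) (nat_lit 1841418570) (nat_lit 532) (nat_lit 1177297721) (nat_lit 76) (nat_lit 8192843909) (nat_lit 205) (nat_lit 5) (nat_lit 212) (nat_lit 5) (nat_lit 206) (nat_lit 5) (nat_lit 466) (nat_lit 378) (nat_lit 296)) (XT.lf (nat_lit 0) (nat_lit 5380680793) (nat_lit 456) (nat_lit 4528861619) (nat_lit 76) (nat_lit 1422684835) (nat_lit 200) (nat_lit 5) (nat_lit 206) (nat_lit 5) (nat_lit 201) (nat_lit 5) (nat_lit 467) (nat_lit 378) (nat_lit 295))) (XT.nd (nat_lit 78) (nat_lit 76) (nat_lit 0) (XT.lf (nat_lit 0) (nat_lit 42808391) (nat_lit 76) (nat_lit 1589628230) (nat_lit 76) (nat_lit 1589628230) (nat_lit 807) (nat_lit 4) (nat_lit 808) (nat_lit 5) (nat_lit 808) (nat_lit 4) (nat_lit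 382) (nat_lit 379) (nat_lit 379)) (XT.lf (nat_lit 0) (nat_lit 42246951) (nat_lit 152) (nat_lit 3010802519) (nat_lit 76) (nat_lit 3393609932) (nat_lit 806) (nat_lit 5) (nat_lit 808) (nat_lit 5) (nat_lit 807) (nat_lit 4) (nat_lit 383) (nat_lit 379) (nat_lit 378)))) (XT.nd (nat_lit 156) (nat_lit 684) (nat_lit 0) (XT.nd (nat_lit 78) (nat_lit 0) (nat_lit 0) (XT.lf (nat_lit 0) (nat_lit 342567861) (nat_lit 152) (nat_lit 2862452895) (nat_lit 228) (nat_lit 3245410429) (nat_lit 804) (nat_lit 5) (nat_lit 806) (nat_lit 5) (nat_lit 807) (nat_lit 4) (nat_lit 384) (nat_lit 379) (nat_lit 377)) (XT.lf (nat_lit 0) (nat_lit 3759379770) (nat_lit 152) (nat_lit 2610356990) (nat_lit 228) (nat_lit 85767910) (nat_lit 804) (nat_lit 5) (nat_lit 806) (nat_lit 5) (nat_lit 807) (nat_lit 4) (nat_lit 385) (nat_lit 379) (nat_lit 376))) (XT.nd (nat_lit 78) (nat_lit 380) (nat_lit 0) (XT.lf (nat_lit 0) (nat_lit 728397556) (nat_lit 228) (nat_lit 2291807706) (nat_lit 304) (nat_lit 3441581384) (nat_lit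 800) (nat_lit 5) (nat_lit 803) (nat_lit 5) (nat_lit 804) (nat_lit 5) (nat_lit 386) (nat_lit 379) (nat_lit 375)) (XT.nd (nat_lit 78) (nat_lit 380) (nat_lit 0) (XT.lf (nat_lit 0) (nat_lit 4213039376) (nat_lit 228) (nat_lit 1913041129) (nat_lit 304) (nat_lit 343323797) (nat_lit 800) (nat_lit 5) (nat_lit 803) (nat_lit 5) (nat_lit 804) (nat_lit 5) (nat_lit 387) (nat_lit 379) (nat_lit 374)) (XT.lf (nat_lit 0) (nat_lit 1243711092) (nat_lit 304) (nat_lit 1466198175) (nat_lit 380) (nat_lit 3768300171) (nat_lit 795) (nat_lit 5) (nat_lit 799) (nat_lit 5) (nat_lit 800) (nat_lit 5) (nat_lit 388) (nat_lit 379) (nat_lit 373)))))) (XT.nd (nat_lit 390) (nat_lit 1976) (nat_lit 0) (XT.nd (nat_lit 156) (nat_lit 532) (nat_lit 0) (XT.nd (nat_lit 78) (nat_lit 456) (nat_lit 0) (XT.lf (nat_lit 0) (nat_lit 4797852256) (nat_lit 304) (nat_lit 960012514) (nat_lit 380) (nat_lit 730515423) (nat_lit 795) (nat_lit 5) (nat_lit 799) (nat_lit 5) (nat_lit 800) (nat_lit 5) (nat_lit 389) (nat_lit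 379) (nat_lit 372)) (XT.lf (nat_lit 0) (nat_lit 1889367151) (nat_lit 380) (nat_lit 384000207) (nat_lit 456) (nat_lit 4226351519) (nat_lit 789) (nat_lit 5) (nat_lit 794) (nat_lit 5) (nat_lit 795) (nat_lit 5) (nat_lit 390) (nat_lit 379) (nat_lit 371))) (XT.nd (nat_lit 78) (nat_lit 532) (nat_lit 0) (XT.lf (nat_lit 0) (nat_lit 5265828806) (nat_lit 456) (nat_lit 999275684) (nat_lit 76) (nat_lit 247317620) (nat_lit 789) (nat_lit 5) (nat_lit 795) (nat_lit 5) (nat_lit 790) (nat_lit 5) (nat_lit 391) (nat_lit 379) (nat_lit 370)) (XT.nd (nat_lit 78) (nat_lit 0) (nat_lit 0) (XT.lf (nat_lit 0) (nat_lit 1715777822) (nat_lit 532) (nat_lit 3866073942) (nat_lit 76) (nat_lit 944364245) (nat_lit 782) (nat_lit 5) (nat_lit 789) (nat_lit 5) (nat_lit 783) (nat_lit 5) (nat_lit 392) (nat_lit 379) (nat_lit 369)) (XT.lf (nat_lit 0) (nat_lit 4655129079) (nat_lit 532) (nat_lit 187686512) (nat_lit 76) (nat_lit 1698616903) (nat_lit 782) (nat_lit 5) (nat_lit 789) (nat_lit 5) (nat_lit 783) (nat_lit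 5) (nat_lit 393) (nat_lit 379) (nat_lit 368))))) (XT.nd (nat_lit 156) (nat_lit 760) (nat_lit 0) (XT.nd (nat_lit 78) (nat_lit 608) (nat_lit 0) (XT.lf (nat_lit 0) (nat_lit 1033852203) (nat_lit 608) (nat_lit 2998303328) (nat_lit 76) (nat_lit 2525617088) (nat_lit 774) (nat_lit 5) (nat_lit 782) (nat_lit 5) (nat_lit 775) (nat_lit 5) (nat_lit 394) (nat_lit 379) (nat_lit 367)) (XT.lf (nat_lit 0) (nat_lit 761914109) (nat_lit 608) (nat_lit 3161195226) (nat_lit 684) (nat_lit 2652361723) (nat_lit 766) (nat_lit 5) (nat_lit 774) (nat_lit 5) (nat_lit 775) (nat_lit 5) (nat_lit 395) (nat_lit 379) (nat_lit 366))) (XT.nd (nat_lit 78) (nat_lit 684) (nat_lit 0) (XT.lf (nat_lit 0) (nat_lit 223599083) (nat_lit 684) (nat_lit 2002975586) (nat_lit 76) (nat_lit 4367900895) (nat_lit 765) (nat_lit 5) (nat_lit 774) (nat_lit 5) (nat_lit 766) (nat_lit 5) (nat_lit 396) (nat_lit 379) (nat_lit 365)) (XT.nd (nat_lit 78) (nat_lit 0) (nat_lit 0) (XT.lf (nat_lit 0) (nat_lit 1845451690) (nat_lit 684)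 (nat_lit 1219838688) (nat_lit 760) (nat_lit 3549344613) (nat_lit 756) (nat_lit 5) (nat_lit 765) (nat_lit 5) (nat_lit 766) (nat_lit 5) (nat_lit 397) (nat_lit 379) (nat_lit 364)) (XT.lf (nat_lit 0) (nat_lit 5753290618) (nat_lit 684) (nat_lit 156725925) (nat_lit 760) (nat_lit 726257042) (nat_lit 756) (nat_lit 5) (nat_lit 765) (nat_lit 5) (nat_lit 766) (nat_lit 5) (nat_lit 398) (nat_lit 379) (nat_lit 363))))))) (XT.nd (nat_lit 702) (nat_lit 8740) (nat_lit 0) (XT.nd (nat_lit 312) (nat_lit 3344) (nat_lit 0) (XT.nd (nat_lit 156) (nat_lit 988) (nat_lit 0) (XT.nd (nat_lit 78) (nat_lit 836) (nat_lit 0) (XT.lf (nat_lit 0) (nat_lit 2084964271) (nat_lit 836) (nat_lit 3602970695) (nat_lit 76) (nat_lit 970932116) (nat_lit 745) (nat_lit 5) (nat_lit 756) (nat_lit 5) (nat_lit 746) (nat_lit 5) (nat_lit 399) (nat_lit 379) (nat_lit 362)) (XT.lf (nat_lit 0) (nat_lit 356657661) (nat_lit 836) (nat_lit 4530145457) (nat_lit 912) (nat_lit 1796130968) (nat_lit 734) (nat_lit 5) (nat_lit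 745) (nat_lit 5) (nat_lit 746) (nat_lit 5) (nat_lit 400) (nat_lit 379) (nat_lit 361))) (XT.nd (nat_lit 78) (nat_lit 912) (nat_lit 0) (XT.lf (nat_lit 0) (nat_lit 983279213) (nat_lit 912) (nat_lit 2315994436) (nat_lit 76) (nat_lit 3408880378) (nat_lit 733) (nat_lit 5) (nat_lit 745) (nat_lit 5) (nat_lit 734) (nat_lit 5) (nat_lit 401) (nat_lit 379) (nat_lit 360)) (XT.lf (nat_lit 0) (nat_lit 1739908597) (nat_lit 912) (nat_lit 2002253587) (nat_lit 988) (nat_lit 2992520039) (nat_lit 721) (nat_lit 5) (nat_lit 733) (nat_lit 5) (nat_lit 734) (nat_lit 5) (nat_lit 402) (nat_lit 379) (nat_lit 359)))) (XT.nd (nat_lit 156) (nat_lit 2280) (nat_lit 0) (XT.nd (nat_lit 78) (nat_lit 1064) (nat_lit 0) (XT.lf (nat_lit 0) (nat_lit 5863114103) (nat_lit 912) (nat_lit 646215209) (nat_lit 988) (nat_lit 253349541) (nat_lit 721) (nat_lit 5) (nat_lit 733) (nat_lit 5) (nat_lit 734) (nat_lit 5) (nat_lit 403) (nat_lit 379) (nat_lit 358)) (XT.lf (nat_lit 0) (nat_lit 2471966043) (nat_lit 1064)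 (nat_lit 3538206841) (nat_lit 76) (nat_lit 781438983) (nat_lit 707) (nat_lit 5) (nat_lit 721) (nat_lit 5) (nat_lit 708) (nat_lit 5) (nat_lit 404) (nat_lit 379) (nat_lit 357))) (XT.nd (nat_lit 78) (nat_lit 1216) (nat_lit 0) (XT.lf (nat_lit 0) (nat_lit 636818026) (nat_lit 1064) (nat_lit 4565475218) (nat_lit 1140) (nat_lit 1619718851) (nat_lit 693) (nat_lit 5) (nat_lit 707) (nat_lit 5) (nat_lit 708) (nat_lit 5) (nat_lit 405) (nat_lit 379) (nat_lit 356)) (XT.nd (nat_lit 78) (nat_lit 1140) (nat_lit 0) (XT.lf (nat_lit 0) (nat_lit 1083130561) (nat_lit 1140) (nat_lit 1963418850) (nat_lit 76) (nat_lit 3807047651) (nat_lit 692) (nat_lit 5) (nat_lit 707) (nat_lit 5) (nat_lit 693) (nat_lit 5) (nat_lit 406) (nat_lit 379) (nat_lit 355)) (XT.lf (nat_lit 0) (nat_lit 2316707292) (nat_lit 1140) (nat_lit 1457780721) (nat_lit 1216) (nat_lit 3111988808) (nat_lit 677) (nat_lit 5) (nat_lit 692) (nat_lit 5) (nat_lit 693) (nat_lit 5) (nat_lit 407) (nat_lit 379) (nat_lit 354)))))) (XT.nd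 (nat_lit 390) (nat_lit 4712) (nat_lit 0) (XT.nd (nat_lit 156) (nat_lit 2736) (nat_lit 0) (XT.nd (nat_lit 78) (nat_lit 1292) (nat_lit 0) (XT.lf (nat_lit 0) (nat_lit 6476011684) (nat_lit 1216) (nat_lit 258528332) (nat_lit 76) (nat_lit 186347377) (nat_lit 677) (nat_lit 5) (nat_lit 693) (nat_lit 5) (nat_lit 678) (nat_lit 5) (nat_lit 408) (nat_lit 379) (nat_lit 353)) (XT.lf (nat_lit 0) (nat_lit 2225276168) (nat_lit 1292) (nat_lit 2833250249) (nat_lit 76) (nat_lit 1897573445) (nat_lit 660) (nat_lit 5) (nat_lit 677) (nat_lit 5) (nat_lit 661) (nat_lit 5) (nat_lit 409) (nat_lit 379) (nat_lit 352))) (XT.nd (nat_lit 78) (nat_lit 1444) (nat_lit 0) (XT.lf (nat_lit 0) (nat_lit 1574857267) (nat_lit 1292) (nat_lit 3323598566) (nat_lit 1368) (nat_lit 2094390303) (nat_lit 643) (nat_lit 5) (nat_lit 660) (nat_lit 5) (nat_lit 661) (nat_lit 5) (nat_lit 410) (nat_lit 379) (nat_lit 351)) (XT.nd (nat_lit 78) (nat_lit 1368) (nat_lit 0) (XT.lf (nat_lit 0) (nat_lit 550153990) (nat_lit 1368)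 (nat_lit 971059058) (nat_lit 76) (nat_lit 5509773397) (nat_lit 642) (nat_lit 5) (nat_lit 660) (nat_lit 5) (nat_lit 643) (nat_lit 5) (nat_lit 411) (nat_lit 379) (nat_lit 350)) (XT.lf (nat_lit 0) (nat_lit 3190136807) (nat_lit 1444) (nat_lit 3520832008) (nat_lit 76) (nat_lit 359232038) (nat_lit 624) (nat_lit 5) (nat_lit 643) (nat_lit 5) (nat_lit 625) (nat_lit 5) (nat_lit 412) (nat_lit 379) (nat_lit 349))))) (XT.nd (nat_lit 156) (nat_lit 3192) (nat_lit 0) (XT.nd (nat_lit 78) (nat_lit 76) (nat_lit 0) (XT.lf (nat_lit 0) (nat_lit 1019980194) (nat_lit 1444) (nat_lit 4832173337) (nat_lit 1520) (nat_lit 1258661332) (nat_lit 605) (nat_lit 5) (nat_lit 624) (nat_lit 5) (nat_lit 625) (nat_lit 5) (nat_lit 413) (nat_lit 379) (nat_lit 348)) (XT.lf (nat_lit 0) (nat_lit 1366776558) (nat_lit 1520) (nat_lit 1508763610) (nat_lit 76) (nat_lit 4277113876) (nat_lit 604) (nat_lit 5) (nat_lit 624) (nat_lit 5) (nat_lit 605) (nat_lit 5) (nat_lit 414) (nat_lit 379) (nat_lit 347))) (XT.nd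 (nat_lit 78) (nat_lit 1672) (nat_lit 0) (XT.lf (nat_lit 0) (nat_lit 3151887458) (nat_lit 1520) (nat_lit 843897682) (nat_lit 1596) (nat_lit 3200020164) (nat_lit 584) (nat_lit 5) (nat_lit 604) (nat_lit 5) (nat_lit 605) (nat_lit 5) (nat_lit 415) (nat_lit 379) (nat_lit 346)) (XT.nd (nat_lit 78) (nat_lit 76) (nat_lit 0) (XT.lf (nat_lit 0) (nat_lit 640102238) (nat_lit 1596) (nat_lit 6007803207) (nat_lit 1672) (nat_lit 592503513) (nat_lit 563) (nat_lit 5) (nat_lit 584) (nat_lit 5) (nat_lit 585) (nat_lit 5) (nat_lit 416) (nat_lit 379) (nat_lit 345)) (XT.lf (nat_lit 0) (nat_lit 2021541162) (nat_lit 1672) (nat_lit 1879144313) (nat_lit 76) (nat_lit 3385321005) (nat_lit 562) (nat_lit 5) (nat_lit 584) (nat_lit 5) (nat_lit 563) (nat_lit 5) (nat_lit 417) (nat_lit 379) (nat_lit 344))))))))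
noncomputable def xc52 : XT := (XT.nd (nat_lit 1482) (nat_lit 8588) (nat_lit 0) (XT.nd (nat_lit 702) (nat_lit 5928) (nat_lit 0) (XT.nd (nat_lit 312) (nat_lit 3116) (nat_lit 0) (XT.nd (nat_lit 156) (nat_lit 1900) (nat_lit 0) (XT.nd (nat_lit 78) (nat_lit 1748) (nat_lit 0) (XT.lf (nat_lit 0) (nat_lit 2924588072) (nat_lit 1672) (nat_lit 1723932638) (nat_lit 1748) (nat_lit 2684545162) (nat_lit 540) (nat_lit 5) (nat_lit 562) (nat_lit 5) (nat_lit 563) (nat_lit 5) (nat_lit 418) (nat_lit 379) (nat_lit 343)) (XT.lf (nat_lit 0) (nat_lit 424311878) (nat_lit 1748) (nat_lit 6872705044) (nat_lit 1824) (nat_lit 84669986) (nat_lit 517) (nat_lit 5) (nat_lit 540) (nat_lit 5) (nat_lit 541) (nat_lit 5) (nat_lit 419) (nat_lit 379) (nat_lit 342))) (XT.nd (nat_lit 78) (nat_lit 1824) (nat_lit 0) (XT.lf (nat_lit 0) (nat_lit 2525381787) (nat_lit 1824) (nat_lit 2092800558) (nat_lit 76) (nat_lit 2812927693) (nat_lit 516) (nat_lit 5) (nat_lit 540) (nat_lit 5) (nat_lit 517) (nat_lit 5) (nat_lit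 420) (nat_lit 379) (nat_lit 341)) (XT.lf (nat_lit 0) (nat_lit 2859590470) (nat_lit 1824) (nat_lit 2297097937) (nat_lit 1900) (nat_lit 2325418279) (nat_lit 492) (nat_lit 5) (nat_lit 516) (nat_lit 5) (nat_lit 517) (nat_lit 5) (nat_lit 421) (nat_lit 379) (nat_lit 340)))) (XT.nd (nat_lit 156) (nat_lit 1900) (nat_lit 0) (XT.nd (nat_lit 78) (nat_lit 0) (nat_lit 0) (XT.lf (nat_lit 0) (nat_lit 271502909) (nat_lit 1216) (nat_lit 7173840969) (nat_lit 76) (nat_lit 89359095) (nat_lit 476) (nat_lit 5) (nat_lit 492) (nat_lit 5) (nat_lit 477) (nat_lit 5) (nat_lit 422) (nat_lit 379) (nat_lit 339)) (XT.lf (nat_lit 0) (nat_lit 2888291844) (nat_lit 1216) (nat_lit 2159379876) (nat_lit 76) (nat_lit 2540390710) (nat_lit 476) (nat_lit 5) (nat_lit 492) (nat_lit 5) (nat_lit 477) (nat_lit 5) (nat_lit 423) (nat_lit 379) (nat_lit 338))) (XT.nd (nat_lit 78) (nat_lit 988) (nat_lit 0) (XT.lf (nat_lit 0) (nat_lit 2947559409) (nat_lit 912) (nat_lit 2582524124) (nat_lit 988) (nat_lit 2112952204)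 (nat_lit 464) (nat_lit 5) (nat_lit 476) (nat_lit 5) (nat_lit 477) (nat_lit 5) (nat_lit 424) (nat_lit 379) (nat_lit 337)) (XT.nd (nat_lit 78) (nat_lit 0) (nat_lit 0) (XT.lf (nat_lit 0) (nat_lit 442609557) (nat_lit 912) (nat_lit 47397098) (nat_lit 988) (nat_lit 7209607655) (nat_lit 451) (nat_lit 5) (nat_lit 463) (nat_lit 5) (nat_lit 464) (nat_lit 5) (nat_lit 425) (nat_lit 379) (nat_lit 336)) (XT.lf (nat_lit 0) (nat_lit 3119392453) (nat_lit 988) (nat_lit 2087645718) (nat_lit 76) (nat_lit 2549953747) (nat_lit 451) (nat_lit 5) (nat_lit 464) (nat_lit 5) (nat_lit 452) (nat_lit 5) (nat_lit 426) (nat_lit 379) (nat_lit 335)))))) (XT.nd (nat_lit 390) (nat_lit 2356) (nat_lit 0) (XT.nd (nat_lit 156) (nat_lit 1748) (nat_lit 0) (XT.nd (nat_lit 78) (nat_lit 988) (nat_lit 0) (XT.lf (nat_lit 0) (nat_lit 3180048314) (nat_lit 836) (nat_lit 2597606728) (nat_lit 912) (nat_lit 2038336255) (nat_lit 440) (nat_lit 5) (nat_lit 451) (nat_lit 5) (nat_lit 452) (nat_lit 5) (nat_lit 427) (nat_lit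 379) (nat_lit 334)) (XT.lf (nat_lit 0) (nat_lit 579444207) (nat_lit 988) (nat_lit 7213756069) (nat_lit 76) (nat_lit 83399389) (nat_lit 427) (nat_lit 5) (nat_lit 440) (nat_lit 5) (nat_lit 428) (nat_lit 5) (nat_lit 428) (nat_lit 379) (nat_lit 333))) (XT.nd (nat_lit 78) (nat_lit 1748) (nat_lit 0) (XT.lf (nat_lit 0) (nat_lit 3226995371) (nat_lit 988) (nat_lit 1885539868) (nat_lit 76) (nat_lit 2825521326) (nat_lit 427) (nat_lit 5) (nat_lit 440) (nat_lit 5) (nat_lit 428) (nat_lit 5) (nat_lit 429) (nat_lit 379) (nat_lit 332)) (XT.nd (nat_lit 78) (nat_lit 912) (nat_lit 0) (XT.lf (nat_lit 0) (nat_lit 3549437696) (nat_lit 836) (nat_lit 2358129249) (nat_lit 912) (nat_lit 2093574270) (nat_lit 416) (nat_lit 5) (nat_lit 427) (nat_lit 5) (nat_lit 428) (nat_lit 5) (nat_lit 430) (nat_lit 379) (nat_lit 331)) (XT.lf (nat_lit 0) (nat_lit 548384827) (nat_lit 912) (nat_lit 7052612142) (nat_lit 76) (nat_lit 464822155) (nat_lit 404) (nat_lit 5) (nat_lit 416) (nat_lit 5) (nat_lit 405)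 (nat_lit 5) (nat_lit 431) (nat_lit 379) (nat_lit 330))))) (XT.nd (nat_lit 156) (nat_lit 1596) (nat_lit 0) (XT.nd (nat_lit 78) (nat_lit 760) (nat_lit 0) (XT.lf (nat_lit 0) (nat_lit 3218660965) (nat_lit 912) (nat_lit 1560239876) (nat_lit 76) (nat_lit 3352542763) (nat_lit 404) (nat_lit 5) (nat_lit 416) (nat_lit 5) (nat_lit 405) (nat_lit 5) (nat_lit 432) (nat_lit 379) (nat_lit 329)) (XT.lf (nat_lit 0) (nat_lit 4048878524) (nat_lit 760) (nat_lit 1878376372) (nat_lit 836) (nat_lit 2271427432) (nat_lit 394) (nat_lit 5) (nat_lit 404) (nat_lit 5) (nat_lit 405) (nat_lit 5) (nat_lit 433) (nat_lit 379) (nat_lit 328))) (XT.nd (nat_lit 78) (nat_lit 760) (nat_lit 0) (XT.lf (nat_lit 0) (nat_lit 403451558) (nat_lit 836) (nat_lit 6780145004) (nat_lit 76) (nat_lit 1083889545) (nat_lit 383) (nat_lit 5) (nat_lit 394) (nat_lit 5) (nat_lit 384) (nat_lit 5) (nat_lit 434) (nat_lit 379) (nat_lit 327)) (XT.nd (nat_lit 78) (nat_lit 760) (nat_lit 0) (XT.lf (nat_lit 0) (nat_lit 3101251606)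 (nat_lit 836) (nat_lit 1118211891) (nat_lit 76) (nat_lit 4117905426) (nat_lit 383) (nat_lit 5) (nat_lit 394) (nat_lit 5) (nat_lit 384) (nat_lit 5) (nat_lit 435) (nat_lit 379) (nat_lit 326)) (XT.lf (nat_lit 0) (nat_lit 4672240188) (nat_lit 760) (nat_lit 1171238134) (nat_lit 836) (nat_lit 2565361658) (nat_lit 373) (nat_lit 5) (nat_lit 383) (nat_lit 5) (nat_lit 384) (nat_lit 5) (nat_lit 436) (nat_lit 379) (nat_lit 325))))))) (XT.nd (nat_lit 702) (nat_lit 4256) (nat_lit 0) (XT.nd (nat_lit 312) (nat_lit 2128) (nat_lit 0) (XT.nd (nat_lit 156) (nat_lit 1368) (nat_lit 0) (XT.nd (nat_lit 78) (nat_lit 0) (nat_lit 0) (XT.lf (nat_lit 0) (nat_lit 150909906) (nat_lit 836) (nat_lit 6402570148) (nat_lit 76) (nat_lit 1928356110) (nat_lit 362) (nat_lit 5) (nat_lit 373) (nat_lit 5) (nat_lit 363) (nat_lit 5) (nat_lit 437) (nat_lit 379) (nat_lit 324)) (XT.lf (nat_lit 0) (nat_lit 2880980822) (nat_lit 836) (nat_lit 565259228) (nat_lit 76) (nat_lit 5109836599) (nat_lit 362) (nat_lit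 5) (nat_lit 373) (nat_lit 5) (nat_lit 363) (nat_lit 5) (nat_lit 438) (nat_lit 379) (nat_lit 323))) (XT.nd (nat_lit 78) (nat_lit 684) (nat_lit 0) (XT.lf (nat_lit 0) (nat_lit 5414062716) (nat_lit 684) (nat_lit 248305704) (nat_lit 760) (nat_lit 2969499219) (nat_lit 353) (nat_lit 5) (nat_lit 362) (nat_lit 5) (nat_lit 363) (nat_lit 5) (nat_lit 439) (nat_lit 379) (nat_lit 322)) (XT.lf (nat_lit 0) (nat_lit 2782281779) (nat_lit 684) (nat_lit 5720524674) (nat_lit 760) (nat_lit 206299541) (nat_lit 344) (nat_lit 5) (nat_lit 353) (nat_lit 5) (nat_lit 354) (nat_lit 5) (nat_lit 440) (nat_lit 379) (nat_lit 321)))) (XT.nd (nat_lit 156) (nat_lit 1368) (nat_lit 0) (XT.nd (nat_lit 78) (nat_lit 0) (nat_lit 0) (XT.lf (nat_lit 0) (nat_lit 94674675) (nat_lit 684) (nat_lit 2469398540) (nat_lit 760) (nat_lit 6223753343) (nat_lit 334) (nat_lit 5) (nat_lit 343) (nat_lit 5) (nat_lit 344) (nat_lit 5) (nat_lit 441) (nat_lit 379) (nat_lit 320)) (XT.lf (nat_lit 0) (nat_lit 5395186158) (nat_lit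 760) (nat_lit 2604247517) (nat_lit 76) (nat_lit 868498682) (nat_lit 334) (nat_lit 5) (nat_lit 344) (nat_lit 5) (nat_lit 335) (nat_lit 5) (nat_lit 442) (nat_lit 379) (nat_lit 319))) (XT.nd (nat_lit 78) (nat_lit 684) (nat_lit 0) (XT.lf (nat_lit 0) (nat_lit 3591361720) (nat_lit 684) (nat_lit 4694524240) (nat_lit 760) (nat_lit 663695020) (nat_lit 325) (nat_lit 5) (nat_lit 334) (nat_lit 5) (nat_lit 335) (nat_lit 5) (nat_lit 443) (nat_lit 379) (nat_lit 318)) (XT.nd (nat_lit 78) (nat_lit 0) (nat_lit 0) (XT.lf (nat_lit 0) (nat_lit 864596253) (nat_lit 608) (nat_lit 1294749888) (nat_lit 684) (nat_lit 6873496908) (nat_lit 316) (nat_lit 5) (nat_lit 324) (nat_lit 5) (nat_lit 325) (nat_lit 5) (nat_lit 444) (nat_lit 379) (nat_lit 317)) (XT.lf (nat_lit 0) (nat_lit 5044107297) (nat_lit 684) (nat_lit 1897655149) (nat_lit 76) (nat_lit 2175637253) (nat_lit 316) (nat_lit 5) (nat_lit 325) (nat_lit 5) (nat_lit 317) (nat_lit 5) (nat_lit 445) (nat_lit 379) (nat_lit 316)))))) (XT.nd (nat_lit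 390) (nat_lit 1748) (nat_lit 0) (XT.nd (nat_lit 156) (nat_lit 1216) (nat_lit 0) (XT.nd (nat_lit 78) (nat_lit 684) (nat_lit 0) (XT.lf (nat_lit 0) (nat_lit 4503383645) (nat_lit 608) (nat_lit 3485537071) (nat_lit 684) (nat_lit 1214679624) (nat_lit 308) (nat_lit 5) (nat_lit 316) (nat_lit 5) (nat_lit 317) (nat_lit 5) (nat_lit 446) (nat_lit 379) (nat_lit 315)) (XT.lf (nat_lit 0) (nat_lit 1668002070) (nat_lit 684) (nat_lit 7559081143) (nat_lit 76) (nat_lit 64436747) (nat_lit 299) (nat_lit 5) (nat_lit 308) (nat_lit 5) (nat_lit 300) (nat_lit 5) (nat_lit 447) (nat_lit 379) (nat_lit 314))) (XT.nd (nat_lit 78) (nat_lit 1216) (nat_lit 0) (XT.lf (nat_lit 0) (nat_lit 4611964255) (nat_lit 684) (nat_lit 1100395845) (nat_lit 76) (nat_lit 3668279465) (nat_lit 299) (nat_lit 5) (nat_lit 308) (nat_lit 5) (nat_lit 300) (nat_lit 5) (nat_lit 448) (nat_lit 379) (nat_lit 313)) (XT.nd (nat_lit 78) (nat_lit 608) (nat_lit 0) (XT.lf (nat_lit 0) (nat_lit 5514738312) (nat_lit 608) (nat_lit 2101601510)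 (nat_lit 684) (nat_lit 1855171055) (nat_lit 291) (nat_lit 5) (nat_lit 299) (nat_lit 5) (nat_lit 300) (nat_lit 5) (nat_lit 449) (nat_lit 379) (nat_lit 312)) (XT.lf (nat_lit 0) (nat_lit 1103189679) (nat_lit 608) (nat_lit 6878757398) (nat_lit 76) (nat_lit 1582082929) (nat_lit 283) (nat_lit 5) (nat_lit 291) (nat_lit 5) (nat_lit 284) (nat_lit 5) (nat_lit 450) (nat_lit 379) (nat_lit 311))))) (XT.nd (nat_lit 156) (nat_lit 1140) (nat_lit 0) (XT.nd (nat_lit 78) (nat_lit 608) (nat_lit 0) (XT.lf (nat_lit 0) (nat_lit 4102736399) (nat_lit 608) (nat_lit 215967690) (nat_lit 76) (nat_lit 5339312984) (nat_lit 283) (nat_lit 5) (nat_lit 291) (nat_lit 5) (nat_lit 284) (nat_lit 5) (nat_lit 451) (nat_lit 379) (nat_lit 310)) (XT.lf (nat_lit 0) (nat_lit 6622309652) (nat_lit 608) (nat_lit 549814289) (nat_lit 684) (nat_lit 2581562942) (nat_lit 275) (nat_lit 5) (nat_lit 283) (nat_lit 5) (nat_lit 284) (nat_lit 5) (nat_lit 452) (nat_lit 379) (nat_lit 309))) (XT.nd (nat_lit 78) (nat_lit 532)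 (nat_lit 0) (XT.lf (nat_lit 0) (nat_lit 460017879) (nat_lit 608) (nat_lit 6122339172) (nat_lit 76) (nat_lit 3268568155) (nat_lit 267) (nat_lit 5) (nat_lit 275) (nat_lit 5) (nat_lit 268) (nat_lit 5) (nat_lit 453) (nat_lit 379) (nat_lit 308)) (XT.nd (nat_lit 78) (nat_lit 0) (nat_lit 0) (XT.lf (nat_lit 0) (nat_lit 762584340) (nat_lit 532) (nat_lit 2762335898) (nat_lit 608) (nat_lit 6424905633) (nat_lit 260) (nat_lit 5) (nat_lit 267) (nat_lit 5) (nat_lit 268) (nat_lit 5) (nat_lit 454) (nat_lit 379) (nat_lit 307)) (XT.lf (nat_lit 0) (nat_lit 6667390730) (nat_lit 608) (nat_lit 2234640073) (nat_lit 76) (nat_lit 1148348345) (nat_lit 260) (nat_lit 5) (nat_lit 268) (nat_lit 5) (nat_lit 261) (nat_lit 5) (nat_lit 455) (nat_lit 379) (nat_lit 306))))))))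
noncomputable def xc53 : XT := (XT.nd (nat_lit 53976) (nat_lit 0) (nat_lit 38456) (XT.nd (nat_lit 702) (nat_lit 912) (nat_lit 0) (XT.nd (nat_lit 312) (nat_lit 2052) (nat_lit 0) (XT.nd (nat_lit 156) (nat_lit 456) (nat_lit 0) (XT.nd (nat_lit 78) (nat_lit 608) (nat_lit 0) (XT.lf (nat_lit 0) (nat_lit 4858003854) (nat_lit 532) (nat_lit 5032728689) (nat_lit 608) (nat_lit 261850509) (nat_lit 253) (nat_lit 5) (nat_lit 260) (nat_lit 5) (nat_lit 261) (nat_lit 5) (nat_lit 456) (nat_lit 379) (nat_lit 305)) (XT.lf (nat_lit 0) (nat_lit 1826589422) (nat_lit 532) (nat_lit 1052072010) (nat_lit 608) (nat_lit 7377884808) (nat_lit 245) (nat_lit 5) (nat_lit 252) (nat_lit 5) (nat_lit 253) (nat_lit 5) (nat_lit 457) (nat_lit 379) (nat_lit 304))) (XT.nd (nat_lit 78) (nat_lit 456) (nat_lit 0) (XT.lf (nat_lit 0) (nat_lit 6102342328) (nat_lit 608) (nat_lit 1266236211) (nat_lit 76) (nat_lit 2993498238) (nat_lit 245) (nat_lit 5) (nat_lit 253) (nat_lit 5) (nat_lit 246) (nat_lit 5) (nat_lit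 458) (nat_lit 379) (nat_lit 303)) (XT.lf (nat_lit 0) (nat_lit 6069463828) (nat_lit 456) (nat_lit 3336589414) (nat_lit 532) (nat_lit 1063353555) (nat_lit 239) (nat_lit 5) (nat_lit 245) (nat_lit 5) (nat_lit 246) (nat_lit 5) (nat_lit 459) (nat_lit 379) (nat_lit 302)))) (XT.nd (nat_lit 156) (nat_lit 1444) (nat_lit 0) (XT.nd (nat_lit 78) (nat_lit 0) (nat_lit 0) (XT.lf (nat_lit 0) (nat_lit 2170515841) (nat_lit 608) (nat_lit 7612962297) (nat_lit 76) (nat_lit 795072512) (nat_lit 231) (nat_lit 5) (nat_lit 239) (nat_lit 5) (nat_lit 232) (nat_lit 5) (nat_lit 460) (nat_lit 379) (nat_lit 301)) (XT.lf (nat_lit 0) (nat_lit 5476187704) (nat_lit 608) (nat_lit 224828062) (nat_lit 76) (nat_lit 4988293769) (nat_lit 231) (nat_lit 5) (nat_lit 239) (nat_lit 5) (nat_lit 232) (nat_lit 5) (nat_lit 461) (nat_lit 379) (nat_lit 300))) (XT.nd (nat_lit 78) (nat_lit 988) (nat_lit 0) (XT.lf (nat_lit 0) (nat_lit 7364240768) (nat_lit 456) (nat_lit 1501675169) (nat_lit 532) (nat_lit 1936008803)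 (nat_lit 225) (nat_lit 5) (nat_lit 231) (nat_lit 5) (nat_lit 232) (nat_lit 5) (nat_lit 462) (nat_lit 379) (nat_lit 299)) (XT.nd (nat_lit 78) (nat_lit 456) (nat_lit 0) (XT.lf (nat_lit 0) (nat_lit 1405406289) (nat_lit 532) (nat_lit 6741138108) (nat_lit 76) (nat_lit 2769721030) (nat_lit 218) (nat_lit 5) (nat_lit 225) (nat_lit 5) (nat_lit 219) (nat_lit 5) (nat_lit 463) (nat_lit 379) (nat_lit 298)) (XT.lf (nat_lit 0) (nat_lit 899505563) (nat_lit 456) (nat_lit 3897704373) (nat_lit 532) (nat_lit 6235237383) (nat_lit 212) (nat_lit 5) (nat_lit 218) (nat_lit 5) (nat_lit 219) (nat_lit 5) (nat_lit 464) (nat_lit 379) (nat_lit 297)))))) (XT.nd (nat_lit 52884) (nat_lit 0) (nat_lit 45600) (XT.nd (nat_lit 156) (nat_lit 380) (nat_lit 0) (XT.nd (nat_lit 78) (nat_lit 532) (nat_lit 0) (XT.lf (nat_lit 0) (nat_lit 8275875132) (nat_lit 532) (nat_lit 2412779031) (nat_lit 76) (nat_lit 461918176) (nat_lit 212) (nat_lit 5) (nat_lit 219) (nat_lit 5) (nat_lit 213) (nat_lit 5) (nat_lit 465)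 (nat_lit 379) (nat_lit 296)) (XT.lf (nat_lit 0) (nat_lit 578541078) (nat_lit 532) (nat_lit 5809650705) (nat_lit 76) (nat_lit 4882141447) (nat_lit 205) (nat_lit 5) (nat_lit 212) (nat_lit 5) (nat_lit 206) (nat_lit 5) (nat_lit 466) (nat_lit 379) (nat_lit 295))) (XT.nd (nat_lit 52572) (nat_lit 0) (nat_lit 46208) (XT.lf (nat_lit 0) (nat_lit 2097339846) (nat_lit 380) (nat_lit 1966294340) (nat_lit 456) (nat_lit 7328449473) (nat_lit 200) (nat_lit 5) (nat_lit 205) (nat_lit 5) (nat_lit 206) (nat_lit 5) (nat_lit 467) (nat_lit 379) (nat_lit 294)) (XT.nd (nat_lit 78) (nat_lit 76) (nat_lit 0) (XT.lf (nat_lit 0) (nat_lit 1073741823) (nat_lit 0) (nat_lit 0) (nat_lit 0) (nat_lit 0) (nat_lit 809) (nat_lit 0) (nat_lit 1) (nat_lit 0) (nat_lit 1) (nat_lit 0) (nat_lit 380) (nat_lit 380) (nat_lit 380)) (XT.lf (nat_lit 0) (nat_lit 3200311139) (nat_lit 76) (nat_lit 3200311139) (nat_lit 0) (nat_lit 42246951) (nat_lit 808) (nat_lit 5) (nat_lit 809) (nat_lit 0) (nat_lit 808) (nat_lit 4)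 (nat_lit 381) (nat_lit 380) (nat_lit 379))))) (XT.nd (nat_lit 156) (nat_lit 456) (nat_lit 0) (XT.nd (nat_lit 78) (nat_lit 76) (nat_lit 0) (XT.lf (nat_lit 0) (nat_lit 63585129) (nat_lit 76) (nat_lit 6317790678) (nat_lit 76) (nat_lit 63585129) (nat_lit 807) (nat_lit 4) (nat_lit 808) (nat_lit 5) (nat_lit 808) (nat_lit 4) (nat_lit 382) (nat_lit 380) (nat_lit 378)) (XT.lf (nat_lit 0) (nat_lit 3076039157) (nat_lit 152) (nat_lit 3076039157) (nat_lit 76) (nat_lit 295828070) (nat_lit 806) (nat_lit 5) (nat_lit 808) (nat_lit 5) (nat_lit 807) (nat_lit 4) (nat_lit 383) (nat_lit 380) (nat_lit 377))) (XT.nd (nat_lit 78) (nat_lit 304) (nat_lit 0) (XT.lf (nat_lit 0) (nat_lit 254465203) (nat_lit 152) (nat_lit 5943563449) (nat_lit 228) (nat_lit 254465203) (nat_lit 804) (nat_lit 5) (nat_lit 806) (nat_lit 5) (nat_lit 807) (nat_lit 4) (nat_lit 384) (nat_lit 380) (nat_lit 376)) (XT.nd (nat_lit 78) (nat_lit 228) (nat_lit 0) (XT.lf (nat_lit 0) (nat_lit 2827249535) (nat_lit 228) (nat_lit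 2827249535) (nat_lit 76) (nat_lit 803487540) (nat_lit 803) (nat_lit 5) (nat_lit 806) (nat_lit 5) (nat_lit 804) (nat_lit 5) (nat_lit 385) (nat_lit 380) (nat_lit 375)) (XT.lf (nat_lit 0) (nat_lit 573014487) (nat_lit 228) (nat_lit 5319029550) (nat_lit 304) (nat_lit 573014487) (nat_lit 800) (nat_lit 5) (nat_lit 803) (nat_lit 5) (nat_lit 804) (nat_lit 5) (nat_lit 386) (nat_lit 380) (nat_lit 374))))))) (XT.nd (nat_lit 702) (nat_lit 4560) (nat_lit 0) (XT.nd (nat_lit 312) (nat_lit 1748) (nat_lit 0) (XT.nd (nat_lit 156) (nat_lit 456) (nat_lit 0) (XT.nd (nat_lit 78) (nat_lit 304) (nat_lit 0) (XT.lf (nat_lit 0) (nat_lit 2453450549) (nat_lit 304) (nat_lit 2453450549) (nat_lit 76) (nat_lit 1566220641) (nat_lit 799) (nat_lit 5) (nat_lit 803) (nat_lit 5) (nat_lit 800) (nat_lit 5) (nat_lit 387) (nat_lit 380) (nat_lit 373)) (XT.lf (nat_lit 0) (nat_lit 1019857440) (nat_lit 304) (nat_lit 4442954786) (nat_lit 380) (nat_lit 1019857440) (nat_lit 795) (nat_lit 5) (nat_lit 799) (nat_lit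 5) (nat_lit 800) (nat_lit 5) (nat_lit 388) (nat_lit 380) (nat_lit 372))) (XT.nd (nat_lit 78) (nat_lit 380) (nat_lit 0) (XT.lf (nat_lit 0) (nat_lit 1953903604) (nat_lit 380) (nat_lit 1953903604) (nat_lit 76) (nat_lit 2585522343) (nat_lit 794) (nat_lit 5) (nat_lit 799) (nat_lit 5) (nat_lit 795) (nat_lit 5) (nat_lit 389) (nat_lit 380) (nat_lit 371)) (XT.lf (nat_lit 0) (nat_lit 1595869747) (nat_lit 380) (nat_lit 3313608430) (nat_lit 456) (nat_lit 1595869747) (nat_lit 789) (nat_lit 5) (nat_lit 794) (nat_lit 5) (nat_lit 795) (nat_lit 5) (nat_lit 390) (nat_lit 380) (nat_lit 370)))) (XT.nd (nat_lit 156) (nat_lit 1216) (nat_lit 0) (XT.nd (nat_lit 78) (nat_lit 456) (nat_lit 0) (XT.lf (nat_lit 0) (nat_lit 1327622008) (nat_lit 456) (nat_lit 1327622008) (nat_lit 76) (nat_lit 3863389768) (nat_lit 788) (nat_lit 5) (nat_lit 794) (nat_lit 5) (nat_lit 789) (nat_lit 5) (nat_lit 391) (nat_lit 380) (nat_lit 369)) (XT.lf (nat_lit 0) (nat_lit 2302179755) (nat_lit 456) (nat_lit 1928760373)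 (nat_lit 532) (nat_lit 2302179755) (nat_lit 782) (nat_lit 5) (nat_lit 788) (nat_lit 5) (nat_lit 789) (nat_lit 5) (nat_lit 392) (nat_lit 380) (nat_lit 368))) (XT.nd (nat_lit 78) (nat_lit 1140) (nat_lit 0) (XT.lf (nat_lit 0) (nat_lit 573369350) (nat_lit 532) (nat_lit 573369350) (nat_lit 76) (nat_lit 5402325479) (nat_lit 781) (nat_lit 5) (nat_lit 788) (nat_lit 5) (nat_lit 782) (nat_lit 5) (nat_lit 393) (nat_lit 380) (nat_lit 367)) (XT.nd (nat_lit 78) (nat_lit 608) (nat_lit 0) (XT.lf (nat_lit 0) (nat_lit 3140170337) (nat_lit 532) (nat_lit 285677445) (nat_lit 608) (nat_lit 3140170337) (nat_lit 774) (nat_lit 5) (nat_lit 781) (nat_lit 5) (nat_lit 782) (nat_lit 5) (nat_lit 394) (nat_lit 380) (nat_lit 366)) (XT.lf (nat_lit 0) (nat_lit 308300814) (nat_lit 608) (nat_lit 5967893149) (nat_lit 684) (nat_lit 308300814) (nat_lit 766) (nat_lit 5) (nat_lit 774) (nat_lit 5) (nat_lit 775) (nat_lit 5) (nat_lit 395) (nat_lit 380) (nat_lit 365)))))) (XT.nd (nat_lit 390) (nat_lit 2888)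 (nat_lit 0) (XT.nd (nat_lit 156) (nat_lit 912) (nat_lit 0) (XT.nd (nat_lit 78) (nat_lit 684) (nat_lit 0) (XT.lf (nat_lit 0) (nat_lit 2503110925) (nat_lit 684) (nat_lit 2503110925) (nat_lit 76) (nat_lit 1597649176) (nat_lit 765) (nat_lit 5) (nat_lit 774) (nat_lit 5) (nat_lit 766) (nat_lit 5) (nat_lit 396) (nat_lit 380) (nat_lit 364)) (XT.lf (nat_lit 0) (nat_lit 1316537263) (nat_lit 684) (nat_lit 3991687475) (nat_lit 760) (nat_lit 1316537263) (nat_lit 756) (nat_lit 5) (nat_lit 765) (nat_lit 5) (nat_lit 766) (nat_lit 5) (nat_lit 397) (nat_lit 380) (nat_lit 363))) (XT.nd (nat_lit 78) (nat_lit 836) (nat_lit 0) (XT.lf (nat_lit 0) (nat_lit 1453941077) (nat_lit 760) (nat_lit 1453941077) (nat_lit 76) (nat_lit 3738979822) (nat_lit 755) (nat_lit 5) (nat_lit 765) (nat_lit 5) (nat_lit 756) (nat_lit 5) (nat_lit 398) (nat_lit 380) (nat_lit 362)) (XT.nd (nat_lit 78) (nat_lit 76) (nat_lit 0) (XT.lf (nat_lit 0) (nat_lit 2457098482) (nat_lit 760) (nat_lit 1756014687) (nat_lit 836)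 (nat_lit 2457098482) (nat_lit 745) (nat_lit 5) (nat_lit 755) (nat_lit 5) (nat_lit 756) (nat_lit 5) (nat_lit 399) (nat_lit 380) (nat_lit 361)) (XT.lf (nat_lit 0) (nat_lit 274400222) (nat_lit 836) (nat_lit 274400222) (nat_lit 76) (nat_lit 6146277919) (nat_lit 744) (nat_lit 5) (nat_lit 755) (nat_lit 5) (nat_lit 745) (nat_lit 5) (nat_lit 400) (nat_lit 380) (nat_lit 360))))) (XT.nd (nat_lit 156) (nat_lit 1140) (nat_lit 0) (XT.nd (nat_lit 78) (nat_lit 912) (nat_lit 0) (XT.lf (nat_lit 0) (nat_lit 2993495039) (nat_lit 912) (nat_lit 2993495039) (nat_lit 76) (nat_lit 733810169) (nat_lit 733) (nat_lit 5) (nat_lit 745) (nat_lit 5) (nat_lit 734) (nat_lit 5) (nat_lit 401) (nat_lit 380) (nat_lit 359)) (XT.lf (nat_lit 0) (nat_lit 1031023425) (nat_lit 912) (nat_lit 4685988906) (nat_lit 988) (nat_lit 1031023425) (nat_lit 721) (nat_lit 5) (nat_lit 733) (nat_lit 5) (nat_lit 734) (nat_lit 5) (nat_lit 402) (nat_lit 380) (nat_lit 358))) (XT.nd (nat_lit 78) (nat_lit 1064) (nat_lit 0)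 (XT.lf (nat_lit 0) (nat_lit 1655241348) (nat_lit 988) (nat_lit 1655241348) (nat_lit 76) (nat_lit 3465937943) (nat_lit 720) (nat_lit 5) (nat_lit 733) (nat_lit 5) (nat_lit 721) (nat_lit 5) (nat_lit 403) (nat_lit 380) (nat_lit 357)) (XT.nd (nat_lit 78) (nat_lit 76) (nat_lit 0) (XT.lf (nat_lit 0) (nat_lit 2469062531) (nat_lit 988) (nat_lit 1867999144) (nat_lit 1064) (nat_lit 2469062531) (nat_lit 707) (nat_lit 5) (nat_lit 720) (nat_lit 5) (nat_lit 721) (nat_lit 5) (nat_lit 404) (nat_lit 380) (nat_lit 356)) (XT.lf (nat_lit 0) (nat_lit 184278099) (nat_lit 1064) (nat_lit 184278099) (nat_lit 76) (nat_lit 6468809428) (nat_lit 706) (nat_lit 5) (nat_lit 720) (nat_lit 5) (nat_lit 707) (nat_lit 5) (nat_lit 405) (nat_lit 380) (nat_lit 355))))))))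
noncomputable def xc54 : XT := (XT.nd (nat_lit 1482) (nat_lit 10564) (nat_lit 0) (XT.nd (nat_lit 702) (nat_lit 10640) (nat_lit 0) (XT.nd (nat_lit 312) (nat_lit 4256) (nat_lit 0) (XT.nd (nat_lit 156) (nat_lit 1292) (nat_lit 0) (XT.nd (nat_lit 78) (nat_lit 1140) (nat_lit 0) (XT.lf (nat_lit 0) (nat_lit 2833101615) (nat_lit 1140) (nat_lit 2833101615) (nat_lit 76) (nat_lit 1203192697) (nat_lit 692) (nat_lit 5) (nat_lit 707) (nat_lit 5) (nat_lit 693) (nat_lit 5) (nat_lit 406) (nat_lit 380) (nat_lit 354)) (XT.lf (nat_lit 0) (nat_lit 1412971323) (nat_lit 1140) (nat_lit 4077022348) (nat_lit 1216) (nat_lit 1412971323) (nat_lit 677) (nat_lit 5) (nat_lit 692) (nat_lit 5) (nat_lit 693) (nat_lit 5) (nat_lit 407) (nat_lit 380) (nat_lit 353))) (XT.nd (nat_lit 78) (nat_lit 1216) (nat_lit 0) (XT.lf (nat_lit 0) (nat_lit 1208092573) (nat_lit 1216) (nat_lit 1208092573) (nat_lit 76) (nat_lit 4521619584) (nat_lit 676) (nat_lit 5) (nat_lit 692) (nat_lit 5) (nat_lit 677) (nat_lit 5)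 (nat_lit 408) (nat_lit 380) (nat_lit 352)) (XT.lf (nat_lit 0) (nat_lit 3146938685) (nat_lit 1216) (nat_lit 679991650) (nat_lit 1292) (nat_lit 3146938685) (nat_lit 660) (nat_lit 5) (nat_lit 676) (nat_lit 5) (nat_lit 677) (nat_lit 5) (nat_lit 409) (nat_lit 380) (nat_lit 351)))) (XT.nd (nat_lit 156) (nat_lit 2888) (nat_lit 0) (XT.nd (nat_lit 78) (nat_lit 76) (nat_lit 0) (XT.lf (nat_lit 0) (nat_lit 549716030) (nat_lit 1292) (nat_lit 5911952072) (nat_lit 1368) (nat_lit 549716030) (nat_lit 643) (nat_lit 5) (nat_lit 660) (nat_lit 5) (nat_lit 661) (nat_lit 5) (nat_lit 410) (nat_lit 380) (nat_lit 350)) (XT.lf (nat_lit 0) (nat_lit 2047411875) (nat_lit 1368) (nat_lit 2047411875) (nat_lit 76) (nat_lit 2955043264) (nat_lit 642) (nat_lit 5) (nat_lit 660) (nat_lit 5) (nat_lit 643) (nat_lit 5) (nat_lit 411) (nat_lit 380) (nat_lit 349))) (XT.nd (nat_lit 78) (nat_lit 1520) (nat_lit 0) (XT.lf (nat_lit 0) (nat_lit 2438626944) (nat_lit 1368) (nat_lit 2212551851) (nat_lit 1444) (nat_lit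 2438626944) (nat_lit 624) (nat_lit 5) (nat_lit 642) (nat_lit 5) (nat_lit 643) (nat_lit 5) (nat_lit 412) (nat_lit 380) (nat_lit 348)) (XT.nd (nat_lit 78) (nat_lit 1444) (nat_lit 0) (XT.lf (nat_lit 0) (nat_lit 134624774) (nat_lit 1444) (nat_lit 134624774) (nat_lit 76) (nat_lit 6862061546) (nat_lit 623) (nat_lit 5) (nat_lit 642) (nat_lit 5) (nat_lit 624) (nat_lit 5) (nat_lit 413) (nat_lit 380) (nat_lit 347)) (XT.lf (nat_lit 0) (nat_lit 2714893369) (nat_lit 1520) (nat_lit 2714893369) (nat_lit 76) (nat_lit 1743773328) (nat_lit 604) (nat_lit 5) (nat_lit 624) (nat_lit 5) (nat_lit 605) (nat_lit 5) (nat_lit 414) (nat_lit 380) (nat_lit 346)))))) (XT.nd (nat_lit 390) (nat_lit 5700) (nat_lit 0) (XT.nd (nat_lit 156) (nat_lit 3344) (nat_lit 0) (XT.nd (nat_lit 78) (nat_lit 76) (nat_lit 0) (XT.lf (nat_lit 0) (nat_lit 1907075191) (nat_lit 1520) (nat_lit 3403232825) (nat_lit 1596) (nat_lit 1907075191) (nat_lit 584) (nat_lit 5) (nat_lit 604) (nat_lit 5) (nat_lit 605) (nat_lit 5)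 (nat_lit 415) (nat_lit 380) (nat_lit 345)) (XT.lf (nat_lit 0) (nat_lit 653613773) (nat_lit 1596) (nat_lit 653613773) (nat_lit 76) (nat_lit 5955421186) (nat_lit 583) (nat_lit 5) (nat_lit 604) (nat_lit 5) (nat_lit 584) (nat_lit 5) (nat_lit 416) (nat_lit 380) (nat_lit 344))) (XT.nd (nat_lit 78) (nat_lit 1748) (nat_lit 0) (XT.lf (nat_lit 0) (nat_lit 3222117157) (nat_lit 1672) (nat_lit 3222117157) (nat_lit 76) (nat_lit 864690410) (nat_lit 562) (nat_lit 5) (nat_lit 584) (nat_lit 5) (nat_lit 563) (nat_lit 5) (nat_lit 417) (nat_lit 380) (nat_lit 343)) (XT.nd (nat_lit 78) (nat_lit 76) (nat_lit 0) (XT.lf (nat_lit 0) (nat_lit 1541004760) (nat_lit 1672) (nat_lit 4274643563) (nat_lit 1748) (nat_lit 1541004760) (nat_lit 540) (nat_lit 5) (nat_lit 562) (nat_lit 5) (nat_lit 563) (nat_lit 5) (nat_lit 418) (nat_lit 380) (nat_lit 342)) (XT.lf (nat_lit 0) (nat_lit 1014567254) (nat_lit 1748) (nat_lit 1014567254) (nat_lit 76) (nat_lit 5376610431) (nat_lit 539) (nat_lit 5) (nat_lit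 562) (nat_lit 5) (nat_lit 540) (nat_lit 5) (nat_lit 419) (nat_lit 380) (nat_lit 341))))) (XT.nd (nat_lit 156) (nat_lit 2128) (nat_lit 0) (XT.nd (nat_lit 78) (nat_lit 1824) (nat_lit 0) (XT.lf (nat_lit 0) (nat_lit 3579664657) (nat_lit 1824) (nat_lit 3579664657) (nat_lit 76) (nat_lit 296704639) (nat_lit 516) (nat_lit 5) (nat_lit 540) (nat_lit 5) (nat_lit 517) (nat_lit 5) (nat_lit 420) (nat_lit 380) (nat_lit 340)) (XT.lf (nat_lit 0) (nat_lit 1330138579) (nat_lit 1824) (nat_lit 4847421664) (nat_lit 1900) (nat_lit 1330138579) (nat_lit 492) (nat_lit 5) (nat_lit 516) (nat_lit 5) (nat_lit 517) (nat_lit 5) (nat_lit 421) (nat_lit 380) (nat_lit 339))) (XT.nd (nat_lit 78) (nat_lit 2052) (nat_lit 0) (XT.lf (nat_lit 0) (nat_lit 1227475465) (nat_lit 1900) (nat_lit 1227475465) (nat_lit 76) (nat_lit 5105740015) (nat_lit 491) (nat_lit 5) (nat_lit 516) (nat_lit 5) (nat_lit 492) (nat_lit 5) (nat_lit 422) (nat_lit 380) (nat_lit 338)) (XT.nd (nat_lit 78) (nat_lit 912) (nat_lit 0) (XT.lf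 (nat_lit 0) (nat_lit 3797191039) (nat_lit 1216) (nat_lit 3797191039) (nat_lit 76) (nat_lit 20609793) (nat_lit 476) (nat_lit 5) (nat_lit 492) (nat_lit 5) (nat_lit 477) (nat_lit 5) (nat_lit 423) (nat_lit 380) (nat_lit 337)) (XT.lf (nat_lit 0) (nat_lit 1265129584) (nat_lit 912) (nat_lit 5140375560) (nat_lit 988) (nat_lit 1265129584) (nat_lit 464) (nat_lit 5) (nat_lit 476) (nat_lit 5) (nat_lit 477) (nat_lit 5) (nat_lit 424) (nat_lit 380) (nat_lit 336))))))) (XT.nd (nat_lit 702) (nat_lit 5244) (nat_lit 0) (XT.nd (nat_lit 312) (nat_lit 3420) (nat_lit 0) (XT.nd (nat_lit 156) (nat_lit 912) (nat_lit 0) (XT.nd (nat_lit 78) (nat_lit 912) (nat_lit 0) (XT.lf (nat_lit 0) (nat_lit 1301431452) (nat_lit 988) (nat_lit 1301431452) (nat_lit 76) (nat_lit 5124745875) (nat_lit 463) (nat_lit 5) (nat_lit 476) (nat_lit 5) (nat_lit 464) (nat_lit 5) (nat_lit 425) (nat_lit 380) (nat_lit 335)) (XT.lf (nat_lit 0) (nat_lit 3883491969) (nat_lit 988) (nat_lit 3883491969) (nat_lit 76) (nat_lit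 18948955) (nat_lit 451) (nat_lit 5) (nat_lit 464) (nat_lit 5) (nat_lit 452) (nat_lit 5) (nat_lit 426) (nat_lit 380) (nat_lit 334))) (XT.nd (nat_lit 78) (nat_lit 76) (nat_lit 0) (XT.lf (nat_lit 0) (nat_lit 1337494805) (nat_lit 836) (nat_lit 5170615546) (nat_lit 912) (nat_lit 1337494805) (nat_lit 440) (nat_lit 5) (nat_lit 451) (nat_lit 5) (nat_lit 452) (nat_lit 5) (nat_lit 427) (nat_lit 380) (nat_lit 333)) (XT.lf (nat_lit 0) (nat_lit 1244694929) (nat_lit 912) (nat_lit 1244694929) (nat_lit 76) (nat_lit 5417260640) (nat_lit 439) (nat_lit 5) (nat_lit 451) (nat_lit 5) (nat_lit 440) (nat_lit 5) (nat_lit 428) (nat_lit 380) (nat_lit 332)))) (XT.nd (nat_lit 156) (nat_lit 1672) (nat_lit 0) (XT.nd (nat_lit 78) (nat_lit 836) (nat_lit 0) (XT.lf (nat_lit 0) (nat_lit 3846565104) (nat_lit 988) (nat_lit 3846565104) (nat_lit 76) (nat_lit 275890811) (nat_lit 427) (nat_lit 5) (nat_lit 440) (nat_lit 5) (nat_lit 428) (nat_lit 5) (nat_lit 429) (nat_lit 380) (nat_lit 331)) (XT.lf (nat_lit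 0) (nat_lit 1539554680) (nat_lit 836) (nat_lit 4953674459) (nat_lit 912) (nat_lit 1539554680) (nat_lit 416) (nat_lit 5) (nat_lit 427) (nat_lit 5) (nat_lit 428) (nat_lit 5) (nat_lit 430) (nat_lit 380) (nat_lit 330))) (XT.nd (nat_lit 78) (nat_lit 1596) (nat_lit 0) (XT.lf (nat_lit 0) (nat_lit 1064751088) (nat_lit 912) (nat_lit 1064751088) (nat_lit 76) (nat_lit 5968495356) (nat_lit 415) (nat_lit 5) (nat_lit 427) (nat_lit 5) (nat_lit 416) (nat_lit 5) (nat_lit 431) (nat_lit 380) (nat_lit 329)) (XT.nd (nat_lit 78) (nat_lit 760) (nat_lit 0) (XT.lf (nat_lit 0) (nat_lit 3693666717) (nat_lit 912) (nat_lit 3693666717) (nat_lit 76) (nat_lit 777115789) (nat_lit 404) (nat_lit 5) (nat_lit 416) (nat_lit 5) (nat_lit 405) (nat_lit 5) (nat_lit 432) (nat_lit 380) (nat_lit 328)) (XT.lf (nat_lit 0) (nat_lit 1864377231) (nat_lit 760) (nat_lit 4503618779) (nat_lit 836) (nat_lit 1864377231) (nat_lit 394) (nat_lit 5) (nat_lit 404) (nat_lit 5) (nat_lit 405) (nat_lit 5) (nat_lit 433) (nat_lit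 380) (nat_lit 327)))))) (XT.nd (nat_lit 390) (nat_lit 2812) (nat_lit 0) (XT.nd (nat_lit 156) (nat_lit 1596) (nat_lit 0) (XT.nd (nat_lit 78) (nat_lit 760) (nat_lit 0) (XT.lf (nat_lit 0) (nat_lit 768364712) (nat_lit 836) (nat_lit 768364712) (nat_lit 76) (nat_lit 6765130709) (nat_lit 393) (nat_lit 5) (nat_lit 404) (nat_lit 5) (nat_lit 394) (nat_lit 5) (nat_lit 434) (nat_lit 380) (nat_lit 326)) (XT.lf (nat_lit 0) (nat_lit 3431363827) (nat_lit 836) (nat_lit 3431363827) (nat_lit 76) (nat_lit 1509711311) (nat_lit 383) (nat_lit 5) (nat_lit 394) (nat_lit 5) (nat_lit 384) (nat_lit 5) (nat_lit 435) (nat_lit 380) (nat_lit 325))) (XT.nd (nat_lit 78) (nat_lit 836) (nat_lit 0) (XT.lf (nat_lit 0) (nat_lit 2305726712) (nat_lit 760) (nat_lit 3833150858) (nat_lit 836) (nat_lit 2305726712) (nat_lit 373) (nat_lit 5) (nat_lit 383) (nat_lit 5) (nat_lit 384) (nat_lit 5) (nat_lit 436) (nat_lit 380) (nat_lit 324)) (XT.nd (nat_lit 78) (nat_lit 760) (nat_lit 0) (XT.lf (nat_lit 0) (nat_lit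 361629959) (nat_lit 836) (nat_lit 361629959) (nat_lit 76) (nat_lit 7795217029) (nat_lit 372) (nat_lit 5) (nat_lit 383) (nat_lit 5) (nat_lit 373) (nat_lit 5) (nat_lit 437) (nat_lit 380) (nat_lit 323)) (XT.lf (nat_lit 0) (nat_lit 3065582159) (nat_lit 836) (nat_lit 3065582159) (nat_lit 76) (nat_lit 2462075488) (nat_lit 362) (nat_lit 5) (nat_lit 373) (nat_lit 5) (nat_lit 363) (nat_lit 5) (nat_lit 438) (nat_lit 380) (nat_lit 322))))) (XT.nd (nat_lit 156) (nat_lit 1444) (nat_lit 0) (XT.nd (nat_lit 78) (nat_lit 684) (nat_lit 0) (XT.lf (nat_lit 0) (nat_lit 2858016429) (nat_lit 684) (nat_lit 2953702946) (nat_lit 760) (nat_lit 2858016429) (nat_lit 353) (nat_lit 5) (nat_lit 362) (nat_lit 5) (nat_lit 363) (nat_lit 5) (nat_lit 439) (nat_lit 380) (nat_lit 321)) (XT.lf (nat_lit 0) (nat_lit 148997136) (nat_lit 684) (nat_lit 8450042246) (nat_lit 760) (nat_lit 148997136) (nat_lit 344) (nat_lit 5) (nat_lit 353) (nat_lit 5) (nat_lit 354) (nat_lit 5) (nat_lit 440) (nat_lit 380) (nat_lit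 320))) (XT.nd (nat_lit 78) (nat_lit 1368) (nat_lit 0) (XT.lf (nat_lit 0) (nat_lit 2601650254) (nat_lit 760) (nat_lit 2601650254) (nat_lit 76) (nat_lit 3623828609) (nat_lit 343) (nat_lit 5) (nat_lit 353) (nat_lit 5) (nat_lit 344) (nat_lit 5) (nat_lit 441) (nat_lit 380) (nat_lit 319)) (XT.nd (nat_lit 78) (nat_lit 684) (nat_lit 0) (XT.lf (nat_lit 0) (nat_lit 3516265390) (nat_lit 684) (nat_lit 1875523622) (nat_lit 760) (nat_lit 3516265390) (nat_lit 334) (nat_lit 5) (nat_lit 343) (nat_lit 5) (nat_lit 344) (nat_lit 5) (nat_lit 442) (nat_lit 380) (nat_lit 318)) (XT.lf (nat_lit 0) (nat_lit 756579838) (nat_lit 684) (nat_lit 7477511302) (nat_lit 760) (nat_lit 756579838) (nat_lit 325) (nat_lit 5) (nat_lit 334) (nat_lit 5) (nat_lit 335) (nat_lit 5) (nat_lit 443) (nat_lit 380) (nat_lit 317))))))))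
noncomputable def xc55 : XT := (XT.nd (nat_lit 1482) (nat_lit 1520) (nat_lit 0) (XT.nd (nat_lit 702) (nat_lit 3800) (nat_lit 0) (XT.nd (nat_lit 312) (nat_lit 2432) (nat_lit 0) (XT.nd (nat_lit 156) (nat_lit 684) (nat_lit 0) (XT.nd (nat_lit 78) (nat_lit 608) (nat_lit 0) (XT.lf (nat_lit 0) (nat_lit 2044340007) (nat_lit 760) (nat_lit 2044340007) (nat_lit 76) (nat_lit 4985731886) (nat_lit 324) (nat_lit 5) (nat_lit 334) (nat_lit 5) (nat_lit 325) (nat_lit 5) (nat_lit 444) (nat_lit 380) (nat_lit 316)) (XT.lf (nat_lit 0) (nat_lit 4276058537) (nat_lit 608) (nat_lit 607757183) (nat_lit 684) (nat_lit 4276058537) (nat_lit 316) (nat_lit 5) (nat_lit 324) (nat_lit 5) (nat_lit 325) (nat_lit 5) (nat_lit 445) (nat_lit 380) (nat_lit 315))) (XT.nd (nat_lit 78) (nat_lit 76) (nat_lit 0) (XT.lf (nat_lit 0) (nat_lit 1459183587) (nat_lit 608) (nat_lit 6328526112) (nat_lit 684) (nat_lit 1459183587) (nat_lit 308) (nat_lit 5) (nat_lit 316) (nat_lit 5) (nat_lit 317) (nat_lit 5) (nat_lit 446)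 (nat_lit 380) (nat_lit 314)) (XT.lf (nat_lit 0) (nat_lit 1397903898) (nat_lit 684) (nat_lit 1397903898) (nat_lit 76) (nat_lit 6539612881) (nat_lit 307) (nat_lit 5) (nat_lit 316) (nat_lit 5) (nat_lit 308) (nat_lit 5) (nat_lit 447) (nat_lit 380) (nat_lit 313)))) (XT.nd (nat_lit 156) (nat_lit 1216) (nat_lit 0) (XT.nd (nat_lit 78) (nat_lit 608) (nat_lit 0) (XT.lf (nat_lit 0) (nat_lit 4297490262) (nat_lit 684) (nat_lit 4297490262) (nat_lit 76) (nat_lit 830447272) (nat_lit 299) (nat_lit 5) (nat_lit 308) (nat_lit 5) (nat_lit 300) (nat_lit 5) (nat_lit 448) (nat_lit 380) (nat_lit 312)) (XT.lf (nat_lit 0) (nat_lit 2253000135) (nat_lit 608) (nat_lit 5011055053) (nat_lit 684) (nat_lit 2253000135) (nat_lit 291) (nat_lit 5) (nat_lit 299) (nat_lit 5) (nat_lit 300) (nat_lit 5) (nat_lit 449) (nat_lit 380) (nat_lit 311))) (XT.nd (nat_lit 78) (nat_lit 1140) (nat_lit 0) (XT.lf (nat_lit 0) (nat_lit 666109166) (nat_lit 684) (nat_lit 666109166) (nat_lit 76) (nat_lit 8278297158) (nat_lit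 290) (nat_lit 5) (nat_lit 299) (nat_lit 5) (nat_lit 291) (nat_lit 5) (nat_lit 450) (nat_lit 380) (nat_lit 310)) (XT.nd (nat_lit 78) (nat_lit 608) (nat_lit 0) (XT.lf (nat_lit 0) (nat_lit 3636185745) (nat_lit 608) (nat_lit 3636185745) (nat_lit 76) (nat_lit 2432720471) (nat_lit 283) (nat_lit 5) (nat_lit 291) (nat_lit 5) (nat_lit 284) (nat_lit 5) (nat_lit 451) (nat_lit 380) (nat_lit 309)) (XT.lf (nat_lit 0) (nat_lit 3134694450) (nat_lit 608) (nat_lit 3532147498) (nat_lit 684) (nat_lit 3134694450) (nat_lit 275) (nat_lit 5) (nat_lit 283) (nat_lit 5) (nat_lit 284) (nat_lit 5) (nat_lit 452) (nat_lit 380) (nat_lit 308)))))) (XT.nd (nat_lit 390) (nat_lit 2052) (nat_lit 0) (XT.nd (nat_lit 156) (nat_lit 1140) (nat_lit 0) (XT.nd (nat_lit 78) (nat_lit 76) (nat_lit 0) (XT.lf (nat_lit 0) (nat_lit 146758943) (nat_lit 532) (nat_lit 9606489102) (nat_lit 608) (nat_lit 146758943) (nat_lit 268) (nat_lit 5) (nat_lit 275) (nat_lit 5) (nat_lit 276) (nat_lit 5) (nat_lit 453) (nat_lit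 380) (nat_lit 307)) (XT.lf (nat_lit 0) (nat_lit 2899236585) (nat_lit 608) (nat_lit 2899236585) (nat_lit 76) (nat_lit 4200870172) (nat_lit 267) (nat_lit 5) (nat_lit 275) (nat_lit 5) (nat_lit 268) (nat_lit 5) (nat_lit 454) (nat_lit 380) (nat_lit 306))) (XT.nd (nat_lit 78) (nat_lit 608) (nat_lit 0) (XT.lf (nat_lit 0) (nat_lit 4101375204) (nat_lit 532) (nat_lit 1897992990) (nat_lit 608) (nat_lit 4101375204) (nat_lit 260) (nat_lit 5) (nat_lit 267) (nat_lit 5) (nat_lit 268) (nat_lit 5) (nat_lit 455) (nat_lit 380) (nat_lit 305)) (XT.nd (nat_lit 78) (nat_lit 76) (nat_lit 0) (XT.lf (nat_lit 0) (nat_lit 1033881154) (nat_lit 532) (nat_lit 8136236833) (nat_lit 608) (nat_lit 1033881154) (nat_lit 253) (nat_lit 5) (nat_lit 260) (nat_lit 5) (nat_lit 261) (nat_lit 5) (nat_lit 456) (nat_lit 380) (nat_lit 304)) (XT.lf (nat_lit 0) (nat_lit 2089518927) (nat_lit 608) (nat_lit 2089518927) (nat_lit 76) (nat_lit 6129569471) (nat_lit 252) (nat_lit 5) (nat_lit 260) (nat_lit 5) (nat_lit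 253) (nat_lit 5) (nat_lit 457) (nat_lit 380) (nat_lit 303))))) (XT.nd (nat_lit 156) (nat_lit 1064) (nat_lit 0) (XT.nd (nat_lit 78) (nat_lit 456) (nat_lit 0) (XT.lf (nat_lit 0) (nat_lit 5150567788) (nat_lit 532) (nat_lit 113975417) (nat_lit 608) (nat_lit 5150567788) (nat_lit 245) (nat_lit 5) (nat_lit 252) (nat_lit 5) (nat_lit 253) (nat_lit 5) (nat_lit 458) (nat_lit 380) (nat_lit 302)) (XT.lf (nat_lit 0) (nat_lit 1997166962) (nat_lit 456) (nat_lit 6528949836) (nat_lit 532) (nat_lit 1997166962) (nat_lit 239) (nat_lit 5) (nat_lit 245) (nat_lit 5) (nat_lit 246) (nat_lit 5) (nat_lit 459) (nat_lit 380) (nat_lit 301))) (XT.nd (nat_lit 78) (nat_lit 988) (nat_lit 0) (XT.lf (nat_lit 0) (nat_lit 1209530090) (nat_lit 532) (nat_lit 1209530090) (nat_lit 76) (nat_lit 8214277081) (nat_lit 238) (nat_lit 5) (nat_lit 245) (nat_lit 5) (nat_lit 239) (nat_lit 5) (nat_lit 460) (nat_lit 380) (nat_lit 300)) (XT.nd (nat_lit 78) (nat_lit 456) (nat_lit 0) (XT.lf (nat_lit 0) (nat_lit 4476698250)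 (nat_lit 608) (nat_lit 4476698250) (nat_lit 76) (nat_lit 1791469721) (nat_lit 231) (nat_lit 5) (nat_lit 239) (nat_lit 5) (nat_lit 232) (nat_lit 5) (nat_lit 461) (nat_lit 380) (nat_lit 299)) (XT.lf (nat_lit 0) (nat_lit 3034516044) (nat_lit 456) (nat_lit 4789301517) (nat_lit 532) (nat_lit 3034516044) (nat_lit 225) (nat_lit 5) (nat_lit 231) (nat_lit 5) (nat_lit 232) (nat_lit 5) (nat_lit 462) (nat_lit 380) (nat_lit 298))))))) (XT.nd (nat_lit 53352) (nat_lit 0) (nat_lit 43168) (XT.nd (nat_lit 52962) (nat_lit 0) (nat_lit 45372) (XT.nd (nat_lit 156) (nat_lit 988) (nat_lit 0) (XT.nd (nat_lit 78) (nat_lit 456) (nat_lit 0) (XT.lf (nat_lit 0) (nat_lit 261411812) (nat_lit 532) (nat_lit 261411812) (nat_lit 76) (nat_lit 10451191199) (nat_lit 224) (nat_lit 5) (nat_lit 231) (nat_lit 5) (nat_lit 225) (nat_lit 5) (nat_lit 463) (nat_lit 380) (nat_lit 297)) (XT.lf (nat_lit 0) (nat_lit 3627908978) (nat_lit 532) (nat_lit 3627908978) (nat_lit 76) (nat_lit 3834884889) (nat_lit 218)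 (nat_lit 5) (nat_lit 225) (nat_lit 5) (nat_lit 219) (nat_lit 5) (nat_lit 464) (nat_lit 380) (nat_lit 296))) (XT.nd (nat_lit 78) (nat_lit 532) (nat_lit 0) (XT.lf (nat_lit 0) (nat_lit 4144178805) (nat_lit 456) (nat_lit 2921292316) (nat_lit 532) (nat_lit 4144178805) (nat_lit 212) (nat_lit 5) (nat_lit 218) (nat_lit 5) (nat_lit 219) (nat_lit 5) (nat_lit 465) (nat_lit 380) (nat_lit 295)) (XT.nd (nat_lit 78) (nat_lit 76) (nat_lit 0) (XT.lf (nat_lit 0) (nat_lit 748074386) (nat_lit 456) (nat_lit 9834609195) (nat_lit 532) (nat_lit 748074386) (nat_lit 206) (nat_lit 5) (nat_lit 212) (nat_lit 5) (nat_lit 213) (nat_lit 5) (nat_lit 466) (nat_lit 380) (nat_lit 294)) (XT.lf (nat_lit 0) (nat_lit 2719298099) (nat_lit 532) (nat_lit 2719298099) (nat_lit 76) (nat_lit 6014559973) (nat_lit 205) (nat_lit 5) (nat_lit 212) (nat_lit 5) (nat_lit 206) (nat_lit 5) (nat_lit 467) (nat_lit 380) (nat_lit 293))))) (XT.nd (nat_lit 156) (nat_lit 228) (nat_lit 0) (XT.nd (nat_lit 78) (nat_lit 228)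 (nat_lit 0) (XT.lf (nat_lit 0) (nat_lit 1589628230) (nat_lit 0) (nat_lit 1589628230) (nat_lit 76) (nat_lit 42808391) (nat_lit 808) (nat_lit 5) (nat_lit 808) (nat_lit 3) (nat_lit 809) (nat_lit 0) (nat_lit 381) (nat_lit 381) (nat_lit 378)) (XT.lf (nat_lit 0) (nat_lit 3010802519) (nat_lit 228) (nat_lit 42246951) (nat_lit 228) (nat_lit 3393609932) (nat_lit 805) (nat_lit 3) (nat_lit 808) (nat_lit 3) (nat_lit 808) (nat_lit 5) (nat_lit 382) (nat_lit 381) (nat_lit 377))) (XT.nd (nat_lit 78) (nat_lit 228) (nat_lit 0) (XT.lf (nat_lit 76) (nat_lit 3245410429) (nat_lit 0) (nat_lit 2862452895) (nat_lit 228) (nat_lit 342567861) (nat_lit 806) (nat_lit 5) (nat_lit 805) (nat_lit 3) (nat_lit 808) (nat_lit 5) (nat_lit 383) (nat_lit 381) (nat_lit 376)) (XT.nd (nat_lit 78) (nat_lit 0) (nat_lit 0) (XT.lf (nat_lit 76) (nat_lit 85767910) (nat_lit 0) (nat_lit 2610356990) (nat_lit 304) (nat_lit 3759379770) (nat_lit 803) (nat_lit 5) (nat_lit 802) (nat_lit 5) (nat_lit 806) (nat_lit 5) (nat_lit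 384) (nat_lit 381) (nat_lit 375)) (XT.lf (nat_lit 76) (nat_lit 3441581384) (nat_lit 0) (nat_lit 2291807706) (nat_lit 304) (nat_lit 728397556) (nat_lit 803) (nat_lit 5) (nat_lit 802) (nat_lit 5) (nat_lit 806) (nat_lit 5) (nat_lit 385) (nat_lit 381) (nat_lit 374)))))) (XT.nd (nat_lit 390) (nat_lit 1140) (nat_lit 0) (XT.nd (nat_lit 156) (nat_lit 760) (nat_lit 0) (XT.nd (nat_lit 78) (nat_lit 0) (nat_lit 0) (XT.lf (nat_lit 76) (nat_lit 343323797) (nat_lit 0) (nat_lit 1913041129) (nat_lit 380) (nat_lit 4213039376) (nat_lit 799) (nat_lit 5) (nat_lit 798) (nat_lit 5) (nat_lit 803) (nat_lit 5) (nat_lit 386) (nat_lit 381) (nat_lit 373)) (XT.lf (nat_lit 76) (nat_lit 3768300171) (nat_lit 0) (nat_lit 1466198175) (nat_lit 380) (nat_lit 1243711092) (nat_lit 799) (nat_lit 5) (nat_lit 798) (nat_lit 5) (nat_lit 803) (nat_lit 5) (nat_lit 387) (nat_lit 381) (nat_lit 372))) (XT.nd (nat_lit 78) (nat_lit 380) (nat_lit 0) (XT.lf (nat_lit 76) (nat_lit 730515423) (nat_lit 0) (nat_lit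 960012514) (nat_lit 456) (nat_lit 4797852256) (nat_lit 794) (nat_lit 5) (nat_lit 793) (nat_lit 5) (nat_lit 799) (nat_lit 5) (nat_lit 388) (nat_lit 381) (nat_lit 371)) (XT.nd (nat_lit 78) (nat_lit 380) (nat_lit 0) (XT.lf (nat_lit 76) (nat_lit 4226351519) (nat_lit 0) (nat_lit 384000207) (nat_lit 456) (nat_lit 1889367151) (nat_lit 794) (nat_lit 5) (nat_lit 793) (nat_lit 5) (nat_lit 799) (nat_lit 5) (nat_lit 389) (nat_lit 381) (nat_lit 370)) (XT.lf (nat_lit 0) (nat_lit 999275684) (nat_lit 456) (nat_lit 5265828806) (nat_lit 76) (nat_lit 247317620) (nat_lit 788) (nat_lit 5) (nat_lit 794) (nat_lit 5) (nat_lit 789) (nat_lit 5) (nat_lit 390) (nat_lit 381) (nat_lit 369))))) (XT.nd (nat_lit 156) (nat_lit 608) (nat_lit 0) (XT.nd (nat_lit 78) (nat_lit 532) (nat_lit 0) (XT.lf (nat_lit 0) (nat_lit 3866073942) (nat_lit 456) (nat_lit 1715777822) (nat_lit 76) (nat_lit 944364245) (nat_lit 788) (nat_lit 5) (nat_lit 794) (nat_lit 5) (nat_lit 789) (nat_lit 5) (nat_lit 391) (nat_lit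 381) (nat_lit 368)) (XT.lf (nat_lit 0) (nat_lit 187686512) (nat_lit 532) (nat_lit 4655129079) (nat_lit 76) (nat_lit 1698616903) (nat_lit 781) (nat_lit 5) (nat_lit 788) (nat_lit 5) (nat_lit 782) (nat_lit 5) (nat_lit 392) (nat_lit 381) (nat_lit 367))) (XT.nd (nat_lit 78) (nat_lit 608) (nat_lit 0) (XT.lf (nat_lit 0) (nat_lit 2998303328) (nat_lit 532) (nat_lit 1033852203) (nat_lit 76) (nat_lit 2525617088) (nat_lit 781) (nat_lit 5) (nat_lit 788) (nat_lit 5) (nat_lit 782) (nat_lit 5) (nat_lit 393) (nat_lit 381) (nat_lit 366)) (XT.nd (nat_lit 78) (nat_lit 76) (nat_lit 0) (XT.lf (nat_lit 0) (nat_lit 2652361723) (nat_lit 532) (nat_lit 3161195226) (nat_lit 608) (nat_lit 761914109) (nat_lit 774) (nat_lit 5) (nat_lit 781) (nat_lit 5) (nat_lit 782) (nat_lit 5) (nat_lit 394) (nat_lit 381) (nat_lit 365)) (XT.lf (nat_lit 0) (nat_lit 2002975586) (nat_lit 608) (nat_lit 223599083) (nat_lit 76) (nat_lit 4367900895) (nat_lit 773) (nat_lit 5) (nat_lit 781) (nat_lit 5) (nat_lit 774)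 (nat_lit 5) (nat_lit 395) (nat_lit 381) (nat_lit 364))))))))
noncomputable def xc56 : XT := (XT.nd (nat_lit 1482) (nat_lit 15200) (nat_lit 0) (XT.nd (nat_lit 702) (nat_lit 7828) (nat_lit 0) (XT.nd (nat_lit 312) (nat_lit 2888) (nat_lit 0) (XT.nd (nat_lit 156) (nat_lit 760) (nat_lit 0) (XT.nd (nat_lit 78) (nat_lit 760) (nat_lit 0) (XT.lf (nat_lit 0) (nat_lit 3549344613) (nat_lit 608) (nat_lit 1219838688) (nat_lit 684) (nat_lit 1845451690) (nat_lit 765) (nat_lit 5) (nat_lit 773) (nat_lit 5) (nat_lit 774) (nat_lit 5) (nat_lit 396) (nat_lit 381) (nat_lit 363)) (XT.lf (nat_lit 0) (nat_lit 726257042) (nat_lit 684) (nat_lit 156725925) (nat_lit 760) (nat_lit 5753290618) (nat_lit 755) (nat_lit 5) (nat_lit 764) (nat_lit 5) (nat_lit 765) (nat_lit 5) (nat_lit 397) (nat_lit 381) (nat_lit 362))) (XT.nd (nat_lit 78) (nat_lit 760) (nat_lit 0) (XT.lf (nat_lit 0) (nat_lit 3602970695) (nat_lit 760) (nat_lit 2084964271) (nat_lit 76) (nat_lit 970932116) (nat_lit 755) (nat_lit 5) (nat_lit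 765) (nat_lit 5) (nat_lit 756) (nat_lit 5) (nat_lit 398) (nat_lit 381) (nat_lit 361)) (XT.lf (nat_lit 0) (nat_lit 1796130968) (nat_lit 760) (nat_lit 4530145457) (nat_lit 836) (nat_lit 356657661) (nat_lit 745) (nat_lit 5) (nat_lit 755) (nat_lit 5) (nat_lit 756) (nat_lit 5) (nat_lit 399) (nat_lit 381) (nat_lit 360)))) (XT.nd (nat_lit 156) (nat_lit 1976) (nat_lit 0) (XT.nd (nat_lit 78) (nat_lit 836) (nat_lit 0) (XT.lf (nat_lit 0) (nat_lit 2315994436) (nat_lit 836) (nat_lit 983279213) (nat_lit 76) (nat_lit 3408880378) (nat_lit 744) (nat_lit 5) (nat_lit 755) (nat_lit 5) (nat_lit 745) (nat_lit 5) (nat_lit 400) (nat_lit 381) (nat_lit 359)) (XT.lf (nat_lit 0) (nat_lit 2992520039) (nat_lit 836) (nat_lit 2002253587) (nat_lit 912) (nat_lit 1739908597) (nat_lit 733) (nat_lit 5) (nat_lit 744) (nat_lit 5) (nat_lit 745) (nat_lit 5) (nat_lit 401) (nat_lit 381) (nat_lit 358))) (XT.nd (nat_lit 78) (nat_lit 988) (nat_lit 0) (XT.lf (nat_lit 0) (nat_lit 253349541) (nat_lit 912) (nat_lit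 646215209) (nat_lit 988) (nat_lit 5863114103) (nat_lit 720) (nat_lit 5) (nat_lit 732) (nat_lit 5) (nat_lit 733) (nat_lit 5) (nat_lit 402) (nat_lit 381) (nat_lit 357)) (XT.nd (nat_lit 78) (nat_lit 988) (nat_lit 0) (XT.lf (nat_lit 0) (nat_lit 3538206841) (nat_lit 988) (nat_lit 2471966043) (nat_lit 76) (nat_lit 781438983) (nat_lit 720) (nat_lit 5) (nat_lit 733) (nat_lit 5) (nat_lit 721) (nat_lit 5) (nat_lit 403) (nat_lit 381) (nat_lit 356)) (XT.lf (nat_lit 0) (nat_lit 1619718851) (nat_lit 988) (nat_lit 4565475218) (nat_lit 1064) (nat_lit 636818026) (nat_lit 707) (nat_lit 5) (nat_lit 720) (nat_lit 5) (nat_lit 721) (nat_lit 5) (nat_lit 404) (nat_lit 381) (nat_lit 355)))))) (XT.nd (nat_lit 390) (nat_lit 4256) (nat_lit 0) (XT.nd (nat_lit 156) (nat_lit 2432) (nat_lit 0) (XT.nd (nat_lit 78) (nat_lit 1064) (nat_lit 0) (XT.lf (nat_lit 0) (nat_lit 1963418850) (nat_lit 1064) (nat_lit 1083130561) (nat_lit 76) (nat_lit 3807047651) (nat_lit 706) (nat_lit 5) (nat_lit 720) (nat_lit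 5) (nat_lit 707) (nat_lit 5) (nat_lit 405) (nat_lit 381) (nat_lit 354)) (XT.lf (nat_lit 0) (nat_lit 3111988808) (nat_lit 1064) (nat_lit 1457780721) (nat_lit 1140) (nat_lit 2316707292) (nat_lit 692) (nat_lit 5) (nat_lit 706) (nat_lit 5) (nat_lit 707) (nat_lit 5) (nat_lit 406) (nat_lit 381) (nat_lit 353))) (XT.nd (nat_lit 78) (nat_lit 1216) (nat_lit 0) (XT.lf (nat_lit 0) (nat_lit 258528332) (nat_lit 1216) (nat_lit 6476011684) (nat_lit 76) (nat_lit 186347377) (nat_lit 676) (nat_lit 5) (nat_lit 692) (nat_lit 5) (nat_lit 677) (nat_lit 5) (nat_lit 407) (nat_lit 381) (nat_lit 352)) (XT.nd (nat_lit 78) (nat_lit 1216) (nat_lit 0) (XT.lf (nat_lit 0) (nat_lit 2833250249) (nat_lit 1216) (nat_lit 2225276168) (nat_lit 76) (nat_lit 1897573445) (nat_lit 676) (nat_lit 5) (nat_lit 692) (nat_lit 5) (nat_lit 677) (nat_lit 5) (nat_lit 408) (nat_lit 381) (nat_lit 351)) (XT.lf (nat_lit 0) (nat_lit 2094390303) (nat_lit 1216) (nat_lit 3323598566) (nat_lit 1292) (nat_lit 1574857267) (nat_lit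 660) (nat_lit 5) (nat_lit 676) (nat_lit 5) (nat_lit 677) (nat_lit 5) (nat_lit 409) (nat_lit 381) (nat_lit 350))))) (XT.nd (nat_lit 156) (nat_lit 2888) (nat_lit 0) (XT.nd (nat_lit 78) (nat_lit 1292) (nat_lit 0) (XT.lf (nat_lit 0) (nat_lit 971059058) (nat_lit 1292) (nat_lit 550153990) (nat_lit 76) (nat_lit 5509773397) (nat_lit 659) (nat_lit 5) (nat_lit 676) (nat_lit 5) (nat_lit 660) (nat_lit 5) (nat_lit 410) (nat_lit 381) (nat_lit 349)) (XT.lf (nat_lit 0) (nat_lit 3520832008) (nat_lit 1368) (nat_lit 3190136807) (nat_lit 76) (nat_lit 359232038) (nat_lit 642) (nat_lit 5) (nat_lit 660) (nat_lit 5) (nat_lit 643) (nat_lit 5) (nat_lit 411) (nat_lit 381) (nat_lit 348))) (XT.nd (nat_lit 78) (nat_lit 1520) (nat_lit 0) (XT.lf (nat_lit 0) (nat_lit 1258661332) (nat_lit 1368) (nat_lit 4832173337) (nat_lit 1444) (nat_lit 1019980194) (nat_lit 624) (nat_lit 5) (nat_lit 642) (nat_lit 5) (nat_lit 643) (nat_lit 5) (nat_lit 412) (nat_lit 381) (nat_lit 347)) (XT.nd (nat_lit 78) (nat_lit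 1444) (nat_lit 0) (XT.lf (nat_lit 0) (nat_lit 1508763610) (nat_lit 1444) (nat_lit 1366776558) (nat_lit 76) (nat_lit 4277113876) (nat_lit 623) (nat_lit 5) (nat_lit 642) (nat_lit 5) (nat_lit 624) (nat_lit 5) (nat_lit 413) (nat_lit 381) (nat_lit 346)) (XT.lf (nat_lit 0) (nat_lit 3200020164) (nat_lit 1444) (nat_lit 843897682) (nat_lit 1520) (nat_lit 3151887458) (nat_lit 604) (nat_lit 5) (nat_lit 623) (nat_lit 5) (nat_lit 624) (nat_lit 5) (nat_lit 414) (nat_lit 381) (nat_lit 345))))))) (XT.nd (nat_lit 702) (nat_lit 5472) (nat_lit 0) (XT.nd (nat_lit 312) (nat_lit 4864) (nat_lit 0) (XT.nd (nat_lit 156) (nat_lit 3268) (nat_lit 0) (XT.nd (nat_lit 78) (nat_lit 76) (nat_lit 0) (XT.lf (nat_lit 0) (nat_lit 592503513) (nat_lit 1520) (nat_lit 6007803207) (nat_lit 1596) (nat_lit 640102238) (nat_lit 584) (nat_lit 5) (nat_lit 604) (nat_lit 5) (nat_lit 605) (nat_lit 5) (nat_lit 415) (nat_lit 381) (nat_lit 344)) (XT.lf (nat_lit 0) (nat_lit 1879144313) (nat_lit 1596) (nat_lit 2021541162)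 (nat_lit 76) (nat_lit 3385321005) (nat_lit 583) (nat_lit 5) (nat_lit 604) (nat_lit 5) (nat_lit 584) (nat_lit 5) (nat_lit 416) (nat_lit 381) (nat_lit 343))) (XT.nd (nat_lit 78) (nat_lit 1672) (nat_lit 0) (XT.lf (nat_lit 0) (nat_lit 2684545162) (nat_lit 1596) (nat_lit 1723932638) (nat_lit 1672) (nat_lit 2924588072) (nat_lit 562) (nat_lit 5) (nat_lit 583) (nat_lit 5) (nat_lit 584) (nat_lit 5) (nat_lit 417) (nat_lit 381) (nat_lit 342)) (XT.lf (nat_lit 0) (nat_lit 84669986) (nat_lit 1672) (nat_lit 6872705044) (nat_lit 1748) (nat_lit 424311878) (nat_lit 540) (nat_lit 5) (nat_lit 562) (nat_lit 5) (nat_lit 563) (nat_lit 5) (nat_lit 418) (nat_lit 381) (nat_lit 341)))) (XT.nd (nat_lit 156) (nat_lit 3040) (nat_lit 0) (XT.nd (nat_lit 78) (nat_lit 1748) (nat_lit 0) (XT.lf (nat_lit 0) (nat_lit 2092800558) (nat_lit 1748) (nat_lit 2525381787) (nat_lit 76) (nat_lit 2812927693) (nat_lit 539) (nat_lit 5) (nat_lit 562) (nat_lit 5) (nat_lit 540) (nat_lit 5) (nat_lit 419) (nat_lit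 381) (nat_lit 340)) (XT.lf (nat_lit 0) (nat_lit 2325418279) (nat_lit 1748) (nat_lit 2297097937) (nat_lit 1824) (nat_lit 2859590470) (nat_lit 516) (nat_lit 5) (nat_lit 539) (nat_lit 5) (nat_lit 540) (nat_lit 5) (nat_lit 420) (nat_lit 381) (nat_lit 339))) (XT.nd (nat_lit 78) (nat_lit 3040) (nat_lit 0) (XT.lf (nat_lit 0) (nat_lit 7173840969) (nat_lit 1824) (nat_lit 271502909) (nat_lit 76) (nat_lit 89359095) (nat_lit 516) (nat_lit 5) (nat_lit 540) (nat_lit 5) (nat_lit 517) (nat_lit 5) (nat_lit 421) (nat_lit 381) (nat_lit 338)) (XT.nd (nat_lit 78) (nat_lit 1140) (nat_lit 0) (XT.lf (nat_lit 0) (nat_lit 2159379876) (nat_lit 1900) (nat_lit 2888291844) (nat_lit 76) (nat_lit 2540390710) (nat_lit 491) (nat_lit 5) (nat_lit 516) (nat_lit 5) (nat_lit 492) (nat_lit 5) (nat_lit 422) (nat_lit 381) (nat_lit 337)) (XT.lf (nat_lit 0) (nat_lit 2112952204) (nat_lit 1140) (nat_lit 2582524124) (nat_lit 1216) (nat_lit 2947559409) (nat_lit 476) (nat_lit 5) (nat_lit 491) (nat_lit 5) (nat_lit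 492) (nat_lit 5) (nat_lit 423) (nat_lit 381) (nat_lit 336)))))) (XT.nd (nat_lit 390) (nat_lit 2660) (nat_lit 0) (XT.nd (nat_lit 156) (nat_lit 1824) (nat_lit 0) (XT.nd (nat_lit 78) (nat_lit 988) (nat_lit 0) (XT.lf (nat_lit 0) (nat_lit 7209607655) (nat_lit 1140) (nat_lit 47397098) (nat_lit 1216) (nat_lit 442609557) (nat_lit 476) (nat_lit 5) (nat_lit 491) (nat_lit 5) (nat_lit 492) (nat_lit 5) (nat_lit 424) (nat_lit 381) (nat_lit 335)) (XT.lf (nat_lit 0) (nat_lit 2087645718) (nat_lit 988) (nat_lit 3119392453) (nat_lit 76) (nat_lit 2549953747) (nat_lit 463) (nat_lit 5) (nat_lit 476) (nat_lit 5) (nat_lit 464) (nat_lit 5) (nat_lit 425) (nat_lit 381) (nat_lit 334))) (XT.nd (nat_lit 78) (nat_lit 912) (nat_lit 0) (XT.lf (nat_lit 0) (nat_lit 2038336255) (nat_lit 912) (nat_lit 2597606728) (nat_lit 988) (nat_lit 3180048314) (nat_lit 451) (nat_lit 5) (nat_lit 463) (nat_lit 5) (nat_lit 464) (nat_lit 5) (nat_lit 426) (nat_lit 381) (nat_lit 333)) (XT.nd (nat_lit 78) (nat_lit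 912) (nat_lit 0) (XT.lf (nat_lit 0) (nat_lit 7213756069) (nat_lit 988) (nat_lit 579444207) (nat_lit 76) (nat_lit 83399389) (nat_lit 451) (nat_lit 5) (nat_lit 464) (nat_lit 5) (nat_lit 452) (nat_lit 5) (nat_lit 427) (nat_lit 381) (nat_lit 332)) (XT.lf (nat_lit 0) (nat_lit 1885539868) (nat_lit 912) (nat_lit 3226995371) (nat_lit 76) (nat_lit 2825521326) (nat_lit 439) (nat_lit 5) (nat_lit 451) (nat_lit 5) (nat_lit 440) (nat_lit 5) (nat_lit 428) (nat_lit 381) (nat_lit 331))))) (XT.nd (nat_lit 156) (nat_lit 1748) (nat_lit 0) (XT.nd (nat_lit 78) (nat_lit 0) (nat_lit 0) (XT.lf (nat_lit 0) (nat_lit 2093574270) (nat_lit 912) (nat_lit 2358129249) (nat_lit 988) (nat_lit 3549437696) (nat_lit 427) (nat_lit 5) (nat_lit 439) (nat_lit 5) (nat_lit 440) (nat_lit 5) (nat_lit 429) (nat_lit 381) (nat_lit 330)) (XT.lf (nat_lit 0) (nat_lit 7052612142) (nat_lit 988) (nat_lit 548384827) (nat_lit 76) (nat_lit 464822155) (nat_lit 427) (nat_lit 5) (nat_lit 440) (nat_lit 5) (nat_lit 428)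 (nat_lit 5) (nat_lit 430) (nat_lit 381) (nat_lit 329))) (XT.nd (nat_lit 78) (nat_lit 836) (nat_lit 0) (XT.lf (nat_lit 0) (nat_lit 1560239876) (nat_lit 912) (nat_lit 3218660965) (nat_lit 76) (nat_lit 3352542763) (nat_lit 415) (nat_lit 5) (nat_lit 427) (nat_lit 5) (nat_lit 416) (nat_lit 5) (nat_lit 431) (nat_lit 381) (nat_lit 328)) (XT.nd (nat_lit 78) (nat_lit 0) (nat_lit 0) (XT.lf (nat_lit 0) (nat_lit 2271427432) (nat_lit 836) (nat_lit 1878376372) (nat_lit 912) (nat_lit 4048878524) (nat_lit 404) (nat_lit 5) (nat_lit 415) (nat_lit 5) (nat_lit 416) (nat_lit 5) (nat_lit 432) (nat_lit 381) (nat_lit 327)) (XT.lf (nat_lit 0) (nat_lit 6780145004) (nat_lit 912) (nat_lit 403451558) (nat_lit 76) (nat_lit 1083889545) (nat_lit 404) (nat_lit 5) (nat_lit 416) (nat_lit 5) (nat_lit 405) (nat_lit 5) (nat_lit 433) (nat_lit 381) (nat_lit 326))))))))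
noncomputable def xc57 : XT := (XT.nd (nat_lit 1482) (nat_lit 5928) (nat_lit 0) (XT.nd (nat_lit 702) (nat_lit 3876) (nat_lit 0) (XT.nd (nat_lit 312) (nat_lit 2888) (nat_lit 0) (XT.nd (nat_lit 156) (nat_lit 836) (nat_lit 0) (XT.nd (nat_lit 78) (nat_lit 760) (nat_lit 0) (XT.lf (nat_lit 0) (nat_lit 1118211891) (nat_lit 836) (nat_lit 3101251606) (nat_lit 76) (nat_lit 4117905426) (nat_lit 393) (nat_lit 5) (nat_lit 404) (nat_lit 5) (nat_lit 394) (nat_lit 5) (nat_lit 434) (nat_lit 381) (nat_lit 325)) (XT.lf (nat_lit 0) (nat_lit 2565361658) (nat_lit 760) (nat_lit 1171238134) (nat_lit 836) (nat_lit 4672240188) (nat_lit 383) (nat_lit 5) (nat_lit 393) (nat_lit 5) (nat_lit 394) (nat_lit 5) (nat_lit 435) (nat_lit 381) (nat_lit 324))) (XT.nd (nat_lit 78) (nat_lit 836) (nat_lit 0) (XT.lf (nat_lit 0) (nat_lit 6402570148) (nat_lit 836) (nat_lit 150909906) (nat_lit 76) (nat_lit 1928356110) (nat_lit 383) (nat_lit 5) (nat_lit 394) (nat_lit 5) (nat_lit 384) (nat_lit 5) (nat_lit 436)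 (nat_lit 381) (nat_lit 323)) (XT.lf (nat_lit 0) (nat_lit 565259228) (nat_lit 836) (nat_lit 2880980822) (nat_lit 76) (nat_lit 5109836599) (nat_lit 372) (nat_lit 5) (nat_lit 383) (nat_lit 5) (nat_lit 373) (nat_lit 5) (nat_lit 437) (nat_lit 381) (nat_lit 322)))) (XT.nd (nat_lit 156) (nat_lit 1444) (nat_lit 0) (XT.nd (nat_lit 78) (nat_lit 684) (nat_lit 0) (XT.lf (nat_lit 0) (nat_lit 2969499219) (nat_lit 760) (nat_lit 248305704) (nat_lit 836) (nat_lit 5414062716) (nat_lit 362) (nat_lit 5) (nat_lit 372) (nat_lit 5) (nat_lit 373) (nat_lit 5) (nat_lit 438) (nat_lit 381) (nat_lit 321)) (XT.lf (nat_lit 0) (nat_lit 206299541) (nat_lit 684) (nat_lit 5720524674) (nat_lit 760) (nat_lit 2782281779) (nat_lit 353) (nat_lit 5) (nat_lit 362) (nat_lit 5) (nat_lit 363) (nat_lit 5) (nat_lit 439) (nat_lit 381) (nat_lit 320))) (XT.nd (nat_lit 78) (nat_lit 1444) (nat_lit 0) (XT.lf (nat_lit 0) (nat_lit 6223753343) (nat_lit 684) (nat_lit 2469398540) (nat_lit 760) (nat_lit 94674675) (nat_lit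 353) (nat_lit 5) (nat_lit 362) (nat_lit 5) (nat_lit 363) (nat_lit 5) (nat_lit 440) (nat_lit 381) (nat_lit 319)) (XT.nd (nat_lit 78) (nat_lit 684) (nat_lit 0) (XT.lf (nat_lit 0) (nat_lit 2604247517) (nat_lit 760) (nat_lit 5395186158) (nat_lit 76) (nat_lit 868498682) (nat_lit 343) (nat_lit 5) (nat_lit 353) (nat_lit 5) (nat_lit 344) (nat_lit 5) (nat_lit 441) (nat_lit 381) (nat_lit 318)) (XT.lf (nat_lit 0) (nat_lit 663695020) (nat_lit 684) (nat_lit 4694524240) (nat_lit 760) (nat_lit 3591361720) (nat_lit 334) (nat_lit 5) (nat_lit 343) (nat_lit 5) (nat_lit 344) (nat_lit 5) (nat_lit 442) (nat_lit 381) (nat_lit 317)))))) (XT.nd (nat_lit 390) (nat_lit 1824) (nat_lit 0) (XT.nd (nat_lit 156) (nat_lit 1292) (nat_lit 0) (XT.nd (nat_lit 78) (nat_lit 760) (nat_lit 0) (XT.lf (nat_lit 0) (nat_lit 6873496908) (nat_lit 684) (nat_lit 1294749888) (nat_lit 760) (nat_lit 864596253) (nat_lit 334) (nat_lit 5) (nat_lit 343) (nat_lit 5) (nat_lit 344) (nat_lit 5) (nat_lit 443) (nat_lit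 381) (nat_lit 316)) (XT.lf (nat_lit 0) (nat_lit 1897655149) (nat_lit 760) (nat_lit 5044107297) (nat_lit 76) (nat_lit 2175637253) (nat_lit 324) (nat_lit 5) (nat_lit 334) (nat_lit 5) (nat_lit 325) (nat_lit 5) (nat_lit 444) (nat_lit 381) (nat_lit 315))) (XT.nd (nat_lit 78) (nat_lit 684) (nat_lit 0) (XT.lf (nat_lit 0) (nat_lit 1214679624) (nat_lit 608) (nat_lit 3485537071) (nat_lit 684) (nat_lit 4503383645) (nat_lit 316) (nat_lit 5) (nat_lit 324) (nat_lit 5) (nat_lit 325) (nat_lit 5) (nat_lit 445) (nat_lit 381) (nat_lit 314)) (XT.nd (nat_lit 78) (nat_lit 684) (nat_lit 0) (XT.lf (nat_lit 0) (nat_lit 7559081143) (nat_lit 684) (nat_lit 1668002070) (nat_lit 76) (nat_lit 64436747) (nat_lit 316) (nat_lit 5) (nat_lit 325) (nat_lit 5) (nat_lit 317) (nat_lit 5) (nat_lit 446) (nat_lit 381) (nat_lit 313)) (XT.lf (nat_lit 0) (nat_lit 1100395845) (nat_lit 684) (nat_lit 4611964255) (nat_lit 76) (nat_lit 3668279465) (nat_lit 307) (nat_lit 5) (nat_lit 316) (nat_lit 5) (nat_lit 308)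 (nat_lit 5) (nat_lit 447) (nat_lit 381) (nat_lit 312))))) (XT.nd (nat_lit 156) (nat_lit 1216) (nat_lit 0) (XT.nd (nat_lit 78) (nat_lit 0) (nat_lit 0) (XT.lf (nat_lit 0) (nat_lit 1855171055) (nat_lit 608) (nat_lit 2101601510) (nat_lit 684) (nat_lit 5514738312) (nat_lit 299) (nat_lit 5) (nat_lit 307) (nat_lit 5) (nat_lit 308) (nat_lit 5) (nat_lit 448) (nat_lit 381) (nat_lit 311)) (XT.lf (nat_lit 0) (nat_lit 6878757398) (nat_lit 684) (nat_lit 1103189679) (nat_lit 76) (nat_lit 1582082929) (nat_lit 299) (nat_lit 5) (nat_lit 308) (nat_lit 5) (nat_lit 300) (nat_lit 5) (nat_lit 449) (nat_lit 381) (nat_lit 310))) (XT.nd (nat_lit 78) (nat_lit 532) (nat_lit 0) (XT.lf (nat_lit 0) (nat_lit 215967690) (nat_lit 684) (nat_lit 4102736399) (nat_lit 76) (nat_lit 5339312984) (nat_lit 290) (nat_lit 5) (nat_lit 299) (nat_lit 5) (nat_lit 291) (nat_lit 5) (nat_lit 450) (nat_lit 381) (nat_lit 309)) (XT.nd (nat_lit 78) (nat_lit 0) (nat_lit 0) (XT.lf (nat_lit 0) (nat_lit 2581562942) (nat_lit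 532) (nat_lit 549814289) (nat_lit 608) (nat_lit 6622309652) (nat_lit 283) (nat_lit 5) (nat_lit 290) (nat_lit 5) (nat_lit 291) (nat_lit 5) (nat_lit 451) (nat_lit 381) (nat_lit 308)) (XT.lf (nat_lit 0) (nat_lit 6122339172) (nat_lit 608) (nat_lit 460017879) (nat_lit 76) (nat_lit 3268568155) (nat_lit 283) (nat_lit 5) (nat_lit 291) (nat_lit 5) (nat_lit 284) (nat_lit 5) (nat_lit 452) (nat_lit 381) (nat_lit 307))))))) (XT.nd (nat_lit 702) (nat_lit 1976) (nat_lit 0) (XT.nd (nat_lit 312) (nat_lit 2204) (nat_lit 0) (XT.nd (nat_lit 156) (nat_lit 532) (nat_lit 0) (XT.nd (nat_lit 78) (nat_lit 608) (nat_lit 0) (XT.lf (nat_lit 0) (nat_lit 6424905633) (nat_lit 608) (nat_lit 2762335898) (nat_lit 684) (nat_lit 762584340) (nat_lit 275) (nat_lit 5) (nat_lit 283) (nat_lit 5) (nat_lit 284) (nat_lit 5) (nat_lit 453) (nat_lit 381) (nat_lit 306)) (XT.lf (nat_lit 0) (nat_lit 2234640073) (nat_lit 608) (nat_lit 6667390730) (nat_lit 76) (nat_lit 1148348345) (nat_lit 267) (nat_lit 5) (nat_lit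 275) (nat_lit 5) (nat_lit 268) (nat_lit 5) (nat_lit 454) (nat_lit 381) (nat_lit 305))) (XT.nd (nat_lit 78) (nat_lit 0) (nat_lit 0) (XT.lf (nat_lit 0) (nat_lit 261850509) (nat_lit 532) (nat_lit 5032728689) (nat_lit 608) (nat_lit 4858003854) (nat_lit 260) (nat_lit 5) (nat_lit 267) (nat_lit 5) (nat_lit 268) (nat_lit 5) (nat_lit 455) (nat_lit 381) (nat_lit 304)) (XT.lf (nat_lit 0) (nat_lit 7377884808) (nat_lit 532) (nat_lit 1052072010) (nat_lit 608) (nat_lit 1826589422) (nat_lit 260) (nat_lit 5) (nat_lit 267) (nat_lit 5) (nat_lit 268) (nat_lit 5) (nat_lit 456) (nat_lit 381) (nat_lit 303)))) (XT.nd (nat_lit 156) (nat_lit 1064) (nat_lit 0) (XT.nd (nat_lit 78) (nat_lit 532) (nat_lit 0) (XT.lf (nat_lit 0) (nat_lit 1266236211) (nat_lit 608) (nat_lit 6102342328) (nat_lit 76) (nat_lit 2993498238) (nat_lit 252) (nat_lit 5) (nat_lit 260) (nat_lit 5) (nat_lit 253) (nat_lit 5) (nat_lit 457) (nat_lit 381) (nat_lit 302)) (XT.lf (nat_lit 0) (nat_lit 1063353555) (nat_lit 532) (nat_lit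 3336589414) (nat_lit 608) (nat_lit 6069463828) (nat_lit 245) (nat_lit 5) (nat_lit 252) (nat_lit 5) (nat_lit 253) (nat_lit 5) (nat_lit 458) (nat_lit 381) (nat_lit 301))) (XT.nd (nat_lit 78) (nat_lit 1064) (nat_lit 0) (XT.lf (nat_lit 0) (nat_lit 7612962297) (nat_lit 608) (nat_lit 2170515841) (nat_lit 76) (nat_lit 795072512) (nat_lit 245) (nat_lit 5) (nat_lit 253) (nat_lit 5) (nat_lit 246) (nat_lit 5) (nat_lit 459) (nat_lit 381) (nat_lit 300)) (XT.nd (nat_lit 78) (nat_lit 532) (nat_lit 0) (XT.lf (nat_lit 0) (nat_lit 224828062) (nat_lit 532) (nat_lit 5476187704) (nat_lit 76) (nat_lit 4988293769) (nat_lit 238) (nat_lit 5) (nat_lit 245) (nat_lit 5) (nat_lit 239) (nat_lit 5) (nat_lit 460) (nat_lit 381) (nat_lit 299)) (XT.lf (nat_lit 0) (nat_lit 1936008803) (nat_lit 532) (nat_lit 1501675169) (nat_lit 608) (nat_lit 7364240768) (nat_lit 231) (nat_lit 5) (nat_lit 238) (nat_lit 5) (nat_lit 239) (nat_lit 5) (nat_lit 461) (nat_lit 381) (nat_lit 298)))))) (XT.nd (nat_lit 390)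 (nat_lit 532) (nat_lit 0) (XT.nd (nat_lit 156) (nat_lit 988) (nat_lit 0) (XT.nd (nat_lit 78) (nat_lit 456) (nat_lit 0) (XT.lf (nat_lit 0) (nat_lit 6741138108) (nat_lit 608) (nat_lit 1405406289) (nat_lit 76) (nat_lit 2769721030) (nat_lit 231) (nat_lit 5) (nat_lit 239) (nat_lit 5) (nat_lit 232) (nat_lit 5) (nat_lit 462) (nat_lit 381) (nat_lit 297)) (XT.lf (nat_lit 0) (nat_lit 6235237383) (nat_lit 456) (nat_lit 3897704373) (nat_lit 532) (nat_lit 899505563) (nat_lit 225) (nat_lit 5) (nat_lit 231) (nat_lit 5) (nat_lit 232) (nat_lit 5) (nat_lit 463) (nat_lit 381) (nat_lit 296))) (XT.nd (nat_lit 78) (nat_lit 456) (nat_lit 0) (XT.lf (nat_lit 0) (nat_lit 2412779031) (nat_lit 532) (nat_lit 8275875132) (nat_lit 76) (nat_lit 461918176) (nat_lit 218) (nat_lit 5) (nat_lit 225) (nat_lit 5) (nat_lit 219) (nat_lit 5) (nat_lit 464) (nat_lit 381) (nat_lit 295)) (XT.nd (nat_lit 78) (nat_lit 456) (nat_lit 0) (XT.lf (nat_lit 0) (nat_lit 5809650705) (nat_lit 532) (nat_lit 578541078)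 (nat_lit 76) (nat_lit 4882141447) (nat_lit 218) (nat_lit 5) (nat_lit 225) (nat_lit 5) (nat_lit 219) (nat_lit 5) (nat_lit 465) (nat_lit 381) (nat_lit 294)) (XT.lf (nat_lit 0) (nat_lit 7328449473) (nat_lit 456) (nat_lit 1966294340) (nat_lit 532) (nat_lit 2097339846) (nat_lit 212) (nat_lit 5) (nat_lit 218) (nat_lit 5) (nat_lit 219) (nat_lit 5) (nat_lit 466) (nat_lit 381) (nat_lit 293))))) (XT.nd (nat_lit 52806) (nat_lit 0) (nat_lit 45068) (XT.nd (nat_lit 52728) (nat_lit 0) (nat_lit 45600) (XT.lf (nat_lit 0) (nat_lit 1334408928) (nat_lit 532) (nat_lit 7645710941) (nat_lit 76) (nat_lit 2535603591) (nat_lit 205) (nat_lit 5) (nat_lit 212) (nat_lit 5) (nat_lit 206) (nat_lit 5) (nat_lit 467) (nat_lit 381) (nat_lit 292)) (XT.lf (nat_lit 0) (nat_lit 3032947267) (nat_lit 228) (nat_lit 96021884) (nat_lit 228) (nat_lit 96021884) (nat_lit 805) (nat_lit 3) (nat_lit 808) (nat_lit 3) (nat_lit 808) (nat_lit 5) (nat_lit 382) (nat_lit 382) (nat_lit 376))) (XT.nd (nat_lit 78) (nat_lit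 304) (nat_lit 0) (XT.lf (nat_lit 0) (nat_lit 2632867542) (nat_lit 228) (nat_lit 3398632489) (nat_lit 304) (nat_lit 422718070) (nat_lit 802) (nat_lit 5) (nat_lit 805) (nat_lit 3) (nat_lit 806) (nat_lit 5) (nat_lit 383) (nat_lit 382) (nat_lit 375)) (XT.nd (nat_lit 78) (nat_lit 304) (nat_lit 0) (XT.lf (nat_lit 0) (nat_lit 5627480949) (nat_lit 228) (nat_lit 131681497) (nat_lit 304) (nat_lit 700876387) (nat_lit 802) (nat_lit 5) (nat_lit 805) (nat_lit 3) (nat_lit 806) (nat_lit 5) (nat_lit 384) (nat_lit 382) (nat_lit 374)) (XT.lf (nat_lit 0) (nat_lit 2130068738) (nat_lit 304) (nat_lit 3279091519) (nat_lit 380) (nat_lit 1057665535) (nat_lit 798) (nat_lit 5) (nat_lit 802) (nat_lit 5) (nat_lit 803) (nat_lit 5) (nat_lit 385) (nat_lit 382) (nat_lit 373))))))))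
noncomputable def xc58 : XT := (XT.nd (nat_lit 1482) (nat_lit 17480) (nat_lit 0) (XT.nd (nat_lit 702) (nat_lit 5092) (nat_lit 0) (XT.nd (nat_lit 312) (nat_lit 1064) (nat_lit 0) (XT.nd (nat_lit 156) (nat_lit 456) (nat_lit 0) (XT.nd (nat_lit 78) (nat_lit 380) (nat_lit 0) (XT.lf (nat_lit 76) (nat_lit 55474784) (nat_lit 0) (nat_lit 5010041526) (nat_lit 380) (nat_lit 1409627791) (nat_lit 799) (nat_lit 5) (nat_lit 798) (nat_lit 5) (nat_lit 803) (nat_lit 5) (nat_lit 386) (nat_lit 382) (nat_lit 372)) (XT.lf (nat_lit 0) (nat_lit 1501715945) (nat_lit 380) (nat_lit 3034447157) (nat_lit 456) (nat_lit 1948334179) (nat_lit 793) (nat_lit 5) (nat_lit 798) (nat_lit 5) (nat_lit 799) (nat_lit 5) (nat_lit 387) (nat_lit 382) (nat_lit 371))) (XT.nd (nat_lit 78) (nat_lit 456) (nat_lit 0) (XT.lf (nat_lit 76) (nat_lit 372796807) (nat_lit 0) (nat_lit 4007731189) (nat_lit 456) (nat_lit 2114760849) (nat_lit 794) (nat_lit 5) (nat_lit 793) (nat_lit 5) (nat_lit 799) (nat_lit 5) (nat_lit 388)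 (nat_lit 382) (nat_lit 370)) (XT.lf (nat_lit 0) (nat_lit 746871486) (nat_lit 456) (nat_lit 2663912200) (nat_lit 532) (nat_lit 3096469636) (nat_lit 787) (nat_lit 5) (nat_lit 793) (nat_lit 5) (nat_lit 794) (nat_lit 5) (nat_lit 389) (nat_lit 382) (nat_lit 369)))) (XT.nd (nat_lit 156) (nat_lit 1064) (nat_lit 0) (XT.nd (nat_lit 78) (nat_lit 0) (nat_lit 0) (XT.lf (nat_lit 76) (nat_lit 819460331) (nat_lit 0) (nat_lit 2751135139) (nat_lit 532) (nat_lit 2949918532) (nat_lit 788) (nat_lit 5) (nat_lit 787) (nat_lit 5) (nat_lit 794) (nat_lit 5) (nat_lit 390) (nat_lit 382) (nat_lit 368)) (XT.lf (nat_lit 76) (nat_lit 4367759645) (nat_lit 0) (nat_lit 2029889139) (nat_lit 532) (nat_lit 137454017) (nat_lit 788) (nat_lit 5) (nat_lit 787) (nat_lit 5) (nat_lit 794) (nat_lit 5) (nat_lit 391) (nat_lit 382) (nat_lit 367))) (XT.nd (nat_lit 78) (nat_lit 532) (nat_lit 0) (XT.lf (nat_lit 76) (nat_lit 1396644498) (nat_lit 0) (nat_lit 1237772322) (nat_lit 608) (nat_lit 3916432331) (nat_lit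 781) (nat_lit 5) (nat_lit 780) (nat_lit 5) (nat_lit 788) (nat_lit 5) (nat_lit 392) (nat_lit 382) (nat_lit 366)) (XT.nd (nat_lit 78) (nat_lit 532) (nat_lit 0) (XT.lf (nat_lit 76) (nat_lit 5019656873) (nat_lit 0) (nat_lit 385787478) (nat_lit 608) (nat_lit 1162536711) (nat_lit 781) (nat_lit 5) (nat_lit 780) (nat_lit 5) (nat_lit 788) (nat_lit 5) (nat_lit 393) (nat_lit 382) (nat_lit 365)) (XT.lf (nat_lit 0) (nat_lit 1573916180) (nat_lit 608) (nat_lit 4484021797) (nat_lit 76) (nat_lit 528322385) (nat_lit 773) (nat_lit 5) (nat_lit 781) (nat_lit 5) (nat_lit 774) (nat_lit 5) (nat_lit 394) (nat_lit 382) (nat_lit 364)))))) (XT.nd (nat_lit 390) (nat_lit 2888) (nat_lit 0) (XT.nd (nat_lit 156) (nat_lit 1520) (nat_lit 0) (XT.nd (nat_lit 78) (nat_lit 684) (nat_lit 0) (XT.lf (nat_lit 0) (nat_lit 4295728096) (nat_lit 608) (nat_lit 810280805) (nat_lit 76) (nat_lit 1499818733) (nat_lit 773) (nat_lit 5) (nat_lit 781) (nat_lit 5) (nat_lit 774) (nat_lit 5) (nat_lit 395) (nat_lit 382)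 (nat_lit 363)) (XT.lf (nat_lit 0) (nat_lit 393559478) (nat_lit 684) (nat_lit 3695124098) (nat_lit 76) (nat_lit 2537980310) (nat_lit 764) (nat_lit 5) (nat_lit 773) (nat_lit 5) (nat_lit 765) (nat_lit 5) (nat_lit 396) (nat_lit 382) (nat_lit 362))) (XT.nd (nat_lit 78) (nat_lit 836) (nat_lit 0) (XT.lf (nat_lit 0) (nat_lit 54929856) (nat_lit 684) (nat_lit 3006358605) (nat_lit 760) (nat_lit 3587504427) (nat_lit 755) (nat_lit 5) (nat_lit 764) (nat_lit 5) (nat_lit 765) (nat_lit 5) (nat_lit 397) (nat_lit 382) (nat_lit 361)) (XT.nd (nat_lit 78) (nat_lit 836) (nat_lit 0) (XT.lf (nat_lit 0) (nat_lit 3888520329) (nat_lit 684) (nat_lit 1854721311) (nat_lit 760) (nat_lit 928905436) (nat_lit 755) (nat_lit 5) (nat_lit 764) (nat_lit 5) (nat_lit 765) (nat_lit 5) (nat_lit 398) (nat_lit 382) (nat_lit 360)) (XT.lf (nat_lit 0) (nat_lit 1063611585) (nat_lit 760) (nat_lit 639688815) (nat_lit 836) (nat_lit 4993560088) (nat_lit 744) (nat_lit 5) (nat_lit 754) (nat_lit 5) (nat_lit 755) (nat_lit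 5) (nat_lit 399) (nat_lit 382) (nat_lit 359))))) (XT.nd (nat_lit 156) (nat_lit 1976) (nat_lit 0) (XT.nd (nat_lit 78) (nat_lit 912) (nat_lit 0) (XT.lf (nat_lit 0) (nat_lit 4336436342) (nat_lit 836) (nat_lit 1749016381) (nat_lit 76) (nat_lit 637278164) (nat_lit 744) (nat_lit 5) (nat_lit 755) (nat_lit 5) (nat_lit 745) (nat_lit 5) (nat_lit 400) (nat_lit 382) (nat_lit 358)) (XT.lf (nat_lit 0) (nat_lit 226977289) (nat_lit 912) (nat_lit 4555840881) (nat_lit 76) (nat_lit 1967116199) (nat_lit 732) (nat_lit 5) (nat_lit 744) (nat_lit 5) (nat_lit 733) (nat_lit 5) (nat_lit 401) (nat_lit 382) (nat_lit 357))) (XT.nd (nat_lit 78) (nat_lit 1976) (nat_lit 0) (XT.lf (nat_lit 0) (nat_lit 2812162995) (nat_lit 912) (nat_lit 595923292) (nat_lit 76) (nat_lit 3370248148) (nat_lit 732) (nat_lit 5) (nat_lit 744) (nat_lit 5) (nat_lit 733) (nat_lit 5) (nat_lit 402) (nat_lit 382) (nat_lit 356)) (XT.nd (nat_lit 78) (nat_lit 1064) (nat_lit 0) (XT.lf (nat_lit 0) (nat_lit 3446860570) (nat_lit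 912) (nat_lit 1965508896) (nat_lit 988) (nat_lit 1395666695) (nat_lit 720) (nat_lit 5) (nat_lit 732) (nat_lit 5) (nat_lit 733) (nat_lit 5) (nat_lit 403) (nat_lit 382) (nat_lit 355)) (XT.lf (nat_lit 0) (nat_lit 699468427) (nat_lit 988) (nat_lit 460706771) (nat_lit 1064) (nat_lit 5678997302) (nat_lit 706) (nat_lit 5) (nat_lit 719) (nat_lit 5) (nat_lit 720) (nat_lit 5) (nat_lit 404) (nat_lit 382) (nat_lit 354))))))) (XT.nd (nat_lit 702) (nat_lit 11172) (nat_lit 0) (XT.nd (nat_lit 312) (nat_lit 4028) (nat_lit 0) (XT.nd (nat_lit 156) (nat_lit 1216) (nat_lit 0) (XT.nd (nat_lit 78) (nat_lit 1064) (nat_lit 0) (XT.lf (nat_lit 0) (nat_lit 3720565409) (nat_lit 1064) (nat_lit 2042983594) (nat_lit 76) (nat_lit 1107755665) (nat_lit 706) (nat_lit 5) (nat_lit 720) (nat_lit 5) (nat_lit 707) (nat_lit 5) (nat_lit 405) (nat_lit 382) (nat_lit 353)) (XT.lf (nat_lit 0) (nat_lit 2118221184) (nat_lit 1064) (nat_lit 4174298128) (nat_lit 1140) (nat_lit 612353049) (nat_lit 692) (nat_lit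 5) (nat_lit 706) (nat_lit 5) (nat_lit 707) (nat_lit 5) (nat_lit 406) (nat_lit 382) (nat_lit 352))) (XT.nd (nat_lit 78) (nat_lit 1140) (nat_lit 0) (XT.lf (nat_lit 0) (nat_lit 1908693492) (nat_lit 1140) (nat_lit 604065862) (nat_lit 76) (nat_lit 4426938987) (nat_lit 691) (nat_lit 5) (nat_lit 706) (nat_lit 5) (nat_lit 692) (nat_lit 5) (nat_lit 407) (nat_lit 382) (nat_lit 351)) (XT.lf (nat_lit 0) (nat_lit 3664364454) (nat_lit 1140) (nat_lit 776512351) (nat_lit 1216) (nat_lit 2534884778) (nat_lit 676) (nat_lit 5) (nat_lit 691) (nat_lit 5) (nat_lit 692) (nat_lit 5) (nat_lit 408) (nat_lit 382) (nat_lit 350)))) (XT.nd (nat_lit 156) (nat_lit 2736) (nat_lit 0) (XT.nd (nat_lit 78) (nat_lit 76) (nat_lit 0) (XT.lf (nat_lit 0) (nat_lit 977525418) (nat_lit 1216) (nat_lit 6009066259) (nat_lit 1292) (nat_lit 26696654) (nat_lit 660) (nat_lit 5) (nat_lit 676) (nat_lit 5) (nat_lit 677) (nat_lit 5) (nat_lit 409) (nat_lit 382) (nat_lit 349)) (XT.lf (nat_lit 0) (nat_lit 2472397917)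 (nat_lit 1292) (nat_lit 1718863767) (nat_lit 76) (nat_lit 2860496270) (nat_lit 659) (nat_lit 5) (nat_lit 676) (nat_lit 5) (nat_lit 660) (nat_lit 5) (nat_lit 410) (nat_lit 382) (nat_lit 348))) (XT.nd (nat_lit 78) (nat_lit 1444) (nat_lit 0) (XT.lf (nat_lit 0) (nat_lit 2677022825) (nat_lit 1292) (nat_lit 2308960680) (nat_lit 1368) (nat_lit 2105712604) (nat_lit 642) (nat_lit 5) (nat_lit 659) (nat_lit 5) (nat_lit 660) (nat_lit 5) (nat_lit 411) (nat_lit 382) (nat_lit 347)) (XT.nd (nat_lit 78) (nat_lit 0) (nat_lit 0) (XT.lf (nat_lit 0) (nat_lit 6525992) (nat_lit 1368) (nat_lit 364960104) (nat_lit 1444) (nat_lit 6761701675) (nat_lit 623) (nat_lit 5) (nat_lit 641) (nat_lit 5) (nat_lit 642) (nat_lit 5) (nat_lit 412) (nat_lit 382) (nat_lit 346)) (XT.lf (nat_lit 0) (nat_lit 2859088893) (nat_lit 1444) (nat_lit 2667073173) (nat_lit 76) (nat_lit 1649287714) (nat_lit 623) (nat_lit 5) (nat_lit 642) (nat_lit 5) (nat_lit 624) (nat_lit 5) (nat_lit 413) (nat_lit 382) (nat_lit 345))))))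 (XT.nd (nat_lit 390) (nat_lit 6460) (nat_lit 0) (XT.nd (nat_lit 156) (nat_lit 3192) (nat_lit 0) (XT.nd (nat_lit 78) (nat_lit 76) (nat_lit 0) (XT.lf (nat_lit 0) (nat_lit 1861049431) (nat_lit 1444) (nat_lit 3499603915) (nat_lit 1520) (nat_lit 1858619489) (nat_lit 604) (nat_lit 5) (nat_lit 623) (nat_lit 5) (nat_lit 624) (nat_lit 5) (nat_lit 414) (nat_lit 382) (nat_lit 344)) (XT.lf (nat_lit 0) (nat_lit 607882607) (nat_lit 1520) (nat_lit 795086088) (nat_lit 76) (nat_lit 5861557314) (nat_lit 603) (nat_lit 5) (nat_lit 623) (nat_lit 5) (nat_lit 604) (nat_lit 5) (nat_lit 415) (nat_lit 382) (nat_lit 343))) (XT.nd (nat_lit 78) (nat_lit 1672) (nat_lit 0) (XT.lf (nat_lit 0) (nat_lit 3080020576) (nat_lit 1596) (nat_lit 3460601549) (nat_lit 76) (nat_lit 770192556) (nat_lit 583) (nat_lit 5) (nat_lit 604) (nat_lit 5) (nat_lit 584) (nat_lit 5) (nat_lit 416) (nat_lit 382) (nat_lit 342)) (XT.nd (nat_lit 78) (nat_lit 76) (nat_lit 0) (XT.lf (nat_lit 0) (nat_lit 1204832469) (nat_lit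 1596) (nat_lit 4371052501) (nat_lit 1672) (nat_lit 1782658485) (nat_lit 562) (nat_lit 5) (nat_lit 583) (nat_lit 5) (nat_lit 584) (nat_lit 5) (nat_lit 417) (nat_lit 382) (nat_lit 341)) (XT.lf (nat_lit 0) (nat_lit 680598743) (nat_lit 1672) (nat_lit 1444339879) (nat_lit 76) (nat_lit 5282684830) (nat_lit 561) (nat_lit 5) (nat_lit 583) (nat_lit 5) (nat_lit 562) (nat_lit 5) (nat_lit 418) (nat_lit 382) (nat_lit 340))))) (XT.nd (nat_lit 156) (nat_lit 3040) (nat_lit 0) (XT.nd (nat_lit 78) (nat_lit 1748) (nat_lit 0) (XT.lf (nat_lit 0) (nat_lit 3145437568) (nat_lit 1748) (nat_lit 4110368648) (nat_lit 76) (nat_lit 202119442) (nat_lit 539) (nat_lit 5) (nat_lit 562) (nat_lit 5) (nat_lit 540) (nat_lit 5) (nat_lit 419) (nat_lit 382) (nat_lit 339)) (XT.lf (nat_lit 0) (nat_lit 697750524) (nat_lit 1748) (nat_lit 4943945578) (nat_lit 1824) (nat_lit 1867895346) (nat_lit 516) (nat_lit 5) (nat_lit 539) (nat_lit 5) (nat_lit 540) (nat_lit 5) (nat_lit 420) (nat_lit 382) (nat_lit 338)))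 (XT.nd (nat_lit 78) (nat_lit 2964) (nat_lit 0) (XT.lf (nat_lit 0) (nat_lit 599240305) (nat_lit 1824) (nat_lit 1951654854) (nat_lit 76) (nat_lit 5011677046) (nat_lit 515) (nat_lit 5) (nat_lit 539) (nat_lit 5) (nat_lit 516) (nat_lit 5) (nat_lit 421) (nat_lit 382) (nat_lit 337)) (XT.nd (nat_lit 78) (nat_lit 1140) (nat_lit 0) (XT.lf (nat_lit 0) (nat_lit 2990009920) (nat_lit 1824) (nat_lit 75124693) (nat_lit 1900) (nat_lit 4551742486) (nat_lit 491) (nat_lit 5) (nat_lit 515) (nat_lit 5) (nat_lit 516) (nat_lit 5) (nat_lit 422) (nat_lit 382) (nat_lit 336)) (XT.lf (nat_lit 0) (nat_lit 330100500) (nat_lit 1140) (nat_lit 5237093211) (nat_lit 1216) (nat_lit 2105337443) (nat_lit 476) (nat_lit 5) (nat_lit 491) (nat_lit 5) (nat_lit 492) (nat_lit 5) (nat_lit 423) (nat_lit 382) (nat_lit 335))))))))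
noncomputable def xc59 : XT := (XT.nd (nat_lit 1482) (nat_lit 8512) (nat_lit 0) (XT.nd (nat_lit 702) (nat_lit 5472) (nat_lit 0) (XT.nd (nat_lit 312) (nat_lit 2660) (nat_lit 0) (XT.nd (nat_lit 156) (nat_lit 988) (nat_lit 0) (XT.nd (nat_lit 78) (nat_lit 912) (nat_lit 0) (XT.lf (nat_lit 0) (nat_lit 372546650) (nat_lit 1216) (nat_lit 2326479403) (nat_lit 76) (nat_lit 5030468278) (nat_lit 475) (nat_lit 5) (nat_lit 491) (nat_lit 5) (nat_lit 476) (nat_lit 5) (nat_lit 424) (nat_lit 382) (nat_lit 334)) (XT.lf (nat_lit 0) (nat_lit 2769531162) (nat_lit 912) (nat_lit 77053175) (nat_lit 988) (nat_lit 4941238380) (nat_lit 463) (nat_lit 5) (nat_lit 475) (nat_lit 5) (nat_lit 476) (nat_lit 5) (nat_lit 425) (nat_lit 382) (nat_lit 333))) (XT.nd (nat_lit 78) (nat_lit 76) (nat_lit 0) (XT.lf (nat_lit 0) (nat_lit 93031180) (nat_lit 912) (nat_lit 5267607424) (nat_lit 988) (nat_lit 2486868353) (nat_lit 451) (nat_lit 5) (nat_lit 463) (nat_lit 5) (nat_lit 464) (nat_lit 5) (nat_lit 426)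 (nat_lit 382) (nat_lit 332)) (XT.lf (nat_lit 0) (nat_lit 8411670) (nat_lit 988) (nat_lit 2577440813) (nat_lit 76) (nat_lit 5322689440) (nat_lit 450) (nat_lit 5) (nat_lit 463) (nat_lit 5) (nat_lit 451) (nat_lit 5) (nat_lit 427) (nat_lit 382) (nat_lit 331)))) (XT.nd (nat_lit 156) (nat_lit 1824) (nat_lit 0) (XT.nd (nat_lit 78) (nat_lit 0) (nat_lit 0) (XT.lf (nat_lit 0) (nat_lit 2497374402) (nat_lit 912) (nat_lit 5292976098) (nat_lit 76) (nat_lit 180576799) (nat_lit 439) (nat_lit 5) (nat_lit 451) (nat_lit 5) (nat_lit 440) (nat_lit 5) (nat_lit 428) (nat_lit 382) (nat_lit 330)) (XT.lf (nat_lit 0) (nat_lit 5029644606) (nat_lit 912) (nat_lit 21235772) (nat_lit 76) (nat_lit 2983809440) (nat_lit 439) (nat_lit 5) (nat_lit 451) (nat_lit 5) (nat_lit 440) (nat_lit 5) (nat_lit 429) (nat_lit 382) (nat_lit 329))) (XT.nd (nat_lit 78) (nat_lit 912) (nat_lit 0) (XT.lf (nat_lit 0) (nat_lit 5384230133) (nat_lit 912) (nat_lit 2223084974) (nat_lit 988) (nat_lit 492517381) (nat_lit 427)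 (nat_lit 5) (nat_lit 439) (nat_lit 5) (nat_lit 440) (nat_lit 5) (nat_lit 430) (nat_lit 382) (nat_lit 328)) (XT.nd (nat_lit 78) (nat_lit 0) (nat_lit 0) (XT.lf (nat_lit 0) (nat_lit 2025388798) (nat_lit 912) (nat_lit 5459577417) (nat_lit 76) (nat_lit 681397376) (nat_lit 415) (nat_lit 5) (nat_lit 427) (nat_lit 5) (nat_lit 416) (nat_lit 5) (nat_lit 431) (nat_lit 382) (nat_lit 327)) (XT.lf (nat_lit 0) (nat_lit 4580670245) (nat_lit 912) (nat_lit 20599513) (nat_lit 76) (nat_lit 3633018207) (nat_lit 415) (nat_lit 5) (nat_lit 427) (nat_lit 5) (nat_lit 416) (nat_lit 5) (nat_lit 432) (nat_lit 382) (nat_lit 326)))))) (XT.nd (nat_lit 390) (nat_lit 2204) (nat_lit 0) (XT.nd (nat_lit 156) (nat_lit 1596) (nat_lit 0) (XT.nd (nat_lit 78) (nat_lit 836) (nat_lit 0) (XT.lf (nat_lit 0) (nat_lit 5557827266) (nat_lit 836) (nat_lit 1626628456) (nat_lit 912) (nat_lit 1119167137) (nat_lit 404) (nat_lit 5) (nat_lit 415) (nat_lit 5) (nat_lit 416) (nat_lit 5) (nat_lit 433) (nat_lit 382) (nat_lit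 325)) (XT.lf (nat_lit 0) (nat_lit 1436295408) (nat_lit 836) (nat_lit 5524563105) (nat_lit 76) (nat_lit 1413504587) (nat_lit 393) (nat_lit 5) (nat_lit 404) (nat_lit 5) (nat_lit 394) (nat_lit 5) (nat_lit 434) (nat_lit 382) (nat_lit 324))) (XT.nd (nat_lit 78) (nat_lit 836) (nat_lit 0) (XT.lf (nat_lit 0) (nat_lit 88321403) (nat_lit 760) (nat_lit 3931467142) (nat_lit 836) (nat_lit 4426743507) (nat_lit 383) (nat_lit 5) (nat_lit 393) (nat_lit 5) (nat_lit 394) (nat_lit 5) (nat_lit 435) (nat_lit 382) (nat_lit 323)) (XT.nd (nat_lit 78) (nat_lit 836) (nat_lit 0) (XT.lf (nat_lit 0) (nat_lit 5845724110) (nat_lit 760) (nat_lit 808767920) (nat_lit 836) (nat_lit 1865661544) (nat_lit 383) (nat_lit 5) (nat_lit 393) (nat_lit 5) (nat_lit 394) (nat_lit 5) (nat_lit 436) (nat_lit 382) (nat_lit 322)) (XT.lf (nat_lit 0) (nat_lit 735607024) (nat_lit 836) (nat_lit 5494273929) (nat_lit 76) (nat_lit 2365294474) (nat_lit 372) (nat_lit 5) (nat_lit 383) (nat_lit 5) (nat_lit 373) (nat_lit 5)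 (nat_lit 437) (nat_lit 382) (nat_lit 321))))) (XT.nd (nat_lit 156) (nat_lit 1444) (nat_lit 0) (XT.nd (nat_lit 78) (nat_lit 0) (nat_lit 0) (XT.lf (nat_lit 0) (nat_lit 300056683) (nat_lit 760) (nat_lit 3052634725) (nat_lit 836) (nat_lit 5318984233) (nat_lit 362) (nat_lit 5) (nat_lit 372) (nat_lit 5) (nat_lit 373) (nat_lit 5) (nat_lit 438) (nat_lit 382) (nat_lit 320)) (XT.lf (nat_lit 0) (nat_lit 6024233259) (nat_lit 836) (nat_lit 2508787371) (nat_lit 76) (nat_lit 216642916) (nat_lit 362) (nat_lit 5) (nat_lit 373) (nat_lit 5) (nat_lit 363) (nat_lit 5) (nat_lit 439) (nat_lit 382) (nat_lit 319))) (XT.nd (nat_lit 78) (nat_lit 760) (nat_lit 0) (XT.lf (nat_lit 0) (nat_lit 3454128067) (nat_lit 684) (nat_lit 5302211181) (nat_lit 760) (nat_lit 72729295) (nat_lit 353) (nat_lit 5) (nat_lit 362) (nat_lit 5) (nat_lit 363) (nat_lit 5) (nat_lit 440) (nat_lit 382) (nat_lit 318)) (XT.nd (nat_lit 78) (nat_lit 0) (nat_lit 0) (XT.lf (nat_lit 0) (nat_lit 608913814) (nat_lit 684) (nat_lit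 1975161575) (nat_lit 760) (nat_lit 6325932697) (nat_lit 343) (nat_lit 5) (nat_lit 352) (nat_lit 5) (nat_lit 353) (nat_lit 5) (nat_lit 441) (nat_lit 382) (nat_lit 317)) (XT.lf (nat_lit 0) (nat_lit 5303613696) (nat_lit 760) (nat_lit 2259292036) (nat_lit 76) (nat_lit 1429439646) (nat_lit 343) (nat_lit 5) (nat_lit 353) (nat_lit 5) (nat_lit 344) (nat_lit 5) (nat_lit 442) (nat_lit 382) (nat_lit 316))))))) (XT.nd (nat_lit 780) (nat_lit 3952) (nat_lit 0) (XT.nd (nat_lit 390) (nat_lit 1824) (nat_lit 0) (XT.nd (nat_lit 156) (nat_lit 1292) (nat_lit 0) (XT.nd (nat_lit 78) (nat_lit 760) (nat_lit 0) (XT.lf (nat_lit 0) (nat_lit 3899425990) (nat_lit 684) (nat_lit 4182253739) (nat_lit 760) (nat_lit 994566950) (nat_lit 334) (nat_lit 5) (nat_lit 343) (nat_lit 5) (nat_lit 344) (nat_lit 5) (nat_lit 443) (nat_lit 382) (nat_lit 315)) (XT.lf (nat_lit 0) (nat_lit 1010024217) (nat_lit 684) (nat_lit 708194362) (nat_lit 760) (nat_lit 7443625035) (nat_lit 324) (nat_lit 5) (nat_lit 333) (nat_lit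 5) (nat_lit 334) (nat_lit 5) (nat_lit 444) (nat_lit 382) (nat_lit 314))) (XT.nd (nat_lit 78) (nat_lit 1292) (nat_lit 0) (XT.lf (nat_lit 0) (nat_lit 4491591960) (nat_lit 760) (nat_lit 1925405432) (nat_lit 76) (nat_lit 2831630626) (nat_lit 324) (nat_lit 5) (nat_lit 334) (nat_lit 5) (nat_lit 325) (nat_lit 5) (nat_lit 445) (nat_lit 382) (nat_lit 313)) (XT.nd (nat_lit 78) (nat_lit 684) (nat_lit 0) (XT.lf (nat_lit 0) (nat_lit 4437375754) (nat_lit 608) (nat_lit 2883477807) (nat_lit 684) (nat_lit 2016286135) (nat_lit 316) (nat_lit 5) (nat_lit 324) (nat_lit 5) (nat_lit 325) (nat_lit 5) (nat_lit 446) (nat_lit 382) (nat_lit 312)) (XT.lf (nat_lit 0) (nat_lit 763686367) (nat_lit 684) (nat_lit 7933297181) (nat_lit 76) (nat_lit 730444307) (nat_lit 307) (nat_lit 5) (nat_lit 316) (nat_lit 5) (nat_lit 308) (nat_lit 5) (nat_lit 447) (nat_lit 382) (nat_lit 311))))) (XT.nd (nat_lit 156) (nat_lit 1216) (nat_lit 0) (XT.nd (nat_lit 78) (nat_lit 608) (nat_lit 0) (XT.lf (nat_lit 0) (nat_lit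 3591879830) (nat_lit 684) (nat_lit 1511358314) (nat_lit 76) (nat_lit 4415624690) (nat_lit 307) (nat_lit 5) (nat_lit 316) (nat_lit 5) (nat_lit 308) (nat_lit 5) (nat_lit 448) (nat_lit 382) (nat_lit 310)) (XT.lf (nat_lit 0) (nat_lit 5064114141) (nat_lit 608) (nat_lit 1413442531) (nat_lit 684) (nat_lit 3134551450) (nat_lit 299) (nat_lit 5) (nat_lit 307) (nat_lit 5) (nat_lit 308) (nat_lit 5) (nat_lit 449) (nat_lit 382) (nat_lit 309))) (XT.nd (nat_lit 78) (nat_lit 608) (nat_lit 0) (XT.lf (nat_lit 0) (nat_lit 2054566808) (nat_lit 608) (nat_lit 7373526466) (nat_lit 684) (nat_lit 278982118) (nat_lit 291) (nat_lit 5) (nat_lit 299) (nat_lit 5) (nat_lit 300) (nat_lit 5) (nat_lit 450) (nat_lit 382) (nat_lit 308)) (XT.nd (nat_lit 78) (nat_lit 532) (nat_lit 0) (XT.lf (nat_lit 0) (nat_lit 2607722988) (nat_lit 684) (nat_lit 1020931685) (nat_lit 76) (nat_lit 6174774022) (nat_lit 290) (nat_lit 5) (nat_lit 299) (nat_lit 5) (nat_lit 291) (nat_lit 5) (nat_lit 451) (nat_lit 382) (nat_lit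 307)) (XT.lf (nat_lit 0) (nat_lit 5556471183) (nat_lit 608) (nat_lit 4126737442) (nat_lit 76) (nat_lit 218302668) (nat_lit 283) (nat_lit 5) (nat_lit 291) (nat_lit 5) (nat_lit 284) (nat_lit 5) (nat_lit 452) (nat_lit 382) (nat_lit 306)))))) (XT.nd (nat_lit 390) (nat_lit 1596) (nat_lit 0) (XT.nd (nat_lit 156) (nat_lit 1672) (nat_lit 0) (XT.nd (nat_lit 78) (nat_lit 76) (nat_lit 0) (XT.lf (nat_lit 0) (nat_lit 2688778741) (nat_lit 608) (nat_lit 5893177844) (nat_lit 684) (nat_lit 1419243712) (nat_lit 275) (nat_lit 5) (nat_lit 283) (nat_lit 5) (nat_lit 284) (nat_lit 5) (nat_lit 453) (nat_lit 382) (nat_lit 305)) (XT.lf (nat_lit 0) (nat_lit 1541930124) (nat_lit 684) (nat_lit 457486652) (nat_lit 76) (nat_lit 8103315322) (nat_lit 274) (nat_lit 5) (nat_lit 283) (nat_lit 5) (nat_lit 275) (nat_lit 5) (nat_lit 454) (nat_lit 382) (nat_lit 304))) (XT.nd (nat_lit 78) (nat_lit 1140) (nat_lit 0) (XT.lf (nat_lit 0) (nat_lit 4569193438) (nat_lit 608) (nat_lit 3648152652) (nat_lit 76)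 (nat_lit 1988243430) (nat_lit 267) (nat_lit 5) (nat_lit 275) (nat_lit 5) (nat_lit 268) (nat_lit 5) (nat_lit 455) (nat_lit 382) (nat_lit 303)) (XT.nd (nat_lit 78) (nat_lit 608) (nat_lit 0) (XT.lf (nat_lit 0) (nat_lit 3398932716) (nat_lit 532) (nat_lit 4266833420) (nat_lit 608) (nat_lit 2644562671) (nat_lit 260) (nat_lit 5) (nat_lit 267) (nat_lit 5) (nat_lit 268) (nat_lit 5) (nat_lit 456) (nat_lit 382) (nat_lit 302)) (XT.lf (nat_lit 0) (nat_lit 178347235) (nat_lit 532) (nat_lit 219710268) (nat_lit 608) (nat_lit 10019126723) (nat_lit 252) (nat_lit 5) (nat_lit 259) (nat_lit 5) (nat_lit 260) (nat_lit 5) (nat_lit 457) (nat_lit 382) (nat_lit 301))))) (XT.nd (nat_lit 156) (nat_lit 1064) (nat_lit 0) (XT.nd (nat_lit 78) (nat_lit 532) (nat_lit 0) (XT.lf (nat_lit 0) (nat_lit 3508942962) (nat_lit 608) (nat_lit 3106039382) (nat_lit 76) (nat_lit 3909988328) (nat_lit 252) (nat_lit 5) (nat_lit 260) (nat_lit 5) (nat_lit 253) (nat_lit 5) (nat_lit 458) (nat_lit 382) (nat_lit 300))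 (XT.lf (nat_lit 0) (nat_lit 4182454960) (nat_lit 532) (nat_lit 2499504012) (nat_lit 608) (nat_lit 3952955618) (nat_lit 245) (nat_lit 5) (nat_lit 252) (nat_lit 5) (nat_lit 253) (nat_lit 5) (nat_lit 459) (nat_lit 382) (nat_lit 299))) (XT.nd (nat_lit 78) (nat_lit 608) (nat_lit 0) (XT.lf (nat_lit 0) (nat_lit 871867855) (nat_lit 456) (nat_lit 9055764750) (nat_lit 532) (nat_lit 819240836) (nat_lit 239) (nat_lit 5) (nat_lit 245) (nat_lit 5) (nat_lit 246) (nat_lit 5) (nat_lit 460) (nat_lit 382) (nat_lit 298)) (XT.nd (nat_lit 78) (nat_lit 532) (nat_lit 0) (XT.lf (nat_lit 0) (nat_lit 2377749553) (nat_lit 532) (nat_lit 2503026760) (nat_lit 76) (nat_lit 5979350914) (nat_lit 238) (nat_lit 5) (nat_lit 245) (nat_lit 5) (nat_lit 239) (nat_lit 5) (nat_lit 461) (nat_lit 382) (nat_lit 297)) (XT.lf (nat_lit 0) (nat_lit 5037132857) (nat_lit 532) (nat_lit 595486903) (nat_lit 608) (nat_lit 5342819834) (nat_lit 231) (nat_lit 5) (nat_lit 238) (nat_lit 5) (nat_lit 239) (nat_lit 5) (nat_lit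 462) (nat_lit 382) (nat_lit 296))))))))
noncomputable def xc60 : XT := (XT.nd (nat_lit 54288) (nat_lit 0) (nat_lit 28196) (XT.nd (nat_lit 53508) (nat_lit 0) (nat_lit 41876) (XT.nd (nat_lit 53118) (nat_lit 0) (nat_lit 44080) (XT.nd (nat_lit 156) (nat_lit 912) (nat_lit 0) (XT.nd (nat_lit 78) (nat_lit 76) (nat_lit 0) (XT.lf (nat_lit 0) (nat_lit 1625896715) (nat_lit 456) (nat_lit 7351072202) (nat_lit 532) (nat_lit 2115601657) (nat_lit 225) (nat_lit 5) (nat_lit 231) (nat_lit 5) (nat_lit 232) (nat_lit 5) (nat_lit 463) (nat_lit 382) (nat_lit 295)) (XT.lf (nat_lit 0) (nat_lit 1177297721) (nat_lit 532) (nat_lit 1841418570) (nat_lit 76) (nat_lit 8192843909) (nat_lit 224) (nat_lit 5) (nat_lit 231) (nat_lit 5) (nat_lit 225) (nat_lit 5) (nat_lit 464) (nat_lit 382) (nat_lit 294))) (XT.nd (nat_lit 78) (nat_lit 456) (nat_lit 0) (XT.lf (nat_lit 0) (nat_lit 4528861619) (nat_lit 532) (nat_lit 5380680793) (nat_lit 76) (nat_lit 1422684835) (nat_lit 218) (nat_lit 5) (nat_lit 225)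 (nat_lit 5) (nat_lit 219) (nat_lit 5) (nat_lit 465) (nat_lit 382) (nat_lit 293)) (XT.lf (nat_lit 0) (nat_lit 2442621403) (nat_lit 456) (nat_lit 5526362814) (nat_lit 532) (nat_lit 3485892868) (nat_lit 212) (nat_lit 5) (nat_lit 218) (nat_lit 5) (nat_lit 219) (nat_lit 5) (nat_lit 466) (nat_lit 382) (nat_lit 292)))) (XT.nd (nat_lit 156) (nat_lit 380) (nat_lit 0) (XT.nd (nat_lit 78) (nat_lit 380) (nat_lit 0) (XT.lf (nat_lit 0) (nat_lit 1400644220) (nat_lit 0) (nat_lit 1400644220) (nat_lit 228) (nat_lit 428335771) (nat_lit 802) (nat_lit 5) (nat_lit 802) (nat_lit 3) (nat_lit 805) (nat_lit 3) (nat_lit 383) (nat_lit 383) (nat_lit 374)) (XT.lf (nat_lit 0) (nat_lit 2063672652) (nat_lit 380) (nat_lit 422718070) (nat_lit 380) (nat_lit 3979211277) (nat_lit 797) (nat_lit 3) (nat_lit 802) (nat_lit 3) (nat_lit 802) (nat_lit 5) (nat_lit 384) (nat_lit 383) (nat_lit 373))) (XT.nd (nat_lit 78) (nat_lit 380) (nat_lit 0) (XT.lf (nat_lit 76) (nat_lit 2870168482) (nat_lit 0) (nat_lit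 2102901446) (nat_lit 380) (nat_lit 1500057125) (nat_lit 798) (nat_lit 5) (nat_lit 797) (nat_lit 3) (nat_lit 802) (nat_lit 5) (nat_lit 385) (nat_lit 383) (nat_lit 372)) (XT.nd (nat_lit 78) (nat_lit 0) (nat_lit 0) (XT.lf (nat_lit 0) (nat_lit 1367783309) (nat_lit 380) (nat_lit 295380106) (nat_lit 456) (nat_lit 4818908086) (nat_lit 792) (nat_lit 5) (nat_lit 797) (nat_lit 3) (nat_lit 798) (nat_lit 5) (nat_lit 386) (nat_lit 383) (nat_lit 371)) (XT.lf (nat_lit 76) (nat_lit 3069675181) (nat_lit 0) (nat_lit 1148876152) (nat_lit 456) (nat_lit 2273532067) (nat_lit 793) (nat_lit 5) (nat_lit 792) (nat_lit 5) (nat_lit 798) (nat_lit 5) (nat_lit 387) (nat_lit 383) (nat_lit 370)))))) (XT.nd (nat_lit 390) (nat_lit 1292) (nat_lit 0) (XT.nd (nat_lit 156) (nat_lit 456) (nat_lit 0) (XT.nd (nat_lit 78) (nat_lit 0) (nat_lit 76) (XT.lf (nat_lit 0) (nat_lit 544278626) (nat_lit 456) (nat_lit 40006252) (nat_lit 532) (nat_lit 5919361150) (nat_lit 786) (nat_lit 5) (nat_lit 792) (nat_lit 5)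 (nat_lit 793) (nat_lit 5) (nat_lit 388) (nat_lit 383) (nat_lit 369)) (XT.lf (nat_lit 0) (nat_lit 3338388620) (nat_lit 456) (nat_lit 3115901537) (nat_lit 532) (nat_lit 61841476) (nat_lit 787) (nat_lit 5) (nat_lit 793) (nat_lit 5) (nat_lit 794) (nat_lit 5) (nat_lit 389) (nat_lit 383) (nat_lit 368))) (XT.nd (nat_lit 78) (nat_lit 532) (nat_lit 0) (XT.lf (nat_lit 76) (nat_lit 341241175) (nat_lit 0) (nat_lit 5782738704) (nat_lit 532) (nat_lit 406175089) (nat_lit 788) (nat_lit 5) (nat_lit 787) (nat_lit 5) (nat_lit 794) (nat_lit 5) (nat_lit 390) (nat_lit 383) (nat_lit 367)) (XT.nd (nat_lit 78) (nat_lit 0) (nat_lit 0) (XT.lf (nat_lit 0) (nat_lit 2340032514) (nat_lit 532) (nat_lit 2691114210) (nat_lit 608) (nat_lit 1513978538) (nat_lit 780) (nat_lit 5) (nat_lit 787) (nat_lit 5) (nat_lit 788) (nat_lit 5) (nat_lit 391) (nat_lit 383) (nat_lit 366)) (XT.lf (nat_lit 76) (nat_lit 844854266) (nat_lit 0) (nat_lit 4227646123) (nat_lit 608) (nat_lit 1489105380) (nat_lit 781) (nat_lit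 5) (nat_lit 780) (nat_lit 5) (nat_lit 788) (nat_lit 5) (nat_lit 392) (nat_lit 383) (nat_lit 365))))) (XT.nd (nat_lit 156) (nat_lit 684) (nat_lit 0) (XT.nd (nat_lit 78) (nat_lit 0) (nat_lit 0) (XT.lf (nat_lit 0) (nat_lit 1214501656) (nat_lit 608) (nat_lit 2139289812) (nat_lit 684) (nat_lit 3225455986) (nat_lit 772) (nat_lit 5) (nat_lit 780) (nat_lit 5) (nat_lit 781) (nat_lit 5) (nat_lit 393) (nat_lit 383) (nat_lit 364)) (XT.lf (nat_lit 76) (nat_lit 1479242398) (nat_lit 0) (nat_lit 2415881709) (nat_lit 684) (nat_lit 2703063360) (nat_lit 773) (nat_lit 5) (nat_lit 772) (nat_lit 5) (nat_lit 781) (nat_lit 5) (nat_lit 394) (nat_lit 383) (nat_lit 363))) (XT.nd (nat_lit 78) (nat_lit 684) (nat_lit 0) (XT.lf (nat_lit 76) (nat_lit 5159389546) (nat_lit 0) (nat_lit 1418635281) (nat_lit 684) (nat_lit 40508136) (nat_lit 773) (nat_lit 5) (nat_lit 772) (nat_lit 5) (nat_lit 781) (nat_lit 5) (nat_lit 395) (nat_lit 383) (nat_lit 362)) (XT.nd (nat_lit 78) (nat_lit 0) (nat_lit 76)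 (XT.lf (nat_lit 76) (nat_lit 2246106159) (nat_lit 0) (nat_lit 343859820) (nat_lit 760) (nat_lit 4049976898) (nat_lit 764) (nat_lit 5) (nat_lit 763) (nat_lit 5) (nat_lit 773) (nat_lit 5) (nat_lit 396) (nat_lit 383) (nat_lit 361)) (XT.lf (nat_lit 0) (nat_lit 5223592477) (nat_lit 684) (nat_lit 662571586) (nat_lit 76) (nat_lit 776589864) (nat_lit 764) (nat_lit 5) (nat_lit 773) (nat_lit 5) (nat_lit 765) (nat_lit 5) (nat_lit 397) (nat_lit 383) (nat_lit 360))))))) (XT.nd (nat_lit 702) (nat_lit 8208) (nat_lit 0) (XT.nd (nat_lit 312) (nat_lit 3116) (nat_lit 0) (XT.nd (nat_lit 156) (nat_lit 912) (nat_lit 0) (XT.nd (nat_lit 78) (nat_lit 760) (nat_lit 0) (XT.lf (nat_lit 0) (nat_lit 1167824721) (nat_lit 760) (nat_lit 3552452638) (nat_lit 76) (nat_lit 1966384803) (nat_lit 754) (nat_lit 5) (nat_lit 764) (nat_lit 5) (nat_lit 755) (nat_lit 5) (nat_lit 398) (nat_lit 383) (nat_lit 359)) (XT.lf (nat_lit 0) (nat_lit 258010126) (nat_lit 760) (nat_lit 3493987776) (nat_lit 836) (nat_lit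 2959974048) (nat_lit 744) (nat_lit 5) (nat_lit 754) (nat_lit 5) (nat_lit 755) (nat_lit 5) (nat_lit 399) (nat_lit 383) (nat_lit 358))) (XT.nd (nat_lit 78) (nat_lit 912) (nat_lit 0) (XT.lf (nat_lit 0) (nat_lit 4152343385) (nat_lit 760) (nat_lit 2198448672) (nat_lit 836) (nat_lit 387737129) (nat_lit 744) (nat_lit 5) (nat_lit 754) (nat_lit 5) (nat_lit 755) (nat_lit 5) (nat_lit 400) (nat_lit 383) (nat_lit 357)) (XT.lf (nat_lit 0) (nat_lit 1321259118) (nat_lit 836) (nat_lit 833836498) (nat_lit 912) (nat_lit 4611262086) (nat_lit 732) (nat_lit 5) (nat_lit 743) (nat_lit 5) (nat_lit 744) (nat_lit 5) (nat_lit 401) (nat_lit 383) (nat_lit 356)))) (XT.nd (nat_lit 156) (nat_lit 2128) (nat_lit 0) (XT.nd (nat_lit 78) (nat_lit 988) (nat_lit 0) (XT.lf (nat_lit 0) (nat_lit 4705628763) (nat_lit 912) (nat_lit 1500330677) (nat_lit 76) (nat_lit 589491378) (nat_lit 732) (nat_lit 5) (nat_lit 744) (nat_lit 5) (nat_lit 733) (nat_lit 5) (nat_lit 402) (nat_lit 383) (nat_lit 355)) (XT.lf (nat_lit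 0) (nat_lit 439400216) (nat_lit 988) (nat_lit 4318732427) (nat_lit 76) (nat_lit 2067657049) (nat_lit 719) (nat_lit 5) (nat_lit 732) (nat_lit 5) (nat_lit 720) (nat_lit 5) (nat_lit 403) (nat_lit 383) (nat_lit 354))) (XT.nd (nat_lit 78) (nat_lit 2128) (nat_lit 0) (XT.lf (nat_lit 0) (nat_lit 2943975905) (nat_lit 988) (nat_lit 296729009) (nat_lit 76) (nat_lit 3616699119) (nat_lit 719) (nat_lit 5) (nat_lit 732) (nat_lit 5) (nat_lit 720) (nat_lit 5) (nat_lit 404) (nat_lit 383) (nat_lit 353)) (XT.nd (nat_lit 78) (nat_lit 1140) (nat_lit 0) (XT.lf (nat_lit 0) (nat_lit 3815342780) (nat_lit 988) (nat_lit 1651788580) (nat_lit 1064) (nat_lit 1423149536) (nat_lit 706) (nat_lit 5) (nat_lit 719) (nat_lit 5) (nat_lit 720) (nat_lit 5) (nat_lit 405) (nat_lit 383) (nat_lit 352)) (XT.lf (nat_lit 0) (nat_lit 1055337847) (nat_lit 1140) (nat_lit 5869015306) (nat_lit 76) (nat_lit 256066) (nat_lit 691) (nat_lit 5) (nat_lit 706) (nat_lit 5) (nat_lit 692) (nat_lit 5) (nat_lit 406) (nat_lit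 383) (nat_lit 351)))))) (XT.nd (nat_lit 390) (nat_lit 4484) (nat_lit 0) (XT.nd (nat_lit 156) (nat_lit 2584) (nat_lit 0) (XT.nd (nat_lit 78) (nat_lit 1140) (nat_lit 0) (XT.lf (nat_lit 0) (nat_lit 3541183021) (nat_lit 1140) (nat_lit 1711103904) (nat_lit 76) (nat_lit 1707612163) (nat_lit 691) (nat_lit 5) (nat_lit 706) (nat_lit 5) (nat_lit 692) (nat_lit 5) (nat_lit 407) (nat_lit 383) (nat_lit 350)) (XT.lf (nat_lit 0) (nat_lit 2522052520) (nat_lit 1140) (nat_lit 3517259668) (nat_lit 1216) (nat_lit 957331223) (nat_lit 676) (nat_lit 5) (nat_lit 691) (nat_lit 5) (nat_lit 692) (nat_lit 5) (nat_lit 408) (nat_lit 383) (nat_lit 349))) (XT.nd (nat_lit 78) (nat_lit 2508) (nat_lit 0) (XT.lf (nat_lit 0) (nat_lit 1491100018) (nat_lit 1216) (nat_lit 222417351) (nat_lit 76) (nat_lit 5321239749) (nat_lit 675) (nat_lit 5) (nat_lit 691) (nat_lit 5) (nat_lit 676) (nat_lit 5) (nat_lit 409) (nat_lit 383) (nat_lit 348)) (XT.nd (nat_lit 78) (nat_lit 1292) (nat_lit 0) (XT.lf (nat_lit 0)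 (nat_lit 3951248805) (nat_lit 1292) (nat_lit 2953231113) (nat_lit 76) (nat_lit 169515271) (nat_lit 659) (nat_lit 5) (nat_lit 676) (nat_lit 5) (nat_lit 660) (nat_lit 5) (nat_lit 410) (nat_lit 383) (nat_lit 347)) (XT.lf (nat_lit 0) (nat_lit 1405456735) (nat_lit 1292) (nat_lit 5025634158) (nat_lit 1368) (nat_lit 683517319) (nat_lit 642) (nat_lit 5) (nat_lit 659) (nat_lit 5) (nat_lit 660) (nat_lit 5) (nat_lit 411) (nat_lit 383) (nat_lit 346))))) (XT.nd (nat_lit 156) (nat_lit 3040) (nat_lit 0) (XT.nd (nat_lit 78) (nat_lit 1368) (nat_lit 0) (XT.lf (nat_lit 0) (nat_lit 1749700049) (nat_lit 1368) (nat_lit 1317994583) (nat_lit 76) (nat_lit 4088727146) (nat_lit 641) (nat_lit 5) (nat_lit 659) (nat_lit 5) (nat_lit 642) (nat_lit 5) (nat_lit 412) (nat_lit 383) (nat_lit 345)) (XT.lf (nat_lit 0) (nat_lit 3156821542) (nat_lit 1368) (nat_lit 1036035247) (nat_lit 1444) (nat_lit 3006715918) (nat_lit 623) (nat_lit 5) (nat_lit 641) (nat_lit 5) (nat_lit 642) (nat_lit 5) (nat_lit 413)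 (nat_lit 383) (nat_lit 344))) (XT.nd (nat_lit 78) (nat_lit 1596) (nat_lit 0) (XT.lf (nat_lit 0) (nat_lit 452931051) (nat_lit 1444) (nat_lit 6201212993) (nat_lit 1520) (nat_lit 590057264) (nat_lit 604) (nat_lit 5) (nat_lit 623) (nat_lit 5) (nat_lit 624) (nat_lit 5) (nat_lit 414) (nat_lit 383) (nat_lit 343)) (XT.nd (nat_lit 78) (nat_lit 1520) (nat_lit 0) (XT.lf (nat_lit 0) (nat_lit 1835585000) (nat_lit 1520) (nat_lit 2257254302) (nat_lit 76) (nat_lit 3196934900) (nat_lit 603) (nat_lit 5) (nat_lit 623) (nat_lit 5) (nat_lit 604) (nat_lit 5) (nat_lit 415) (nat_lit 383) (nat_lit 342)) (XT.lf (nat_lit 0) (nat_lit 2353034257) (nat_lit 1520) (nat_lit 1916119959) (nat_lit 1596) (nat_lit 3067680033) (nat_lit 583) (nat_lit 5) (nat_lit 603) (nat_lit 5) (nat_lit 604) (nat_lit 5) (nat_lit 416) (nat_lit 383) (nat_lit 341))))))))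
noncomputable def xc61 : XT := (XT.nd (nat_lit 1482) (nat_lit 9044) (nat_lit 0) (XT.nd (nat_lit 702) (nat_lit 5320) (nat_lit 0) (XT.nd (nat_lit 312) (nat_lit 5776) (nat_lit 0) (XT.nd (nat_lit 156) (nat_lit 1672) (nat_lit 0) (XT.nd (nat_lit 78) (nat_lit 1672) (nat_lit 0) (XT.lf (nat_lit 0) (nat_lit 6721361379) (nat_lit 1596) (nat_lit 342555874) (nat_lit 76) (nat_lit 321518914) (nat_lit 583) (nat_lit 5) (nat_lit 604) (nat_lit 5) (nat_lit 584) (nat_lit 5) (nat_lit 417) (nat_lit 383) (nat_lit 340)) (XT.lf (nat_lit 0) (nat_lit 1759021073) (nat_lit 1672) (nat_lit 3051466665) (nat_lit 76) (nat_lit 2624392994) (nat_lit 561) (nat_lit 5) (nat_lit 583) (nat_lit 5) (nat_lit 562) (nat_lit 5) (nat_lit 418) (nat_lit 383) (nat_lit 339))) (XT.nd (nat_lit 78) (nat_lit 0) (nat_lit 0) (XT.lf (nat_lit 0) (nat_lit 1699566238) (nat_lit 1672) (nat_lit 2489488253) (nat_lit 1748) (nat_lit 3296824555) (nat_lit 539) (nat_lit 5) (nat_lit 561) (nat_lit 5) (nat_lit 562) (nat_lit 5) (nat_lit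 419) (nat_lit 383) (nat_lit 338)) (XT.lf (nat_lit 0) (nat_lit 6545667412) (nat_lit 1672) (nat_lit 97142241) (nat_lit 1748) (nat_lit 895585252) (nat_lit 539) (nat_lit 5) (nat_lit 561) (nat_lit 5) (nat_lit 562) (nat_lit 5) (nat_lit 420) (nat_lit 383) (nat_lit 337)))) (XT.nd (nat_lit 156) (nat_lit 2128) (nat_lit 0) (XT.nd (nat_lit 78) (nat_lit 1824) (nat_lit 0) (XT.lf (nat_lit 0) (nat_lit 1529311408) (nat_lit 1824) (nat_lit 3710972637) (nat_lit 76) (nat_lit 2351555097) (nat_lit 515) (nat_lit 5) (nat_lit 539) (nat_lit 5) (nat_lit 516) (nat_lit 5) (nat_lit 421) (nat_lit 383) (nat_lit 336)) (XT.lf (nat_lit 0) (nat_lit 1186376430) (nat_lit 1824) (nat_lit 2775273898) (nat_lit 1900) (nat_lit 3685164817) (nat_lit 491) (nat_lit 5) (nat_lit 515) (nat_lit 5) (nat_lit 516) (nat_lit 5) (nat_lit 422) (nat_lit 383) (nat_lit 335))) (XT.nd (nat_lit 78) (nat_lit 2128) (nat_lit 0) (XT.lf (nat_lit 0) (nat_lit 6190515586) (nat_lit 1824) (nat_lit 233492159) (nat_lit 1900) (nat_lit 1279255488)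 (nat_lit 491) (nat_lit 5) (nat_lit 515) (nat_lit 5) (nat_lit 516) (nat_lit 5) (nat_lit 423) (nat_lit 383) (nat_lit 334)) (XT.nd (nat_lit 78) (nat_lit 912) (nat_lit 0) (XT.lf (nat_lit 0) (nat_lit 1154863376) (nat_lit 1216) (nat_lit 4245252772) (nat_lit 76) (nat_lit 2360661613) (nat_lit 475) (nat_lit 5) (nat_lit 491) (nat_lit 5) (nat_lit 476) (nat_lit 5) (nat_lit 424) (nat_lit 383) (nat_lit 333)) (XT.lf (nat_lit 0) (nat_lit 804288279) (nat_lit 912) (nat_lit 2790875836) (nat_lit 988) (nat_lit 4224616771) (nat_lit 463) (nat_lit 5) (nat_lit 475) (nat_lit 5) (nat_lit 476) (nat_lit 5) (nat_lit 425) (nat_lit 383) (nat_lit 332)))))) (XT.nd (nat_lit 390) (nat_lit 2508) (nat_lit 0) (XT.nd (nat_lit 156) (nat_lit 1824) (nat_lit 0) (XT.nd (nat_lit 78) (nat_lit 988) (nat_lit 0) (XT.lf (nat_lit 0) (nat_lit 5970836797) (nat_lit 912) (nat_lit 100109065) (nat_lit 988) (nat_lit 1809284713) (nat_lit 463) (nat_lit 5) (nat_lit 475) (nat_lit 5) (nat_lit 476) (nat_lit 5) (nat_lit 426)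 (nat_lit 383) (nat_lit 331)) (XT.lf (nat_lit 0) (nat_lit 643250464) (nat_lit 988) (nat_lit 4662990664) (nat_lit 76) (nat_lit 2635613592) (nat_lit 450) (nat_lit 5) (nat_lit 463) (nat_lit 5) (nat_lit 451) (nat_lit 5) (nat_lit 427) (nat_lit 383) (nat_lit 330))) (XT.nd (nat_lit 78) (nat_lit 988) (nat_lit 0) (XT.lf (nat_lit 0) (nat_lit 544927091) (nat_lit 836) (nat_lit 2552081178) (nat_lit 912) (nat_lit 4907935925) (nat_lit 439) (nat_lit 5) (nat_lit 450) (nat_lit 5) (nat_lit 451) (nat_lit 5) (nat_lit 428) (nat_lit 383) (nat_lit 329)) (XT.nd (nat_lit 78) (nat_lit 988) (nat_lit 0) (XT.lf (nat_lit 0) (nat_lit 5592806145) (nat_lit 912) (nat_lit 2192659634) (nat_lit 76) (nat_lit 283970381) (nat_lit 439) (nat_lit 5) (nat_lit 451) (nat_lit 5) (nat_lit 440) (nat_lit 5) (nat_lit 429) (nat_lit 383) (nat_lit 328)) (XT.lf (nat_lit 0) (nat_lit 1269181) (nat_lit 988) (nat_lit 4972131465) (nat_lit 76) (nat_lit 3161856680) (nat_lit 426) (nat_lit 5) (nat_lit 439) (nat_lit 5) (nat_lit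 427) (nat_lit 5) (nat_lit 430) (nat_lit 383) (nat_lit 327))))) (XT.nd (nat_lit 156) (nat_lit 1672) (nat_lit 0) (XT.nd (nat_lit 78) (nat_lit 0) (nat_lit 0) (XT.lf (nat_lit 0) (nat_lit 400662293) (nat_lit 836) (nat_lit 2073178419) (nat_lit 912) (nat_lit 5728661265) (nat_lit 415) (nat_lit 5) (nat_lit 426) (nat_lit 5) (nat_lit 427) (nat_lit 5) (nat_lit 431) (nat_lit 383) (nat_lit 326)) (XT.lf (nat_lit 0) (nat_lit 4996509878) (nat_lit 912) (nat_lit 2370303602) (nat_lit 76) (nat_lit 904265116) (nat_lit 415) (nat_lit 5) (nat_lit 427) (nat_lit 5) (nat_lit 416) (nat_lit 5) (nat_lit 432) (nat_lit 383) (nat_lit 325))) (XT.nd (nat_lit 78) (nat_lit 836) (nat_lit 0) (XT.lf (nat_lit 0) (nat_lit 3156132091) (nat_lit 836) (nat_lit 4409793560) (nat_lit 912) (nat_lit 775175233) (nat_lit 404) (nat_lit 5) (nat_lit 415) (nat_lit 5) (nat_lit 416) (nat_lit 5) (nat_lit 433) (nat_lit 383) (nat_lit 324)) (XT.nd (nat_lit 78) (nat_lit 0) (nat_lit 0) (XT.lf (nat_lit 0) (nat_lit 364554259)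 (nat_lit 760) (nat_lit 1367061614) (nat_lit 836) (nat_lit 6681063782) (nat_lit 393) (nat_lit 5) (nat_lit 403) (nat_lit 5) (nat_lit 404) (nat_lit 5) (nat_lit 434) (nat_lit 383) (nat_lit 323)) (XT.lf (nat_lit 0) (nat_lit 4287216391) (nat_lit 836) (nat_lit 2448348787) (nat_lit 76) (nat_lit 1749841282) (nat_lit 393) (nat_lit 5) (nat_lit 404) (nat_lit 5) (nat_lit 394) (nat_lit 5) (nat_lit 435) (nat_lit 383) (nat_lit 322))))))) (XT.nd (nat_lit 702) (nat_lit 4484) (nat_lit 0) (XT.nd (nat_lit 312) (nat_lit 2204) (nat_lit 0) (XT.nd (nat_lit 156) (nat_lit 760) (nat_lit 0) (XT.nd (nat_lit 78) (nat_lit 836) (nat_lit 0) (XT.lf (nat_lit 0) (nat_lit 3255828243) (nat_lit 760) (nat_lit 3631768077) (nat_lit 836) (nat_lit 1672118134) (nat_lit 383) (nat_lit 5) (nat_lit 393) (nat_lit 5) (nat_lit 394) (nat_lit 5) (nat_lit 436) (nat_lit 383) (nat_lit 321)) (XT.lf (nat_lit 0) (nat_lit 430305332) (nat_lit 760) (nat_lit 445326170) (nat_lit 836) (nat_lit 7760099283) (nat_lit 372) (nat_lit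 5) (nat_lit 382) (nat_lit 5) (nat_lit 383) (nat_lit 5) (nat_lit 437) (nat_lit 383) (nat_lit 320))) (XT.nd (nat_lit 78) (nat_lit 760) (nat_lit 0) (XT.lf (nat_lit 0) (nat_lit 3470102330) (nat_lit 836) (nat_lit 2432863500) (nat_lit 76) (nat_lit 2809717441) (nat_lit 372) (nat_lit 5) (nat_lit 383) (nat_lit 5) (nat_lit 373) (nat_lit 5) (nat_lit 438) (nat_lit 383) (nat_lit 319)) (XT.lf (nat_lit 0) (nat_lit 3456489935) (nat_lit 760) (nat_lit 2650164081) (nat_lit 836) (nat_lit 2684716963) (nat_lit 362) (nat_lit 5) (nat_lit 372) (nat_lit 5) (nat_lit 373) (nat_lit 5) (nat_lit 439) (nat_lit 383) (nat_lit 318)))) (XT.nd (nat_lit 156) (nat_lit 1444) (nat_lit 0) (XT.nd (nat_lit 78) (nat_lit 76) (nat_lit 0) (XT.lf (nat_lit 0) (nat_lit 587130132) (nat_lit 684) (nat_lit 8198574615) (nat_lit 760) (nat_lit 86132334) (nat_lit 353) (nat_lit 5) (nat_lit 362) (nat_lit 5) (nat_lit 363) (nat_lit 5) (nat_lit 440) (nat_lit 383) (nat_lit 317)) (XT.lf (nat_lit 0) (nat_lit 2549753345) (nat_lit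 760) (nat_lit 2329354208) (nat_lit 76) (nat_lit 4074092708) (nat_lit 352) (nat_lit 5) (nat_lit 362) (nat_lit 5) (nat_lit 353) (nat_lit 5) (nat_lit 441) (nat_lit 383) (nat_lit 316))) (XT.nd (nat_lit 78) (nat_lit 760) (nat_lit 0) (XT.lf (nat_lit 0) (nat_lit 3752954706) (nat_lit 684) (nat_lit 1474669941) (nat_lit 760) (nat_lit 3808746247) (nat_lit 343) (nat_lit 5) (nat_lit 352) (nat_lit 5) (nat_lit 353) (nat_lit 5) (nat_lit 442) (nat_lit 383) (nat_lit 315)) (XT.nd (nat_lit 78) (nat_lit 76) (nat_lit 0) (XT.lf (nat_lit 0) (nat_lit 824168460) (nat_lit 684) (nat_lit 7135352630) (nat_lit 760) (nat_lit 1161674494) (nat_lit 334) (nat_lit 5) (nat_lit 343) (nat_lit 5) (nat_lit 344) (nat_lit 5) (nat_lit 443) (nat_lit 383) (nat_lit 314)) (XT.lf (nat_lit 0) (nat_lit 1530202287) (nat_lit 760) (nat_lit 2142805047) (nat_lit 76) (nat_lit 5534268894) (nat_lit 333) (nat_lit 5) (nat_lit 343) (nat_lit 5) (nat_lit 334) (nat_lit 5) (nat_lit 444) (nat_lit 383) (nat_lit 313)))))) (XT.nd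 (nat_lit 390) (nat_lit 1900) (nat_lit 0) (XT.nd (nat_lit 156) (nat_lit 1292) (nat_lit 0) (XT.nd (nat_lit 78) (nat_lit 608) (nat_lit 0) (XT.lf (nat_lit 0) (nat_lit 4140591763) (nat_lit 684) (nat_lit 113907099) (nat_lit 760) (nat_lit 5040543305) (nat_lit 324) (nat_lit 5) (nat_lit 333) (nat_lit 5) (nat_lit 334) (nat_lit 5) (nat_lit 445) (nat_lit 383) (nat_lit 312)) (XT.lf (nat_lit 0) (nat_lit 1145675842) (nat_lit 608) (nat_lit 5899918190) (nat_lit 684) (nat_lit 2338723142) (nat_lit 316) (nat_lit 5) (nat_lit 324) (nat_lit 5) (nat_lit 325) (nat_lit 5) (nat_lit 446) (nat_lit 383) (nat_lit 311))) (XT.nd (nat_lit 78) (nat_lit 1216) (nat_lit 0) (XT.lf (nat_lit 0) (nat_lit 414964203) (nat_lit 684) (nat_lit 1877714175) (nat_lit 76) (nat_lit 7182579105) (nat_lit 315) (nat_lit 5) (nat_lit 324) (nat_lit 5) (nat_lit 316) (nat_lit 5) (nat_lit 447) (nat_lit 383) (nat_lit 310)) (XT.nd (nat_lit 78) (nat_lit 608) (nat_lit 0) (XT.lf (nat_lit 0) (nat_lit 3200015063) (nat_lit 684)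 (nat_lit 4961722708) (nat_lit 76) (nat_lit 1405817543) (nat_lit 307) (nat_lit 5) (nat_lit 316) (nat_lit 5) (nat_lit 308) (nat_lit 5) (nat_lit 448) (nat_lit 383) (nat_lit 309)) (XT.lf (nat_lit 0) (nat_lit 1547574389) (nat_lit 608) (nat_lit 4499774219) (nat_lit 684) (nat_lit 3614218859) (nat_lit 299) (nat_lit 5) (nat_lit 307) (nat_lit 5) (nat_lit 308) (nat_lit 5) (nat_lit 449) (nat_lit 383) (nat_lit 308))))) (XT.nd (nat_lit 156) (nat_lit 1216) (nat_lit 0) (XT.nd (nat_lit 78) (nat_lit 684) (nat_lit 0) (XT.lf (nat_lit 0) (nat_lit 8214069688) (nat_lit 608) (nat_lit 739874580) (nat_lit 684) (nat_lit 803469287) (nat_lit 299) (nat_lit 5) (nat_lit 307) (nat_lit 5) (nat_lit 308) (nat_lit 5) (nat_lit 450) (nat_lit 383) (nat_lit 307)) (XT.lf (nat_lit 0) (nat_lit 2059793792) (nat_lit 684) (nat_lit 4701888211) (nat_lit 76) (nat_lit 3092759379) (nat_lit 290) (nat_lit 5) (nat_lit 299) (nat_lit 5) (nat_lit 291) (nat_lit 5) (nat_lit 451) (nat_lit 383) (nat_lit 306))) (XT.nd (nat_lit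 78) (nat_lit 684) (nat_lit 0) (XT.lf (nat_lit 0) (nat_lit 2026226934) (nat_lit 532) (nat_lit 2941535019) (nat_lit 608) (nat_lit 4985577626) (nat_lit 283) (nat_lit 5) (nat_lit 290) (nat_lit 5) (nat_lit 291) (nat_lit 5) (nat_lit 452) (nat_lit 383) (nat_lit 305)) (XT.nd (nat_lit 78) (nat_lit 684) (nat_lit 0) (XT.lf (nat_lit 0) (nat_lit 7941829327) (nat_lit 608) (nat_lit 1147769091) (nat_lit 76) (nat_lit 964458526) (nat_lit 283) (nat_lit 5) (nat_lit 291) (nat_lit 5) (nat_lit 284) (nat_lit 5) (nat_lit 453) (nat_lit 383) (nat_lit 304)) (XT.lf (nat_lit 0) (nat_lit 835636432) (nat_lit 684) (nat_lit 4377818314) (nat_lit 76) (nat_lit 4942671954) (nat_lit 274) (nat_lit 5) (nat_lit 283) (nat_lit 5) (nat_lit 275) (nat_lit 5) (nat_lit 454) (nat_lit 383) (nat_lit 303))))))))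
noncomputable def xc62 : XT := (XT.nd (nat_lit 54366) (nat_lit 0) (nat_lit 34732) (XT.nd (nat_lit 702) (nat_lit 988) (nat_lit 0) (XT.nd (nat_lit 312) (nat_lit 1596) (nat_lit 0) (XT.nd (nat_lit 156) (nat_lit 1140) (nat_lit 0) (XT.nd (nat_lit 78) (nat_lit 0) (nat_lit 0) (XT.lf (nat_lit 0) (nat_lit 2578408045) (nat_lit 532) (nat_lit 1230982897) (nat_lit 608) (nat_lit 6450663354) (nat_lit 267) (nat_lit 5) (nat_lit 274) (nat_lit 5) (nat_lit 275) (nat_lit 5) (nat_lit 455) (nat_lit 383) (nat_lit 302)) (XT.lf (nat_lit 0) (nat_lit 6861519793) (nat_lit 608) (nat_lit 690948565) (nat_lit 76) (nat_lit 2813214102) (nat_lit 267) (nat_lit 5) (nat_lit 275) (nat_lit 5) (nat_lit 268) (nat_lit 5) (nat_lit 456) (nat_lit 383) (nat_lit 301))) (XT.nd (nat_lit 78) (nat_lit 608) (nat_lit 0) (XT.lf (nat_lit 0) (nat_lit 6477143200) (nat_lit 532) (nat_lit 3519269431) (nat_lit 608) (nat_lit 476576127) (nat_lit 260) (nat_lit 5) (nat_lit 267) (nat_lit 5) (nat_lit 268) (nat_lit 5) (nat_lit 457)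 (nat_lit 383) (nat_lit 300)) (XT.lf (nat_lit 0) (nat_lit 2578467567) (nat_lit 608) (nat_lit 7384953017) (nat_lit 76) (nat_lit 618658348) (nat_lit 252) (nat_lit 5) (nat_lit 260) (nat_lit 5) (nat_lit 253) (nat_lit 5) (nat_lit 458) (nat_lit 383) (nat_lit 299)))) (XT.nd (nat_lit 156) (nat_lit 1064) (nat_lit 0) (XT.nd (nat_lit 78) (nat_lit 532) (nat_lit 0) (XT.lf (nat_lit 0) (nat_lit 5710400202) (nat_lit 608) (nat_lit 170899700) (nat_lit 76) (nat_lit 4811544616) (nat_lit 252) (nat_lit 5) (nat_lit 260) (nat_lit 5) (nat_lit 253) (nat_lit 5) (nat_lit 459) (nat_lit 383) (nat_lit 298)) (XT.lf (nat_lit 0) (nat_lit 7243645710) (nat_lit 532) (nat_lit 1680773225) (nat_lit 608) (nat_lit 1881017531) (nat_lit 245) (nat_lit 5) (nat_lit 252) (nat_lit 5) (nat_lit 253) (nat_lit 5) (nat_lit 460) (nat_lit 383) (nat_lit 297))) (XT.nd (nat_lit 78) (nat_lit 532) (nat_lit 0) (XT.lf (nat_lit 0) (nat_lit 1281632677) (nat_lit 532) (nat_lit 7044840363) (nat_lit 76) (nat_lit 2593320400) (nat_lit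 238) (nat_lit 5) (nat_lit 245) (nat_lit 5) (nat_lit 239) (nat_lit 5) (nat_lit 461) (nat_lit 383) (nat_lit 296)) (XT.nd (nat_lit 78) (nat_lit 0) (nat_lit 0) (XT.lf (nat_lit 0) (nat_lit 415340260) (nat_lit 532) (nat_lit 4077659919) (nat_lit 608) (nat_lit 6542975680) (nat_lit 231) (nat_lit 5) (nat_lit 238) (nat_lit 5) (nat_lit 239) (nat_lit 5) (nat_lit 462) (nat_lit 383) (nat_lit 295)) (XT.lf (nat_lit 0) (nat_lit 7790790932) (nat_lit 608) (nat_lit 3074612384) (nat_lit 76) (nat_lit 288634693) (nat_lit 231) (nat_lit 5) (nat_lit 239) (nat_lit 5) (nat_lit 232) (nat_lit 5) (nat_lit 463) (nat_lit 383) (nat_lit 294)))))) (XT.nd (nat_lit 53274) (nat_lit 0) (nat_lit 42636) (XT.nd (nat_lit 156) (nat_lit 0) (nat_lit 0) (XT.nd (nat_lit 78) (nat_lit 532) (nat_lit 0) (XT.lf (nat_lit 0) (nat_lit 4617336010) (nat_lit 456) (nat_lit 6567660429) (nat_lit 532) (nat_lit 88855785) (nat_lit 225) (nat_lit 5) (nat_lit 231) (nat_lit 5) (nat_lit 232) (nat_lit 5) (nat_lit 464) (nat_lit 383)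 (nat_lit 293)) (XT.lf (nat_lit 0) (nat_lit 1063204456) (nat_lit 456) (nat_lit 2146426402) (nat_lit 532) (nat_lit 8185984801) (nat_lit 218) (nat_lit 5) (nat_lit 224) (nat_lit 5) (nat_lit 225) (nat_lit 5) (nat_lit 465) (nat_lit 383) (nat_lit 292))) (XT.nd (nat_lit 52962) (nat_lit 0) (nat_lit 43624) (XT.lf (nat_lit 0) (nat_lit 6606969616) (nat_lit 532) (nat_lit 2546433737) (nat_lit 76) (nat_lit 2365717822) (nat_lit 218) (nat_lit 5) (nat_lit 225) (nat_lit 5) (nat_lit 219) (nat_lit 5) (nat_lit 466) (nat_lit 383) (nat_lit 291)) (XT.nd (nat_lit 78) (nat_lit 380) (nat_lit 0) (XT.lf (nat_lit 0) (nat_lit 2467447967) (nat_lit 380) (nat_lit 384426527) (nat_lit 380) (nat_lit 384426527) (nat_lit 797) (nat_lit 3) (nat_lit 802) (nat_lit 3) (nat_lit 802) (nat_lit 5) (nat_lit 384) (nat_lit 384) (nat_lit 372)) (XT.lf (nat_lit 0) (nat_lit 1306468461) (nat_lit 380) (nat_lit 3989274122) (nat_lit 456) (nat_lit 1185003500) (nat_lit 792) (nat_lit 5) (nat_lit 797) (nat_lit 3) (nat_lit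 798) (nat_lit 5) (nat_lit 385) (nat_lit 384) (nat_lit 371))))) (XT.nd (nat_lit 156) (nat_lit 532) (nat_lit 0) (XT.nd (nat_lit 78) (nat_lit 456) (nat_lit 0) (XT.lf (nat_lit 0) (nat_lit 4117856864) (nat_lit 380) (nat_lit 710741921) (nat_lit 456) (nat_lit 1661632529) (nat_lit 792) (nat_lit 5) (nat_lit 797) (nat_lit 3) (nat_lit 798) (nat_lit 5) (nat_lit 386) (nat_lit 384) (nat_lit 370)) (XT.lf (nat_lit 0) (nat_lit 423066513) (nat_lit 456) (nat_lit 3874191291) (nat_lit 532) (nat_lit 2203708033) (nat_lit 786) (nat_lit 5) (nat_lit 792) (nat_lit 5) (nat_lit 793) (nat_lit 5) (nat_lit 387) (nat_lit 384) (nat_lit 369))) (XT.nd (nat_lit 78) (nat_lit 532) (nat_lit 0) (XT.lf (nat_lit 0) (nat_lit 3175352064) (nat_lit 456) (nat_lit 525828936) (nat_lit 532) (nat_lit 2811766386) (nat_lit 786) (nat_lit 5) (nat_lit 792) (nat_lit 5) (nat_lit 793) (nat_lit 5) (nat_lit 388) (nat_lit 384) (nat_lit 368)) (XT.nd (nat_lit 78) (nat_lit 532) (nat_lit 0) (XT.lf (nat_lit 76) (nat_lit 2889214568)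 (nat_lit 0) (nat_lit 3041512872) (nat_lit 532) (nat_lit 595480243) (nat_lit 787) (nat_lit 5) (nat_lit 786) (nat_lit 5) (nat_lit 793) (nat_lit 5) (nat_lit 389) (nat_lit 384) (nat_lit 367)) (XT.lf (nat_lit 0) (nat_lit 2106121299) (nat_lit 532) (nat_lit 213150958) (nat_lit 608) (nat_lit 4221504722) (nat_lit 779) (nat_lit 5) (nat_lit 786) (nat_lit 5) (nat_lit 787) (nat_lit 5) (nat_lit 390) (nat_lit 384) (nat_lit 366))))))) (XT.nd (nat_lit 702) (nat_lit 5928) (nat_lit 0) (XT.nd (nat_lit 312) (nat_lit 1368) (nat_lit 0) (XT.nd (nat_lit 156) (nat_lit 0) (nat_lit 76) (XT.nd (nat_lit 78) (nat_lit 608) (nat_lit 0) (XT.lf (nat_lit 76) (nat_lit 3280147901) (nat_lit 0) (nat_lit 1526276048) (nat_lit 608) (nat_lit 1750082138) (nat_lit 780) (nat_lit 5) (nat_lit 779) (nat_lit 5) (nat_lit 787) (nat_lit 5) (nat_lit 391) (nat_lit 384) (nat_lit 365)) (XT.lf (nat_lit 76) (nat_lit 231542740) (nat_lit 0) (nat_lit 678614468) (nat_lit 684) (nat_lit 5663565560) (nat_lit 772) (nat_lit 5)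 (nat_lit 771) (nat_lit 5) (nat_lit 780) (nat_lit 5) (nat_lit 392) (nat_lit 384) (nat_lit 364))) (XT.nd (nat_lit 78) (nat_lit 0) (nat_lit 0) (XT.lf (nat_lit 0) (nat_lit 3556788510) (nat_lit 608) (nat_lit 2789791284) (nat_lit 684) (nat_lit 245340212) (nat_lit 772) (nat_lit 5) (nat_lit 780) (nat_lit 5) (nat_lit 781) (nat_lit 5) (nat_lit 393) (nat_lit 384) (nat_lit 363)) (XT.lf (nat_lit 76) (nat_lit 800415736) (nat_lit 0) (nat_lit 5400195838) (nat_lit 684) (nat_lit 410984433) (nat_lit 773) (nat_lit 5) (nat_lit 772) (nat_lit 5) (nat_lit 781) (nat_lit 5) (nat_lit 394) (nat_lit 384) (nat_lit 362)))) (XT.nd (nat_lit 156) (nat_lit 760) (nat_lit 0) (XT.nd (nat_lit 78) (nat_lit 0) (nat_lit 0) (XT.lf (nat_lit 0) (nat_lit 2189947764) (nat_lit 684) (nat_lit 2185718292) (nat_lit 760) (nat_lit 2256624938) (nat_lit 763) (nat_lit 5) (nat_lit 772) (nat_lit 5) (nat_lit 773) (nat_lit 5) (nat_lit 395) (nat_lit 384) (nat_lit 361)) (XT.lf (nat_lit 76) (nat_lit 1490017748) (nat_lit 0)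 (nat_lit 3293499843) (nat_lit 760) (nat_lit 1870905517) (nat_lit 764) (nat_lit 5) (nat_lit 763) (nat_lit 5) (nat_lit 773) (nat_lit 5) (nat_lit 396) (nat_lit 384) (nat_lit 360))) (XT.nd (nat_lit 78) (nat_lit 0) (nat_lit 0) (XT.lf (nat_lit 0) (nat_lit 693886032) (nat_lit 760) (nat_lit 1452422655) (nat_lit 836) (nat_lit 4531555788) (nat_lit 753) (nat_lit 5) (nat_lit 763) (nat_lit 5) (nat_lit 764) (nat_lit 5) (nat_lit 397) (nat_lit 384) (nat_lit 359)) (XT.nd (nat_lit 78) (nat_lit 0) (nat_lit 76) (XT.lf (nat_lit 76) (nat_lit 2312885401) (nat_lit 0) (nat_lit 925334370) (nat_lit 836) (nat_lit 3464241610) (nat_lit 754) (nat_lit 5) (nat_lit 753) (nat_lit 5) (nat_lit 764) (nat_lit 5) (nat_lit 398) (nat_lit 384) (nat_lit 358)) (XT.lf (nat_lit 0) (nat_lit 5784690882) (nat_lit 760) (nat_lit 596272407) (nat_lit 76) (nat_lit 347561924) (nat_lit 754) (nat_lit 5) (nat_lit 764) (nat_lit 5) (nat_lit 755) (nat_lit 5) (nat_lit 399) (nat_lit 384) (nat_lit 357)))))) (XT.nd (nat_lit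 390) (nat_lit 3344) (nat_lit 0) (XT.nd (nat_lit 156) (nat_lit 988) (nat_lit 0) (XT.nd (nat_lit 78) (nat_lit 836) (nat_lit 0) (XT.lf (nat_lit 0) (nat_lit 1573343215) (nat_lit 836) (nat_lit 3495619376) (nat_lit 76) (nat_lit 1686582454) (nat_lit 743) (nat_lit 5) (nat_lit 754) (nat_lit 5) (nat_lit 744) (nat_lit 5) (nat_lit 400) (nat_lit 384) (nat_lit 356)) (XT.lf (nat_lit 0) (nat_lit 377272161) (nat_lit 836) (nat_lit 3698519219) (nat_lit 912) (nat_lit 2708237819) (nat_lit 732) (nat_lit 5) (nat_lit 743) (nat_lit 5) (nat_lit 744) (nat_lit 5) (nat_lit 401) (nat_lit 384) (nat_lit 355))) (XT.nd (nat_lit 78) (nat_lit 988) (nat_lit 0) (XT.lf (nat_lit 0) (nat_lit 4335562916) (nat_lit 836) (nat_lit 2258158221) (nat_lit 912) (nat_lit 220053247) (nat_lit 732) (nat_lit 5) (nat_lit 743) (nat_lit 5) (nat_lit 744) (nat_lit 5) (nat_lit 402) (nat_lit 384) (nat_lit 354)) (XT.nd (nat_lit 78) (nat_lit 0) (nat_lit 0) (XT.lf (nat_lit 0) (nat_lit 1494019765) (nat_lit 912) (nat_lit 745911995)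 (nat_lit 988) (nat_lit 4604832999) (nat_lit 719) (nat_lit 5) (nat_lit 731) (nat_lit 5) (nat_lit 732) (nat_lit 5) (nat_lit 403) (nat_lit 384) (nat_lit 353)) (XT.lf (nat_lit 0) (nat_lit 4711801383) (nat_lit 988) (nat_lit 1343903870) (nat_lit 76) (nat_lit 821327968) (nat_lit 719) (nat_lit 5) (nat_lit 732) (nat_lit 5) (nat_lit 720) (nat_lit 5) (nat_lit 404) (nat_lit 384) (nat_lit 352))))) (XT.nd (nat_lit 156) (nat_lit 2280) (nat_lit 0) (XT.nd (nat_lit 78) (nat_lit 0) (nat_lit 0) (XT.lf (nat_lit 0) (nat_lit 286221205) (nat_lit 1064) (nat_lit 4178101942) (nat_lit 76) (nat_lit 2446235980) (nat_lit 705) (nat_lit 5) (nat_lit 719) (nat_lit 5) (nat_lit 706) (nat_lit 5) (nat_lit 405) (nat_lit 384) (nat_lit 351)) (XT.lf (nat_lit 0) (nat_lit 2712102564) (nat_lit 1064) (nat_lit 90496463) (nat_lit 76) (nat_lit 4142782445) (nat_lit 705) (nat_lit 5) (nat_lit 719) (nat_lit 5) (nat_lit 706) (nat_lit 5) (nat_lit 406) (nat_lit 384) (nat_lit 350))) (XT.nd (nat_lit 78) (nat_lit 1216)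 (nat_lit 0) (XT.lf (nat_lit 0) (nat_lit 4093246053) (nat_lit 1064) (nat_lit 1066190959) (nat_lit 1140) (nat_lit 1822004543) (nat_lit 691) (nat_lit 5) (nat_lit 705) (nat_lit 5) (nat_lit 706) (nat_lit 5) (nat_lit 407) (nat_lit 384) (nat_lit 349)) (XT.nd (nat_lit 78) (nat_lit 0) (nat_lit 0) (XT.lf (nat_lit 0) (nat_lit 589857091) (nat_lit 1216) (nat_lit 5706710214) (nat_lit 76) (nat_lit 722358301) (nat_lit 675) (nat_lit 5) (nat_lit 691) (nat_lit 5) (nat_lit 676) (nat_lit 5) (nat_lit 408) (nat_lit 384) (nat_lit 348)) (XT.lf (nat_lit 0) (nat_lit 2999830906) (nat_lit 1216) (nat_lit 1480860018) (nat_lit 76) (nat_lit 2576742113) (nat_lit 675) (nat_lit 5) (nat_lit 691) (nat_lit 5) (nat_lit 676) (nat_lit 5) (nat_lit 409) (nat_lit 384) (nat_lit 347))))))))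
noncomputable def xc63 : XT := (XT.nd (nat_lit 1482) (nat_lit 10868) (nat_lit 0) (XT.nd (nat_lit 702) (nat_lit 8436) (nat_lit 0) (XT.nd (nat_lit 312) (nat_lit 4712) (nat_lit 0) (XT.nd (nat_lit 156) (nat_lit 1368) (nat_lit 0) (XT.nd (nat_lit 78) (nat_lit 1368) (nat_lit 0) (XT.lf (nat_lit 0) (nat_lit 2826759475) (nat_lit 1216) (nat_lit 2598302086) (nat_lit 1292) (nat_lit 1672307909) (nat_lit 659) (nat_lit 5) (nat_lit 675) (nat_lit 5) (nat_lit 676) (nat_lit 5) (nat_lit 410) (nat_lit 384) (nat_lit 346)) (XT.lf (nat_lit 0) (nat_lit 58222419) (nat_lit 1292) (nat_lit 651992718) (nat_lit 1368) (nat_lit 6428600725) (nat_lit 641) (nat_lit 5) (nat_lit 658) (nat_lit 5) (nat_lit 659) (nat_lit 5) (nat_lit 411) (nat_lit 384) (nat_lit 345))) (XT.nd (nat_lit 78) (nat_lit 1368) (nat_lit 0) (XT.lf (nat_lit 0) (nat_lit 3105444086) (nat_lit 1368) (nat_lit 2709957853) (nat_lit 76) (nat_lit 1365719211) (nat_lit 641) (nat_lit 5) (nat_lit 659) (nat_lit 5) (nat_lit 642) (nat_lit 5) (nat_lit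 412) (nat_lit 384) (nat_lit 344)) (XT.lf (nat_lit 0) (nat_lit 1726176850) (nat_lit 1368) (nat_lit 3788830578) (nat_lit 1444) (nat_lit 1709936519) (nat_lit 623) (nat_lit 5) (nat_lit 641) (nat_lit 5) (nat_lit 642) (nat_lit 5) (nat_lit 413) (nat_lit 384) (nat_lit 343)))) (XT.nd (nat_lit 156) (nat_lit 3192) (nat_lit 0) (XT.nd (nat_lit 78) (nat_lit 1444) (nat_lit 0) (XT.lf (nat_lit 0) (nat_lit 663490143) (nat_lit 1444) (nat_lit 1026814152) (nat_lit 76) (nat_lit 5579855745) (nat_lit 622) (nat_lit 5) (nat_lit 641) (nat_lit 5) (nat_lit 623) (nat_lit 5) (nat_lit 414) (nat_lit 384) (nat_lit 342)) (XT.lf (nat_lit 0) (nat_lit 3039871570) (nat_lit 1520) (nat_lit 3790026398) (nat_lit 76) (nat_lit 486588789) (nat_lit 603) (nat_lit 5) (nat_lit 623) (nat_lit 5) (nat_lit 604) (nat_lit 5) (nat_lit 415) (nat_lit 384) (nat_lit 341))) (XT.nd (nat_lit 78) (nat_lit 1672) (nat_lit 0) (XT.lf (nat_lit 0) (nat_lit 779551630) (nat_lit 1520) (nat_lit 4660391239) (nat_lit 1596) (nat_lit 1924273894)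 (nat_lit 583) (nat_lit 5) (nat_lit 603) (nat_lit 5) (nat_lit 604) (nat_lit 5) (nat_lit 416) (nat_lit 384) (nat_lit 340)) (XT.nd (nat_lit 78) (nat_lit 1596) (nat_lit 0) (XT.lf (nat_lit 0) (nat_lit 447808755) (nat_lit 1596) (nat_lit 1964652921) (nat_lit 76) (nat_lit 5000799482) (nat_lit 582) (nat_lit 5) (nat_lit 603) (nat_lit 5) (nat_lit 583) (nat_lit 5) (nat_lit 417) (nat_lit 384) (nat_lit 339)) (XT.lf (nat_lit 0) (nat_lit 2730728970) (nat_lit 1596) (nat_lit 82831299) (nat_lit 1672) (nat_lit 4650031921) (nat_lit 561) (nat_lit 5) (nat_lit 582) (nat_lit 5) (nat_lit 583) (nat_lit 5) (nat_lit 418) (nat_lit 384) (nat_lit 338)))))) (XT.nd (nat_lit 390) (nat_lit 3116) (nat_lit 0) (XT.nd (nat_lit 156) (nat_lit 3572) (nat_lit 0) (XT.nd (nat_lit 78) (nat_lit 1748) (nat_lit 0) (XT.lf (nat_lit 0) (nat_lit 5209700575) (nat_lit 1672) (nat_lit 23767764) (nat_lit 76) (nat_lit 2281800026) (nat_lit 561) (nat_lit 5) (nat_lit 583) (nat_lit 5) (nat_lit 562) (nat_lit 5) (nat_lit 419)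 (nat_lit 384) (nat_lit 337)) (XT.lf (nat_lit 0) (nat_lit 72100438) (nat_lit 1748) (nat_lit 2766736743) (nat_lit 76) (nat_lit 4729380946) (nat_lit 538) (nat_lit 5) (nat_lit 561) (nat_lit 5) (nat_lit 539) (nat_lit 5) (nat_lit 420) (nat_lit 384) (nat_lit 336))) (XT.nd (nat_lit 78) (nat_lit 1824) (nat_lit 0) (XT.lf (nat_lit 0) (nat_lit 2072956820) (nat_lit 1748) (nat_lit 363258722) (nat_lit 1824) (nat_lit 5186311245) (nat_lit 515) (nat_lit 5) (nat_lit 538) (nat_lit 5) (nat_lit 539) (nat_lit 5) (nat_lit 421) (nat_lit 384) (nat_lit 335)) (XT.nd (nat_lit 78) (nat_lit 1824) (nat_lit 0) (XT.lf (nat_lit 0) (nat_lit 4837076532) (nat_lit 1824) (nat_lit 685677540) (nat_lit 76) (nat_lit 2155378275) (nat_lit 515) (nat_lit 5) (nat_lit 539) (nat_lit 5) (nat_lit 516) (nat_lit 5) (nat_lit 422) (nat_lit 384) (nat_lit 334)) (XT.lf (nat_lit 0) (nat_lit 4289226965) (nat_lit 1824) (nat_lit 2984568564) (nat_lit 1900) (nat_lit 461297674) (nat_lit 491) (nat_lit 5) (nat_lit 515) (nat_lit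 5) (nat_lit 516) (nat_lit 5) (nat_lit 423) (nat_lit 384) (nat_lit 333))))) (XT.nd (nat_lit 156) (nat_lit 1900) (nat_lit 0) (XT.nd (nat_lit 78) (nat_lit 0) (nat_lit 0) (XT.lf (nat_lit 0) (nat_lit 1546905505) (nat_lit 1140) (nat_lit 365922622) (nat_lit 1216) (nat_lit 5880658698) (nat_lit 475) (nat_lit 5) (nat_lit 490) (nat_lit 5) (nat_lit 491) (nat_lit 5) (nat_lit 424) (nat_lit 384) (nat_lit 332)) (XT.lf (nat_lit 0) (nat_lit 4324965114) (nat_lit 1216) (nat_lit 1225502057) (nat_lit 76) (nat_lit 2302586055) (nat_lit 475) (nat_lit 5) (nat_lit 491) (nat_lit 5) (nat_lit 476) (nat_lit 5) (nat_lit 425) (nat_lit 384) (nat_lit 331))) (XT.nd (nat_lit 78) (nat_lit 988) (nat_lit 0) (XT.lf (nat_lit 0) (nat_lit 3904604448) (nat_lit 912) (nat_lit 2867786320) (nat_lit 988) (nat_lit 1141679269) (nat_lit 463) (nat_lit 5) (nat_lit 475) (nat_lit 5) (nat_lit 476) (nat_lit 5) (nat_lit 426) (nat_lit 384) (nat_lit 330)) (XT.nd (nat_lit 78) (nat_lit 0) (nat_lit 0) (XT.lf (nat_lit 0) (nat_lit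 1143884789) (nat_lit 912) (nat_lit 106871833) (nat_lit 988) (nat_lit 6725877739) (nat_lit 450) (nat_lit 5) (nat_lit 462) (nat_lit 5) (nat_lit 463) (nat_lit 5) (nat_lit 427) (nat_lit 384) (nat_lit 329)) (XT.lf (nat_lit 0) (nat_lit 3680517765) (nat_lit 988) (nat_lit 1651574101) (nat_lit 76) (nat_lit 2708111902) (nat_lit 450) (nat_lit 5) (nat_lit 463) (nat_lit 5) (nat_lit 451) (nat_lit 5) (nat_lit 428) (nat_lit 384) (nat_lit 328))))))) (XT.nd (nat_lit 780) (nat_lit 4940) (nat_lit 0) (XT.nd (nat_lit 390) (nat_lit 2432) (nat_lit 0) (XT.nd (nat_lit 156) (nat_lit 1672) (nat_lit 0) (XT.nd (nat_lit 78) (nat_lit 988) (nat_lit 0) (XT.lf (nat_lit 0) (nat_lit 3640076506) (nat_lit 836) (nat_lit 2503997216) (nat_lit 912) (nat_lit 1961266850) (nat_lit 439) (nat_lit 5) (nat_lit 450) (nat_lit 5) (nat_lit 451) (nat_lit 5) (nat_lit 429) (nat_lit 384) (nat_lit 327)) (XT.lf (nat_lit 0) (nat_lit 459175551) (nat_lit 988) (nat_lit 7318794867) (nat_lit 76) (nat_lit 394138353) (nat_lit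 426) (nat_lit 5) (nat_lit 439) (nat_lit 5) (nat_lit 427) (nat_lit 5) (nat_lit 430) (nat_lit 384) (nat_lit 326))) (XT.nd (nat_lit 78) (nat_lit 1672) (nat_lit 0) (XT.lf (nat_lit 0) (nat_lit 2910136166) (nat_lit 988) (nat_lit 1971515041) (nat_lit 76) (nat_lit 3358134433) (nat_lit 426) (nat_lit 5) (nat_lit 439) (nat_lit 5) (nat_lit 427) (nat_lit 5) (nat_lit 431) (nat_lit 384) (nat_lit 325)) (XT.nd (nat_lit 78) (nat_lit 836) (nat_lit 0) (XT.lf (nat_lit 0) (nat_lit 3488339466) (nat_lit 836) (nat_lit 1906778773) (nat_lit 912) (nat_lit 2913997763) (nat_lit 415) (nat_lit 5) (nat_lit 426) (nat_lit 5) (nat_lit 427) (nat_lit 5) (nat_lit 432) (nat_lit 384) (nat_lit 324)) (XT.lf (nat_lit 0) (nat_lit 665280655) (nat_lit 836) (nat_lit 7252292882) (nat_lit 912) (nat_lit 462503962) (nat_lit 404) (nat_lit 5) (nat_lit 415) (nat_lit 5) (nat_lit 416) (nat_lit 5) (nat_lit 433) (nat_lit 384) (nat_lit 323))))) (XT.nd (nat_lit 156) (nat_lit 1596) (nat_lit 0) (XT.nd (nat_lit 78) (nat_lit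 760) (nat_lit 0) (XT.lf (nat_lit 0) (nat_lit 2019522319) (nat_lit 912) (nat_lit 2192286649) (nat_lit 76) (nat_lit 4240219983) (nat_lit 403) (nat_lit 5) (nat_lit 415) (nat_lit 5) (nat_lit 404) (nat_lit 5) (nat_lit 434) (nat_lit 384) (nat_lit 322)) (XT.lf (nat_lit 0) (nat_lit 3442756096) (nat_lit 760) (nat_lit 1088362997) (nat_lit 836) (nat_lit 3994516737) (nat_lit 393) (nat_lit 5) (nat_lit 403) (nat_lit 5) (nat_lit 404) (nat_lit 5) (nat_lit 435) (nat_lit 384) (nat_lit 321))) (XT.nd (nat_lit 78) (nat_lit 836) (nat_lit 0) (XT.lf (nat_lit 0) (nat_lit 573163294) (nat_lit 760) (nat_lit 6516124582) (nat_lit 836) (nat_lit 1511500171) (nat_lit 383) (nat_lit 5) (nat_lit 393) (nat_lit 5) (nat_lit 394) (nat_lit 5) (nat_lit 436) (nat_lit 384) (nat_lit 320)) (XT.nd (nat_lit 78) (nat_lit 760) (nat_lit 0) (XT.lf (nat_lit 0) (nat_lit 1013724504) (nat_lit 836) (nat_lit 2320238854) (nat_lit 76) (nat_lit 5343228532) (nat_lit 382) (nat_lit 5) (nat_lit 393) (nat_lit 5) (nat_lit 383)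 (nat_lit 5) (nat_lit 437) (nat_lit 384) (nat_lit 319)) (XT.lf (nat_lit 0) (nat_lit 3497308603) (nat_lit 760) (nat_lit 59728228) (nat_lit 836) (nat_lit 5198130715) (nat_lit 372) (nat_lit 5) (nat_lit 382) (nat_lit 5) (nat_lit 383) (nat_lit 5) (nat_lit 438) (nat_lit 384) (nat_lit 318)))))) (XT.nd (nat_lit 390) (nat_lit 2736) (nat_lit 0) (XT.nd (nat_lit 156) (nat_lit 1444) (nat_lit 0) (XT.nd (nat_lit 78) (nat_lit 0) (nat_lit 0) (XT.lf (nat_lit 0) (nat_lit 574160063) (nat_lit 760) (nat_lit 5583242813) (nat_lit 836) (nat_lit 2677176091) (nat_lit 362) (nat_lit 5) (nat_lit 372) (nat_lit 5) (nat_lit 373) (nat_lit 5) (nat_lit 439) (nat_lit 384) (nat_lit 317)) (XT.lf (nat_lit 0) (nat_lit 6553716733) (nat_lit 760) (nat_lit 2257643201) (nat_lit 836) (nat_lit 104187008) (nat_lit 362) (nat_lit 5) (nat_lit 372) (nat_lit 5) (nat_lit 373) (nat_lit 5) (nat_lit 440) (nat_lit 384) (nat_lit 316))) (XT.nd (nat_lit 78) (nat_lit 684) (nat_lit 0) (XT.lf (nat_lit 0) (nat_lit 2484830872)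 (nat_lit 760) (nat_lit 5359043002) (nat_lit 76) (nat_lit 1153980684) (nat_lit 352) (nat_lit 5) (nat_lit 362) (nat_lit 5) (nat_lit 353) (nat_lit 5) (nat_lit 441) (nat_lit 384) (nat_lit 315)) (XT.nd (nat_lit 78) (nat_lit 0) (nat_lit 0) (XT.lf (nat_lit 0) (nat_lit 662937241) (nat_lit 684) (nat_lit 4463226790) (nat_lit 760) (nat_lit 3955591922) (nat_lit 343) (nat_lit 5) (nat_lit 352) (nat_lit 5) (nat_lit 353) (nat_lit 5) (nat_lit 442) (nat_lit 384) (nat_lit 314)) (XT.lf (nat_lit 0) (nat_lit 6838262372) (nat_lit 684) (nat_lit 985137132) (nat_lit 760) (nat_lit 1343874360) (nat_lit 343) (nat_lit 5) (nat_lit 352) (nat_lit 5) (nat_lit 353) (nat_lit 5) (nat_lit 443) (nat_lit 384) (nat_lit 313))))) (XT.nd (nat_lit 156) (nat_lit 1292) (nat_lit 0) (XT.nd (nat_lit 78) (nat_lit 684) (nat_lit 0) (XT.lf (nat_lit 0) (nat_lit 1312353643) (nat_lit 760) (nat_lit 5385700420) (nat_lit 76) (nat_lit 2556084871) (nat_lit 333) (nat_lit 5) (nat_lit 343) (nat_lit 5) (nat_lit 334) (nat_lit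 5) (nat_lit 444) (nat_lit 384) (nat_lit 312)) (XT.lf (nat_lit 0) (nat_lit 834672038) (nat_lit 684) (nat_lit 3164613682) (nat_lit 760) (nat_lit 5343366444) (nat_lit 324) (nat_lit 5) (nat_lit 333) (nat_lit 5) (nat_lit 334) (nat_lit 5) (nat_lit 445) (nat_lit 384) (nat_lit 311))) (XT.nd (nat_lit 78) (nat_lit 1292) (nat_lit 0) (XT.lf (nat_lit 0) (nat_lit 6747395024) (nat_lit 760) (nat_lit 2222899140) (nat_lit 76) (nat_lit 462492723) (nat_lit 324) (nat_lit 5) (nat_lit 334) (nat_lit 5) (nat_lit 325) (nat_lit 5) (nat_lit 446) (nat_lit 384) (nat_lit 310)) (XT.nd (nat_lit 78) (nat_lit 608) (nat_lit 0) (XT.lf (nat_lit 0) (nat_lit 42458455) (nat_lit 684) (nat_lit 5342149300) (nat_lit 76) (nat_lit 4139772130) (nat_lit 315) (nat_lit 5) (nat_lit 324) (nat_lit 5) (nat_lit 316) (nat_lit 5) (nat_lit 447) (nat_lit 384) (nat_lit 309)) (XT.lf (nat_lit 0) (nat_lit 1085017252) (nat_lit 608) (nat_lit 1694967190) (nat_lit 684) (nat_lit 6837643771) (nat_lit 307) (nat_lit 5) (nat_lit 315)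 (nat_lit 5) (nat_lit 316) (nat_lit 5) (nat_lit 448) (nat_lit 384) (nat_lit 308))))))))
noncomputable def xc64 : XT := (XT.nd (nat_lit 54444) (nat_lit 0) (nat_lit 38076) (XT.nd (nat_lit 702) (nat_lit 3192) (nat_lit 0) (XT.nd (nat_lit 312) (nat_lit 2280) (nat_lit 0) (XT.nd (nat_lit 156) (nat_lit 684) (nat_lit 0) (XT.nd (nat_lit 78) (nat_lit 608) (nat_lit 0) (XT.lf (nat_lit 0) (nat_lit 5591057818) (nat_lit 684) (nat_lit 2052267796) (nat_lit 76) (nat_lit 2069039958) (nat_lit 307) (nat_lit 5) (nat_lit 316) (nat_lit 5) (nat_lit 308) (nat_lit 5) (nat_lit 449) (nat_lit 384) (nat_lit 307)) (XT.lf (nat_lit 0) (nat_lit 4567421234) (nat_lit 608) (nat_lit 3901694407) (nat_lit 684) (nat_lit 1339666774) (nat_lit 299) (nat_lit 5) (nat_lit 307) (nat_lit 5) (nat_lit 308) (nat_lit 5) (nat_lit 450) (nat_lit 384) (nat_lit 306))) (XT.nd (nat_lit 78) (nat_lit 0) (nat_lit 0) (XT.lf (nat_lit 0) (nat_lit 1410068783) (nat_lit 608) (nat_lit 60940433) (nat_lit 684) (nat_lit 8436063040) (nat_lit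 290) (nat_lit 5) (nat_lit 298) (nat_lit 5) (nat_lit 299) (nat_lit 5) (nat_lit 451) (nat_lit 384) (nat_lit 305)) (XT.lf (nat_lit 0) (nat_lit 4350723880) (nat_lit 684) (nat_lit 1814550560) (nat_lit 76) (nat_lit 3841261084) (nat_lit 290) (nat_lit 5) (nat_lit 299) (nat_lit 5) (nat_lit 291) (nat_lit 5) (nat_lit 452) (nat_lit 384) (nat_lit 304)))) (XT.nd (nat_lit 156) (nat_lit 1064) (nat_lit 0) (XT.nd (nat_lit 78) (nat_lit 684) (nat_lit 0) (XT.lf (nat_lit 0) (nat_lit 5028512575) (nat_lit 532) (nat_lit 2263456111) (nat_lit 608) (nat_lit 2815940654) (nat_lit 283) (nat_lit 5) (nat_lit 290) (nat_lit 5) (nat_lit 291) (nat_lit 5) (nat_lit 453) (nat_lit 384) (nat_lit 303)) (XT.lf (nat_lit 0) (nat_lit 85912458) (nat_lit 684) (nat_lit 8416307496) (nat_lit 76) (nat_lit 1708955327) (nat_lit 274) (nat_lit 5) (nat_lit 283) (nat_lit 5) (nat_lit 275) (nat_lit 5) (nat_lit 454) (nat_lit 384) (nat_lit 302))) (XT.nd (nat_lit 78) (nat_lit 1064) (nat_lit 0) (XT.lf (nat_lit 0) (nat_lit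 3028703554) (nat_lit 684) (nat_lit 1513190223) (nat_lit 76) (nat_lit 5773828369) (nat_lit 274) (nat_lit 5) (nat_lit 283) (nat_lit 5) (nat_lit 275) (nat_lit 5) (nat_lit 455) (nat_lit 384) (nat_lit 301)) (XT.nd (nat_lit 78) (nat_lit 532) (nat_lit 0) (XT.lf (nat_lit 0) (nat_lit 5562738397) (nat_lit 532) (nat_lit 475562579) (nat_lit 608) (nat_lit 4383899962) (nat_lit 267) (nat_lit 5) (nat_lit 274) (nat_lit 5) (nat_lit 275) (nat_lit 5) (nat_lit 456) (nat_lit 384) (nat_lit 300)) (XT.lf (nat_lit 0) (nat_lit 2237074150) (nat_lit 532) (nat_lit 6891677816) (nat_lit 608) (nat_lit 1401644108) (nat_lit 260) (nat_lit 5) (nat_lit 267) (nat_lit 5) (nat_lit 268) (nat_lit 5) (nat_lit 457) (nat_lit 384) (nat_lit 299)))))) (XT.nd (nat_lit 390) (nat_lit 1520) (nat_lit 0) (XT.nd (nat_lit 156) (nat_lit 1064) (nat_lit 0) (XT.nd (nat_lit 78) (nat_lit 532) (nat_lit 0) (XT.lf (nat_lit 0) (nat_lit 1626909978) (nat_lit 608) (nat_lit 1151269311) (nat_lit 76) (nat_lit 7862199523) (nat_lit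 259) (nat_lit 5) (nat_lit 267) (nat_lit 5) (nat_lit 260) (nat_lit 5) (nat_lit 458) (nat_lit 384) (nat_lit 298)) (XT.lf (nat_lit 0) (nat_lit 4719525527) (nat_lit 608) (nat_lit 4594161421) (nat_lit 76) (nat_lit 1438243791) (nat_lit 252) (nat_lit 5) (nat_lit 260) (nat_lit 5) (nat_lit 253) (nat_lit 5) (nat_lit 459) (nat_lit 384) (nat_lit 297))) (XT.nd (nat_lit 78) (nat_lit 532) (nat_lit 0) (XT.lf (nat_lit 0) (nat_lit 2742524195) (nat_lit 532) (nat_lit 5148408540) (nat_lit 608) (nat_lit 2974442183) (nat_lit 245) (nat_lit 5) (nat_lit 252) (nat_lit 5) (nat_lit 253) (nat_lit 5) (nat_lit 460) (nat_lit 384) (nat_lit 296)) (XT.nd (nat_lit 78) (nat_lit 456) (nat_lit 0) (XT.lf (nat_lit 0) (nat_lit 146881496) (nat_lit 608) (nat_lit 731534164) (nat_lit 76) (nat_lit 10102571555) (nat_lit 244) (nat_lit 5) (nat_lit 252) (nat_lit 5) (nat_lit 245) (nat_lit 5) (nat_lit 461) (nat_lit 384) (nat_lit 295)) (XT.lf (nat_lit 0) (nat_lit 3331774126) (nat_lit 532) (nat_lit 4280854529) (nat_lit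 76) (nat_lit 3485070478) (nat_lit 238) (nat_lit 5) (nat_lit 245) (nat_lit 5) (nat_lit 239) (nat_lit 5) (nat_lit 462) (nat_lit 384) (nat_lit 294))))) (XT.nd (nat_lit 156) (nat_lit 988) (nat_lit 0) (XT.nd (nat_lit 78) (nat_lit 0) (nat_lit 0) (XT.lf (nat_lit 0) (nat_lit 3309418636) (nat_lit 532) (nat_lit 3276990433) (nat_lit 608) (nat_lit 4630215329) (nat_lit 231) (nat_lit 5) (nat_lit 238) (nat_lit 5) (nat_lit 239) (nat_lit 5) (nat_lit 463) (nat_lit 384) (nat_lit 293)) (XT.lf (nat_lit 0) (nat_lit 9916486028) (nat_lit 608) (nat_lit 273247206) (nat_lit 76) (nat_lit 1147987950) (nat_lit 231) (nat_lit 5) (nat_lit 239) (nat_lit 5) (nat_lit 232) (nat_lit 5) (nat_lit 464) (nat_lit 384) (nat_lit 292))) (XT.nd (nat_lit 78) (nat_lit 456) (nat_lit 0) (XT.lf (nat_lit 0) (nat_lit 1873187290) (nat_lit 532) (nat_lit 3918952912) (nat_lit 76) (nat_lit 5667948204) (nat_lit 224) (nat_lit 5) (nat_lit 231) (nat_lit 5) (nat_lit 225) (nat_lit 5) (nat_lit 465) (nat_lit 384) (nat_lit 291))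 (XT.nd (nat_lit 53040) (nat_lit 0) (nat_lit 43624) (XT.lf (nat_lit 0) (nat_lit 3935691452) (nat_lit 456) (nat_lit 1280792608) (nat_lit 532) (nat_lit 6368190702) (nat_lit 218) (nat_lit 5) (nat_lit 224) (nat_lit 5) (nat_lit 225) (nat_lit 5) (nat_lit 466) (nat_lit 384) (nat_lit 290)) (XT.lf (nat_lit 0) (nat_lit 1022009023) (nat_lit 0) (nat_lit 1022009023) (nat_lit 380) (nat_lit 1200751573) (nat_lit 792) (nat_lit 5) (nat_lit 792) (nat_lit 3) (nat_lit 797) (nat_lit 3) (nat_lit 385) (nat_lit 385) (nat_lit 370))))))) (XT.nd (nat_lit 702) (nat_lit 3268) (nat_lit 0) (XT.nd (nat_lit 312) (nat_lit 1292) (nat_lit 0) (XT.nd (nat_lit 156) (nat_lit 456) (nat_lit 0) (XT.nd (nat_lit 78) (nat_lit 0) (nat_lit 0) (XT.lf (nat_lit 0) (nat_lit 355577853) (nat_lit 532) (nat_lit 1185003500) (nat_lit 532) (nat_lit 4959182542) (nat_lit 785) (nat_lit 3) (nat_lit 792) (nat_lit 3) (nat_lit 792) (nat_lit 5) (nat_lit 386) (nat_lit 385) (nat_lit 369)) (XT.lf (nat_lit 76) (nat_lit 2115791018)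 (nat_lit 0) (nat_lit 961505771) (nat_lit 532) (nat_lit 3433745726) (nat_lit 786) (nat_lit 5) (nat_lit 785) (nat_lit 3) (nat_lit 792) (nat_lit 5) (nat_lit 387) (nat_lit 385) (nat_lit 368))) (XT.nd (nat_lit 78) (nat_lit 456) (nat_lit 0) (XT.lf (nat_lit 76) (nat_lit 5462127912) (nat_lit 0) (nat_lit 328336252) (nat_lit 532) (nat_lit 733342263) (nat_lit 786) (nat_lit 5) (nat_lit 785) (nat_lit 3) (nat_lit 792) (nat_lit 5) (nat_lit 388) (nat_lit 385) (nat_lit 367)) (XT.lf (nat_lit 0) (nat_lit 1942076144) (nat_lit 532) (nat_lit 4221017307) (nat_lit 608) (nat_lit 374519454) (nat_lit 779) (nat_lit 5) (nat_lit 786) (nat_lit 5) (nat_lit 787) (nat_lit 5) (nat_lit 389) (nat_lit 385) (nat_lit 366)))) (XT.nd (nat_lit 156) (nat_lit 684) (nat_lit 0) (XT.nd (nat_lit 78) (nat_lit 608) (nat_lit 0) (XT.lf (nat_lit 0) (nat_lit 4601876870) (nat_lit 532) (nat_lit 819900952) (nat_lit 608) (nat_lit 1131006872) (nat_lit 779) (nat_lit 5) (nat_lit 786) (nat_lit 5) (nat_lit 787) (nat_lit 5)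 (nat_lit 390) (nat_lit 385) (nat_lit 365)) (XT.lf (nat_lit 0) (nat_lit 686357710) (nat_lit 608) (nat_lit 3927179029) (nat_lit 684) (nat_lit 1955635512) (nat_lit 771) (nat_lit 5) (nat_lit 779) (nat_lit 5) (nat_lit 780) (nat_lit 5) (nat_lit 391) (nat_lit 385) (nat_lit 364))) (XT.nd (nat_lit 78) (nat_lit 684) (nat_lit 0) (XT.lf (nat_lit 0) (nat_lit 3289133599) (nat_lit 608) (nat_lit 452484285) (nat_lit 684) (nat_lit 2845234010) (nat_lit 771) (nat_lit 5) (nat_lit 779) (nat_lit 5) (nat_lit 780) (nat_lit 5) (nat_lit 392) (nat_lit 385) (nat_lit 363)) (XT.nd (nat_lit 78) (nat_lit 684) (nat_lit 0) (XT.lf (nat_lit 76) (nat_lit 3095051744) (nat_lit 0) (nat_lit 2803640621) (nat_lit 684) (nat_lit 707098217) (nat_lit 772) (nat_lit 5) (nat_lit 771) (nat_lit 5) (nat_lit 780) (nat_lit 5) (nat_lit 393) (nat_lit 385) (nat_lit 362)) (XT.lf (nat_lit 76) (nat_lit 44765990) (nat_lit 0) (nat_lit 1803780904) (nat_lit 760) (nat_lit 4777537943) (nat_lit 763) (nat_lit 5) (nat_lit 762) (nat_lit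 5) (nat_lit 772) (nat_lit 5) (nat_lit 394) (nat_lit 385) (nat_lit 361)))))) (XT.nd (nat_lit 390) (nat_lit 1748) (nat_lit 0) (XT.nd (nat_lit 156) (nat_lit 836) (nat_lit 0) (XT.nd (nat_lit 78) (nat_lit 684) (nat_lit 0) (XT.lf (nat_lit 76) (nat_lit 3676613724) (nat_lit 0) (nat_lit 729033269) (nat_lit 760) (nat_lit 2241848305) (nat_lit 763) (nat_lit 5) (nat_lit 762) (nat_lit 5) (nat_lit 772) (nat_lit 5) (nat_lit 395) (nat_lit 385) (nat_lit 360)) (XT.lf (nat_lit 0) (nat_lit 284156793) (nat_lit 760) (nat_lit 5992304421) (nat_lit 836) (nat_lit 393945599) (nat_lit 753) (nat_lit 5) (nat_lit 763) (nat_lit 5) (nat_lit 764) (nat_lit 5) (nat_lit 396) (nat_lit 385) (nat_lit 359))) (XT.nd (nat_lit 78) (nat_lit 836) (nat_lit 0) (XT.lf (nat_lit 0) (nat_lit 2793845526) (nat_lit 760) (nat_lit 2311705562) (nat_lit 836) (nat_lit 1588665460) (nat_lit 753) (nat_lit 5) (nat_lit 763) (nat_lit 5) (nat_lit 764) (nat_lit 5) (nat_lit 397) (nat_lit 385) (nat_lit 358)) (XT.nd (nat_lit 78)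 (nat_lit 836) (nat_lit 0) (XT.lf (nat_lit 76) (nat_lit 1423072947) (nat_lit 0) (nat_lit 3879362836) (nat_lit 836) (nat_lit 1417092541) (nat_lit 754) (nat_lit 5) (nat_lit 753) (nat_lit 5) (nat_lit 764) (nat_lit 5) (nat_lit 398) (nat_lit 385) (nat_lit 357)) (XT.lf (nat_lit 0) (nat_lit 1056847165) (nat_lit 836) (nat_lit 1527143581) (nat_lit 912) (nat_lit 4162098087) (nat_lit 742) (nat_lit 5) (nat_lit 753) (nat_lit 5) (nat_lit 754) (nat_lit 5) (nat_lit 399) (nat_lit 385) (nat_lit 356))))) (XT.nd (nat_lit 156) (nat_lit 1748) (nat_lit 0) (XT.nd (nat_lit 78) (nat_lit 0) (nat_lit 76) (XT.lf (nat_lit 76) (nat_lit 2300455598) (nat_lit 0) (nat_lit 1216979957) (nat_lit 912) (nat_lit 3256434764) (nat_lit 743) (nat_lit 5) (nat_lit 742) (nat_lit 5) (nat_lit 754) (nat_lit 5) (nat_lit 400) (nat_lit 385) (nat_lit 355)) (XT.lf (nat_lit 0) (nat_lit 5980934397) (nat_lit 836) (nat_lit 616839713) (nat_lit 76) (nat_lit 205359349) (nat_lit 743) (nat_lit 5) (nat_lit 754) (nat_lit 5) (nat_lit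 744) (nat_lit 5) (nat_lit 401) (nat_lit 385) (nat_lit 354))) (XT.nd (nat_lit 78) (nat_lit 912) (nat_lit 0) (XT.lf (nat_lit 0) (nat_lit 1611702356) (nat_lit 912) (nat_lit 3530015987) (nat_lit 76) (nat_lit 1691592637) (nat_lit 731) (nat_lit 5) (nat_lit 743) (nat_lit 5) (nat_lit 732) (nat_lit 5) (nat_lit 402) (nat_lit 385) (nat_lit 353)) (XT.nd (nat_lit 78) (nat_lit 0) (nat_lit 0) (XT.lf (nat_lit 0) (nat_lit 407398082) (nat_lit 912) (nat_lit 3626555604) (nat_lit 988) (nat_lit 2831016046) (nat_lit 719) (nat_lit 5) (nat_lit 731) (nat_lit 5) (nat_lit 732) (nat_lit 5) (nat_lit 403) (nat_lit 385) (nat_lit 352)) (XT.lf (nat_lit 0) (nat_lit 4433007921) (nat_lit 912) (nat_lit 2040040863) (nat_lit 988) (nat_lit 424844902) (nat_lit 719) (nat_lit 5) (nat_lit 731) (nat_lit 5) (nat_lit 732) (nat_lit 5) (nat_lit 404) (nat_lit 385) (nat_lit 351))))))))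
noncomputable def xc65 : XT := (XT.nd (nat_lit 1482) (nat_lit 10488) (nat_lit 0) (XT.nd (nat_lit 702) (nat_lit 10108) (nat_lit 0) (XT.nd (nat_lit 312) (nat_lit 3952) (nat_lit 0) (XT.nd (nat_lit 156) (nat_lit 2280) (nat_lit 0) (XT.nd (nat_lit 78) (nat_lit 0) (nat_lit 0) (XT.lf (nat_lit 0) (nat_lit 1576782141) (nat_lit 988) (nat_lit 381724048) (nat_lit 1064) (nat_lit 4973592937) (nat_lit 705) (nat_lit 5) (nat_lit 718) (nat_lit 5) (nat_lit 719) (nat_lit 5) (nat_lit 405) (nat_lit 385) (nat_lit 350)) (XT.lf (nat_lit 0) (nat_lit 4355354387) (nat_lit 1064) (nat_lit 1284687917) (nat_lit 76) (nat_lit 1327459830) (nat_lit 705) (nat_lit 5) (nat_lit 719) (nat_lit 5) (nat_lit 706) (nat_lit 5) (nat_lit 406) (nat_lit 385) (nat_lit 349))) (XT.nd (nat_lit 78) (nat_lit 1216) (nat_lit 0) (XT.lf (nat_lit 0) (nat_lit 2863857599) (nat_lit 1064) (nat_lit 3904815156) (nat_lit 1140) (nat_lit 235569784) (nat_lit 691) (nat_lit 5) (nat_lit 705) (nat_lit 5) (nat_lit 706) (nat_lit 5) (nat_lit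 407) (nat_lit 385) (nat_lit 348)) (XT.lf (nat_lit 0) (nat_lit 18248028) (nat_lit 1140) (nat_lit 2098235851) (nat_lit 1216) (nat_lit 4925816739) (nat_lit 675) (nat_lit 5) (nat_lit 690) (nat_lit 5) (nat_lit 691) (nat_lit 5) (nat_lit 408) (nat_lit 385) (nat_lit 347)))) (XT.nd (nat_lit 156) (nat_lit 2736) (nat_lit 0) (XT.nd (nat_lit 78) (nat_lit 1216) (nat_lit 0) (XT.lf (nat_lit 0) (nat_lit 4275885506) (nat_lit 1140) (nat_lit 212937604) (nat_lit 1216) (nat_lit 2592737631) (nat_lit 675) (nat_lit 5) (nat_lit 690) (nat_lit 5) (nat_lit 691) (nat_lit 5) (nat_lit 409) (nat_lit 385) (nat_lit 346)) (XT.lf (nat_lit 0) (nat_lit 1466155313) (nat_lit 1216) (nat_lit 5412785920) (nat_lit 1292) (nat_lit 243258191) (nat_lit 659) (nat_lit 5) (nat_lit 675) (nat_lit 5) (nat_lit 676) (nat_lit 5) (nat_lit 410) (nat_lit 385) (nat_lit 345))) (XT.nd (nat_lit 78) (nat_lit 2660) (nat_lit 0) (XT.lf (nat_lit 0) (nat_lit 2095449569) (nat_lit 1292) (nat_lit 1356781575) (nat_lit 76) (nat_lit 3711730565)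 (nat_lit 658) (nat_lit 5) (nat_lit 675) (nat_lit 5) (nat_lit 659) (nat_lit 5) (nat_lit 411) (nat_lit 385) (nat_lit 344)) (XT.nd (nat_lit 78) (nat_lit 1368) (nat_lit 0) (XT.lf (nat_lit 0) (nat_lit 3027893615) (nat_lit 1292) (nat_lit 1420536953) (nat_lit 1368) (nat_lit 2758681389) (nat_lit 641) (nat_lit 5) (nat_lit 658) (nat_lit 5) (nat_lit 659) (nat_lit 5) (nat_lit 412) (nat_lit 385) (nat_lit 343)) (XT.lf (nat_lit 0) (nat_lit 226949081) (nat_lit 1368) (nat_lit 6588259638) (nat_lit 1444) (nat_lit 436581739) (nat_lit 623) (nat_lit 5) (nat_lit 641) (nat_lit 5) (nat_lit 642) (nat_lit 5) (nat_lit 413) (nat_lit 385) (nat_lit 342)))))) (XT.nd (nat_lit 390) (nat_lit 5396) (nat_lit 0) (XT.nd (nat_lit 156) (nat_lit 3192) (nat_lit 0) (XT.nd (nat_lit 78) (nat_lit 1444) (nat_lit 0) (XT.lf (nat_lit 0) (nat_lit 1896502229) (nat_lit 1444) (nat_lit 2580869326) (nat_lit 76) (nat_lit 2819942496) (nat_lit 622) (nat_lit 5) (nat_lit 641) (nat_lit 5) (nat_lit 623) (nat_lit 5) (nat_lit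 414) (nat_lit 385) (nat_lit 341)) (XT.lf (nat_lit 0) (nat_lit 1935434141) (nat_lit 1444) (nat_lit 2300718233) (nat_lit 1520) (nat_lit 3108223019) (nat_lit 603) (nat_lit 5) (nat_lit 622) (nat_lit 5) (nat_lit 623) (nat_lit 5) (nat_lit 415) (nat_lit 385) (nat_lit 340))) (XT.nd (nat_lit 78) (nat_lit 3192) (nat_lit 0) (XT.lf (nat_lit 0) (nat_lit 6538264563) (nat_lit 1444) (nat_lit 55494946) (nat_lit 1520) (nat_lit 799195173) (nat_lit 603) (nat_lit 5) (nat_lit 622) (nat_lit 5) (nat_lit 623) (nat_lit 5) (nat_lit 416) (nat_lit 385) (nat_lit 339)) (XT.nd (nat_lit 78) (nat_lit 1596) (nat_lit 0) (XT.lf (nat_lit 0) (nat_lit 1529457619) (nat_lit 1596) (nat_lit 3665862636) (nat_lit 76) (nat_lit 2247106213) (nat_lit 582) (nat_lit 5) (nat_lit 603) (nat_lit 5) (nat_lit 583) (nat_lit 5) (nat_lit 417) (nat_lit 385) (nat_lit 338)) (XT.lf (nat_lit 0) (nat_lit 987189684) (nat_lit 1596) (nat_lit 2874489688) (nat_lit 1672) (nat_lit 3631748722) (nat_lit 561) (nat_lit 5) (nat_lit 582)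 (nat_lit 5) (nat_lit 583) (nat_lit 5) (nat_lit 418) (nat_lit 385) (nat_lit 337))))) (XT.nd (nat_lit 156) (nat_lit 3648) (nat_lit 0) (XT.nd (nat_lit 78) (nat_lit 1748) (nat_lit 0) (XT.lf (nat_lit 0) (nat_lit 5743938699) (nat_lit 1596) (nat_lit 476969537) (nat_lit 1672) (nat_lit 1324934262) (nat_lit 561) (nat_lit 5) (nat_lit 582) (nat_lit 5) (nat_lit 583) (nat_lit 5) (nat_lit 419) (nat_lit 385) (nat_lit 336)) (XT.lf (nat_lit 0) (nat_lit 1003275809) (nat_lit 1748) (nat_lit 4622451871) (nat_lit 76) (nat_lit 1973669180) (nat_lit 538) (nat_lit 5) (nat_lit 561) (nat_lit 5) (nat_lit 539) (nat_lit 5) (nat_lit 420) (nat_lit 385) (nat_lit 335))) (XT.nd (nat_lit 78) (nat_lit 1900) (nat_lit 0) (XT.lf (nat_lit 0) (nat_lit 172763596) (nat_lit 1748) (nat_lit 3160991538) (nat_lit 1824) (nat_lit 4320623101) (nat_lit 515) (nat_lit 5) (nat_lit 538) (nat_lit 5) (nat_lit 539) (nat_lit 5) (nat_lit 421) (nat_lit 385) (nat_lit 334)) (XT.nd (nat_lit 78) (nat_lit 1900) (nat_lit 0) (XT.lf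 (nat_lit 0) (nat_lit 5087297249) (nat_lit 1748) (nat_lit 612131768) (nat_lit 1824) (nat_lit 2011258521) (nat_lit 515) (nat_lit 5) (nat_lit 538) (nat_lit 5) (nat_lit 539) (nat_lit 5) (nat_lit 422) (nat_lit 385) (nat_lit 333)) (XT.lf (nat_lit 0) (nat_lit 326009486) (nat_lit 1900) (nat_lit 5460478969) (nat_lit 76) (nat_lit 1981865234) (nat_lit 490) (nat_lit 5) (nat_lit 515) (nat_lit 5) (nat_lit 491) (nat_lit 5) (nat_lit 423) (nat_lit 385) (nat_lit 332))))))) (XT.nd (nat_lit 702) (nat_lit 4788) (nat_lit 0) (XT.nd (nat_lit 312) (nat_lit 3572) (nat_lit 0) (XT.nd (nat_lit 156) (nat_lit 988) (nat_lit 0) (XT.nd (nat_lit 78) (nat_lit 1140) (nat_lit 0) (XT.lf (nat_lit 0) (nat_lit 2663600285) (nat_lit 1900) (nat_lit 510602856) (nat_lit 76) (nat_lit 4653093967) (nat_lit 490) (nat_lit 5) (nat_lit 515) (nat_lit 5) (nat_lit 491) (nat_lit 5) (nat_lit 424) (nat_lit 385) (nat_lit 331)) (XT.lf (nat_lit 0) (nat_lit 4559225122) (nat_lit 1140) (nat_lit 477837175) (nat_lit 1216) (nat_lit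 2850574712) (nat_lit 475) (nat_lit 5) (nat_lit 490) (nat_lit 5) (nat_lit 491) (nat_lit 5) (nat_lit 425) (nat_lit 385) (nat_lit 330))) (XT.nd (nat_lit 78) (nat_lit 76) (nat_lit 0) (XT.lf (nat_lit 0) (nat_lit 1757131195) (nat_lit 912) (nat_lit 5690544134) (nat_lit 988) (nat_lit 501714744) (nat_lit 463) (nat_lit 5) (nat_lit 475) (nat_lit 5) (nat_lit 476) (nat_lit 5) (nat_lit 426) (nat_lit 385) (nat_lit 329)) (XT.lf (nat_lit 0) (nat_lit 1855266309) (nat_lit 988) (nat_lit 1077699825) (nat_lit 76) (nat_lit 5079446392) (nat_lit 462) (nat_lit 5) (nat_lit 475) (nat_lit 5) (nat_lit 463) (nat_lit 5) (nat_lit 427) (nat_lit 385) (nat_lit 328)))) (XT.nd (nat_lit 156) (nat_lit 1824) (nat_lit 0) (XT.nd (nat_lit 78) (nat_lit 836) (nat_lit 0) (XT.lf (nat_lit 0) (nat_lit 4151391019) (nat_lit 912) (nat_lit 89353403) (nat_lit 988) (nat_lit 3836123173) (nat_lit 450) (nat_lit 5) (nat_lit 462) (nat_lit 5) (nat_lit 463) (nat_lit 5) (nat_lit 428) (nat_lit 385) (nat_lit 327)) (XT.lf (nat_lit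 0) (nat_lit 1316782261) (nat_lit 836) (nat_lit 5352856348) (nat_lit 912) (nat_lit 1473059025) (nat_lit 439) (nat_lit 5) (nat_lit 450) (nat_lit 5) (nat_lit 451) (nat_lit 5) (nat_lit 429) (nat_lit 385) (nat_lit 326))) (XT.nd (nat_lit 78) (nat_lit 1748) (nat_lit 0) (XT.lf (nat_lit 0) (nat_lit 913955248) (nat_lit 912) (nat_lit 1538712373) (nat_lit 76) (nat_lit 5757275320) (nat_lit 438) (nat_lit 5) (nat_lit 450) (nat_lit 5) (nat_lit 439) (nat_lit 5) (nat_lit 430) (nat_lit 385) (nat_lit 325)) (XT.nd (nat_lit 78) (nat_lit 836) (nat_lit 0) (XT.lf (nat_lit 0) (nat_lit 3320164554) (nat_lit 988) (nat_lit 4425897182) (nat_lit 76) (nat_lit 532453100) (nat_lit 426) (nat_lit 5) (nat_lit 439) (nat_lit 5) (nat_lit 427) (nat_lit 5) (nat_lit 431) (nat_lit 385) (nat_lit 324)) (XT.lf (nat_lit 0) (nat_lit 981608612) (nat_lit 836) (nat_lit 4788991268) (nat_lit 912) (nat_lit 2577936253) (nat_lit 415) (nat_lit 5) (nat_lit 426) (nat_lit 5) (nat_lit 427) (nat_lit 5) (nat_lit 432) (nat_lit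 385) (nat_lit 323)))))) (XT.nd (nat_lit 390) (nat_lit 2280) (nat_lit 0) (XT.nd (nat_lit 156) (nat_lit 1596) (nat_lit 0) (XT.nd (nat_lit 78) (nat_lit 912) (nat_lit 0) (XT.lf (nat_lit 0) (nat_lit 6518183079) (nat_lit 836) (nat_lit 1745122716) (nat_lit 912) (nat_lit 156786823) (nat_lit 415) (nat_lit 5) (nat_lit 426) (nat_lit 5) (nat_lit 427) (nat_lit 5) (nat_lit 433) (nat_lit 385) (nat_lit 322)) (XT.lf (nat_lit 0) (nat_lit 2279365610) (nat_lit 912) (nat_lit 4835394636) (nat_lit 76) (nat_lit 1378081412) (nat_lit 403) (nat_lit 5) (nat_lit 415) (nat_lit 5) (nat_lit 404) (nat_lit 5) (nat_lit 434) (nat_lit 385) (nat_lit 321))) (XT.nd (nat_lit 78) (nat_lit 836) (nat_lit 0) (XT.lf (nat_lit 0) (nat_lit 744847411) (nat_lit 760) (nat_lit 4011011705) (nat_lit 836) (nat_lit 3811291488) (nat_lit 393) (nat_lit 5) (nat_lit 403) (nat_lit 5) (nat_lit 404) (nat_lit 5) (nat_lit 435) (nat_lit 385) (nat_lit 320)) (XT.nd (nat_lit 78) (nat_lit 836) (nat_lit 0) (XT.lf (nat_lit 0) (nat_lit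 6463274763) (nat_lit 760) (nat_lit 815974309) (nat_lit 836) (nat_lit 1363749323) (nat_lit 393) (nat_lit 5) (nat_lit 403) (nat_lit 5) (nat_lit 404) (nat_lit 5) (nat_lit 436) (nat_lit 385) (nat_lit 319)) (XT.lf (nat_lit 0) (nat_lit 1122525450) (nat_lit 836) (nat_lit 5159881577) (nat_lit 76) (nat_lit 2437716268) (nat_lit 382) (nat_lit 5) (nat_lit 393) (nat_lit 5) (nat_lit 383) (nat_lit 5) (nat_lit 437) (nat_lit 385) (nat_lit 318))))) (XT.nd (nat_lit 156) (nat_lit 1520) (nat_lit 0) (XT.nd (nat_lit 78) (nat_lit 0) (nat_lit 0) (XT.lf (nat_lit 0) (nat_lit 600333512) (nat_lit 760) (nat_lit 3029754967) (nat_lit 836) (nat_lit 5168725459) (nat_lit 372) (nat_lit 5) (nat_lit 382) (nat_lit 5) (nat_lit 383) (nat_lit 5) (nat_lit 438) (nat_lit 385) (nat_lit 317)) (XT.lf (nat_lit 0) (nat_lit 6190694440) (nat_lit 836) (nat_lit 2374237609) (nat_lit 76) (nat_lit 314088511) (nat_lit 372) (nat_lit 5) (nat_lit 383) (nat_lit 5) (nat_lit 373) (nat_lit 5) (nat_lit 439) (nat_lit 385) (nat_lit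 316))) (XT.nd (nat_lit 78) (nat_lit 760) (nat_lit 0) (XT.lf (nat_lit 0) (nat_lit 3554365813) (nat_lit 760) (nat_lit 5258119275) (nat_lit 836) (nat_lit 148146776) (nat_lit 362) (nat_lit 5) (nat_lit 372) (nat_lit 5) (nat_lit 373) (nat_lit 5) (nat_lit 440) (nat_lit 385) (nat_lit 315)) (XT.nd (nat_lit 78) (nat_lit 0) (nat_lit 0) (XT.lf (nat_lit 0) (nat_lit 542456656) (nat_lit 684) (nat_lit 1854915725) (nat_lit 760) (nat_lit 6646454312) (nat_lit 352) (nat_lit 5) (nat_lit 361) (nat_lit 5) (nat_lit 362) (nat_lit 5) (nat_lit 441) (nat_lit 385) (nat_lit 314)) (XT.lf (nat_lit 0) (nat_lit 5006205324) (nat_lit 760) (nat_lit 2495455241) (nat_lit 76) (nat_lit 1626717527) (nat_lit 352) (nat_lit 5) (nat_lit 362) (nat_lit 5) (nat_lit 353) (nat_lit 5) (nat_lit 442) (nat_lit 385) (nat_lit 313))))))))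
noncomputable def xc66 : XT := (XT.nd (nat_lit 1482) (nat_lit 1596) (nat_lit 0) (XT.nd (nat_lit 702) (nat_lit 4028) (nat_lit 0) (XT.nd (nat_lit 312) (nat_lit 1976) (nat_lit 0) (XT.nd (nat_lit 156) (nat_lit 684) (nat_lit 0) (XT.nd (nat_lit 78) (nat_lit 760) (nat_lit 0) (XT.lf (nat_lit 0) (nat_lit 3627420077) (nat_lit 684) (nat_lit 4043642103) (nat_lit 760) (nat_lit 1543481395) (nat_lit 343) (nat_lit 5) (nat_lit 352) (nat_lit 5) (nat_lit 353) (nat_lit 5) (nat_lit 443) (nat_lit 385) (nat_lit 312)) (XT.lf (nat_lit 0) (nat_lit 566122037) (nat_lit 684) (nat_lit 495122094) (nat_lit 760) (nat_lit 8241272841) (nat_lit 333) (nat_lit 5) (nat_lit 342) (nat_lit 5) (nat_lit 343) (nat_lit 5) (nat_lit 444) (nat_lit 385) (nat_lit 311))) (XT.nd (nat_lit 78) (nat_lit 684) (nat_lit 0) (XT.lf (nat_lit 0) (nat_lit 3723953798) (nat_lit 760) (nat_lit 2543035690) (nat_lit 76) (nat_lit 3124525162) (nat_lit 333) (nat_lit 5) (nat_lit 343) (nat_lit 5) (nat_lit 334) (nat_lit 5) (nat_lit 445)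 (nat_lit 385) (nat_lit 310)) (XT.lf (nat_lit 0) (nat_lit 3782333830) (nat_lit 684) (nat_lit 2654548848) (nat_lit 760) (nat_lit 3045470304) (nat_lit 324) (nat_lit 5) (nat_lit 333) (nat_lit 5) (nat_lit 334) (nat_lit 5) (nat_lit 446) (nat_lit 385) (nat_lit 309)))) (XT.nd (nat_lit 156) (nat_lit 1292) (nat_lit 0) (XT.nd (nat_lit 78) (nat_lit 76) (nat_lit 0) (XT.lf (nat_lit 0) (nat_lit 657340447) (nat_lit 608) (nat_lit 8544303562) (nat_lit 684) (nat_lit 373412595) (nat_lit 316) (nat_lit 5) (nat_lit 324) (nat_lit 5) (nat_lit 325) (nat_lit 5) (nat_lit 447) (nat_lit 385) (nat_lit 308)) (XT.lf (nat_lit 0) (nat_lit 2346911844) (nat_lit 684) (nat_lit 2521486879) (nat_lit 76) (nat_lit 4800396675) (nat_lit 315) (nat_lit 5) (nat_lit 324) (nat_lit 5) (nat_lit 316) (nat_lit 5) (nat_lit 448) (nat_lit 385) (nat_lit 307))) (XT.nd (nat_lit 78) (nat_lit 684) (nat_lit 0) (XT.lf (nat_lit 0) (nat_lit 4014963101) (nat_lit 608) (nat_lit 1097938799) (nat_lit 684) (nat_lit 4651532523) (nat_lit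 307) (nat_lit 5) (nat_lit 315) (nat_lit 5) (nat_lit 316) (nat_lit 5) (nat_lit 449) (nat_lit 385) (nat_lit 306)) (XT.nd (nat_lit 78) (nat_lit 76) (nat_lit 0) (XT.lf (nat_lit 0) (nat_lit 809157384) (nat_lit 608) (nat_lit 7135655735) (nat_lit 684) (nat_lit 1916961081) (nat_lit 299) (nat_lit 5) (nat_lit 307) (nat_lit 5) (nat_lit 308) (nat_lit 5) (nat_lit 450) (nat_lit 385) (nat_lit 305)) (XT.lf (nat_lit 0) (nat_lit 877583213) (nat_lit 684) (nat_lit 2434899543) (nat_lit 76) (nat_lit 6648130308) (nat_lit 298) (nat_lit 5) (nat_lit 307) (nat_lit 5) (nat_lit 299) (nat_lit 5) (nat_lit 451) (nat_lit 385) (nat_lit 304)))))) (XT.nd (nat_lit 390) (nat_lit 1672) (nat_lit 0) (XT.nd (nat_lit 156) (nat_lit 1216) (nat_lit 0) (XT.nd (nat_lit 78) (nat_lit 532) (nat_lit 0) (XT.lf (nat_lit 0) (nat_lit 3705647599) (nat_lit 684) (nat_lit 5743622891) (nat_lit 76) (nat_lit 611838848) (nat_lit 290) (nat_lit 5) (nat_lit 299) (nat_lit 5) (nat_lit 291) (nat_lit 5) (nat_lit 452) (nat_lit 385)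 (nat_lit 303)) (XT.lf (nat_lit 0) (nat_lit 1028249073) (nat_lit 532) (nat_lit 5578539650) (nat_lit 608) (nat_lit 3556496504) (nat_lit 283) (nat_lit 5) (nat_lit 290) (nat_lit 5) (nat_lit 291) (nat_lit 5) (nat_lit 453) (nat_lit 385) (nat_lit 302))) (XT.nd (nat_lit 78) (nat_lit 1216) (nat_lit 0) (XT.lf (nat_lit 0) (nat_lit 7975835136) (nat_lit 532) (nat_lit 1600430723) (nat_lit 608) (nat_lit 691032512) (nat_lit 283) (nat_lit 5) (nat_lit 290) (nat_lit 5) (nat_lit 291) (nat_lit 5) (nat_lit 454) (nat_lit 385) (nat_lit 301)) (XT.nd (nat_lit 78) (nat_lit 532) (nat_lit 0) (XT.lf (nat_lit 0) (nat_lit 2221311485) (nat_lit 684) (nat_lit 5690335159) (nat_lit 76) (nat_lit 2461078528) (nat_lit 274) (nat_lit 5) (nat_lit 283) (nat_lit 5) (nat_lit 275) (nat_lit 5) (nat_lit 455) (nat_lit 385) (nat_lit 300)) (XT.lf (nat_lit 0) (nat_lit 1311291330) (nat_lit 532) (nat_lit 3878343967) (nat_lit 608) (nat_lit 5290394138) (nat_lit 267) (nat_lit 5) (nat_lit 274) (nat_lit 5) (nat_lit 275)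 (nat_lit 5) (nat_lit 456) (nat_lit 385) (nat_lit 299))))) (XT.nd (nat_lit 156) (nat_lit 1064) (nat_lit 0) (XT.nd (nat_lit 78) (nat_lit 608) (nat_lit 0) (XT.lf (nat_lit 0) (nat_lit 8229914838) (nat_lit 608) (nat_lit 2098108197) (nat_lit 76) (nat_lit 261204965) (nat_lit 267) (nat_lit 5) (nat_lit 275) (nat_lit 5) (nat_lit 268) (nat_lit 5) (nat_lit 457) (nat_lit 385) (nat_lit 298)) (XT.lf (nat_lit 0) (nat_lit 654409008) (nat_lit 608) (nat_lit 5585850043) (nat_lit 76) (nat_lit 4459623881) (nat_lit 259) (nat_lit 5) (nat_lit 267) (nat_lit 5) (nat_lit 260) (nat_lit 5) (nat_lit 458) (nat_lit 385) (nat_lit 297))) (XT.nd (nat_lit 78) (nat_lit 532) (nat_lit 0) (XT.lf (nat_lit 0) (nat_lit 1655312979) (nat_lit 532) (nat_lit 2039721341) (nat_lit 608) (nat_lit 7117440345) (nat_lit 252) (nat_lit 5) (nat_lit 259) (nat_lit 5) (nat_lit 260) (nat_lit 5) (nat_lit 459) (nat_lit 385) (nat_lit 296)) (XT.nd (nat_lit 78) (nat_lit 532) (nat_lit 0) (XT.lf (nat_lit 0) (nat_lit 6822267257)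 (nat_lit 608) (nat_lit 1861659167) (nat_lit 76) (nat_lit 2242875906) (nat_lit 252) (nat_lit 5) (nat_lit 260) (nat_lit 5) (nat_lit 253) (nat_lit 5) (nat_lit 460) (nat_lit 385) (nat_lit 295)) (XT.lf (nat_lit 0) (nat_lit 5603178679) (nat_lit 532) (nat_lit 4432761636) (nat_lit 608) (nat_lit 1006998324) (nat_lit 245) (nat_lit 5) (nat_lit 252) (nat_lit 5) (nat_lit 253) (nat_lit 5) (nat_lit 461) (nat_lit 385) (nat_lit 294))))))) (XT.nd (nat_lit 53742) (nat_lit 0) (nat_lit 39292) (XT.nd (nat_lit 312) (nat_lit 0) (nat_lit 0) (XT.nd (nat_lit 156) (nat_lit 1064) (nat_lit 0) (XT.nd (nat_lit 78) (nat_lit 0) (nat_lit 0) (XT.lf (nat_lit 0) (nat_lit 2057672471) (nat_lit 456) (nat_lit 66633013) (nat_lit 532) (nat_lit 9036811749) (nat_lit 238) (nat_lit 5) (nat_lit 244) (nat_lit 5) (nat_lit 245) (nat_lit 5) (nat_lit 462) (nat_lit 385) (nat_lit 293)) (XT.lf (nat_lit 0) (nat_lit 5344304259) (nat_lit 532) (nat_lit 1574389111) (nat_lit 76) (nat_lit 4362041852) (nat_lit 238) (nat_lit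 5) (nat_lit 245) (nat_lit 5) (nat_lit 239) (nat_lit 5) (nat_lit 463) (nat_lit 385) (nat_lit 292))) (XT.nd (nat_lit 78) (nat_lit 532) (nat_lit 0) (XT.lf (nat_lit 0) (nat_lit 6149320553) (nat_lit 532) (nat_lit 2494565340) (nat_lit 608) (nat_lit 2758556020) (nat_lit 231) (nat_lit 5) (nat_lit 238) (nat_lit 5) (nat_lit 239) (nat_lit 5) (nat_lit 464) (nat_lit 385) (nat_lit 291)) (XT.lf (nat_lit 0) (nat_lit 491655467) (nat_lit 532) (nat_lit 9023675468) (nat_lit 76) (nat_lit 2010886860) (nat_lit 224) (nat_lit 5) (nat_lit 231) (nat_lit 5) (nat_lit 225) (nat_lit 5) (nat_lit 465) (nat_lit 385) (nat_lit 290)))) (XT.nd (nat_lit 53196) (nat_lit 0) (nat_lit 42104) (XT.nd (nat_lit 53118) (nat_lit 0) (nat_lit 42636) (XT.lf (nat_lit 0) (nat_lit 3797071187) (nat_lit 532) (nat_lit 1238676475) (nat_lit 76) (nat_lit 6615814110) (nat_lit 224) (nat_lit 5) (nat_lit 231) (nat_lit 5) (nat_lit 225) (nat_lit 5) (nat_lit 466) (nat_lit 385) (nat_lit 289)) (XT.lf (nat_lit 0) (nat_lit 1522731172)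 (nat_lit 532) (nat_lit 866232092) (nat_lit 532) (nat_lit 866232092) (nat_lit 785) (nat_lit 3) (nat_lit 792) (nat_lit 3) (nat_lit 792) (nat_lit 5) (nat_lit 386) (nat_lit 386) (nat_lit 368))) (XT.nd (nat_lit 78) (nat_lit 532) (nat_lit 0) (XT.lf (nat_lit 76) (nat_lit 1542967468) (nat_lit 0) (nat_lit 4185494307) (nat_lit 532) (nat_lit 793981951) (nat_lit 786) (nat_lit 5) (nat_lit 785) (nat_lit 3) (nat_lit 792) (nat_lit 5) (nat_lit 387) (nat_lit 386) (nat_lit 367)) (XT.nd (nat_lit 78) (nat_lit 0) (nat_lit 0) (XT.lf (nat_lit 0) (nat_lit 1846761236) (nat_lit 532) (nat_lit 1676474351) (nat_lit 608) (nat_lit 3012417640) (nat_lit 778) (nat_lit 5) (nat_lit 785) (nat_lit 3) (nat_lit 786) (nat_lit 5) (nat_lit 388) (nat_lit 386) (nat_lit 366)) (XT.lf (nat_lit 76) (nat_lit 1673244423) (nat_lit 0) (nat_lit 2798682319) (nat_lit 608) (nat_lit 2078250434) (nat_lit 779) (nat_lit 5) (nat_lit 778) (nat_lit 5) (nat_lit 786) (nat_lit 5) (nat_lit 389) (nat_lit 386) (nat_lit 365))))))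 (XT.nd (nat_lit 390) (nat_lit 1596) (nat_lit 0) (XT.nd (nat_lit 156) (nat_lit 608) (nat_lit 0) (XT.nd (nat_lit 78) (nat_lit 0) (nat_lit 0) (XT.lf (nat_lit 0) (nat_lit 520292649) (nat_lit 608) (nat_lit 1492650260) (nat_lit 684) (nat_lit 4553105665) (nat_lit 770) (nat_lit 5) (nat_lit 778) (nat_lit 5) (nat_lit 779) (nat_lit 5) (nat_lit 390) (nat_lit 386) (nat_lit 364)) (XT.lf (nat_lit 76) (nat_lit 1934955312) (nat_lit 0) (nat_lit 1153976606) (nat_lit 684) (nat_lit 3494111676) (nat_lit 771) (nat_lit 5) (nat_lit 770) (nat_lit 5) (nat_lit 779) (nat_lit 5) (nat_lit 391) (nat_lit 386) (nat_lit 363))) (XT.nd (nat_lit 78) (nat_lit 608) (nat_lit 0) (XT.lf (nat_lit 76) (nat_lit 5415606343) (nat_lit 0) (nat_lit 237792709) (nat_lit 684) (nat_lit 948090360) (nat_lit 771) (nat_lit 5) (nat_lit 770) (nat_lit 5) (nat_lit 779) (nat_lit 5) (nat_lit 392) (nat_lit 386) (nat_lit 362)) (XT.nd (nat_lit 78) (nat_lit 0) (nat_lit 0) (XT.lf (nat_lit 0) (nat_lit 1582531209) (nat_lit 684) (nat_lit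 4296449359) (nat_lit 760) (nat_lit 742003374) (nat_lit 762) (nat_lit 5) (nat_lit 771) (nat_lit 5) (nat_lit 772) (nat_lit 5) (nat_lit 393) (nat_lit 386) (nat_lit 361)) (XT.lf (nat_lit 0) (nat_lit 4097184910) (nat_lit 684) (nat_lit 764497794) (nat_lit 760) (nat_lit 1780138028) (nat_lit 762) (nat_lit 5) (nat_lit 771) (nat_lit 5) (nat_lit 772) (nat_lit 5) (nat_lit 394) (nat_lit 386) (nat_lit 360))))) (XT.nd (nat_lit 156) (nat_lit 836) (nat_lit 0) (XT.nd (nat_lit 78) (nat_lit 760) (nat_lit 0) (XT.lf (nat_lit 76) (nat_lit 2838935855) (nat_lit 0) (nat_lit 3779390217) (nat_lit 760) (nat_lit 45624298) (nat_lit 763) (nat_lit 5) (nat_lit 762) (nat_lit 5) (nat_lit 772) (nat_lit 5) (nat_lit 395) (nat_lit 386) (nat_lit 359)) (XT.lf (nat_lit 0) (nat_lit 2414041625) (nat_lit 760) (nat_lit 214876440) (nat_lit 836) (nat_lit 4058409339) (nat_lit 752) (nat_lit 5) (nat_lit 762) (nat_lit 5) (nat_lit 763) (nat_lit 5) (nat_lit 396) (nat_lit 386) (nat_lit 358))) (XT.nd (nat_lit 78) (nat_lit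 836) (nat_lit 0) (XT.lf (nat_lit 76) (nat_lit 3476512139) (nat_lit 0) (nat_lit 1407901316) (nat_lit 836) (nat_lit 1827510024) (nat_lit 753) (nat_lit 5) (nat_lit 752) (nat_lit 5) (nat_lit 763) (nat_lit 5) (nat_lit 397) (nat_lit 386) (nat_lit 357)) (XT.nd (nat_lit 78) (nat_lit 0) (nat_lit 76) (XT.lf (nat_lit 76) (nat_lit 472714302) (nat_lit 0) (nat_lit 130345974) (nat_lit 912) (nat_lit 6134971978) (nat_lit 742) (nat_lit 5) (nat_lit 741) (nat_lit 5) (nat_lit 753) (nat_lit 5) (nat_lit 398) (nat_lit 386) (nat_lit 356)) (XT.lf (nat_lit 0) (nat_lit 3028454870) (nat_lit 836) (nat_lit 2523115530) (nat_lit 912) (nat_lit 1213437543) (nat_lit 742) (nat_lit 5) (nat_lit 753) (nat_lit 5) (nat_lit 754) (nat_lit 5) (nat_lit 399) (nat_lit 386) (nat_lit 355))))))))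
noncomputable def xc67 : XT := (XT.nd (nat_lit 1482) (nat_lit 15200) (nat_lit 0) (XT.nd (nat_lit 702) (nat_lit 8208) (nat_lit 0) (XT.nd (nat_lit 312) (nat_lit 3040) (nat_lit 0) (XT.nd (nat_lit 156) (nat_lit 0) (nat_lit 0) (XT.nd (nat_lit 78) (nat_lit 912) (nat_lit 0) (XT.lf (nat_lit 76) (nat_lit 1272616133) (nat_lit 0) (nat_lit 4181211164) (nat_lit 912) (nat_lit 1339666450) (nat_lit 743) (nat_lit 5) (nat_lit 742) (nat_lit 5) (nat_lit 754) (nat_lit 5) (nat_lit 400) (nat_lit 386) (nat_lit 354)) (XT.lf (nat_lit 0) (nat_lit 1050566194) (nat_lit 912) (nat_lit 1688691456) (nat_lit 988) (nat_lit 4083950055) (nat_lit 730) (nat_lit 5) (nat_lit 742) (nat_lit 5) (nat_lit 743) (nat_lit 5) (nat_lit 401) (nat_lit 386) (nat_lit 353))) (XT.nd (nat_lit 78) (nat_lit 0) (nat_lit 76) (XT.lf (nat_lit 76) (nat_lit 2203243577) (nat_lit 0) (nat_lit 1225722949) (nat_lit 988) (nat_lit 3425206290) (nat_lit 731) (nat_lit 5) (nat_lit 730) (nat_lit 5) (nat_lit 743) (nat_lit 5) (nat_lit 402)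 (nat_lit 386) (nat_lit 352)) (XT.lf (nat_lit 0) (nat_lit 5813366935) (nat_lit 912) (nat_lit 729662017) (nat_lit 76) (nat_lit 343559636) (nat_lit 731) (nat_lit 5) (nat_lit 743) (nat_lit 5) (nat_lit 732) (nat_lit 5) (nat_lit 403) (nat_lit 386) (nat_lit 351)))) (XT.nd (nat_lit 156) (nat_lit 1140) (nat_lit 0) (XT.nd (nat_lit 78) (nat_lit 988) (nat_lit 0) (XT.lf (nat_lit 0) (nat_lit 1283623342) (nat_lit 988) (nat_lit 3660977652) (nat_lit 76) (nat_lit 1975375345) (nat_lit 718) (nat_lit 5) (nat_lit 731) (nat_lit 5) (nat_lit 719) (nat_lit 5) (nat_lit 404) (nat_lit 386) (nat_lit 350)) (XT.lf (nat_lit 0) (nat_lit 343127277) (nat_lit 988) (nat_lit 3283783107) (nat_lit 1064) (nat_lit 3327906070) (nat_lit 705) (nat_lit 5) (nat_lit 718) (nat_lit 5) (nat_lit 719) (nat_lit 5) (nat_lit 405) (nat_lit 386) (nat_lit 349))) (XT.nd (nat_lit 78) (nat_lit 1140) (nat_lit 0) (XT.lf (nat_lit 0) (nat_lit 4439564844) (nat_lit 988) (nat_lit 1549377155) (nat_lit 1064) (nat_lit 1001973795)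 (nat_lit 705) (nat_lit 5) (nat_lit 718) (nat_lit 5) (nat_lit 719) (nat_lit 5) (nat_lit 406) (nat_lit 386) (nat_lit 348)) (XT.nd (nat_lit 78) (nat_lit 0) (nat_lit 0) (XT.lf (nat_lit 0) (nat_lit 1312311436) (nat_lit 1140) (nat_lit 5465562611) (nat_lit 76) (nat_lit 250488946) (nat_lit 690) (nat_lit 5) (nat_lit 705) (nat_lit 5) (nat_lit 691) (nat_lit 5) (nat_lit 407) (nat_lit 386) (nat_lit 347)) (XT.lf (nat_lit 0) (nat_lit 3635846817) (nat_lit 1140) (nat_lit 1327611143) (nat_lit 76) (nat_lit 2103441097) (nat_lit 690) (nat_lit 5) (nat_lit 705) (nat_lit 5) (nat_lit 691) (nat_lit 5) (nat_lit 408) (nat_lit 386) (nat_lit 346)))))) (XT.nd (nat_lit 390) (nat_lit 4408) (nat_lit 0) (XT.nd (nat_lit 156) (nat_lit 1368) (nat_lit 0) (XT.nd (nat_lit 78) (nat_lit 1292) (nat_lit 0) (XT.lf (nat_lit 0) (nat_lit 2893594805) (nat_lit 1140) (nat_lit 3080920988) (nat_lit 1216) (nat_lit 1132316792) (nat_lit 675) (nat_lit 5) (nat_lit 690) (nat_lit 5) (nat_lit 691) (nat_lit 5) (nat_lit 409)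 (nat_lit 386) (nat_lit 345)) (XT.lf (nat_lit 0) (nat_lit 24354364) (nat_lit 1216) (nat_lit 1131554297) (nat_lit 1292) (nat_lit 5992310369) (nat_lit 658) (nat_lit 5) (nat_lit 674) (nat_lit 5) (nat_lit 675) (nat_lit 5) (nat_lit 410) (nat_lit 386) (nat_lit 344))) (XT.nd (nat_lit 78) (nat_lit 1368) (nat_lit 0) (XT.lf (nat_lit 0) (nat_lit 3459868440) (nat_lit 1292) (nat_lit 2837979764) (nat_lit 76) (nat_lit 892732676) (nat_lit 658) (nat_lit 5) (nat_lit 675) (nat_lit 5) (nat_lit 659) (nat_lit 5) (nat_lit 411) (nat_lit 386) (nat_lit 343)) (XT.nd (nat_lit 78) (nat_lit 76) (nat_lit 0) (XT.lf (nat_lit 0) (nat_lit 1507991994) (nat_lit 1292) (nat_lit 4271253150) (nat_lit 1368) (nat_lit 1455158068) (nat_lit 641) (nat_lit 5) (nat_lit 658) (nat_lit 5) (nat_lit 659) (nat_lit 5) (nat_lit 412) (nat_lit 386) (nat_lit 342)) (XT.lf (nat_lit 0) (nat_lit 826157092) (nat_lit 1368) (nat_lit 1343413876) (nat_lit 76) (nat_lit 5109986459) (nat_lit 640) (nat_lit 5) (nat_lit 658) (nat_lit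 5) (nat_lit 641) (nat_lit 5) (nat_lit 413) (nat_lit 386) (nat_lit 341))))) (XT.nd (nat_lit 156) (nat_lit 1596) (nat_lit 0) (XT.nd (nat_lit 78) (nat_lit 1444) (nat_lit 0) (XT.lf (nat_lit 0) (nat_lit 3107353296) (nat_lit 1444) (nat_lit 4205045925) (nat_lit 76) (nat_lit 13548345) (nat_lit 622) (nat_lit 5) (nat_lit 641) (nat_lit 5) (nat_lit 623) (nat_lit 5) (nat_lit 414) (nat_lit 386) (nat_lit 340)) (XT.lf (nat_lit 0) (nat_lit 270473348) (nat_lit 1444) (nat_lit 5142995709) (nat_lit 1520) (nat_lit 1960210539) (nat_lit 603) (nat_lit 5) (nat_lit 622) (nat_lit 5) (nat_lit 623) (nat_lit 5) (nat_lit 415) (nat_lit 386) (nat_lit 339))) (XT.nd (nat_lit 78) (nat_lit 1520) (nat_lit 0) (XT.lf (nat_lit 0) (nat_lit 321693162) (nat_lit 1520) (nat_lit 2570342813) (nat_lit 76) (nat_lit 4530628601) (nat_lit 602) (nat_lit 5) (nat_lit 622) (nat_lit 5) (nat_lit 603) (nat_lit 5) (nat_lit 416) (nat_lit 386) (nat_lit 338)) (XT.nd (nat_lit 78) (nat_lit 0) (nat_lit 0) (XT.lf (nat_lit 0) (nat_lit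 2028935284) (nat_lit 1520) (nat_lit 562593622) (nat_lit 1596) (nat_lit 4881470388) (nat_lit 582) (nat_lit 5) (nat_lit 602) (nat_lit 5) (nat_lit 603) (nat_lit 5) (nat_lit 417) (nat_lit 386) (nat_lit 337)) (XT.lf (nat_lit 0) (nat_lit 4891914371) (nat_lit 1596) (nat_lit 819387247) (nat_lit 76) (nat_lit 1813336027) (nat_lit 582) (nat_lit 5) (nat_lit 603) (nat_lit 5) (nat_lit 583) (nat_lit 5) (nat_lit 418) (nat_lit 386) (nat_lit 336))))))) (XT.nd (nat_lit 702) (nat_lit 6080) (nat_lit 0) (XT.nd (nat_lit 312) (nat_lit 4028) (nat_lit 0) (XT.nd (nat_lit 156) (nat_lit 1748) (nat_lit 0) (XT.nd (nat_lit 78) (nat_lit 1748) (nat_lit 0) (XT.lf (nat_lit 0) (nat_lit 3907516957) (nat_lit 1596) (nat_lit 3316765376) (nat_lit 1672) (nat_lit 353306935) (nat_lit 561) (nat_lit 5) (nat_lit 582) (nat_lit 5) (nat_lit 583) (nat_lit 5) (nat_lit 419) (nat_lit 386) (nat_lit 335)) (XT.lf (nat_lit 0) (nat_lit 1071685373) (nat_lit 1672) (nat_lit 843845220) (nat_lit 1748) (nat_lit 5716419458)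 (nat_lit 538) (nat_lit 5) (nat_lit 560) (nat_lit 5) (nat_lit 561) (nat_lit 5) (nat_lit 420) (nat_lit 386) (nat_lit 334))) (XT.nd (nat_lit 78) (nat_lit 1748) (nat_lit 0) (XT.lf (nat_lit 0) (nat_lit 4218528573) (nat_lit 1748) (nat_lit 1781009488) (nat_lit 76) (nat_lit 1687942992) (nat_lit 538) (nat_lit 5) (nat_lit 561) (nat_lit 5) (nat_lit 539) (nat_lit 5) (nat_lit 421) (nat_lit 386) (nat_lit 333)) (XT.lf (nat_lit 0) (nat_lit 3090808371) (nat_lit 1748) (nat_lit 3461081831) (nat_lit 1824) (nat_lit 1192546399) (nat_lit 515) (nat_lit 5) (nat_lit 538) (nat_lit 5) (nat_lit 539) (nat_lit 5) (nat_lit 422) (nat_lit 386) (nat_lit 332)))) (XT.nd (nat_lit 156) (nat_lit 2128) (nat_lit 0) (XT.nd (nat_lit 78) (nat_lit 0) (nat_lit 0) (XT.lf (nat_lit 0) (nat_lit 239373577) (nat_lit 1824) (nat_lit 847730480) (nat_lit 1900) (nat_lit 6715829980) (nat_lit 490) (nat_lit 5) (nat_lit 514) (nat_lit 5) (nat_lit 515) (nat_lit 5) (nat_lit 423) (nat_lit 386) (nat_lit 331)) (XT.lf (nat_lit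 0) (nat_lit 3399150177) (nat_lit 1900) (nat_lit 2627408395) (nat_lit 76) (nat_lit 1835829779) (nat_lit 490) (nat_lit 5) (nat_lit 515) (nat_lit 5) (nat_lit 491) (nat_lit 5) (nat_lit 424) (nat_lit 386) (nat_lit 330))) (XT.nd (nat_lit 78) (nat_lit 988) (nat_lit 0) (XT.lf (nat_lit 0) (nat_lit 2395186776) (nat_lit 1140) (nat_lit 3343727344) (nat_lit 1216) (nat_lit 2184488094) (nat_lit 475) (nat_lit 5) (nat_lit 490) (nat_lit 5) (nat_lit 491) (nat_lit 5) (nat_lit 425) (nat_lit 386) (nat_lit 329)) (XT.nd (nat_lit 78) (nat_lit 912) (nat_lit 0) (XT.lf (nat_lit 0) (nat_lit 116335992) (nat_lit 1216) (nat_lit 470811757) (nat_lit 76) (nat_lit 7398903786) (nat_lit 474) (nat_lit 5) (nat_lit 490) (nat_lit 5) (nat_lit 475) (nat_lit 5) (nat_lit 426) (nat_lit 386) (nat_lit 328)) (XT.lf (nat_lit 0) (nat_lit 2440557120) (nat_lit 988) (nat_lit 3367296847) (nat_lit 76) (nat_lit 2241678470) (nat_lit 462) (nat_lit 5) (nat_lit 475) (nat_lit 5) (nat_lit 463) (nat_lit 5) (nat_lit 427) (nat_lit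 386) (nat_lit 327)))))) (XT.nd (nat_lit 390) (nat_lit 3344) (nat_lit 0) (XT.nd (nat_lit 156) (nat_lit 1824) (nat_lit 0) (XT.nd (nat_lit 78) (nat_lit 0) (nat_lit 0) (XT.lf (nat_lit 0) (nat_lit 1812244079) (nat_lit 912) (nat_lit 2979731571) (nat_lit 988) (nat_lit 3322693047) (nat_lit 450) (nat_lit 5) (nat_lit 462) (nat_lit 5) (nat_lit 463) (nat_lit 5) (nat_lit 428) (nat_lit 386) (nat_lit 326)) (XT.lf (nat_lit 0) (nat_lit 7103150610) (nat_lit 912) (nat_lit 72247865) (nat_lit 988) (nat_lit 1006009688) (nat_lit 450) (nat_lit 5) (nat_lit 462) (nat_lit 5) (nat_lit 463) (nat_lit 5) (nat_lit 429) (nat_lit 386) (nat_lit 325))) (XT.nd (nat_lit 78) (nat_lit 912) (nat_lit 0) (XT.lf (nat_lit 0) (nat_lit 1348764656) (nat_lit 912) (nat_lit 4008689645) (nat_lit 76) (nat_lit 2891660812) (nat_lit 438) (nat_lit 5) (nat_lit 450) (nat_lit 5) (nat_lit 439) (nat_lit 5) (nat_lit 430) (nat_lit 386) (nat_lit 324)) (XT.nd (nat_lit 78) (nat_lit 0) (nat_lit 0) (XT.lf (nat_lit 0) (nat_lit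 1334276059) (nat_lit 912) (nat_lit 2382679181) (nat_lit 988) (nat_lit 4601492142) (nat_lit 426) (nat_lit 5) (nat_lit 438) (nat_lit 5) (nat_lit 439) (nat_lit 5) (nat_lit 431) (nat_lit 386) (nat_lit 323)) (XT.lf (nat_lit 0) (nat_lit 6127634255) (nat_lit 988) (nat_lit 1593160242) (nat_lit 76) (nat_lit 668469309) (nat_lit 426) (nat_lit 5) (nat_lit 439) (nat_lit 5) (nat_lit 427) (nat_lit 5) (nat_lit 432) (nat_lit 386) (nat_lit 322))))) (XT.nd (nat_lit 156) (nat_lit 1596) (nat_lit 0) (XT.nd (nat_lit 78) (nat_lit 836) (nat_lit 0) (XT.lf (nat_lit 0) (nat_lit 129074875) (nat_lit 912) (nat_lit 4558955908) (nat_lit 76) (nat_lit 3773335850) (nat_lit 414) (nat_lit 5) (nat_lit 426) (nat_lit 5) (nat_lit 415) (nat_lit 5) (nat_lit 433) (nat_lit 386) (nat_lit 321)) (XT.lf (nat_lit 0) (nat_lit 954230734) (nat_lit 836) (nat_lit 1564809769) (nat_lit 912) (nat_lit 6015937422) (nat_lit 403) (nat_lit 5) (nat_lit 414) (nat_lit 5) (nat_lit 415) (nat_lit 5) (nat_lit 434) (nat_lit 386)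 (nat_lit 320))) (XT.nd (nat_lit 78) (nat_lit 1596) (nat_lit 0) (XT.lf (nat_lit 0) (nat_lit 4963296361) (nat_lit 912) (nat_lit 2019150582) (nat_lit 76) (nat_lit 1627484679) (nat_lit 403) (nat_lit 5) (nat_lit 415) (nat_lit 5) (nat_lit 404) (nat_lit 5) (nat_lit 435) (nat_lit 386) (nat_lit 319)) (XT.nd (nat_lit 78) (nat_lit 836) (nat_lit 0) (XT.lf (nat_lit 0) (nat_lit 3653532148) (nat_lit 760) (nat_lit 3802843754) (nat_lit 836) (nat_lit 1230009721) (nat_lit 393) (nat_lit 5) (nat_lit 403) (nat_lit 5) (nat_lit 404) (nat_lit 5) (nat_lit 436) (nat_lit 386) (nat_lit 318)) (XT.lf (nat_lit 0) (nat_lit 665660743) (nat_lit 760) (nat_lit 537109710) (nat_lit 836) (nat_lit 7561757514) (nat_lit 382) (nat_lit 5) (nat_lit 392) (nat_lit 5) (nat_lit 393) (nat_lit 5) (nat_lit 437) (nat_lit 386) (nat_lit 317))))))))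
noncomputable def xc68 : XT := (XT.nd (nat_lit 1482) (nat_lit 3800) (nat_lit 0) (XT.nd (nat_lit 702) (nat_lit 3800) (nat_lit 0) (XT.nd (nat_lit 312) (nat_lit 2812) (nat_lit 0) (XT.nd (nat_lit 156) (nat_lit 836) (nat_lit 0) (XT.nd (nat_lit 78) (nat_lit 760) (nat_lit 0) (XT.lf (nat_lit 0) (nat_lit 3686340393) (nat_lit 836) (nat_lit 2361997186) (nat_lit 76) (nat_lit 2795360893) (nat_lit 382) (nat_lit 5) (nat_lit 393) (nat_lit 5) (nat_lit 383) (nat_lit 5) (nat_lit 438) (nat_lit 386) (nat_lit 316)) (XT.lf (nat_lit 0) (nat_lit 3494336139) (nat_lit 760) (nat_lit 2718599698) (nat_lit 836) (nat_lit 2711649468) (nat_lit 372) (nat_lit 5) (nat_lit 382) (nat_lit 5) (nat_lit 383) (nat_lit 5) (nat_lit 439) (nat_lit 386) (nat_lit 315))) (XT.nd (nat_lit 78) (nat_lit 76) (nat_lit 0) (XT.lf (nat_lit 0) (nat_lit 456606525) (nat_lit 760) (nat_lit 8324257806) (nat_lit 836) (nat_lit 226409520) (nat_lit 362) (nat_lit 5) (nat_lit 372) (nat_lit 5) (nat_lit 373) (nat_lit 5) (nat_lit 440)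 (nat_lit 386) (nat_lit 314)) (XT.lf (nat_lit 0) (nat_lit 2300604846) (nat_lit 836) (nat_lit 2627411175) (nat_lit 76) (nat_lit 4162853446) (nat_lit 361) (nat_lit 5) (nat_lit 372) (nat_lit 5) (nat_lit 362) (nat_lit 5) (nat_lit 441) (nat_lit 386) (nat_lit 313)))) (XT.nd (nat_lit 156) (nat_lit 1444) (nat_lit 0) (XT.nd (nat_lit 78) (nat_lit 684) (nat_lit 0) (XT.lf (nat_lit 0) (nat_lit 3420318046) (nat_lit 684) (nat_lit 1445315081) (nat_lit 760) (nat_lit 4310663835) (nat_lit 352) (nat_lit 5) (nat_lit 361) (nat_lit 5) (nat_lit 362) (nat_lit 5) (nat_lit 442) (nat_lit 386) (nat_lit 312)) (XT.lf (nat_lit 0) (nat_lit 314166052) (nat_lit 684) (nat_lit 7169902725) (nat_lit 760) (nat_lit 1779322091) (nat_lit 343) (nat_lit 5) (nat_lit 352) (nat_lit 5) (nat_lit 353) (nat_lit 5) (nat_lit 443) (nat_lit 386) (nat_lit 311))) (XT.nd (nat_lit 78) (nat_lit 1368) (nat_lit 0) (XT.lf (nat_lit 0) (nat_lit 809377934) (nat_lit 760) (nat_lit 2820615672) (nat_lit 76) (nat_lit 5721783655) (nat_lit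 342) (nat_lit 5) (nat_lit 352) (nat_lit 5) (nat_lit 343) (nat_lit 5) (nat_lit 444) (nat_lit 386) (nat_lit 310)) (XT.nd (nat_lit 78) (nat_lit 684) (nat_lit 0) (XT.lf (nat_lit 0) (nat_lit 3417771513) (nat_lit 760) (nat_lit 6015315705) (nat_lit 76) (nat_lit 8774043) (nat_lit 333) (nat_lit 5) (nat_lit 343) (nat_lit 5) (nat_lit 334) (nat_lit 5) (nat_lit 445) (nat_lit 386) (nat_lit 309)) (XT.lf (nat_lit 0) (nat_lit 245130461) (nat_lit 684) (nat_lit 5847620877) (nat_lit 760) (nat_lit 3440707237) (nat_lit 324) (nat_lit 5) (nat_lit 333) (nat_lit 5) (nat_lit 334) (nat_lit 5) (nat_lit 446) (nat_lit 386) (nat_lit 308)))))) (XT.nd (nat_lit 390) (nat_lit 1824) (nat_lit 0) (XT.nd (nat_lit 156) (nat_lit 1292) (nat_lit 0) (XT.nd (nat_lit 78) (nat_lit 684) (nat_lit 0) (XT.lf (nat_lit 0) (nat_lit 6675135785) (nat_lit 684) (nat_lit 2156546872) (nat_lit 760) (nat_lit 794996138) (nat_lit 324) (nat_lit 5) (nat_lit 333) (nat_lit 5) (nat_lit 334) (nat_lit 5) (nat_lit 447) (nat_lit 386)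 (nat_lit 307)) (XT.lf (nat_lit 0) (nat_lit 1882549983) (nat_lit 684) (nat_lit 6223494209) (nat_lit 76) (nat_lit 1615394293) (nat_lit 315) (nat_lit 5) (nat_lit 324) (nat_lit 5) (nat_lit 316) (nat_lit 5) (nat_lit 448) (nat_lit 386) (nat_lit 306))) (XT.nd (nat_lit 78) (nat_lit 684) (nat_lit 0) (XT.lf (nat_lit 0) (nat_lit 245125046) (nat_lit 608) (nat_lit 4364469010) (nat_lit 684) (nat_lit 5208262372) (nat_lit 307) (nat_lit 5) (nat_lit 315) (nat_lit 5) (nat_lit 316) (nat_lit 5) (nat_lit 449) (nat_lit 386) (nat_lit 305)) (XT.nd (nat_lit 78) (nat_lit 684) (nat_lit 0) (XT.lf (nat_lit 0) (nat_lit 6890577149) (nat_lit 608) (nat_lit 513469533) (nat_lit 684) (nat_lit 2511898694) (nat_lit 307) (nat_lit 5) (nat_lit 315) (nat_lit 5) (nat_lit 316) (nat_lit 5) (nat_lit 450) (nat_lit 386) (nat_lit 304)) (XT.lf (nat_lit 0) (nat_lit 252816315) (nat_lit 684) (nat_lit 6375467284) (nat_lit 76) (nat_lit 3387330536) (nat_lit 298) (nat_lit 5) (nat_lit 307) (nat_lit 5) (nat_lit 299) (nat_lit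 5) (nat_lit 451) (nat_lit 386) (nat_lit 303))))) (XT.nd (nat_lit 156) (nat_lit 1216) (nat_lit 0) (XT.nd (nat_lit 78) (nat_lit 0) (nat_lit 0) (XT.lf (nat_lit 0) (nat_lit 310183083) (nat_lit 608) (nat_lit 2726644632) (nat_lit 684) (nat_lit 7080163753) (nat_lit 290) (nat_lit 5) (nat_lit 298) (nat_lit 5) (nat_lit 299) (nat_lit 5) (nat_lit 452) (nat_lit 386) (nat_lit 302)) (XT.lf (nat_lit 0) (nat_lit 5899735347) (nat_lit 684) (nat_lit 3049078707) (nat_lit 76) (nat_lit 1271117975) (nat_lit 290) (nat_lit 5) (nat_lit 299) (nat_lit 5) (nat_lit 291) (nat_lit 5) (nat_lit 453) (nat_lit 386) (nat_lit 301))) (XT.nd (nat_lit 78) (nat_lit 684) (nat_lit 0) (XT.lf (nat_lit 0) (nat_lit 3839747691) (nat_lit 532) (nat_lit 4995704061) (nat_lit 608) (nat_lit 1489168635) (nat_lit 283) (nat_lit 5) (nat_lit 290) (nat_lit 5) (nat_lit 291) (nat_lit 5) (nat_lit 454) (nat_lit 386) (nat_lit 300)) (XT.nd (nat_lit 78) (nat_lit 0) (nat_lit 0) (XT.lf (nat_lit 0) (nat_lit 436717278) (nat_lit 608)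 (nat_lit 939540215) (nat_lit 684) (nat_lit 9055041046) (nat_lit 274) (nat_lit 5) (nat_lit 282) (nat_lit 5) (nat_lit 283) (nat_lit 5) (nat_lit 455) (nat_lit 386) (nat_lit 299)) (XT.lf (nat_lit 0) (nat_lit 4316565067) (nat_lit 684) (nat_lit 3022232512) (nat_lit 76) (nat_lit 3200365549) (nat_lit 274) (nat_lit 5) (nat_lit 283) (nat_lit 5) (nat_lit 275) (nat_lit 5) (nat_lit 456) (nat_lit 386) (nat_lit 298))))))) (XT.nd (nat_lit 702) (nat_lit 532) (nat_lit 0) (XT.nd (nat_lit 312) (nat_lit 1596) (nat_lit 0) (XT.nd (nat_lit 156) (nat_lit 608) (nat_lit 0) (XT.nd (nat_lit 78) (nat_lit 532) (nat_lit 0) (XT.lf (nat_lit 0) (nat_lit 4101124471) (nat_lit 532) (nat_lit 3220861755) (nat_lit 608) (nat_lit 3327072633) (nat_lit 267) (nat_lit 5) (nat_lit 274) (nat_lit 5) (nat_lit 275) (nat_lit 5) (nat_lit 457) (nat_lit 386) (nat_lit 297)) (XT.lf (nat_lit 0) (nat_lit 612478136) (nat_lit 532) (nat_lit 9779473033) (nat_lit 608) (nat_lit 369112630) (nat_lit 260) (nat_lit 5) (nat_lit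 267) (nat_lit 5) (nat_lit 268) (nat_lit 5) (nat_lit 458) (nat_lit 386) (nat_lit 296))) (XT.nd (nat_lit 78) (nat_lit 532) (nat_lit 0) (XT.lf (nat_lit 0) (nat_lit 2652633221) (nat_lit 608) (nat_lit 2944725918) (nat_lit 76) (nat_lit 5276818732) (nat_lit 259) (nat_lit 5) (nat_lit 267) (nat_lit 5) (nat_lit 260) (nat_lit 5) (nat_lit 459) (nat_lit 386) (nat_lit 295)) (XT.lf (nat_lit 0) (nat_lit 4423149568) (nat_lit 532) (nat_lit 1309752918) (nat_lit 608) (nat_lit 5256542323) (nat_lit 252) (nat_lit 5) (nat_lit 259) (nat_lit 5) (nat_lit 260) (nat_lit 5) (nat_lit 460) (nat_lit 386) (nat_lit 294)))) (XT.nd (nat_lit 156) (nat_lit 988) (nat_lit 0) (XT.nd (nat_lit 78) (nat_lit 76) (nat_lit 0) (XT.lf (nat_lit 0) (nat_lit 826660604) (nat_lit 532) (nat_lit 8067783720) (nat_lit 608) (nat_lit 2212179418) (nat_lit 245) (nat_lit 5) (nat_lit 252) (nat_lit 5) (nat_lit 253) (nat_lit 5) (nat_lit 461) (nat_lit 386) (nat_lit 293)) (XT.lf (nat_lit 0) (nat_lit 909005934) (nat_lit 608) (nat_lit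 2819483771) (nat_lit 76) (nat_lit 7496987620) (nat_lit 244) (nat_lit 5) (nat_lit 252) (nat_lit 5) (nat_lit 245) (nat_lit 5) (nat_lit 462) (nat_lit 386) (nat_lit 292))) (XT.nd (nat_lit 78) (nat_lit 532) (nat_lit 0) (XT.lf (nat_lit 0) (nat_lit 4074090170) (nat_lit 532) (nat_lit 6547736587) (nat_lit 76) (nat_lit 724366848) (nat_lit 238) (nat_lit 5) (nat_lit 245) (nat_lit 5) (nat_lit 239) (nat_lit 5) (nat_lit 463) (nat_lit 386) (nat_lit 291)) (XT.nd (nat_lit 78) (nat_lit 0) (nat_lit 0) (XT.lf (nat_lit 0) (nat_lit 1092108851) (nat_lit 532) (nat_lit 6236505379) (nat_lit 608) (nat_lit 4140187220) (nat_lit 231) (nat_lit 5) (nat_lit 238) (nat_lit 5) (nat_lit 239) (nat_lit 5) (nat_lit 464) (nat_lit 386) (nat_lit 290)) (XT.lf (nat_lit 0) (nat_lit 8938313831) (nat_lit 532) (nat_lit 1729419256) (nat_lit 608) (nat_lit 925738276) (nat_lit 231) (nat_lit 5) (nat_lit 238) (nat_lit 5) (nat_lit 239) (nat_lit 5) (nat_lit 465) (nat_lit 386) (nat_lit 289)))))) (XT.nd (nat_lit 53508)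 (nat_lit 0) (nat_lit 40052) (XT.nd (nat_lit 53274) (nat_lit 0) (nat_lit 41496) (XT.nd (nat_lit 53196) (nat_lit 0) (nat_lit 42104) (XT.lf (nat_lit 0) (nat_lit 2350920097) (nat_lit 532) (nat_lit 6499584766) (nat_lit 76) (nat_lit 2869248658) (nat_lit 224) (nat_lit 5) (nat_lit 231) (nat_lit 5) (nat_lit 225) (nat_lit 5) (nat_lit 466) (nat_lit 386) (nat_lit 288)) (XT.lf (nat_lit 0) (nat_lit 452385931) (nat_lit 0) (nat_lit 452385931) (nat_lit 532) (nat_lit 2362782681) (nat_lit 778) (nat_lit 5) (nat_lit 778) (nat_lit 3) (nat_lit 785) (nat_lit 3) (nat_lit 387) (nat_lit 387) (nat_lit 366))) (XT.nd (nat_lit 78) (nat_lit 608) (nat_lit 0) (XT.lf (nat_lit 0) (nat_lit 4203248290) (nat_lit 0) (nat_lit 198059297) (nat_lit 532) (nat_lit 2147679222) (nat_lit 778) (nat_lit 5) (nat_lit 778) (nat_lit 3) (nat_lit 785) (nat_lit 3) (nat_lit 388) (nat_lit 387) (nat_lit 365)) (XT.nd (nat_lit 78) (nat_lit 0) (nat_lit 0) (XT.lf (nat_lit 0) (nat_lit 417524510) (nat_lit 608) (nat_lit 5588369907)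 (nat_lit 684) (nat_lit 558343545) (nat_lit 770) (nat_lit 5) (nat_lit 778) (nat_lit 5) (nat_lit 779) (nat_lit 5) (nat_lit 389) (nat_lit 387) (nat_lit 364)) (XT.lf (nat_lit 0) (nat_lit 2955822882) (nat_lit 608) (nat_lit 2235390996) (nat_lit 684) (nat_lit 1389285375) (nat_lit 770) (nat_lit 5) (nat_lit 778) (nat_lit 5) (nat_lit 779) (nat_lit 5) (nat_lit 390) (nat_lit 387) (nat_lit 363))))) (XT.nd (nat_lit 156) (nat_lit 760) (nat_lit 0) (XT.nd (nat_lit 78) (nat_lit 684) (nat_lit 0) (XT.lf (nat_lit 76) (nat_lit 1164650913) (nat_lit 0) (nat_lit 4322468652) (nat_lit 684) (nat_lit 1111121560) (nat_lit 771) (nat_lit 5) (nat_lit 770) (nat_lit 5) (nat_lit 779) (nat_lit 5) (nat_lit 391) (nat_lit 387) (nat_lit 362)) (XT.lf (nat_lit 0) (nat_lit 1384050321) (nat_lit 684) (nat_lit 1998473096) (nat_lit 760) (nat_lit 3234617808) (nat_lit 761) (nat_lit 5) (nat_lit 770) (nat_lit 5) (nat_lit 771) (nat_lit 5) (nat_lit 392) (nat_lit 387) (nat_lit 361))) (XT.nd (nat_lit 78) (nat_lit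 760) (nat_lit 0) (XT.lf (nat_lit 76) (nat_lit 1482232602) (nat_lit 0) (nat_lit 2378219783) (nat_lit 760) (nat_lit 2776895960) (nat_lit 762) (nat_lit 5) (nat_lit 761) (nat_lit 5) (nat_lit 771) (nat_lit 5) (nat_lit 393) (nat_lit 387) (nat_lit 360)) (XT.nd (nat_lit 78) (nat_lit 760) (nat_lit 0) (XT.lf (nat_lit 76) (nat_lit 5024678705) (nat_lit 0) (nat_lit 1312698485) (nat_lit 760) (nat_lit 321562523) (nat_lit 762) (nat_lit 5) (nat_lit 761) (nat_lit 5) (nat_lit 771) (nat_lit 5) (nat_lit 394) (nat_lit 387) (nat_lit 359)) (XT.lf (nat_lit 76) (nat_lit 1933094435) (nat_lit 0) (nat_lit 172107737) (nat_lit 836) (nat_lit 4576458215) (nat_lit 752) (nat_lit 5) (nat_lit 751) (nat_lit 5) (nat_lit 762) (nat_lit 5) (nat_lit 395) (nat_lit 387) (nat_lit 358))))))))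
noncomputable def xc69 : XT := (XT.nd (nat_lit 1482) (nat_lit 15808) (nat_lit 0) (XT.nd (nat_lit 702) (nat_lit 7220) (nat_lit 0) (XT.nd (nat_lit 312) (nat_lit 1824) (nat_lit 0) (XT.nd (nat_lit 156) (nat_lit 0) (nat_lit 0) (XT.nd (nat_lit 78) (nat_lit 836) (nat_lit 0) (XT.lf (nat_lit 0) (nat_lit 4533227091) (nat_lit 760) (nat_lit 1155549827) (nat_lit 836) (nat_lit 1016875432) (nat_lit 752) (nat_lit 5) (nat_lit 762) (nat_lit 5) (nat_lit 763) (nat_lit 5) (nat_lit 396) (nat_lit 387) (nat_lit 357)) (XT.lf (nat_lit 0) (nat_lit 233886609) (nat_lit 836) (nat_lit 4226987425) (nat_lit 912) (nat_lit 2270056471) (nat_lit 741) (nat_lit 5) (nat_lit 752) (nat_lit 5) (nat_lit 753) (nat_lit 5) (nat_lit 397) (nat_lit 387) (nat_lit 356))) (XT.nd (nat_lit 78) (nat_lit 0) (nat_lit 0) (XT.lf (nat_lit 0) (nat_lit 2608351749) (nat_lit 836) (nat_lit 554788823) (nat_lit 912) (nat_lit 3594304140) (nat_lit 741) (nat_lit 5) (nat_lit 752) (nat_lit 5) (nat_lit 753) (nat_lit 5) (nat_lit 398)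 (nat_lit 387) (nat_lit 355)) (XT.lf (nat_lit 76) (nat_lit 3197414853) (nat_lit 0) (nat_lit 1796085308) (nat_lit 912) (nat_lit 1791725165) (nat_lit 742) (nat_lit 5) (nat_lit 741) (nat_lit 5) (nat_lit 753) (nat_lit 5) (nat_lit 399) (nat_lit 387) (nat_lit 354)))) (XT.nd (nat_lit 156) (nat_lit 912) (nat_lit 0) (XT.nd (nat_lit 78) (nat_lit 0) (nat_lit 76) (XT.lf (nat_lit 76) (nat_lit 181169713) (nat_lit 0) (nat_lit 371466827) (nat_lit 988) (nat_lit 6261887770) (nat_lit 730) (nat_lit 5) (nat_lit 729) (nat_lit 5) (nat_lit 742) (nat_lit 5) (nat_lit 400) (nat_lit 387) (nat_lit 353)) (XT.lf (nat_lit 0) (nat_lit 2895154480) (nat_lit 912) (nat_lit 2825731276) (nat_lit 988) (nat_lit 1123781447) (nat_lit 730) (nat_lit 5) (nat_lit 742) (nat_lit 5) (nat_lit 743) (nat_lit 5) (nat_lit 401) (nat_lit 387) (nat_lit 352))) (XT.nd (nat_lit 78) (nat_lit 988) (nat_lit 0) (XT.lf (nat_lit 76) (nat_lit 1032936695) (nat_lit 0) (nat_lit 4205830563) (nat_lit 988) (nat_lit 1637560808) (nat_lit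 731) (nat_lit 5) (nat_lit 730) (nat_lit 5) (nat_lit 743) (nat_lit 5) (nat_lit 402) (nat_lit 387) (nat_lit 351)) (XT.nd (nat_lit 78) (nat_lit 0) (nat_lit 0) (XT.lf (nat_lit 0) (nat_lit 675829908) (nat_lit 988) (nat_lit 1942645963) (nat_lit 1064) (nat_lit 4290759679) (nat_lit 717) (nat_lit 5) (nat_lit 730) (nat_lit 5) (nat_lit 731) (nat_lit 5) (nat_lit 403) (nat_lit 387) (nat_lit 350)) (XT.lf (nat_lit 76) (nat_lit 2015745431) (nat_lit 0) (nat_lit 957554744) (nat_lit 1064) (nat_lit 3970089749) (nat_lit 718) (nat_lit 5) (nat_lit 717) (nat_lit 5) (nat_lit 731) (nat_lit 5) (nat_lit 404) (nat_lit 387) (nat_lit 349)))))) (XT.nd (nat_lit 390) (nat_lit 3952) (nat_lit 0) (XT.nd (nat_lit 156) (nat_lit 2280) (nat_lit 0) (XT.nd (nat_lit 78) (nat_lit 1064) (nat_lit 0) (XT.lf (nat_lit 0) (nat_lit 5282179162) (nat_lit 988) (nat_lit 940082460) (nat_lit 76) (nat_lit 756656577) (nat_lit 718) (nat_lit 5) (nat_lit 731) (nat_lit 5) (nat_lit 719) (nat_lit 5) (nat_lit 405) (nat_lit 387)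 (nat_lit 348)) (XT.lf (nat_lit 0) (nat_lit 588974335) (nat_lit 1064) (nat_lit 3893805269) (nat_lit 76) (nat_lit 2532795571) (nat_lit 704) (nat_lit 5) (nat_lit 718) (nat_lit 5) (nat_lit 705) (nat_lit 5) (nat_lit 406) (nat_lit 387) (nat_lit 347))) (XT.nd (nat_lit 78) (nat_lit 1216) (nat_lit 0) (XT.lf (nat_lit 0) (nat_lit 179234366) (nat_lit 1064) (nat_lit 2675005761) (nat_lit 1140) (nat_lit 4199369705) (nat_lit 690) (nat_lit 5) (nat_lit 704) (nat_lit 5) (nat_lit 705) (nat_lit 5) (nat_lit 407) (nat_lit 387) (nat_lit 346)) (XT.nd (nat_lit 78) (nat_lit 1216) (nat_lit 0) (XT.lf (nat_lit 0) (nat_lit 4350156018) (nat_lit 1064) (nat_lit 790570502) (nat_lit 1140) (nat_lit 1952160356) (nat_lit 690) (nat_lit 5) (nat_lit 704) (nat_lit 5) (nat_lit 705) (nat_lit 5) (nat_lit 408) (nat_lit 387) (nat_lit 345)) (XT.lf (nat_lit 0) (nat_lit 302916204) (nat_lit 1216) (nat_lit 5689140259) (nat_lit 76) (nat_lit 1141501206) (nat_lit 674) (nat_lit 5) (nat_lit 690) (nat_lit 5) (nat_lit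 675) (nat_lit 5) (nat_lit 409) (nat_lit 387) (nat_lit 344))))) (XT.nd (nat_lit 156) (nat_lit 2736) (nat_lit 0) (XT.nd (nat_lit 78) (nat_lit 1216) (nat_lit 0) (XT.lf (nat_lit 0) (nat_lit 2552006593) (nat_lit 1216) (nat_lit 1477598607) (nat_lit 76) (nat_lit 3145677570) (nat_lit 674) (nat_lit 5) (nat_lit 690) (nat_lit 5) (nat_lit 675) (nat_lit 5) (nat_lit 410) (nat_lit 387) (nat_lit 343)) (XT.lf (nat_lit 0) (nat_lit 2818743928) (nat_lit 1216) (nat_lit 1997856276) (nat_lit 1292) (nat_lit 2401831739) (nat_lit 658) (nat_lit 5) (nat_lit 674) (nat_lit 5) (nat_lit 675) (nat_lit 5) (nat_lit 411) (nat_lit 387) (nat_lit 342))) (XT.nd (nat_lit 78) (nat_lit 2736) (nat_lit 0) (XT.lf (nat_lit 0) (nat_lit 7089943946) (nat_lit 1292) (nat_lit 78924050) (nat_lit 76) (nat_lit 94306939) (nat_lit 658) (nat_lit 5) (nat_lit 675) (nat_lit 5) (nat_lit 659) (nat_lit 5) (nat_lit 412) (nat_lit 387) (nat_lit 341)) (XT.nd (nat_lit 78) (nat_lit 1368) (nat_lit 0) (XT.lf (nat_lit 0) (nat_lit 2067663842)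 (nat_lit 1368) (nat_lit 2987067909) (nat_lit 76) (nat_lit 2253903087) (nat_lit 640) (nat_lit 5) (nat_lit 658) (nat_lit 5) (nat_lit 641) (nat_lit 5) (nat_lit 413) (nat_lit 387) (nat_lit 340)) (XT.lf (nat_lit 0) (nat_lit 1437030172) (nat_lit 1368) (nat_lit 2878175037) (nat_lit 1444) (nat_lit 3040492865) (nat_lit 622) (nat_lit 5) (nat_lit 640) (nat_lit 5) (nat_lit 641) (nat_lit 5) (nat_lit 414) (nat_lit 387) (nat_lit 339))))))) (XT.nd (nat_lit 702) (nat_lit 7600) (nat_lit 0) (XT.nd (nat_lit 312) (nat_lit 5168) (nat_lit 0) (XT.nd (nat_lit 156) (nat_lit 1520) (nat_lit 0) (XT.nd (nat_lit 78) (nat_lit 1520) (nat_lit 0) (XT.lf (nat_lit 0) (nat_lit 5953532659) (nat_lit 1368) (nat_lit 629151287) (nat_lit 1444) (nat_lit 821518899) (nat_lit 622) (nat_lit 5) (nat_lit 640) (nat_lit 5) (nat_lit 641) (nat_lit 5) (nat_lit 415) (nat_lit 387) (nat_lit 338)) (XT.lf (nat_lit 0) (nat_lit 1409651502) (nat_lit 1520) (nat_lit 4363472174) (nat_lit 76) (nat_lit 1680632270) (nat_lit 602)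 (nat_lit 5) (nat_lit 622) (nat_lit 5) (nat_lit 603) (nat_lit 5) (nat_lit 416) (nat_lit 387) (nat_lit 337))) (XT.nd (nat_lit 78) (nat_lit 0) (nat_lit 0) (XT.lf (nat_lit 0) (nat_lit 193351534) (nat_lit 1520) (nat_lit 3452544160) (nat_lit 1596) (nat_lit 3858866801) (nat_lit 582) (nat_lit 5) (nat_lit 602) (nat_lit 5) (nat_lit 603) (nat_lit 5) (nat_lit 417) (nat_lit 387) (nat_lit 336)) (XT.lf (nat_lit 0) (nat_lit 4863575635) (nat_lit 1520) (nat_lit 1049408381) (nat_lit 1596) (nat_lit 1644082774) (nat_lit 582) (nat_lit 5) (nat_lit 602) (nat_lit 5) (nat_lit 603) (nat_lit 5) (nat_lit 418) (nat_lit 387) (nat_lit 335)))) (XT.nd (nat_lit 156) (nat_lit 3496) (nat_lit 0) (XT.nd (nat_lit 78) (nat_lit 0) (nat_lit 0) (XT.lf (nat_lit 0) (nat_lit 586587701) (nat_lit 1672) (nat_lit 5617853200) (nat_lit 76) (nat_lit 1406303277) (nat_lit 560) (nat_lit 5) (nat_lit 582) (nat_lit 5) (nat_lit 561) (nat_lit 5) (nat_lit 419) (nat_lit 387) (nat_lit 334)) (XT.lf (nat_lit 0) (nat_lit 2823060307)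 (nat_lit 1672) (nat_lit 910940345) (nat_lit 76) (nat_lit 3931613057) (nat_lit 560) (nat_lit 5) (nat_lit 582) (nat_lit 5) (nat_lit 561) (nat_lit 5) (nat_lit 420) (nat_lit 387) (nat_lit 333))) (XT.nd (nat_lit 78) (nat_lit 1824) (nat_lit 0) (XT.lf (nat_lit 0) (nat_lit 3904693017) (nat_lit 1672) (nat_lit 1183782226) (nat_lit 1748) (nat_lit 2633421129) (nat_lit 538) (nat_lit 5) (nat_lit 560) (nat_lit 5) (nat_lit 561) (nat_lit 5) (nat_lit 421) (nat_lit 387) (nat_lit 332)) (XT.nd (nat_lit 78) (nat_lit 76) (nat_lit 0) (XT.lf (nat_lit 0) (nat_lit 1016668958) (nat_lit 1748) (nat_lit 6363945308) (nat_lit 1824) (nat_lit 399062106) (nat_lit 515) (nat_lit 5) (nat_lit 538) (nat_lit 5) (nat_lit 539) (nat_lit 5) (nat_lit 422) (nat_lit 387) (nat_lit 331)) (XT.lf (nat_lit 0) (nat_lit 1848701041) (nat_lit 1824) (nat_lit 1896869163) (nat_lit 76) (nat_lit 4092930180) (nat_lit 514) (nat_lit 5) (nat_lit 538) (nat_lit 5) (nat_lit 515) (nat_lit 5) (nat_lit 423) (nat_lit 387) (nat_lit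 330)))))) (XT.nd (nat_lit 390) (nat_lit 3648) (nat_lit 0) (XT.nd (nat_lit 156) (nat_lit 988) (nat_lit 0) (XT.nd (nat_lit 78) (nat_lit 1140) (nat_lit 0) (XT.lf (nat_lit 0) (nat_lit 3067398089) (nat_lit 1824) (nat_lit 1049136317) (nat_lit 1900) (nat_lit 3782304547) (nat_lit 490) (nat_lit 5) (nat_lit 514) (nat_lit 5) (nat_lit 515) (nat_lit 5) (nat_lit 424) (nat_lit 387) (nat_lit 329)) (XT.lf (nat_lit 0) (nat_lit 150039053) (nat_lit 1140) (nat_lit 6265608170) (nat_lit 1216) (nat_lit 1545018614) (nat_lit 475) (nat_lit 5) (nat_lit 490) (nat_lit 5) (nat_lit 491) (nat_lit 5) (nat_lit 425) (nat_lit 387) (nat_lit 328))) (XT.nd (nat_lit 78) (nat_lit 912) (nat_lit 0) (XT.lf (nat_lit 0) (nat_lit 728288903) (nat_lit 1216) (nat_lit 2775989027) (nat_lit 76) (nat_lit 4519336789) (nat_lit 474) (nat_lit 5) (nat_lit 490) (nat_lit 5) (nat_lit 475) (nat_lit 5) (nat_lit 426) (nat_lit 387) (nat_lit 327)) (XT.nd (nat_lit 78) (nat_lit 0) (nat_lit 0) (XT.lf (nat_lit 0) (nat_lit 2342974968)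 (nat_lit 912) (nat_lit 660746760) (nat_lit 988) (nat_lit 5084349657) (nat_lit 462) (nat_lit 5) (nat_lit 474) (nat_lit 5) (nat_lit 475) (nat_lit 5) (nat_lit 427) (nat_lit 387) (nat_lit 326)) (XT.lf (nat_lit 0) (nat_lit 5320581718) (nat_lit 988) (nat_lit 603534946) (nat_lit 76) (nat_lit 2229782152) (nat_lit 462) (nat_lit 5) (nat_lit 475) (nat_lit 5) (nat_lit 463) (nat_lit 5) (nat_lit 428) (nat_lit 387) (nat_lit 325))))) (XT.nd (nat_lit 156) (nat_lit 1824) (nat_lit 0) (XT.nd (nat_lit 78) (nat_lit 912) (nat_lit 0) (XT.lf (nat_lit 0) (nat_lit 4660971089) (nat_lit 912) (nat_lit 3020804040) (nat_lit 988) (nat_lit 539307743) (nat_lit 450) (nat_lit 5) (nat_lit 462) (nat_lit 5) (nat_lit 463) (nat_lit 5) (nat_lit 429) (nat_lit 387) (nat_lit 324)) (XT.lf (nat_lit 0) (nat_lit 1723421298) (nat_lit 836) (nat_lit 32412969) (nat_lit 912) (nat_lit 6533965180) (nat_lit 438) (nat_lit 5) (nat_lit 449) (nat_lit 5) (nat_lit 450) (nat_lit 5) (nat_lit 430) (nat_lit 387) (nat_lit 323)))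 (XT.nd (nat_lit 78) (nat_lit 1824) (nat_lit 0) (XT.lf (nat_lit 0) (nat_lit 4097365324) (nat_lit 912) (nat_lit 1259193427) (nat_lit 76) (nat_lit 3003106156) (nat_lit 438) (nat_lit 5) (nat_lit 450) (nat_lit 5) (nat_lit 439) (nat_lit 5) (nat_lit 431) (nat_lit 387) (nat_lit 322)) (XT.nd (nat_lit 78) (nat_lit 912) (nat_lit 0) (XT.lf (nat_lit 0) (nat_lit 4172015341) (nat_lit 912) (nat_lit 2305790402) (nat_lit 988) (nat_lit 1953280360) (nat_lit 426) (nat_lit 5) (nat_lit 438) (nat_lit 5) (nat_lit 439) (nat_lit 5) (nat_lit 432) (nat_lit 387) (nat_lit 321)) (XT.lf (nat_lit 0) (nat_lit 383301175) (nat_lit 912) (nat_lit 7308208341) (nat_lit 76) (nat_lit 812640951) (nat_lit 414) (nat_lit 5) (nat_lit 426) (nat_lit 5) (nat_lit 415) (nat_lit 5) (nat_lit 433) (nat_lit 387) (nat_lit 320))))))))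
noncomputable def xc70 : XT := (XT.nd (nat_lit 1482) (nat_lit 5092) (nat_lit 0) (XT.nd (nat_lit 702) (nat_lit 4104) (nat_lit 0) (XT.nd (nat_lit 312) (nat_lit 3040) (nat_lit 0) (XT.nd (nat_lit 156) (nat_lit 836) (nat_lit 0) (XT.nd (nat_lit 78) (nat_lit 836) (nat_lit 0) (XT.lf (nat_lit 0) (nat_lit 2749960442) (nat_lit 912) (nat_lit 1825992640) (nat_lit 76) (nat_lit 4002274802) (nat_lit 414) (nat_lit 5) (nat_lit 426) (nat_lit 5) (nat_lit 415) (nat_lit 5) (nat_lit 434) (nat_lit 387) (nat_lit 319)) (XT.lf (nat_lit 0) (nat_lit 3778877851) (nat_lit 836) (nat_lit 1375723809) (nat_lit 912) (nat_lit 3499372216) (nat_lit 403) (nat_lit 5) (nat_lit 414) (nat_lit 5) (nat_lit 415) (nat_lit 5) (nat_lit 435) (nat_lit 387) (nat_lit 318))) (XT.nd (nat_lit 78) (nat_lit 76) (nat_lit 0) (XT.lf (nat_lit 0) (nat_lit 750143140) (nat_lit 760) (nat_lit 6853182922) (nat_lit 836) (nat_lit 1127988917) (nat_lit 393) (nat_lit 5) (nat_lit 403) (nat_lit 5) (nat_lit 404) (nat_lit 5) (nat_lit 436)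 (nat_lit 387) (nat_lit 317)) (XT.lf (nat_lit 0) (nat_lit 1282657577) (nat_lit 836) (nat_lit 2310446024) (nat_lit 76) (nat_lit 5216756389) (nat_lit 392) (nat_lit 5) (nat_lit 403) (nat_lit 5) (nat_lit 393) (nat_lit 5) (nat_lit 437) (nat_lit 387) (nat_lit 316)))) (XT.nd (nat_lit 156) (nat_lit 1520) (nat_lit 0) (XT.nd (nat_lit 78) (nat_lit 760) (nat_lit 0) (XT.lf (nat_lit 0) (nat_lit 3475373517) (nat_lit 760) (nat_lit 240993778) (nat_lit 836) (nat_lit 5173660404) (nat_lit 382) (nat_lit 5) (nat_lit 392) (nat_lit 5) (nat_lit 393) (nat_lit 5) (nat_lit 438) (nat_lit 387) (nat_lit 315)) (XT.lf (nat_lit 0) (nat_lit 384231607) (nat_lit 760) (nat_lit 5821010435) (nat_lit 836) (nat_lit 2766426902) (nat_lit 372) (nat_lit 5) (nat_lit 382) (nat_lit 5) (nat_lit 383) (nat_lit 5) (nat_lit 439) (nat_lit 387) (nat_lit 314))) (XT.nd (nat_lit 78) (nat_lit 1520) (nat_lit 0) (XT.lf (nat_lit 0) (nat_lit 6334307403) (nat_lit 760) (nat_lit 2415656844) (nat_lit 836) (nat_lit 304857371) (nat_lit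 372) (nat_lit 5) (nat_lit 382) (nat_lit 5) (nat_lit 383) (nat_lit 5) (nat_lit 440) (nat_lit 387) (nat_lit 313)) (XT.nd (nat_lit 78) (nat_lit 684) (nat_lit 0) (XT.lf (nat_lit 0) (nat_lit 2173789831) (nat_lit 836) (nat_lit 5890770398) (nat_lit 76) (nat_lit 1074855112) (nat_lit 361) (nat_lit 5) (nat_lit 372) (nat_lit 5) (nat_lit 362) (nat_lit 5) (nat_lit 441) (nat_lit 387) (nat_lit 312)) (XT.lf (nat_lit 0) (nat_lit 95221680) (nat_lit 684) (nat_lit 4606620126) (nat_lit 760) (nat_lit 4523740555) (nat_lit 352) (nat_lit 5) (nat_lit 361) (nat_lit 5) (nat_lit 362) (nat_lit 5) (nat_lit 442) (nat_lit 387) (nat_lit 311)))))) (XT.nd (nat_lit 390) (nat_lit 1976) (nat_lit 0) (XT.nd (nat_lit 156) (nat_lit 1368) (nat_lit 0) (XT.nd (nat_lit 78) (nat_lit 760) (nat_lit 0) (XT.lf (nat_lit 0) (nat_lit 6244407082) (nat_lit 684) (nat_lit 1044868289) (nat_lit 760) (nat_lit 2024020937) (nat_lit 352) (nat_lit 5) (nat_lit 361) (nat_lit 5) (nat_lit 362) (nat_lit 5) (nat_lit 443) (nat_lit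 387) (nat_lit 310)) (XT.lf (nat_lit 0) (nat_lit 525640457) (nat_lit 760) (nat_lit 6304633010) (nat_lit 76) (nat_lit 2572285967) (nat_lit 342) (nat_lit 5) (nat_lit 352) (nat_lit 5) (nat_lit 343) (nat_lit 5) (nat_lit 444) (nat_lit 387) (nat_lit 309))) (XT.nd (nat_lit 78) (nat_lit 1368) (nat_lit 0) (XT.lf (nat_lit 0) (nat_lit 3096885236) (nat_lit 760) (nat_lit 120368464) (nat_lit 76) (nat_lit 6276132711) (nat_lit 342) (nat_lit 5) (nat_lit 352) (nat_lit 5) (nat_lit 343) (nat_lit 5) (nat_lit 445) (nat_lit 387) (nat_lit 308)) (XT.nd (nat_lit 78) (nat_lit 684) (nat_lit 0) (XT.lf (nat_lit 0) (nat_lit 5733898428) (nat_lit 760) (nat_lit 3355414239) (nat_lit 76) (nat_lit 496430390) (nat_lit 333) (nat_lit 5) (nat_lit 343) (nat_lit 5) (nat_lit 334) (nat_lit 5) (nat_lit 446) (nat_lit 387) (nat_lit 307)) (XT.lf (nat_lit 0) (nat_lit 3011950009) (nat_lit 684) (nat_lit 5424286086) (nat_lit 760) (nat_lit 1243459056) (nat_lit 324) (nat_lit 5) (nat_lit 333) (nat_lit 5) (nat_lit 334)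 (nat_lit 5) (nat_lit 447) (nat_lit 387) (nat_lit 306))))) (XT.nd (nat_lit 156) (nat_lit 1292) (nat_lit 0) (XT.nd (nat_lit 78) (nat_lit 608) (nat_lit 0) (XT.lf (nat_lit 0) (nat_lit 1392231643) (nat_lit 760) (nat_lit 268410217) (nat_lit 76) (nat_lit 8114825955) (nat_lit 323) (nat_lit 5) (nat_lit 333) (nat_lit 5) (nat_lit 324) (nat_lit 5) (nat_lit 448) (nat_lit 387) (nat_lit 305)) (XT.lf (nat_lit 0) (nat_lit 4090938689) (nat_lit 684) (nat_lit 3589310363) (nat_lit 76) (nat_lit 2192203448) (nat_lit 315) (nat_lit 5) (nat_lit 324) (nat_lit 5) (nat_lit 316) (nat_lit 5) (nat_lit 449) (nat_lit 387) (nat_lit 304))) (XT.nd (nat_lit 78) (nat_lit 684) (nat_lit 0) (XT.lf (nat_lit 0) (nat_lit 2990532239) (nat_lit 608) (nat_lit 3857221094) (nat_lit 684) (nat_lit 3123540875) (nat_lit 307) (nat_lit 5) (nat_lit 315) (nat_lit 5) (nat_lit 316) (nat_lit 5) (nat_lit 450) (nat_lit 387) (nat_lit 303)) (XT.nd (nat_lit 78) (nat_lit 684) (nat_lit 0) (XT.lf (nat_lit 0) (nat_lit 9656401201)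 (nat_lit 684) (nat_lit 357412475) (nat_lit 76) (nat_lit 58365135) (nat_lit 307) (nat_lit 5) (nat_lit 316) (nat_lit 5) (nat_lit 308) (nat_lit 5) (nat_lit 451) (nat_lit 387) (nat_lit 302)) (XT.lf (nat_lit 0) (nat_lit 2355597077) (nat_lit 684) (nat_lit 3767964363) (nat_lit 76) (nat_lit 4050410489) (nat_lit 298) (nat_lit 5) (nat_lit 307) (nat_lit 5) (nat_lit 299) (nat_lit 5) (nat_lit 452) (nat_lit 387) (nat_lit 301))))))) (XT.nd (nat_lit 702) (nat_lit 1596) (nat_lit 0) (XT.nd (nat_lit 312) (nat_lit 1672) (nat_lit 0) (XT.nd (nat_lit 156) (nat_lit 1216) (nat_lit 0) (XT.nd (nat_lit 78) (nat_lit 0) (nat_lit 0) (XT.lf (nat_lit 0) (nat_lit 3033405510) (nat_lit 608) (nat_lit 2138392032) (nat_lit 684) (nat_lit 5106049091) (nat_lit 290) (nat_lit 5) (nat_lit 298) (nat_lit 5) (nat_lit 299) (nat_lit 5) (nat_lit 453) (nat_lit 387) (nat_lit 300)) (XT.lf (nat_lit 0) (nat_lit 8055383644) (nat_lit 684) (nat_lit 409736713) (nat_lit 76) (nat_lit 1918457241) (nat_lit 290) (nat_lit 5)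 (nat_lit 299) (nat_lit 5) (nat_lit 291) (nat_lit 5) (nat_lit 454) (nat_lit 387) (nat_lit 299))) (XT.nd (nat_lit 78) (nat_lit 608) (nat_lit 0) (XT.lf (nat_lit 0) (nat_lit 529431009) (nat_lit 608) (nat_lit 3895192636) (nat_lit 76) (nat_lit 6066117157) (nat_lit 282) (nat_lit 5) (nat_lit 290) (nat_lit 5) (nat_lit 283) (nat_lit 5) (nat_lit 455) (nat_lit 387) (nat_lit 298)) (XT.lf (nat_lit 0) (nat_lit 3137141335) (nat_lit 608) (nat_lit 272805473) (nat_lit 684) (nat_lit 7189854419) (nat_lit 274) (nat_lit 5) (nat_lit 282) (nat_lit 5) (nat_lit 283) (nat_lit 5) (nat_lit 456) (nat_lit 387) (nat_lit 297)))) (XT.nd (nat_lit 156) (nat_lit 1140) (nat_lit 0) (XT.nd (nat_lit 78) (nat_lit 532) (nat_lit 0) (XT.lf (nat_lit 0) (nat_lit 6374087595) (nat_lit 684) (nat_lit 408792743) (nat_lit 76) (nat_lit 3927642227) (nat_lit 274) (nat_lit 5) (nat_lit 283) (nat_lit 5) (nat_lit 275) (nat_lit 5) (nat_lit 457) (nat_lit 387) (nat_lit 296)) (XT.lf (nat_lit 0) (nat_lit 6839440035) (nat_lit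 532) (nat_lit 2578772751) (nat_lit 608) (nat_lit 1404831514) (nat_lit 267) (nat_lit 5) (nat_lit 274) (nat_lit 5) (nat_lit 275) (nat_lit 5) (nat_lit 458) (nat_lit 387) (nat_lit 295))) (XT.nd (nat_lit 78) (nat_lit 532) (nat_lit 0) (XT.lf (nat_lit 0) (nat_lit 1574654711) (nat_lit 608) (nat_lit 7650249073) (nat_lit 76) (nat_lit 1712505944) (nat_lit 259) (nat_lit 5) (nat_lit 267) (nat_lit 5) (nat_lit 260) (nat_lit 5) (nat_lit 459) (nat_lit 387) (nat_lit 294)) (XT.nd (nat_lit 78) (nat_lit 532) (nat_lit 0) (XT.lf (nat_lit 0) (nat_lit 4613736666) (nat_lit 608) (nat_lit 357675486) (nat_lit 76) (nat_lit 6082088261) (nat_lit 259) (nat_lit 5) (nat_lit 267) (nat_lit 5) (nat_lit 260) (nat_lit 5) (nat_lit 460) (nat_lit 387) (nat_lit 293)) (XT.lf (nat_lit 0) (nat_lit 7140149977) (nat_lit 532) (nat_lit 595114788) (nat_lit 608) (nat_lit 3436214855) (nat_lit 252) (nat_lit 5) (nat_lit 259) (nat_lit 5) (nat_lit 260) (nat_lit 5) (nat_lit 461) (nat_lit 387) (nat_lit 292)))))) (XT.nd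 (nat_lit 53664) (nat_lit 0) (nat_lit 40204) (XT.nd (nat_lit 156) (nat_lit 988) (nat_lit 0) (XT.nd (nat_lit 78) (nat_lit 76) (nat_lit 0) (XT.lf (nat_lit 0) (nat_lit 3487165591) (nat_lit 532) (nat_lit 7457740125) (nat_lit 608) (nat_lit 346399050) (nat_lit 245) (nat_lit 5) (nat_lit 252) (nat_lit 5) (nat_lit 253) (nat_lit 5) (nat_lit 462) (nat_lit 387) (nat_lit 291)) (XT.lf (nat_lit 0) (nat_lit 2775199434) (nat_lit 608) (nat_lit 259185130) (nat_lit 76) (nat_lit 8378642041) (nat_lit 244) (nat_lit 5) (nat_lit 252) (nat_lit 5) (nat_lit 245) (nat_lit 5) (nat_lit 463) (nat_lit 387) (nat_lit 290))) (XT.nd (nat_lit 78) (nat_lit 532) (nat_lit 0) (XT.lf (nat_lit 0) (nat_lit 5989231964) (nat_lit 532) (nat_lit 4047649612) (nat_lit 76) (nat_lit 1499562702) (nat_lit 238) (nat_lit 5) (nat_lit 245) (nat_lit 5) (nat_lit 239) (nat_lit 5) (nat_lit 464) (nat_lit 387) (nat_lit 289)) (XT.nd (nat_lit 53352) (nat_lit 0) (nat_lit 40888) (XT.lf (nat_lit 0) (nat_lit 3727683250) (nat_lit 532)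 (nat_lit 5562179220) (nat_lit 608) (nat_lit 2372021489) (nat_lit 231) (nat_lit 5) (nat_lit 238) (nat_lit 5) (nat_lit 239) (nat_lit 5) (nat_lit 465) (nat_lit 387) (nat_lit 288)) (XT.lf (nat_lit 0) (nat_lit 195461714) (nat_lit 684) (nat_lit 1543139516) (nat_lit 684) (nat_lit 1543139516) (nat_lit 769) (nat_lit 3) (nat_lit 778) (nat_lit 3) (nat_lit 778) (nat_lit 5) (nat_lit 388) (nat_lit 388) (nat_lit 364))))) (XT.nd (nat_lit 156) (nat_lit 684) (nat_lit 0) (XT.nd (nat_lit 78) (nat_lit 0) (nat_lit 0) (XT.lf (nat_lit 76) (nat_lit 198059297) (nat_lit 0) (nat_lit 2688171357) (nat_lit 684) (nat_lit 3693057694) (nat_lit 770) (nat_lit 5) (nat_lit 769) (nat_lit 3) (nat_lit 778) (nat_lit 5) (nat_lit 389) (nat_lit 388) (nat_lit 363)) (XT.lf (nat_lit 76) (nat_lit 3556165594) (nat_lit 0) (nat_lit 1830453299) (nat_lit 684) (nat_lit 1209688949) (nat_lit 770) (nat_lit 5) (nat_lit 769) (nat_lit 3) (nat_lit 778) (nat_lit 5) (nat_lit 390) (nat_lit 388) (nat_lit 362))) (XT.nd (nat_lit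 78) (nat_lit 0) (nat_lit 76) (XT.lf (nat_lit 76) (nat_lit 329544485) (nat_lit 0) (nat_lit 913910192) (nat_lit 760) (nat_lit 5371291941) (nat_lit 761) (nat_lit 5) (nat_lit 760) (nat_lit 5) (nat_lit 770) (nat_lit 5) (nat_lit 391) (nat_lit 388) (nat_lit 361)) (XT.nd (nat_lit 78) (nat_lit 0) (nat_lit 0) (XT.lf (nat_lit 0) (nat_lit 3686717872) (nat_lit 684) (nat_lit 2868788754) (nat_lit 760) (nat_lit 78742533) (nat_lit 761) (nat_lit 5) (nat_lit 770) (nat_lit 5) (nat_lit 771) (nat_lit 5) (nat_lit 392) (nat_lit 388) (nat_lit 360)) (XT.lf (nat_lit 76) (nat_lit 583042225) (nat_lit 0) (nat_lit 5543452887) (nat_lit 760) (nat_lit 528693663) (nat_lit 762) (nat_lit 5) (nat_lit 761) (nat_lit 5) (nat_lit 771) (nat_lit 5) (nat_lit 393) (nat_lit 388) (nat_lit 359))))))))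
noncomputable def xc71 : XT := (XT.nd (nat_lit 1482) (nat_lit 17556) (nat_lit 0) (XT.nd (nat_lit 702) (nat_lit 4484) (nat_lit 0) (XT.nd (nat_lit 312) (nat_lit 1824) (nat_lit 0) (XT.nd (nat_lit 156) (nat_lit 836) (nat_lit 0) (XT.nd (nat_lit 78) (nat_lit 0) (nat_lit 0) (XT.lf (nat_lit 0) (nat_lit 1870877730) (nat_lit 760) (nat_lit 2581175381) (nat_lit 836) (nat_lit 2225086727) (nat_lit 751) (nat_lit 5) (nat_lit 761) (nat_lit 5) (nat_lit 762) (nat_lit 5) (nat_lit 394) (nat_lit 388) (nat_lit 358)) (XT.lf (nat_lit 76) (nat_lit 954220288) (nat_lit 0) (nat_lit 3302953389) (nat_lit 836) (nat_lit 2443370106) (nat_lit 752) (nat_lit 5) (nat_lit 751) (nat_lit 5) (nat_lit 762) (nat_lit 5) (nat_lit 395) (nat_lit 388) (nat_lit 357))) (XT.nd (nat_lit 78) (nat_lit 836) (nat_lit 0) (XT.lf (nat_lit 76) (nat_lit 4561130345) (nat_lit 0) (nat_lit 2087958710) (nat_lit 836) (nat_lit 76168883) (nat_lit 752) (nat_lit 5) (nat_lit 751) (nat_lit 5) (nat_lit 762) (nat_lit 5) (nat_lit 396)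 (nat_lit 388) (nat_lit 356)) (XT.lf (nat_lit 76) (nat_lit 1459378746) (nat_lit 0) (nat_lit 799156515) (nat_lit 912) (nat_lit 4492610926) (nat_lit 741) (nat_lit 5) (nat_lit 740) (nat_lit 5) (nat_lit 752) (nat_lit 5) (nat_lit 397) (nat_lit 388) (nat_lit 355)))) (XT.nd (nat_lit 156) (nat_lit 988) (nat_lit 0) (XT.nd (nat_lit 78) (nat_lit 912) (nat_lit 0) (XT.lf (nat_lit 0) (nat_lit 4599313841) (nat_lit 836) (nat_lit 1631891852) (nat_lit 912) (nat_lit 547128432) (nat_lit 741) (nat_lit 5) (nat_lit 752) (nat_lit 5) (nat_lit 753) (nat_lit 5) (nat_lit 398) (nat_lit 388) (nat_lit 354)) (XT.lf (nat_lit 0) (nat_lit 140637474) (nat_lit 912) (nat_lit 4719141517) (nat_lit 988) (nat_lit 1947020007) (nat_lit 729) (nat_lit 5) (nat_lit 741) (nat_lit 5) (nat_lit 742) (nat_lit 5) (nat_lit 399) (nat_lit 388) (nat_lit 353))) (XT.nd (nat_lit 78) (nat_lit 988) (nat_lit 0) (XT.lf (nat_lit 0) (nat_lit 2432639944) (nat_lit 912) (nat_lit 981593732) (nat_lit 988) (nat_lit 3422208854) (nat_lit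 729) (nat_lit 5) (nat_lit 741) (nat_lit 5) (nat_lit 742) (nat_lit 5) (nat_lit 400) (nat_lit 388) (nat_lit 352)) (XT.nd (nat_lit 78) (nat_lit 988) (nat_lit 0) (XT.lf (nat_lit 76) (nat_lit 2833360150) (nat_lit 0) (nat_lit 1900692864) (nat_lit 988) (nat_lit 2133354507) (nat_lit 730) (nat_lit 5) (nat_lit 729) (nat_lit 5) (nat_lit 742) (nat_lit 5) (nat_lit 401) (nat_lit 388) (nat_lit 351)) (XT.lf (nat_lit 0) (nat_lit 132409128) (nat_lit 988) (nat_lit 197169656) (nat_lit 1064) (nat_lit 6570343326) (nat_lit 716) (nat_lit 5) (nat_lit 729) (nat_lit 5) (nat_lit 730) (nat_lit 5) (nat_lit 402) (nat_lit 388) (nat_lit 350)))))) (XT.nd (nat_lit 390) (nat_lit 3496) (nat_lit 0) (XT.nd (nat_lit 156) (nat_lit 1064) (nat_lit 0) (XT.nd (nat_lit 78) (nat_lit 0) (nat_lit 0) (XT.lf (nat_lit 0) (nat_lit 2394456853) (nat_lit 988) (nat_lit 3225278762) (nat_lit 1064) (nat_lit 1313478659) (nat_lit 717) (nat_lit 5) (nat_lit 730) (nat_lit 5) (nat_lit 731) (nat_lit 5) (nat_lit 403) (nat_lit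 388) (nat_lit 349)) (XT.lf (nat_lit 76) (nat_lit 698381758) (nat_lit 0) (nat_lit 3959089728) (nat_lit 1064) (nat_lit 2310586275) (nat_lit 718) (nat_lit 5) (nat_lit 717) (nat_lit 5) (nat_lit 731) (nat_lit 5) (nat_lit 404) (nat_lit 388) (nat_lit 348))) (XT.nd (nat_lit 78) (nat_lit 1064) (nat_lit 0) (XT.lf (nat_lit 76) (nat_lit 4709211043) (nat_lit 0) (nat_lit 2226654308) (nat_lit 1064) (nat_lit 68330387) (nat_lit 718) (nat_lit 5) (nat_lit 717) (nat_lit 5) (nat_lit 731) (nat_lit 5) (nat_lit 405) (nat_lit 388) (nat_lit 347)) (XT.nd (nat_lit 78) (nat_lit 0) (nat_lit 76) (XT.lf (nat_lit 76) (nat_lit 1732503851) (nat_lit 0) (nat_lit 417567128) (nat_lit 1140) (nat_lit 4891489384) (nat_lit 704) (nat_lit 5) (nat_lit 703) (nat_lit 5) (nat_lit 718) (nat_lit 5) (nat_lit 406) (nat_lit 388) (nat_lit 346)) (XT.lf (nat_lit 0) (nat_lit 4386720296) (nat_lit 1064) (nat_lit 1253420533) (nat_lit 76) (nat_lit 1440026520) (nat_lit 704) (nat_lit 5) (nat_lit 718) (nat_lit 5) (nat_lit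 705) (nat_lit 5) (nat_lit 407) (nat_lit 388) (nat_lit 345))))) (XT.nd (nat_lit 156) (nat_lit 2432) (nat_lit 0) (XT.nd (nat_lit 78) (nat_lit 76) (nat_lit 0) (XT.lf (nat_lit 0) (nat_lit 2883196599) (nat_lit 1064) (nat_lit 3757392810) (nat_lit 1140) (nat_lit 479507330) (nat_lit 690) (nat_lit 5) (nat_lit 704) (nat_lit 5) (nat_lit 705) (nat_lit 5) (nat_lit 408) (nat_lit 388) (nat_lit 344)) (XT.lf (nat_lit 0) (nat_lit 1715265934) (nat_lit 1140) (nat_lit 88318320) (nat_lit 76) (nat_lit 5357811834) (nat_lit 689) (nat_lit 5) (nat_lit 704) (nat_lit 5) (nat_lit 690) (nat_lit 5) (nat_lit 409) (nat_lit 388) (nat_lit 343))) (XT.nd (nat_lit 78) (nat_lit 1292) (nat_lit 0) (XT.lf (nat_lit 0) (nat_lit 3928408031) (nat_lit 1216) (nat_lit 3045663121) (nat_lit 76) (nat_lit 229769002) (nat_lit 674) (nat_lit 5) (nat_lit 690) (nat_lit 5) (nat_lit 675) (nat_lit 5) (nat_lit 410) (nat_lit 388) (nat_lit 342)) (XT.nd (nat_lit 78) (nat_lit 76) (nat_lit 0) (XT.lf (nat_lit 0) (nat_lit 1211940257)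 (nat_lit 1216) (nat_lit 4947439405) (nat_lit 1292) (nat_lit 1088282104) (nat_lit 658) (nat_lit 5) (nat_lit 674) (nat_lit 5) (nat_lit 675) (nat_lit 5) (nat_lit 411) (nat_lit 388) (nat_lit 341)) (XT.lf (nat_lit 0) (nat_lit 1101738503) (nat_lit 1292) (nat_lit 1739591777) (nat_lit 76) (nat_lit 4451398897) (nat_lit 657) (nat_lit 5) (nat_lit 674) (nat_lit 5) (nat_lit 658) (nat_lit 5) (nat_lit 412) (nat_lit 388) (nat_lit 340))))))) (XT.nd (nat_lit 780) (nat_lit 8436) (nat_lit 0) (XT.nd (nat_lit 390) (nat_lit 4940) (nat_lit 0) (XT.nd (nat_lit 156) (nat_lit 2888) (nat_lit 0) (XT.nd (nat_lit 78) (nat_lit 0) (nat_lit 0) (XT.lf (nat_lit 0) (nat_lit 2634444543) (nat_lit 1292) (nat_lit 658111834) (nat_lit 1368) (nat_lit 4046566309) (nat_lit 640) (nat_lit 5) (nat_lit 657) (nat_lit 5) (nat_lit 658) (nat_lit 5) (nat_lit 413) (nat_lit 388) (nat_lit 339)) (XT.lf (nat_lit 0) (nat_lit 5504306162) (nat_lit 1368) (nat_lit 313019642) (nat_lit 76) (nat_lit 1569575950) (nat_lit 640) (nat_lit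 5) (nat_lit 658) (nat_lit 5) (nat_lit 641) (nat_lit 5) (nat_lit 414) (nat_lit 388) (nat_lit 338))) (XT.nd (nat_lit 78) (nat_lit 1444) (nat_lit 0) (XT.lf (nat_lit 0) (nat_lit 307880212) (nat_lit 1444) (nat_lit 3256335671) (nat_lit 76) (nat_lit 3871628692) (nat_lit 621) (nat_lit 5) (nat_lit 640) (nat_lit 5) (nat_lit 622) (nat_lit 5) (nat_lit 415) (nat_lit 388) (nat_lit 337)) (XT.nd (nat_lit 78) (nat_lit 0) (nat_lit 0) (XT.lf (nat_lit 0) (nat_lit 1248573248) (nat_lit 1444) (nat_lit 1235033494) (nat_lit 1520) (nat_lit 5002577647) (nat_lit 602) (nat_lit 5) (nat_lit 621) (nat_lit 5) (nat_lit 622) (nat_lit 5) (nat_lit 416) (nat_lit 388) (nat_lit 336)) (XT.lf (nat_lit 0) (nat_lit 4689328163) (nat_lit 1520) (nat_lit 1693324593) (nat_lit 76) (nat_lit 1155148637) (nat_lit 602) (nat_lit 5) (nat_lit 622) (nat_lit 5) (nat_lit 603) (nat_lit 5) (nat_lit 417) (nat_lit 388) (nat_lit 335))))) (XT.nd (nat_lit 156) (nat_lit 3344) (nat_lit 0) (XT.nd (nat_lit 78) (nat_lit 76) (nat_lit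 0) (XT.lf (nat_lit 0) (nat_lit 2936494688) (nat_lit 1520) (nat_lit 3987833167) (nat_lit 1596) (nat_lit 666419605) (nat_lit 582) (nat_lit 5) (nat_lit 602) (nat_lit 5) (nat_lit 603) (nat_lit 5) (nat_lit 418) (nat_lit 388) (nat_lit 334)) (XT.lf (nat_lit 0) (nat_lit 1508502611) (nat_lit 1596) (nat_lit 8867290) (nat_lit 76) (nat_lit 6127786516) (nat_lit 581) (nat_lit 5) (nat_lit 602) (nat_lit 5) (nat_lit 582) (nat_lit 5) (nat_lit 419) (nat_lit 388) (nat_lit 333))) (XT.nd (nat_lit 78) (nat_lit 1748) (nat_lit 0) (XT.lf (nat_lit 0) (nat_lit 3714698890) (nat_lit 1672) (nat_lit 2955510625) (nat_lit 76) (nat_lit 1030421958) (nat_lit 560) (nat_lit 5) (nat_lit 582) (nat_lit 5) (nat_lit 561) (nat_lit 5) (nat_lit 420) (nat_lit 388) (nat_lit 332)) (XT.nd (nat_lit 78) (nat_lit 76) (nat_lit 0) (XT.lf (nat_lit 0) (nat_lit 1814937847) (nat_lit 1672) (nat_lit 4131641401) (nat_lit 1748) (nat_lit 1811005579) (nat_lit 538) (nat_lit 5) (nat_lit 560) (nat_lit 5) (nat_lit 561) (nat_lit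 5) (nat_lit 421) (nat_lit 388) (nat_lit 331)) (XT.lf (nat_lit 0) (nat_lit 382004435) (nat_lit 1748) (nat_lit 1133405268) (nat_lit 76) (nat_lit 6300616084) (nat_lit 537) (nat_lit 5) (nat_lit 560) (nat_lit 5) (nat_lit 538) (nat_lit 5) (nat_lit 422) (nat_lit 388) (nat_lit 330)))))) (XT.nd (nat_lit 390) (nat_lit 3648) (nat_lit 0) (XT.nd (nat_lit 156) (nat_lit 1216) (nat_lit 0) (XT.nd (nat_lit 78) (nat_lit 1824) (nat_lit 0) (XT.lf (nat_lit 0) (nat_lit 2587653038) (nat_lit 1824) (nat_lit 4109414988) (nat_lit 76) (nat_lit 1178467570) (nat_lit 514) (nat_lit 5) (nat_lit 538) (nat_lit 5) (nat_lit 515) (nat_lit 5) (nat_lit 423) (nat_lit 388) (nat_lit 329)) (XT.lf (nat_lit 0) (nat_lit 807360343) (nat_lit 1824) (nat_lit 4014299716) (nat_lit 1900) (nat_lit 3114890633) (nat_lit 490) (nat_lit 5) (nat_lit 514) (nat_lit 5) (nat_lit 515) (nat_lit 5) (nat_lit 424) (nat_lit 388) (nat_lit 328))) (XT.nd (nat_lit 78) (nat_lit 1216) (nat_lit 0) (XT.lf (nat_lit 0) (nat_lit 5842353356)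 (nat_lit 1824) (nat_lit 1247407806) (nat_lit 1900) (nat_lit 909236650) (nat_lit 490) (nat_lit 5) (nat_lit 514) (nat_lit 5) (nat_lit 515) (nat_lit 5) (nat_lit 425) (nat_lit 388) (nat_lit 327)) (XT.nd (nat_lit 78) (nat_lit 0) (nat_lit 0) (XT.lf (nat_lit 0) (nat_lit 1314596343) (nat_lit 1216) (nat_lit 5164132986) (nat_lit 76) (nat_lit 1583957527) (nat_lit 474) (nat_lit 5) (nat_lit 490) (nat_lit 5) (nat_lit 475) (nat_lit 5) (nat_lit 426) (nat_lit 388) (nat_lit 326)) (XT.lf (nat_lit 0) (nat_lit 3556430044) (nat_lit 1216) (nat_lit 93788784) (nat_lit 76) (nat_lit 4477596678) (nat_lit 474) (nat_lit 5) (nat_lit 490) (nat_lit 5) (nat_lit 475) (nat_lit 5) (nat_lit 427) (nat_lit 388) (nat_lit 325))))) (XT.nd (nat_lit 156) (nat_lit 1824) (nat_lit 0) (XT.nd (nat_lit 78) (nat_lit 912) (nat_lit 0) (XT.lf (nat_lit 0) (nat_lit 5109543175) (nat_lit 912) (nat_lit 730318360) (nat_lit 988) (nat_lit 2354449972) (nat_lit 462) (nat_lit 5) (nat_lit 474) (nat_lit 5) (nat_lit 475) (nat_lit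 5) (nat_lit 428) (nat_lit 388) (nat_lit 324)) (XT.lf (nat_lit 0) (nat_lit 2133548699) (nat_lit 912) (nat_lit 6028571053) (nat_lit 988) (nat_lit 100154513) (nat_lit 450) (nat_lit 5) (nat_lit 462) (nat_lit 5) (nat_lit 463) (nat_lit 5) (nat_lit 429) (nat_lit 388) (nat_lit 323))) (XT.nd (nat_lit 78) (nat_lit 1748) (nat_lit 0) (XT.lf (nat_lit 0) (nat_lit 2160372327) (nat_lit 988) (nat_lit 888547633) (nat_lit 76) (nat_lit 5282590967) (nat_lit 449) (nat_lit 5) (nat_lit 462) (nat_lit 5) (nat_lit 450) (nat_lit 5) (nat_lit 430) (nat_lit 388) (nat_lit 322)) (XT.nd (nat_lit 78) (nat_lit 912) (nat_lit 0) (XT.lf (nat_lit 0) (nat_lit 4458996469) (nat_lit 912) (nat_lit 3923304773) (nat_lit 76) (nat_lit 19933284) (nat_lit 438) (nat_lit 5) (nat_lit 450) (nat_lit 5) (nat_lit 439) (nat_lit 5) (nat_lit 431) (nat_lit 388) (nat_lit 321)) (XT.lf (nat_lit 0) (nat_lit 1454489064) (nat_lit 912) (nat_lit 5350208419) (nat_lit 988) (nat_lit 1669653026) (nat_lit 426) (nat_lit 5) (nat_lit 438)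 (nat_lit 5) (nat_lit 439) (nat_lit 5) (nat_lit 432) (nat_lit 388) (nat_lit 320))))))))
noncomputable def xc72 : XT := (XT.nd (nat_lit 1482) (nat_lit 5244) (nat_lit 0) (XT.nd (nat_lit 702) (nat_lit 4864) (nat_lit 0) (XT.nd (nat_lit 312) (nat_lit 2432) (nat_lit 0) (XT.nd (nat_lit 156) (nat_lit 836) (nat_lit 0) (XT.nd (nat_lit 78) (nat_lit 836) (nat_lit 0) (XT.lf (nat_lit 0) (nat_lit 633075495) (nat_lit 988) (nat_lit 1594876214) (nat_lit 76) (nat_lit 6320028999) (nat_lit 425) (nat_lit 5) (nat_lit 438) (nat_lit 5) (nat_lit 426) (nat_lit 5) (nat_lit 433) (nat_lit 388) (nat_lit 319)) (XT.lf (nat_lit 0) (nat_lit 2957931973) (nat_lit 912) (nat_lit 4685605463) (nat_lit 76) (nat_lit 979356745) (nat_lit 414) (nat_lit 5) (nat_lit 426) (nat_lit 5) (nat_lit 415) (nat_lit 5) (nat_lit 434) (nat_lit 388) (nat_lit 318))) (XT.nd (nat_lit 78) (nat_lit 0) (nat_lit 0) (XT.lf (nat_lit 0) (nat_lit 863287168) (nat_lit 836) (nat_lit 4463909648) (nat_lit 912) (nat_lit 3372150884) (nat_lit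 403) (nat_lit 5) (nat_lit 414) (nat_lit 5) (nat_lit 415) (nat_lit 5) (nat_lit 435) (nat_lit 388) (nat_lit 317)) (XT.lf (nat_lit 0) (nat_lit 6551074498) (nat_lit 836) (nat_lit 1191413838) (nat_lit 912) (nat_lit 1034869124) (nat_lit 403) (nat_lit 5) (nat_lit 414) (nat_lit 5) (nat_lit 415) (nat_lit 5) (nat_lit 436) (nat_lit 388) (nat_lit 316)))) (XT.nd (nat_lit 156) (nat_lit 836) (nat_lit 0) (XT.nd (nat_lit 78) (nat_lit 760) (nat_lit 0) (XT.lf (nat_lit 0) (nat_lit 1335926308) (nat_lit 836) (nat_lit 5373600875) (nat_lit 76) (nat_lit 2147135791) (nat_lit 392) (nat_lit 5) (nat_lit 403) (nat_lit 5) (nat_lit 393) (nat_lit 5) (nat_lit 437) (nat_lit 388) (nat_lit 315)) (XT.lf (nat_lit 0) (nat_lit 353594546) (nat_lit 760) (nat_lit 3379938767) (nat_lit 836) (nat_lit 5204019424) (nat_lit 382) (nat_lit 5) (nat_lit 392) (nat_lit 5) (nat_lit 393) (nat_lit 5) (nat_lit 438) (nat_lit 388) (nat_lit 314))) (XT.nd (nat_lit 78) (nat_lit 836) (nat_lit 0) (XT.lf (nat_lit 0) (nat_lit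 6183883122) (nat_lit 836) (nat_lit 2787596896) (nat_lit 76) (nat_lit 48484465) (nat_lit 382) (nat_lit 5) (nat_lit 393) (nat_lit 5) (nat_lit 383) (nat_lit 5) (nat_lit 439) (nat_lit 388) (nat_lit 313)) (XT.nd (nat_lit 78) (nat_lit 76) (nat_lit 0) (XT.lf (nat_lit 0) (nat_lit 3107685397) (nat_lit 760) (nat_lit 5587121969) (nat_lit 836) (nat_lit 408985748) (nat_lit 372) (nat_lit 5) (nat_lit 382) (nat_lit 5) (nat_lit 383) (nat_lit 5) (nat_lit 440) (nat_lit 388) (nat_lit 312)) (XT.lf (nat_lit 0) (nat_lit 2027560748) (nat_lit 836) (nat_lit 79363354) (nat_lit 76) (nat_lit 7082345584) (nat_lit 371) (nat_lit 5) (nat_lit 382) (nat_lit 5) (nat_lit 372) (nat_lit 5) (nat_lit 441) (nat_lit 388) (nat_lit 311)))))) (XT.nd (nat_lit 390) (nat_lit 1976) (nat_lit 0) (XT.nd (nat_lit 156) (nat_lit 1444) (nat_lit 0) (XT.nd (nat_lit 78) (nat_lit 684) (nat_lit 0) (XT.lf (nat_lit 0) (nat_lit 4525703490) (nat_lit 836) (nat_lit 3289044404) (nat_lit 76) (nat_lit 1461286997) (nat_lit 361) (nat_lit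 5) (nat_lit 372) (nat_lit 5) (nat_lit 362) (nat_lit 5) (nat_lit 442) (nat_lit 388) (nat_lit 310)) (XT.lf (nat_lit 0) (nat_lit 2798775796) (nat_lit 684) (nat_lit 4277818123) (nat_lit 760) (nat_lit 2287885784) (nat_lit 352) (nat_lit 5) (nat_lit 361) (nat_lit 5) (nat_lit 362) (nat_lit 5) (nat_lit 443) (nat_lit 388) (nat_lit 309))) (XT.nd (nat_lit 78) (nat_lit 1368) (nat_lit 0) (XT.lf (nat_lit 0) (nat_lit 213378236) (nat_lit 760) (nat_lit 438274749) (nat_lit 76) (nat_lit 8803161267) (nat_lit 351) (nat_lit 5) (nat_lit 361) (nat_lit 5) (nat_lit 352) (nat_lit 5) (nat_lit 444) (nat_lit 388) (nat_lit 308)) (XT.nd (nat_lit 78) (nat_lit 684) (nat_lit 0) (XT.lf (nat_lit 0) (nat_lit 2762937328) (nat_lit 760) (nat_lit 3728118297) (nat_lit 76) (nat_lit 3055019317) (nat_lit 342) (nat_lit 5) (nat_lit 352) (nat_lit 5) (nat_lit 343) (nat_lit 5) (nat_lit 445) (nat_lit 388) (nat_lit 307)) (XT.lf (nat_lit 0) (nat_lit 2560419602) (nat_lit 684) (nat_lit 2798148910) (nat_lit 760) (nat_lit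 4280690715) (nat_lit 333) (nat_lit 5) (nat_lit 342) (nat_lit 5) (nat_lit 343) (nat_lit 5) (nat_lit 446) (nat_lit 388) (nat_lit 306))))) (XT.nd (nat_lit 156) (nat_lit 1216) (nat_lit 0) (XT.nd (nat_lit 78) (nat_lit 760) (nat_lit 0) (XT.lf (nat_lit 0) (nat_lit 8009064175) (nat_lit 760) (nat_lit 750273600) (nat_lit 76) (nat_lit 974910387) (nat_lit 333) (nat_lit 5) (nat_lit 343) (nat_lit 5) (nat_lit 334) (nat_lit 5) (nat_lit 447) (nat_lit 388) (nat_lit 305)) (XT.lf (nat_lit 0) (nat_lit 897808721) (nat_lit 760) (nat_lit 4109631120) (nat_lit 76) (nat_lit 4823023858) (nat_lit 323) (nat_lit 5) (nat_lit 333) (nat_lit 5) (nat_lit 324) (nat_lit 5) (nat_lit 448) (nat_lit 388) (nat_lit 304))) (XT.nd (nat_lit 78) (nat_lit 608) (nat_lit 0) (XT.lf (nat_lit 0) (nat_lit 2388164447) (nat_lit 608) (nat_lit 1154772871) (nat_lit 684) (nat_lit 6385582633) (nat_lit 315) (nat_lit 5) (nat_lit 323) (nat_lit 5) (nat_lit 324) (nat_lit 5) (nat_lit 449) (nat_lit 388) (nat_lit 303)) (XT.nd (nat_lit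 78) (nat_lit 608) (nat_lit 0) (XT.lf (nat_lit 0) (nat_lit 6259202778) (nat_lit 684) (nat_lit 1009564727) (nat_lit 76) (nat_lit 2759405138) (nat_lit 315) (nat_lit 5) (nat_lit 324) (nat_lit 5) (nat_lit 316) (nat_lit 5) (nat_lit 450) (nat_lit 388) (nat_lit 302)) (XT.lf (nat_lit 0) (nat_lit 5684430439) (nat_lit 608) (nat_lit 3362914828) (nat_lit 684) (nat_lit 1082122088) (nat_lit 307) (nat_lit 5) (nat_lit 315) (nat_lit 5) (nat_lit 316) (nat_lit 5) (nat_lit 451) (nat_lit 388) (nat_lit 301))))))) (XT.nd (nat_lit 702) (nat_lit 1596) (nat_lit 0) (XT.nd (nat_lit 312) (nat_lit 1824) (nat_lit 0) (XT.nd (nat_lit 156) (nat_lit 1140) (nat_lit 0) (XT.nd (nat_lit 78) (nat_lit 0) (nat_lit 0) (XT.lf (nat_lit 0) (nat_lit 1635647169) (nat_lit 684) (nat_lit 7958921951) (nat_lit 76) (nat_lit 638024773) (nat_lit 298) (nat_lit 5) (nat_lit 307) (nat_lit 5) (nat_lit 299) (nat_lit 5) (nat_lit 452) (nat_lit 388) (nat_lit 300)) (XT.lf (nat_lit 0) (nat_lit 4418976258) (nat_lit 684) (nat_lit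 1214515244) (nat_lit 76) (nat_lit 4703634521) (nat_lit 298) (nat_lit 5) (nat_lit 307) (nat_lit 5) (nat_lit 299) (nat_lit 5) (nat_lit 453) (nat_lit 388) (nat_lit 299))) (XT.nd (nat_lit 78) (nat_lit 532) (nat_lit 0) (XT.lf (nat_lit 0) (nat_lit 5705587234) (nat_lit 608) (nat_lit 1563334525) (nat_lit 684) (nat_lit 3174608041) (nat_lit 290) (nat_lit 5) (nat_lit 298) (nat_lit 5) (nat_lit 299) (nat_lit 5) (nat_lit 454) (nat_lit 388) (nat_lit 298)) (XT.lf (nat_lit 0) (nat_lit 2206473563) (nat_lit 532) (nat_lit 7982872660) (nat_lit 608) (nat_lit 362445827) (nat_lit 283) (nat_lit 5) (nat_lit 290) (nat_lit 5) (nat_lit 291) (nat_lit 5) (nat_lit 455) (nat_lit 388) (nat_lit 297)))) (XT.nd (nat_lit 156) (nat_lit 1140) (nat_lit 0) (XT.nd (nat_lit 78) (nat_lit 608) (nat_lit 0) (XT.lf (nat_lit 0) (nat_lit 2489713678) (nat_lit 608) (nat_lit 1368794806) (nat_lit 76) (nat_lit 6803053253) (nat_lit 282) (nat_lit 5) (nat_lit 290) (nat_lit 5) (nat_lit 283) (nat_lit 5) (nat_lit 456) (nat_lit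 388) (nat_lit 296)) (XT.lf (nat_lit 0) (nat_lit 5408879504) (nat_lit 684) (nat_lit 4988651118) (nat_lit 76) (nat_lit 375651953) (nat_lit 274) (nat_lit 5) (nat_lit 283) (nat_lit 5) (nat_lit 275) (nat_lit 5) (nat_lit 457) (nat_lit 388) (nat_lit 295))) (XT.nd (nat_lit 78) (nat_lit 608) (nat_lit 0) (XT.lf (nat_lit 0) (nat_lit 2181699004) (nat_lit 532) (nat_lit 6228682849) (nat_lit 608) (nat_lit 2476174914) (nat_lit 267) (nat_lit 5) (nat_lit 274) (nat_lit 5) (nat_lit 275) (nat_lit 5) (nat_lit 458) (nat_lit 388) (nat_lit 294)) (XT.nd (nat_lit 78) (nat_lit 532) (nat_lit 0) (XT.lf (nat_lit 0) (nat_lit 472350289) (nat_lit 608) (nat_lit 1475756458) (nat_lit 76) (nat_lit 9053854804) (nat_lit 266) (nat_lit 5) (nat_lit 274) (nat_lit 5) (nat_lit 267) (nat_lit 5) (nat_lit 459) (nat_lit 388) (nat_lit 293)) (XT.lf (nat_lit 0) (nat_lit 3476785826) (nat_lit 608) (nat_lit 5209190378) (nat_lit 76) (nat_lit 2432768959) (nat_lit 259) (nat_lit 5) (nat_lit 267) (nat_lit 5) (nat_lit 260)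 (nat_lit 5) (nat_lit 460) (nat_lit 388) (nat_lit 292)))))) (XT.nd (nat_lit 53742) (nat_lit 0) (nat_lit 38912) (XT.nd (nat_lit 156) (nat_lit 1064) (nat_lit 0) (XT.nd (nat_lit 78) (nat_lit 0) (nat_lit 0) (XT.lf (nat_lit 0) (nat_lit 2207320087) (nat_lit 532) (nat_lit 4346981542) (nat_lit 608) (nat_lit 4683302987) (nat_lit 252) (nat_lit 5) (nat_lit 259) (nat_lit 5) (nat_lit 260) (nat_lit 5) (nat_lit 461) (nat_lit 388) (nat_lit 291)) (XT.lf (nat_lit 0) (nat_lit 9705054479) (nat_lit 608) (nat_lit 1549882129) (nat_lit 76) (nat_lit 103670916) (nat_lit 252) (nat_lit 5) (nat_lit 260) (nat_lit 5) (nat_lit 253) (nat_lit 5) (nat_lit 462) (nat_lit 388) (nat_lit 290))) (XT.nd (nat_lit 78) (nat_lit 456) (nat_lit 0) (XT.lf (nat_lit 0) (nat_lit 1463084740) (nat_lit 608) (nat_lit 5392547223) (nat_lit 76) (nat_lit 4625309222) (nat_lit 244) (nat_lit 5) (nat_lit 252) (nat_lit 5) (nat_lit 245) (nat_lit 5) (nat_lit 463) (nat_lit 388) (nat_lit 289)) (XT.nd (nat_lit 78) (nat_lit 0) (nat_lit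 0) (XT.lf (nat_lit 0) (nat_lit 2280621041) (nat_lit 456) (nat_lit 2341142454) (nat_lit 532) (nat_lit 6983702439) (nat_lit 238) (nat_lit 5) (nat_lit 244) (nat_lit 5) (nat_lit 245) (nat_lit 5) (nat_lit 464) (nat_lit 388) (nat_lit 288)) (XT.lf (nat_lit 0) (nat_lit 7871473341) (nat_lit 532) (nat_lit 1599727453) (nat_lit 76) (nat_lit 2260723234) (nat_lit 238) (nat_lit 5) (nat_lit 245) (nat_lit 5) (nat_lit 239) (nat_lit 5) (nat_lit 465) (nat_lit 388) (nat_lit 287))))) (XT.nd (nat_lit 156) (nat_lit 760) (nat_lit 0) (XT.nd (nat_lit 78) (nat_lit 684) (nat_lit 0) (XT.lf (nat_lit 0) (nat_lit 2673315549) (nat_lit 684) (nat_lit 312290560) (nat_lit 684) (nat_lit 312290560) (nat_lit 769) (nat_lit 3) (nat_lit 778) (nat_lit 3) (nat_lit 778) (nat_lit 5) (nat_lit 389) (nat_lit 389) (nat_lit 362)) (XT.lf (nat_lit 0) (nat_lit 1181865454) (nat_lit 684) (nat_lit 3912464086) (nat_lit 760) (nat_lit 1519046112) (nat_lit 760) (nat_lit 5) (nat_lit 769) (nat_lit 3) (nat_lit 770) (nat_lit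 5) (nat_lit 390) (nat_lit 389) (nat_lit 361))) (XT.nd (nat_lit 78) (nat_lit 760) (nat_lit 0) (XT.lf (nat_lit 0) (nat_lit 3585614065) (nat_lit 684) (nat_lit 571431741) (nat_lit 760) (nat_lit 2475282133) (nat_lit 760) (nat_lit 5) (nat_lit 769) (nat_lit 3) (nat_lit 770) (nat_lit 5) (nat_lit 391) (nat_lit 389) (nat_lit 360)) (XT.nd (nat_lit 78) (nat_lit 760) (nat_lit 0) (XT.lf (nat_lit 76) (nat_lit 2841048712) (nat_lit 0) (nat_lit 3152670186) (nat_lit 760) (nat_lit 658814749) (nat_lit 761) (nat_lit 5) (nat_lit 760) (nat_lit 5) (nat_lit 770) (nat_lit 5) (nat_lit 392) (nat_lit 389) (nat_lit 359)) (XT.lf (nat_lit 0) (nat_lit 1695837455) (nat_lit 760) (nat_lit 388340754) (nat_lit 836) (nat_lit 4589888558) (nat_lit 750) (nat_lit 5) (nat_lit 760) (nat_lit 5) (nat_lit 761) (nat_lit 5) (nat_lit 393) (nat_lit 389) (nat_lit 358))))))))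
noncomputable def xc73 : XT := (XT.nd (nat_lit 1482) (nat_lit 16644) (nat_lit 0) (XT.nd (nat_lit 702) (nat_lit 4484) (nat_lit 0) (XT.nd (nat_lit 312) (nat_lit 1824) (nat_lit 0) (XT.nd (nat_lit 156) (nat_lit 760) (nat_lit 0) (XT.nd (nat_lit 78) (nat_lit 0) (nat_lit 76) (XT.lf (nat_lit 76) (nat_lit 3107067931) (nat_lit 0) (nat_lit 941520422) (nat_lit 836) (nat_lit 2648158557) (nat_lit 751) (nat_lit 5) (nat_lit 750) (nat_lit 5) (nat_lit 761) (nat_lit 5) (nat_lit 394) (nat_lit 389) (nat_lit 357)) (XT.lf (nat_lit 0) (nat_lit 6393266191) (nat_lit 760) (nat_lit 77384974) (nat_lit 836) (nat_lit 250332053) (nat_lit 751) (nat_lit 5) (nat_lit 761) (nat_lit 5) (nat_lit 762) (nat_lit 5) (nat_lit 395) (nat_lit 389) (nat_lit 356))) (XT.nd (nat_lit 78) (nat_lit 0) (nat_lit 0) (XT.lf (nat_lit 0) (nat_lit 1983189782) (nat_lit 836) (nat_lit 3247425034) (nat_lit 912) (nat_lit 1515408646) (nat_lit 740) (nat_lit 5) (nat_lit 751) (nat_lit 5) (nat_lit 752) (nat_lit 5) (nat_lit 396)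 (nat_lit 389) (nat_lit 355)) (XT.lf (nat_lit 76) (nat_lit 344319581) (nat_lit 0) (nat_lit 3936871233) (nat_lit 912) (nat_lit 2491425088) (nat_lit 741) (nat_lit 5) (nat_lit 740) (nat_lit 5) (nat_lit 752) (nat_lit 5) (nat_lit 397) (nat_lit 389) (nat_lit 354)))) (XT.nd (nat_lit 156) (nat_lit 912) (nat_lit 0) (XT.nd (nat_lit 78) (nat_lit 912) (nat_lit 0) (XT.lf (nat_lit 76) (nat_lit 4018521137) (nat_lit 0) (nat_lit 2571835068) (nat_lit 912) (nat_lit 210079900) (nat_lit 741) (nat_lit 5) (nat_lit 740) (nat_lit 5) (nat_lit 752) (nat_lit 5) (nat_lit 398) (nat_lit 389) (nat_lit 353)) (XT.lf (nat_lit 76) (nat_lit 901994612) (nat_lit 0) (nat_lit 1137145068) (nat_lit 988) (nat_lit 4790397928) (nat_lit 729) (nat_lit 5) (nat_lit 728) (nat_lit 5) (nat_lit 741) (nat_lit 5) (nat_lit 399) (nat_lit 389) (nat_lit 352))) (XT.nd (nat_lit 78) (nat_lit 988) (nat_lit 0) (XT.lf (nat_lit 0) (nat_lit 4296617713) (nat_lit 912) (nat_lit 2199693739) (nat_lit 988) (nat_lit 363560177) (nat_lit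 729) (nat_lit 5) (nat_lit 741) (nat_lit 5) (nat_lit 742) (nat_lit 5) (nat_lit 400) (nat_lit 389) (nat_lit 351)) (XT.nd (nat_lit 78) (nat_lit 988) (nat_lit 0) (XT.lf (nat_lit 76) (nat_lit 1582102987) (nat_lit 0) (nat_lit 4981194650) (nat_lit 988) (nat_lit 328233646) (nat_lit 730) (nat_lit 5) (nat_lit 729) (nat_lit 5) (nat_lit 742) (nat_lit 5) (nat_lit 401) (nat_lit 389) (nat_lit 350)) (XT.lf (nat_lit 0) (nat_lit 1887486603) (nat_lit 988) (nat_lit 1501257569) (nat_lit 1064) (nat_lit 3535594676) (nat_lit 716) (nat_lit 5) (nat_lit 729) (nat_lit 5) (nat_lit 730) (nat_lit 5) (nat_lit 402) (nat_lit 389) (nat_lit 349)))))) (XT.nd (nat_lit 390) (nat_lit 3496) (nat_lit 0) (XT.nd (nat_lit 156) (nat_lit 988) (nat_lit 0) (XT.nd (nat_lit 78) (nat_lit 0) (nat_lit 0) (XT.lf (nat_lit 76) (nat_lit 2378455900) (nat_lit 0) (nat_lit 1727896166) (nat_lit 1064) (nat_lit 2852142592) (nat_lit 717) (nat_lit 5) (nat_lit 716) (nat_lit 5) (nat_lit 730) (nat_lit 5) (nat_lit 403) (nat_lit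 389) (nat_lit 348)) (XT.lf (nat_lit 76) (nat_lit 6322694086) (nat_lit 0) (nat_lit 5561170) (nat_lit 1064) (nat_lit 665905117) (nat_lit 717) (nat_lit 5) (nat_lit 716) (nat_lit 5) (nat_lit 730) (nat_lit 5) (nat_lit 404) (nat_lit 389) (nat_lit 347))) (XT.nd (nat_lit 78) (nat_lit 0) (nat_lit 0) (XT.lf (nat_lit 0) (nat_lit 1526021155) (nat_lit 1064) (nat_lit 3727449639) (nat_lit 1140) (nat_lit 1777215974) (nat_lit 703) (nat_lit 5) (nat_lit 717) (nat_lit 5) (nat_lit 718) (nat_lit 5) (nat_lit 405) (nat_lit 389) (nat_lit 346)) (XT.nd (nat_lit 78) (nat_lit 0) (nat_lit 0) (XT.lf (nat_lit 76) (nat_lit 263333549) (nat_lit 0) (nat_lit 3445974972) (nat_lit 1140) (nat_lit 3359418354) (nat_lit 704) (nat_lit 5) (nat_lit 703) (nat_lit 5) (nat_lit 718) (nat_lit 5) (nat_lit 406) (nat_lit 389) (nat_lit 345)) (XT.lf (nat_lit 76) (nat_lit 4350358367) (nat_lit 0) (nat_lit 1561820900) (nat_lit 1140) (nat_lit 1195830165) (nat_lit 704) (nat_lit 5) (nat_lit 703) (nat_lit 5) (nat_lit 718)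 (nat_lit 5) (nat_lit 407) (nat_lit 389) (nat_lit 344))))) (XT.nd (nat_lit 156) (nat_lit 2432) (nat_lit 0) (XT.nd (nat_lit 78) (nat_lit 0) (nat_lit 0) (XT.lf (nat_lit 0) (nat_lit 960603238) (nat_lit 1140) (nat_lit 5803186268) (nat_lit 76) (nat_lit 384900184) (nat_lit 689) (nat_lit 5) (nat_lit 704) (nat_lit 5) (nat_lit 690) (nat_lit 5) (nat_lit 408) (nat_lit 389) (nat_lit 343)) (XT.lf (nat_lit 0) (nat_lit 3125507815) (nat_lit 1140) (nat_lit 1674993048) (nat_lit 76) (nat_lit 2389897508) (nat_lit 689) (nat_lit 5) (nat_lit 704) (nat_lit 5) (nat_lit 690) (nat_lit 5) (nat_lit 409) (nat_lit 389) (nat_lit 342))) (XT.nd (nat_lit 78) (nat_lit 1292) (nat_lit 0) (XT.lf (nat_lit 0) (nat_lit 2534796437) (nat_lit 1140) (nat_lit 2768674249) (nat_lit 1216) (nat_lit 1930075335) (nat_lit 674) (nat_lit 5) (nat_lit 689) (nat_lit 5) (nat_lit 690) (nat_lit 5) (nat_lit 410) (nat_lit 389) (nat_lit 341)) (XT.nd (nat_lit 78) (nat_lit 1216) (nat_lit 0) (XT.lf (nat_lit 0) (nat_lit 209198484)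 (nat_lit 1216) (nat_lit 462128323) (nat_lit 76) (nat_lit 6606897537) (nat_lit 673) (nat_lit 5) (nat_lit 689) (nat_lit 5) (nat_lit 674) (nat_lit 5) (nat_lit 411) (nat_lit 389) (nat_lit 340)) (XT.lf (nat_lit 0) (nat_lit 2354977801) (nat_lit 1292) (nat_lit 3470617178) (nat_lit 76) (nat_lit 1498154825) (nat_lit 657) (nat_lit 5) (nat_lit 674) (nat_lit 5) (nat_lit 658) (nat_lit 5) (nat_lit 412) (nat_lit 389) (nat_lit 339))))))) (XT.nd (nat_lit 702) (nat_lit 9272) (nat_lit 0) (XT.nd (nat_lit 312) (nat_lit 4636) (nat_lit 0) (XT.nd (nat_lit 156) (nat_lit 1444) (nat_lit 0) (XT.nd (nat_lit 78) (nat_lit 0) (nat_lit 0) (XT.lf (nat_lit 0) (nat_lit 863024913) (nat_lit 1292) (nat_lit 3649162545) (nat_lit 1368) (nat_lit 2858628019) (nat_lit 640) (nat_lit 5) (nat_lit 657) (nat_lit 5) (nat_lit 658) (nat_lit 5) (nat_lit 413) (nat_lit 389) (nat_lit 338)) (XT.lf (nat_lit 0) (nat_lit 5295946327) (nat_lit 1292) (nat_lit 1395880551) (nat_lit 1368) (nat_lit 727409874) (nat_lit 640) (nat_lit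 5) (nat_lit 657) (nat_lit 5) (nat_lit 658) (nat_lit 5) (nat_lit 414) (nat_lit 389) (nat_lit 337))) (XT.nd (nat_lit 78) (nat_lit 0) (nat_lit 0) (XT.lf (nat_lit 0) (nat_lit 1405282049) (nat_lit 1444) (nat_lit 5139282414) (nat_lit 76) (nat_lit 924317773) (nat_lit 621) (nat_lit 5) (nat_lit 640) (nat_lit 5) (nat_lit 622) (nat_lit 5) (nat_lit 415) (nat_lit 389) (nat_lit 336)) (XT.lf (nat_lit 0) (nat_lit 3551743306) (nat_lit 1444) (nat_lit 668088801) (nat_lit 76) (nat_lit 3299975249) (nat_lit 621) (nat_lit 5) (nat_lit 640) (nat_lit 5) (nat_lit 622) (nat_lit 5) (nat_lit 416) (nat_lit 389) (nat_lit 335)))) (XT.nd (nat_lit 156) (nat_lit 1596) (nat_lit 0) (XT.nd (nat_lit 78) (nat_lit 1596) (nat_lit 0) (XT.lf (nat_lit 0) (nat_lit 3909461891) (nat_lit 1444) (nat_lit 1815152177) (nat_lit 1520) (nat_lit 1847467305) (nat_lit 602) (nat_lit 5) (nat_lit 621) (nat_lit 5) (nat_lit 622) (nat_lit 5) (nat_lit 417) (nat_lit 389) (nat_lit 334)) (XT.lf (nat_lit 0) (nat_lit 284697707) (nat_lit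 1596) (nat_lit 6692384194) (nat_lit 76) (nat_lit 648812101) (nat_lit 581) (nat_lit 5) (nat_lit 602) (nat_lit 5) (nat_lit 582) (nat_lit 5) (nat_lit 418) (nat_lit 389) (nat_lit 333))) (XT.nd (nat_lit 78) (nat_lit 1596) (nat_lit 0) (XT.lf (nat_lit 0) (nat_lit 2430611481) (nat_lit 1596) (nat_lit 2068801196) (nat_lit 76) (nat_lit 3181209110) (nat_lit 581) (nat_lit 5) (nat_lit 602) (nat_lit 5) (nat_lit 582) (nat_lit 5) (nat_lit 419) (nat_lit 389) (nat_lit 332)) (XT.nd (nat_lit 78) (nat_lit 0) (nat_lit 0) (XT.lf (nat_lit 0) (nat_lit 2647365505) (nat_lit 1596) (nat_lit 1949127436) (nat_lit 1672) (nat_lit 3140410199) (nat_lit 560) (nat_lit 5) (nat_lit 581) (nat_lit 5) (nat_lit 582) (nat_lit 5) (nat_lit 420) (nat_lit 389) (nat_lit 331)) (XT.lf (nat_lit 0) (nat_lit 6784359491) (nat_lit 1672) (nat_lit 347666168) (nat_lit 76) (nat_lit 662711112) (nat_lit 560) (nat_lit 5) (nat_lit 582) (nat_lit 5) (nat_lit 561) (nat_lit 5) (nat_lit 421) (nat_lit 389) (nat_lit 330)))))) (XT.nd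 (nat_lit 390) (nat_lit 2736) (nat_lit 0) (XT.nd (nat_lit 156) (nat_lit 3040) (nat_lit 0) (XT.nd (nat_lit 78) (nat_lit 1748) (nat_lit 0) (XT.lf (nat_lit 0) (nat_lit 1150398495) (nat_lit 1748) (nat_lit 3360582703) (nat_lit 76) (nat_lit 3342527245) (nat_lit 537) (nat_lit 5) (nat_lit 560) (nat_lit 5) (nat_lit 538) (nat_lit 5) (nat_lit 422) (nat_lit 389) (nat_lit 329)) (XT.lf (nat_lit 0) (nat_lit 1499796534) (nat_lit 1748) (nat_lit 1814681241) (nat_lit 1824) (nat_lit 4599371863) (nat_lit 514) (nat_lit 5) (nat_lit 537) (nat_lit 5) (nat_lit 538) (nat_lit 5) (nat_lit 423) (nat_lit 389) (nat_lit 328))) (XT.nd (nat_lit 78) (nat_lit 3040) (nat_lit 0) (XT.lf (nat_lit 0) (nat_lit 5512683627) (nat_lit 1824) (nat_lit 1513585431) (nat_lit 76) (nat_lit 949311699) (nat_lit 514) (nat_lit 5) (nat_lit 538) (nat_lit 5) (nat_lit 515) (nat_lit 5) (nat_lit 424) (nat_lit 389) (nat_lit 327)) (XT.nd (nat_lit 78) (nat_lit 1216) (nat_lit 0) (XT.lf (nat_lit 0) (nat_lit 3483906869) (nat_lit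 1824) (nat_lit 4268398222) (nat_lit 1900) (nat_lit 286292378) (nat_lit 490) (nat_lit 5) (nat_lit 514) (nat_lit 5) (nat_lit 515) (nat_lit 5) (nat_lit 425) (nat_lit 389) (nat_lit 326)) (XT.lf (nat_lit 0) (nat_lit 457652103) (nat_lit 1140) (nat_lit 1427101825) (nat_lit 1216) (nat_lit 6218344028) (nat_lit 474) (nat_lit 5) (nat_lit 489) (nat_lit 5) (nat_lit 490) (nat_lit 5) (nat_lit 426) (nat_lit 389) (nat_lit 325))))) (XT.nd (nat_lit 156) (nat_lit 1824) (nat_lit 0) (XT.nd (nat_lit 78) (nat_lit 912) (nat_lit 0) (XT.lf (nat_lit 0) (nat_lit 4099295488) (nat_lit 1216) (nat_lit 2583376407) (nat_lit 76) (nat_lit 1486100553) (nat_lit 474) (nat_lit 5) (nat_lit 490) (nat_lit 5) (nat_lit 475) (nat_lit 5) (nat_lit 427) (nat_lit 389) (nat_lit 324)) (XT.lf (nat_lit 0) (nat_lit 2569445193) (nat_lit 912) (nat_lit 3779116796) (nat_lit 988) (nat_lit 1887389760) (nat_lit 462) (nat_lit 5) (nat_lit 474) (nat_lit 5) (nat_lit 475) (nat_lit 5) (nat_lit 428) (nat_lit 389) (nat_lit 323)))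 (XT.nd (nat_lit 78) (nat_lit 1748) (nat_lit 0) (XT.lf (nat_lit 0) (nat_lit 315895657) (nat_lit 988) (nat_lit 481077509) (nat_lit 76) (nat_lit 7507817657) (nat_lit 461) (nat_lit 5) (nat_lit 474) (nat_lit 5) (nat_lit 462) (nat_lit 5) (nat_lit 429) (nat_lit 389) (nat_lit 322)) (XT.nd (nat_lit 78) (nat_lit 836) (nat_lit 0) (XT.lf (nat_lit 0) (nat_lit 2549428922) (nat_lit 988) (nat_lit 3565151694) (nat_lit 76) (nat_lit 2259947465) (nat_lit 449) (nat_lit 5) (nat_lit 462) (nat_lit 5) (nat_lit 450) (nat_lit 5) (nat_lit 430) (nat_lit 389) (nat_lit 321)) (XT.lf (nat_lit 0) (nat_lit 1749454360) (nat_lit 836) (nat_lit 3063765121) (nat_lit 912) (nat_lit 3632728871) (nat_lit 438) (nat_lit 5) (nat_lit 449) (nat_lit 5) (nat_lit 450) (nat_lit 5) (nat_lit 431) (nat_lit 389) (nat_lit 320))))))))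
noncomputable def xc74 : XT := (XT.nd (nat_lit 1482) (nat_lit 5852) (nat_lit 0) (XT.nd (nat_lit 702) (nat_lit 5092) (nat_lit 0) (XT.nd (nat_lit 312) (nat_lit 2432) (nat_lit 0) (XT.nd (nat_lit 156) (nat_lit 836) (nat_lit 0) (XT.nd (nat_lit 78) (nat_lit 988) (nat_lit 0) (XT.lf (nat_lit 0) (nat_lit 7112824776) (nat_lit 912) (nat_lit 1335309618) (nat_lit 76) (nat_lit 70851855) (nat_lit 438) (nat_lit 5) (nat_lit 450) (nat_lit 5) (nat_lit 439) (nat_lit 5) (nat_lit 432) (nat_lit 389) (nat_lit 319)) (XT.lf (nat_lit 0) (nat_lit 867614656) (nat_lit 988) (nat_lit 4466416730) (nat_lit 76) (nat_lit 3259060780) (nat_lit 425) (nat_lit 5) (nat_lit 438) (nat_lit 5) (nat_lit 426) (nat_lit 5) (nat_lit 433) (nat_lit 389) (nat_lit 318))) (XT.nd (nat_lit 78) (nat_lit 0) (nat_lit 0) (XT.lf (nat_lit 0) (nat_lit 1016742035) (nat_lit 836) (nat_lit 2133954164) (nat_lit 912) (nat_lit 5518144938) (nat_lit 414) (nat_lit 5) (nat_lit 425) (nat_lit 5) (nat_lit 426) (nat_lit 5) (nat_lit 434)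 (nat_lit 389) (nat_lit 317)) (XT.lf (nat_lit 0) (nat_lit 5484377017) (nat_lit 912) (nat_lit 2118065125) (nat_lit 76) (nat_lit 1143564195) (nat_lit 414) (nat_lit 5) (nat_lit 426) (nat_lit 5) (nat_lit 415) (nat_lit 5) (nat_lit 435) (nat_lit 389) (nat_lit 316)))) (XT.nd (nat_lit 156) (nat_lit 760) (nat_lit 0) (XT.nd (nat_lit 78) (nat_lit 836) (nat_lit 0) (XT.lf (nat_lit 0) (nat_lit 3524297118) (nat_lit 836) (nat_lit 4345516814) (nat_lit 912) (nat_lit 954799258) (nat_lit 403) (nat_lit 5) (nat_lit 414) (nat_lit 5) (nat_lit 415) (nat_lit 5) (nat_lit 436) (nat_lit 389) (nat_lit 315)) (XT.lf (nat_lit 0) (nat_lit 364683326) (nat_lit 760) (nat_lit 1000085519) (nat_lit 836) (nat_lit 7540143005) (nat_lit 392) (nat_lit 5) (nat_lit 402) (nat_lit 5) (nat_lit 403) (nat_lit 5) (nat_lit 437) (nat_lit 389) (nat_lit 314))) (XT.nd (nat_lit 78) (nat_lit 760) (nat_lit 0) (XT.lf (nat_lit 0) (nat_lit 3738063280) (nat_lit 836) (nat_lit 2828512074) (nat_lit 76) (nat_lit 2419712511) (nat_lit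 392) (nat_lit 5) (nat_lit 403) (nat_lit 5) (nat_lit 393) (nat_lit 5) (nat_lit 438) (nat_lit 389) (nat_lit 313)) (XT.nd (nat_lit 78) (nat_lit 0) (nat_lit 0) (XT.lf (nat_lit 0) (nat_lit 2995776198) (nat_lit 760) (nat_lit 3158378276) (nat_lit 836) (nat_lit 2915230309) (nat_lit 382) (nat_lit 5) (nat_lit 392) (nat_lit 5) (nat_lit 393) (nat_lit 5) (nat_lit 439) (nat_lit 389) (nat_lit 312)) (XT.lf (nat_lit 0) (nat_lit 8609352851) (nat_lit 836) (nat_lit 215749465) (nat_lit 76) (nat_lit 329225615) (nat_lit 382) (nat_lit 5) (nat_lit 393) (nat_lit 5) (nat_lit 383) (nat_lit 5) (nat_lit 440) (nat_lit 389) (nat_lit 311)))))) (XT.nd (nat_lit 390) (nat_lit 2052) (nat_lit 0) (XT.nd (nat_lit 156) (nat_lit 1444) (nat_lit 0) (XT.nd (nat_lit 78) (nat_lit 760) (nat_lit 0) (XT.lf (nat_lit 0) (nat_lit 1876969504) (nat_lit 836) (nat_lit 3472593688) (nat_lit 76) (nat_lit 3890586679) (nat_lit 371) (nat_lit 5) (nat_lit 382) (nat_lit 5) (nat_lit 372) (nat_lit 5) (nat_lit 441) (nat_lit 389)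 (nat_lit 310)) (XT.lf (nat_lit 0) (nat_lit 2541328046) (nat_lit 760) (nat_lit 1787071911) (nat_lit 836) (nat_lit 4999449363) (nat_lit 361) (nat_lit 5) (nat_lit 371) (nat_lit 5) (nat_lit 372) (nat_lit 5) (nat_lit 442) (nat_lit 389) (nat_lit 309))) (XT.nd (nat_lit 78) (nat_lit 1444) (nat_lit 0) (XT.lf (nat_lit 0) (nat_lit 6835015967) (nat_lit 836) (nat_lit 740886997) (nat_lit 76) (nat_lit 1841276656) (nat_lit 361) (nat_lit 5) (nat_lit 372) (nat_lit 5) (nat_lit 362) (nat_lit 5) (nat_lit 443) (nat_lit 389) (nat_lit 308)) (XT.nd (nat_lit 78) (nat_lit 760) (nat_lit 0) (XT.lf (nat_lit 0) (nat_lit 5451492644) (nat_lit 684) (nat_lit 3958785476) (nat_lit 760) (nat_lit 97648129) (nat_lit 352) (nat_lit 5) (nat_lit 361) (nat_lit 5) (nat_lit 362) (nat_lit 5) (nat_lit 444) (nat_lit 389) (nat_lit 307)) (XT.lf (nat_lit 0) (nat_lit 2155808884) (nat_lit 684) (nat_lit 239235708) (nat_lit 760) (nat_lit 7205317968) (nat_lit 342) (nat_lit 5) (nat_lit 351) (nat_lit 5) (nat_lit 352)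 (nat_lit 5) (nat_lit 445) (nat_lit 389) (nat_lit 306))))) (XT.nd (nat_lit 156) (nat_lit 1368) (nat_lit 0) (XT.nd (nat_lit 78) (nat_lit 684) (nat_lit 0) (XT.lf (nat_lit 0) (nat_lit 4958511398) (nat_lit 760) (nat_lit 1205018827) (nat_lit 76) (nat_lit 3530659909) (nat_lit 342) (nat_lit 5) (nat_lit 352) (nat_lit 5) (nat_lit 343) (nat_lit 5) (nat_lit 446) (nat_lit 389) (nat_lit 305)) (XT.lf (nat_lit 0) (nat_lit 5192199949) (nat_lit 684) (nat_lit 2388643074) (nat_lit 760) (nat_lit 2208899326) (nat_lit 333) (nat_lit 5) (nat_lit 342) (nat_lit 5) (nat_lit 343) (nat_lit 5) (nat_lit 447) (nat_lit 389) (nat_lit 304))) (XT.nd (nat_lit 78) (nat_lit 608) (nat_lit 0) (XT.lf (nat_lit 0) (nat_lit 365678374) (nat_lit 760) (nat_lit 8062402984) (nat_lit 76) (nat_lit 1459034520) (nat_lit 323) (nat_lit 5) (nat_lit 333) (nat_lit 5) (nat_lit 324) (nat_lit 5) (nat_lit 448) (nat_lit 389) (nat_lit 303)) (XT.nd (nat_lit 78) (nat_lit 608) (nat_lit 0) (XT.lf (nat_lit 0) (nat_lit 2981799694)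 (nat_lit 760) (nat_lit 1612782896) (nat_lit 76) (nat_lit 5391169686) (nat_lit 323) (nat_lit 5) (nat_lit 333) (nat_lit 5) (nat_lit 324) (nat_lit 5) (nat_lit 449) (nat_lit 389) (nat_lit 302)) (XT.lf (nat_lit 0) (nat_lit 4998001209) (nat_lit 608) (nat_lit 657953850) (nat_lit 684) (nat_lit 4430292112) (nat_lit 315) (nat_lit 5) (nat_lit 323) (nat_lit 5) (nat_lit 324) (nat_lit 5) (nat_lit 450) (nat_lit 389) (nat_lit 301))))))) (XT.nd (nat_lit 702) (nat_lit 2204) (nat_lit 0) (XT.nd (nat_lit 312) (nat_lit 1748) (nat_lit 0) (XT.nd (nat_lit 156) (nat_lit 1216) (nat_lit 0) (XT.nd (nat_lit 78) (nat_lit 76) (nat_lit 0) (XT.lf (nat_lit 0) (nat_lit 1538997841) (nat_lit 608) (nat_lit 6860807288) (nat_lit 684) (nat_lit 1788622601) (nat_lit 307) (nat_lit 5) (nat_lit 315) (nat_lit 5) (nat_lit 316) (nat_lit 5) (nat_lit 451) (nat_lit 389) (nat_lit 300)) (XT.lf (nat_lit 0) (nat_lit 906383121) (nat_lit 684) (nat_lit 1968447134) (nat_lit 76) (nat_lit 7417456343) (nat_lit 306) (nat_lit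 5) (nat_lit 315) (nat_lit 5) (nat_lit 307) (nat_lit 5) (nat_lit 452) (nat_lit 389) (nat_lit 299))) (XT.nd (nat_lit 78) (nat_lit 608) (nat_lit 0) (XT.lf (nat_lit 0) (nat_lit 3645092700) (nat_lit 684) (nat_lit 5540837246) (nat_lit 76) (nat_lit 1211781173) (nat_lit 298) (nat_lit 5) (nat_lit 307) (nat_lit 5) (nat_lit 299) (nat_lit 5) (nat_lit 453) (nat_lit 389) (nat_lit 298)) (XT.lf (nat_lit 0) (nat_lit 1305038842) (nat_lit 608) (nat_lit 5148763244) (nat_lit 684) (nat_lit 4051137532) (nat_lit 290) (nat_lit 5) (nat_lit 298) (nat_lit 5) (nat_lit 299) (nat_lit 5) (nat_lit 454) (nat_lit 389) (nat_lit 297)))) (XT.nd (nat_lit 156) (nat_lit 1140) (nat_lit 0) (XT.nd (nat_lit 78) (nat_lit 608) (nat_lit 0) (XT.lf (nat_lit 0) (nat_lit 8329804337) (nat_lit 608) (nat_lit 1000766778) (nat_lit 684) (nat_lit 1283503862) (nat_lit 290) (nat_lit 5) (nat_lit 298) (nat_lit 5) (nat_lit 299) (nat_lit 5) (nat_lit 455) (nat_lit 389) (nat_lit 296)) (XT.lf (nat_lit 0) (nat_lit 1546618622)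 (nat_lit 608) (nat_lit 5956587611) (nat_lit 76) (nat_lit 3221440370) (nat_lit 282) (nat_lit 5) (nat_lit 290) (nat_lit 5) (nat_lit 283) (nat_lit 5) (nat_lit 456) (nat_lit 389) (nat_lit 295))) (XT.nd (nat_lit 78) (nat_lit 532) (nat_lit 0) (XT.lf (nat_lit 0) (nat_lit 1121714255) (nat_lit 608) (nat_lit 3299061662) (nat_lit 684) (nat_lit 6416391695) (nat_lit 274) (nat_lit 5) (nat_lit 282) (nat_lit 5) (nat_lit 283) (nat_lit 5) (nat_lit 457) (nat_lit 389) (nat_lit 294)) (XT.nd (nat_lit 78) (nat_lit 532) (nat_lit 0) (XT.lf (nat_lit 0) (nat_lit 7374554613) (nat_lit 684) (nat_lit 2568763133) (nat_lit 76) (nat_lit 1008178531) (nat_lit 274) (nat_lit 5) (nat_lit 283) (nat_lit 5) (nat_lit 275) (nat_lit 5) (nat_lit 458) (nat_lit 389) (nat_lit 293)) (XT.lf (nat_lit 0) (nat_lit 4728417275) (nat_lit 532) (nat_lit 5687499897) (nat_lit 608) (nat_lit 651624177) (nat_lit 267) (nat_lit 5) (nat_lit 274) (nat_lit 5) (nat_lit 275) (nat_lit 5) (nat_lit 459) (nat_lit 389) (nat_lit 292))))))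 (XT.nd (nat_lit 390) (nat_lit 456) (nat_lit 0) (XT.nd (nat_lit 156) (nat_lit 1140) (nat_lit 0) (XT.nd (nat_lit 78) (nat_lit 0) (nat_lit 0) (XT.lf (nat_lit 0) (nat_lit 985757894) (nat_lit 532) (nat_lit 1315670393) (nat_lit 608) (nat_lit 8884179874) (nat_lit 259) (nat_lit 5) (nat_lit 266) (nat_lit 5) (nat_lit 267) (nat_lit 5) (nat_lit 460) (nat_lit 389) (nat_lit 291)) (XT.lf (nat_lit 0) (nat_lit 5344320409) (nat_lit 608) (nat_lit 2820041162) (nat_lit 76) (nat_lit 3140798517) (nat_lit 259) (nat_lit 5) (nat_lit 267) (nat_lit 5) (nat_lit 260) (nat_lit 5) (nat_lit 461) (nat_lit 389) (nat_lit 290))) (XT.nd (nat_lit 78) (nat_lit 608) (nat_lit 0) (XT.lf (nat_lit 0) (nat_lit 4728396004) (nat_lit 532) (nat_lit 3735817513) (nat_lit 608) (nat_lit 2962566674) (nat_lit 252) (nat_lit 5) (nat_lit 259) (nat_lit 5) (nat_lit 260) (nat_lit 5) (nat_lit 462) (nat_lit 389) (nat_lit 289)) (XT.nd (nat_lit 78) (nat_lit 0) (nat_lit 0) (XT.lf (nat_lit 0) (nat_lit 101279638) (nat_lit 608)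 (nat_lit 10661777838) (nat_lit 76) (nat_lit 787625545) (nat_lit 244) (nat_lit 5) (nat_lit 252) (nat_lit 5) (nat_lit 245) (nat_lit 5) (nat_lit 463) (nat_lit 389) (nat_lit 288)) (XT.lf (nat_lit 0) (nat_lit 3233770719) (nat_lit 608) (nat_lit 3034634325) (nat_lit 76) (nat_lit 5407326481) (nat_lit 244) (nat_lit 5) (nat_lit 252) (nat_lit 5) (nat_lit 245) (nat_lit 5) (nat_lit 464) (nat_lit 389) (nat_lit 287))))) (XT.nd (nat_lit 53586) (nat_lit 0) (nat_lit 38912) (XT.nd (nat_lit 53508) (nat_lit 0) (nat_lit 39672) (XT.lf (nat_lit 0) (nat_lit 4775775175) (nat_lit 456) (nat_lit 1661606350) (nat_lit 532) (nat_lit 5365730074) (nat_lit 238) (nat_lit 5) (nat_lit 244) (nat_lit 5) (nat_lit 245) (nat_lit 5) (nat_lit 465) (nat_lit 389) (nat_lit 286)) (XT.lf (nat_lit 0) (nat_lit 888298796) (nat_lit 0) (nat_lit 888298796) (nat_lit 684) (nat_lit 1539233435) (nat_lit 760) (nat_lit 5) (nat_lit 760) (nat_lit 3) (nat_lit 769) (nat_lit 3) (nat_lit 390) (nat_lit 390) (nat_lit 360))) (XT.nd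 (nat_lit 78) (nat_lit 760) (nat_lit 0) (XT.lf (nat_lit 0) (nat_lit 5127561650) (nat_lit 0) (nat_lit 792216276) (nat_lit 684) (nat_lit 731579736) (nat_lit 760) (nat_lit 5) (nat_lit 760) (nat_lit 3) (nat_lit 769) (nat_lit 3) (nat_lit 391) (nat_lit 390) (nat_lit 359)) (XT.nd (nat_lit 78) (nat_lit 0) (nat_lit 0) (XT.lf (nat_lit 0) (nat_lit 1592669930) (nat_lit 760) (nat_lit 4817683371) (nat_lit 836) (nat_lit 261833521) (nat_lit 750) (nat_lit 5) (nat_lit 760) (nat_lit 5) (nat_lit 761) (nat_lit 5) (nat_lit 392) (nat_lit 390) (nat_lit 358)) (XT.lf (nat_lit 0) (nat_lit 3908803338) (nat_lit 760) (nat_lit 1414947901) (nat_lit 836) (nat_lit 1370480720) (nat_lit 750) (nat_lit 5) (nat_lit 760) (nat_lit 5) (nat_lit 761) (nat_lit 5) (nat_lit 393) (nat_lit 390) (nat_lit 357))))))))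
noncomputable def xc75 : XT := (XT.nd (nat_lit 1482) (nat_lit 15808) (nat_lit 0) (XT.nd (nat_lit 702) (nat_lit 4408) (nat_lit 0) (XT.nd (nat_lit 312) (nat_lit 1824) (nat_lit 0) (XT.nd (nat_lit 156) (nat_lit 0) (nat_lit 0) (XT.nd (nat_lit 78) (nat_lit 836) (nat_lit 0) (XT.lf (nat_lit 76) (nat_lit 2050792593) (nat_lit 0) (nat_lit 4174611128) (nat_lit 836) (nat_lit 492231391) (nat_lit 751) (nat_lit 5) (nat_lit 750) (nat_lit 5) (nat_lit 761) (nat_lit 5) (nat_lit 394) (nat_lit 390) (nat_lit 356)) (XT.lf (nat_lit 0) (nat_lit 1773564026) (nat_lit 836) (nat_lit 1180857083) (nat_lit 912) (nat_lit 3787826287) (nat_lit 739) (nat_lit 5) (nat_lit 750) (nat_lit 5) (nat_lit 751) (nat_lit 5) (nat_lit 395) (nat_lit 390) (nat_lit 355))) (XT.nd (nat_lit 78) (nat_lit 0) (nat_lit 0) (XT.lf (nat_lit 76) (nat_lit 2370804505) (nat_lit 0) (nat_lit 1665225749) (nat_lit 912) (nat_lit 2732097682) (nat_lit 740) (nat_lit 5) (nat_lit 739) (nat_lit 5) (nat_lit 751) (nat_lit 5) (nat_lit 396)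 (nat_lit 390) (nat_lit 354)) (XT.lf (nat_lit 76) (nat_lit 5977838600) (nat_lit 0) (nat_lit 317299189) (nat_lit 912) (nat_lit 500360458) (nat_lit 740) (nat_lit 5) (nat_lit 739) (nat_lit 5) (nat_lit 751) (nat_lit 5) (nat_lit 397) (nat_lit 390) (nat_lit 353)))) (XT.nd (nat_lit 156) (nat_lit 988) (nat_lit 0) (XT.nd (nat_lit 78) (nat_lit 0) (nat_lit 0) (XT.lf (nat_lit 0) (nat_lit 1722505458) (nat_lit 912) (nat_lit 4003794697) (nat_lit 988) (nat_lit 1097489455) (nat_lit 728) (nat_lit 5) (nat_lit 740) (nat_lit 5) (nat_lit 741) (nat_lit 5) (nat_lit 398) (nat_lit 390) (nat_lit 352)) (XT.lf (nat_lit 0) (nat_lit 3936009284) (nat_lit 912) (nat_lit 349330591) (nat_lit 988) (nat_lit 2568183169) (nat_lit 728) (nat_lit 5) (nat_lit 740) (nat_lit 5) (nat_lit 741) (nat_lit 5) (nat_lit 399) (nat_lit 390) (nat_lit 351))) (XT.nd (nat_lit 78) (nat_lit 988) (nat_lit 0) (XT.lf (nat_lit 76) (nat_lit 3390505190) (nat_lit 0) (nat_lit 2771614514) (nat_lit 988) (nat_lit 722364712) (nat_lit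 729) (nat_lit 5) (nat_lit 728) (nat_lit 5) (nat_lit 741) (nat_lit 5) (nat_lit 400) (nat_lit 390) (nat_lit 350)) (XT.nd (nat_lit 78) (nat_lit 0) (nat_lit 76) (XT.lf (nat_lit 76) (nat_lit 254652057) (nat_lit 0) (nat_lit 1192974846) (nat_lit 1064) (nat_lit 5469224542) (nat_lit 716) (nat_lit 5) (nat_lit 715) (nat_lit 5) (nat_lit 729) (nat_lit 5) (nat_lit 401) (nat_lit 390) (nat_lit 349)) (XT.lf (nat_lit 0) (nat_lit 3625444862) (nat_lit 988) (nat_lit 2865068057) (nat_lit 1064) (nat_lit 459775419) (nat_lit 716) (nat_lit 5) (nat_lit 729) (nat_lit 5) (nat_lit 730) (nat_lit 5) (nat_lit 402) (nat_lit 390) (nat_lit 348)))))) (XT.nd (nat_lit 390) (nat_lit 2356) (nat_lit 0) (XT.nd (nat_lit 156) (nat_lit 1064) (nat_lit 0) (XT.nd (nat_lit 78) (nat_lit 1064) (nat_lit 0) (XT.lf (nat_lit 76) (nat_lit 979976784) (nat_lit 0) (nat_lit 4829908722) (nat_lit 1064) (nat_lit 1175247137) (nat_lit 717) (nat_lit 5) (nat_lit 716) (nat_lit 5) (nat_lit 730) (nat_lit 5) (nat_lit 403) (nat_lit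 390) (nat_lit 347)) (XT.lf (nat_lit 0) (nat_lit 972612448) (nat_lit 1064) (nat_lit 2119701128) (nat_lit 1140) (nat_lit 3928855874) (nat_lit 702) (nat_lit 5) (nat_lit 716) (nat_lit 5) (nat_lit 717) (nat_lit 5) (nat_lit 404) (nat_lit 390) (nat_lit 346))) (XT.nd (nat_lit 78) (nat_lit 1064) (nat_lit 0) (XT.lf (nat_lit 76) (nat_lit 1826856298) (nat_lit 0) (nat_lit 1282967623) (nat_lit 1140) (nat_lit 3948705079) (nat_lit 703) (nat_lit 5) (nat_lit 702) (nat_lit 5) (nat_lit 717) (nat_lit 5) (nat_lit 405) (nat_lit 390) (nat_lit 345)) (XT.nd (nat_lit 78) (nat_lit 1140) (nat_lit 0) (XT.lf (nat_lit 0) (nat_lit 5258876570) (nat_lit 1064) (nat_lit 1252673383) (nat_lit 1140) (nat_lit 585703849) (nat_lit 703) (nat_lit 5) (nat_lit 717) (nat_lit 5) (nat_lit 718) (nat_lit 5) (nat_lit 406) (nat_lit 390) (nat_lit 344)) (XT.lf (nat_lit 0) (nat_lit 288663955) (nat_lit 1140) (nat_lit 4337923262) (nat_lit 1216) (nat_lit 2510552550) (nat_lit 688) (nat_lit 5) (nat_lit 703) (nat_lit 5)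 (nat_lit 704) (nat_lit 5) (nat_lit 407) (nat_lit 390) (nat_lit 343))))) (XT.nd (nat_lit 156) (nat_lit 2356) (nat_lit 0) (XT.nd (nat_lit 78) (nat_lit 0) (nat_lit 0) (XT.lf (nat_lit 0) (nat_lit 2394613285) (nat_lit 1140) (nat_lit 274168871) (nat_lit 1216) (nat_lit 4509578596) (nat_lit 688) (nat_lit 5) (nat_lit 703) (nat_lit 5) (nat_lit 704) (nat_lit 5) (nat_lit 408) (nat_lit 390) (nat_lit 342)) (XT.lf (nat_lit 76) (nat_lit 3889114397) (nat_lit 0) (nat_lit 632247731) (nat_lit 1216) (nat_lit 2699470420) (nat_lit 689) (nat_lit 5) (nat_lit 688) (nat_lit 5) (nat_lit 704) (nat_lit 5) (nat_lit 409) (nat_lit 390) (nat_lit 341))) (XT.nd (nat_lit 78) (nat_lit 1292) (nat_lit 0) (XT.lf (nat_lit 0) (nat_lit 843388690) (nat_lit 1140) (nat_lit 5818185368) (nat_lit 1216) (nat_lit 603161158) (nat_lit 674) (nat_lit 5) (nat_lit 689) (nat_lit 5) (nat_lit 690) (nat_lit 5) (nat_lit 410) (nat_lit 390) (nat_lit 340)) (XT.nd (nat_lit 78) (nat_lit 1216) (nat_lit 0) (XT.lf (nat_lit 0) (nat_lit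 1496235152) (nat_lit 1216) (nat_lit 2210134410) (nat_lit 76) (nat_lit 3603321170) (nat_lit 673) (nat_lit 5) (nat_lit 689) (nat_lit 5) (nat_lit 674) (nat_lit 5) (nat_lit 411) (nat_lit 390) (nat_lit 339)) (XT.lf (nat_lit 0) (nat_lit 2075266416) (nat_lit 1216) (nat_lit 1523249302) (nat_lit 1292) (nat_lit 3757570448) (nat_lit 657) (nat_lit 5) (nat_lit 673) (nat_lit 5) (nat_lit 674) (nat_lit 5) (nat_lit 412) (nat_lit 390) (nat_lit 338))))))) (XT.nd (nat_lit 702) (nat_lit 8436) (nat_lit 0) (XT.nd (nat_lit 312) (nat_lit 4636) (nat_lit 0) (XT.nd (nat_lit 156) (nat_lit 1368) (nat_lit 0) (XT.nd (nat_lit 78) (nat_lit 1368) (nat_lit 0) (XT.lf (nat_lit 0) (nat_lit 5718558587) (nat_lit 1292) (nat_lit 965431678) (nat_lit 76) (nat_lit 719904910) (nat_lit 657) (nat_lit 5) (nat_lit 674) (nat_lit 5) (nat_lit 658) (nat_lit 5) (nat_lit 413) (nat_lit 390) (nat_lit 337)) (XT.lf (nat_lit 0) (nat_lit 412141648) (nat_lit 1368) (nat_lit 4017636970) (nat_lit 76) (nat_lit 3023037775) (nat_lit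 639) (nat_lit 5) (nat_lit 657) (nat_lit 5) (nat_lit 640) (nat_lit 5) (nat_lit 414) (nat_lit 390) (nat_lit 336))) (XT.nd (nat_lit 78) (nat_lit 0) (nat_lit 0) (XT.lf (nat_lit 0) (nat_lit 394607072) (nat_lit 1368) (nat_lit 2100924858) (nat_lit 1444) (nat_lit 5007630722) (nat_lit 621) (nat_lit 5) (nat_lit 639) (nat_lit 5) (nat_lit 640) (nat_lit 5) (nat_lit 415) (nat_lit 390) (nat_lit 335)) (XT.lf (nat_lit 0) (nat_lit 4607608759) (nat_lit 1444) (nat_lit 2640721413) (nat_lit 76) (nat_lit 306445289) (nat_lit 621) (nat_lit 5) (nat_lit 640) (nat_lit 5) (nat_lit 622) (nat_lit 5) (nat_lit 416) (nat_lit 390) (nat_lit 334)))) (XT.nd (nat_lit 156) (nat_lit 3116) (nat_lit 0) (XT.nd (nat_lit 78) (nat_lit 76) (nat_lit 0) (XT.lf (nat_lit 0) (nat_lit 1893725830) (nat_lit 1444) (nat_lit 4853329106) (nat_lit 1520) (nat_lit 860663032) (nat_lit 602) (nat_lit 5) (nat_lit 621) (nat_lit 5) (nat_lit 622) (nat_lit 5) (nat_lit 417) (nat_lit 390) (nat_lit 333)) (XT.lf (nat_lit 0) (nat_lit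 1228023553) (nat_lit 1520) (nat_lit 1149041438) (nat_lit 76) (nat_lit 5284948192) (nat_lit 601) (nat_lit 5) (nat_lit 621) (nat_lit 5) (nat_lit 602) (nat_lit 5) (nat_lit 418) (nat_lit 390) (nat_lit 332))) (XT.nd (nat_lit 78) (nat_lit 1596) (nat_lit 0) (XT.lf (nat_lit 0) (nat_lit 3331023486) (nat_lit 1596) (nat_lit 4204542411) (nat_lit 76) (nat_lit 182033349) (nat_lit 581) (nat_lit 5) (nat_lit 602) (nat_lit 5) (nat_lit 582) (nat_lit 5) (nat_lit 419) (nat_lit 390) (nat_lit 331)) (XT.nd (nat_lit 78) (nat_lit 0) (nat_lit 0) (XT.lf (nat_lit 0) (nat_lit 466221145) (nat_lit 1596) (nat_lit 4997041175) (nat_lit 1672) (nat_lit 2311291130) (nat_lit 560) (nat_lit 5) (nat_lit 581) (nat_lit 5) (nat_lit 582) (nat_lit 5) (nat_lit 420) (nat_lit 390) (nat_lit 330)) (XT.lf (nat_lit 0) (nat_lit 5253686846) (nat_lit 1596) (nat_lit 2373874538) (nat_lit 1672) (nat_lit 205297048) (nat_lit 560) (nat_lit 5) (nat_lit 581) (nat_lit 5) (nat_lit 582) (nat_lit 5) (nat_lit 421) (nat_lit 390)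 (nat_lit 329)))))) (XT.nd (nat_lit 390) (nat_lit 3040) (nat_lit 0) (XT.nd (nat_lit 156) (nat_lit 3648) (nat_lit 0) (XT.nd (nat_lit 78) (nat_lit 0) (nat_lit 0) (XT.lf (nat_lit 0) (nat_lit 1895678584) (nat_lit 1748) (nat_lit 5667103868) (nat_lit 76) (nat_lit 329727937) (nat_lit 537) (nat_lit 5) (nat_lit 560) (nat_lit 5) (nat_lit 538) (nat_lit 5) (nat_lit 422) (nat_lit 390) (nat_lit 328)) (XT.lf (nat_lit 0) (nat_lit 4031343306) (nat_lit 1748) (nat_lit 843284742) (nat_lit 76) (nat_lit 3078791826) (nat_lit 537) (nat_lit 5) (nat_lit 560) (nat_lit 5) (nat_lit 538) (nat_lit 5) (nat_lit 423) (nat_lit 390) (nat_lit 327))) (XT.nd (nat_lit 78) (nat_lit 1900) (nat_lit 0) (XT.lf (nat_lit 0) (nat_lit 4097298727) (nat_lit 1748) (nat_lit 2102037422) (nat_lit 1824) (nat_lit 1816419106) (nat_lit 514) (nat_lit 5) (nat_lit 537) (nat_lit 5) (nat_lit 538) (nat_lit 5) (nat_lit 424) (nat_lit 390) (nat_lit 326)) (XT.nd (nat_lit 78) (nat_lit 0) (nat_lit 0) (XT.lf (nat_lit 0) (nat_lit 307608704)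 (nat_lit 1900) (nat_lit 7037886036) (nat_lit 76) (nat_lit 734187516) (nat_lit 489) (nat_lit 5) (nat_lit 514) (nat_lit 5) (nat_lit 490) (nat_lit 5) (nat_lit 425) (nat_lit 390) (nat_lit 325)) (XT.lf (nat_lit 0) (nat_lit 2454008343) (nat_lit 1900) (nat_lit 2050353315) (nat_lit 76) (nat_lit 3640201746) (nat_lit 489) (nat_lit 5) (nat_lit 514) (nat_lit 5) (nat_lit 490) (nat_lit 5) (nat_lit 426) (nat_lit 390) (nat_lit 324))))) (XT.nd (nat_lit 156) (nat_lit 1900) (nat_lit 0) (XT.nd (nat_lit 78) (nat_lit 0) (nat_lit 0) (XT.lf (nat_lit 0) (nat_lit 3043277535) (nat_lit 1140) (nat_lit 1584327774) (nat_lit 1216) (nat_lit 3583451479) (nat_lit 474) (nat_lit 5) (nat_lit 489) (nat_lit 5) (nat_lit 490) (nat_lit 5) (nat_lit 427) (nat_lit 390) (nat_lit 323)) (XT.lf (nat_lit 0) (nat_lit 6832576302) (nat_lit 1216) (nat_lit 55229212) (nat_lit 76) (nat_lit 1391316485) (nat_lit 474) (nat_lit 5) (nat_lit 490) (nat_lit 5) (nat_lit 475) (nat_lit 5) (nat_lit 428) (nat_lit 390) (nat_lit 322)))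 (XT.nd (nat_lit 78) (nat_lit 912) (nat_lit 0) (XT.lf (nat_lit 0) (nat_lit 733383532) (nat_lit 988) (nat_lit 3169500353) (nat_lit 76) (nat_lit 4445371433) (nat_lit 461) (nat_lit 5) (nat_lit 474) (nat_lit 5) (nat_lit 462) (nat_lit 5) (nat_lit 429) (nat_lit 390) (nat_lit 321)) (XT.nd (nat_lit 78) (nat_lit 0) (nat_lit 0) (XT.lf (nat_lit 0) (nat_lit 2083525839) (nat_lit 912) (nat_lit 833855130) (nat_lit 988) (nat_lit 5501602323) (nat_lit 449) (nat_lit 5) (nat_lit 461) (nat_lit 5) (nat_lit 462) (nat_lit 5) (nat_lit 430) (nat_lit 390) (nat_lit 320)) (XT.lf (nat_lit 0) (nat_lit 5147751902) (nat_lit 988) (nat_lit 1055250279) (nat_lit 76) (nat_lit 2288069774) (nat_lit 449) (nat_lit 5) (nat_lit 462) (nat_lit 5) (nat_lit 450) (nat_lit 5) (nat_lit 431) (nat_lit 390) (nat_lit 319))))))))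
noncomputable def xc76 : XT := (XT.nd (nat_lit 1482) (nat_lit 5396) (nat_lit 0) (XT.nd (nat_lit 702) (nat_lit 5092) (nat_lit 0) (XT.nd (nat_lit 312) (nat_lit 2432) (nat_lit 0) (XT.nd (nat_lit 156) (nat_lit 836) (nat_lit 0) (XT.nd (nat_lit 78) (nat_lit 988) (nat_lit 0) (XT.lf (nat_lit 0) (nat_lit 4348666288) (nat_lit 836) (nat_lit 3074852886) (nat_lit 912) (nat_lit 1141067439) (nat_lit 438) (nat_lit 5) (nat_lit 449) (nat_lit 5) (nat_lit 450) (nat_lit 5) (nat_lit 432) (nat_lit 390) (nat_lit 318)) (XT.lf (nat_lit 0) (nat_lit 1073864056) (nat_lit 988) (nat_lit 7430108783) (nat_lit 76) (nat_lit 135792624) (nat_lit 425) (nat_lit 5) (nat_lit 438) (nat_lit 5) (nat_lit 426) (nat_lit 5) (nat_lit 433) (nat_lit 390) (nat_lit 317))) (XT.nd (nat_lit 78) (nat_lit 836) (nat_lit 0) (XT.lf (nat_lit 0) (nat_lit 3334337372) (nat_lit 988) (nat_lit 1977136222) (nat_lit 76) (nat_lit 3404493007) (nat_lit 425) (nat_lit 5) (nat_lit 438) (nat_lit 5) (nat_lit 426) (nat_lit 5) (nat_lit 434)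 (nat_lit 390) (nat_lit 316)) (XT.lf (nat_lit 0) (nat_lit 3598721187) (nat_lit 836) (nat_lit 2032964382) (nat_lit 912) (nat_lit 3162172883) (nat_lit 414) (nat_lit 5) (nat_lit 425) (nat_lit 5) (nat_lit 426) (nat_lit 5) (nat_lit 435) (nat_lit 390) (nat_lit 315)))) (XT.nd (nat_lit 156) (nat_lit 1520) (nat_lit 0) (XT.nd (nat_lit 78) (nat_lit 76) (nat_lit 0) (XT.lf (nat_lit 0) (nat_lit 402768726) (nat_lit 836) (nat_lit 7565389538) (nat_lit 912) (nat_lit 905286325) (nat_lit 403) (nat_lit 5) (nat_lit 414) (nat_lit 5) (nat_lit 415) (nat_lit 5) (nat_lit 436) (nat_lit 390) (nat_lit 314)) (XT.lf (nat_lit 0) (nat_lit 1395861530) (nat_lit 912) (nat_lit 2827591746) (nat_lit 76) (nat_lit 4730638961) (nat_lit 402) (nat_lit 5) (nat_lit 414) (nat_lit 5) (nat_lit 403) (nat_lit 5) (nat_lit 437) (nat_lit 390) (nat_lit 313))) (XT.nd (nat_lit 78) (nat_lit 760) (nat_lit 0) (XT.lf (nat_lit 0) (nat_lit 2927460732) (nat_lit 760) (nat_lit 791963976) (nat_lit 836) (nat_lit 5317038169) (nat_lit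 392) (nat_lit 5) (nat_lit 402) (nat_lit 5) (nat_lit 403) (nat_lit 5) (nat_lit 438) (nat_lit 390) (nat_lit 312)) (XT.nd (nat_lit 78) (nat_lit 760) (nat_lit 0) (XT.lf (nat_lit 0) (nat_lit 6096002599) (nat_lit 836) (nat_lit 335523666) (nat_lit 76) (nat_lit 2688823796) (nat_lit 392) (nat_lit 5) (nat_lit 403) (nat_lit 5) (nat_lit 393) (nat_lit 5) (nat_lit 439) (nat_lit 390) (nat_lit 311)) (XT.lf (nat_lit 0) (nat_lit 5588476959) (nat_lit 760) (nat_lit 2943614982) (nat_lit 836) (nat_lit 673583450) (nat_lit 382) (nat_lit 5) (nat_lit 392) (nat_lit 5) (nat_lit 393) (nat_lit 5) (nat_lit 440) (nat_lit 390) (nat_lit 310)))))) (XT.nd (nat_lit 390) (nat_lit 2736) (nat_lit 0) (XT.nd (nat_lit 156) (nat_lit 1520) (nat_lit 0) (XT.nd (nat_lit 78) (nat_lit 0) (nat_lit 0) (XT.lf (nat_lit 0) (nat_lit 1693746439) (nat_lit 836) (nat_lit 6967865053) (nat_lit 76) (nat_lit 631028567) (nat_lit 371) (nat_lit 5) (nat_lit 382) (nat_lit 5) (nat_lit 372) (nat_lit 5) (nat_lit 441) (nat_lit 390)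 (nat_lit 309)) (XT.lf (nat_lit 0) (nat_lit 4114301059) (nat_lit 836) (nat_lit 1003860567) (nat_lit 76) (nat_lit 4262795399) (nat_lit 371) (nat_lit 5) (nat_lit 382) (nat_lit 5) (nat_lit 372) (nat_lit 5) (nat_lit 442) (nat_lit 390) (nat_lit 308))) (XT.nd (nat_lit 78) (nat_lit 760) (nat_lit 0) (XT.lf (nat_lit 0) (nat_lit 5113641016) (nat_lit 760) (nat_lit 1474357088) (nat_lit 836) (nat_lit 2882947600) (nat_lit 361) (nat_lit 5) (nat_lit 371) (nat_lit 5) (nat_lit 372) (nat_lit 5) (nat_lit 443) (nat_lit 390) (nat_lit 307)) (XT.nd (nat_lit 78) (nat_lit 76) (nat_lit 0) (XT.lf (nat_lit 0) (nat_lit 1780077179) (nat_lit 684) (nat_lit 7335836309) (nat_lit 760) (nat_lit 446725780) (nat_lit 352) (nat_lit 5) (nat_lit 361) (nat_lit 5) (nat_lit 362) (nat_lit 5) (nat_lit 444) (nat_lit 390) (nat_lit 306)) (XT.lf (nat_lit 0) (nat_lit 2022687400) (nat_lit 760) (nat_lit 1612822163) (nat_lit 76) (nat_lit 6020168501) (nat_lit 351) (nat_lit 5) (nat_lit 361) (nat_lit 5) (nat_lit 352)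 (nat_lit 5) (nat_lit 445) (nat_lit 390) (nat_lit 305))))) (XT.nd (nat_lit 156) (nat_lit 1368) (nat_lit 0) (XT.nd (nat_lit 78) (nat_lit 684) (nat_lit 0) (XT.lf (nat_lit 0) (nat_lit 4539709498) (nat_lit 760) (nat_lit 5045133118) (nat_lit 76) (nat_lit 165591915) (nat_lit 342) (nat_lit 5) (nat_lit 352) (nat_lit 5) (nat_lit 343) (nat_lit 5) (nat_lit 446) (nat_lit 390) (nat_lit 304)) (XT.lf (nat_lit 0) (nat_lit 1284518953) (nat_lit 684) (nat_lit 5838706892) (nat_lit 760) (nat_lit 2723537207) (nat_lit 333) (nat_lit 5) (nat_lit 342) (nat_lit 5) (nat_lit 343) (nat_lit 5) (nat_lit 447) (nat_lit 390) (nat_lit 303))) (XT.nd (nat_lit 78) (nat_lit 1368) (nat_lit 0) (XT.lf (nat_lit 0) (nat_lit 7776409150) (nat_lit 684) (nat_lit 1989021843) (nat_lit 760) (nat_lit 179446782) (nat_lit 333) (nat_lit 5) (nat_lit 342) (nat_lit 5) (nat_lit 343) (nat_lit 5) (nat_lit 448) (nat_lit 390) (nat_lit 302)) (XT.nd (nat_lit 78) (nat_lit 608) (nat_lit 0) (XT.lf (nat_lit 0) (nat_lit 2398516255)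 (nat_lit 760) (nat_lit 5695179626) (nat_lit 76) (nat_lit 1950651829) (nat_lit 323) (nat_lit 5) (nat_lit 333) (nat_lit 5) (nat_lit 324) (nat_lit 5) (nat_lit 449) (nat_lit 390) (nat_lit 301)) (XT.lf (nat_lit 0) (nat_lit 844936487) (nat_lit 608) (nat_lit 4187793239) (nat_lit 684) (nat_lit 5112911715) (nat_lit 315) (nat_lit 5) (nat_lit 323) (nat_lit 5) (nat_lit 324) (nat_lit 5) (nat_lit 450) (nat_lit 390) (nat_lit 300))))))) (XT.nd (nat_lit 702) (nat_lit 2280) (nat_lit 0) (XT.nd (nat_lit 312) (nat_lit 1824) (nat_lit 0) (XT.nd (nat_lit 156) (nat_lit 608) (nat_lit 0) (XT.nd (nat_lit 78) (nat_lit 684) (nat_lit 0) (XT.lf (nat_lit 0) (nat_lit 7560546270) (nat_lit 608) (nat_lit 171387361) (nat_lit 684) (nat_lit 2516781294) (nat_lit 315) (nat_lit 5) (nat_lit 323) (nat_lit 5) (nat_lit 324) (nat_lit 5) (nat_lit 451) (nat_lit 390) (nat_lit 299)) (XT.lf (nat_lit 0) (nat_lit 156072982) (nat_lit 684) (nat_lit 6302412373) (nat_lit 76) (nat_lit 3894817018) (nat_lit 306) (nat_lit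 5) (nat_lit 315) (nat_lit 5) (nat_lit 307) (nat_lit 5) (nat_lit 452) (nat_lit 390) (nat_lit 298))) (XT.nd (nat_lit 78) (nat_lit 0) (nat_lit 0) (XT.lf (nat_lit 0) (nat_lit 457160976) (nat_lit 608) (nat_lit 2388495221) (nat_lit 684) (nat_lit 7614053224) (nat_lit 298) (nat_lit 5) (nat_lit 306) (nat_lit 5) (nat_lit 307) (nat_lit 5) (nat_lit 453) (nat_lit 390) (nat_lit 297)) (XT.lf (nat_lit 0) (nat_lit 5617968206) (nat_lit 684) (nat_lit 3174469116) (nat_lit 76) (nat_lit 1775228546) (nat_lit 298) (nat_lit 5) (nat_lit 307) (nat_lit 5) (nat_lit 299) (nat_lit 5) (nat_lit 454) (nat_lit 390) (nat_lit 296)))) (XT.nd (nat_lit 156) (nat_lit 608) (nat_lit 0) (XT.nd (nat_lit 78) (nat_lit 608) (nat_lit 0) (XT.lf (nat_lit 0) (nat_lit 3792027224) (nat_lit 608) (nat_lit 4669547885) (nat_lit 684) (nat_lit 2215889361) (nat_lit 290) (nat_lit 5) (nat_lit 298) (nat_lit 5) (nat_lit 299) (nat_lit 5) (nat_lit 455) (nat_lit 390) (nat_lit 295)) (XT.lf (nat_lit 0) (nat_lit 117357492) (nat_lit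 532) (nat_lit 445458114) (nat_lit 608) (nat_lit 10226614482) (nat_lit 282) (nat_lit 5) (nat_lit 289) (nat_lit 5) (nat_lit 290) (nat_lit 5) (nat_lit 456) (nat_lit 390) (nat_lit 294))) (XT.nd (nat_lit 78) (nat_lit 608) (nat_lit 0) (XT.lf (nat_lit 0) (nat_lit 3414791243) (nat_lit 608) (nat_lit 3621627722) (nat_lit 76) (nat_lit 3865975766) (nat_lit 282) (nat_lit 5) (nat_lit 290) (nat_lit 5) (nat_lit 283) (nat_lit 5) (nat_lit 457) (nat_lit 390) (nat_lit 293)) (XT.nd (nat_lit 78) (nat_lit 0) (nat_lit 0) (XT.lf (nat_lit 0) (nat_lit 3582094842) (nat_lit 608) (nat_lit 2744141287) (nat_lit 684) (nat_lit 4691333942) (nat_lit 274) (nat_lit 5) (nat_lit 282) (nat_lit 5) (nat_lit 283) (nat_lit 5) (nat_lit 458) (nat_lit 390) (nat_lit 292)) (XT.lf (nat_lit 0) (nat_lit 9307414332) (nat_lit 684) (nat_lit 198318895) (nat_lit 76) (nat_lit 1629085603) (nat_lit 274) (nat_lit 5) (nat_lit 283) (nat_lit 5) (nat_lit 275) (nat_lit 5) (nat_lit 459) (nat_lit 390) (nat_lit 291)))))) (XT.nd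 (nat_lit 390) (nat_lit 0) (nat_lit 0) (XT.nd (nat_lit 156) (nat_lit 1140) (nat_lit 0) (XT.nd (nat_lit 78) (nat_lit 532) (nat_lit 0) (XT.lf (nat_lit 0) (nat_lit 1121737685) (nat_lit 608) (nat_lit 4032080292) (nat_lit 76) (nat_lit 6099606962) (nat_lit 266) (nat_lit 5) (nat_lit 274) (nat_lit 5) (nat_lit 267) (nat_lit 5) (nat_lit 460) (nat_lit 390) (nat_lit 290)) (XT.lf (nat_lit 0) (nat_lit 3419000300) (nat_lit 532) (nat_lit 686947610) (nat_lit 608) (nat_lit 7268202594) (nat_lit 259) (nat_lit 5) (nat_lit 266) (nat_lit 5) (nat_lit 267) (nat_lit 5) (nat_lit 461) (nat_lit 390) (nat_lit 289))) (XT.nd (nat_lit 78) (nat_lit 1140) (nat_lit 0) (XT.lf (nat_lit 0) (nat_lit 7179387197) (nat_lit 608) (nat_lit 479928123) (nat_lit 76) (nat_lit 3837384364) (nat_lit 259) (nat_lit 5) (nat_lit 267) (nat_lit 5) (nat_lit 260) (nat_lit 5) (nat_lit 462) (nat_lit 390) (nat_lit 288)) (XT.nd (nat_lit 78) (nat_lit 608) (nat_lit 0) (XT.lf (nat_lit 0) (nat_lit 7203711249) (nat_lit 532) (nat_lit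 3139538420) (nat_lit 608) (nat_lit 1277871090) (nat_lit 252) (nat_lit 5) (nat_lit 259) (nat_lit 5) (nat_lit 260) (nat_lit 5) (nat_lit 463) (nat_lit 390) (nat_lit 287)) (XT.lf (nat_lit 0) (nat_lit 1810583940) (nat_lit 608) (nat_lit 8457597862) (nat_lit 76) (nat_lit 1479369305) (nat_lit 244) (nat_lit 5) (nat_lit 252) (nat_lit 5) (nat_lit 245) (nat_lit 5) (nat_lit 464) (nat_lit 390) (nat_lit 286))))) (XT.nd (nat_lit 53664) (nat_lit 0) (nat_lit 37544) (XT.nd (nat_lit 53586) (nat_lit 0) (nat_lit 38380) (XT.lf (nat_lit 0) (nat_lit 4972248789) (nat_lit 608) (nat_lit 725311783) (nat_lit 76) (nat_lit 6178209529) (nat_lit 244) (nat_lit 5) (nat_lit 252) (nat_lit 5) (nat_lit 245) (nat_lit 5) (nat_lit 465) (nat_lit 390) (nat_lit 285)) (XT.lf (nat_lit 0) (nat_lit 781826217) (nat_lit 836) (nat_lit 1276950119) (nat_lit 836) (nat_lit 1276950119) (nat_lit 749) (nat_lit 3) (nat_lit 760) (nat_lit 3) (nat_lit 760) (nat_lit 5) (nat_lit 391) (nat_lit 391) (nat_lit 358))) (XT.nd (nat_lit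 78) (nat_lit 836) (nat_lit 0) (XT.lf (nat_lit 76) (nat_lit 792216276) (nat_lit 0) (nat_lit 3047587489) (nat_lit 836) (nat_lit 2853153379) (nat_lit 750) (nat_lit 5) (nat_lit 749) (nat_lit 3) (nat_lit 760) (nat_lit 5) (nat_lit 392) (nat_lit 391) (nat_lit 357)) (XT.nd (nat_lit 78) (nat_lit 836) (nat_lit 0) (XT.lf (nat_lit 76) (nat_lit 4209301762) (nat_lit 0) (nat_lit 1909956684) (nat_lit 836) (nat_lit 596477411) (nat_lit 750) (nat_lit 5) (nat_lit 749) (nat_lit 3) (nat_lit 760) (nat_lit 5) (nat_lit 393) (nat_lit 391) (nat_lit 356)) (XT.lf (nat_lit 76) (nat_lit 926081205) (nat_lit 0) (nat_lit 704318661) (nat_lit 912) (nat_lit 5109400162) (nat_lit 739) (nat_lit 5) (nat_lit 738) (nat_lit 5) (nat_lit 750) (nat_lit 5) (nat_lit 394) (nat_lit 391) (nat_lit 355))))))))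
noncomputable def xc77 : XT := (XT.nd (nat_lit 1482) (nat_lit 16644) (nat_lit 0) (XT.nd (nat_lit 702) (nat_lit 3344) (nat_lit 0) (XT.nd (nat_lit 312) (nat_lit 1976) (nat_lit 0) (XT.nd (nat_lit 156) (nat_lit 912) (nat_lit 0) (XT.nd (nat_lit 78) (nat_lit 0) (nat_lit 0) (XT.lf (nat_lit 0) (nat_lit 3856724541) (nat_lit 836) (nat_lit 2342137204) (nat_lit 912) (nat_lit 566146951) (nat_lit 739) (nat_lit 5) (nat_lit 750) (nat_lit 5) (nat_lit 751) (nat_lit 5) (nat_lit 395) (nat_lit 391) (nat_lit 354)) (XT.lf (nat_lit 76) (nat_lit 1178414575) (nat_lit 0) (nat_lit 4905149960) (nat_lit 912) (nat_lit 708037225) (nat_lit 740) (nat_lit 5) (nat_lit 739) (nat_lit 5) (nat_lit 751) (nat_lit 5) (nat_lit 396) (nat_lit 391) (nat_lit 353))) (XT.nd (nat_lit 78) (nat_lit 0) (nat_lit 0) (XT.lf (nat_lit 0) (nat_lit 1476097210) (nat_lit 912) (nat_lit 2059152931) (nat_lit 988) (nat_lit 3284076455) (nat_lit 727) (nat_lit 5) (nat_lit 739) (nat_lit 5) (nat_lit 740) (nat_lit 5) (nat_lit 397)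 (nat_lit 391) (nat_lit 352)) (XT.lf (nat_lit 76) (nat_lit 1550442595) (nat_lit 0) (nat_lit 2099369660) (nat_lit 988) (nat_lit 3198592503) (nat_lit 728) (nat_lit 5) (nat_lit 727) (nat_lit 5) (nat_lit 740) (nat_lit 5) (nat_lit 398) (nat_lit 391) (nat_lit 351)))) (XT.nd (nat_lit 156) (nat_lit 1064) (nat_lit 0) (XT.nd (nat_lit 78) (nat_lit 912) (nat_lit 0) (XT.lf (nat_lit 76) (nat_lit 5229182667) (nat_lit 0) (nat_lit 597811584) (nat_lit 988) (nat_lit 1051870376) (nat_lit 728) (nat_lit 5) (nat_lit 727) (nat_lit 5) (nat_lit 740) (nat_lit 5) (nat_lit 399) (nat_lit 391) (nat_lit 350)) (XT.lf (nat_lit 0) (nat_lit 1089463718) (nat_lit 988) (nat_lit 4856787218) (nat_lit 1064) (nat_lit 964203019) (nat_lit 715) (nat_lit 5) (nat_lit 728) (nat_lit 5) (nat_lit 729) (nat_lit 5) (nat_lit 400) (nat_lit 391) (nat_lit 349))) (XT.nd (nat_lit 78) (nat_lit 1064) (nat_lit 0) (XT.lf (nat_lit 0) (nat_lit 3222516591) (nat_lit 988) (nat_lit 1132046668) (nat_lit 1064) (nat_lit 2588713219)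 (nat_lit 715) (nat_lit 5) (nat_lit 728) (nat_lit 5) (nat_lit 729) (nat_lit 5) (nat_lit 401) (nat_lit 391) (nat_lit 348)) (XT.nd (nat_lit 78) (nat_lit 1064) (nat_lit 0) (XT.lf (nat_lit 76) (nat_lit 2670806077) (nat_lit 0) (nat_lit 2693648332) (nat_lit 1064) (nat_lit 1612976565) (nat_lit 716) (nat_lit 5) (nat_lit 715) (nat_lit 5) (nat_lit 729) (nat_lit 5) (nat_lit 402) (nat_lit 391) (nat_lit 347)) (XT.lf (nat_lit 0) (nat_lit 486916713) (nat_lit 1064) (nat_lit 482469366) (nat_lit 1140) (nat_lit 6043672822) (nat_lit 701) (nat_lit 5) (nat_lit 715) (nat_lit 5) (nat_lit 716) (nat_lit 5) (nat_lit 403) (nat_lit 391) (nat_lit 346)))))) (XT.nd (nat_lit 390) (nat_lit 2280) (nat_lit 0) (XT.nd (nat_lit 156) (nat_lit 1140) (nat_lit 0) (XT.nd (nat_lit 78) (nat_lit 0) (nat_lit 0) (XT.lf (nat_lit 0) (nat_lit 2585247614) (nat_lit 1064) (nat_lit 3634093486) (nat_lit 1140) (nat_lit 830284301) (nat_lit 702) (nat_lit 5) (nat_lit 716) (nat_lit 5) (nat_lit 717) (nat_lit 5) (nat_lit 404)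 (nat_lit 391) (nat_lit 345)) (XT.lf (nat_lit 76) (nat_lit 276216096) (nat_lit 0) (nat_lit 4412032022) (nat_lit 1140) (nat_lit 2399421052) (nat_lit 703) (nat_lit 5) (nat_lit 702) (nat_lit 5) (nat_lit 717) (nat_lit 5) (nat_lit 405) (nat_lit 391) (nat_lit 344))) (XT.nd (nat_lit 78) (nat_lit 1140) (nat_lit 0) (XT.lf (nat_lit 76) (nat_lit 4282064359) (nat_lit 0) (nat_lit 2527610680) (nat_lit 1140) (nat_lit 317271448) (nat_lit 703) (nat_lit 5) (nat_lit 702) (nat_lit 5) (nat_lit 717) (nat_lit 5) (nat_lit 406) (nat_lit 391) (nat_lit 343)) (XT.nd (nat_lit 78) (nat_lit 0) (nat_lit 76) (XT.lf (nat_lit 76) (nat_lit 1172739441) (nat_lit 0) (nat_lit 570312578) (nat_lit 1216) (nat_lit 5424518275) (nat_lit 688) (nat_lit 5) (nat_lit 687) (nat_lit 5) (nat_lit 703) (nat_lit 5) (nat_lit 407) (nat_lit 391) (nat_lit 342)) (XT.lf (nat_lit 0) (nat_lit 3822243956) (nat_lit 1140) (nat_lit 1943587795) (nat_lit 1216) (nat_lit 1443494677) (nat_lit 688) (nat_lit 5) (nat_lit 703) (nat_lit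 5) (nat_lit 704) (nat_lit 5) (nat_lit 408) (nat_lit 391) (nat_lit 341))))) (XT.nd (nat_lit 156) (nat_lit 1140) (nat_lit 0) (XT.nd (nat_lit 78) (nat_lit 1216) (nat_lit 0) (XT.lf (nat_lit 76) (nat_lit 2181402266) (nat_lit 0) (nat_lit 3733900436) (nat_lit 1216) (nat_lit 1337169322) (nat_lit 689) (nat_lit 5) (nat_lit 688) (nat_lit 5) (nat_lit 704) (nat_lit 5) (nat_lit 409) (nat_lit 391) (nat_lit 340)) (XT.lf (nat_lit 0) (nat_lit 711718772) (nat_lit 1216) (nat_lit 918462634) (nat_lit 1292) (nat_lit 5666844009) (nat_lit 672) (nat_lit 5) (nat_lit 688) (nat_lit 5) (nat_lit 689) (nat_lit 5) (nat_lit 410) (nat_lit 391) (nat_lit 339))) (XT.nd (nat_lit 78) (nat_lit 1216) (nat_lit 0) (XT.lf (nat_lit 0) (nat_lit 2764503655) (nat_lit 1216) (nat_lit 4026359199) (nat_lit 76) (nat_lit 551813771) (nat_lit 673) (nat_lit 5) (nat_lit 689) (nat_lit 5) (nat_lit 674) (nat_lit 5) (nat_lit 411) (nat_lit 391) (nat_lit 338)) (XT.nd (nat_lit 78) (nat_lit 0) (nat_lit 0) (XT.lf (nat_lit 0)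 (nat_lit 218548632) (nat_lit 1216) (nat_lit 4614578479) (nat_lit 1292) (nat_lit 2556618090) (nat_lit 657) (nat_lit 5) (nat_lit 673) (nat_lit 5) (nat_lit 674) (nat_lit 5) (nat_lit 412) (nat_lit 391) (nat_lit 337)) (XT.lf (nat_lit 0) (nat_lit 4570541042) (nat_lit 1216) (nat_lit 2356610109) (nat_lit 1292) (nat_lit 510923435) (nat_lit 657) (nat_lit 5) (nat_lit 673) (nat_lit 5) (nat_lit 674) (nat_lit 5) (nat_lit 413) (nat_lit 391) (nat_lit 336))))))) (XT.nd (nat_lit 702) (nat_lit 9196) (nat_lit 0) (XT.nd (nat_lit 312) (nat_lit 4636) (nat_lit 0) (XT.nd (nat_lit 156) (nat_lit 1444) (nat_lit 0) (XT.nd (nat_lit 78) (nat_lit 0) (nat_lit 0) (XT.lf (nat_lit 0) (nat_lit 1499315506) (nat_lit 1292) (nat_lit 23011721) (nat_lit 1368) (nat_lit 5965492575) (nat_lit 639) (nat_lit 5) (nat_lit 656) (nat_lit 5) (nat_lit 657) (nat_lit 5) (nat_lit 414) (nat_lit 391) (nat_lit 335)) (XT.lf (nat_lit 0) (nat_lit 3582342362) (nat_lit 1368) (nat_lit 1597626297) (nat_lit 76) (nat_lit 2358664904)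 (nat_lit 639) (nat_lit 5) (nat_lit 657) (nat_lit 5) (nat_lit 640) (nat_lit 5) (nat_lit 415) (nat_lit 391) (nat_lit 334))) (XT.nd (nat_lit 78) (nat_lit 76) (nat_lit 0) (XT.lf (nat_lit 0) (nat_lit 2886412866) (nat_lit 1368) (nat_lit 2775115624) (nat_lit 1444) (nat_lit 1929375696) (nat_lit 621) (nat_lit 5) (nat_lit 639) (nat_lit 5) (nat_lit 640) (nat_lit 5) (nat_lit 416) (nat_lit 391) (nat_lit 333)) (XT.lf (nat_lit 0) (nat_lit 106463504) (nat_lit 1444) (nat_lit 195870662) (nat_lit 76) (nat_lit 7342464200) (nat_lit 620) (nat_lit 5) (nat_lit 639) (nat_lit 5) (nat_lit 621) (nat_lit 5) (nat_lit 417) (nat_lit 391) (nat_lit 332)))) (XT.nd (nat_lit 156) (nat_lit 1672) (nat_lit 0) (XT.nd (nat_lit 78) (nat_lit 1520) (nat_lit 0) (XT.lf (nat_lit 0) (nat_lit 2160819311) (nat_lit 1520) (nat_lit 3298458941) (nat_lit 76) (nat_lit 2240164428) (nat_lit 601) (nat_lit 5) (nat_lit 621) (nat_lit 5) (nat_lit 602) (nat_lit 5) (nat_lit 418) (nat_lit 391) (nat_lit 331)) (XT.lf (nat_lit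 0) (nat_lit 1319909450) (nat_lit 1520) (nat_lit 2909069889) (nat_lit 1596) (nat_lit 3526746201) (nat_lit 581) (nat_lit 5) (nat_lit 601) (nat_lit 5) (nat_lit 602) (nat_lit 5) (nat_lit 419) (nat_lit 391) (nat_lit 330))) (XT.nd (nat_lit 78) (nat_lit 1672) (nat_lit 0) (XT.lf (nat_lit 0) (nat_lit 6042904411) (nat_lit 1520) (nat_lit 279112112) (nat_lit 1596) (nat_lit 1491447257) (nat_lit 581) (nat_lit 5) (nat_lit 601) (nat_lit 5) (nat_lit 602) (nat_lit 5) (nat_lit 420) (nat_lit 391) (nat_lit 329)) (XT.nd (nat_lit 78) (nat_lit 0) (nat_lit 0) (XT.lf (nat_lit 0) (nat_lit 573993558) (nat_lit 1672) (nat_lit 4897337185) (nat_lit 76) (nat_lit 2401008084) (nat_lit 559) (nat_lit 5) (nat_lit 581) (nat_lit 5) (nat_lit 560) (nat_lit 5) (nat_lit 421) (nat_lit 391) (nat_lit 328)) (XT.lf (nat_lit 0) (nat_lit 2637060282) (nat_lit 1672) (nat_lit 137380529) (nat_lit 76) (nat_lit 5158227642) (nat_lit 559) (nat_lit 5) (nat_lit 581) (nat_lit 5) (nat_lit 560) (nat_lit 5) (nat_lit 422) (nat_lit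 391) (nat_lit 327)))))) (XT.nd (nat_lit 390) (nat_lit 2736) (nat_lit 0) (XT.nd (nat_lit 156) (nat_lit 3040) (nat_lit 0) (XT.nd (nat_lit 78) (nat_lit 1748) (nat_lit 0) (XT.lf (nat_lit 0) (nat_lit 4735491019) (nat_lit 1748) (nat_lit 3246612989) (nat_lit 76) (nat_lit 12218610) (nat_lit 537) (nat_lit 5) (nat_lit 560) (nat_lit 5) (nat_lit 538) (nat_lit 5) (nat_lit 423) (nat_lit 391) (nat_lit 326)) (XT.lf (nat_lit 0) (nat_lit 1645581617) (nat_lit 1748) (nat_lit 5224032433) (nat_lit 1824) (nat_lit 1187721345) (nat_lit 514) (nat_lit 5) (nat_lit 537) (nat_lit 5) (nat_lit 538) (nat_lit 5) (nat_lit 424) (nat_lit 391) (nat_lit 325))) (XT.nd (nat_lit 78) (nat_lit 2964) (nat_lit 0) (XT.lf (nat_lit 0) (nat_lit 898613178) (nat_lit 1824) (nat_lit 1480748316) (nat_lit 76) (nat_lit 5742408221) (nat_lit 513) (nat_lit 5) (nat_lit 537) (nat_lit 5) (nat_lit 514) (nat_lit 5) (nat_lit 425) (nat_lit 391) (nat_lit 324)) (XT.nd (nat_lit 78) (nat_lit 1140) (nat_lit 0) (XT.lf (nat_lit 0)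 (nat_lit 3002189014) (nat_lit 1900) (nat_lit 4635962265) (nat_lit 76) (nat_lit 549356059) (nat_lit 489) (nat_lit 5) (nat_lit 514) (nat_lit 5) (nat_lit 490) (nat_lit 5) (nat_lit 426) (nat_lit 391) (nat_lit 323)) (XT.lf (nat_lit 0) (nat_lit 406799863) (nat_lit 1140) (nat_lit 4734643720) (nat_lit 1216) (nat_lit 3113243989) (nat_lit 474) (nat_lit 5) (nat_lit 489) (nat_lit 5) (nat_lit 490) (nat_lit 5) (nat_lit 427) (nat_lit 391) (nat_lit 322))))) (XT.nd (nat_lit 156) (nat_lit 1748) (nat_lit 0) (XT.nd (nat_lit 78) (nat_lit 988) (nat_lit 0) (XT.lf (nat_lit 0) (nat_lit 5580567913) (nat_lit 1140) (nat_lit 1739701289) (nat_lit 1216) (nat_lit 1003006486) (nat_lit 474) (nat_lit 5) (nat_lit 489) (nat_lit 5) (nat_lit 490) (nat_lit 5) (nat_lit 428) (nat_lit 391) (nat_lit 321)) (XT.lf (nat_lit 0) (nat_lit 1125141224) (nat_lit 988) (nat_lit 5945312986) (nat_lit 76) (nat_lit 1322816491) (nat_lit 461) (nat_lit 5) (nat_lit 474) (nat_lit 5) (nat_lit 462) (nat_lit 5) (nat_lit 429)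 (nat_lit 391) (nat_lit 320))) (XT.nd (nat_lit 78) (nat_lit 1748) (nat_lit 0) (XT.lf (nat_lit 0) (nat_lit 3279070582) (nat_lit 988) (nat_lit 735930475) (nat_lit 76) (nat_lit 4449598979) (nat_lit 461) (nat_lit 5) (nat_lit 474) (nat_lit 5) (nat_lit 462) (nat_lit 5) (nat_lit 430) (nat_lit 391) (nat_lit 319)) (XT.nd (nat_lit 78) (nat_lit 836) (nat_lit 0) (XT.lf (nat_lit 0) (nat_lit 4605728873) (nat_lit 912) (nat_lit 867496527) (nat_lit 988) (nat_lit 3064187622) (nat_lit 449) (nat_lit 5) (nat_lit 461) (nat_lit 5) (nat_lit 462) (nat_lit 5) (nat_lit 431) (nat_lit 391) (nat_lit 318)) (XT.lf (nat_lit 0) (nat_lit 1423284481) (nat_lit 836) (nat_lit 6285081667) (nat_lit 912) (nat_lit 903374062) (nat_lit 438) (nat_lit 5) (nat_lit 449) (nat_lit 5) (nat_lit 450) (nat_lit 5) (nat_lit 432) (nat_lit 391) (nat_lit 317))))))))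
noncomputable def xc78 : XT := (XT.nd (nat_lit 1482) (nat_lit 4864) (nat_lit 0) (XT.nd (nat_lit 702) (nat_lit 5016) (nat_lit 0) (XT.nd (nat_lit 312) (nat_lit 2508) (nat_lit 0) (XT.nd (nat_lit 156) (nat_lit 836) (nat_lit 0) (XT.nd (nat_lit 78) (nat_lit 912) (nat_lit 0) (XT.lf (nat_lit 0) (nat_lit 1283790800) (nat_lit 912) (nat_lit 1795705536) (nat_lit 76) (nat_lit 5607884844) (nat_lit 437) (nat_lit 5) (nat_lit 449) (nat_lit 5) (nat_lit 438) (nat_lit 5) (nat_lit 433) (nat_lit 391) (nat_lit 316)) (XT.lf (nat_lit 0) (nat_lit 3496684889) (nat_lit 988) (nat_lit 5050663074) (nat_lit 76) (nat_lit 217185939) (nat_lit 425) (nat_lit 5) (nat_lit 438) (nat_lit 5) (nat_lit 426) (nat_lit 5) (nat_lit 434) (nat_lit 391) (nat_lit 315))) (XT.nd (nat_lit 78) (nat_lit 0) (nat_lit 0) (XT.lf (nat_lit 0) (nat_lit 467936442) (nat_lit 836) (nat_lit 5290384214) (nat_lit 912) (nat_lit 3084819345) (nat_lit 414) (nat_lit 5) (nat_lit 425) (nat_lit 5) (nat_lit 426) (nat_lit 5) (nat_lit 435)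 (nat_lit 391) (nat_lit 314)) (XT.lf (nat_lit 0) (nat_lit 6132868150) (nat_lit 836) (nat_lit 1935533642) (nat_lit 912) (nat_lit 854852178) (nat_lit 414) (nat_lit 5) (nat_lit 425) (nat_lit 5) (nat_lit 426) (nat_lit 5) (nat_lit 436) (nat_lit 391) (nat_lit 313)))) (XT.nd (nat_lit 156) (nat_lit 1596) (nat_lit 0) (XT.nd (nat_lit 78) (nat_lit 0) (nat_lit 0) (XT.lf (nat_lit 0) (nat_lit 1399486991) (nat_lit 912) (nat_lit 6112125996) (nat_lit 76) (nat_lit 1493205027) (nat_lit 402) (nat_lit 5) (nat_lit 414) (nat_lit 5) (nat_lit 403) (nat_lit 5) (nat_lit 437) (nat_lit 391) (nat_lit 312)) (XT.lf (nat_lit 0) (nat_lit 3689238164) (nat_lit 912) (nat_lit 411625825) (nat_lit 76) (nat_lit 4987000905) (nat_lit 402) (nat_lit 5) (nat_lit 414) (nat_lit 5) (nat_lit 403) (nat_lit 5) (nat_lit 438) (nat_lit 391) (nat_lit 311))) (XT.nd (nat_lit 78) (nat_lit 836) (nat_lit 0) (XT.lf (nat_lit 0) (nat_lit 5442261139) (nat_lit 760) (nat_lit 588538306) (nat_lit 836) (nat_lit 3141652966) (nat_lit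 392) (nat_lit 5) (nat_lit 402) (nat_lit 5) (nat_lit 403) (nat_lit 5) (nat_lit 439) (nat_lit 391) (nat_lit 310)) (XT.nd (nat_lit 78) (nat_lit 76) (nat_lit 0) (XT.lf (nat_lit 0) (nat_lit 2136340530) (nat_lit 760) (nat_lit 6289972127) (nat_lit 836) (nat_lit 832276606) (nat_lit 382) (nat_lit 5) (nat_lit 392) (nat_lit 5) (nat_lit 393) (nat_lit 5) (nat_lit 440) (nat_lit 391) (nat_lit 309)) (XT.lf (nat_lit 0) (nat_lit 1503604317) (nat_lit 836) (nat_lit 1221654523) (nat_lit 76) (nat_lit 6620986304) (nat_lit 381) (nat_lit 5) (nat_lit 392) (nat_lit 5) (nat_lit 382) (nat_lit 5) (nat_lit 441) (nat_lit 391) (nat_lit 308)))))) (XT.nd (nat_lit 390) (nat_lit 2052) (nat_lit 0) (XT.nd (nat_lit 156) (nat_lit 1444) (nat_lit 0) (XT.nd (nat_lit 78) (nat_lit 760) (nat_lit 0) (XT.lf (nat_lit 0) (nat_lit 3884280353) (nat_lit 836) (nat_lit 4618805692) (nat_lit 76) (nat_lit 932273636) (nat_lit 371) (nat_lit 5) (nat_lit 382) (nat_lit 5) (nat_lit 372) (nat_lit 5) (nat_lit 442) (nat_lit 391)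 (nat_lit 307)) (XT.lf (nat_lit 0) (nat_lit 1434500125) (nat_lit 760) (nat_lit 4885772234) (nat_lit 836) (nat_lit 3205830101) (nat_lit 361) (nat_lit 5) (nat_lit 371) (nat_lit 5) (nat_lit 372) (nat_lit 5) (nat_lit 443) (nat_lit 391) (nat_lit 306))) (XT.nd (nat_lit 78) (nat_lit 1444) (nat_lit 0) (XT.lf (nat_lit 0) (nat_lit 7639487856) (nat_lit 760) (nat_lit 1168918948) (nat_lit 836) (nat_lit 810184840) (nat_lit 361) (nat_lit 5) (nat_lit 371) (nat_lit 5) (nat_lit 372) (nat_lit 5) (nat_lit 444) (nat_lit 391) (nat_lit 305)) (XT.nd (nat_lit 78) (nat_lit 684) (nat_lit 0) (XT.lf (nat_lit 0) (nat_lit 1629710091) (nat_lit 760) (nat_lit 5460653472) (nat_lit 76) (nat_lit 2621999774) (nat_lit 351) (nat_lit 5) (nat_lit 361) (nat_lit 5) (nat_lit 352) (nat_lit 5) (nat_lit 445) (nat_lit 391) (nat_lit 304)) (XT.lf (nat_lit 0) (nat_lit 791380302) (nat_lit 684) (nat_lit 3315520894) (nat_lit 760) (nat_lit 5701015228) (nat_lit 342) (nat_lit 5) (nat_lit 351) (nat_lit 5) (nat_lit 352)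 (nat_lit 5) (nat_lit 446) (nat_lit 391) (nat_lit 303))))) (XT.nd (nat_lit 156) (nat_lit 1368) (nat_lit 0) (XT.nd (nat_lit 78) (nat_lit 684) (nat_lit 0) (XT.lf (nat_lit 0) (nat_lit 6647370621) (nat_lit 760) (nat_lit 2698201015) (nat_lit 76) (nat_lit 559534248) (nat_lit 342) (nat_lit 5) (nat_lit 352) (nat_lit 5) (nat_lit 343) (nat_lit 5) (nat_lit 447) (nat_lit 391) (nat_lit 302)) (XT.lf (nat_lit 0) (nat_lit 3741939922) (nat_lit 684) (nat_lit 5516859370) (nat_lit 760) (nat_lit 745036843) (nat_lit 333) (nat_lit 5) (nat_lit 342) (nat_lit 5) (nat_lit 343) (nat_lit 5) (nat_lit 448) (nat_lit 391) (nat_lit 301))) (XT.nd (nat_lit 78) (nat_lit 608) (nat_lit 0) (XT.lf (nat_lit 0) (nat_lit 202191751) (nat_lit 684) (nat_lit 1585454786) (nat_lit 760) (nat_lit 8316786926) (nat_lit 323) (nat_lit 5) (nat_lit 332) (nat_lit 5) (nat_lit 333) (nat_lit 5) (nat_lit 449) (nat_lit 391) (nat_lit 300)) (XT.nd (nat_lit 78) (nat_lit 608) (nat_lit 0) (XT.lf (nat_lit 0) (nat_lit 4393357315)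 (nat_lit 760) (nat_lit 3378795427) (nat_lit 76) (nat_lit 2434144507) (nat_lit 323) (nat_lit 5) (nat_lit 333) (nat_lit 5) (nat_lit 324) (nat_lit 5) (nat_lit 450) (nat_lit 391) (nat_lit 299)) (XT.lf (nat_lit 0) (nat_lit 3276134273) (nat_lit 608) (nat_lit 3781622079) (nat_lit 684) (nat_lit 3252310478) (nat_lit 315) (nat_lit 5) (nat_lit 323) (nat_lit 5) (nat_lit 324) (nat_lit 5) (nat_lit 451) (nat_lit 391) (nat_lit 298))))))) (XT.nd (nat_lit 702) (nat_lit 1216) (nat_lit 0) (XT.nd (nat_lit 312) (nat_lit 2356) (nat_lit 0) (XT.nd (nat_lit 156) (nat_lit 608) (nat_lit 0) (XT.nd (nat_lit 78) (nat_lit 684) (nat_lit 0) (XT.lf (nat_lit 0) (nat_lit 9775195094) (nat_lit 684) (nat_lit 339222929) (nat_lit 76) (nat_lit 301498745) (nat_lit 315) (nat_lit 5) (nat_lit 324) (nat_lit 5) (nat_lit 316) (nat_lit 5) (nat_lit 452) (nat_lit 391) (nat_lit 297)) (XT.lf (nat_lit 0) (nat_lit 2039760345) (nat_lit 684) (nat_lit 4017694636) (nat_lit 76) (nat_lit 4465302122) (nat_lit 306) (nat_lit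 5) (nat_lit 315) (nat_lit 5) (nat_lit 307) (nat_lit 5) (nat_lit 453) (nat_lit 391) (nat_lit 296))) (XT.nd (nat_lit 78) (nat_lit 0) (nat_lit 0) (XT.lf (nat_lit 0) (nat_lit 2861209878) (nat_lit 608) (nat_lit 1900600822) (nat_lit 684) (nat_lit 5869908082) (nat_lit 298) (nat_lit 5) (nat_lit 306) (nat_lit 5) (nat_lit 307) (nat_lit 5) (nat_lit 454) (nat_lit 391) (nat_lit 295)) (XT.lf (nat_lit 0) (nat_lit 7556522930) (nat_lit 684) (nat_lit 856965731) (nat_lit 76) (nat_lit 2329006617) (nat_lit 298) (nat_lit 5) (nat_lit 307) (nat_lit 5) (nat_lit 299) (nat_lit 5) (nat_lit 455) (nat_lit 391) (nat_lit 294)))) (XT.nd (nat_lit 156) (nat_lit 1140) (nat_lit 0) (XT.nd (nat_lit 78) (nat_lit 608) (nat_lit 0) (XT.lf (nat_lit 0) (nat_lit 6233196110) (nat_lit 608) (nat_lit 4203355389) (nat_lit 684) (nat_lit 418347363) (nat_lit 290) (nat_lit 5) (nat_lit 298) (nat_lit 5) (nat_lit 299) (nat_lit 5) (nat_lit 456) (nat_lit 391) (nat_lit 293)) (XT.lf (nat_lit 0) (nat_lit 2372337794) (nat_lit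 608) (nat_lit 8476591797) (nat_lit 76) (nat_lit 120323781) (nat_lit 282) (nat_lit 5) (nat_lit 290) (nat_lit 5) (nat_lit 283) (nat_lit 5) (nat_lit 457) (nat_lit 391) (nat_lit 292))) (XT.nd (nat_lit 78) (nat_lit 1140) (nat_lit 0) (XT.lf (nat_lit 0) (nat_lit 5248985037) (nat_lit 608) (nat_lit 1335264004) (nat_lit 76) (nat_lit 4500875624) (nat_lit 282) (nat_lit 5) (nat_lit 290) (nat_lit 5) (nat_lit 283) (nat_lit 5) (nat_lit 458) (nat_lit 391) (nat_lit 291)) (XT.nd (nat_lit 78) (nat_lit 532) (nat_lit 0) (XT.lf (nat_lit 0) (nat_lit 5997014614) (nat_lit 608) (nat_lit 2202232871) (nat_lit 684) (nat_lit 3003744254) (nat_lit 274) (nat_lit 5) (nat_lit 282) (nat_lit 5) (nat_lit 283) (nat_lit 5) (nat_lit 459) (nat_lit 391) (nat_lit 290)) (XT.lf (nat_lit 0) (nat_lit 2153738694) (nat_lit 532) (nat_lit 9069848011) (nat_lit 608) (nat_lit 99328020) (nat_lit 267) (nat_lit 5) (nat_lit 274) (nat_lit 5) (nat_lit 275) (nat_lit 5) (nat_lit 460) (nat_lit 391) (nat_lit 289)))))) (XT.nd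 (nat_lit 54054) (nat_lit 0) (nat_lit 36100) (XT.nd (nat_lit 156) (nat_lit 608) (nat_lit 0) (XT.nd (nat_lit 78) (nat_lit 532) (nat_lit 0) (XT.lf (nat_lit 0) (nat_lit 2852820318) (nat_lit 608) (nat_lit 1777551893) (nat_lit 76) (nat_lit 6813948268) (nat_lit 266) (nat_lit 5) (nat_lit 274) (nat_lit 5) (nat_lit 267) (nat_lit 5) (nat_lit 461) (nat_lit 391) (nat_lit 288)) (XT.lf (nat_lit 0) (nat_lit 5807187350) (nat_lit 532) (nat_lit 71086225) (nat_lit 608) (nat_lit 5689555805) (nat_lit 259) (nat_lit 5) (nat_lit 266) (nat_lit 5) (nat_lit 267) (nat_lit 5) (nat_lit 462) (nat_lit 391) (nat_lit 287))) (XT.nd (nat_lit 78) (nat_lit 76) (nat_lit 0) (XT.lf (nat_lit 0) (nat_lit 1838033766) (nat_lit 532) (nat_lit 7157947937) (nat_lit 608) (nat_lit 2697191838) (nat_lit 252) (nat_lit 5) (nat_lit 259) (nat_lit 5) (nat_lit 260) (nat_lit 5) (nat_lit 463) (nat_lit 391) (nat_lit 286)) (XT.nd (nat_lit 53742) (nat_lit 0) (nat_lit 37848) (XT.lf (nat_lit 0) (nat_lit 367909497) (nat_lit 608)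 (nat_lit 2187010951) (nat_lit 76) (nat_lit 9265707113) (nat_lit 251) (nat_lit 5) (nat_lit 259) (nat_lit 5) (nat_lit 252) (nat_lit 5) (nat_lit 464) (nat_lit 391) (nat_lit 285)) (XT.lf (nat_lit 0) (nat_lit 3038190589) (nat_lit 836) (nat_lit 159717919) (nat_lit 836) (nat_lit 159717919) (nat_lit 749) (nat_lit 3) (nat_lit 760) (nat_lit 3) (nat_lit 760) (nat_lit 5) (nat_lit 392) (nat_lit 392) (nat_lit 356))))) (XT.nd (nat_lit 156) (nat_lit 912) (nat_lit 0) (XT.nd (nat_lit 78) (nat_lit 0) (nat_lit 0) (XT.lf (nat_lit 0) (nat_lit 1565471419) (nat_lit 836) (nat_lit 3670382387) (nat_lit 912) (nat_lit 1502589986) (nat_lit 738) (nat_lit 5) (nat_lit 749) (nat_lit 3) (nat_lit 750) (nat_lit 5) (nat_lit 393) (nat_lit 392) (nat_lit 355)) (XT.lf (nat_lit 0) (nat_lit 3750082068) (nat_lit 836) (nat_lit 268810395) (nat_lit 912) (nat_lit 2744226921) (nat_lit 738) (nat_lit 5) (nat_lit 749) (nat_lit 3) (nat_lit 750) (nat_lit 5) (nat_lit 394) (nat_lit 392) (nat_lit 354))) (XT.nd (nat_lit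 78) (nat_lit 912) (nat_lit 0) (XT.lf (nat_lit 76) (nat_lit 3213380015) (nat_lit 0) (nat_lit 2729563804) (nat_lit 912) (nat_lit 846053490) (nat_lit 739) (nat_lit 5) (nat_lit 738) (nat_lit 5) (nat_lit 750) (nat_lit 5) (nat_lit 395) (nat_lit 392) (nat_lit 353)) (XT.nd (nat_lit 78) (nat_lit 0) (nat_lit 76) (XT.lf (nat_lit 0) (nat_lit 1292435206) (nat_lit 912) (nat_lit 85471996) (nat_lit 988) (nat_lit 5438387280) (nat_lit 726) (nat_lit 5) (nat_lit 738) (nat_lit 5) (nat_lit 739) (nat_lit 5) (nat_lit 396) (nat_lit 392) (nat_lit 352)) (XT.lf (nat_lit 0) (nat_lit 3430693643) (nat_lit 912) (nat_lit 3359954483) (nat_lit 988) (nat_lit 54011051) (nat_lit 727) (nat_lit 5) (nat_lit 739) (nat_lit 5) (nat_lit 740) (nat_lit 5) (nat_lit 397) (nat_lit 392) (nat_lit 351))))))))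
noncomputable def xc79 : XT := (XT.nd (nat_lit 1482) (nat_lit 15732) (nat_lit 0) (XT.nd (nat_lit 702) (nat_lit 5016) (nat_lit 0) (XT.nd (nat_lit 312) (nat_lit 2052) (nat_lit 0) (XT.nd (nat_lit 156) (nat_lit 0) (nat_lit 0) (XT.nd (nat_lit 78) (nat_lit 988) (nat_lit 0) (XT.lf (nat_lit 76) (nat_lit 217027478) (nat_lit 0) (nat_lit 5352177092) (nat_lit 988) (nat_lit 1305236850) (nat_lit 728) (nat_lit 5) (nat_lit 727) (nat_lit 5) (nat_lit 740) (nat_lit 5) (nat_lit 398) (nat_lit 392) (nat_lit 350)) (XT.lf (nat_lit 0) (nat_lit 804152303) (nat_lit 988) (nat_lit 3029972766) (nat_lit 1064) (nat_lit 3071192887) (nat_lit 714) (nat_lit 5) (nat_lit 727) (nat_lit 5) (nat_lit 728) (nat_lit 5) (nat_lit 399) (nat_lit 392) (nat_lit 349))) (XT.nd (nat_lit 78) (nat_lit 0) (nat_lit 0) (XT.lf (nat_lit 76) (nat_lit 639308314) (nat_lit 0) (nat_lit 2251033091) (nat_lit 1064) (nat_lit 4047256280) (nat_lit 715) (nat_lit 5) (nat_lit 714) (nat_lit 5) (nat_lit 728) (nat_lit 5) (nat_lit 400)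 (nat_lit 392) (nat_lit 348)) (XT.lf (nat_lit 76) (nat_lit 4392797813) (nat_lit 0) (nat_lit 594536062) (nat_lit 1064) (nat_lit 1983807541) (nat_lit 715) (nat_lit 5) (nat_lit 714) (nat_lit 5) (nat_lit 728) (nat_lit 5) (nat_lit 401) (nat_lit 392) (nat_lit 347)))) (XT.nd (nat_lit 156) (nat_lit 1064) (nat_lit 0) (XT.nd (nat_lit 78) (nat_lit 0) (nat_lit 0) (XT.lf (nat_lit 0) (nat_lit 83837168) (nat_lit 1064) (nat_lit 5812860179) (nat_lit 1140) (nat_lit 1109352721) (nat_lit 701) (nat_lit 5) (nat_lit 715) (nat_lit 5) (nat_lit 716) (nat_lit 5) (nat_lit 402) (nat_lit 392) (nat_lit 346)) (XT.lf (nat_lit 0) (nat_lit 2137993223) (nat_lit 1064) (nat_lit 2014648517) (nat_lit 1140) (nat_lit 2889318458) (nat_lit 701) (nat_lit 5) (nat_lit 715) (nat_lit 5) (nat_lit 716) (nat_lit 5) (nat_lit 403) (nat_lit 392) (nat_lit 345))) (XT.nd (nat_lit 78) (nat_lit 1064) (nat_lit 0) (XT.lf (nat_lit 76) (nat_lit 1853192983) (nat_lit 0) (nat_lit 2343388097) (nat_lit 1140) (nat_lit 2882740478)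 (nat_lit 702) (nat_lit 5) (nat_lit 701) (nat_lit 5) (nat_lit 716) (nat_lit 5) (nat_lit 404) (nat_lit 392) (nat_lit 344)) (XT.nd (nat_lit 78) (nat_lit 1064) (nat_lit 0) (XT.lf (nat_lit 76) (nat_lit 5795262628) (nat_lit 0) (nat_lit 466670898) (nat_lit 1140) (nat_lit 856184763) (nat_lit 702) (nat_lit 5) (nat_lit 701) (nat_lit 5) (nat_lit 716) (nat_lit 5) (nat_lit 405) (nat_lit 392) (nat_lit 343)) (XT.lf (nat_lit 0) (nat_lit 1174634886) (nat_lit 1140) (nat_lit 4512837420) (nat_lit 1216) (nat_lit 1470469129) (nat_lit 687) (nat_lit 5) (nat_lit 702) (nat_lit 5) (nat_lit 703) (nat_lit 5) (nat_lit 406) (nat_lit 392) (nat_lit 342)))))) (XT.nd (nat_lit 390) (nat_lit 3876) (nat_lit 0) (XT.nd (nat_lit 156) (nat_lit 1140) (nat_lit 0) (XT.nd (nat_lit 78) (nat_lit 0) (nat_lit 0) (XT.lf (nat_lit 0) (nat_lit 3200182459) (nat_lit 1140) (nat_lit 528154606) (nat_lit 1216) (nat_lit 3470799274) (nat_lit 687) (nat_lit 5) (nat_lit 702) (nat_lit 5) (nat_lit 703) (nat_lit 5) (nat_lit 407)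 (nat_lit 392) (nat_lit 341)) (XT.lf (nat_lit 76) (nat_lit 3552116127) (nat_lit 0) (nat_lit 1691637300) (nat_lit 1216) (nat_lit 1997851465) (nat_lit 688) (nat_lit 5) (nat_lit 687) (nat_lit 5) (nat_lit 703) (nat_lit 5) (nat_lit 408) (nat_lit 392) (nat_lit 340))) (XT.nd (nat_lit 78) (nat_lit 0) (nat_lit 0) (XT.lf (nat_lit 0) (nat_lit 6424126) (nat_lit 1216) (nat_lit 6878049226) (nat_lit 1292) (nat_lit 401169472) (nat_lit 672) (nat_lit 5) (nat_lit 688) (nat_lit 5) (nat_lit 689) (nat_lit 5) (nat_lit 409) (nat_lit 392) (nat_lit 339)) (XT.nd (nat_lit 78) (nat_lit 0) (nat_lit 0) (XT.lf (nat_lit 0) (nat_lit 2015805133) (nat_lit 1216) (nat_lit 2749897892) (nat_lit 1292) (nat_lit 2564758950) (nat_lit 672) (nat_lit 5) (nat_lit 688) (nat_lit 5) (nat_lit 689) (nat_lit 5) (nat_lit 410) (nat_lit 392) (nat_lit 338)) (XT.lf (nat_lit 76) (nat_lit 1448576092) (nat_lit 0) (nat_lit 2582693822) (nat_lit 1292) (nat_lit 3345589674) (nat_lit 673) (nat_lit 5) (nat_lit 672) (nat_lit 5)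 (nat_lit 689) (nat_lit 5) (nat_lit 411) (nat_lit 392) (nat_lit 337))))) (XT.nd (nat_lit 156) (nat_lit 2660) (nat_lit 0) (XT.nd (nat_lit 78) (nat_lit 1216) (nat_lit 0) (XT.lf (nat_lit 76) (nat_lit 5737261954) (nat_lit 0) (nat_lit 325377964) (nat_lit 1292) (nat_lit 1362033315) (nat_lit 673) (nat_lit 5) (nat_lit 672) (nat_lit 5) (nat_lit 689) (nat_lit 5) (nat_lit 412) (nat_lit 392) (nat_lit 336)) (XT.lf (nat_lit 0) (nat_lit 640404033) (nat_lit 1292) (nat_lit 4849321333) (nat_lit 76) (nat_lit 1983874297) (nat_lit 656) (nat_lit 5) (nat_lit 673) (nat_lit 5) (nat_lit 657) (nat_lit 5) (nat_lit 413) (nat_lit 392) (nat_lit 335))) (XT.nd (nat_lit 78) (nat_lit 2660) (nat_lit 0) (XT.lf (nat_lit 0) (nat_lit 2636627641) (nat_lit 1292) (nat_lit 521139908) (nat_lit 76) (nat_lit 4366117508) (nat_lit 656) (nat_lit 5) (nat_lit 673) (nat_lit 5) (nat_lit 657) (nat_lit 5) (nat_lit 414) (nat_lit 392) (nat_lit 334)) (XT.nd (nat_lit 78) (nat_lit 1368) (nat_lit 0) (XT.lf (nat_lit 0) (nat_lit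 3913870679) (nat_lit 1292) (nat_lit 743536939) (nat_lit 1368) (nat_lit 2918075903) (nat_lit 639) (nat_lit 5) (nat_lit 656) (nat_lit 5) (nat_lit 657) (nat_lit 5) (nat_lit 415) (nat_lit 392) (nat_lit 333)) (XT.lf (nat_lit 0) (nat_lit 783974394) (nat_lit 1368) (nat_lit 5914280098) (nat_lit 1444) (nat_lit 930266436) (nat_lit 621) (nat_lit 5) (nat_lit 639) (nat_lit 5) (nat_lit 640) (nat_lit 5) (nat_lit 416) (nat_lit 392) (nat_lit 332))))))) (XT.nd (nat_lit 780) (nat_lit 5700) (nat_lit 0) (XT.nd (nat_lit 390) (nat_lit 5320) (nat_lit 0) (XT.nd (nat_lit 156) (nat_lit 3192) (nat_lit 0) (XT.nd (nat_lit 78) (nat_lit 1444) (nat_lit 0) (XT.lf (nat_lit 0) (nat_lit 1072766485) (nat_lit 1444) (nat_lit 2358276872) (nat_lit 76) (nat_lit 4251636069) (nat_lit 620) (nat_lit 5) (nat_lit 639) (nat_lit 5) (nat_lit 621) (nat_lit 5) (nat_lit 417) (nat_lit 392) (nat_lit 331)) (XT.lf (nat_lit 0) (nat_lit 2209113225) (nat_lit 1444) (nat_lit 869626012) (nat_lit 1520) (nat_lit 4659552166)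 (nat_lit 601) (nat_lit 5) (nat_lit 620) (nat_lit 5) (nat_lit 621) (nat_lit 5) (nat_lit 418) (nat_lit 392) (nat_lit 330))) (XT.nd (nat_lit 78) (nat_lit 3192) (nat_lit 0) (XT.lf (nat_lit 0) (nat_lit 5113668627) (nat_lit 1520) (nat_lit 938329230) (nat_lit 76) (nat_lit 1743241019) (nat_lit 601) (nat_lit 5) (nat_lit 621) (nat_lit 5) (nat_lit 602) (nat_lit 5) (nat_lit 419) (nat_lit 392) (nat_lit 329)) (XT.nd (nat_lit 78) (nat_lit 1672) (nat_lit 0) (XT.lf (nat_lit 0) (nat_lit 3756445353) (nat_lit 1520) (nat_lit 3425343090) (nat_lit 1596) (nat_lit 671687019) (nat_lit 581) (nat_lit 5) (nat_lit 601) (nat_lit 5) (nat_lit 602) (nat_lit 5) (nat_lit 420) (nat_lit 392) (nat_lit 328)) (XT.lf (nat_lit 0) (nat_lit 612436245) (nat_lit 1596) (nat_lit 720827874) (nat_lit 1672) (nat_lit 6579974708) (nat_lit 559) (nat_lit 5) (nat_lit 580) (nat_lit 5) (nat_lit 581) (nat_lit 5) (nat_lit 421) (nat_lit 392) (nat_lit 327))))) (XT.nd (nat_lit 156) (nat_lit 3648) (nat_lit 0) (XT.nd (nat_lit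 78) (nat_lit 1672) (nat_lit 0) (XT.lf (nat_lit 0) (nat_lit 3373431188) (nat_lit 1672) (nat_lit 2552132060) (nat_lit 76) (nat_lit 2048463200) (nat_lit 559) (nat_lit 5) (nat_lit 581) (nat_lit 5) (nat_lit 560) (nat_lit 5) (nat_lit 422) (nat_lit 392) (nat_lit 326)) (XT.lf (nat_lit 0) (nat_lit 2285088131) (nat_lit 1672) (nat_lit 3152841585) (nat_lit 1748) (nat_lit 2598429542) (nat_lit 537) (nat_lit 5) (nat_lit 559) (nat_lit 5) (nat_lit 560) (nat_lit 5) (nat_lit 423) (nat_lit 392) (nat_lit 325))) (XT.nd (nat_lit 78) (nat_lit 3648) (nat_lit 0) (XT.lf (nat_lit 0) (nat_lit 7222236182) (nat_lit 1672) (nat_lit 303029844) (nat_lit 1748) (nat_lit 575041741) (nat_lit 537) (nat_lit 5) (nat_lit 559) (nat_lit 5) (nat_lit 560) (nat_lit 5) (nat_lit 424) (nat_lit 392) (nat_lit 324)) (XT.nd (nat_lit 78) (nat_lit 1824) (nat_lit 0) (XT.lf (nat_lit 0) (nat_lit 1478002705) (nat_lit 1824) (nat_lit 4077174054) (nat_lit 76) (nat_lit 2609990863) (nat_lit 513) (nat_lit 5) (nat_lit 537) (nat_lit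 5) (nat_lit 514) (nat_lit 5) (nat_lit 425) (nat_lit 392) (nat_lit 323)) (XT.lf (nat_lit 0) (nat_lit 908362899) (nat_lit 1824) (nat_lit 2635286663) (nat_lit 1900) (nat_lit 4688014264) (nat_lit 489) (nat_lit 5) (nat_lit 513) (nat_lit 5) (nat_lit 514) (nat_lit 5) (nat_lit 426) (nat_lit 392) (nat_lit 322)))))) (XT.nd (nat_lit 390) (nat_lit 2660) (nat_lit 0) (XT.nd (nat_lit 156) (nat_lit 1900) (nat_lit 0) (XT.nd (nat_lit 78) (nat_lit 1140) (nat_lit 0) (XT.lf (nat_lit 0) (nat_lit 5646265989) (nat_lit 1900) (nat_lit 2284735440) (nat_lit 76) (nat_lit 368575393) (nat_lit 489) (nat_lit 5) (nat_lit 514) (nat_lit 5) (nat_lit 490) (nat_lit 5) (nat_lit 427) (nat_lit 392) (nat_lit 321)) (XT.lf (nat_lit 0) (nat_lit 2842803338) (nat_lit 1140) (nat_lit 4950598319) (nat_lit 1216) (nat_lit 575397081) (nat_lit 474) (nat_lit 5) (nat_lit 489) (nat_lit 5) (nat_lit 490) (nat_lit 5) (nat_lit 428) (nat_lit 392) (nat_lit 320))) (XT.nd (nat_lit 78) (nat_lit 1824) (nat_lit 0) (XT.lf (nat_lit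 0) (nat_lit 1506048001) (nat_lit 1216) (nat_lit 377224983) (nat_lit 76) (nat_lit 6556287128) (nat_lit 473) (nat_lit 5) (nat_lit 489) (nat_lit 5) (nat_lit 474) (nat_lit 5) (nat_lit 429) (nat_lit 392) (nat_lit 319)) (XT.nd (nat_lit 78) (nat_lit 912) (nat_lit 0) (XT.lf (nat_lit 0) (nat_lit 3629035597) (nat_lit 988) (nat_lit 3616219358) (nat_lit 76) (nat_lit 1266253328) (nat_lit 461) (nat_lit 5) (nat_lit 474) (nat_lit 5) (nat_lit 462) (nat_lit 5) (nat_lit 430) (nat_lit 392) (nat_lit 318)) (XT.lf (nat_lit 0) (nat_lit 1671269808) (nat_lit 912) (nat_lit 4116969990) (nat_lit 988) (nat_lit 2796780483) (nat_lit 449) (nat_lit 5) (nat_lit 461) (nat_lit 5) (nat_lit 462) (nat_lit 5) (nat_lit 431) (nat_lit 392) (nat_lit 317))))) (XT.nd (nat_lit 156) (nat_lit 1748) (nat_lit 0) (XT.nd (nat_lit 78) (nat_lit 912) (nat_lit 0) (XT.lf (nat_lit 0) (nat_lit 7082053867) (nat_lit 912) (nat_lit 901152007) (nat_lit 988) (nat_lit 676945089) (nat_lit 449) (nat_lit 5) (nat_lit 461) (nat_lit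 5) (nat_lit 462) (nat_lit 5) (nat_lit 432) (nat_lit 392) (nat_lit 316)) (XT.lf (nat_lit 0) (nat_lit 1475363895) (nat_lit 912) (nat_lit 4878226100) (nat_lit 76) (nat_lit 2382810261) (nat_lit 437) (nat_lit 5) (nat_lit 449) (nat_lit 5) (nat_lit 438) (nat_lit 5) (nat_lit 433) (nat_lit 392) (nat_lit 315))) (XT.nd (nat_lit 78) (nat_lit 836) (nat_lit 0) (XT.lf (nat_lit 0) (nat_lit 575949857) (nat_lit 912) (nat_lit 3075217548) (nat_lit 988) (nat_lit 5163127383) (nat_lit 425) (nat_lit 5) (nat_lit 437) (nat_lit 5) (nat_lit 438) (nat_lit 5) (nat_lit 434) (nat_lit 392) (nat_lit 314)) (XT.nd (nat_lit 78) (nat_lit 836) (nat_lit 0) (XT.lf (nat_lit 0) (nat_lit 5874715041) (nat_lit 988) (nat_lit 2721795631) (nat_lit 76) (nat_lit 297151978) (nat_lit 425) (nat_lit 5) (nat_lit 438) (nat_lit 5) (nat_lit 426) (nat_lit 5) (nat_lit 435) (nat_lit 392) (nat_lit 313)) (XT.lf (nat_lit 0) (nat_lit 2891189818) (nat_lit 836) (nat_lit 5260809518) (nat_lit 912) (nat_lit 822433220) (nat_lit 414)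 (nat_lit 5) (nat_lit 425) (nat_lit 5) (nat_lit 426) (nat_lit 5) (nat_lit 436) (nat_lit 392) (nat_lit 312))))))))
noncomputable def xc80 : XT := (XT.nd (nat_lit 1482) (nat_lit 3496) (nat_lit 0) (XT.nd (nat_lit 702) (nat_lit 4028) (nat_lit 0) (XT.nd (nat_lit 312) (nat_lit 3116) (nat_lit 0) (XT.nd (nat_lit 156) (nat_lit 760) (nat_lit 0) (XT.nd (nat_lit 78) (nat_lit 836) (nat_lit 0) (XT.lf (nat_lit 0) (nat_lit 1388115717) (nat_lit 912) (nat_lit 444085786) (nat_lit 76) (nat_lit 7224658189) (nat_lit 413) (nat_lit 5) (nat_lit 425) (nat_lit 5) (nat_lit 414) (nat_lit 5) (nat_lit 437) (nat_lit 392) (nat_lit 311)) (XT.lf (nat_lit 0) (nat_lit 3648515361) (nat_lit 912) (nat_lit 3810331500) (nat_lit 76) (nat_lit 1681646741) (nat_lit 402) (nat_lit 5) (nat_lit 414) (nat_lit 5) (nat_lit 403) (nat_lit 5) (nat_lit 438) (nat_lit 392) (nat_lit 310))) (XT.nd (nat_lit 78) (nat_lit 0) (nat_lit 0) (XT.lf (nat_lit 0) (nat_lit 1982651365) (nat_lit 760) (nat_lit 3970733103) (nat_lit 836)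 (nat_lit 3272430494) (nat_lit 392) (nat_lit 5) (nat_lit 402) (nat_lit 5) (nat_lit 403) (nat_lit 5) (nat_lit 439) (nat_lit 392) (nat_lit 309)) (XT.lf (nat_lit 0) (nat_lit 7911978326) (nat_lit 760) (nat_lit 389558448) (nat_lit 836) (nat_lit 1011362258) (nat_lit 392) (nat_lit 5) (nat_lit 402) (nat_lit 5) (nat_lit 403) (nat_lit 5) (nat_lit 440) (nat_lit 392) (nat_lit 308)))) (XT.nd (nat_lit 156) (nat_lit 1520) (nat_lit 0) (XT.nd (nat_lit 78) (nat_lit 760) (nat_lit 0) (XT.lf (nat_lit 0) (nat_lit 1301082790) (nat_lit 836) (nat_lit 4844057372) (nat_lit 76) (nat_lit 3255953697) (nat_lit 381) (nat_lit 5) (nat_lit 392) (nat_lit 5) (nat_lit 382) (nat_lit 5) (nat_lit 441) (nat_lit 392) (nat_lit 307)) (XT.lf (nat_lit 0) (nat_lit 1136588130) (nat_lit 760) (nat_lit 2501400269) (nat_lit 836) (nat_lit 5853095407) (nat_lit 371) (nat_lit 5) (nat_lit 381) (nat_lit 5) (nat_lit 382) (nat_lit 5) (nat_lit 442) (nat_lit 392) (nat_lit 306))) (XT.nd (nat_lit 78) (nat_lit 1520) (nat_lit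 0) (XT.lf (nat_lit 0) (nat_lit 6034879248) (nat_lit 836) (nat_lit 2319393397) (nat_lit 76) (nat_lit 1228335964) (nat_lit 371) (nat_lit 5) (nat_lit 382) (nat_lit 5) (nat_lit 372) (nat_lit 5) (nat_lit 443) (nat_lit 392) (nat_lit 305)) (XT.nd (nat_lit 78) (nat_lit 760) (nat_lit 0) (XT.lf (nat_lit 0) (nat_lit 3839243087) (nat_lit 760) (nat_lit 4655129561) (nat_lit 836) (nat_lit 1181297965) (nat_lit 361) (nat_lit 5) (nat_lit 371) (nat_lit 5) (nat_lit 372) (nat_lit 5) (nat_lit 444) (nat_lit 392) (nat_lit 304)) (XT.lf (nat_lit 0) (nat_lit 347557448) (nat_lit 684) (nat_lit 859987777) (nat_lit 760) (nat_lit 8563063651) (nat_lit 351) (nat_lit 5) (nat_lit 360) (nat_lit 5) (nat_lit 361) (nat_lit 5) (nat_lit 445) (nat_lit 392) (nat_lit 303)))))) (XT.nd (nat_lit 390) (nat_lit 1900) (nat_lit 0) (XT.nd (nat_lit 156) (nat_lit 1444) (nat_lit 0) (XT.nd (nat_lit 78) (nat_lit 684) (nat_lit 0) (XT.lf (nat_lit 0) (nat_lit 3660953198) (nat_lit 760) (nat_lit 3191356919) (nat_lit 76)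 (nat_lit 3014327508) (nat_lit 351) (nat_lit 5) (nat_lit 361) (nat_lit 5) (nat_lit 352) (nat_lit 5) (nat_lit 446) (nat_lit 392) (nat_lit 302)) (XT.lf (nat_lit 0) (nat_lit 3170069441) (nat_lit 684) (nat_lit 2993770755) (nat_lit 760) (nat_lit 3800738538) (nat_lit 342) (nat_lit 5) (nat_lit 351) (nat_lit 5) (nat_lit 352) (nat_lit 5) (nat_lit 447) (nat_lit 392) (nat_lit 301))) (XT.nd (nat_lit 78) (nat_lit 1444) (nat_lit 0) (XT.lf (nat_lit 0) (nat_lit 8718867564) (nat_lit 760) (nat_lit 399382677) (nat_lit 76) (nat_lit 946186770) (nat_lit 342) (nat_lit 5) (nat_lit 352) (nat_lit 5) (nat_lit 343) (nat_lit 5) (nat_lit 448) (nat_lit 392) (nat_lit 300)) (XT.nd (nat_lit 78) (nat_lit 684) (nat_lit 0) (XT.lf (nat_lit 0) (nat_lit 1178430066) (nat_lit 760) (nat_lit 4019269159) (nat_lit 76) (nat_lit 4967744295) (nat_lit 332) (nat_lit 5) (nat_lit 342) (nat_lit 5) (nat_lit 333) (nat_lit 5) (nat_lit 449) (nat_lit 392) (nat_lit 299)) (XT.lf (nat_lit 0) (nat_lit 2553620948) (nat_lit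 684) (nat_lit 1175608449) (nat_lit 760) (nat_lit 6539176137) (nat_lit 323) (nat_lit 5) (nat_lit 332) (nat_lit 5) (nat_lit 333) (nat_lit 5) (nat_lit 450) (nat_lit 392) (nat_lit 298))))) (XT.nd (nat_lit 156) (nat_lit 1292) (nat_lit 0) (XT.nd (nat_lit 78) (nat_lit 608) (nat_lit 0) (XT.lf (nat_lit 0) (nat_lit 6352495834) (nat_lit 760) (nat_lit 1110454581) (nat_lit 76) (nat_lit 2910047352) (nat_lit 323) (nat_lit 5) (nat_lit 333) (nat_lit 5) (nat_lit 324) (nat_lit 5) (nat_lit 451) (nat_lit 392) (nat_lit 297)) (XT.lf (nat_lit 0) (nat_lit 5662205839) (nat_lit 608) (nat_lit 3386351958) (nat_lit 684) (nat_lit 1430717443) (nat_lit 315) (nat_lit 5) (nat_lit 323) (nat_lit 5) (nat_lit 324) (nat_lit 5) (nat_lit 452) (nat_lit 392) (nat_lit 296))) (XT.nd (nat_lit 78) (nat_lit 608) (nat_lit 0) (XT.lf (nat_lit 0) (nat_lit 1196435758) (nat_lit 684) (nat_lit 8607131946) (nat_lit 76) (nat_lit 783924250) (nat_lit 306) (nat_lit 5) (nat_lit 315) (nat_lit 5) (nat_lit 307) (nat_lit 5)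 (nat_lit 453) (nat_lit 392) (nat_lit 295)) (XT.nd (nat_lit 78) (nat_lit 608) (nat_lit 0) (XT.lf (nat_lit 0) (nat_lit 3888096790) (nat_lit 684) (nat_lit 1780895524) (nat_lit 76) (nat_lit 5028069106) (nat_lit 306) (nat_lit 5) (nat_lit 315) (nat_lit 5) (nat_lit 307) (nat_lit 5) (nat_lit 454) (nat_lit 392) (nat_lit 294)) (XT.lf (nat_lit 0) (nat_lit 5220342652) (nat_lit 608) (nat_lit 1423749032) (nat_lit 684) (nat_lit 4164520578) (nat_lit 298) (nat_lit 5) (nat_lit 306) (nat_lit 5) (nat_lit 307) (nat_lit 5) (nat_lit 455) (nat_lit 392) (nat_lit 293))))))) (XT.nd (nat_lit 54444) (nat_lit 0) (nat_lit 34048) (XT.nd (nat_lit 312) (nat_lit 1672) (nat_lit 0) (XT.nd (nat_lit 156) (nat_lit 1140) (nat_lit 0) (XT.nd (nat_lit 78) (nat_lit 76) (nat_lit 0) (XT.lf (nat_lit 0) (nat_lit 1433227911) (nat_lit 608) (nat_lit 8039012911) (nat_lit 684) (nat_lit 1449812613) (nat_lit 290) (nat_lit 5) (nat_lit 298) (nat_lit 5) (nat_lit 299) (nat_lit 5) (nat_lit 456) (nat_lit 392) (nat_lit 292))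 (XT.lf (nat_lit 0) (nat_lit 1326001946) (nat_lit 684) (nat_lit 2414668234) (nat_lit 76) (nat_lit 7296439673) (nat_lit 289) (nat_lit 5) (nat_lit 298) (nat_lit 5) (nat_lit 290) (nat_lit 5) (nat_lit 457) (nat_lit 392) (nat_lit 291))) (XT.nd (nat_lit 78) (nat_lit 608) (nat_lit 0) (XT.lf (nat_lit 0) (nat_lit 4151057070) (nat_lit 608) (nat_lit 6333578268) (nat_lit 76) (nat_lit 669377651) (nat_lit 282) (nat_lit 5) (nat_lit 290) (nat_lit 5) (nat_lit 283) (nat_lit 5) (nat_lit 458) (nat_lit 392) (nat_lit 290)) (XT.lf (nat_lit 0) (nat_lit 917262110) (nat_lit 608) (nat_lit 6139984101) (nat_lit 684) (nat_lit 4215515318) (nat_lit 274) (nat_lit 5) (nat_lit 282) (nat_lit 5) (nat_lit 283) (nat_lit 5) (nat_lit 459) (nat_lit 392) (nat_lit 289)))) (XT.nd (nat_lit 156) (nat_lit 1064) (nat_lit 0) (XT.nd (nat_lit 78) (nat_lit 608) (nat_lit 0) (XT.lf (nat_lit 0) (nat_lit 8369240446) (nat_lit 608) (nat_lit 1672660418) (nat_lit 684) (nat_lit 1351577341) (nat_lit 274) (nat_lit 5) (nat_lit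 282) (nat_lit 5) (nat_lit 283) (nat_lit 5) (nat_lit 460) (nat_lit 392) (nat_lit 288)) (XT.lf (nat_lit 0) (nat_lit 1575159158) (nat_lit 608) (nat_lit 7062519394) (nat_lit 76) (nat_lit 2878204725) (nat_lit 266) (nat_lit 5) (nat_lit 274) (nat_lit 5) (nat_lit 267) (nat_lit 5) (nat_lit 461) (nat_lit 392) (nat_lit 287))) (XT.nd (nat_lit 78) (nat_lit 532) (nat_lit 0) (XT.lf (nat_lit 0) (nat_lit 437122515) (nat_lit 532) (nat_lit 4117891299) (nat_lit 608) (nat_lit 7085290334) (nat_lit 259) (nat_lit 5) (nat_lit 266) (nat_lit 5) (nat_lit 267) (nat_lit 5) (nat_lit 462) (nat_lit 392) (nat_lit 286)) (XT.nd (nat_lit 78) (nat_lit 532) (nat_lit 0) (XT.lf (nat_lit 0) (nat_lit 7623871247) (nat_lit 608) (nat_lit 3617095563) (nat_lit 76) (nat_lit 525658514) (nat_lit 259) (nat_lit 5) (nat_lit 267) (nat_lit 5) (nat_lit 260) (nat_lit 5) (nat_lit 463) (nat_lit 392) (nat_lit 285)) (XT.lf (nat_lit 0) (nat_lit 4118225818) (nat_lit 532) (nat_lit 6668812903) (nat_lit 608) (nat_lit 1107775544)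 (nat_lit 252) (nat_lit 5) (nat_lit 259) (nat_lit 5) (nat_lit 260) (nat_lit 5) (nat_lit 464) (nat_lit 392) (nat_lit 284)))))) (XT.nd (nat_lit 390) (nat_lit 1976) (nat_lit 0) (XT.nd (nat_lit 156) (nat_lit 912) (nat_lit 0) (XT.nd (nat_lit 78) (nat_lit 0) (nat_lit 0) (XT.lf (nat_lit 0) (nat_lit 929329227) (nat_lit 0) (nat_lit 929329227) (nat_lit 836) (nat_lit 1522558617) (nat_lit 738) (nat_lit 5) (nat_lit 738) (nat_lit 3) (nat_lit 749) (nat_lit 3) (nat_lit 393) (nat_lit 393) (nat_lit 354)) (XT.lf (nat_lit 0) (nat_lit 5279255926) (nat_lit 0) (nat_lit 586538669) (nat_lit 836) (nat_lit 922037798) (nat_lit 738) (nat_lit 5) (nat_lit 738) (nat_lit 3) (nat_lit 749) (nat_lit 3) (nat_lit 394) (nat_lit 393) (nat_lit 353))) (XT.nd (nat_lit 78) (nat_lit 0) (nat_lit 0) (XT.lf (nat_lit 0) (nat_lit 1188996814) (nat_lit 912) (nat_lit 4875858924) (nat_lit 988) (nat_lit 749485350) (nat_lit 726) (nat_lit 5) (nat_lit 738) (nat_lit 5) (nat_lit 739) (nat_lit 5) (nat_lit 395) (nat_lit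 393) (nat_lit 352)) (XT.nd (nat_lit 78) (nat_lit 0) (nat_lit 0) (XT.lf (nat_lit 0) (nat_lit 3289327650) (nat_lit 912) (nat_lit 1405817335) (nat_lit 988) (nat_lit 2146924648) (nat_lit 726) (nat_lit 5) (nat_lit 738) (nat_lit 5) (nat_lit 739) (nat_lit 5) (nat_lit 396) (nat_lit 393) (nat_lit 351)) (XT.lf (nat_lit 76) (nat_lit 2132660657) (nat_lit 0) (nat_lit 3259258277) (nat_lit 988) (nat_lit 1479228737) (nat_lit 727) (nat_lit 5) (nat_lit 726) (nat_lit 5) (nat_lit 739) (nat_lit 5) (nat_lit 397) (nat_lit 393) (nat_lit 350))))) (XT.nd (nat_lit 156) (nat_lit 988) (nat_lit 0) (XT.nd (nat_lit 78) (nat_lit 0) (nat_lit 0) (XT.lf (nat_lit 0) (nat_lit 583835186) (nat_lit 988) (nat_lit 1173294053) (nat_lit 1064) (nat_lit 5144467108) (nat_lit 713) (nat_lit 5) (nat_lit 726) (nat_lit 5) (nat_lit 727) (nat_lit 5) (nat_lit 398) (nat_lit 393) (nat_lit 349)) (XT.lf (nat_lit 76) (nat_lit 2456755108) (nat_lit 0) (nat_lit 175530749) (nat_lit 1064) (nat_lit 4300893938) (nat_lit 714)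 (nat_lit 5) (nat_lit 713) (nat_lit 5) (nat_lit 727) (nat_lit 5) (nat_lit 399) (nat_lit 393) (nat_lit 348))) (XT.nd (nat_lit 78) (nat_lit 1064) (nat_lit 0) (XT.lf (nat_lit 0) (nat_lit 4687908876) (nat_lit 988) (nat_lit 829167081) (nat_lit 1064) (nat_lit 1448994887) (nat_lit 714) (nat_lit 5) (nat_lit 727) (nat_lit 5) (nat_lit 728) (nat_lit 5) (nat_lit 400) (nat_lit 393) (nat_lit 347)) (XT.nd (nat_lit 78) (nat_lit 1064) (nat_lit 0) (XT.lf (nat_lit 76) (nat_lit 2898621955) (nat_lit 0) (nat_lit 3855949016) (nat_lit 1064) (nat_lit 245650213) (nat_lit 715) (nat_lit 5) (nat_lit 714) (nat_lit 5) (nat_lit 728) (nat_lit 5) (nat_lit 401) (nat_lit 393) (nat_lit 346)) (XT.lf (nat_lit 0) (nat_lit 1759555479) (nat_lit 1064) (nat_lit 364372842) (nat_lit 1140) (nat_lit 4911768663) (nat_lit 700) (nat_lit 5) (nat_lit 714) (nat_lit 5) (nat_lit 715) (nat_lit 5) (nat_lit 402) (nat_lit 393) (nat_lit 345))))))))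
noncomputable def xc81 : XT := (XT.nd (nat_lit 1482) (nat_lit 14288) (nat_lit 0) (XT.nd (nat_lit 702) (nat_lit 6916) (nat_lit 0) (XT.nd (nat_lit 312) (nat_lit 1140) (nat_lit 0) (XT.nd (nat_lit 156) (nat_lit 1064) (nat_lit 0) (XT.nd (nat_lit 78) (nat_lit 0) (nat_lit 76) (XT.lf (nat_lit 76) (nat_lit 3462228329) (nat_lit 0) (nat_lit 313213044) (nat_lit 1140) (nat_lit 3296931146) (nat_lit 701) (nat_lit 5) (nat_lit 700) (nat_lit 5) (nat_lit 715) (nat_lit 5) (nat_lit 403) (nat_lit 393) (nat_lit 344)) (XT.lf (nat_lit 76) (nat_lit 223486418) (nat_lit 0) (nat_lit 5574299922) (nat_lit 1140) (nat_lit 1312672397) (nat_lit 702) (nat_lit 5) (nat_lit 701) (nat_lit 5) (nat_lit 716) (nat_lit 5) (nat_lit 404) (nat_lit 393) (nat_lit 343))) (XT.nd (nat_lit 78) (nat_lit 0) (nat_lit 0) (XT.lf (nat_lit 0) (nat_lit 681105779) (nat_lit 1140) (nat_lit 3003418332) (nat_lit 1216) (nat_lit 3465106953) (nat_lit 686) (nat_lit 5) (nat_lit 701) (nat_lit 5) (nat_lit 702) (nat_lit 5) (nat_lit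 405) (nat_lit 393) (nat_lit 342)) (XT.lf (nat_lit 76) (nat_lit 931457693) (nat_lit 0) (nat_lit 1725418669) (nat_lit 1216) (nat_lit 4533343071) (nat_lit 687) (nat_lit 5) (nat_lit 686) (nat_lit 5) (nat_lit 702) (nat_lit 5) (nat_lit 406) (nat_lit 393) (nat_lit 341)))) (XT.nd (nat_lit 156) (nat_lit 1216) (nat_lit 0) (XT.nd (nat_lit 78) (nat_lit 0) (nat_lit 0) (XT.lf (nat_lit 0) (nat_lit 4648671744) (nat_lit 1140) (nat_lit 2278070610) (nat_lit 1216) (nat_lit 305347026) (nat_lit 687) (nat_lit 5) (nat_lit 702) (nat_lit 5) (nat_lit 703) (nat_lit 5) (nat_lit 407) (nat_lit 393) (nat_lit 340)) (XT.lf (nat_lit 76) (nat_lit 1763850377) (nat_lit 0) (nat_lit 4894674250) (nat_lit 1216) (nat_lit 616707669) (nat_lit 688) (nat_lit 5) (nat_lit 687) (nat_lit 5) (nat_lit 703) (nat_lit 5) (nat_lit 408) (nat_lit 393) (nat_lit 339))) (XT.nd (nat_lit 78) (nat_lit 0) (nat_lit 0) (XT.lf (nat_lit 0) (nat_lit 1342236601) (nat_lit 1216) (nat_lit 1441045314) (nat_lit 1292) (nat_lit 4536353314)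 (nat_lit 671) (nat_lit 5) (nat_lit 687) (nat_lit 5) (nat_lit 688) (nat_lit 5) (nat_lit 409) (nat_lit 393) (nat_lit 338)) (XT.nd (nat_lit 78) (nat_lit 0) (nat_lit 76) (XT.lf (nat_lit 76) (nat_lit 2712302987) (nat_lit 0) (nat_lit 594018030) (nat_lit 1292) (nat_lit 4059039295) (nat_lit 672) (nat_lit 5) (nat_lit 671) (nat_lit 5) (nat_lit 688) (nat_lit 5) (nat_lit 410) (nat_lit 393) (nat_lit 337)) (XT.lf (nat_lit 0) (nat_lit 5287407167) (nat_lit 1216) (nat_lit 484886396) (nat_lit 1292) (nat_lit 1640151934) (nat_lit 672) (nat_lit 5) (nat_lit 688) (nat_lit 5) (nat_lit 689) (nat_lit 5) (nat_lit 411) (nat_lit 393) (nat_lit 336)))))) (XT.nd (nat_lit 390) (nat_lit 4408) (nat_lit 0) (XT.nd (nat_lit 156) (nat_lit 1292) (nat_lit 0) (XT.nd (nat_lit 78) (nat_lit 1292) (nat_lit 0) (XT.lf (nat_lit 76) (nat_lit 3782293848) (nat_lit 0) (nat_lit 3512492789) (nat_lit 1292) (nat_lit 165952316) (nat_lit 673) (nat_lit 5) (nat_lit 672) (nat_lit 5) (nat_lit 689) (nat_lit 5) (nat_lit 412)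 (nat_lit 393) (nat_lit 335)) (XT.lf (nat_lit 76) (nat_lit 596989530) (nat_lit 0) (nat_lit 1176980249) (nat_lit 1368) (nat_lit 5736476856) (nat_lit 656) (nat_lit 5) (nat_lit 655) (nat_lit 5) (nat_lit 673) (nat_lit 5) (nat_lit 413) (nat_lit 393) (nat_lit 334))) (XT.nd (nat_lit 78) (nat_lit 1368) (nat_lit 0) (XT.lf (nat_lit 0) (nat_lit 3742363757) (nat_lit 1292) (nat_lit 2593012947) (nat_lit 76) (nat_lit 1225911919) (nat_lit 656) (nat_lit 5) (nat_lit 673) (nat_lit 5) (nat_lit 657) (nat_lit 5) (nat_lit 414) (nat_lit 393) (nat_lit 333)) (XT.nd (nat_lit 78) (nat_lit 76) (nat_lit 0) (XT.lf (nat_lit 0) (nat_lit 1799185714) (nat_lit 1292) (nat_lit 3930436029) (nat_lit 1368) (nat_lit 1883935784) (nat_lit 639) (nat_lit 5) (nat_lit 656) (nat_lit 5) (nat_lit 657) (nat_lit 5) (nat_lit 415) (nat_lit 393) (nat_lit 332)) (XT.lf (nat_lit 0) (nat_lit 66438320) (nat_lit 1368) (nat_lit 1383627505) (nat_lit 76) (nat_lit 6217237083) (nat_lit 638) (nat_lit 5) (nat_lit 656) (nat_lit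 5) (nat_lit 639) (nat_lit 5) (nat_lit 416) (nat_lit 393) (nat_lit 331))))) (XT.nd (nat_lit 156) (nat_lit 3040) (nat_lit 0) (XT.nd (nat_lit 78) (nat_lit 0) (nat_lit 0) (XT.lf (nat_lit 0) (nat_lit 2019376294) (nat_lit 1444) (nat_lit 4595348377) (nat_lit 76) (nat_lit 1107373823) (nat_lit 620) (nat_lit 5) (nat_lit 639) (nat_lit 5) (nat_lit 621) (nat_lit 5) (nat_lit 417) (nat_lit 393) (nat_lit 330)) (XT.lf (nat_lit 0) (nat_lit 3992068320) (nat_lit 1444) (nat_lit 72179288) (nat_lit 76) (nat_lit 3714128476) (nat_lit 620) (nat_lit 5) (nat_lit 639) (nat_lit 5) (nat_lit 621) (nat_lit 5) (nat_lit 418) (nat_lit 393) (nat_lit 329))) (XT.nd (nat_lit 78) (nat_lit 1596) (nat_lit 0) (XT.lf (nat_lit 0) (nat_lit 4571208196) (nat_lit 1444) (nat_lit 1425181238) (nat_lit 1520) (nat_lit 1839546288) (nat_lit 601) (nat_lit 5) (nat_lit 620) (nat_lit 5) (nat_lit 621) (nat_lit 5) (nat_lit 419) (nat_lit 393) (nat_lit 328)) (XT.nd (nat_lit 78) (nat_lit 0) (nat_lit 0) (XT.lf (nat_lit 0) (nat_lit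 124944793) (nat_lit 1596) (nat_lit 6502786802) (nat_lit 76) (nat_lit 1267281757) (nat_lit 580) (nat_lit 5) (nat_lit 601) (nat_lit 5) (nat_lit 581) (nat_lit 5) (nat_lit 420) (nat_lit 393) (nat_lit 327)) (XT.lf (nat_lit 0) (nat_lit 2098974692) (nat_lit 1596) (nat_lit 1821093573) (nat_lit 76) (nat_lit 4035063471) (nat_lit 580) (nat_lit 5) (nat_lit 601) (nat_lit 5) (nat_lit 581) (nat_lit 5) (nat_lit 421) (nat_lit 393) (nat_lit 326))))))) (XT.nd (nat_lit 702) (nat_lit 5244) (nat_lit 0) (XT.nd (nat_lit 312) (nat_lit 3952) (nat_lit 0) (XT.nd (nat_lit 156) (nat_lit 3496) (nat_lit 0) (XT.nd (nat_lit 78) (nat_lit 0) (nat_lit 0) (XT.lf (nat_lit 0) (nat_lit 2962630765) (nat_lit 1596) (nat_lit 1133174181) (nat_lit 1672) (nat_lit 3920981146) (nat_lit 559) (nat_lit 5) (nat_lit 580) (nat_lit 5) (nat_lit 581) (nat_lit 5) (nat_lit 422) (nat_lit 393) (nat_lit 325)) (XT.lf (nat_lit 0) (nat_lit 6120597773) (nat_lit 1672) (nat_lit 254893398) (nat_lit 76) (nat_lit 1704421847) (nat_lit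 559) (nat_lit 5) (nat_lit 581) (nat_lit 5) (nat_lit 560) (nat_lit 5) (nat_lit 423) (nat_lit 393) (nat_lit 324))) (XT.nd (nat_lit 78) (nat_lit 1748) (nat_lit 0) (XT.lf (nat_lit 0) (nat_lit 44162155) (nat_lit 1748) (nat_lit 3480908983) (nat_lit 76) (nat_lit 4619163471) (nat_lit 536) (nat_lit 5) (nat_lit 559) (nat_lit 5) (nat_lit 537) (nat_lit 5) (nat_lit 424) (nat_lit 393) (nat_lit 323)) (XT.lf (nat_lit 0) (nat_lit 1448922619) (nat_lit 1748) (nat_lit 589281684) (nat_lit 1824) (nat_lit 6171844699) (nat_lit 513) (nat_lit 5) (nat_lit 536) (nat_lit 5) (nat_lit 537) (nat_lit 5) (nat_lit 425) (nat_lit 393) (nat_lit 322)))) (XT.nd (nat_lit 156) (nat_lit 2128) (nat_lit 0) (XT.nd (nat_lit 78) (nat_lit 1824) (nat_lit 0) (XT.lf (nat_lit 0) (nat_lit 4077333765) (nat_lit 1824) (nat_lit 1799097105) (nat_lit 76) (nat_lit 2400644684) (nat_lit 513) (nat_lit 5) (nat_lit 537) (nat_lit 5) (nat_lit 514) (nat_lit 5) (nat_lit 426) (nat_lit 393) (nat_lit 321)) (XT.lf (nat_lit 0) (nat_lit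 3270626768) (nat_lit 1824) (nat_lit 2878498554) (nat_lit 1900) (nat_lit 2196479725) (nat_lit 489) (nat_lit 5) (nat_lit 513) (nat_lit 5) (nat_lit 514) (nat_lit 5) (nat_lit 427) (nat_lit 393) (nat_lit 320))) (XT.nd (nat_lit 78) (nat_lit 988) (nat_lit 0) (XT.lf (nat_lit 0) (nat_lit 18861894) (nat_lit 1140) (nat_lit 8224143915) (nat_lit 1216) (nat_lit 172886259) (nat_lit 474) (nat_lit 5) (nat_lit 489) (nat_lit 5) (nat_lit 490) (nat_lit 5) (nat_lit 428) (nat_lit 393) (nat_lit 319)) (XT.nd (nat_lit 78) (nat_lit 912) (nat_lit 0) (XT.lf (nat_lit 0) (nat_lit 1887161866) (nat_lit 1216) (nat_lit 3266337555) (nat_lit 76) (nat_lit 3333424114) (nat_lit 473) (nat_lit 5) (nat_lit 489) (nat_lit 5) (nat_lit 474) (nat_lit 5) (nat_lit 429) (nat_lit 393) (nat_lit 318)) (XT.lf (nat_lit 0) (nat_lit 1960916104) (nat_lit 912) (nat_lit 2005993762) (nat_lit 988) (nat_lit 4592826631) (nat_lit 461) (nat_lit 5) (nat_lit 473) (nat_lit 5) (nat_lit 474) (nat_lit 5) (nat_lit 430) (nat_lit 393)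 (nat_lit 317)))))) (XT.nd (nat_lit 390) (nat_lit 2508) (nat_lit 0) (XT.nd (nat_lit 156) (nat_lit 1824) (nat_lit 0) (XT.nd (nat_lit 78) (nat_lit 912) (nat_lit 0) (XT.lf (nat_lit 0) (nat_lit 6086652400) (nat_lit 988) (nat_lit 1335602677) (nat_lit 76) (nat_lit 1211782650) (nat_lit 461) (nat_lit 5) (nat_lit 474) (nat_lit 5) (nat_lit 462) (nat_lit 5) (nat_lit 431) (nat_lit 393) (nat_lit 316)) (XT.lf (nat_lit 0) (nat_lit 4042156397) (nat_lit 912) (nat_lit 4215295223) (nat_lit 988) (nat_lit 452200127) (nat_lit 449) (nat_lit 5) (nat_lit 461) (nat_lit 5) (nat_lit 462) (nat_lit 5) (nat_lit 432) (nat_lit 393) (nat_lit 315))) (XT.nd (nat_lit 78) (nat_lit 912) (nat_lit 0) (XT.lf (nat_lit 0) (nat_lit 726851328) (nat_lit 836) (nat_lit 919020847) (nat_lit 912) (nat_lit 7141025461) (nat_lit 437) (nat_lit 5) (nat_lit 448) (nat_lit 5) (nat_lit 449) (nat_lit 5) (nat_lit 433) (nat_lit 393) (nat_lit 314)) (XT.nd (nat_lit 78) (nat_lit 912) (nat_lit 0) (XT.lf (nat_lit 0) (nat_lit 3796990134)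 (nat_lit 912) (nat_lit 2622833937) (nat_lit 76) (nat_lit 2445461811) (nat_lit 437) (nat_lit 5) (nat_lit 449) (nat_lit 5) (nat_lit 438) (nat_lit 5) (nat_lit 434) (nat_lit 393) (nat_lit 313)) (XT.lf (nat_lit 0) (nat_lit 2924945560) (nat_lit 912) (nat_lit 3061597094) (nat_lit 988) (nat_lit 2958790991) (nat_lit 425) (nat_lit 5) (nat_lit 437) (nat_lit 5) (nat_lit 438) (nat_lit 5) (nat_lit 435) (nat_lit 393) (nat_lit 312))))) (XT.nd (nat_lit 156) (nat_lit 1596) (nat_lit 0) (XT.nd (nat_lit 78) (nat_lit 912) (nat_lit 0) (XT.lf (nat_lit 0) (nat_lit 8210679599) (nat_lit 988) (nat_lit 440706069) (nat_lit 76) (nat_lit 375780831) (nat_lit 425) (nat_lit 5) (nat_lit 438) (nat_lit 5) (nat_lit 426) (nat_lit 5) (nat_lit 436) (nat_lit 393) (nat_lit 311)) (XT.lf (nat_lit 0) (nat_lit 1376658602) (nat_lit 912) (nat_lit 3850003685) (nat_lit 76) (nat_lit 3883277084) (nat_lit 413) (nat_lit 5) (nat_lit 425) (nat_lit 5) (nat_lit 414) (nat_lit 5) (nat_lit 437) (nat_lit 393) (nat_lit 310)))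 (XT.nd (nat_lit 78) (nat_lit 760) (nat_lit 0) (XT.lf (nat_lit 0) (nat_lit 1875013172) (nat_lit 836) (nat_lit 1714350845) (nat_lit 912) (nat_lit 5605163149) (nat_lit 402) (nat_lit 5) (nat_lit 413) (nat_lit 5) (nat_lit 414) (nat_lit 5) (nat_lit 438) (nat_lit 393) (nat_lit 309)) (XT.nd (nat_lit 78) (nat_lit 760) (nat_lit 0) (XT.lf (nat_lit 0) (nat_lit 5856278662) (nat_lit 912) (nat_lit 1556629426) (nat_lit 76) (nat_lit 1867699526) (nat_lit 402) (nat_lit 5) (nat_lit 414) (nat_lit 5) (nat_lit 403) (nat_lit 5) (nat_lit 439) (nat_lit 393) (nat_lit 308)) (XT.lf (nat_lit 0) (nat_lit 4336884749) (nat_lit 760) (nat_lit 3843529506) (nat_lit 836) (nat_lit 1187757764) (nat_lit 392) (nat_lit 5) (nat_lit 402) (nat_lit 5) (nat_lit 403) (nat_lit 5) (nat_lit 440) (nat_lit 393) (nat_lit 307))))))))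
noncomputable def xc82 : XT := (XT.nd (nat_lit 1482) (nat_lit 1748) (nat_lit 0) (XT.nd (nat_lit 702) (nat_lit 3800) (nat_lit 0) (XT.nd (nat_lit 312) (nat_lit 2964) (nat_lit 0) (XT.nd (nat_lit 156) (nat_lit 760) (nat_lit 0) (XT.nd (nat_lit 78) (nat_lit 0) (nat_lit 0) (XT.lf (nat_lit 0) (nat_lit 886224365) (nat_lit 760) (nat_lit 181785365) (nat_lit 836) (nat_lit 8389559843) (nat_lit 381) (nat_lit 5) (nat_lit 391) (nat_lit 5) (nat_lit 392) (nat_lit 5) (nat_lit 441) (nat_lit 393) (nat_lit 306)) (XT.lf (nat_lit 0) (nat_lit 3382920634) (nat_lit 836) (nat_lit 2619596181) (nat_lit 76) (nat_lit 3545482599) (nat_lit 381) (nat_lit 5) (nat_lit 392) (nat_lit 5) (nat_lit 382) (nat_lit 5) (nat_lit 442) (nat_lit 393) (nat_lit 305))) (XT.nd (nat_lit 78) (nat_lit 0) (nat_lit 0) (XT.lf (nat_lit 0) (nat_lit 3465390242) (nat_lit 760) (nat_lit 2275836529) (nat_lit 836) (nat_lit 3899069139) (nat_lit 371) (nat_lit 5) (nat_lit 381) (nat_lit 5) (nat_lit 382) (nat_lit 5) (nat_lit 443)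 (nat_lit 393) (nat_lit 304)) (XT.lf (nat_lit 0) (nat_lit 8147996371) (nat_lit 836) (nat_lit 66868914) (nat_lit 76) (nat_lit 1519547105) (nat_lit 371) (nat_lit 5) (nat_lit 382) (nat_lit 5) (nat_lit 372) (nat_lit 5) (nat_lit 444) (nat_lit 393) (nat_lit 303)))) (XT.nd (nat_lit 156) (nat_lit 1444) (nat_lit 0) (XT.nd (nat_lit 78) (nat_lit 684) (nat_lit 0) (XT.lf (nat_lit 0) (nat_lit 792093530) (nat_lit 836) (nat_lit 3635215684) (nat_lit 76) (nat_lit 5402406981) (nat_lit 360) (nat_lit 5) (nat_lit 371) (nat_lit 5) (nat_lit 361) (nat_lit 5) (nat_lit 445) (nat_lit 393) (nat_lit 302)) (XT.lf (nat_lit 0) (nat_lit 2649427684) (nat_lit 684) (nat_lit 539535897) (nat_lit 760) (nat_lit 6737912122) (nat_lit 351) (nat_lit 5) (nat_lit 360) (nat_lit 5) (nat_lit 361) (nat_lit 5) (nat_lit 446) (nat_lit 393) (nat_lit 301))) (XT.nd (nat_lit 78) (nat_lit 1444) (nat_lit 0) (XT.lf (nat_lit 0) (nat_lit 5655211194) (nat_lit 760) (nat_lit 969034863) (nat_lit 76) (nat_lit 3401303542) (nat_lit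 351) (nat_lit 5) (nat_lit 361) (nat_lit 5) (nat_lit 352) (nat_lit 5) (nat_lit 447) (nat_lit 393) (nat_lit 300)) (XT.nd (nat_lit 78) (nat_lit 760) (nat_lit 0) (XT.lf (nat_lit 0) (nat_lit 5504579569) (nat_lit 684) (nat_lit 2680654477) (nat_lit 760) (nat_lit 1940673921) (nat_lit 342) (nat_lit 5) (nat_lit 351) (nat_lit 5) (nat_lit 352) (nat_lit 5) (nat_lit 448) (nat_lit 393) (nat_lit 299)) (XT.lf (nat_lit 0) (nat_lit 533410825) (nat_lit 760) (nat_lit 8353035636) (nat_lit 76) (nat_lit 1341699684) (nat_lit 332) (nat_lit 5) (nat_lit 342) (nat_lit 5) (nat_lit 333) (nat_lit 5) (nat_lit 449) (nat_lit 393) (nat_lit 298)))))) (XT.nd (nat_lit 390) (nat_lit 1824) (nat_lit 0) (XT.nd (nat_lit 156) (nat_lit 1292) (nat_lit 0) (XT.nd (nat_lit 78) (nat_lit 684) (nat_lit 0) (XT.lf (nat_lit 0) (nat_lit 3055517438) (nat_lit 760) (nat_lit 1828479070) (nat_lit 76) (nat_lit 5447685506) (nat_lit 332) (nat_lit 5) (nat_lit 342) (nat_lit 5) (nat_lit 333) (nat_lit 5) (nat_lit 450) (nat_lit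 393) (nat_lit 297)) (XT.lf (nat_lit 0) (nat_lit 4860926895) (nat_lit 684) (nat_lit 774711320) (nat_lit 760) (nat_lit 4801498945) (nat_lit 323) (nat_lit 5) (nat_lit 332) (nat_lit 5) (nat_lit 333) (nat_lit 5) (nat_lit 451) (nat_lit 393) (nat_lit 296))) (XT.nd (nat_lit 78) (nat_lit 684) (nat_lit 0) (XT.lf (nat_lit 0) (nat_lit 1127331745) (nat_lit 608) (nat_lit 7158141014) (nat_lit 684) (nat_lit 2258866422) (nat_lit 315) (nat_lit 5) (nat_lit 323) (nat_lit 5) (nat_lit 324) (nat_lit 5) (nat_lit 452) (nat_lit 393) (nat_lit 295)) (XT.nd (nat_lit 78) (nat_lit 608) (nat_lit 0) (XT.lf (nat_lit 0) (nat_lit 349403562) (nat_lit 684) (nat_lit 2649713911) (nat_lit 76) (nat_lit 7654140851) (nat_lit 314) (nat_lit 5) (nat_lit 323) (nat_lit 5) (nat_lit 315) (nat_lit 5) (nat_lit 453) (nat_lit 393) (nat_lit 294)) (XT.lf (nat_lit 0) (nat_lit 2992463726) (nat_lit 684) (nat_lit 6507555953) (nat_lit 76) (nat_lit 1263780129) (nat_lit 306) (nat_lit 5) (nat_lit 315) (nat_lit 5) (nat_lit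 307) (nat_lit 5) (nat_lit 454) (nat_lit 393) (nat_lit 293))))) (XT.nd (nat_lit 156) (nat_lit 1216) (nat_lit 0) (XT.nd (nat_lit 78) (nat_lit 0) (nat_lit 0) (XT.lf (nat_lit 0) (nat_lit 416119171) (nat_lit 608) (nat_lit 5289793485) (nat_lit 684) (nat_lit 5170288914) (nat_lit 298) (nat_lit 5) (nat_lit 306) (nat_lit 5) (nat_lit 307) (nat_lit 5) (nat_lit 455) (nat_lit 393) (nat_lit 292)) (XT.lf (nat_lit 0) (nat_lit 7537272166) (nat_lit 608) (nat_lit 957352996) (nat_lit 684) (nat_lit 2495806313) (nat_lit 298) (nat_lit 5) (nat_lit 306) (nat_lit 5) (nat_lit 307) (nat_lit 5) (nat_lit 456) (nat_lit 393) (nat_lit 291))) (XT.nd (nat_lit 78) (nat_lit 532) (nat_lit 0) (XT.lf (nat_lit 0) (nat_lit 253448549) (nat_lit 684) (nat_lit 7417335861) (nat_lit 76) (nat_lit 3435644871) (nat_lit 289) (nat_lit 5) (nat_lit 298) (nat_lit 5) (nat_lit 290) (nat_lit 5) (nat_lit 457) (nat_lit 393) (nat_lit 290)) (XT.nd (nat_lit 78) (nat_lit 532) (nat_lit 0) (XT.lf (nat_lit 0) (nat_lit 3031799016)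 (nat_lit 684) (nat_lit 255447122) (nat_lit 76) (nat_lit 7937020372) (nat_lit 289) (nat_lit 5) (nat_lit 298) (nat_lit 5) (nat_lit 290) (nat_lit 5) (nat_lit 458) (nat_lit 393) (nat_lit 289)) (XT.lf (nat_lit 0) (nat_lit 5898123309) (nat_lit 608) (nat_lit 4237503424) (nat_lit 76) (nat_lit 1208185614) (nat_lit 282) (nat_lit 5) (nat_lit 290) (nat_lit 5) (nat_lit 283) (nat_lit 5) (nat_lit 459) (nat_lit 393) (nat_lit 288))))))) (XT.nd (nat_lit 54522) (nat_lit 0) (nat_lit 32376) (XT.nd (nat_lit 312) (nat_lit 0) (nat_lit 0) (XT.nd (nat_lit 156) (nat_lit 1064) (nat_lit 0) (XT.nd (nat_lit 78) (nat_lit 76) (nat_lit 0) (XT.lf (nat_lit 0) (nat_lit 3143730430) (nat_lit 608) (nat_lit 5700414067) (nat_lit 684) (nat_lit 2621157195) (nat_lit 274) (nat_lit 5) (nat_lit 282) (nat_lit 5) (nat_lit 283) (nat_lit 5) (nat_lit 460) (nat_lit 393) (nat_lit 287)) (XT.lf (nat_lit 0) (nat_lit 263640825) (nat_lit 684) (nat_lit 889360774) (nat_lit 76) (nat_lit 10436041808) (nat_lit 273) (nat_lit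 5) (nat_lit 282) (nat_lit 5) (nat_lit 274) (nat_lit 5) (nat_lit 461) (nat_lit 393) (nat_lit 286))) (XT.nd (nat_lit 78) (nat_lit 532) (nat_lit 0) (XT.lf (nat_lit 0) (nat_lit 3216759400) (nat_lit 608) (nat_lit 5003286931) (nat_lit 76) (nat_lit 3493952669) (nat_lit 266) (nat_lit 5) (nat_lit 274) (nat_lit 5) (nat_lit 267) (nat_lit 5) (nat_lit 462) (nat_lit 393) (nat_lit 285)) (XT.lf (nat_lit 0) (nat_lit 2631870955) (nat_lit 532) (nat_lit 3606962665) (nat_lit 608) (nat_lit 5602422221) (nat_lit 259) (nat_lit 5) (nat_lit 266) (nat_lit 5) (nat_lit 267) (nat_lit 5) (nat_lit 463) (nat_lit 393) (nat_lit 284)))) (XT.nd (nat_lit 53976) (nat_lit 0) (nat_lit 34504) (XT.nd (nat_lit 53898) (nat_lit 0) (nat_lit 35416) (XT.lf (nat_lit 0) (nat_lit 9341614886) (nat_lit 608) (nat_lit 1518841033) (nat_lit 76) (nat_lit 1110196587) (nat_lit 259) (nat_lit 5) (nat_lit 267) (nat_lit 5) (nat_lit 260) (nat_lit 5) (nat_lit 464) (nat_lit 393) (nat_lit 283)) (XT.lf (nat_lit 0) (nat_lit 578846109)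 (nat_lit 988) (nat_lit 1413983604) (nat_lit 988) (nat_lit 1413983604) (nat_lit 725) (nat_lit 3) (nat_lit 738) (nat_lit 3) (nat_lit 738) (nat_lit 5) (nat_lit 394) (nat_lit 394) (nat_lit 352))) (XT.nd (nat_lit 78) (nat_lit 912) (nat_lit 0) (XT.lf (nat_lit 76) (nat_lit 586538669) (nat_lit 0) (nat_lit 2629297864) (nat_lit 988) (nat_lit 3624995021) (nat_lit 726) (nat_lit 5) (nat_lit 725) (nat_lit 3) (nat_lit 738) (nat_lit 5) (nat_lit 395) (nat_lit 394) (nat_lit 351)) (XT.nd (nat_lit 78) (nat_lit 912) (nat_lit 0) (XT.lf (nat_lit 76) (nat_lit 4079978366) (nat_lit 0) (nat_lit 1200380426) (nat_lit 988) (nat_lit 1588917477) (nat_lit 726) (nat_lit 5) (nat_lit 725) (nat_lit 3) (nat_lit 738) (nat_lit 5) (nat_lit 396) (nat_lit 394) (nat_lit 350)) (XT.lf (nat_lit 0) (nat_lit 435008281) (nat_lit 988) (nat_lit 6177613407) (nat_lit 1064) (nat_lit 286534333) (nat_lit 713) (nat_lit 5) (nat_lit 726) (nat_lit 5) (nat_lit 727) (nat_lit 5) (nat_lit 397) (nat_lit 394) (nat_lit 349))))))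 (XT.nd (nat_lit 390) (nat_lit 1064) (nat_lit 0) (XT.nd (nat_lit 156) (nat_lit 1064) (nat_lit 0) (XT.nd (nat_lit 78) (nat_lit 0) (nat_lit 0) (XT.lf (nat_lit 0) (nat_lit 2452910934) (nat_lit 988) (nat_lit 2636317761) (nat_lit 1064) (nat_lit 1840699136) (nat_lit 713) (nat_lit 5) (nat_lit 726) (nat_lit 5) (nat_lit 727) (nat_lit 5) (nat_lit 398) (nat_lit 394) (nat_lit 348)) (XT.lf (nat_lit 76) (nat_lit 960089436) (nat_lit 0) (nat_lit 3506299019) (nat_lit 1064) (nat_lit 2495822287) (nat_lit 714) (nat_lit 5) (nat_lit 713) (nat_lit 5) (nat_lit 727) (nat_lit 5) (nat_lit 399) (nat_lit 394) (nat_lit 347))) (XT.nd (nat_lit 78) (nat_lit 1064) (nat_lit 0) (XT.lf (nat_lit 76) (nat_lit 4636040877) (nat_lit 0) (nat_lit 1851586762) (nat_lit 1064) (nat_lit 508161830) (nat_lit 714) (nat_lit 5) (nat_lit 713) (nat_lit 5) (nat_lit 727) (nat_lit 5) (nat_lit 400) (nat_lit 394) (nat_lit 346)) (XT.nd (nat_lit 78) (nat_lit 0) (nat_lit 76) (XT.lf (nat_lit 76) (nat_lit 1334888000) (nat_lit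 0) (nat_lit 123564953) (nat_lit 1140) (nat_lit 5572207011) (nat_lit 700) (nat_lit 5) (nat_lit 699) (nat_lit 5) (nat_lit 714) (nat_lit 5) (nat_lit 401) (nat_lit 394) (nat_lit 345)) (XT.lf (nat_lit 0) (nat_lit 3435566904) (nat_lit 1064) (nat_lit 1973769258) (nat_lit 1140) (nat_lit 1657265103) (nat_lit 700) (nat_lit 5) (nat_lit 714) (nat_lit 5) (nat_lit 715) (nat_lit 5) (nat_lit 402) (nat_lit 394) (nat_lit 344))))) (XT.nd (nat_lit 156) (nat_lit 0) (nat_lit 76) (XT.nd (nat_lit 78) (nat_lit 1140) (nat_lit 0) (XT.lf (nat_lit 76) (nat_lit 1817107800) (nat_lit 0) (nat_lit 3600067972) (nat_lit 1140) (nat_lit 1686786569) (nat_lit 701) (nat_lit 5) (nat_lit 700) (nat_lit 5) (nat_lit 715) (nat_lit 5) (nat_lit 403) (nat_lit 394) (nat_lit 343)) (XT.lf (nat_lit 0) (nat_lit 258568311) (nat_lit 1140) (nat_lit 1462278812) (nat_lit 1216) (nat_lit 5421862857) (nat_lit 685) (nat_lit 5) (nat_lit 700) (nat_lit 5) (nat_lit 701) (nat_lit 5) (nat_lit 404) (nat_lit 394) (nat_lit 342)))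 (XT.nd (nat_lit 78) (nat_lit 0) (nat_lit 0) (XT.lf (nat_lit 0) (nat_lit 2191317991) (nat_lit 1140) (nat_lit 4753134435) (nat_lit 1216) (nat_lit 238135678) (nat_lit 686) (nat_lit 5) (nat_lit 701) (nat_lit 5) (nat_lit 702) (nat_lit 5) (nat_lit 405) (nat_lit 394) (nat_lit 341)) (XT.nd (nat_lit 78) (nat_lit 0) (nat_lit 0) (XT.lf (nat_lit 0) (nat_lit 4138535329) (nat_lit 1140) (nat_lit 844972840) (nat_lit 1216) (nat_lit 2240239368) (nat_lit 686) (nat_lit 5) (nat_lit 701) (nat_lit 5) (nat_lit 702) (nat_lit 5) (nat_lit 406) (nat_lit 394) (nat_lit 340)) (XT.lf (nat_lit 76) (nat_lit 3154005219) (nat_lit 0) (nat_lit 2946599768) (nat_lit 1216) (nat_lit 1165607012) (nat_lit 687) (nat_lit 5) (nat_lit 686) (nat_lit 5) (nat_lit 702) (nat_lit 5) (nat_lit 407) (nat_lit 394) (nat_lit 339))))))))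
noncomputable def xc83 : XT := (XT.nd (nat_lit 1482) (nat_lit 11628) (nat_lit 0) (XT.nd (nat_lit 702) (nat_lit 9500) (nat_lit 0) (XT.nd (nat_lit 312) (nat_lit 2432) (nat_lit 0) (XT.nd (nat_lit 156) (nat_lit 0) (nat_lit 76) (XT.nd (nat_lit 78) (nat_lit 0) (nat_lit 76) (XT.lf (nat_lit 0) (nat_lit 743533913) (nat_lit 1216) (nat_lit 99288188) (nat_lit 1292) (nat_lit 6467370035) (nat_lit 670) (nat_lit 5) (nat_lit 686) (nat_lit 5) (nat_lit 687) (nat_lit 5) (nat_lit 408) (nat_lit 394) (nat_lit 338)) (XT.lf (nat_lit 0) (nat_lit 2666775694) (nat_lit 1216) (nat_lit 3353797536) (nat_lit 1292) (nat_lit 1334494044) (nat_lit 671) (nat_lit 5) (nat_lit 687) (nat_lit 5) (nat_lit 688) (nat_lit 5) (nat_lit 409) (nat_lit 394) (nat_lit 337))) (XT.nd (nat_lit 78) (nat_lit 0) (nat_lit 0) (XT.lf (nat_lit 76) (nat_lit 759434948) (nat_lit 0) (nat_lit 3837682552) (nat_lit 1292) (nat_lit 2804349710) (nat_lit 672) (nat_lit 5) (nat_lit 671) (nat_lit 5) (nat_lit 688) (nat_lit 5) (nat_lit 410)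 (nat_lit 394) (nat_lit 336)) (XT.lf (nat_lit 76) (nat_lit 4971289163) (nat_lit 0) (nat_lit 1575380177) (nat_lit 1292) (nat_lit 902513741) (nat_lit 672) (nat_lit 5) (nat_lit 671) (nat_lit 5) (nat_lit 688) (nat_lit 5) (nat_lit 411) (nat_lit 394) (nat_lit 335)))) (XT.nd (nat_lit 156) (nat_lit 1292) (nat_lit 0) (XT.nd (nat_lit 78) (nat_lit 0) (nat_lit 0) (XT.lf (nat_lit 0) (nat_lit 998760308) (nat_lit 1292) (nat_lit 5746522398) (nat_lit 1368) (nat_lit 752935728) (nat_lit 655) (nat_lit 5) (nat_lit 672) (nat_lit 5) (nat_lit 673) (nat_lit 5) (nat_lit 412) (nat_lit 394) (nat_lit 334)) (XT.lf (nat_lit 0) (nat_lit 2912504673) (nat_lit 1292) (nat_lit 1494739178) (nat_lit 1368) (nat_lit 3141140741) (nat_lit 655) (nat_lit 5) (nat_lit 672) (nat_lit 5) (nat_lit 673) (nat_lit 5) (nat_lit 413) (nat_lit 394) (nat_lit 333))) (XT.nd (nat_lit 78) (nat_lit 1292) (nat_lit 0) (XT.lf (nat_lit 76) (nat_lit 2850261867) (nat_lit 0) (nat_lit 1992912087) (nat_lit 1368) (nat_lit 2756807119)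 (nat_lit 656) (nat_lit 5) (nat_lit 655) (nat_lit 5) (nat_lit 673) (nat_lit 5) (nat_lit 414) (nat_lit 394) (nat_lit 332)) (XT.nd (nat_lit 78) (nat_lit 1368) (nat_lit 0) (XT.lf (nat_lit 0) (nat_lit 6786407153) (nat_lit 1292) (nat_lit 382959699) (nat_lit 76) (nat_lit 483763622) (nat_lit 656) (nat_lit 5) (nat_lit 673) (nat_lit 5) (nat_lit 657) (nat_lit 5) (nat_lit 415) (nat_lit 394) (nat_lit 331)) (XT.lf (nat_lit 0) (nat_lit 1048528241) (nat_lit 1368) (nat_lit 3632013649) (nat_lit 76) (nat_lit 3026637508) (nat_lit 638) (nat_lit 5) (nat_lit 656) (nat_lit 5) (nat_lit 639) (nat_lit 5) (nat_lit 416) (nat_lit 394) (nat_lit 330)))))) (XT.nd (nat_lit 390) (nat_lit 5092) (nat_lit 0) (XT.nd (nat_lit 156) (nat_lit 3040) (nat_lit 0) (XT.nd (nat_lit 78) (nat_lit 0) (nat_lit 0) (XT.lf (nat_lit 0) (nat_lit 841073128) (nat_lit 1368) (nat_lit 2119351255) (nat_lit 1444) (nat_lit 4802371437) (nat_lit 620) (nat_lit 5) (nat_lit 638) (nat_lit 5) (nat_lit 639) (nat_lit 5) (nat_lit 417)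 (nat_lit 394) (nat_lit 329)) (XT.lf (nat_lit 0) (nat_lit 4900789805) (nat_lit 1444) (nat_lit 2399742480) (nat_lit 76) (nat_lit 519187658) (nat_lit 620) (nat_lit 5) (nat_lit 639) (nat_lit 5) (nat_lit 621) (nat_lit 5) (nat_lit 418) (nat_lit 394) (nat_lit 328))) (XT.nd (nat_lit 78) (nat_lit 1596) (nat_lit 0) (XT.lf (nat_lit 0) (nat_lit 2197862154) (nat_lit 1444) (nat_lit 4673637105) (nat_lit 1520) (nat_lit 1006452556) (nat_lit 601) (nat_lit 5) (nat_lit 620) (nat_lit 5) (nat_lit 621) (nat_lit 5) (nat_lit 419) (nat_lit 394) (nat_lit 327)) (XT.nd (nat_lit 78) (nat_lit 1520) (nat_lit 0) (XT.lf (nat_lit 0) (nat_lit 911621746) (nat_lit 1520) (nat_lit 1053210848) (nat_lit 76) (nat_lit 5972798483) (nat_lit 600) (nat_lit 5) (nat_lit 620) (nat_lit 5) (nat_lit 601) (nat_lit 5) (nat_lit 420) (nat_lit 394) (nat_lit 326)) (XT.lf (nat_lit 0) (nat_lit 2848139739) (nat_lit 1596) (nat_lit 4325559323) (nat_lit 76) (nat_lit 824800637) (nat_lit 580) (nat_lit 5) (nat_lit 601) (nat_lit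 5) (nat_lit 581) (nat_lit 5) (nat_lit 421) (nat_lit 394) (nat_lit 325))))) (XT.nd (nat_lit 156) (nat_lit 3496) (nat_lit 0) (XT.nd (nat_lit 78) (nat_lit 0) (nat_lit 0) (XT.lf (nat_lit 0) (nat_lit 409902872) (nat_lit 1596) (nat_lit 4401061743) (nat_lit 1672) (nat_lit 3249869548) (nat_lit 559) (nat_lit 5) (nat_lit 580) (nat_lit 5) (nat_lit 581) (nat_lit 5) (nat_lit 422) (nat_lit 394) (nat_lit 324)) (XT.lf (nat_lit 0) (nat_lit 5269043891) (nat_lit 1596) (nat_lit 1538315318) (nat_lit 1672) (nat_lit 1317169843) (nat_lit 559) (nat_lit 5) (nat_lit 580) (nat_lit 5) (nat_lit 581) (nat_lit 5) (nat_lit 423) (nat_lit 394) (nat_lit 323))) (XT.nd (nat_lit 78) (nat_lit 1748) (nat_lit 0) (XT.lf (nat_lit 0) (nat_lit 633634263) (nat_lit 1748) (nat_lit 6170260442) (nat_lit 76) (nat_lit 1385757583) (nat_lit 536) (nat_lit 5) (nat_lit 559) (nat_lit 5) (nat_lit 537) (nat_lit 5) (nat_lit 424) (nat_lit 394) (nat_lit 322)) (XT.nd (nat_lit 78) (nat_lit 1748) (nat_lit 0) (XT.lf (nat_lit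 0) (nat_lit 2601561969) (nat_lit 1748) (nat_lit 1274307031) (nat_lit 76) (nat_lit 4380119969) (nat_lit 536) (nat_lit 5) (nat_lit 559) (nat_lit 5) (nat_lit 537) (nat_lit 5) (nat_lit 425) (nat_lit 394) (nat_lit 321)) (XT.lf (nat_lit 0) (nat_lit 3739146070) (nat_lit 1748) (nat_lit 860892616) (nat_lit 1824) (nat_lit 3723789890) (nat_lit 513) (nat_lit 5) (nat_lit 536) (nat_lit 5) (nat_lit 537) (nat_lit 5) (nat_lit 426) (nat_lit 394) (nat_lit 320))))))) (XT.nd (nat_lit 702) (nat_lit 5852) (nat_lit 0) (XT.nd (nat_lit 312) (nat_lit 2736) (nat_lit 0) (XT.nd (nat_lit 156) (nat_lit 1140) (nat_lit 0) (XT.nd (nat_lit 78) (nat_lit 76) (nat_lit 0) (XT.lf (nat_lit 0) (nat_lit 438667650) (nat_lit 1824) (nat_lit 6193044577) (nat_lit 1900) (nat_lit 1761448202) (nat_lit 489) (nat_lit 5) (nat_lit 513) (nat_lit 5) (nat_lit 514) (nat_lit 5) (nat_lit 427) (nat_lit 394) (nat_lit 319)) (XT.lf (nat_lit 0) (nat_lit 241288755) (nat_lit 1900) (nat_lit 2876269167) (nat_lit 76) (nat_lit 5346203857)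 (nat_lit 488) (nat_lit 5) (nat_lit 513) (nat_lit 5) (nat_lit 489) (nat_lit 5) (nat_lit 428) (nat_lit 394) (nat_lit 318))) (XT.nd (nat_lit 78) (nat_lit 0) (nat_lit 0) (XT.lf (nat_lit 0) (nat_lit 2243978135) (nat_lit 1216) (nat_lit 6243858015) (nat_lit 76) (nat_lit 48036471) (nat_lit 473) (nat_lit 5) (nat_lit 489) (nat_lit 5) (nat_lit 474) (nat_lit 5) (nat_lit 429) (nat_lit 394) (nat_lit 317)) (XT.lf (nat_lit 0) (nat_lit 4295502493) (nat_lit 1216) (nat_lit 1057186050) (nat_lit 76) (nat_lit 3256561514) (nat_lit 473) (nat_lit 5) (nat_lit 489) (nat_lit 5) (nat_lit 474) (nat_lit 5) (nat_lit 430) (nat_lit 394) (nat_lit 316)))) (XT.nd (nat_lit 156) (nat_lit 912) (nat_lit 0) (XT.nd (nat_lit 78) (nat_lit 912) (nat_lit 0) (XT.lf (nat_lit 0) (nat_lit 4259649010) (nat_lit 912) (nat_lit 2125384410) (nat_lit 988) (nat_lit 2299122100) (nat_lit 461) (nat_lit 5) (nat_lit 473) (nat_lit 5) (nat_lit 474) (nat_lit 5) (nat_lit 431) (nat_lit 394) (nat_lit 315)) (XT.lf (nat_lit 0) (nat_lit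 911209443) (nat_lit 912) (nat_lit 7595514414) (nat_lit 988) (nat_lit 254027858) (nat_lit 449) (nat_lit 5) (nat_lit 461) (nat_lit 5) (nat_lit 462) (nat_lit 5) (nat_lit 432) (nat_lit 394) (nat_lit 314))) (XT.nd (nat_lit 78) (nat_lit 836) (nat_lit 0) (XT.lf (nat_lit 0) (nat_lit 1821845507) (nat_lit 988) (nat_lit 2480895161) (nat_lit 76) (nat_lit 4535623201) (nat_lit 448) (nat_lit 5) (nat_lit 461) (nat_lit 5) (nat_lit 449) (nat_lit 5) (nat_lit 433) (nat_lit 394) (nat_lit 313)) (XT.nd (nat_lit 78) (nat_lit 0) (nat_lit 0) (XT.lf (nat_lit 0) (nat_lit 3003363779) (nat_lit 836) (nat_lit 922504573) (nat_lit 912) (nat_lit 4991825663) (nat_lit 437) (nat_lit 5) (nat_lit 448) (nat_lit 5) (nat_lit 449) (nat_lit 5) (nat_lit 434) (nat_lit 394) (nat_lit 312)) (XT.lf (nat_lit 0) (nat_lit 6076043125) (nat_lit 912) (nat_lit 413702106) (nat_lit 76) (nat_lit 2508784104) (nat_lit 437) (nat_lit 5) (nat_lit 449) (nat_lit 5) (nat_lit 438) (nat_lit 5) (nat_lit 435) (nat_lit 394) (nat_lit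 311)))))) (XT.nd (nat_lit 390) (nat_lit 2432) (nat_lit 0) (XT.nd (nat_lit 156) (nat_lit 1596) (nat_lit 0) (XT.nd (nat_lit 78) (nat_lit 912) (nat_lit 0) (XT.lf (nat_lit 0) (nat_lit 5230154109) (nat_lit 912) (nat_lit 3050621418) (nat_lit 988) (nat_lit 799974751) (nat_lit 425) (nat_lit 5) (nat_lit 437) (nat_lit 5) (nat_lit 438) (nat_lit 5) (nat_lit 436) (nat_lit 394) (nat_lit 310)) (XT.lf (nat_lit 0) (nat_lit 1336441103) (nat_lit 912) (nat_lit 7354446730) (nat_lit 76) (nat_lit 473763435) (nat_lit 413) (nat_lit 5) (nat_lit 425) (nat_lit 5) (nat_lit 414) (nat_lit 5) (nat_lit 437) (nat_lit 394) (nat_lit 309))) (XT.nd (nat_lit 78) (nat_lit 1596) (nat_lit 0) (XT.lf (nat_lit 0) (nat_lit 3523125261) (nat_lit 912) (nat_lit 1668778719) (nat_lit 76) (nat_lit 4057855508) (nat_lit 413) (nat_lit 5) (nat_lit 425) (nat_lit 5) (nat_lit 414) (nat_lit 5) (nat_lit 438) (nat_lit 394) (nat_lit 308)) (XT.nd (nat_lit 78) (nat_lit 760) (nat_lit 0) (XT.lf (nat_lit 0) (nat_lit 4155881731)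 (nat_lit 836) (nat_lit 1597220773) (nat_lit 912) (nat_lit 3583476181) (nat_lit 402) (nat_lit 5) (nat_lit 413) (nat_lit 5) (nat_lit 414) (nat_lit 5) (nat_lit 439) (nat_lit 394) (nat_lit 307)) (XT.lf (nat_lit 0) (nat_lit 660333892) (nat_lit 760) (nat_lit 7369254048) (nat_lit 836) (nat_lit 1395508153) (nat_lit 392) (nat_lit 5) (nat_lit 402) (nat_lit 5) (nat_lit 403) (nat_lit 5) (nat_lit 440) (nat_lit 394) (nat_lit 306))))) (XT.nd (nat_lit 156) (nat_lit 1596) (nat_lit 0) (XT.nd (nat_lit 78) (nat_lit 760) (nat_lit 0) (XT.lf (nat_lit 0) (nat_lit 843901580) (nat_lit 836) (nat_lit 2872240471) (nat_lit 76) (nat_lit 5798760221) (nat_lit 391) (nat_lit 5) (nat_lit 402) (nat_lit 5) (nat_lit 392) (nat_lit 5) (nat_lit 441) (nat_lit 394) (nat_lit 305)) (XT.lf (nat_lit 0) (nat_lit 3103672115) (nat_lit 836) (nat_lit 6465742413) (nat_lit 76) (nat_lit 37020392) (nat_lit 381) (nat_lit 5) (nat_lit 392) (nat_lit 5) (nat_lit 382) (nat_lit 5) (nat_lit 442) (nat_lit 394) (nat_lit 304)))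 (XT.nd (nat_lit 78) (nat_lit 1596) (nat_lit 0) (XT.lf (nat_lit 0) (nat_lit 5426565386) (nat_lit 836) (nat_lit 440786318) (nat_lit 76) (nat_lit 3832087971) (nat_lit 381) (nat_lit 5) (nat_lit 392) (nat_lit 5) (nat_lit 382) (nat_lit 5) (nat_lit 443) (nat_lit 394) (nat_lit 303)) (XT.nd (nat_lit 78) (nat_lit 836) (nat_lit 0) (XT.lf (nat_lit 0) (nat_lit 5751220875) (nat_lit 760) (nat_lit 2056463078) (nat_lit 836) (nat_lit 1986385222) (nat_lit 371) (nat_lit 5) (nat_lit 381) (nat_lit 5) (nat_lit 382) (nat_lit 5) (nat_lit 444) (nat_lit 394) (nat_lit 302)) (XT.lf (nat_lit 0) (nat_lit 344993532) (nat_lit 836) (nat_lit 7722892483) (nat_lit 76) (nat_lit 1822586433) (nat_lit 360) (nat_lit 5) (nat_lit 371) (nat_lit 5) (nat_lit 361) (nat_lit 5) (nat_lit 445) (nat_lit 394) (nat_lit 301))))))))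
noncomputable def xc84 : XT := (XT.nd (nat_lit 55458) (nat_lit 0) (nat_lit 29488) (XT.nd (nat_lit 702) (nat_lit 3648) (nat_lit 0) (XT.nd (nat_lit 312) (nat_lit 2128) (nat_lit 0) (XT.nd (nat_lit 156) (nat_lit 684) (nat_lit 0) (XT.nd (nat_lit 78) (nat_lit 684) (nat_lit 0) (XT.lf (nat_lit 0) (nat_lit 2712217083) (nat_lit 836) (nat_lit 1487507438) (nat_lit 76) (nat_lit 5788500365) (nat_lit 360) (nat_lit 5) (nat_lit 371) (nat_lit 5) (nat_lit 361) (nat_lit 5) (nat_lit 446) (nat_lit 394) (nat_lit 300)) (XT.lf (nat_lit 0) (nat_lit 4908220821) (nat_lit 684) (nat_lit 225786404) (nat_lit 760) (nat_lit 4953780705) (nat_lit 351) (nat_lit 5) (nat_lit 360) (nat_lit 5) (nat_lit 361) (nat_lit 5) (nat_lit 447) (nat_lit 394) (nat_lit 299))) (XT.nd (nat_lit 78) (nat_lit 0) (nat_lit 0) (XT.lf (nat_lit 0) (nat_lit 1225026111) (nat_lit 684) (nat_lit 6397685637) (nat_lit 760) (nat_lit 2566260917) (nat_lit 342) (nat_lit 5) (nat_lit 351) (nat_lit 5) (nat_lit 352) (nat_lit 5) (nat_lit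 448) (nat_lit 394) (nat_lit 298)) (XT.lf (nat_lit 0) (nat_lit 7797589979) (nat_lit 684) (nat_lit 2375759596) (nat_lit 760) (nat_lit 118588334) (nat_lit 342) (nat_lit 5) (nat_lit 351) (nat_lit 5) (nat_lit 352) (nat_lit 5) (nat_lit 449) (nat_lit 394) (nat_lit 297)))) (XT.nd (nat_lit 156) (nat_lit 684) (nat_lit 0) (XT.nd (nat_lit 78) (nat_lit 684) (nat_lit 0) (XT.lf (nat_lit 0) (nat_lit 2361254307) (nat_lit 760) (nat_lit 6293453730) (nat_lit 76) (nat_lit 1741657526) (nat_lit 332) (nat_lit 5) (nat_lit 342) (nat_lit 5) (nat_lit 333) (nat_lit 5) (nat_lit 450) (nat_lit 394) (nat_lit 296)) (XT.lf (nat_lit 0) (nat_lit 322159486) (nat_lit 684) (nat_lit 4578104350) (nat_lit 760) (nat_lit 5602379097) (nat_lit 323) (nat_lit 5) (nat_lit 332) (nat_lit 5) (nat_lit 333) (nat_lit 5) (nat_lit 451) (nat_lit 394) (nat_lit 295))) (XT.nd (nat_lit 78) (nat_lit 684) (nat_lit 0) (XT.lf (nat_lit 0) (nat_lit 7126766662) (nat_lit 684) (nat_lit 382276579) (nat_lit 760) (nat_lit 3101622816)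 (nat_lit 323) (nat_lit 5) (nat_lit 332) (nat_lit 5) (nat_lit 333) (nat_lit 5) (nat_lit 452) (nat_lit 394) (nat_lit 294)) (XT.nd (nat_lit 78) (nat_lit 76) (nat_lit 0) (XT.lf (nat_lit 0) (nat_lit 3336583420) (nat_lit 608) (nat_lit 6857561833) (nat_lit 684) (nat_lit 526221452) (nat_lit 315) (nat_lit 5) (nat_lit 323) (nat_lit 5) (nat_lit 324) (nat_lit 5) (nat_lit 453) (nat_lit 394) (nat_lit 293)) (XT.lf (nat_lit 0) (nat_lit 2076495397) (nat_lit 684) (nat_lit 536020445) (nat_lit 76) (nat_lit 8219405573) (nat_lit 314) (nat_lit 5) (nat_lit 323) (nat_lit 5) (nat_lit 315) (nat_lit 5) (nat_lit 454) (nat_lit 394) (nat_lit 292)))))) (XT.nd (nat_lit 390) (nat_lit 1216) (nat_lit 0) (XT.nd (nat_lit 156) (nat_lit 1216) (nat_lit 0) (XT.nd (nat_lit 78) (nat_lit 608) (nat_lit 0) (XT.lf (nat_lit 0) (nat_lit 4755599480) (nat_lit 684) (nat_lit 4454202044) (nat_lit 76) (nat_lit 1735208551) (nat_lit 306) (nat_lit 5) (nat_lit 315) (nat_lit 5) (nat_lit 307) (nat_lit 5) (nat_lit 455) (nat_lit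 394) (nat_lit 291)) (XT.lf (nat_lit 0) (nat_lit 2593581418) (nat_lit 608) (nat_lit 4910421691) (nat_lit 684) (nat_lit 3556043049) (nat_lit 298) (nat_lit 5) (nat_lit 306) (nat_lit 5) (nat_lit 307) (nat_lit 5) (nat_lit 456) (nat_lit 394) (nat_lit 290))) (XT.nd (nat_lit 78) (nat_lit 1216) (nat_lit 0) (XT.lf (nat_lit 0) (nat_lit 9814625319) (nat_lit 608) (nat_lit 500845483) (nat_lit 684) (nat_lit 861750240) (nat_lit 298) (nat_lit 5) (nat_lit 306) (nat_lit 5) (nat_lit 307) (nat_lit 5) (nat_lit 457) (nat_lit 394) (nat_lit 289)) (XT.nd (nat_lit 78) (nat_lit 532) (nat_lit 0) (XT.lf (nat_lit 0) (nat_lit 1904867550) (nat_lit 684) (nat_lit 5401452699) (nat_lit 76) (nat_lit 3989310617) (nat_lit 289) (nat_lit 5) (nat_lit 298) (nat_lit 5) (nat_lit 290) (nat_lit 5) (nat_lit 458) (nat_lit 394) (nat_lit 288)) (XT.lf (nat_lit 0) (nat_lit 1885972807) (nat_lit 532) (nat_lit 2832775832) (nat_lit 608) (nat_lit 6697476928) (nat_lit 282) (nat_lit 5) (nat_lit 289) (nat_lit 5) (nat_lit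 290) (nat_lit 5) (nat_lit 459) (nat_lit 394) (nat_lit 287))))) (XT.nd (nat_lit 156) (nat_lit 608) (nat_lit 0) (XT.nd (nat_lit 78) (nat_lit 608) (nat_lit 0) (XT.lf (nat_lit 0) (nat_lit 7615513973) (nat_lit 608) (nat_lit 2185819035) (nat_lit 76) (nat_lit 1737367022) (nat_lit 282) (nat_lit 5) (nat_lit 290) (nat_lit 5) (nat_lit 283) (nat_lit 5) (nat_lit 460) (nat_lit 394) (nat_lit 286)) (XT.lf (nat_lit 0) (nat_lit 5328984007) (nat_lit 608) (nat_lit 5273890134) (nat_lit 684) (nat_lit 1060096651) (nat_lit 274) (nat_lit 5) (nat_lit 282) (nat_lit 5) (nat_lit 283) (nat_lit 5) (nat_lit 461) (nat_lit 394) (nat_lit 285))) (XT.nd (nat_lit 78) (nat_lit 0) (nat_lit 0) (XT.lf (nat_lit 0) (nat_lit 1210234349) (nat_lit 532) (nat_lit 627637484) (nat_lit 608) (nat_lit 9951573277) (nat_lit 266) (nat_lit 5) (nat_lit 273) (nat_lit 5) (nat_lit 274) (nat_lit 5) (nat_lit 462) (nat_lit 394) (nat_lit 284)) (XT.nd (nat_lit 54054) (nat_lit 0) (nat_lit 34884) (XT.lf (nat_lit 0) (nat_lit 4828669616)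 (nat_lit 608) (nat_lit 2988317251) (nat_lit 76) (nat_lit 4100340613) (nat_lit 266) (nat_lit 5) (nat_lit 274) (nat_lit 5) (nat_lit 267) (nat_lit 5) (nat_lit 463) (nat_lit 394) (nat_lit 283)) (XT.lf (nat_lit 0) (nat_lit 2619919279) (nat_lit 988) (nat_lit 407220190) (nat_lit 988) (nat_lit 407220190) (nat_lit 725) (nat_lit 3) (nat_lit 738) (nat_lit 3) (nat_lit 738) (nat_lit 5) (nat_lit 395) (nat_lit 395) (nat_lit 350))))))) (XT.nd (nat_lit 702) (nat_lit 2356) (nat_lit 0) (XT.nd (nat_lit 312) (nat_lit 2052) (nat_lit 0) (XT.nd (nat_lit 156) (nat_lit 0) (nat_lit 0) (XT.nd (nat_lit 78) (nat_lit 0) (nat_lit 0) (XT.lf (nat_lit 0) (nat_lit 370196840) (nat_lit 988) (nat_lit 4245491937) (nat_lit 1064) (nat_lit 2282055571) (nat_lit 712) (nat_lit 5) (nat_lit 725) (nat_lit 3) (nat_lit 726) (nat_lit 5) (nat_lit 396) (nat_lit 395) (nat_lit 349)) (XT.lf (nat_lit 0) (nat_lit 2340950528) (nat_lit 988) (nat_lit 766051213) (nat_lit 1064) (nat_lit 3821062694) (nat_lit 712) (nat_lit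 5) (nat_lit 725) (nat_lit 3) (nat_lit 726) (nat_lit 5) (nat_lit 397) (nat_lit 395) (nat_lit 348))) (XT.nd (nat_lit 78) (nat_lit 0) (nat_lit 76) (XT.lf (nat_lit 76) (nat_lit 2792836116) (nat_lit 0) (nat_lit 1525419393) (nat_lit 1064) (nat_lit 2641392690) (nat_lit 713) (nat_lit 5) (nat_lit 712) (nat_lit 5) (nat_lit 726) (nat_lit 5) (nat_lit 398) (nat_lit 395) (nat_lit 347)) (XT.lf (nat_lit 0) (nat_lit 6290834868) (nat_lit 988) (nat_lit 586830757) (nat_lit 1064) (nat_lit 115083448) (nat_lit 713) (nat_lit 5) (nat_lit 726) (nat_lit 5) (nat_lit 727) (nat_lit 5) (nat_lit 399) (nat_lit 395) (nat_lit 346)))) (XT.nd (nat_lit 156) (nat_lit 1064) (nat_lit 0) (XT.nd (nat_lit 78) (nat_lit 0) (nat_lit 0) (XT.lf (nat_lit 0) (nat_lit 1240472111) (nat_lit 1064) (nat_lit 3967379058) (nat_lit 1140) (nat_lit 1818877901) (nat_lit 699) (nat_lit 5) (nat_lit 713) (nat_lit 5) (nat_lit 714) (nat_lit 5) (nat_lit 400) (nat_lit 395) (nat_lit 345)) (XT.lf (nat_lit 0) (nat_lit 3167711117) (nat_lit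 1064) (nat_lit 307248793) (nat_lit 1140) (nat_lit 3587227890) (nat_lit 699) (nat_lit 5) (nat_lit 713) (nat_lit 5) (nat_lit 714) (nat_lit 5) (nat_lit 401) (nat_lit 395) (nat_lit 344))) (XT.nd (nat_lit 78) (nat_lit 1064) (nat_lit 0) (XT.lf (nat_lit 76) (nat_lit 3444123580) (nat_lit 0) (nat_lit 1664115980) (nat_lit 1140) (nat_lit 1990621252) (nat_lit 700) (nat_lit 5) (nat_lit 699) (nat_lit 5) (nat_lit 714) (nat_lit 5) (nat_lit 402) (nat_lit 395) (nat_lit 343)) (XT.nd (nat_lit 78) (nat_lit 1140) (nat_lit 0) (XT.lf (nat_lit 76) (nat_lit 110693796) (nat_lit 0) (nat_lit 6934137766) (nat_lit 1140) (nat_lit 92290663) (nat_lit 701) (nat_lit 5) (nat_lit 700) (nat_lit 5) (nat_lit 715) (nat_lit 5) (nat_lit 403) (nat_lit 395) (nat_lit 342)) (XT.lf (nat_lit 0) (nat_lit 1809232304) (nat_lit 1140) (nat_lit 3226289212) (nat_lit 1216) (nat_lit 2140599694) (nat_lit 685) (nat_lit 5) (nat_lit 700) (nat_lit 5) (nat_lit 701) (nat_lit 5) (nat_lit 404) (nat_lit 395) (nat_lit 341))))))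 (XT.nd (nat_lit 390) (nat_lit 1216) (nat_lit 0) (XT.nd (nat_lit 156) (nat_lit 1140) (nat_lit 0) (XT.nd (nat_lit 78) (nat_lit 0) (nat_lit 0) (XT.lf (nat_lit 76) (nat_lit 629607186) (nat_lit 0) (nat_lit 3076641538) (nat_lit 1216) (nat_lit 3510465274) (nat_lit 686) (nat_lit 5) (nat_lit 685) (nat_lit 5) (nat_lit 701) (nat_lit 5) (nat_lit 405) (nat_lit 395) (nat_lit 340)) (XT.lf (nat_lit 76) (nat_lit 4578646395) (nat_lit 0) (nat_lit 1039529066) (nat_lit 1216) (nat_lit 1640403783) (nat_lit 686) (nat_lit 5) (nat_lit 685) (nat_lit 5) (nat_lit 701) (nat_lit 5) (nat_lit 406) (nat_lit 395) (nat_lit 339))) (XT.nd (nat_lit 78) (nat_lit 0) (nat_lit 0) (XT.lf (nat_lit 0) (nat_lit 234771044) (nat_lit 1216) (nat_lit 6016020101) (nat_lit 1292) (nat_lit 1051031678) (nat_lit 670) (nat_lit 5) (nat_lit 686) (nat_lit 5) (nat_lit 687) (nat_lit 5) (nat_lit 407) (nat_lit 395) (nat_lit 338)) (XT.nd (nat_lit 78) (nat_lit 0) (nat_lit 0) (XT.lf (nat_lit 0) (nat_lit 2107186369) (nat_lit 1216)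 (nat_lit 2024797842) (nat_lit 1292) (nat_lit 3214096161) (nat_lit 670) (nat_lit 5) (nat_lit 686) (nat_lit 5) (nat_lit 687) (nat_lit 5) (nat_lit 408) (nat_lit 395) (nat_lit 337)) (XT.lf (nat_lit 76) (nat_lit 2045090743) (nat_lit 0) (nat_lit 1942780790) (nat_lit 1292) (nat_lit 3403935108) (nat_lit 671) (nat_lit 5) (nat_lit 670) (nat_lit 5) (nat_lit 687) (nat_lit 5) (nat_lit 409) (nat_lit 395) (nat_lit 336))))) (XT.nd (nat_lit 156) (nat_lit 0) (nat_lit 0) (XT.nd (nat_lit 78) (nat_lit 1292) (nat_lit 0) (XT.lf (nat_lit 0) (nat_lit 5880018475) (nat_lit 1216) (nat_lit 1245048934) (nat_lit 1292) (nat_lit 313903065) (nat_lit 671) (nat_lit 5) (nat_lit 687) (nat_lit 5) (nat_lit 688) (nat_lit 5) (nat_lit 410) (nat_lit 395) (nat_lit 335)) (XT.lf (nat_lit 0) (nat_lit 309669848) (nat_lit 1292) (nat_lit 4553160646) (nat_lit 1368) (nat_lit 2624385669) (nat_lit 654) (nat_lit 5) (nat_lit 671) (nat_lit 5) (nat_lit 672) (nat_lit 5) (nat_lit 411) (nat_lit 395) (nat_lit 334))) (XT.nd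 (nat_lit 78) (nat_lit 0) (nat_lit 0) (XT.lf (nat_lit 0) (nat_lit 2162677396) (nat_lit 1292) (nat_lit 361533308) (nat_lit 1368) (nat_lit 5012652216) (nat_lit 654) (nat_lit 5) (nat_lit 671) (nat_lit 5) (nat_lit 672) (nat_lit 5) (nat_lit 412) (nat_lit 395) (nat_lit 333)) (XT.nd (nat_lit 78) (nat_lit 0) (nat_lit 76) (XT.lf (nat_lit 76) (nat_lit 3937615039) (nat_lit 0) (nat_lit 100948460) (nat_lit 1368) (nat_lit 3549222744) (nat_lit 655) (nat_lit 5) (nat_lit 654) (nat_lit 5) (nat_lit 672) (nat_lit 5) (nat_lit 413) (nat_lit 395) (nat_lit 332)) (XT.lf (nat_lit 76) (nat_lit 652489303) (nat_lit 0) (nat_lit 5282474956) (nat_lit 1368) (nat_lit 1705103836) (nat_lit 656) (nat_lit 5) (nat_lit 655) (nat_lit 5) (nat_lit 673) (nat_lit 5) (nat_lit 414) (nat_lit 395) (nat_lit 331))))))))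
noncomputable def xc85 : XT := (XT.nd (nat_lit 1482) (nat_lit 9500) (nat_lit 0) (XT.nd (nat_lit 702) (nat_lit 8436) (nat_lit 0) (XT.nd (nat_lit 312) (nat_lit 4636) (nat_lit 0) (XT.nd (nat_lit 156) (nat_lit 1292) (nat_lit 0) (XT.nd (nat_lit 78) (nat_lit 0) (nat_lit 0) (XT.lf (nat_lit 0) (nat_lit 160168166) (nat_lit 1368) (nat_lit 2633150027) (nat_lit 1444) (nat_lit 4900322996) (nat_lit 637) (nat_lit 5) (nat_lit 655) (nat_lit 5) (nat_lit 656) (nat_lit 5) (nat_lit 415) (nat_lit 395) (nat_lit 330)) (XT.lf (nat_lit 76) (nat_lit 1792194306) (nat_lit 0) (nat_lit 221389501) (nat_lit 1444) (nat_lit 5735003133) (nat_lit 638) (nat_lit 5) (nat_lit 637) (nat_lit 5) (nat_lit 656) (nat_lit 5) (nat_lit 416) (nat_lit 395) (nat_lit 329))) (XT.nd (nat_lit 78) (nat_lit 1368) (nat_lit 0) (XT.lf (nat_lit 0) (nat_lit 3900083602) (nat_lit 1368) (nat_lit 1507259453) (nat_lit 76) (nat_lit 2397368234) (nat_lit 638) (nat_lit 5) (nat_lit 656) (nat_lit 5) (nat_lit 639) (nat_lit 5) (nat_lit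 417) (nat_lit 395) (nat_lit 328)) (XT.lf (nat_lit 0) (nat_lit 3040832516) (nat_lit 1368) (nat_lit 2768056568) (nat_lit 1444) (nat_lit 2053377527) (nat_lit 620) (nat_lit 5) (nat_lit 638) (nat_lit 5) (nat_lit 639) (nat_lit 5) (nat_lit 418) (nat_lit 395) (nat_lit 327)))) (XT.nd (nat_lit 156) (nat_lit 3116) (nat_lit 0) (XT.nd (nat_lit 78) (nat_lit 1520) (nat_lit 0) (XT.lf (nat_lit 0) (nat_lit 7672065938) (nat_lit 1368) (nat_lit 57820557) (nat_lit 1444) (nat_lit 191606230) (nat_lit 620) (nat_lit 5) (nat_lit 638) (nat_lit 5) (nat_lit 639) (nat_lit 5) (nat_lit 419) (nat_lit 395) (nat_lit 326)) (XT.lf (nat_lit 0) (nat_lit 1696049313) (nat_lit 1520) (nat_lit 3566801888) (nat_lit 76) (nat_lit 2718609613) (nat_lit 600) (nat_lit 5) (nat_lit 620) (nat_lit 5) (nat_lit 601) (nat_lit 5) (nat_lit 420) (nat_lit 395) (nat_lit 325))) (XT.nd (nat_lit 78) (nat_lit 1596) (nat_lit 0) (XT.lf (nat_lit 0) (nat_lit 1117065963) (nat_lit 1520) (nat_lit 2476087144) (nat_lit 1596) (nat_lit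 4449964612) (nat_lit 580) (nat_lit 5) (nat_lit 600) (nat_lit 5) (nat_lit 601) (nat_lit 5) (nat_lit 421) (nat_lit 395) (nat_lit 324)) (XT.nd (nat_lit 78) (nat_lit 1596) (nat_lit 0) (XT.lf (nat_lit 0) (nat_lit 5520150640) (nat_lit 1596) (nat_lit 2194381913) (nat_lit 76) (nat_lit 391636178) (nat_lit 580) (nat_lit 5) (nat_lit 601) (nat_lit 5) (nat_lit 581) (nat_lit 5) (nat_lit 422) (nat_lit 395) (nat_lit 323)) (XT.lf (nat_lit 0) (nat_lit 2621199469) (nat_lit 1596) (nat_lit 4864061069) (nat_lit 1672) (nat_lit 685228776) (nat_lit 559) (nat_lit 5) (nat_lit 580) (nat_lit 5) (nat_lit 581) (nat_lit 5) (nat_lit 423) (nat_lit 395) (nat_lit 322)))))) (XT.nd (nat_lit 390) (nat_lit 3040) (nat_lit 0) (XT.nd (nat_lit 156) (nat_lit 3648) (nat_lit 0) (XT.nd (nat_lit 78) (nat_lit 1672) (nat_lit 0) (XT.lf (nat_lit 0) (nat_lit 1218371868) (nat_lit 1672) (nat_lit 710159418) (nat_lit 76) (nat_lit 6307777513) (nat_lit 558) (nat_lit 5) (nat_lit 580) (nat_lit 5) (nat_lit 559) (nat_lit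 5) (nat_lit 424) (nat_lit 395) (nat_lit 321)) (XT.lf (nat_lit 0) (nat_lit 3152695743) (nat_lit 1748) (nat_lit 4062077287) (nat_lit 76) (nat_lit 1088544527) (nat_lit 536) (nat_lit 5) (nat_lit 559) (nat_lit 5) (nat_lit 537) (nat_lit 5) (nat_lit 425) (nat_lit 395) (nat_lit 320))) (XT.nd (nat_lit 78) (nat_lit 1900) (nat_lit 0) (XT.lf (nat_lit 0) (nat_lit 899840122) (nat_lit 1748) (nat_lit 4216839362) (nat_lit 1824) (nat_lit 3255167540) (nat_lit 513) (nat_lit 5) (nat_lit 536) (nat_lit 5) (nat_lit 537) (nat_lit 5) (nat_lit 426) (nat_lit 395) (nat_lit 319)) (XT.nd (nat_lit 78) (nat_lit 1900) (nat_lit 0) (XT.lf (nat_lit 0) (nat_lit 5987367091) (nat_lit 1748) (nat_lit 1127846434) (nat_lit 1824) (nat_lit 1326628141) (nat_lit 513) (nat_lit 5) (nat_lit 536) (nat_lit 5) (nat_lit 537) (nat_lit 5) (nat_lit 427) (nat_lit 395) (nat_lit 318)) (XT.lf (nat_lit 0) (nat_lit 631116679) (nat_lit 1900) (nat_lit 5861071872) (nat_lit 76) (nat_lit 2020983790) (nat_lit 488) (nat_lit 5) (nat_lit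 513) (nat_lit 5) (nat_lit 489) (nat_lit 5) (nat_lit 428) (nat_lit 395) (nat_lit 317))))) (XT.nd (nat_lit 156) (nat_lit 1900) (nat_lit 0) (XT.nd (nat_lit 78) (nat_lit 1140) (nat_lit 0) (XT.lf (nat_lit 0) (nat_lit 2603202865) (nat_lit 1900) (nat_lit 736887154) (nat_lit 76) (nat_lit 5245805228) (nat_lit 488) (nat_lit 5) (nat_lit 513) (nat_lit 5) (nat_lit 489) (nat_lit 5) (nat_lit 429) (nat_lit 395) (nat_lit 316)) (XT.lf (nat_lit 0) (nat_lit 4520637754) (nat_lit 1140) (nat_lit 92938450) (nat_lit 1216) (nat_lit 4046519499) (nat_lit 473) (nat_lit 5) (nat_lit 488) (nat_lit 5) (nat_lit 489) (nat_lit 5) (nat_lit 430) (nat_lit 395) (nat_lit 315))) (XT.nd (nat_lit 78) (nat_lit 988) (nat_lit 0) (XT.lf (nat_lit 0) (nat_lit 1122550169) (nat_lit 912) (nat_lit 5544694918) (nat_lit 988) (nat_lit 2068473320) (nat_lit 461) (nat_lit 5) (nat_lit 473) (nat_lit 5) (nat_lit 474) (nat_lit 5) (nat_lit 431) (nat_lit 395) (nat_lit 314)) (XT.nd (nat_lit 78) (nat_lit 988) (nat_lit 0) (XT.lf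 (nat_lit 0) (nat_lit 6516616868) (nat_lit 912) (nat_lit 2244084689) (nat_lit 988) (nat_lit 52177723) (nat_lit 461) (nat_lit 5) (nat_lit 473) (nat_lit 5) (nat_lit 474) (nat_lit 5) (nat_lit 432) (nat_lit 395) (nat_lit 313)) (XT.lf (nat_lit 0) (nat_lit 1976682326) (nat_lit 988) (nat_lit 5772541605) (nat_lit 76) (nat_lit 1142128615) (nat_lit 448) (nat_lit 5) (nat_lit 461) (nat_lit 5) (nat_lit 449) (nat_lit 5) (nat_lit 433) (nat_lit 395) (nat_lit 312))))))) (XT.nd (nat_lit 702) (nat_lit 5168) (nat_lit 0) (XT.nd (nat_lit 312) (nat_lit 2508) (nat_lit 0) (XT.nd (nat_lit 156) (nat_lit 988) (nat_lit 0) (XT.nd (nat_lit 78) (nat_lit 836) (nat_lit 0) (XT.lf (nat_lit 0) (nat_lit 4046902504) (nat_lit 988) (nat_lit 341974623) (nat_lit 76) (nat_lit 4582481617) (nat_lit 448) (nat_lit 5) (nat_lit 461) (nat_lit 5) (nat_lit 449) (nat_lit 5) (nat_lit 434) (nat_lit 395) (nat_lit 311)) (XT.lf (nat_lit 0) (nat_lit 5237571216) (nat_lit 836) (nat_lit 926636431) (nat_lit 912) (nat_lit 2888643811)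 (nat_lit 437) (nat_lit 5) (nat_lit 448) (nat_lit 5) (nat_lit 449) (nat_lit 5) (nat_lit 435) (nat_lit 395) (nat_lit 310))) (XT.nd (nat_lit 78) (nat_lit 76) (nat_lit 0) (XT.lf (nat_lit 0) (nat_lit 1775072517) (nat_lit 912) (nat_lit 6551580037) (nat_lit 988) (nat_lit 809265597) (nat_lit 425) (nat_lit 5) (nat_lit 437) (nat_lit 5) (nat_lit 438) (nat_lit 5) (nat_lit 436) (nat_lit 395) (nat_lit 309)) (XT.lf (nat_lit 0) (nat_lit 1298632338) (nat_lit 988) (nat_lit 1734883294) (nat_lit 76) (nat_lit 6186877510) (nat_lit 424) (nat_lit 5) (nat_lit 437) (nat_lit 5) (nat_lit 425) (nat_lit 5) (nat_lit 437) (nat_lit 395) (nat_lit 308)))) (XT.nd (nat_lit 156) (nat_lit 836) (nat_lit 0) (XT.nd (nat_lit 78) (nat_lit 836) (nat_lit 0) (XT.lf (nat_lit 0) (nat_lit 3440555697) (nat_lit 912) (nat_lit 5287589548) (nat_lit 76) (nat_lit 578251333) (nat_lit 413) (nat_lit 5) (nat_lit 425) (nat_lit 5) (nat_lit 414) (nat_lit 5) (nat_lit 438) (nat_lit 395) (nat_lit 307)) (XT.lf (nat_lit 0) (nat_lit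 474605653) (nat_lit 836) (nat_lit 5158716286) (nat_lit 912) (nat_lit 3760638056) (nat_lit 402) (nat_lit 5) (nat_lit 413) (nat_lit 5) (nat_lit 414) (nat_lit 5) (nat_lit 439) (nat_lit 395) (nat_lit 306))) (XT.nd (nat_lit 78) (nat_lit 836) (nat_lit 0) (XT.lf (nat_lit 0) (nat_lit 6395254936) (nat_lit 836) (nat_lit 1483627810) (nat_lit 912) (nat_lit 1604213148) (nat_lit 402) (nat_lit 5) (nat_lit 413) (nat_lit 5) (nat_lit 414) (nat_lit 5) (nat_lit 440) (nat_lit 395) (nat_lit 305)) (XT.nd (nat_lit 78) (nat_lit 0) (nat_lit 0) (XT.lf (nat_lit 0) (nat_lit 594784669) (nat_lit 836) (nat_lit 6723162141) (nat_lit 76) (nat_lit 2255845348) (nat_lit 391) (nat_lit 5) (nat_lit 402) (nat_lit 5) (nat_lit 392) (nat_lit 5) (nat_lit 441) (nat_lit 395) (nat_lit 304)) (XT.lf (nat_lit 0) (nat_lit 2821107650) (nat_lit 836) (nat_lit 765319076) (nat_lit 76) (nat_lit 6079567031) (nat_lit 391) (nat_lit 5) (nat_lit 402) (nat_lit 5) (nat_lit 392) (nat_lit 5) (nat_lit 442) (nat_lit 395) (nat_lit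 303)))))) (XT.nd (nat_lit 390) (nat_lit 2128) (nat_lit 0) (XT.nd (nat_lit 156) (nat_lit 1520) (nat_lit 0) (XT.nd (nat_lit 78) (nat_lit 760) (nat_lit 0) (XT.lf (nat_lit 0) (nat_lit 5102987067) (nat_lit 836) (nat_lit 4407604529) (nat_lit 76) (nat_lit 249227192) (nat_lit 381) (nat_lit 5) (nat_lit 392) (nat_lit 5) (nat_lit 382) (nat_lit 5) (nat_lit 443) (nat_lit 395) (nat_lit 302)) (XT.lf (nat_lit 0) (nat_lit 1717484576) (nat_lit 760) (nat_lit 5728019548) (nat_lit 836) (nat_lit 2409716195) (nat_lit 371) (nat_lit 5) (nat_lit 381) (nat_lit 5) (nat_lit 382) (nat_lit 5) (nat_lit 444) (nat_lit 395) (nat_lit 301))) (XT.nd (nat_lit 78) (nat_lit 1520) (nat_lit 0) (XT.lf (nat_lit 0) (nat_lit 7996697837) (nat_lit 760) (nat_lit 1842988166) (nat_lit 836) (nat_lit 112747588) (nat_lit 371) (nat_lit 5) (nat_lit 381) (nat_lit 5) (nat_lit 382) (nat_lit 5) (nat_lit 445) (nat_lit 395) (nat_lit 300)) (XT.nd (nat_lit 78) (nat_lit 684) (nat_lit 0) (XT.lf (nat_lit 0) (nat_lit 2218836228)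 (nat_lit 836) (nat_lit 5700475273) (nat_lit 76) (nat_lit 2131631539) (nat_lit 360) (nat_lit 5) (nat_lit 371) (nat_lit 5) (nat_lit 361) (nat_lit 5) (nat_lit 446) (nat_lit 395) (nat_lit 299)) (XT.lf (nat_lit 0) (nat_lit 625132370) (nat_lit 684) (nat_lit 3975723931) (nat_lit 760) (nat_lit 5550445185) (nat_lit 351) (nat_lit 5) (nat_lit 360) (nat_lit 5) (nat_lit 361) (nat_lit 5) (nat_lit 447) (nat_lit 395) (nat_lit 298))))) (XT.nd (nat_lit 156) (nat_lit 1444) (nat_lit 0) (XT.nd (nat_lit 78) (nat_lit 684) (nat_lit 0) (XT.lf (nat_lit 0) (nat_lit 7045429987) (nat_lit 760) (nat_lit 3127373732) (nat_lit 76) (nat_lit 80565117) (nat_lit 351) (nat_lit 5) (nat_lit 361) (nat_lit 5) (nat_lit 352) (nat_lit 5) (nat_lit 448) (nat_lit 395) (nat_lit 297)) (XT.lf (nat_lit 0) (nat_lit 3389643123) (nat_lit 684) (nat_lit 6174160947) (nat_lit 760) (nat_lit 793175287) (nat_lit 342) (nat_lit 5) (nat_lit 351) (nat_lit 5) (nat_lit 352) (nat_lit 5) (nat_lit 449) (nat_lit 395) (nat_lit 296)))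 (XT.nd (nat_lit 78) (nat_lit 1368) (nat_lit 0) (XT.lf (nat_lit 0) (nat_lit 1645806088) (nat_lit 760) (nat_lit 421837805) (nat_lit 76) (nat_lit 8394844887) (nat_lit 341) (nat_lit 5) (nat_lit 351) (nat_lit 5) (nat_lit 342) (nat_lit 5) (nat_lit 450) (nat_lit 395) (nat_lit 295)) (XT.nd (nat_lit 78) (nat_lit 684) (nat_lit 0) (XT.lf (nat_lit 0) (nat_lit 4155091528) (nat_lit 760) (nat_lit 4279143433) (nat_lit 76) (nat_lit 2135125671) (nat_lit 332) (nat_lit 5) (nat_lit 342) (nat_lit 5) (nat_lit 333) (nat_lit 5) (nat_lit 451) (nat_lit 395) (nat_lit 294)) (XT.lf (nat_lit 0) (nat_lit 2454701921) (nat_lit 684) (nat_lit 4269736077) (nat_lit 760) (nat_lit 3953734417) (nat_lit 323) (nat_lit 5) (nat_lit 332) (nat_lit 5) (nat_lit 333) (nat_lit 5) (nat_lit 452) (nat_lit 395) (nat_lit 293))))))))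
noncomputable def xc86 : XT := (XT.nd (nat_lit 55536) (nat_lit 0) (nat_lit 23864) (XT.nd (nat_lit 702) (nat_lit 1216) (nat_lit 0) (XT.nd (nat_lit 312) (nat_lit 1824) (nat_lit 0) (XT.nd (nat_lit 156) (nat_lit 608) (nat_lit 0) (XT.nd (nat_lit 78) (nat_lit 684) (nat_lit 0) (XT.lf (nat_lit 0) (nat_lit 9351560609) (nat_lit 760) (nat_lit 1435333978) (nat_lit 76) (nat_lit 2138062) (nat_lit 323) (nat_lit 5) (nat_lit 333) (nat_lit 5) (nat_lit 324) (nat_lit 5) (nat_lit 453) (nat_lit 395) (nat_lit 292)) (XT.lf (nat_lit 0) (nat_lit 1156669875) (nat_lit 684) (nat_lit 5403770371) (nat_lit 76) (nat_lit 4340675966) (nat_lit 314) (nat_lit 5) (nat_lit 323) (nat_lit 5) (nat_lit 315) (nat_lit 5) (nat_lit 454) (nat_lit 395) (nat_lit 291))) (XT.nd (nat_lit 78) (nat_lit 0) (nat_lit 0) (XT.lf (nat_lit 0) (nat_lit 1556221892) (nat_lit 608) (nat_lit 2225217475) (nat_lit 684) (nat_lit 7233852195) (nat_lit 306) (nat_lit 5) (nat_lit 314) (nat_lit 5) (nat_lit 315) (nat_lit 5) (nat_lit 455)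 (nat_lit 395) (nat_lit 290)) (XT.lf (nat_lit 0) (nat_lit 6487857258) (nat_lit 684) (nat_lit 2444569218) (nat_lit 76) (nat_lit 2198740884) (nat_lit 306) (nat_lit 5) (nat_lit 315) (nat_lit 5) (nat_lit 307) (nat_lit 5) (nat_lit 456) (nat_lit 395) (nat_lit 289)))) (XT.nd (nat_lit 156) (nat_lit 532) (nat_lit 0) (XT.nd (nat_lit 78) (nat_lit 684) (nat_lit 0) (XT.lf (nat_lit 0) (nat_lit 4730362565) (nat_lit 608) (nat_lit 4542302112) (nat_lit 684) (nat_lit 1976210773) (nat_lit 298) (nat_lit 5) (nat_lit 306) (nat_lit 5) (nat_lit 307) (nat_lit 5) (nat_lit 457) (nat_lit 395) (nat_lit 288)) (XT.lf (nat_lit 0) (nat_lit 690167920) (nat_lit 608) (nat_lit 44209430) (nat_lit 684) (nat_lit 10634465560) (nat_lit 289) (nat_lit 5) (nat_lit 297) (nat_lit 5) (nat_lit 298) (nat_lit 5) (nat_lit 458) (nat_lit 395) (nat_lit 287))) (XT.nd (nat_lit 78) (nat_lit 532) (nat_lit 0) (XT.lf (nat_lit 0) (nat_lit 3525385153) (nat_lit 684) (nat_lit 3429291557) (nat_lit 76) (nat_lit 4535218368) (nat_lit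 289) (nat_lit 5) (nat_lit 298) (nat_lit 5) (nat_lit 290) (nat_lit 5) (nat_lit 459) (nat_lit 395) (nat_lit 286)) (XT.nd (nat_lit 78) (nat_lit 0) (nat_lit 0) (XT.lf (nat_lit 0) (nat_lit 3990196996) (nat_lit 532) (nat_lit 2387736139) (nat_lit 608) (nat_lit 5235320753) (nat_lit 282) (nat_lit 5) (nat_lit 289) (nat_lit 5) (nat_lit 290) (nat_lit 5) (nat_lit 460) (nat_lit 395) (nat_lit 285)) (XT.lf (nat_lit 0) (nat_lit 9305144705) (nat_lit 608) (nat_lit 176061312) (nat_lit 76) (nat_lit 2257521605) (nat_lit 282) (nat_lit 5) (nat_lit 290) (nat_lit 5) (nat_lit 283) (nat_lit 5) (nat_lit 461) (nat_lit 395) (nat_lit 284)))))) (XT.nd (nat_lit 54444) (nat_lit 0) (nat_lit 31768) (XT.nd (nat_lit 54210) (nat_lit 0) (nat_lit 33896) (XT.nd (nat_lit 78) (nat_lit 532) (nat_lit 0) (XT.lf (nat_lit 0) (nat_lit 463373574) (nat_lit 684) (nat_lit 4393342191) (nat_lit 76) (nat_lit 7009045037) (nat_lit 273) (nat_lit 5) (nat_lit 282) (nat_lit 5) (nat_lit 274) (nat_lit 5) (nat_lit 462) (nat_lit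 395) (nat_lit 283)) (XT.lf (nat_lit 0) (nat_lit 3281188228) (nat_lit 532) (nat_lit 107211007) (nat_lit 608) (nat_lit 8606559379) (nat_lit 266) (nat_lit 5) (nat_lit 273) (nat_lit 5) (nat_lit 274) (nat_lit 5) (nat_lit 463) (nat_lit 395) (nat_lit 282))) (XT.nd (nat_lit 78) (nat_lit 0) (nat_lit 0) (XT.lf (nat_lit 0) (nat_lit 575674096) (nat_lit 0) (nat_lit 575674096) (nat_lit 988) (nat_lit 2312382888) (nat_lit 712) (nat_lit 5) (nat_lit 712) (nat_lit 3) (nat_lit 725) (nat_lit 3) (nat_lit 396) (nat_lit 396) (nat_lit 348)) (XT.nd (nat_lit 78) (nat_lit 0) (nat_lit 0) (XT.lf (nat_lit 0) (nat_lit 4240728854) (nat_lit 988) (nat_lit 2302450779) (nat_lit 1064) (nat_lit 415257040) (nat_lit 712) (nat_lit 5) (nat_lit 725) (nat_lit 3) (nat_lit 726) (nat_lit 5) (nat_lit 397) (nat_lit 396) (nat_lit 347)) (XT.lf (nat_lit 76) (nat_lit 1222852949) (nat_lit 0) (nat_lit 4960236629) (nat_lit 1064) (nat_lit 807629745) (nat_lit 713) (nat_lit 5) (nat_lit 712) (nat_lit 5) (nat_lit 726) (nat_lit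 5) (nat_lit 398) (nat_lit 396) (nat_lit 346))))) (XT.nd (nat_lit 156) (nat_lit 1064) (nat_lit 0) (XT.nd (nat_lit 78) (nat_lit 0) (nat_lit 0) (XT.lf (nat_lit 0) (nat_lit 1091731564) (nat_lit 1064) (nat_lit 2207704861) (nat_lit 1140) (nat_lit 3724742253) (nat_lit 698) (nat_lit 5) (nat_lit 712) (nat_lit 5) (nat_lit 713) (nat_lit 5) (nat_lit 399) (nat_lit 396) (nat_lit 345)) (XT.lf (nat_lit 76) (nat_lit 1410604663) (nat_lit 0) (nat_lit 1568289301) (nat_lit 1140) (nat_lit 4080093928) (nat_lit 699) (nat_lit 5) (nat_lit 698) (nat_lit 5) (nat_lit 713) (nat_lit 5) (nat_lit 400) (nat_lit 396) (nat_lit 344))) (XT.nd (nat_lit 78) (nat_lit 1140) (nat_lit 0) (XT.lf (nat_lit 0) (nat_lit 4872377884) (nat_lit 1064) (nat_lit 1991501677) (nat_lit 1140) (nat_lit 231242163) (nat_lit 699) (nat_lit 5) (nat_lit 713) (nat_lit 5) (nat_lit 714) (nat_lit 5) (nat_lit 401) (nat_lit 396) (nat_lit 343)) (XT.nd (nat_lit 78) (nat_lit 1140) (nat_lit 0) (XT.lf (nat_lit 76) (nat_lit 1724145137)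 (nat_lit 0) (nat_lit 5054483448) (nat_lit 1140) (nat_lit 353851706) (nat_lit 700) (nat_lit 5) (nat_lit 699) (nat_lit 5) (nat_lit 714) (nat_lit 5) (nat_lit 402) (nat_lit 396) (nat_lit 342)) (XT.lf (nat_lit 0) (nat_lit 1499266901) (nat_lit 1140) (nat_lit 1666424745) (nat_lit 1216) (nat_lit 4005348618) (nat_lit 684) (nat_lit 5) (nat_lit 699) (nat_lit 5) (nat_lit 700) (nat_lit 5) (nat_lit 403) (nat_lit 396) (nat_lit 341))))))) (XT.nd (nat_lit 702) (nat_lit 5548) (nat_lit 0) (XT.nd (nat_lit 312) (nat_lit 1216) (nat_lit 0) (XT.nd (nat_lit 156) (nat_lit 1140) (nat_lit 0) (XT.nd (nat_lit 78) (nat_lit 0) (nat_lit 76) (XT.lf (nat_lit 76) (nat_lit 2149665515) (nat_lit 0) (nat_lit 1203668862) (nat_lit 1216) (nat_lit 3857617791) (nat_lit 685) (nat_lit 5) (nat_lit 684) (nat_lit 5) (nat_lit 700) (nat_lit 5) (nat_lit 404) (nat_lit 396) (nat_lit 340)) (XT.lf (nat_lit 0) (nat_lit 5216418147) (nat_lit 1140) (nat_lit 1219369737) (nat_lit 1216) (nat_lit 816435726) (nat_lit 685) (nat_lit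 5) (nat_lit 700) (nat_lit 5) (nat_lit 701) (nat_lit 5) (nat_lit 405) (nat_lit 396) (nat_lit 339))) (XT.nd (nat_lit 78) (nat_lit 1216) (nat_lit 0) (XT.lf (nat_lit 76) (nat_lit 2700016660) (nat_lit 0) (nat_lit 4398620889) (nat_lit 1216) (nat_lit 196045453) (nat_lit 686) (nat_lit 5) (nat_lit 685) (nat_lit 5) (nat_lit 701) (nat_lit 5) (nat_lit 406) (nat_lit 396) (nat_lit 338)) (XT.lf (nat_lit 0) (nat_lit 1623476837) (nat_lit 1216) (nat_lit 661680308) (nat_lit 1292) (nat_lit 5053316072) (nat_lit 669) (nat_lit 5) (nat_lit 685) (nat_lit 5) (nat_lit 686) (nat_lit 5) (nat_lit 407) (nat_lit 396) (nat_lit 337)))) (XT.nd (nat_lit 156) (nat_lit 1216) (nat_lit 0) (XT.nd (nat_lit 78) (nat_lit 0) (nat_lit 76) (XT.lf (nat_lit 76) (nat_lit 3366141281) (nat_lit 0) (nat_lit 90099023) (nat_lit 1292) (nat_lit 3927283498) (nat_lit 670) (nat_lit 5) (nat_lit 669) (nat_lit 5) (nat_lit 686) (nat_lit 5) (nat_lit 408) (nat_lit 396) (nat_lit 336)) (XT.lf (nat_lit 76) (nat_lit 12858134) (nat_lit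 0) (nat_lit 5289681775) (nat_lit 1292) (nat_lit 2127397874) (nat_lit 671) (nat_lit 5) (nat_lit 670) (nat_lit 5) (nat_lit 687) (nat_lit 5) (nat_lit 409) (nat_lit 396) (nat_lit 335))) (XT.nd (nat_lit 78) (nat_lit 1292) (nat_lit 0) (XT.lf (nat_lit 76) (nat_lit 4150304912) (nat_lit 0) (nat_lit 3022027260) (nat_lit 1292) (nat_lit 305216537) (nat_lit 671) (nat_lit 5) (nat_lit 670) (nat_lit 5) (nat_lit 687) (nat_lit 5) (nat_lit 410) (nat_lit 396) (nat_lit 334)) (XT.nd (nat_lit 78) (nat_lit 0) (nat_lit 76) (XT.lf (nat_lit 76) (nat_lit 817774316) (nat_lit 0) (nat_lit 680123093) (nat_lit 1368) (nat_lit 6028715486) (nat_lit 654) (nat_lit 5) (nat_lit 653) (nat_lit 5) (nat_lit 671) (nat_lit 5) (nat_lit 411) (nat_lit 396) (nat_lit 333)) (XT.lf (nat_lit 0) (nat_lit 3326812314) (nat_lit 1292) (nat_lit 2526634078) (nat_lit 1368) (nat_lit 1723295113) (nat_lit 654) (nat_lit 5) (nat_lit 671) (nat_lit 5) (nat_lit 672) (nat_lit 5) (nat_lit 412) (nat_lit 396) (nat_lit 332)))))) (XT.nd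 (nat_lit 390) (nat_lit 4332) (nat_lit 0) (XT.nd (nat_lit 156) (nat_lit 1292) (nat_lit 0) (XT.nd (nat_lit 78) (nat_lit 0) (nat_lit 0) (XT.lf (nat_lit 76) (nat_lit 1729993616) (nat_lit 0) (nat_lit 3439080445) (nat_lit 1368) (nat_lit 2459263254) (nat_lit 655) (nat_lit 5) (nat_lit 654) (nat_lit 5) (nat_lit 672) (nat_lit 5) (nat_lit 413) (nat_lit 396) (nat_lit 331)) (XT.lf (nat_lit 76) (nat_lit 6078777409) (nat_lit 0) (nat_lit 947978142) (nat_lit 1368) (nat_lit 654638002) (nat_lit 655) (nat_lit 5) (nat_lit 654) (nat_lit 5) (nat_lit 672) (nat_lit 5) (nat_lit 414) (nat_lit 396) (nat_lit 330))) (XT.nd (nat_lit 78) (nat_lit 0) (nat_lit 0) (XT.lf (nat_lit 0) (nat_lit 1161282797) (nat_lit 1368) (nat_lit 4965737737) (nat_lit 1444) (nat_lit 1608521189) (nat_lit 637) (nat_lit 5) (nat_lit 655) (nat_lit 5) (nat_lit 656) (nat_lit 5) (nat_lit 415) (nat_lit 396) (nat_lit 329)) (XT.nd (nat_lit 78) (nat_lit 0) (nat_lit 0) (XT.lf (nat_lit 0) (nat_lit 2984625169) (nat_lit 1368) (nat_lit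 577675231) (nat_lit 1444) (nat_lit 4228788540) (nat_lit 637) (nat_lit 5) (nat_lit 655) (nat_lit 5) (nat_lit 656) (nat_lit 5) (nat_lit 416) (nat_lit 396) (nat_lit 328)) (XT.lf (nat_lit 76) (nat_lit 3922306661) (nat_lit 0) (nat_lit 911081143) (nat_lit 1444) (nat_lit 3014580228) (nat_lit 638) (nat_lit 5) (nat_lit 637) (nat_lit 5) (nat_lit 656) (nat_lit 5) (nat_lit 417) (nat_lit 396) (nat_lit 327))))) (XT.nd (nat_lit 156) (nat_lit 2964) (nat_lit 0) (XT.nd (nat_lit 78) (nat_lit 76) (nat_lit 0) (XT.lf (nat_lit 0) (nat_lit 582299280) (nat_lit 1368) (nat_lit 6120236405) (nat_lit 1444) (nat_lit 1203780822) (nat_lit 620) (nat_lit 5) (nat_lit 638) (nat_lit 5) (nat_lit 639) (nat_lit 5) (nat_lit 418) (nat_lit 396) (nat_lit 326)) (XT.lf (nat_lit 0) (nat_lit 631724551) (nat_lit 1444) (nat_lit 2770228154) (nat_lit 76) (nat_lit 4563857197) (nat_lit 619) (nat_lit 5) (nat_lit 638) (nat_lit 5) (nat_lit 620) (nat_lit 5) (nat_lit 419) (nat_lit 396) (nat_lit 325))) (XT.nd (nat_lit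 78) (nat_lit 1520) (nat_lit 0) (XT.lf (nat_lit 0) (nat_lit 1863485795) (nat_lit 1444) (nat_lit 601522952) (nat_lit 1520) (nat_lit 5561781532) (nat_lit 600) (nat_lit 5) (nat_lit 619) (nat_lit 5) (nat_lit 620) (nat_lit 5) (nat_lit 420) (nat_lit 396) (nat_lit 324)) (XT.nd (nat_lit 78) (nat_lit 1520) (nat_lit 0) (XT.lf (nat_lit 0) (nat_lit 4333937157) (nat_lit 1520) (nat_lit 1504127624) (nat_lit 76) (nat_lit 2250945912) (nat_lit 600) (nat_lit 5) (nat_lit 620) (nat_lit 5) (nat_lit 601) (nat_lit 5) (nat_lit 421) (nat_lit 396) (nat_lit 323)) (XT.lf (nat_lit 0) (nat_lit 3259378043) (nat_lit 1520) (nat_lit 2972311067) (nat_lit 1596) (nat_lit 1920957506) (nat_lit 580) (nat_lit 5) (nat_lit 600) (nat_lit 5) (nat_lit 601) (nat_lit 5) (nat_lit 422) (nat_lit 396) (nat_lit 322))))))))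
noncomputable def xc87 : XT := (XT.nd (nat_lit 1482) (nat_lit 9044) (nat_lit 0) (XT.nd (nat_lit 702) (nat_lit 5472) (nat_lit 0) (XT.nd (nat_lit 312) (nat_lit 4788) (nat_lit 0) (XT.nd (nat_lit 156) (nat_lit 1672) (nat_lit 0) (XT.nd (nat_lit 78) (nat_lit 1672) (nat_lit 0) (XT.lf (nat_lit 0) (nat_lit 8111105907) (nat_lit 1520) (nat_lit 33165680) (nat_lit 1596) (nat_lit 73746160) (nat_lit 580) (nat_lit 5) (nat_lit 600) (nat_lit 5) (nat_lit 601) (nat_lit 5) (nat_lit 423) (nat_lit 396) (nat_lit 321)) (XT.lf (nat_lit 0) (nat_lit 1804610433) (nat_lit 1672) (nat_lit 3505039205) (nat_lit 76) (nat_lit 2974452678) (nat_lit 558) (nat_lit 5) (nat_lit 580) (nat_lit 5) (nat_lit 559) (nat_lit 5) (nat_lit 424) (nat_lit 396) (nat_lit 320))) (XT.nd (nat_lit 78) (nat_lit 0) (nat_lit 0) (XT.lf (nat_lit 0) (nat_lit 1402560160) (nat_lit 1672) (nat_lit 2294753288) (nat_lit 1748) (nat_lit 4654630043) (nat_lit 536) (nat_lit 5) (nat_lit 558) (nat_lit 5) (nat_lit 559) (nat_lit 5) (nat_lit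 425) (nat_lit 396) (nat_lit 319)) (XT.lf (nat_lit 0) (nat_lit 5624812321) (nat_lit 1748) (nat_lit 1998385765) (nat_lit 76) (nat_lit 798004569) (nat_lit 536) (nat_lit 5) (nat_lit 559) (nat_lit 5) (nat_lit 537) (nat_lit 5) (nat_lit 426) (nat_lit 396) (nat_lit 318)))) (XT.nd (nat_lit 156) (nat_lit 2964) (nat_lit 0) (XT.nd (nat_lit 78) (nat_lit 76) (nat_lit 0) (XT.lf (nat_lit 0) (nat_lit 3048658590) (nat_lit 1748) (nat_lit 4546015332) (nat_lit 1824) (nat_lit 897096825) (nat_lit 513) (nat_lit 5) (nat_lit 536) (nat_lit 5) (nat_lit 537) (nat_lit 5) (nat_lit 427) (nat_lit 396) (nat_lit 317)) (XT.lf (nat_lit 0) (nat_lit 1009089870) (nat_lit 1824) (nat_lit 374580382) (nat_lit 76) (nat_lit 7180293888) (nat_lit 512) (nat_lit 5) (nat_lit 536) (nat_lit 5) (nat_lit 513) (nat_lit 5) (nat_lit 428) (nat_lit 396) (nat_lit 316))) (XT.nd (nat_lit 78) (nat_lit 1140) (nat_lit 0) (XT.lf (nat_lit 0) (nat_lit 2954609929) (nat_lit 1900) (nat_lit 3824462529) (nat_lit 76) (nat_lit 1858145911)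 (nat_lit 488) (nat_lit 5) (nat_lit 513) (nat_lit 5) (nat_lit 489) (nat_lit 5) (nat_lit 429) (nat_lit 396) (nat_lit 315)) (XT.nd (nat_lit 78) (nat_lit 0) (nat_lit 0) (XT.lf (nat_lit 0) (nat_lit 1378047244) (nat_lit 1140) (nat_lit 3551726598) (nat_lit 1216) (nat_lit 3782349172) (nat_lit 473) (nat_lit 5) (nat_lit 488) (nat_lit 5) (nat_lit 489) (nat_lit 5) (nat_lit 430) (nat_lit 396) (nat_lit 314)) (XT.lf (nat_lit 0) (nat_lit 6708757216) (nat_lit 1140) (nat_lit 231847198) (nat_lit 1216) (nat_lit 1847998069) (nat_lit 473) (nat_lit 5) (nat_lit 488) (nat_lit 5) (nat_lit 489) (nat_lit 5) (nat_lit 431) (nat_lit 396) (nat_lit 313)))))) (XT.nd (nat_lit 390) (nat_lit 2736) (nat_lit 0) (XT.nd (nat_lit 156) (nat_lit 1748) (nat_lit 0) (XT.nd (nat_lit 78) (nat_lit 0) (nat_lit 0) (XT.lf (nat_lit 0) (nat_lit 136313152) (nat_lit 988) (nat_lit 5593059550) (nat_lit 76) (nat_lit 3136964344) (nat_lit 460) (nat_lit 5) (nat_lit 473) (nat_lit 5) (nat_lit 461) (nat_lit 5) (nat_lit 432)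 (nat_lit 396) (nat_lit 312)) (XT.lf (nat_lit 0) (nat_lit 2122461995) (nat_lit 988) (nat_lit 225495491) (nat_lit 76) (nat_lit 6597686586) (nat_lit 460) (nat_lit 5) (nat_lit 473) (nat_lit 5) (nat_lit 461) (nat_lit 5) (nat_lit 433) (nat_lit 396) (nat_lit 311))) (XT.nd (nat_lit 78) (nat_lit 836) (nat_lit 0) (XT.lf (nat_lit 0) (nat_lit 4161921939) (nat_lit 988) (nat_lit 3742366515) (nat_lit 76) (nat_lit 1121977023) (nat_lit 448) (nat_lit 5) (nat_lit 461) (nat_lit 5) (nat_lit 449) (nat_lit 5) (nat_lit 434) (nat_lit 396) (nat_lit 310)) (XT.nd (nat_lit 78) (nat_lit 0) (nat_lit 0) (XT.lf (nat_lit 0) (nat_lit 1778060289) (nat_lit 836) (nat_lit 4464957912) (nat_lit 912) (nat_lit 2865464165) (nat_lit 437) (nat_lit 5) (nat_lit 448) (nat_lit 5) (nat_lit 449) (nat_lit 5) (nat_lit 435) (nat_lit 396) (nat_lit 309)) (XT.lf (nat_lit 0) (nat_lit 7432038289) (nat_lit 836) (nat_lit 931406919) (nat_lit 912) (nat_lit 828944209) (nat_lit 437) (nat_lit 5) (nat_lit 448) (nat_lit 5) (nat_lit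 449) (nat_lit 5) (nat_lit 436) (nat_lit 396) (nat_lit 308))))) (XT.nd (nat_lit 156) (nat_lit 912) (nat_lit 0) (XT.nd (nat_lit 78) (nat_lit 836) (nat_lit 0) (XT.lf (nat_lit 0) (nat_lit 1248026925) (nat_lit 988) (nat_lit 5358166943) (nat_lit 76) (nat_lit 2671296794) (nat_lit 424) (nat_lit 5) (nat_lit 437) (nat_lit 5) (nat_lit 425) (nat_lit 5) (nat_lit 437) (nat_lit 396) (nat_lit 307)) (XT.lf (nat_lit 0) (nat_lit 337329677) (nat_lit 836) (nat_lit 3011673218) (nat_lit 912) (nat_lit 6015310151) (nat_lit 413) (nat_lit 5) (nat_lit 424) (nat_lit 5) (nat_lit 425) (nat_lit 5) (nat_lit 438) (nat_lit 396) (nat_lit 306))) (XT.nd (nat_lit 78) (nat_lit 912) (nat_lit 0) (XT.lf (nat_lit 0) (nat_lit 5506085162) (nat_lit 912) (nat_lit 3265365448) (nat_lit 76) (nat_lit 681139533) (nat_lit 413) (nat_lit 5) (nat_lit 425) (nat_lit 5) (nat_lit 414) (nat_lit 5) (nat_lit 439) (nat_lit 396) (nat_lit 305)) (XT.nd (nat_lit 78) (nat_lit 76) (nat_lit 0) (XT.lf (nat_lit 0) (nat_lit 2598073816)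 (nat_lit 836) (nat_lit 5119206907) (nat_lit 912) (nat_lit 1825132625) (nat_lit 402) (nat_lit 5) (nat_lit 413) (nat_lit 5) (nat_lit 414) (nat_lit 5) (nat_lit 440) (nat_lit 396) (nat_lit 304)) (XT.lf (nat_lit 0) (nat_lit 330601414) (nat_lit 912) (nat_lit 1040594457) (nat_lit 76) (nat_lit 8262865650) (nat_lit 401) (nat_lit 5) (nat_lit 413) (nat_lit 5) (nat_lit 402) (nat_lit 5) (nat_lit 441) (nat_lit 396) (nat_lit 303))))))) (XT.nd (nat_lit 780) (nat_lit 3800) (nat_lit 0) (XT.nd (nat_lit 390) (nat_lit 2128) (nat_lit 0) (XT.nd (nat_lit 156) (nat_lit 1596) (nat_lit 0) (XT.nd (nat_lit 78) (nat_lit 760) (nat_lit 0) (XT.lf (nat_lit 0) (nat_lit 2528570595) (nat_lit 836) (nat_lit 4735697733) (nat_lit 76) (nat_lit 2462561868) (nat_lit 391) (nat_lit 5) (nat_lit 402) (nat_lit 5) (nat_lit 392) (nat_lit 5) (nat_lit 442) (nat_lit 396) (nat_lit 302)) (XT.lf (nat_lit 0) (nat_lit 1316968041) (nat_lit 760) (nat_lit 3453318502) (nat_lit 836) (nat_lit 5051171954) (nat_lit 381) (nat_lit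 5) (nat_lit 391) (nat_lit 5) (nat_lit 392) (nat_lit 5) (nat_lit 443) (nat_lit 396) (nat_lit 301))) (XT.nd (nat_lit 78) (nat_lit 1596) (nat_lit 0) (XT.lf (nat_lit 0) (nat_lit 7067062869) (nat_lit 836) (nat_lit 2393245343) (nat_lit 76) (nat_lit 457466631) (nat_lit 381) (nat_lit 5) (nat_lit 392) (nat_lit 5) (nat_lit 382) (nat_lit 5) (nat_lit 444) (nat_lit 396) (nat_lit 300)) (XT.nd (nat_lit 78) (nat_lit 836) (nat_lit 0) (XT.lf (nat_lit 0) (nat_lit 3840513234) (nat_lit 760) (nat_lit 5592968004) (nat_lit 836) (nat_lit 582062147) (nat_lit 371) (nat_lit 5) (nat_lit 381) (nat_lit 5) (nat_lit 382) (nat_lit 5) (nat_lit 445) (nat_lit 396) (nat_lit 299)) (XT.lf (nat_lit 0) (nat_lit 78773502) (nat_lit 760) (nat_lit 1623191022) (nat_lit 836) (nat_lit 8413223497) (nat_lit 360) (nat_lit 5) (nat_lit 370) (nat_lit 5) (nat_lit 371) (nat_lit 5) (nat_lit 446) (nat_lit 396) (nat_lit 298))))) (XT.nd (nat_lit 156) (nat_lit 1444) (nat_lit 0) (XT.nd (nat_lit 78) (nat_lit 684) (nat_lit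 0) (XT.lf (nat_lit 0) (nat_lit 4057660112) (nat_lit 836) (nat_lit 3722140432) (nat_lit 76) (nat_lit 2436272413) (nat_lit 360) (nat_lit 5) (nat_lit 371) (nat_lit 5) (nat_lit 361) (nat_lit 5) (nat_lit 447) (nat_lit 396) (nat_lit 297)) (XT.lf (nat_lit 0) (nat_lit 2716213942) (nat_lit 684) (nat_lit 3749416920) (nat_lit 760) (nat_lit 3853241505) (nat_lit 351) (nat_lit 5) (nat_lit 360) (nat_lit 5) (nat_lit 361) (nat_lit 5) (nat_lit 448) (nat_lit 396) (nat_lit 296))) (XT.nd (nat_lit 78) (nat_lit 1444) (nat_lit 0) (XT.lf (nat_lit 0) (nat_lit 8926282735) (nat_lit 760) (nat_lit 1119285445) (nat_lit 76) (nat_lit 378069150) (nat_lit 351) (nat_lit 5) (nat_lit 361) (nat_lit 5) (nat_lit 352) (nat_lit 5) (nat_lit 449) (nat_lit 396) (nat_lit 295)) (XT.nd (nat_lit 78) (nat_lit 684) (nat_lit 0) (XT.lf (nat_lit 0) (nat_lit 932140304) (nat_lit 760) (nat_lit 5021418641) (nat_lit 76) (nat_lit 4576053687) (nat_lit 341) (nat_lit 5) (nat_lit 351) (nat_lit 5) (nat_lit 342) (nat_lit 5)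 (nat_lit 450) (nat_lit 396) (nat_lit 294)) (XT.lf (nat_lit 0) (nat_lit 1630334530) (nat_lit 684) (nat_lit 1755608586) (nat_lit 760) (nat_lit 7251651020) (nat_lit 332) (nat_lit 5) (nat_lit 341) (nat_lit 5) (nat_lit 342) (nat_lit 5) (nat_lit 451) (nat_lit 396) (nat_lit 293)))))) (XT.nd (nat_lit 390) (nat_lit 1824) (nat_lit 0) (XT.nd (nat_lit 156) (nat_lit 1292) (nat_lit 0) (XT.nd (nat_lit 78) (nat_lit 684) (nat_lit 0) (XT.lf (nat_lit 0) (nat_lit 5916982416) (nat_lit 760) (nat_lit 2307652702) (nat_lit 76) (nat_lit 2522536945) (nat_lit 332) (nat_lit 5) (nat_lit 342) (nat_lit 5) (nat_lit 333) (nat_lit 5) (nat_lit 452) (nat_lit 396) (nat_lit 292)) (XT.lf (nat_lit 0) (nat_lit 4547336179) (nat_lit 684) (nat_lit 3970730222) (nat_lit 760) (nat_lit 2340486669) (nat_lit 323) (nat_lit 5) (nat_lit 332) (nat_lit 5) (nat_lit 333) (nat_lit 5) (nat_lit 453) (nat_lit 396) (nat_lit 291))) (XT.nd (nat_lit 78) (nat_lit 608) (nat_lit 0) (XT.lf (nat_lit 0) (nat_lit 196622681) (nat_lit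 684) (nat_lit 10396366840) (nat_lit 76) (nat_lit 379141887) (nat_lit 314) (nat_lit 5) (nat_lit 323) (nat_lit 5) (nat_lit 315) (nat_lit 5) (nat_lit 454) (nat_lit 396) (nat_lit 290)) (XT.nd (nat_lit 78) (nat_lit 608) (nat_lit 0) (XT.lf (nat_lit 0) (nat_lit 2800695467) (nat_lit 684) (nat_lit 3470127526) (nat_lit 76) (nat_lit 4815897700) (nat_lit 314) (nat_lit 5) (nat_lit 323) (nat_lit 5) (nat_lit 315) (nat_lit 5) (nat_lit 455) (nat_lit 396) (nat_lit 289)) (XT.lf (nat_lit 0) (nat_lit 3615632226) (nat_lit 608) (nat_lit 1843714901) (nat_lit 684) (nat_lit 5744204688) (nat_lit 306) (nat_lit 5) (nat_lit 314) (nat_lit 5) (nat_lit 315) (nat_lit 5) (nat_lit 456) (nat_lit 396) (nat_lit 288))))) (XT.nd (nat_lit 156) (nat_lit 1216) (nat_lit 0) (XT.nd (nat_lit 78) (nat_lit 608) (nat_lit 0) (XT.lf (nat_lit 0) (nat_lit 8191187826) (nat_lit 684) (nat_lit 476239469) (nat_lit 76) (nat_lit 2654891943) (nat_lit 306) (nat_lit 5) (nat_lit 315) (nat_lit 5) (nat_lit 307) (nat_lit 5) (nat_lit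 457) (nat_lit 396) (nat_lit 287)) (XT.lf (nat_lit 0) (nat_lit 6828919758) (nat_lit 608) (nat_lit 4184928228) (nat_lit 684) (nat_lit 428890374) (nat_lit 298) (nat_lit 5) (nat_lit 306) (nat_lit 5) (nat_lit 307) (nat_lit 5) (nat_lit 458) (nat_lit 396) (nat_lit 286))) (XT.nd (nat_lit 78) (nat_lit 532) (nat_lit 0) (XT.lf (nat_lit 0) (nat_lit 2300164524) (nat_lit 684) (nat_lit 8852553561) (nat_lit 76) (nat_lit 412479692) (nat_lit 289) (nat_lit 5) (nat_lit 298) (nat_lit 5) (nat_lit 290) (nat_lit 5) (nat_lit 459) (nat_lit 396) (nat_lit 285)) (XT.nd (nat_lit 78) (nat_lit 532) (nat_lit 0) (XT.lf (nat_lit 0) (nat_lit 5116865801) (nat_lit 684) (nat_lit 1498463514) (nat_lit 76) (nat_lit 5073944206) (nat_lit 289) (nat_lit 5) (nat_lit 298) (nat_lit 5) (nat_lit 290) (nat_lit 5) (nat_lit 460) (nat_lit 396) (nat_lit 284)) (XT.lf (nat_lit 0) (nat_lit 6056260772) (nat_lit 532) (nat_lit 1953277087) (nat_lit 608) (nat_lit 3805900185) (nat_lit 282) (nat_lit 5) (nat_lit 289) (nat_lit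 5) (nat_lit 290) (nat_lit 5) (nat_lit 461) (nat_lit 396) (nat_lit 283))))))))
noncomputable def xc88 : XT := (XT.nd (nat_lit 55614) (nat_lit 0) (nat_lit 15124) (XT.nd (nat_lit 54834) (nat_lit 0) (nat_lit 28880) (XT.nd (nat_lit 54444) (nat_lit 0) (nat_lit 31160) (XT.nd (nat_lit 54288) (nat_lit 0) (nat_lit 32224) (XT.nd (nat_lit 78) (nat_lit 76) (nat_lit 0) (XT.lf (nat_lit 0) (nat_lit 1817996007) (nat_lit 608) (nat_lit 9162679652) (nat_lit 684) (nat_lit 963037953) (nat_lit 274) (nat_lit 5) (nat_lit 282) (nat_lit 5) (nat_lit 283) (nat_lit 5) (nat_lit 462) (nat_lit 396) (nat_lit 282)) (XT.lf (nat_lit 0) (nat_lit 1943700959) (nat_lit 684) (nat_lit 2500909322) (nat_lit 76) (nat_lit 7629044540) (nat_lit 273) (nat_lit 5) (nat_lit 282) (nat_lit 5) (nat_lit 274) (nat_lit 5) (nat_lit 463) (nat_lit 396) (nat_lit 281))) (XT.nd (nat_lit 78) (nat_lit 1140) (nat_lit 0) (XT.lf (nat_lit 0) (nat_lit 1537116479) (nat_lit 0) (nat_lit 1537116479) (nat_lit 988) (nat_lit 420775588)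 (nat_lit 712) (nat_lit 5) (nat_lit 712) (nat_lit 3) (nat_lit 725) (nat_lit 3) (nat_lit 397) (nat_lit 397) (nat_lit 346)) (XT.lf (nat_lit 0) (nat_lit 1011370717) (nat_lit 1140) (nat_lit 415257040) (nat_lit 1140) (nat_lit 5596396078) (nat_lit 697) (nat_lit 3) (nat_lit 712) (nat_lit 3) (nat_lit 712) (nat_lit 5) (nat_lit 398) (nat_lit 397) (nat_lit 345)))) (XT.nd (nat_lit 156) (nat_lit 1140) (nat_lit 0) (XT.nd (nat_lit 78) (nat_lit 0) (nat_lit 0) (XT.lf (nat_lit 0) (nat_lit 2864097126) (nat_lit 1064) (nat_lit 3892629281) (nat_lit 1140) (nat_lit 300372765) (nat_lit 698) (nat_lit 5) (nat_lit 712) (nat_lit 5) (nat_lit 713) (nat_lit 5) (nat_lit 399) (nat_lit 397) (nat_lit 344)) (XT.lf (nat_lit 0) (nat_lit 4718542091) (nat_lit 1064) (nat_lit 305539469) (nat_lit 1140) (nat_lit 2068481174) (nat_lit 698) (nat_lit 5) (nat_lit 712) (nat_lit 5) (nat_lit 713) (nat_lit 5) (nat_lit 400) (nat_lit 397) (nat_lit 343))) (XT.nd (nat_lit 78) (nat_lit 1140) (nat_lit 0) (XT.lf (nat_lit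 76) (nat_lit 3372331513) (nat_lit 0) (nat_lit 3212984085) (nat_lit 1140) (nat_lit 543915177) (nat_lit 699) (nat_lit 5) (nat_lit 698) (nat_lit 5) (nat_lit 713) (nat_lit 5) (nat_lit 401) (nat_lit 397) (nat_lit 342)) (XT.nd (nat_lit 78) (nat_lit 0) (nat_lit 76) (XT.lf (nat_lit 0) (nat_lit 1261300228) (nat_lit 1140) (nat_lit 72929324) (nat_lit 1216) (nat_lit 5833113725) (nat_lit 683) (nat_lit 5) (nat_lit 698) (nat_lit 5) (nat_lit 699) (nat_lit 5) (nat_lit 402) (nat_lit 397) (nat_lit 341)) (XT.lf (nat_lit 0) (nat_lit 3078188312) (nat_lit 1140) (nat_lit 3506095421) (nat_lit 1216) (nat_lit 622205363) (nat_lit 684) (nat_lit 5) (nat_lit 699) (nat_lit 5) (nat_lit 700) (nat_lit 5) (nat_lit 403) (nat_lit 397) (nat_lit 340)))))) (XT.nd (nat_lit 390) (nat_lit 1140) (nat_lit 0) (XT.nd (nat_lit 156) (nat_lit 1216) (nat_lit 0) (XT.nd (nat_lit 78) (nat_lit 0) (nat_lit 0) (XT.lf (nat_lit 76) (nat_lit 272510040) (nat_lit 0) (nat_lit 4625554072) (nat_lit 1216) (nat_lit 2349020721)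 (nat_lit 685) (nat_lit 5) (nat_lit 684) (nat_lit 5) (nat_lit 700) (nat_lit 5) (nat_lit 404) (nat_lit 397) (nat_lit 339)) (XT.lf (nat_lit 76) (nat_lit 4148396185) (nat_lit 0) (nat_lit 2585724938) (nat_lit 1216) (nat_lit 554775687) (nat_lit 685) (nat_lit 5) (nat_lit 684) (nat_lit 5) (nat_lit 700) (nat_lit 5) (nat_lit 405) (nat_lit 397) (nat_lit 338))) (XT.nd (nat_lit 78) (nat_lit 0) (nat_lit 76) (XT.lf (nat_lit 76) (nat_lit 745871865) (nat_lit 0) (nat_lit 474428237) (nat_lit 1292) (nat_lit 6111845868) (nat_lit 669) (nat_lit 5) (nat_lit 668) (nat_lit 5) (nat_lit 685) (nat_lit 5) (nat_lit 406) (nat_lit 397) (nat_lit 337)) (XT.nd (nat_lit 78) (nat_lit 0) (nat_lit 0) (XT.lf (nat_lit 0) (nat_lit 3013189783) (nat_lit 1216) (nat_lit 2664685279) (nat_lit 1292) (nat_lit 1698516895) (nat_lit 669) (nat_lit 5) (nat_lit 685) (nat_lit 5) (nat_lit 686) (nat_lit 5) (nat_lit 407) (nat_lit 397) (nat_lit 336)) (XT.lf (nat_lit 76) (nat_lit 1323399647) (nat_lit 0) (nat_lit 3488721028)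 (nat_lit 1292) (nat_lit 2609998520) (nat_lit 670) (nat_lit 5) (nat_lit 669) (nat_lit 5) (nat_lit 686) (nat_lit 5) (nat_lit 408) (nat_lit 397) (nat_lit 335))))) (XT.nd (nat_lit 156) (nat_lit 0) (nat_lit 0) (XT.nd (nat_lit 78) (nat_lit 1216) (nat_lit 0) (XT.lf (nat_lit 76) (nat_lit 5401388432) (nat_lit 0) (nat_lit 1222618368) (nat_lit 1292) (nat_lit 845214644) (nat_lit 670) (nat_lit 5) (nat_lit 669) (nat_lit 5) (nat_lit 686) (nat_lit 5) (nat_lit 409) (nat_lit 397) (nat_lit 334)) (XT.lf (nat_lit 0) (nat_lit 922497865) (nat_lit 1292) (nat_lit 5486778132) (nat_lit 1368) (nat_lit 1108262627) (nat_lit 653) (nat_lit 5) (nat_lit 670) (nat_lit 5) (nat_lit 671) (nat_lit 5) (nat_lit 410) (nat_lit 397) (nat_lit 333))) (XT.nd (nat_lit 78) (nat_lit 0) (nat_lit 0) (XT.lf (nat_lit 0) (nat_lit 2696668501) (nat_lit 1292) (nat_lit 1367694448) (nat_lit 1368) (nat_lit 3502699034) (nat_lit 653) (nat_lit 5) (nat_lit 670) (nat_lit 5) (nat_lit 671) (nat_lit 5) (nat_lit 411) (nat_lit 397)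 (nat_lit 332)) (XT.nd (nat_lit 78) (nat_lit 0) (nat_lit 76) (XT.lf (nat_lit 76) (nat_lit 2844886458) (nat_lit 0) (nat_lit 1641030282) (nat_lit 1368) (nat_lit 3132067186) (nat_lit 654) (nat_lit 5) (nat_lit 653) (nat_lit 5) (nat_lit 671) (nat_lit 5) (nat_lit 412) (nat_lit 397) (nat_lit 331)) (XT.lf (nat_lit 0) (nat_lit 6287378807) (nat_lit 1292) (nat_lit 541805570) (nat_lit 1368) (nat_lit 841211353) (nat_lit 654) (nat_lit 5) (nat_lit 671) (nat_lit 5) (nat_lit 672) (nat_lit 5) (nat_lit 413) (nat_lit 397) (nat_lit 330))))))) (XT.nd (nat_lit 702) (nat_lit 8208) (nat_lit 0) (XT.nd (nat_lit 312) (nat_lit 4256) (nat_lit 0) (XT.nd (nat_lit 156) (nat_lit 0) (nat_lit 76) (XT.nd (nat_lit 78) (nat_lit 0) (nat_lit 0) (XT.lf (nat_lit 0) (nat_lit 393739668) (nat_lit 1368) (nat_lit 3939922061) (nat_lit 1444) (nat_lit 3390182275) (nat_lit 636) (nat_lit 5) (nat_lit 654) (nat_lit 5) (nat_lit 655) (nat_lit 5) (nat_lit 414) (nat_lit 397) (nat_lit 329)) (XT.lf (nat_lit 76) (nat_lit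 394549313) (nat_lit 0) (nat_lit 1762067866) (nat_lit 1444) (nat_lit 5622179141) (nat_lit 637) (nat_lit 5) (nat_lit 636) (nat_lit 5) (nat_lit 655) (nat_lit 5) (nat_lit 415) (nat_lit 397) (nat_lit 328))) (XT.nd (nat_lit 78) (nat_lit 0) (nat_lit 0) (XT.lf (nat_lit 0) (nat_lit 3950443394) (nat_lit 1368) (nat_lit 2998250731) (nat_lit 1444) (nat_lit 886239734) (nat_lit 637) (nat_lit 5) (nat_lit 655) (nat_lit 5) (nat_lit 656) (nat_lit 5) (nat_lit 416) (nat_lit 397) (nat_lit 327)) (XT.lf (nat_lit 76) (nat_lit 1456145105) (nat_lit 0) (nat_lit 4309327750) (nat_lit 1444) (nat_lit 2127014761) (nat_lit 638) (nat_lit 5) (nat_lit 637) (nat_lit 5) (nat_lit 656) (nat_lit 5) (nat_lit 417) (nat_lit 397) (nat_lit 326)))) (XT.nd (nat_lit 156) (nat_lit 2964) (nat_lit 0) (XT.nd (nat_lit 78) (nat_lit 1368) (nat_lit 0) (XT.lf (nat_lit 76) (nat_lit 6013698266) (nat_lit 0) (nat_lit 1587956988) (nat_lit 1444) (nat_lit 349840145) (nat_lit 638) (nat_lit 5) (nat_lit 637) (nat_lit 5) (nat_lit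 656) (nat_lit 5) (nat_lit 418) (nat_lit 397) (nat_lit 325)) (XT.lf (nat_lit 0) (nat_lit 1434032026) (nat_lit 1444) (nat_lit 5370333262) (nat_lit 76) (nat_lit 1207321292) (nat_lit 619) (nat_lit 5) (nat_lit 638) (nat_lit 5) (nat_lit 620) (nat_lit 5) (nat_lit 419) (nat_lit 397) (nat_lit 324))) (XT.nd (nat_lit 78) (nat_lit 2964) (nat_lit 0) (XT.lf (nat_lit 0) (nat_lit 3238265814) (nat_lit 1444) (nat_lit 774463843) (nat_lit 76) (nat_lit 4060518308) (nat_lit 619) (nat_lit 5) (nat_lit 638) (nat_lit 5) (nat_lit 620) (nat_lit 5) (nat_lit 420) (nat_lit 397) (nat_lit 323)) (XT.nd (nat_lit 78) (nat_lit 1520) (nat_lit 0) (XT.lf (nat_lit 0) (nat_lit 3938429853) (nat_lit 1444) (nat_lit 1132154857) (nat_lit 1520) (nat_lit 3065615859) (nat_lit 600) (nat_lit 5) (nat_lit 619) (nat_lit 5) (nat_lit 620) (nat_lit 5) (nat_lit 421) (nat_lit 397) (nat_lit 322)) (XT.lf (nat_lit 0) (nat_lit 523803683) (nat_lit 1520) (nat_lit 6403064748) (nat_lit 1596) (nat_lit 1273797425) (nat_lit 580)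 (nat_lit 5) (nat_lit 600) (nat_lit 5) (nat_lit 601) (nat_lit 5) (nat_lit 422) (nat_lit 397) (nat_lit 321)))))) (XT.nd (nat_lit 390) (nat_lit 3116) (nat_lit 0) (XT.nd (nat_lit 156) (nat_lit 3420) (nat_lit 0) (XT.nd (nat_lit 78) (nat_lit 1596) (nat_lit 0) (XT.lf (nat_lit 0) (nat_lit 549664610) (nat_lit 1596) (nat_lit 2907760329) (nat_lit 76) (nat_lit 4808862167) (nat_lit 579) (nat_lit 5) (nat_lit 600) (nat_lit 5) (nat_lit 580) (nat_lit 5) (nat_lit 423) (nat_lit 397) (nat_lit 320)) (XT.lf (nat_lit 0) (nat_lit 1947024911) (nat_lit 1596) (nat_lit 426032595) (nat_lit 1672) (nat_lit 5960384522) (nat_lit 558) (nat_lit 5) (nat_lit 579) (nat_lit 5) (nat_lit 580) (nat_lit 5) (nat_lit 424) (nat_lit 397) (nat_lit 319))) (XT.nd (nat_lit 78) (nat_lit 3420) (nat_lit 0) (XT.lf (nat_lit 0) (nat_lit 4238220085) (nat_lit 1672) (nat_lit 1507955736) (nat_lit 76) (nat_lit 2655658192) (nat_lit 558) (nat_lit 5) (nat_lit 580) (nat_lit 5) (nat_lit 559) (nat_lit 5) (nat_lit 425) (nat_lit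 397) (nat_lit 318)) (XT.nd (nat_lit 78) (nat_lit 1748) (nat_lit 0) (XT.lf (nat_lit 0) (nat_lit 3484195721) (nat_lit 1672) (nat_lit 2650904526) (nat_lit 1748) (nat_lit 2336605304) (nat_lit 536) (nat_lit 5) (nat_lit 558) (nat_lit 5) (nat_lit 559) (nat_lit 5) (nat_lit 426) (nat_lit 397) (nat_lit 317)) (XT.lf (nat_lit 0) (nat_lit 23598723) (nat_lit 1748) (nat_lit 8029378887) (nat_lit 1824) (nat_lit 490335717) (nat_lit 513) (nat_lit 5) (nat_lit 536) (nat_lit 5) (nat_lit 537) (nat_lit 5) (nat_lit 427) (nat_lit 397) (nat_lit 316))))) (XT.nd (nat_lit 156) (nat_lit 1216) (nat_lit 0) (XT.nd (nat_lit 78) (nat_lit 1824) (nat_lit 0) (XT.lf (nat_lit 0) (nat_lit 1395495105) (nat_lit 1824) (nat_lit 3467407805) (nat_lit 76) (nat_lit 3752851414) (nat_lit 512) (nat_lit 5) (nat_lit 536) (nat_lit 5) (nat_lit 513) (nat_lit 5) (nat_lit 428) (nat_lit 397) (nat_lit 315)) (XT.lf (nat_lit 0) (nat_lit 1677800863) (nat_lit 1824) (nat_lit 1615827896) (nat_lit 1900) (nat_lit 5396327522) (nat_lit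 488) (nat_lit 5) (nat_lit 512) (nat_lit 5) (nat_lit 513) (nat_lit 5) (nat_lit 429) (nat_lit 397) (nat_lit 314))) (XT.nd (nat_lit 78) (nat_lit 1216) (nat_lit 0) (XT.lf (nat_lit 0) (nat_lit 5234839111) (nat_lit 1900) (nat_lit 1830756873) (nat_lit 76) (nat_lit 1699944013) (nat_lit 488) (nat_lit 5) (nat_lit 513) (nat_lit 5) (nat_lit 489) (nat_lit 5) (nat_lit 430) (nat_lit 397) (nat_lit 313)) (XT.nd (nat_lit 78) (nat_lit 76) (nat_lit 0) (XT.lf (nat_lit 0) (nat_lit 3462183392) (nat_lit 1140) (nat_lit 3757123854) (nat_lit 1216) (nat_lit 1623239469) (nat_lit 473) (nat_lit 5) (nat_lit 488) (nat_lit 5) (nat_lit 489) (nat_lit 5) (nat_lit 431) (nat_lit 397) (nat_lit 312)) (XT.lf (nat_lit 0) (nat_lit 301966915) (nat_lit 1216) (nat_lit 64219032) (nat_lit 76) (nat_lit 8555189287) (nat_lit 472) (nat_lit 5) (nat_lit 488) (nat_lit 5) (nat_lit 473) (nat_lit 5) (nat_lit 432) (nat_lit 397) (nat_lit 311))))))))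
noncomputable def xc89 : XT := (XT.nd (nat_lit 1482) (nat_lit 4484) (nat_lit 0) (XT.nd (nat_lit 702) (nat_lit 4560) (nat_lit 0) (XT.nd (nat_lit 312) (nat_lit 2736) (nat_lit 0) (XT.nd (nat_lit 156) (nat_lit 836) (nat_lit 0) (XT.nd (nat_lit 78) (nat_lit 912) (nat_lit 0) (XT.lf (nat_lit 0) (nat_lit 2271377912) (nat_lit 988) (nat_lit 3630071111) (nat_lit 76) (nat_lit 3099567993) (nat_lit 460) (nat_lit 5) (nat_lit 473) (nat_lit 5) (nat_lit 461) (nat_lit 5) (nat_lit 433) (nat_lit 397) (nat_lit 310)) (XT.lf (nat_lit 0) (nat_lit 1828137250) (nat_lit 912) (nat_lit 2439171402) (nat_lit 988) (nat_lit 4815200353) (nat_lit 448) (nat_lit 5) (nat_lit 460) (nat_lit 5) (nat_lit 461) (nat_lit 5) (nat_lit 434) (nat_lit 397) (nat_lit 309))) (XT.nd (nat_lit 78) (nat_lit 836) (nat_lit 0) (XT.lf (nat_lit 0) (nat_lit 6307545967) (nat_lit 988) (nat_lit 1754905192) (nat_lit 76) (nat_lit 1103091914) (nat_lit 448) (nat_lit 5) (nat_lit 461) (nat_lit 5) (nat_lit 449) (nat_lit 5) (nat_lit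 435) (nat_lit 397) (nat_lit 308)) (XT.lf (nat_lit 0) (nat_lit 3862362327) (nat_lit 836) (nat_lit 4540764679) (nat_lit 912) (nat_lit 846820039) (nat_lit 437) (nat_lit 5) (nat_lit 448) (nat_lit 5) (nat_lit 449) (nat_lit 5) (nat_lit 436) (nat_lit 397) (nat_lit 307)))) (XT.nd (nat_lit 156) (nat_lit 1748) (nat_lit 0) (XT.nd (nat_lit 78) (nat_lit 0) (nat_lit 0) (XT.lf (nat_lit 0) (nat_lit 248452131) (nat_lit 912) (nat_lit 927282869) (nat_lit 988) (nat_lit 8160408622) (nat_lit 424) (nat_lit 5) (nat_lit 436) (nat_lit 5) (nat_lit 437) (nat_lit 5) (nat_lit 437) (nat_lit 397) (nat_lit 306)) (XT.lf (nat_lit 0) (nat_lit 3255544075) (nat_lit 988) (nat_lit 3404069009) (nat_lit 76) (nat_lit 2763776260) (nat_lit 424) (nat_lit 5) (nat_lit 437) (nat_lit 5) (nat_lit 425) (nat_lit 5) (nat_lit 438) (nat_lit 397) (nat_lit 305))) (XT.nd (nat_lit 78) (nat_lit 912) (nat_lit 0) (XT.lf (nat_lit 0) (nat_lit 2391776615) (nat_lit 836) (nat_lit 2981184320) (nat_lit 912) (nat_lit 4139498814)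 (nat_lit 413) (nat_lit 5) (nat_lit 424) (nat_lit 5) (nat_lit 425) (nat_lit 5) (nat_lit 439) (nat_lit 397) (nat_lit 304)) (XT.nd (nat_lit 78) (nat_lit 912) (nat_lit 0) (XT.lf (nat_lit 0) (nat_lit 7535390209) (nat_lit 912) (nat_lit 1285328763) (nat_lit 76) (nat_lit 782539307) (nat_lit 413) (nat_lit 5) (nat_lit 425) (nat_lit 5) (nat_lit 414) (nat_lit 5) (nat_lit 440) (nat_lit 397) (nat_lit 303)) (XT.lf (nat_lit 0) (nat_lit 70073041) (nat_lit 912) (nat_lit 5013904654) (nat_lit 76) (nat_lit 4611379806) (nat_lit 401) (nat_lit 5) (nat_lit 413) (nat_lit 5) (nat_lit 402) (nat_lit 5) (nat_lit 441) (nat_lit 397) (nat_lit 302)))))) (XT.nd (nat_lit 390) (nat_lit 2204) (nat_lit 0) (XT.nd (nat_lit 156) (nat_lit 1596) (nat_lit 0) (XT.nd (nat_lit 78) (nat_lit 0) (nat_lit 0) (XT.lf (nat_lit 0) (nat_lit 968188380) (nat_lit 760) (nat_lit 1245205927) (nat_lit 836) (nat_lit 7575824828) (nat_lit 391) (nat_lit 5) (nat_lit 401) (nat_lit 5) (nat_lit 402) (nat_lit 5) (nat_lit 442) (nat_lit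 397) (nat_lit 301)) (XT.lf (nat_lit 0) (nat_lit 4426402900) (nat_lit 836) (nat_lit 2790881073) (nat_lit 76) (nat_lit 2667137609) (nat_lit 391) (nat_lit 5) (nat_lit 402) (nat_lit 5) (nat_lit 392) (nat_lit 5) (nat_lit 443) (nat_lit 397) (nat_lit 300))) (XT.nd (nat_lit 78) (nat_lit 836) (nat_lit 0) (XT.lf (nat_lit 0) (nat_lit 3369420051) (nat_lit 760) (nat_lit 3320467181) (nat_lit 836) (nat_lit 3291516536) (nat_lit 381) (nat_lit 5) (nat_lit 391) (nat_lit 5) (nat_lit 392) (nat_lit 5) (nat_lit 444) (nat_lit 397) (nat_lit 299)) (XT.nd (nat_lit 78) (nat_lit 836) (nat_lit 0) (XT.lf (nat_lit 0) (nat_lit 8998115834) (nat_lit 836) (nat_lit 420242049) (nat_lit 76) (nat_lit 661978223) (nat_lit 381) (nat_lit 5) (nat_lit 392) (nat_lit 5) (nat_lit 382) (nat_lit 5) (nat_lit 445) (nat_lit 397) (nat_lit 298)) (XT.lf (nat_lit 0) (nat_lit 1193443269) (nat_lit 836) (nat_lit 4263456264) (nat_lit 76) (nat_lit 4723444612) (nat_lit 370) (nat_lit 5) (nat_lit 381) (nat_lit 5) (nat_lit 371)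 (nat_lit 5) (nat_lit 446) (nat_lit 397) (nat_lit 297))))) (XT.nd (nat_lit 156) (nat_lit 1444) (nat_lit 0) (XT.nd (nat_lit 78) (nat_lit 0) (nat_lit 0) (XT.lf (nat_lit 0) (nat_lit 2098205459) (nat_lit 760) (nat_lit 1395370337) (nat_lit 836) (nat_lit 6788764545) (nat_lit 360) (nat_lit 5) (nat_lit 370) (nat_lit 5) (nat_lit 371) (nat_lit 5) (nat_lit 447) (nat_lit 397) (nat_lit 296)) (XT.lf (nat_lit 0) (nat_lit 5863579904) (nat_lit 836) (nat_lit 1785487174) (nat_lit 76) (nat_lit 2736832006) (nat_lit 360) (nat_lit 5) (nat_lit 371) (nat_lit 5) (nat_lit 361) (nat_lit 5) (nat_lit 448) (nat_lit 397) (nat_lit 295))) (XT.nd (nat_lit 78) (nat_lit 760) (nat_lit 0) (XT.lf (nat_lit 0) (nat_lit 4768403391) (nat_lit 684) (nat_lit 3530459191) (nat_lit 760) (nat_lit 2192308850) (nat_lit 351) (nat_lit 5) (nat_lit 360) (nat_lit 5) (nat_lit 361) (nat_lit 5) (nat_lit 449) (nat_lit 397) (nat_lit 294)) (XT.nd (nat_lit 78) (nat_lit 0) (nat_lit 0) (XT.lf (nat_lit 0) (nat_lit 181804105) (nat_lit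 760) (nat_lit 9739910703) (nat_lit 76) (nat_lit 676812095) (nat_lit 341) (nat_lit 5) (nat_lit 351) (nat_lit 5) (nat_lit 342) (nat_lit 5) (nat_lit 450) (nat_lit 397) (nat_lit 293)) (XT.lf (nat_lit 0) (nat_lit 2614151438) (nat_lit 760) (nat_lit 3122604895) (nat_lit 76) (nat_lit 4970181186) (nat_lit 341) (nat_lit 5) (nat_lit 351) (nat_lit 5) (nat_lit 342) (nat_lit 5) (nat_lit 451) (nat_lit 397) (nat_lit 292))))))) (XT.nd (nat_lit 702) (nat_lit 532) (nat_lit 0) (XT.nd (nat_lit 312) (nat_lit 1900) (nat_lit 0) (XT.nd (nat_lit 156) (nat_lit 1368) (nat_lit 0) (XT.nd (nat_lit 78) (nat_lit 0) (nat_lit 0) (XT.lf (nat_lit 0) (nat_lit 3649030432) (nat_lit 684) (nat_lit 1448279818) (nat_lit 760) (nat_lit 5720162804) (nat_lit 332) (nat_lit 5) (nat_lit 341) (nat_lit 5) (nat_lit 342) (nat_lit 5) (nat_lit 452) (nat_lit 397) (nat_lit 291)) (XT.lf (nat_lit 0) (nat_lit 7648921696) (nat_lit 760) (nat_lit 376610832) (nat_lit 76) (nat_lit 2904310983) (nat_lit 332) (nat_lit 5) (nat_lit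 342) (nat_lit 5) (nat_lit 333) (nat_lit 5) (nat_lit 453) (nat_lit 397) (nat_lit 290))) (XT.nd (nat_lit 78) (nat_lit 684) (nat_lit 0) (XT.lf (nat_lit 0) (nat_lit 6602469965) (nat_lit 684) (nat_lit 3680670993) (nat_lit 760) (nat_lit 760688909) (nat_lit 323) (nat_lit 5) (nat_lit 332) (nat_lit 5) (nat_lit 333) (nat_lit 5) (nat_lit 454) (nat_lit 397) (nat_lit 289)) (XT.lf (nat_lit 0) (nat_lit 1789665129) (nat_lit 684) (nat_lit 8602609616) (nat_lit 76) (nat_lit 767517091) (nat_lit 314) (nat_lit 5) (nat_lit 323) (nat_lit 5) (nat_lit 315) (nat_lit 5) (nat_lit 455) (nat_lit 397) (nat_lit 288)))) (XT.nd (nat_lit 156) (nat_lit 1292) (nat_lit 0) (XT.nd (nat_lit 78) (nat_lit 608) (nat_lit 0) (XT.lf (nat_lit 0) (nat_lit 4414660351) (nat_lit 684) (nat_lit 1577094232) (nat_lit 76) (nat_lit 5285541504) (nat_lit 314) (nat_lit 5) (nat_lit 323) (nat_lit 5) (nat_lit 315) (nat_lit 5) (nat_lit 456) (nat_lit 397) (nat_lit 287)) (XT.lf (nat_lit 0) (nat_lit 5637469953) (nat_lit 608) (nat_lit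 1471124643) (nat_lit 684) (nat_lit 4288227044) (nat_lit 306) (nat_lit 5) (nat_lit 314) (nat_lit 5) (nat_lit 315) (nat_lit 5) (nat_lit 457) (nat_lit 397) (nat_lit 286))) (XT.nd (nat_lit 78) (nat_lit 684) (nat_lit 0) (XT.lf (nat_lit 0) (nat_lit 1472436994) (nat_lit 608) (nat_lit 8404604275) (nat_lit 684) (nat_lit 1641283761) (nat_lit 298) (nat_lit 5) (nat_lit 306) (nat_lit 5) (nat_lit 307) (nat_lit 5) (nat_lit 458) (nat_lit 397) (nat_lit 285)) (XT.nd (nat_lit 78) (nat_lit 608) (nat_lit 0) (XT.lf (nat_lit 0) (nat_lit 1073491189) (nat_lit 684) (nat_lit 2757116911) (nat_lit 76) (nat_lit 7810937395) (nat_lit 297) (nat_lit 5) (nat_lit 306) (nat_lit 5) (nat_lit 298) (nat_lit 5) (nat_lit 459) (nat_lit 397) (nat_lit 284)) (XT.lf (nat_lit 0) (nat_lit 3837317760) (nat_lit 684) (nat_lit 7069394951) (nat_lit 76) (nat_lit 859966022) (nat_lit 289) (nat_lit 5) (nat_lit 298) (nat_lit 5) (nat_lit 290) (nat_lit 5) (nat_lit 460) (nat_lit 397) (nat_lit 283)))))) (XT.nd (nat_lit 54678)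 (nat_lit 0) (nat_lit 29336) (XT.nd (nat_lit 54444) (nat_lit 0) (nat_lit 31540) (XT.nd (nat_lit 78) (nat_lit 0) (nat_lit 0) (XT.lf (nat_lit 0) (nat_lit 398568712) (nat_lit 532) (nat_lit 6285133888) (nat_lit 608) (nat_lit 5210066401) (nat_lit 282) (nat_lit 5) (nat_lit 289) (nat_lit 5) (nat_lit 290) (nat_lit 5) (nat_lit 461) (nat_lit 397) (nat_lit 282)) (XT.lf (nat_lit 0) (nat_lit 8086516934) (nat_lit 532) (nat_lit 1528853804) (nat_lit 608) (nat_lit 2407463226) (nat_lit 282) (nat_lit 5) (nat_lit 289) (nat_lit 5) (nat_lit 290) (nat_lit 5) (nat_lit 462) (nat_lit 397) (nat_lit 281))) (XT.nd (nat_lit 78) (nat_lit 0) (nat_lit 0) (XT.lf (nat_lit 0) (nat_lit 1414615098) (nat_lit 1140) (nat_lit 1056792903) (nat_lit 1140) (nat_lit 1056792903) (nat_lit 697) (nat_lit 3) (nat_lit 712) (nat_lit 3) (nat_lit 712) (nat_lit 5) (nat_lit 398) (nat_lit 398) (nat_lit 344)) (XT.nd (nat_lit 78) (nat_lit 0) (nat_lit 0) (XT.lf (nat_lit 76) (nat_lit 1433414588) (nat_lit 0) (nat_lit 3211759398)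 (nat_lit 1140) (nat_lit 2446038810) (nat_lit 698) (nat_lit 5) (nat_lit 697) (nat_lit 3) (nat_lit 712) (nat_lit 5) (nat_lit 399) (nat_lit 398) (nat_lit 343)) (XT.lf (nat_lit 76) (nat_lit 5055899270) (nat_lit 0) (nat_lit 1408917519) (nat_lit 1140) (nat_lit 662555612) (nat_lit 698) (nat_lit 5) (nat_lit 697) (nat_lit 3) (nat_lit 712) (nat_lit 5) (nat_lit 400) (nat_lit 398) (nat_lit 342))))) (XT.nd (nat_lit 156) (nat_lit 1140) (nat_lit 0) (XT.nd (nat_lit 78) (nat_lit 0) (nat_lit 0) (XT.lf (nat_lit 0) (nat_lit 1108519716) (nat_lit 1140) (nat_lit 5592391158) (nat_lit 1216) (nat_lit 463852308) (nat_lit 683) (nat_lit 5) (nat_lit 698) (nat_lit 5) (nat_lit 699) (nat_lit 5) (nat_lit 401) (nat_lit 398) (nat_lit 341)) (XT.lf (nat_lit 0) (nat_lit 2884175147) (nat_lit 1140) (nat_lit 1924395753) (nat_lit 1216) (nat_lit 2394682684) (nat_lit 683) (nat_lit 5) (nat_lit 698) (nat_lit 5) (nat_lit 699) (nat_lit 5) (nat_lit 402) (nat_lit 398) (nat_lit 340))) (XT.nd (nat_lit 78) (nat_lit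 1140) (nat_lit 0) (XT.lf (nat_lit 76) (nat_lit 1816136345) (nat_lit 0) (nat_lit 2846585775) (nat_lit 1216) (nat_lit 2580444105) (nat_lit 684) (nat_lit 5) (nat_lit 683) (nat_lit 5) (nat_lit 699) (nat_lit 5) (nat_lit 403) (nat_lit 398) (nat_lit 339)) (XT.nd (nat_lit 78) (nat_lit 1140) (nat_lit 0) (XT.lf (nat_lit 76) (nat_lit 5633084727) (nat_lit 0) (nat_lit 812967792) (nat_lit 1216) (nat_lit 838440350) (nat_lit 684) (nat_lit 5) (nat_lit 683) (nat_lit 5) (nat_lit 699) (nat_lit 5) (nat_lit 404) (nat_lit 398) (nat_lit 338)) (XT.lf (nat_lit 0) (nat_lit 905682874) (nat_lit 1216) (nat_lit 5137660258) (nat_lit 1292) (nat_lit 1283589326) (nat_lit 668) (nat_lit 5) (nat_lit 684) (nat_lit 5) (nat_lit 685) (nat_lit 5) (nat_lit 405) (nat_lit 398) (nat_lit 337))))))))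
noncomputable def xc90 : XT := (XT.nd (nat_lit 1482) (nat_lit 14288) (nat_lit 0) (XT.nd (nat_lit 702) (nat_lit 4256) (nat_lit 0) (XT.nd (nat_lit 312) (nat_lit 1292) (nat_lit 0) (XT.nd (nat_lit 156) (nat_lit 1216) (nat_lit 0) (XT.nd (nat_lit 78) (nat_lit 0) (nat_lit 0) (XT.lf (nat_lit 0) (nat_lit 2647687580) (nat_lit 1216) (nat_lit 1277235055) (nat_lit 1292) (nat_lit 3445702846) (nat_lit 668) (nat_lit 5) (nat_lit 684) (nat_lit 5) (nat_lit 685) (nat_lit 5) (nat_lit 406) (nat_lit 398) (nat_lit 336)) (XT.lf (nat_lit 76) (nat_lit 2670543496) (nat_lit 0) (nat_lit 1729833842) (nat_lit 1292) (nat_lit 3015298128) (nat_lit 669) (nat_lit 5) (nat_lit 668) (nat_lit 5) (nat_lit 685) (nat_lit 5) (nat_lit 407) (nat_lit 398) (nat_lit 335))) (XT.nd (nat_lit 78) (nat_lit 1292) (nat_lit 0) (XT.lf (nat_lit 0) (nat_lit 6159318199) (nat_lit 1216) (nat_lit 775864340) (nat_lit 1292) (nat_lit 527019964) (nat_lit 669) (nat_lit 5) (nat_lit 685) (nat_lit 5) (nat_lit 686) (nat_lit 5) (nat_lit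 408) (nat_lit 398) (nat_lit 334)) (XT.lf (nat_lit 0) (nat_lit 430719168) (nat_lit 1292) (nat_lit 4233432363) (nat_lit 1368) (nat_lit 2845595693) (nat_lit 652) (nat_lit 5) (nat_lit 669) (nat_lit 5) (nat_lit 670) (nat_lit 5) (nat_lit 409) (nat_lit 398) (nat_lit 333)))) (XT.nd (nat_lit 156) (nat_lit 1292) (nat_lit 0) (XT.nd (nat_lit 78) (nat_lit 0) (nat_lit 76) (XT.lf (nat_lit 0) (nat_lit 2147229522) (nat_lit 1292) (nat_lit 172242404) (nat_lit 1368) (nat_lit 5239285064) (nat_lit 652) (nat_lit 5) (nat_lit 669) (nat_lit 5) (nat_lit 670) (nat_lit 5) (nat_lit 410) (nat_lit 398) (nat_lit 332)) (XT.lf (nat_lit 0) (nat_lit 3885954039) (nat_lit 1292) (nat_lit 3612128475) (nat_lit 1368) (nat_lit 110906758) (nat_lit 653) (nat_lit 5) (nat_lit 670) (nat_lit 5) (nat_lit 671) (nat_lit 5) (nat_lit 411) (nat_lit 398) (nat_lit 331))) (XT.nd (nat_lit 78) (nat_lit 1368) (nat_lit 0) (XT.lf (nat_lit 76) (nat_lit 557742258) (nat_lit 0) (nat_lit 5083741842) (nat_lit 1368) (nat_lit 2019101478)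 (nat_lit 654) (nat_lit 5) (nat_lit 653) (nat_lit 5) (nat_lit 671) (nat_lit 5) (nat_lit 412) (nat_lit 398) (nat_lit 330)) (XT.nd (nat_lit 78) (nat_lit 1368) (nat_lit 0) (XT.lf (nat_lit 76) (nat_lit 4834460710) (nat_lit 0) (nat_lit 2584370618) (nat_lit 1368) (nat_lit 294648351) (nat_lit 654) (nat_lit 5) (nat_lit 653) (nat_lit 5) (nat_lit 671) (nat_lit 5) (nat_lit 413) (nat_lit 398) (nat_lit 329)) (XT.lf (nat_lit 76) (nat_lit 1412798770) (nat_lit 0) (nat_lit 4422947) (nat_lit 1444) (nat_lit 6350577154) (nat_lit 636) (nat_lit 5) (nat_lit 635) (nat_lit 5) (nat_lit 654) (nat_lit 5) (nat_lit 414) (nat_lit 398) (nat_lit 328)))))) (XT.nd (nat_lit 390) (nat_lit 2964) (nat_lit 0) (XT.nd (nat_lit 156) (nat_lit 1368) (nat_lit 0) (XT.nd (nat_lit 78) (nat_lit 0) (nat_lit 0) (XT.lf (nat_lit 0) (nat_lit 3159485890) (nat_lit 1368) (nat_lit 2038614772) (nat_lit 1444) (nat_lit 2625062793) (nat_lit 636) (nat_lit 5) (nat_lit 654) (nat_lit 5) (nat_lit 655) (nat_lit 5) (nat_lit 415)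 (nat_lit 398) (nat_lit 327)) (XT.lf (nat_lit 76) (nat_lit 2369519018) (nat_lit 0) (nat_lit 2546797603) (nat_lit 1444) (nat_lit 2963724284) (nat_lit 637) (nat_lit 5) (nat_lit 636) (nat_lit 5) (nat_lit 655) (nat_lit 5) (nat_lit 416) (nat_lit 398) (nat_lit 326))) (XT.nd (nat_lit 78) (nat_lit 1444) (nat_lit 0) (XT.lf (nat_lit 0) (nat_lit 6687982578) (nat_lit 1368) (nat_lit 1071670415) (nat_lit 1444) (nat_lit 178808937) (nat_lit 637) (nat_lit 5) (nat_lit 655) (nat_lit 5) (nat_lit 656) (nat_lit 5) (nat_lit 417) (nat_lit 398) (nat_lit 325)) (XT.nd (nat_lit 78) (nat_lit 0) (nat_lit 0) (XT.lf (nat_lit 0) (nat_lit 495460230) (nat_lit 1444) (nat_lit 4542468708) (nat_lit 1520) (nat_lit 2959958930) (nat_lit 618) (nat_lit 5) (nat_lit 637) (nat_lit 5) (nat_lit 638) (nat_lit 5) (nat_lit 418) (nat_lit 398) (nat_lit 324)) (XT.lf (nat_lit 0) (nat_lit 2232706936) (nat_lit 1444) (nat_lit 5104427) (nat_lit 1520) (nat_lit 5821063002) (nat_lit 618) (nat_lit 5) (nat_lit 637) (nat_lit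 5) (nat_lit 638) (nat_lit 5) (nat_lit 419) (nat_lit 398) (nat_lit 323))))) (XT.nd (nat_lit 156) (nat_lit 1596) (nat_lit 0) (XT.nd (nat_lit 78) (nat_lit 1444) (nat_lit 0) (XT.lf (nat_lit 0) (nat_lit 4005758522) (nat_lit 1444) (nat_lit 3466790050) (nat_lit 76) (nat_lit 648510823) (nat_lit 619) (nat_lit 5) (nat_lit 638) (nat_lit 5) (nat_lit 620) (nat_lit 5) (nat_lit 420) (nat_lit 398) (nat_lit 322)) (XT.lf (nat_lit 0) (nat_lit 1197268761) (nat_lit 1444) (nat_lit 4606718042) (nat_lit 1520) (nat_lit 2380707008) (nat_lit 600) (nat_lit 5) (nat_lit 619) (nat_lit 5) (nat_lit 620) (nat_lit 5) (nat_lit 421) (nat_lit 398) (nat_lit 321))) (XT.nd (nat_lit 78) (nat_lit 1596) (nat_lit 0) (XT.lf (nat_lit 0) (nat_lit 5975747414) (nat_lit 1444) (nat_lit 1653261474) (nat_lit 1520) (nat_lit 620775443) (nat_lit 600) (nat_lit 5) (nat_lit 619) (nat_lit 5) (nat_lit 620) (nat_lit 5) (nat_lit 422) (nat_lit 398) (nat_lit 320)) (XT.nd (nat_lit 78) (nat_lit 0) (nat_lit 0) (XT.lf (nat_lit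 0) (nat_lit 1152417504) (nat_lit 1596) (nat_lit 5791912651) (nat_lit 76) (nat_lit 1371824719) (nat_lit 579) (nat_lit 5) (nat_lit 600) (nat_lit 5) (nat_lit 580) (nat_lit 5) (nat_lit 423) (nat_lit 398) (nat_lit 319)) (XT.lf (nat_lit 0) (nat_lit 2947570329) (nat_lit 1596) (nat_lit 975669435) (nat_lit 76) (nat_lit 4460634835) (nat_lit 579) (nat_lit 5) (nat_lit 600) (nat_lit 5) (nat_lit 580) (nat_lit 5) (nat_lit 424) (nat_lit 398) (nat_lit 318))))))) (XT.nd (nat_lit 702) (nat_lit 5244) (nat_lit 0) (XT.nd (nat_lit 312) (nat_lit 3952) (nat_lit 0) (XT.nd (nat_lit 156) (nat_lit 1824) (nat_lit 0) (XT.nd (nat_lit 78) (nat_lit 1672) (nat_lit 0) (XT.lf (nat_lit 0) (nat_lit 3963117785) (nat_lit 1596) (nat_lit 810348078) (nat_lit 1672) (nat_lit 3679586061) (nat_lit 558) (nat_lit 5) (nat_lit 579) (nat_lit 5) (nat_lit 580) (nat_lit 5) (nat_lit 425) (nat_lit 398) (nat_lit 317)) (XT.lf (nat_lit 0) (nat_lit 454762409) (nat_lit 1672) (nat_lit 6175593616) (nat_lit 1748) (nat_lit 1893367237)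 (nat_lit 536) (nat_lit 5) (nat_lit 558) (nat_lit 5) (nat_lit 559) (nat_lit 5) (nat_lit 426) (nat_lit 398) (nat_lit 316))) (XT.nd (nat_lit 78) (nat_lit 1824) (nat_lit 0) (XT.lf (nat_lit 0) (nat_lit 5527720809) (nat_lit 1672) (nat_lit 3002131163) (nat_lit 1748) (nat_lit 65846695) (nat_lit 536) (nat_lit 5) (nat_lit 558) (nat_lit 5) (nat_lit 559) (nat_lit 5) (nat_lit 427) (nat_lit 398) (nat_lit 315)) (XT.lf (nat_lit 0) (nat_lit 1759880721) (nat_lit 1824) (nat_lit 6648993447) (nat_lit 76) (nat_lit 260301097) (nat_lit 512) (nat_lit 5) (nat_lit 536) (nat_lit 5) (nat_lit 513) (nat_lit 5) (nat_lit 428) (nat_lit 398) (nat_lit 314)))) (XT.nd (nat_lit 156) (nat_lit 2128) (nat_lit 0) (XT.nd (nat_lit 78) (nat_lit 1824) (nat_lit 0) (XT.lf (nat_lit 0) (nat_lit 3632683140) (nat_lit 1824) (nat_lit 1538845967) (nat_lit 76) (nat_lit 3572354740) (nat_lit 512) (nat_lit 5) (nat_lit 536) (nat_lit 5) (nat_lit 513) (nat_lit 5) (nat_lit 429) (nat_lit 398) (nat_lit 313)) (XT.lf (nat_lit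 0) (nat_lit 3696122729) (nat_lit 1824) (nat_lit 1842223975) (nat_lit 1900) (nat_lit 3281831795) (nat_lit 488) (nat_lit 5) (nat_lit 512) (nat_lit 5) (nat_lit 513) (nat_lit 5) (nat_lit 430) (nat_lit 398) (nat_lit 312))) (XT.nd (nat_lit 78) (nat_lit 988) (nat_lit 0) (XT.lf (nat_lit 0) (nat_lit 124061796) (nat_lit 1140) (nat_lit 7351167115) (nat_lit 1216) (nat_lit 1422908025) (nat_lit 473) (nat_lit 5) (nat_lit 488) (nat_lit 5) (nat_lit 489) (nat_lit 5) (nat_lit 431) (nat_lit 398) (nat_lit 311)) (XT.nd (nat_lit 78) (nat_lit 912) (nat_lit 0) (XT.lf (nat_lit 0) (nat_lit 485817837) (nat_lit 1216) (nat_lit 3472333657) (nat_lit 76) (nat_lit 5019065010) (nat_lit 472) (nat_lit 5) (nat_lit 488) (nat_lit 5) (nat_lit 473) (nat_lit 5) (nat_lit 432) (nat_lit 398) (nat_lit 310)) (XT.lf (nat_lit 0) (nat_lit 1925323038) (nat_lit 912) (nat_lit 473426078) (nat_lit 988) (nat_lit 6659238764) (nat_lit 460) (nat_lit 5) (nat_lit 472) (nat_lit 5) (nat_lit 473) (nat_lit 5) (nat_lit 433)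 (nat_lit 398) (nat_lit 309)))))) (XT.nd (nat_lit 390) (nat_lit 2508) (nat_lit 0) (XT.nd (nat_lit 156) (nat_lit 1824) (nat_lit 0) (XT.nd (nat_lit 78) (nat_lit 912) (nat_lit 0) (XT.lf (nat_lit 0) (nat_lit 4366342665) (nat_lit 988) (nat_lit 1708391844) (nat_lit 76) (nat_lit 3065312105) (nat_lit 460) (nat_lit 5) (nat_lit 473) (nat_lit 5) (nat_lit 461) (nat_lit 5) (nat_lit 434) (nat_lit 398) (nat_lit 308)) (XT.lf (nat_lit 0) (nat_lit 3845860418) (nat_lit 912) (nat_lit 2529007606) (nat_lit 988) (nat_lit 2848846898) (nat_lit 448) (nat_lit 5) (nat_lit 460) (nat_lit 5) (nat_lit 461) (nat_lit 5) (nat_lit 435) (nat_lit 398) (nat_lit 307))) (XT.nd (nat_lit 78) (nat_lit 988) (nat_lit 0) (XT.lf (nat_lit 0) (nat_lit 194777945) (nat_lit 836) (nat_lit 8222484213) (nat_lit 912) (nat_lit 891920473) (nat_lit 437) (nat_lit 5) (nat_lit 448) (nat_lit 5) (nat_lit 449) (nat_lit 5) (nat_lit 436) (nat_lit 398) (nat_lit 306)) (XT.nd (nat_lit 78) (nat_lit 912) (nat_lit 0) (XT.lf (nat_lit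 0) (nat_lit 1116744225) (nat_lit 912) (nat_lit 3494373340) (nat_lit 76) (nat_lit 4784557136) (nat_lit 436) (nat_lit 5) (nat_lit 448) (nat_lit 5) (nat_lit 437) (nat_lit 5) (nat_lit 437) (nat_lit 398) (nat_lit 305)) (XT.lf (nat_lit 0) (nat_lit 2235648831) (nat_lit 912) (nat_lit 907031927) (nat_lit 988) (nat_lit 6341317115) (nat_lit 424) (nat_lit 5) (nat_lit 436) (nat_lit 5) (nat_lit 437) (nat_lit 5) (nat_lit 438) (nat_lit 398) (nat_lit 304))))) (XT.nd (nat_lit 156) (nat_lit 1672) (nat_lit 0) (XT.nd (nat_lit 78) (nat_lit 836) (nat_lit 0) (XT.lf (nat_lit 0) (nat_lit 5226226478) (nat_lit 988) (nat_lit 1490930403) (nat_lit 76) (nat_lit 2856588819) (nat_lit 424) (nat_lit 5) (nat_lit 437) (nat_lit 5) (nat_lit 425) (nat_lit 5) (nat_lit 439) (nat_lit 398) (nat_lit 303)) (XT.lf (nat_lit 0) (nat_lit 4407797791) (nat_lit 836) (nat_lit 2953608503) (nat_lit 912) (nat_lit 2303682927) (nat_lit 413) (nat_lit 5) (nat_lit 424) (nat_lit 5) (nat_lit 425) (nat_lit 5) (nat_lit 440)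 (nat_lit 398) (nat_lit 302))) (XT.nd (nat_lit 78) (nat_lit 836) (nat_lit 0) (XT.lf (nat_lit 0) (nat_lit 663588537) (nat_lit 836) (nat_lit 8871477048) (nat_lit 912) (nat_lit 223278508) (nat_lit 402) (nat_lit 5) (nat_lit 413) (nat_lit 5) (nat_lit 414) (nat_lit 5) (nat_lit 441) (nat_lit 398) (nat_lit 301)) (XT.nd (nat_lit 78) (nat_lit 760) (nat_lit 0) (XT.lf (nat_lit 0) (nat_lit 1904704643) (nat_lit 912) (nat_lit 3136832979) (nat_lit 76) (nat_lit 4811062426) (nat_lit 401) (nat_lit 5) (nat_lit 413) (nat_lit 5) (nat_lit 402) (nat_lit 5) (nat_lit 442) (nat_lit 398) (nat_lit 300)) (XT.lf (nat_lit 0) (nat_lit 2951893036) (nat_lit 760) (nat_lit 1115807413) (nat_lit 836) (nat_lit 5881102303) (nat_lit 391) (nat_lit 5) (nat_lit 401) (nat_lit 5) (nat_lit 402) (nat_lit 5) (nat_lit 443) (nat_lit 398) (nat_lit 299))))))))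
noncomputable def xc91 : XT := (XT.nd (nat_lit 55848) (nat_lit 0) (nat_lit 26828) (XT.nd (nat_lit 702) (nat_lit 4484) (nat_lit 0) (XT.nd (nat_lit 312) (nat_lit 2204) (nat_lit 0) (XT.nd (nat_lit 156) (nat_lit 836) (nat_lit 0) (XT.nd (nat_lit 78) (nat_lit 760) (nat_lit 0) (XT.lf (nat_lit 0) (nat_lit 6290460459) (nat_lit 836) (nat_lit 886365540) (nat_lit 76) (nat_lit 2869773425) (nat_lit 391) (nat_lit 5) (nat_lit 402) (nat_lit 5) (nat_lit 392) (nat_lit 5) (nat_lit 444) (nat_lit 398) (nat_lit 298)) (XT.lf (nat_lit 0) (nat_lit 5384244679) (nat_lit 760) (nat_lit 3192799543) (nat_lit 836) (nat_lit 1568920437) (nat_lit 381) (nat_lit 5) (nat_lit 391) (nat_lit 5) (nat_lit 392) (nat_lit 5) (nat_lit 445) (nat_lit 398) (nat_lit 297))) (XT.nd (nat_lit 78) (nat_lit 0) (nat_lit 0) (XT.lf (nat_lit 0) (nat_lit 652244703) (nat_lit 836) (nat_lit 8717764977) (nat_lit 76) (nat_lit 877243848) (nat_lit 370) (nat_lit 5) (nat_lit 381) (nat_lit 5) (nat_lit 371) (nat_lit 5) (nat_lit 446)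 (nat_lit 398) (nat_lit 296)) (XT.lf (nat_lit 0) (nat_lit 2927577545) (nat_lit 836) (nat_lit 2396380353) (nat_lit 76) (nat_lit 5025787821) (nat_lit 370) (nat_lit 5) (nat_lit 381) (nat_lit 5) (nat_lit 371) (nat_lit 5) (nat_lit 447) (nat_lit 398) (nat_lit 295)))) (XT.nd (nat_lit 156) (nat_lit 760) (nat_lit 0) (XT.nd (nat_lit 78) (nat_lit 684) (nat_lit 0) (XT.lf (nat_lit 0) (nat_lit 4079670229) (nat_lit 760) (nat_lit 1173100403) (nat_lit 836) (nat_lit 5201430050) (nat_lit 360) (nat_lit 5) (nat_lit 370) (nat_lit 5) (nat_lit 371) (nat_lit 5) (nat_lit 448) (nat_lit 398) (nat_lit 294)) (XT.lf (nat_lit 0) (nat_lit 113291677) (nat_lit 684) (nat_lit 7526087191) (nat_lit 760) (nat_lit 2921067651) (nat_lit 351) (nat_lit 5) (nat_lit 360) (nat_lit 5) (nat_lit 361) (nat_lit 5) (nat_lit 449) (nat_lit 398) (nat_lit 293))) (XT.nd (nat_lit 78) (nat_lit 760) (nat_lit 0) (XT.lf (nat_lit 0) (nat_lit 6784057091) (nat_lit 684) (nat_lit 3318536591) (nat_lit 760) (nat_lit 565646103) (nat_lit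 351) (nat_lit 5) (nat_lit 360) (nat_lit 5) (nat_lit 361) (nat_lit 5) (nat_lit 450) (nat_lit 398) (nat_lit 292)) (XT.nd (nat_lit 78) (nat_lit 0) (nat_lit 0) (XT.lf (nat_lit 0) (nat_lit 1816193449) (nat_lit 760) (nat_lit 7974667623) (nat_lit 76) (nat_lit 987021303) (nat_lit 341) (nat_lit 5) (nat_lit 351) (nat_lit 5) (nat_lit 342) (nat_lit 5) (nat_lit 451) (nat_lit 398) (nat_lit 291)) (XT.lf (nat_lit 0) (nat_lit 4265212175) (nat_lit 760) (nat_lit 1263447881) (nat_lit 76) (nat_lit 5360440658) (nat_lit 341) (nat_lit 5) (nat_lit 351) (nat_lit 5) (nat_lit 342) (nat_lit 5) (nat_lit 452) (nat_lit 398) (nat_lit 290)))))) (XT.nd (nat_lit 390) (nat_lit 1824) (nat_lit 0) (XT.nd (nat_lit 156) (nat_lit 1292) (nat_lit 0) (XT.nd (nat_lit 78) (nat_lit 684) (nat_lit 0) (XT.lf (nat_lit 0) (nat_lit 5630977986) (nat_lit 684) (nat_lit 1148101874) (nat_lit 760) (nat_lit 4223146187) (nat_lit 332) (nat_lit 5) (nat_lit 341) (nat_lit 5) (nat_lit 342) (nat_lit 5) (nat_lit 453) (nat_lit 398)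 (nat_lit 289)) (XT.lf (nat_lit 0) (nat_lit 1536425482) (nat_lit 684) (nat_lit 7826391733) (nat_lit 760) (nat_lit 1754404826) (nat_lit 323) (nat_lit 5) (nat_lit 332) (nat_lit 5) (nat_lit 333) (nat_lit 5) (nat_lit 454) (nat_lit 398) (nat_lit 288))) (XT.nd (nat_lit 78) (nat_lit 1216) (nat_lit 0) (XT.lf (nat_lit 0) (nat_lit 777212903) (nat_lit 760) (nat_lit 2616729286) (nat_lit 76) (nat_lit 7840006238) (nat_lit 322) (nat_lit 5) (nat_lit 332) (nat_lit 5) (nat_lit 323) (nat_lit 5) (nat_lit 455) (nat_lit 398) (nat_lit 287)) (XT.nd (nat_lit 78) (nat_lit 608) (nat_lit 0) (XT.lf (nat_lit 0) (nat_lit 3352861348) (nat_lit 684) (nat_lit 6850705098) (nat_lit 76) (nat_lit 1148873169) (nat_lit 314) (nat_lit 5) (nat_lit 323) (nat_lit 5) (nat_lit 315) (nat_lit 5) (nat_lit 456) (nat_lit 398) (nat_lit 286)) (XT.lf (nat_lit 0) (nat_lit 281285056) (nat_lit 608) (nat_lit 5720948631) (nat_lit 684) (nat_lit 5470622719) (nat_lit 306) (nat_lit 5) (nat_lit 314) (nat_lit 5) (nat_lit 315)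 (nat_lit 5) (nat_lit 457) (nat_lit 398) (nat_lit 285))))) (XT.nd (nat_lit 156) (nat_lit 1216) (nat_lit 0) (XT.nd (nat_lit 78) (nat_lit 608) (nat_lit 0) (XT.lf (nat_lit 0) (nat_lit 7624041999) (nat_lit 608) (nat_lit 1106982588) (nat_lit 684) (nat_lit 2864128324) (nat_lit 306) (nat_lit 5) (nat_lit 314) (nat_lit 5) (nat_lit 315) (nat_lit 5) (nat_lit 458) (nat_lit 398) (nat_lit 284)) (XT.lf (nat_lit 0) (nat_lit 3390252521) (nat_lit 608) (nat_lit 8150328712) (nat_lit 684) (nat_lit 178790315) (nat_lit 298) (nat_lit 5) (nat_lit 306) (nat_lit 5) (nat_lit 307) (nat_lit 5) (nat_lit 459) (nat_lit 398) (nat_lit 283))) (XT.nd (nat_lit 78) (nat_lit 1140) (nat_lit 0) (XT.lf (nat_lit 0) (nat_lit 2541733310) (nat_lit 684) (nat_lit 941692419) (nat_lit 76) (nat_lit 8362015230) (nat_lit 297) (nat_lit 5) (nat_lit 306) (nat_lit 5) (nat_lit 298) (nat_lit 5) (nat_lit 460) (nat_lit 398) (nat_lit 282)) (XT.nd (nat_lit 78) (nat_lit 532) (nat_lit 0) (XT.lf (nat_lit 0) (nat_lit 5347310892)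 (nat_lit 684) (nat_lit 5326690500) (nat_lit 76) (nat_lit 1299345981) (nat_lit 289) (nat_lit 5) (nat_lit 298) (nat_lit 5) (nat_lit 290) (nat_lit 5) (nat_lit 461) (nat_lit 398) (nat_lit 281)) (XT.lf (nat_lit 0) (nat_lit 2278237092) (nat_lit 532) (nat_lit 5956435756) (nat_lit 608) (nat_lit 3868625609) (nat_lit 282) (nat_lit 5) (nat_lit 289) (nat_lit 5) (nat_lit 290) (nat_lit 5) (nat_lit 462) (nat_lit 398) (nat_lit 280))))))) (XT.nd (nat_lit 702) (nat_lit 2432) (nat_lit 0) (XT.nd (nat_lit 312) (nat_lit 1140) (nat_lit 0) (XT.nd (nat_lit 156) (nat_lit 0) (nat_lit 0) (XT.nd (nat_lit 78) (nat_lit 1140) (nat_lit 0) (XT.lf (nat_lit 0) (nat_lit 3209706016) (nat_lit 1140) (nat_lit 176861467) (nat_lit 1140) (nat_lit 176861467) (nat_lit 697) (nat_lit 3) (nat_lit 712) (nat_lit 3) (nat_lit 712) (nat_lit 5) (nat_lit 399) (nat_lit 399) (nat_lit 342)) (XT.lf (nat_lit 0) (nat_lit 1036716378) (nat_lit 1140) (nat_lit 3917977542) (nat_lit 1216) (nat_lit 2208688028) (nat_lit 682) (nat_lit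 5) (nat_lit 697) (nat_lit 3) (nat_lit 698) (nat_lit 5) (nat_lit 400) (nat_lit 399) (nat_lit 341))) (XT.nd (nat_lit 78) (nat_lit 0) (nat_lit 0) (XT.lf (nat_lit 0) (nat_lit 2763403780) (nat_lit 1140) (nat_lit 307752359) (nat_lit 1216) (nat_lit 4130244522) (nat_lit 682) (nat_lit 5) (nat_lit 697) (nat_lit 3) (nat_lit 698) (nat_lit 5) (nat_lit 401) (nat_lit 399) (nat_lit 340)) (XT.lf (nat_lit 76) (nat_lit 3395909739) (nat_lit 0) (nat_lit 1106367971) (nat_lit 1216) (nat_lit 2738348983) (nat_lit 683) (nat_lit 5) (nat_lit 682) (nat_lit 5) (nat_lit 698) (nat_lit 5) (nat_lit 402) (nat_lit 399) (nat_lit 339)))) (XT.nd (nat_lit 156) (nat_lit 0) (nat_lit 0) (XT.nd (nat_lit 78) (nat_lit 1216) (nat_lit 0) (XT.lf (nat_lit 0) (nat_lit 6240294263) (nat_lit 1140) (nat_lit 132780431) (nat_lit 1216) (nat_lit 908275249) (nat_lit 683) (nat_lit 5) (nat_lit 698) (nat_lit 5) (nat_lit 699) (nat_lit 5) (nat_lit 403) (nat_lit 399) (nat_lit 338)) (XT.lf (nat_lit 0) (nat_lit 669525141) (nat_lit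 1216) (nat_lit 3657000875) (nat_lit 1292) (nat_lit 2996504148) (nat_lit 667) (nat_lit 5) (nat_lit 683) (nat_lit 5) (nat_lit 684) (nat_lit 5) (nat_lit 404) (nat_lit 399) (nat_lit 337))) (XT.nd (nat_lit 78) (nat_lit 0) (nat_lit 0) (XT.lf (nat_lit 76) (nat_lit 148038784) (nat_lit 0) (nat_lit 2211927760) (nat_lit 1292) (nat_lit 5006248045) (nat_lit 668) (nat_lit 5) (nat_lit 667) (nat_lit 5) (nat_lit 684) (nat_lit 5) (nat_lit 405) (nat_lit 399) (nat_lit 336)) (XT.nd (nat_lit 78) (nat_lit 0) (nat_lit 76) (XT.lf (nat_lit 76) (nat_lit 4054817972) (nat_lit 0) (nat_lit 12330458) (nat_lit 1292) (nat_lit 3343455639) (nat_lit 668) (nat_lit 5) (nat_lit 667) (nat_lit 5) (nat_lit 684) (nat_lit 5) (nat_lit 406) (nat_lit 399) (nat_lit 335)) (XT.lf (nat_lit 76) (nat_lit 552215018) (nat_lit 0) (nat_lit 5233650720) (nat_lit 1292) (nat_lit 1670467765) (nat_lit 669) (nat_lit 5) (nat_lit 668) (nat_lit 5) (nat_lit 685) (nat_lit 5) (nat_lit 407) (nat_lit 399) (nat_lit 334)))))) (XT.nd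 (nat_lit 390) (nat_lit 1216) (nat_lit 0) (XT.nd (nat_lit 156) (nat_lit 0) (nat_lit 76) (XT.nd (nat_lit 78) (nat_lit 0) (nat_lit 0) (XT.lf (nat_lit 0) (nat_lit 17952653) (nat_lit 1292) (nat_lit 2943893956) (nat_lit 1368) (nat_lit 4541477350) (nat_lit 651) (nat_lit 5) (nat_lit 668) (nat_lit 5) (nat_lit 669) (nat_lit 5) (nat_lit 408) (nat_lit 399) (nat_lit 333)) (XT.lf (nat_lit 76) (nat_lit 1074280236) (nat_lit 0) (nat_lit 610974615) (nat_lit 1368) (nat_lit 5866428920) (nat_lit 652) (nat_lit 5) (nat_lit 651) (nat_lit 5) (nat_lit 669) (nat_lit 5) (nat_lit 409) (nat_lit 399) (nat_lit 332))) (XT.nd (nat_lit 78) (nat_lit 0) (nat_lit 0) (XT.lf (nat_lit 0) (nat_lit 3378590037) (nat_lit 1292) (nat_lit 2424620794) (nat_lit 1368) (nat_lit 1797946209) (nat_lit 652) (nat_lit 5) (nat_lit 669) (nat_lit 5) (nat_lit 670) (nat_lit 5) (nat_lit 410) (nat_lit 399) (nat_lit 331)) (XT.nd (nat_lit 78) (nat_lit 0) (nat_lit 0) (XT.lf (nat_lit 76) (nat_lit 1703001066) (nat_lit 0) (nat_lit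 3379854065) (nat_lit 1368) (nat_lit 2569223380) (nat_lit 653) (nat_lit 5) (nat_lit 652) (nat_lit 5) (nat_lit 670) (nat_lit 5) (nat_lit 411) (nat_lit 399) (nat_lit 330)) (XT.lf (nat_lit 76) (nat_lit 5921697445) (nat_lit 0) (nat_lit 878326387) (nat_lit 1368) (nat_lit 904418211) (nat_lit 653) (nat_lit 5) (nat_lit 652) (nat_lit 5) (nat_lit 670) (nat_lit 5) (nat_lit 412) (nat_lit 399) (nat_lit 329))))) (XT.nd (nat_lit 156) (nat_lit 0) (nat_lit 0) (XT.nd (nat_lit 78) (nat_lit 0) (nat_lit 0) (XT.lf (nat_lit 0) (nat_lit 773434211) (nat_lit 1368) (nat_lit 5299458719) (nat_lit 1444) (nat_lit 1685053646) (nat_lit 635) (nat_lit 5) (nat_lit 653) (nat_lit 5) (nat_lit 654) (nat_lit 5) (nat_lit 413) (nat_lit 399) (nat_lit 328)) (XT.lf (nat_lit 0) (nat_lit 2454289769) (nat_lit 1368) (nat_lit 1040461824) (nat_lit 1444) (nat_lit 4318018917) (nat_lit 635) (nat_lit 5) (nat_lit 653) (nat_lit 5) (nat_lit 654) (nat_lit 5) (nat_lit 414) (nat_lit 399) (nat_lit 327))) (XT.nd (nat_lit 78)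 (nat_lit 0) (nat_lit 76) (XT.lf (nat_lit 76) (nat_lit 3322779206) (nat_lit 0) (nat_lit 831954776) (nat_lit 1444) (nat_lit 3714237511) (nat_lit 636) (nat_lit 5) (nat_lit 635) (nat_lit 5) (nat_lit 654) (nat_lit 5) (nat_lit 415) (nat_lit 399) (nat_lit 326)) (XT.nd (nat_lit 78) (nat_lit 0) (nat_lit 0) (XT.lf (nat_lit 0) (nat_lit 5873455528) (nat_lit 1368) (nat_lit 176171256) (nat_lit 1444) (nat_lit 1876984342) (nat_lit 636) (nat_lit 5) (nat_lit 654) (nat_lit 5) (nat_lit 655) (nat_lit 5) (nat_lit 416) (nat_lit 399) (nat_lit 325)) (XT.lf (nat_lit 76) (nat_lit 4307604053) (nat_lit 0) (nat_lit 3318118387) (nat_lit 1444) (nat_lit 359697693) (nat_lit 637) (nat_lit 5) (nat_lit 636) (nat_lit 5) (nat_lit 655) (nat_lit 5) (nat_lit 417) (nat_lit 399) (nat_lit 324))))))))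
noncomputable def xc92 : XT := (XT.nd (nat_lit 1482) (nat_lit 9500) (nat_lit 0) (XT.nd (nat_lit 702) (nat_lit 8360) (nat_lit 0) (XT.nd (nat_lit 312) (nat_lit 4484) (nat_lit 0) (XT.nd (nat_lit 156) (nat_lit 0) (nat_lit 76) (XT.nd (nat_lit 78) (nat_lit 0) (nat_lit 76) (XT.lf (nat_lit 76) (nat_lit 814940422) (nat_lit 0) (nat_lit 507216899) (nat_lit 1520) (nat_lit 6723621114) (nat_lit 618) (nat_lit 5) (nat_lit 617) (nat_lit 5) (nat_lit 637) (nat_lit 5) (nat_lit 418) (nat_lit 399) (nat_lit 323)) (XT.lf (nat_lit 0) (nat_lit 3039549734) (nat_lit 1444) (nat_lit 2702796683) (nat_lit 1520) (nat_lit 2364815602) (nat_lit 618) (nat_lit 5) (nat_lit 637) (nat_lit 5) (nat_lit 638) (nat_lit 5) (nat_lit 419) (nat_lit 399) (nat_lit 322))) (XT.nd (nat_lit 78) (nat_lit 0) (nat_lit 76) (XT.lf (nat_lit 76) (nat_lit 1912544891) (nat_lit 0) (nat_lit 2861724183) (nat_lit 1520) (nat_lit 3395844619) (nat_lit 619) (nat_lit 5) (nat_lit 618) (nat_lit 5) (nat_lit 638) (nat_lit 5) (nat_lit 420)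 (nat_lit 399) (nat_lit 321)) (XT.lf (nat_lit 0) (nat_lit 6530169977) (nat_lit 1444) (nat_lit 1603263609) (nat_lit 76) (nat_lit 101161071) (nat_lit 619) (nat_lit 5) (nat_lit 638) (nat_lit 5) (nat_lit 620) (nat_lit 5) (nat_lit 421) (nat_lit 399) (nat_lit 320)))) (XT.nd (nat_lit 156) (nat_lit 3116) (nat_lit 0) (XT.nd (nat_lit 78) (nat_lit 0) (nat_lit 0) (XT.lf (nat_lit 0) (nat_lit 28315043) (nat_lit 1520) (nat_lit 5159037076) (nat_lit 76) (nat_lit 3112855127) (nat_lit 599) (nat_lit 5) (nat_lit 619) (nat_lit 5) (nat_lit 600) (nat_lit 5) (nat_lit 422) (nat_lit 399) (nat_lit 319)) (XT.lf (nat_lit 0) (nat_lit 1752356915) (nat_lit 1520) (nat_lit 401318125) (nat_lit 76) (nat_lit 6213642331) (nat_lit 599) (nat_lit 5) (nat_lit 619) (nat_lit 5) (nat_lit 600) (nat_lit 5) (nat_lit 423) (nat_lit 399) (nat_lit 318))) (XT.nd (nat_lit 78) (nat_lit 1596) (nat_lit 0) (XT.lf (nat_lit 0) (nat_lit 3515576077) (nat_lit 1596) (nat_lit 3956529237) (nat_lit 76) (nat_lit 963570454) (nat_lit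 579) (nat_lit 5) (nat_lit 600) (nat_lit 5) (nat_lit 580) (nat_lit 5) (nat_lit 424) (nat_lit 399) (nat_lit 317)) (XT.nd (nat_lit 78) (nat_lit 0) (nat_lit 0) (XT.lf (nat_lit 0) (nat_lit 929976401) (nat_lit 1596) (nat_lit 4376809066) (nat_lit 1672) (nat_lit 3198761350) (nat_lit 558) (nat_lit 5) (nat_lit 579) (nat_lit 5) (nat_lit 580) (nat_lit 5) (nat_lit 425) (nat_lit 399) (nat_lit 316)) (XT.lf (nat_lit 0) (nat_lit 5942757280) (nat_lit 1596) (nat_lit 1187757300) (nat_lit 1672) (nat_lit 1446366795) (nat_lit 558) (nat_lit 5) (nat_lit 579) (nat_lit 5) (nat_lit 580) (nat_lit 5) (nat_lit 426) (nat_lit 399) (nat_lit 315)))))) (XT.nd (nat_lit 390) (nat_lit 3040) (nat_lit 0) (XT.nd (nat_lit 156) (nat_lit 3572) (nat_lit 0) (XT.nd (nat_lit 78) (nat_lit 0) (nat_lit 0) (XT.lf (nat_lit 0) (nat_lit 336345286) (nat_lit 1748) (nat_lit 6252864468) (nat_lit 76) (nat_lit 2060393723) (nat_lit 535) (nat_lit 5) (nat_lit 558) (nat_lit 5) (nat_lit 536) (nat_lit 5) (nat_lit 427) (nat_lit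 399) (nat_lit 314)) (XT.lf (nat_lit 0) (nat_lit 2132002900) (nat_lit 1748) (nat_lit 1202492770) (nat_lit 76) (nat_lit 5389159979) (nat_lit 535) (nat_lit 5) (nat_lit 558) (nat_lit 5) (nat_lit 536) (nat_lit 5) (nat_lit 428) (nat_lit 399) (nat_lit 313))) (XT.nd (nat_lit 78) (nat_lit 1824) (nat_lit 0) (XT.lf (nat_lit 0) (nat_lit 3961037289) (nat_lit 1824) (nat_lit 4823238028) (nat_lit 76) (nat_lit 14964274) (nat_lit 512) (nat_lit 5) (nat_lit 536) (nat_lit 5) (nat_lit 513) (nat_lit 5) (nat_lit 429) (nat_lit 399) (nat_lit 312)) (XT.nd (nat_lit 78) (nat_lit 0) (nat_lit 0) (XT.lf (nat_lit 0) (nat_lit 355366522) (nat_lit 1824) (nat_lit 5475766726) (nat_lit 1900) (nat_lit 3045112347) (nat_lit 488) (nat_lit 5) (nat_lit 512) (nat_lit 5) (nat_lit 513) (nat_lit 5) (nat_lit 430) (nat_lit 399) (nat_lit 311)) (XT.lf (nat_lit 0) (nat_lit 5677740156) (nat_lit 1824) (nat_lit 2065611632) (nat_lit 1900) (nat_lit 1211345518) (nat_lit 488) (nat_lit 5) (nat_lit 512) (nat_lit 5) (nat_lit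 513) (nat_lit 5) (nat_lit 431) (nat_lit 399) (nat_lit 310))))) (XT.nd (nat_lit 156) (nat_lit 1824) (nat_lit 0) (XT.nd (nat_lit 78) (nat_lit 0) (nat_lit 0) (XT.lf (nat_lit 0) (nat_lit 645911132) (nat_lit 1216) (nat_lit 6974557917) (nat_lit 76) (nat_lit 1414254243) (nat_lit 472) (nat_lit 5) (nat_lit 488) (nat_lit 5) (nat_lit 473) (nat_lit 5) (nat_lit 432) (nat_lit 399) (nat_lit 309)) (XT.lf (nat_lit 0) (nat_lit 2533026733) (nat_lit 1216) (nat_lit 1614745532) (nat_lit 76) (nat_lit 4968238718) (nat_lit 472) (nat_lit 5) (nat_lit 488) (nat_lit 5) (nat_lit 473) (nat_lit 5) (nat_lit 433) (nat_lit 399) (nat_lit 308))) (XT.nd (nat_lit 78) (nat_lit 912) (nat_lit 0) (XT.lf (nat_lit 0) (nat_lit 3878186437) (nat_lit 912) (nat_lit 578508643) (nat_lit 988) (nat_lit 4742253140) (nat_lit 460) (nat_lit 5) (nat_lit 472) (nat_lit 5) (nat_lit 473) (nat_lit 5) (nat_lit 434) (nat_lit 399) (nat_lit 307)) (XT.nd (nat_lit 78) (nat_lit 0) (nat_lit 0) (XT.lf (nat_lit 0) (nat_lit 176596757)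 (nat_lit 912) (nat_lit 6248170511) (nat_lit 988) (nat_lit 2858658323) (nat_lit 448) (nat_lit 5) (nat_lit 460) (nat_lit 5) (nat_lit 461) (nat_lit 5) (nat_lit 435) (nat_lit 399) (nat_lit 306)) (XT.lf (nat_lit 0) (nat_lit 5827007174) (nat_lit 912) (nat_lit 2619046404) (nat_lit 988) (nat_lit 923261877) (nat_lit 448) (nat_lit 5) (nat_lit 460) (nat_lit 5) (nat_lit 461) (nat_lit 5) (nat_lit 436) (nat_lit 399) (nat_lit 305))))))) (XT.nd (nat_lit 702) (nat_lit 4408) (nat_lit 0) (XT.nd (nat_lit 312) (nat_lit 2432) (nat_lit 0) (XT.nd (nat_lit 156) (nat_lit 1748) (nat_lit 0) (XT.nd (nat_lit 78) (nat_lit 0) (nat_lit 0) (XT.lf (nat_lit 0) (nat_lit 1032733890) (nat_lit 912) (nat_lit 7334555636) (nat_lit 76) (nat_lit 1089583669) (nat_lit 436) (nat_lit 5) (nat_lit 448) (nat_lit 5) (nat_lit 437) (nat_lit 5) (nat_lit 437) (nat_lit 399) (nat_lit 304)) (XT.lf (nat_lit 0) (nat_lit 3031786092) (nat_lit 912) (nat_lit 1646387880) (nat_lit 76) (nat_lit 4867560084) (nat_lit 436) (nat_lit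 5) (nat_lit 448) (nat_lit 5) (nat_lit 437) (nat_lit 5) (nat_lit 438) (nat_lit 399) (nat_lit 303))) (XT.nd (nat_lit 78) (nat_lit 836) (nat_lit 0) (XT.lf (nat_lit 0) (nat_lit 4185617150) (nat_lit 912) (nat_lit 887882486) (nat_lit 988) (nat_lit 4562818890) (nat_lit 424) (nat_lit 5) (nat_lit 436) (nat_lit 5) (nat_lit 437) (nat_lit 5) (nat_lit 439) (nat_lit 399) (nat_lit 302)) (XT.lf (nat_lit 0) (nat_lit 388634802) (nat_lit 836) (nat_lit 6776215337) (nat_lit 912) (nat_lit 2563688493) (nat_lit 413) (nat_lit 5) (nat_lit 424) (nat_lit 5) (nat_lit 425) (nat_lit 5) (nat_lit 440) (nat_lit 399) (nat_lit 301)))) (XT.nd (nat_lit 156) (nat_lit 1520) (nat_lit 0) (XT.nd (nat_lit 78) (nat_lit 912) (nat_lit 0) (XT.lf (nat_lit 0) (nat_lit 6387712343) (nat_lit 836) (nat_lit 2928867233) (nat_lit 912) (nat_lit 505652526) (nat_lit 413) (nat_lit 5) (nat_lit 424) (nat_lit 5) (nat_lit 425) (nat_lit 5) (nat_lit 441) (nat_lit 399) (nat_lit 300)) (XT.lf (nat_lit 0) (nat_lit 1572527277) (nat_lit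 912) (nat_lit 7336593798) (nat_lit 76) (nat_lit 1008473784) (nat_lit 401) (nat_lit 5) (nat_lit 413) (nat_lit 5) (nat_lit 402) (nat_lit 5) (nat_lit 442) (nat_lit 399) (nat_lit 299))) (XT.nd (nat_lit 78) (nat_lit 1520) (nat_lit 0) (XT.lf (nat_lit 0) (nat_lit 3704842317) (nat_lit 912) (nat_lit 1299002772) (nat_lit 76) (nat_lit 5010566089) (nat_lit 401) (nat_lit 5) (nat_lit 413) (nat_lit 5) (nat_lit 402) (nat_lit 5) (nat_lit 443) (nat_lit 399) (nat_lit 298)) (XT.nd (nat_lit 78) (nat_lit 760) (nat_lit 0) (XT.lf (nat_lit 0) (nat_lit 4898994034) (nat_lit 760) (nat_lit 989812689) (nat_lit 836) (nat_lit 4224177039) (nat_lit 391) (nat_lit 5) (nat_lit 401) (nat_lit 5) (nat_lit 402) (nat_lit 5) (nat_lit 444) (nat_lit 399) (nat_lit 297)) (XT.lf (nat_lit 0) (nat_lit 993143432) (nat_lit 760) (nat_lit 7136157908) (nat_lit 836) (nat_lit 2083969439) (nat_lit 381) (nat_lit 5) (nat_lit 391) (nat_lit 5) (nat_lit 392) (nat_lit 5) (nat_lit 445) (nat_lit 399) (nat_lit 296)))))) (XT.nd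 (nat_lit 390) (nat_lit 2128) (nat_lit 0) (XT.nd (nat_lit 156) (nat_lit 1444) (nat_lit 0) (XT.nd (nat_lit 78) (nat_lit 760) (nat_lit 0) (XT.lf (nat_lit 0) (nat_lit 117124285) (nat_lit 836) (nat_lit 2952204547) (nat_lit 76) (nat_lit 7245834225) (nat_lit 380) (nat_lit 5) (nat_lit 391) (nat_lit 5) (nat_lit 381) (nat_lit 5) (nat_lit 446) (nat_lit 399) (nat_lit 295)) (XT.lf (nat_lit 0) (nat_lit 2342020392) (nat_lit 836) (nat_lit 6978056516) (nat_lit 76) (nat_lit 1098587075) (nat_lit 370) (nat_lit 5) (nat_lit 381) (nat_lit 5) (nat_lit 371) (nat_lit 5) (nat_lit 447) (nat_lit 399) (nat_lit 294))) (XT.nd (nat_lit 78) (nat_lit 1444) (nat_lit 0) (XT.lf (nat_lit 0) (nat_lit 4629982817) (nat_lit 836) (nat_lit 567774861) (nat_lit 76) (nat_lit 5326105881) (nat_lit 370) (nat_lit 5) (nat_lit 381) (nat_lit 5) (nat_lit 371) (nat_lit 5) (nat_lit 448) (nat_lit 399) (nat_lit 293)) (XT.nd (nat_lit 78) (nat_lit 684) (nat_lit 0) (XT.lf (nat_lit 0) (nat_lit 6025451120) (nat_lit 760) (nat_lit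 956099761) (nat_lit 836) (nat_lit 3649259318) (nat_lit 360) (nat_lit 5) (nat_lit 370) (nat_lit 5) (nat_lit 371) (nat_lit 5) (nat_lit 449) (nat_lit 399) (nat_lit 292)) (XT.lf (nat_lit 0) (nat_lit 1998190483) (nat_lit 684) (nat_lit 7399616989) (nat_lit 760) (nat_lit 1341735157) (nat_lit 351) (nat_lit 5) (nat_lit 360) (nat_lit 5) (nat_lit 361) (nat_lit 5) (nat_lit 450) (nat_lit 399) (nat_lit 291))))) (XT.nd (nat_lit 156) (nat_lit 1368) (nat_lit 0) (XT.nd (nat_lit 78) (nat_lit 684) (nat_lit 0) (XT.lf (nat_lit 0) (nat_lit 1015190652) (nat_lit 760) (nat_lit 2091343476) (nat_lit 76) (nat_lit 7743453717) (nat_lit 350) (nat_lit 5) (nat_lit 360) (nat_lit 5) (nat_lit 351) (nat_lit 5) (nat_lit 451) (nat_lit 399) (nat_lit 290)) (XT.lf (nat_lit 0) (nat_lit 3419946444) (nat_lit 760) (nat_lit 6250230474) (nat_lit 76) (nat_lit 1291914522) (nat_lit 341) (nat_lit 5) (nat_lit 351) (nat_lit 5) (nat_lit 342) (nat_lit 5) (nat_lit 452) (nat_lit 399) (nat_lit 289))) (XT.nd (nat_lit 78)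 (nat_lit 684) (nat_lit 0) (XT.lf (nat_lit 0) (nat_lit 565693013) (nat_lit 684) (nat_lit 5325191480) (nat_lit 760) (nat_lit 5185190874) (nat_lit 332) (nat_lit 5) (nat_lit 341) (nat_lit 5) (nat_lit 342) (nat_lit 5) (nat_lit 453) (nat_lit 399) (nat_lit 288)) (XT.nd (nat_lit 78) (nat_lit 684) (nat_lit 0) (XT.lf (nat_lit 0) (nat_lit 7578436979) (nat_lit 684) (nat_lit 854701415) (nat_lit 760) (nat_lit 2758762635) (nat_lit 332) (nat_lit 5) (nat_lit 341) (nat_lit 5) (nat_lit 342) (nat_lit 5) (nat_lit 454) (nat_lit 399) (nat_lit 287)) (XT.lf (nat_lit 0) (nat_lit 3418051330) (nat_lit 684) (nat_lit 7634756122) (nat_lit 760) (nat_lit 256704352) (nat_lit 323) (nat_lit 5) (nat_lit 332) (nat_lit 5) (nat_lit 333) (nat_lit 5) (nat_lit 455) (nat_lit 399) (nat_lit 286))))))))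
noncomputable def xc93 : XT := (XT.nd (nat_lit 55926) (nat_lit 0) (nat_lit 16948) (XT.nd (nat_lit 55146) (nat_lit 0) (nat_lit 27512) (XT.nd (nat_lit 312) (nat_lit 1292) (nat_lit 0) (XT.nd (nat_lit 156) (nat_lit 608) (nat_lit 0) (XT.nd (nat_lit 78) (nat_lit 608) (nat_lit 0) (XT.lf (nat_lit 0) (nat_lit 2275782429) (nat_lit 760) (nat_lit 834750013) (nat_lit 76) (nat_lit 8318434449) (nat_lit 322) (nat_lit 5) (nat_lit 332) (nat_lit 5) (nat_lit 323) (nat_lit 5) (nat_lit 456) (nat_lit 399) (nat_lit 285)) (XT.lf (nat_lit 0) (nat_lit 4888010575) (nat_lit 684) (nat_lit 5138472073) (nat_lit 76) (nat_lit 1523643919) (nat_lit 314) (nat_lit 5) (nat_lit 323) (nat_lit 5) (nat_lit 315) (nat_lit 5) (nat_lit 457) (nat_lit 399) (nat_lit 284))) (XT.nd (nat_lit 78) (nat_lit 0) (nat_lit 0) (XT.lf (nat_lit 0) (nat_lit 2123991784) (nat_lit 608) (nat_lit 5449520008) (nat_lit 684) (nat_lit 4099777074) (nat_lit 306) (nat_lit 5) (nat_lit 314) (nat_lit 5) (nat_lit 315) (nat_lit 5) (nat_lit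 458) (nat_lit 399) (nat_lit 283)) (XT.lf (nat_lit 0) (nat_lit 9577582670) (nat_lit 608) (nat_lit 750840283) (nat_lit 684) (nat_lit 1470177460) (nat_lit 306) (nat_lit 5) (nat_lit 314) (nat_lit 5) (nat_lit 315) (nat_lit 5) (nat_lit 459) (nat_lit 399) (nat_lit 282)))) (XT.nd (nat_lit 156) (nat_lit 0) (nat_lit 0) (XT.nd (nat_lit 78) (nat_lit 608) (nat_lit 0) (XT.lf (nat_lit 0) (nat_lit 1238429855) (nat_lit 684) (nat_lit 6660628317) (nat_lit 76) (nat_lit 4026356403) (nat_lit 297) (nat_lit 5) (nat_lit 306) (nat_lit 5) (nat_lit 298) (nat_lit 5) (nat_lit 460) (nat_lit 399) (nat_lit 281)) (XT.lf (nat_lit 0) (nat_lit 848532832) (nat_lit 608) (nat_lit 3140136746) (nat_lit 684) (nat_lit 8065758168) (nat_lit 289) (nat_lit 5) (nat_lit 297) (nat_lit 5) (nat_lit 298) (nat_lit 5) (nat_lit 461) (nat_lit 399) (nat_lit 280))) (XT.nd (nat_lit 54522) (nat_lit 0) (nat_lit 29868) (XT.lf (nat_lit 0) (nat_lit 6831849167) (nat_lit 684) (nat_lit 3622293562) (nat_lit 76) (nat_lit 1731119750)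 (nat_lit 289) (nat_lit 5) (nat_lit 298) (nat_lit 5) (nat_lit 290) (nat_lit 5) (nat_lit 462) (nat_lit 399) (nat_lit 279)) (XT.nd (nat_lit 78) (nat_lit 0) (nat_lit 0) (XT.lf (nat_lit 0) (nat_lit 681168010) (nat_lit 0) (nat_lit 681168010) (nat_lit 1140) (nat_lit 2238040329) (nat_lit 682) (nat_lit 5) (nat_lit 682) (nat_lit 3) (nat_lit 697) (nat_lit 3) (nat_lit 400) (nat_lit 400) (nat_lit 340)) (XT.lf (nat_lit 0) (nat_lit 4420536174) (nat_lit 1140) (nat_lit 2230883711) (nat_lit 1216) (nat_lit 587967992) (nat_lit 682) (nat_lit 5) (nat_lit 697) (nat_lit 3) (nat_lit 698) (nat_lit 5) (nat_lit 401) (nat_lit 400) (nat_lit 339)))))) (XT.nd (nat_lit 390) (nat_lit 1140) (nat_lit 0) (XT.nd (nat_lit 156) (nat_lit 0) (nat_lit 0) (XT.nd (nat_lit 78) (nat_lit 1216) (nat_lit 0) (XT.lf (nat_lit 76) (nat_lit 1435759485) (nat_lit 0) (nat_lit 4689376889) (nat_lit 1216) (nat_lit 1154163010) (nat_lit 683) (nat_lit 5) (nat_lit 682) (nat_lit 5) (nat_lit 698) (nat_lit 5) (nat_lit 402) (nat_lit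 400) (nat_lit 338)) (XT.lf (nat_lit 0) (nat_lit 508653992) (nat_lit 1216) (nat_lit 2140635004) (nat_lit 1292) (nat_lit 4671210171) (nat_lit 666) (nat_lit 5) (nat_lit 682) (nat_lit 5) (nat_lit 683) (nat_lit 5) (nat_lit 403) (nat_lit 400) (nat_lit 337))) (XT.nd (nat_lit 78) (nat_lit 0) (nat_lit 76) (XT.lf (nat_lit 76) (nat_lit 1627210908) (nat_lit 0) (nat_lit 530383994) (nat_lit 1292) (nat_lit 5205409029) (nat_lit 667) (nat_lit 5) (nat_lit 666) (nat_lit 5) (nat_lit 683) (nat_lit 5) (nat_lit 404) (nat_lit 400) (nat_lit 336)) (XT.nd (nat_lit 78) (nat_lit 0) (nat_lit 0) (XT.lf (nat_lit 0) (nat_lit 3823110070) (nat_lit 1216) (nat_lit 1940943883) (nat_lit 1292) (nat_lit 1642632926) (nat_lit 667) (nat_lit 5) (nat_lit 683) (nat_lit 5) (nat_lit 684) (nat_lit 5) (nat_lit 405) (nat_lit 400) (nat_lit 335)) (XT.lf (nat_lit 76) (nat_lit 1928425537) (nat_lit 0) (nat_lit 3568902553) (nat_lit 1292) (nat_lit 1954407547) (nat_lit 668) (nat_lit 5) (nat_lit 667) (nat_lit 5) (nat_lit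 684) (nat_lit 5) (nat_lit 406) (nat_lit 400) (nat_lit 334))))) (XT.nd (nat_lit 156) (nat_lit 0) (nat_lit 0) (XT.nd (nat_lit 78) (nat_lit 1216) (nat_lit 0) (XT.lf (nat_lit 76) (nat_lit 5878488818) (nat_lit 0) (nat_lit 1299573379) (nat_lit 1292) (nat_lit 320162536) (nat_lit 668) (nat_lit 5) (nat_lit 667) (nat_lit 5) (nat_lit 684) (nat_lit 5) (nat_lit 407) (nat_lit 400) (nat_lit 333)) (XT.lf (nat_lit 0) (nat_lit 1311822126) (nat_lit 1292) (nat_lit 5191754045) (nat_lit 1368) (nat_lit 1042238203) (nat_lit 651) (nat_lit 5) (nat_lit 668) (nat_lit 5) (nat_lit 669) (nat_lit 5) (nat_lit 408) (nat_lit 400) (nat_lit 332))) (XT.nd (nat_lit 78) (nat_lit 0) (nat_lit 0) (XT.lf (nat_lit 0) (nat_lit 2952971111) (nat_lit 1292) (nat_lit 1199454080) (nat_lit 1368) (nat_lit 3442272059) (nat_lit 651) (nat_lit 5) (nat_lit 668) (nat_lit 5) (nat_lit 669) (nat_lit 5) (nat_lit 409) (nat_lit 400) (nat_lit 331)) (XT.nd (nat_lit 78) (nat_lit 0) (nat_lit 76) (XT.lf (nat_lit 76) (nat_lit 2887219663)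 (nat_lit 0) (nat_lit 1720488654) (nat_lit 1368) (nat_lit 3037234162) (nat_lit 652) (nat_lit 5) (nat_lit 651) (nat_lit 5) (nat_lit 669) (nat_lit 5) (nat_lit 410) (nat_lit 400) (nat_lit 330)) (XT.lf (nat_lit 0) (nat_lit 6271283412) (nat_lit 1292) (nat_lit 653159138) (nat_lit 1368) (nat_lit 772235200) (nat_lit 652) (nat_lit 5) (nat_lit 669) (nat_lit 5) (nat_lit 670) (nat_lit 5) (nat_lit 411) (nat_lit 400) (nat_lit 329))))))) (XT.nd (nat_lit 702) (nat_lit 7980) (nat_lit 0) (XT.nd (nat_lit 312) (nat_lit 1292) (nat_lit 0) (XT.nd (nat_lit 156) (nat_lit 0) (nat_lit 76) (XT.nd (nat_lit 78) (nat_lit 0) (nat_lit 0) (XT.lf (nat_lit 0) (nat_lit 213647840) (nat_lit 1368) (nat_lit 4205854569) (nat_lit 1444) (nat_lit 3329960247) (nat_lit 634) (nat_lit 5) (nat_lit 652) (nat_lit 5) (nat_lit 653) (nat_lit 5) (nat_lit 412) (nat_lit 400) (nat_lit 328)) (XT.lf (nat_lit 0) (nat_lit 1834578485) (nat_lit 1368) (nat_lit 3400455) (nat_lit 1444) (nat_lit 5965772010) (nat_lit 634) (nat_lit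 5) (nat_lit 652) (nat_lit 5) (nat_lit 653) (nat_lit 5) (nat_lit 413) (nat_lit 400) (nat_lit 327))) (XT.nd (nat_lit 78) (nat_lit 0) (nat_lit 0) (XT.lf (nat_lit 0) (nat_lit 3485853322) (nat_lit 1368) (nat_lit 3548402588) (nat_lit 1444) (nat_lit 824910589) (nat_lit 635) (nat_lit 5) (nat_lit 653) (nat_lit 5) (nat_lit 654) (nat_lit 5) (nat_lit 414) (nat_lit 400) (nat_lit 326)) (XT.lf (nat_lit 76) (nat_lit 769453106) (nat_lit 0) (nat_lit 4382987303) (nat_lit 1444) (nat_lit 2763604215) (nat_lit 636) (nat_lit 5) (nat_lit 635) (nat_lit 5) (nat_lit 654) (nat_lit 5) (nat_lit 415) (nat_lit 400) (nat_lit 325)))) (XT.nd (nat_lit 156) (nat_lit 0) (nat_lit 0) (XT.nd (nat_lit 78) (nat_lit 1368) (nat_lit 0) (XT.lf (nat_lit 76) (nat_lit 5197889596) (nat_lit 0) (nat_lit 1643906607) (nat_lit 1444) (nat_lit 1132475370) (nat_lit 636) (nat_lit 5) (nat_lit 635) (nat_lit 5) (nat_lit 654) (nat_lit 5) (nat_lit 416) (nat_lit 400) (nat_lit 324)) (XT.lf (nat_lit 0) (nat_lit 508892022) (nat_lit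 1444) (nat_lit 6365777849) (nat_lit 1520) (nat_lit 1159232525) (nat_lit 617) (nat_lit 5) (nat_lit 636) (nat_lit 5) (nat_lit 637) (nat_lit 5) (nat_lit 417) (nat_lit 400) (nat_lit 323))) (XT.nd (nat_lit 78) (nat_lit 0) (nat_lit 0) (XT.lf (nat_lit 0) (nat_lit 2164228741) (nat_lit 1444) (nat_lit 1898140310) (nat_lit 1520) (nat_lit 4032280955) (nat_lit 617) (nat_lit 5) (nat_lit 636) (nat_lit 5) (nat_lit 637) (nat_lit 5) (nat_lit 418) (nat_lit 400) (nat_lit 322)) (XT.nd (nat_lit 78) (nat_lit 0) (nat_lit 76) (XT.lf (nat_lit 76) (nat_lit 2669912574) (nat_lit 0) (nat_lit 1167398858) (nat_lit 1520) (nat_lit 4319608353) (nat_lit 618) (nat_lit 5) (nat_lit 617) (nat_lit 5) (nat_lit 637) (nat_lit 5) (nat_lit 419) (nat_lit 400) (nat_lit 321)) (XT.lf (nat_lit 0) (nat_lit 5536115718) (nat_lit 1444) (nat_lit 901295717) (nat_lit 1520) (nat_lit 1783178325) (nat_lit 618) (nat_lit 5) (nat_lit 637) (nat_lit 5) (nat_lit 638) (nat_lit 5) (nat_lit 420) (nat_lit 400) (nat_lit 320))))))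 (XT.nd (nat_lit 390) (nat_lit 5092) (nat_lit 0) (XT.nd (nat_lit 156) (nat_lit 1444) (nat_lit 0) (XT.nd (nat_lit 78) (nat_lit 1520) (nat_lit 0) (XT.lf (nat_lit 76) (nat_lit 3794145078) (nat_lit 0) (nat_lit 3475592319) (nat_lit 1520) (nat_lit 1015778911) (nat_lit 619) (nat_lit 5) (nat_lit 618) (nat_lit 5) (nat_lit 638) (nat_lit 5) (nat_lit 421) (nat_lit 400) (nat_lit 319)) (XT.lf (nat_lit 76) (nat_lit 218184966) (nat_lit 0) (nat_lit 435342767) (nat_lit 1596) (nat_lit 7698599769) (nat_lit 599) (nat_lit 5) (nat_lit 598) (nat_lit 5) (nat_lit 619) (nat_lit 5) (nat_lit 422) (nat_lit 400) (nat_lit 318))) (XT.nd (nat_lit 78) (nat_lit 1520) (nat_lit 0) (XT.lf (nat_lit 0) (nat_lit 2359512181) (nat_lit 1520) (nat_lit 3385660528) (nat_lit 76) (nat_lit 2674426065) (nat_lit 599) (nat_lit 5) (nat_lit 619) (nat_lit 5) (nat_lit 600) (nat_lit 5) (nat_lit 423) (nat_lit 400) (nat_lit 317)) (XT.nd (nat_lit 78) (nat_lit 0) (nat_lit 0) (XT.lf (nat_lit 0) (nat_lit 1449427056) (nat_lit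 1520) (nat_lit 2632319831) (nat_lit 1596) (nat_lit 4407029973) (nat_lit 579) (nat_lit 5) (nat_lit 599) (nat_lit 5) (nat_lit 600) (nat_lit 5) (nat_lit 424) (nat_lit 400) (nat_lit 316)) (XT.lf (nat_lit 0) (nat_lit 5835128489) (nat_lit 1596) (nat_lit 2160206470) (nat_lit 76) (nat_lit 564069506) (nat_lit 579) (nat_lit 5) (nat_lit 600) (nat_lit 5) (nat_lit 580) (nat_lit 5) (nat_lit 425) (nat_lit 400) (nat_lit 315))))) (XT.nd (nat_lit 156) (nat_lit 3420) (nat_lit 0) (XT.nd (nat_lit 78) (nat_lit 76) (nat_lit 0) (XT.lf (nat_lit 0) (nat_lit 2811690771) (nat_lit 1596) (nat_lit 4818465110) (nat_lit 1672) (nat_lit 1001157177) (nat_lit 558) (nat_lit 5) (nat_lit 579) (nat_lit 5) (nat_lit 580) (nat_lit 5) (nat_lit 426) (nat_lit 400) (nat_lit 314)) (XT.lf (nat_lit 0) (nat_lit 732209889) (nat_lit 1672) (nat_lit 821565378) (nat_lit 76) (nat_lit 7151072201) (nat_lit 557) (nat_lit 5) (nat_lit 579) (nat_lit 5) (nat_lit 558) (nat_lit 5) (nat_lit 427) (nat_lit 400) (nat_lit 313)))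 (XT.nd (nat_lit 78) (nat_lit 1748) (nat_lit 0) (XT.lf (nat_lit 0) (nat_lit 2498254218) (nat_lit 1748) (nat_lit 4489285900) (nat_lit 76) (nat_lit 1791951789) (nat_lit 535) (nat_lit 5) (nat_lit 558) (nat_lit 5) (nat_lit 536) (nat_lit 5) (nat_lit 428) (nat_lit 400) (nat_lit 312)) (XT.nd (nat_lit 78) (nat_lit 0) (nat_lit 0) (XT.lf (nat_lit 0) (nat_lit 633367890) (nat_lit 1748) (nat_lit 3658310868) (nat_lit 1824) (nat_lit 4564109289) (nat_lit 512) (nat_lit 5) (nat_lit 535) (nat_lit 5) (nat_lit 536) (nat_lit 5) (nat_lit 429) (nat_lit 400) (nat_lit 311)) (XT.lf (nat_lit 0) (nat_lit 5895046200) (nat_lit 1748) (nat_lit 228547847) (nat_lit 1824) (nat_lit 2809963616) (nat_lit 512) (nat_lit 5) (nat_lit 535) (nat_lit 5) (nat_lit 536) (nat_lit 5) (nat_lit 430) (nat_lit 400) (nat_lit 310))))))))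
noncomputable def xc94 : XT := (XT.nd (nat_lit 1482) (nat_lit 4788) (nat_lit 0) (XT.nd (nat_lit 702) (nat_lit 4864) (nat_lit 0) (XT.nd (nat_lit 312) (nat_lit 2736) (nat_lit 0) (XT.nd (nat_lit 156) (nat_lit 2052) (nat_lit 0) (XT.nd (nat_lit 78) (nat_lit 76) (nat_lit 0) (XT.lf (nat_lit 0) (nat_lit 2232763041) (nat_lit 1824) (nat_lit 5768167529) (nat_lit 1900) (nat_lit 1011776445) (nat_lit 488) (nat_lit 5) (nat_lit 512) (nat_lit 5) (nat_lit 513) (nat_lit 5) (nat_lit 431) (nat_lit 400) (nat_lit 309)) (XT.lf (nat_lit 0) (nat_lit 806879226) (nat_lit 1900) (nat_lit 1473929532) (nat_lit 76) (nat_lit 6812617999) (nat_lit 487) (nat_lit 5) (nat_lit 512) (nat_lit 5) (nat_lit 488) (nat_lit 5) (nat_lit 432) (nat_lit 400) (nat_lit 308))) (XT.nd (nat_lit 78) (nat_lit 912) (nat_lit 0) (XT.lf (nat_lit 0) (nat_lit 2656371060) (nat_lit 1216) (nat_lit 5224799274) (nat_lit 76) (nat_lit 1294296590) (nat_lit 472) (nat_lit 5) (nat_lit 488) (nat_lit 5) (nat_lit 473) (nat_lit 5) (nat_lit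 433) (nat_lit 400) (nat_lit 307)) (XT.lf (nat_lit 0) (nat_lit 207891783) (nat_lit 912) (nat_lit 4335519477) (nat_lit 988) (nat_lit 4715725463) (nat_lit 460) (nat_lit 5) (nat_lit 472) (nat_lit 5) (nat_lit 473) (nat_lit 5) (nat_lit 434) (nat_lit 400) (nat_lit 306)))) (XT.nd (nat_lit 156) (nat_lit 1824) (nat_lit 0) (XT.nd (nat_lit 78) (nat_lit 912) (nat_lit 0) (XT.lf (nat_lit 0) (nat_lit 5795770290) (nat_lit 912) (nat_lit 681980049) (nat_lit 988) (nat_lit 2866538418) (nat_lit 460) (nat_lit 5) (nat_lit 472) (nat_lit 5) (nat_lit 473) (nat_lit 5) (nat_lit 435) (nat_lit 400) (nat_lit 305)) (XT.lf (nat_lit 0) (nat_lit 2047020406) (nat_lit 912) (nat_lit 6411818869) (nat_lit 988) (nat_lit 972143294) (nat_lit 448) (nat_lit 5) (nat_lit 460) (nat_lit 5) (nat_lit 461) (nat_lit 5) (nat_lit 436) (nat_lit 400) (nat_lit 304))) (XT.nd (nat_lit 78) (nat_lit 1748) (nat_lit 0) (XT.lf (nat_lit 0) (nat_lit 951208486) (nat_lit 988) (nat_lit 1751762156) (nat_lit 76) (nat_lit 6816241716)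 (nat_lit 447) (nat_lit 5) (nat_lit 460) (nat_lit 5) (nat_lit 448) (nat_lit 5) (nat_lit 437) (nat_lit 400) (nat_lit 303)) (XT.nd (nat_lit 78) (nat_lit 912) (nat_lit 0) (XT.lf (nat_lit 0) (nat_lit 2908983648) (nat_lit 912) (nat_lit 5600979174) (nat_lit 76) (nat_lit 1098935936) (nat_lit 436) (nat_lit 5) (nat_lit 448) (nat_lit 5) (nat_lit 437) (nat_lit 5) (nat_lit 438) (nat_lit 400) (nat_lit 302)) (XT.lf (nat_lit 0) (nat_lit 166264535) (nat_lit 912) (nat_lit 4746447642) (nat_lit 988) (nat_lit 4787530753) (nat_lit 424) (nat_lit 5) (nat_lit 436) (nat_lit 5) (nat_lit 437) (nat_lit 5) (nat_lit 439) (nat_lit 400) (nat_lit 301)))))) (XT.nd (nat_lit 390) (nat_lit 2356) (nat_lit 0) (XT.nd (nat_lit 156) (nat_lit 1672) (nat_lit 0) (XT.nd (nat_lit 78) (nat_lit 836) (nat_lit 0) (XT.lf (nat_lit 0) (nat_lit 6100601448) (nat_lit 912) (nat_lit 869798075) (nat_lit 988) (nat_lit 2822736775) (nat_lit 424) (nat_lit 5) (nat_lit 436) (nat_lit 5) (nat_lit 437) (nat_lit 5) (nat_lit 440)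 (nat_lit 400) (nat_lit 300)) (XT.lf (nat_lit 0) (nat_lit 2251072789) (nat_lit 836) (nat_lit 6829569604) (nat_lit 912) (nat_lit 807017106) (nat_lit 413) (nat_lit 5) (nat_lit 424) (nat_lit 5) (nat_lit 425) (nat_lit 5) (nat_lit 441) (nat_lit 400) (nat_lit 299))) (XT.nd (nat_lit 78) (nat_lit 1596) (nat_lit 0) (XT.lf (nat_lit 0) (nat_lit 1240247439) (nat_lit 912) (nat_lit 1658315564) (nat_lit 76) (nat_lit 7085195742) (nat_lit 412) (nat_lit 5) (nat_lit 424) (nat_lit 5) (nat_lit 413) (nat_lit 5) (nat_lit 442) (nat_lit 400) (nat_lit 298)) (XT.nd (nat_lit 78) (nat_lit 760) (nat_lit 0) (XT.lf (nat_lit 0) (nat_lit 3331471529) (nat_lit 912) (nat_lit 5620024824) (nat_lit 76) (nat_lit 1129900529) (nat_lit 401) (nat_lit 5) (nat_lit 413) (nat_lit 5) (nat_lit 402) (nat_lit 5) (nat_lit 443) (nat_lit 400) (nat_lit 297)) (XT.lf (nat_lit 0) (nat_lit 508451138) (nat_lit 760) (nat_lit 4967410507) (nat_lit 836) (nat_lit 4704899307) (nat_lit 391) (nat_lit 5) (nat_lit 401) (nat_lit 5)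 (nat_lit 402) (nat_lit 5) (nat_lit 444) (nat_lit 400) (nat_lit 296))))) (XT.nd (nat_lit 156) (nat_lit 1596) (nat_lit 0) (XT.nd (nat_lit 78) (nat_lit 760) (nat_lit 0) (XT.lf (nat_lit 0) (nat_lit 6811721259) (nat_lit 760) (nat_lit 867057162) (nat_lit 836) (nat_lit 2603021105) (nat_lit 391) (nat_lit 5) (nat_lit 401) (nat_lit 5) (nat_lit 402) (nat_lit 5) (nat_lit 445) (nat_lit 400) (nat_lit 295)) (XT.lf (nat_lit 0) (nat_lit 2848118952) (nat_lit 760) (nat_lit 7095997992) (nat_lit 836) (nat_lit 440374659) (nat_lit 381) (nat_lit 5) (nat_lit 391) (nat_lit 5) (nat_lit 392) (nat_lit 5) (nat_lit 446) (nat_lit 400) (nat_lit 294))) (XT.nd (nat_lit 78) (nat_lit 1520) (nat_lit 0) (XT.lf (nat_lit 0) (nat_lit 1750027059) (nat_lit 836) (nat_lit 1190449300) (nat_lit 76) (nat_lit 7548378753) (nat_lit 380) (nat_lit 5) (nat_lit 391) (nat_lit 5) (nat_lit 381) (nat_lit 5) (nat_lit 447) (nat_lit 400) (nat_lit 293)) (XT.nd (nat_lit 78) (nat_lit 760) (nat_lit 0) (XT.lf (nat_lit 0) (nat_lit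 4000482095) (nat_lit 836) (nat_lit 5277879314) (nat_lit 76) (nat_lit 1316443428) (nat_lit 370) (nat_lit 5) (nat_lit 381) (nat_lit 5) (nat_lit 371) (nat_lit 5) (nat_lit 448) (nat_lit 400) (nat_lit 292)) (XT.lf (nat_lit 0) (nat_lit 1240808094) (nat_lit 760) (nat_lit 5069851406) (nat_lit 836) (nat_lit 4391919791) (nat_lit 360) (nat_lit 5) (nat_lit 370) (nat_lit 5) (nat_lit 371) (nat_lit 5) (nat_lit 449) (nat_lit 400) (nat_lit 291))))))) (XT.nd (nat_lit 702) (nat_lit 1292) (nat_lit 0) (XT.nd (nat_lit 312) (nat_lit 2052) (nat_lit 0) (XT.nd (nat_lit 156) (nat_lit 684) (nat_lit 0) (XT.nd (nat_lit 78) (nat_lit 760) (nat_lit 0) (XT.lf (nat_lit 0) (nat_lit 7937758957) (nat_lit 760) (nat_lit 744096564) (nat_lit 836) (nat_lit 2130357410) (nat_lit 360) (nat_lit 5) (nat_lit 370) (nat_lit 5) (nat_lit 371) (nat_lit 5) (nat_lit 450) (nat_lit 400) (nat_lit 290)) (XT.lf (nat_lit 0) (nat_lit 202891685) (nat_lit 760) (nat_lit 7077120124) (nat_lit 76) (nat_lit 3643429136) (nat_lit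 350) (nat_lit 5) (nat_lit 360) (nat_lit 5) (nat_lit 351) (nat_lit 5) (nat_lit 451) (nat_lit 400) (nat_lit 289))) (XT.nd (nat_lit 78) (nat_lit 684) (nat_lit 0) (XT.lf (nat_lit 0) (nat_lit 2558545941) (nat_lit 760) (nat_lit 338882696) (nat_lit 76) (nat_lit 8139097935) (nat_lit 350) (nat_lit 5) (nat_lit 360) (nat_lit 5) (nat_lit 351) (nat_lit 5) (nat_lit 452) (nat_lit 400) (nat_lit 288)) (XT.lf (nat_lit 0) (nat_lit 4994909316) (nat_lit 760) (nat_lit 4564459900) (nat_lit 76) (nat_lit 1591832775) (nat_lit 341) (nat_lit 5) (nat_lit 351) (nat_lit 5) (nat_lit 342) (nat_lit 5) (nat_lit 453) (nat_lit 400) (nat_lit 287)))) (XT.nd (nat_lit 156) (nat_lit 1368) (nat_lit 0) (XT.nd (nat_lit 78) (nat_lit 0) (nat_lit 0) (XT.lf (nat_lit 0) (nat_lit 2375869063) (nat_lit 684) (nat_lit 5121536000) (nat_lit 760) (nat_lit 3770417754) (nat_lit 332) (nat_lit 5) (nat_lit 341) (nat_lit 5) (nat_lit 342) (nat_lit 5) (nat_lit 454) (nat_lit 400) (nat_lit 286)) (XT.lf (nat_lit 0) (nat_lit 9493596100)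 (nat_lit 684) (nat_lit 567717689) (nat_lit 760) (nat_lit 1325235008) (nat_lit 332) (nat_lit 5) (nat_lit 341) (nat_lit 5) (nat_lit 342) (nat_lit 5) (nat_lit 455) (nat_lit 400) (nat_lit 285))) (XT.nd (nat_lit 78) (nat_lit 608) (nat_lit 0) (XT.lf (nat_lit 0) (nat_lit 1195541959) (nat_lit 760) (nat_lit 6249242734) (nat_lit 76) (nat_lit 4061872420) (nat_lit 322) (nat_lit 5) (nat_lit 332) (nat_lit 5) (nat_lit 323) (nat_lit 5) (nat_lit 456) (nat_lit 400) (nat_lit 284)) (XT.nd (nat_lit 78) (nat_lit 0) (nat_lit 0) (XT.lf (nat_lit 0) (nat_lit 923755420) (nat_lit 608) (nat_lit 2828977879) (nat_lit 684) (nat_lit 7876184226) (nat_lit 314) (nat_lit 5) (nat_lit 322) (nat_lit 5) (nat_lit 323) (nat_lit 5) (nat_lit 457) (nat_lit 400) (nat_lit 283)) (XT.lf (nat_lit 0) (nat_lit 6396854985) (nat_lit 684) (nat_lit 3463802908) (nat_lit 76) (nat_lit 1892249522) (nat_lit 314) (nat_lit 5) (nat_lit 323) (nat_lit 5) (nat_lit 315) (nat_lit 5) (nat_lit 458) (nat_lit 400) (nat_lit 282))))))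 (XT.nd (nat_lit 54990) (nat_lit 0) (nat_lit 26828) (XT.nd (nat_lit 156) (nat_lit 684) (nat_lit 0) (XT.nd (nat_lit 78) (nat_lit 0) (nat_lit 0) (XT.lf (nat_lit 0) (nat_lit 3932216551) (nat_lit 608) (nat_lit 5187645744) (nat_lit 684) (nat_lit 2758994742) (nat_lit 306) (nat_lit 5) (nat_lit 314) (nat_lit 5) (nat_lit 315) (nat_lit 5) (nat_lit 459) (nat_lit 400) (nat_lit 281)) (XT.lf (nat_lit 0) (nat_lit 11500256805) (nat_lit 608) (nat_lit 402264281) (nat_lit 684) (nat_lit 104700741) (nat_lit 306) (nat_lit 5) (nat_lit 314) (nat_lit 5) (nat_lit 315) (nat_lit 5) (nat_lit 460) (nat_lit 400) (nat_lit 280))) (XT.nd (nat_lit 54678) (nat_lit 0) (nat_lit 27968) (XT.lf (nat_lit 0) (nat_lit 2626524300) (nat_lit 684) (nat_lit 5031163982) (nat_lit 76) (nat_lit 4478968068) (nat_lit 297) (nat_lit 5) (nat_lit 306) (nat_lit 5) (nat_lit 298) (nat_lit 5) (nat_lit 461) (nat_lit 400) (nat_lit 279)) (XT.nd (nat_lit 78) (nat_lit 1292) (nat_lit 0) (XT.lf (nat_lit 0) (nat_lit 1521761644) (nat_lit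 0) (nat_lit 1521761644) (nat_lit 1140) (nat_lit 595781777) (nat_lit 682) (nat_lit 5) (nat_lit 682) (nat_lit 3) (nat_lit 697) (nat_lit 3) (nat_lit 401) (nat_lit 401) (nat_lit 338)) (XT.lf (nat_lit 0) (nat_lit 423006339) (nat_lit 1292) (nat_lit 587967992) (nat_lit 1292) (nat_lit 6308364143) (nat_lit 665) (nat_lit 3) (nat_lit 682) (nat_lit 3) (nat_lit 682) (nat_lit 5) (nat_lit 402) (nat_lit 401) (nat_lit 337))))) (XT.nd (nat_lit 156) (nat_lit 1216) (nat_lit 0) (XT.nd (nat_lit 78) (nat_lit 0) (nat_lit 0) (XT.lf (nat_lit 0) (nat_lit 2039308954) (nat_lit 1216) (nat_lit 4224491226) (nat_lit 1292) (nat_lit 1097215752) (nat_lit 666) (nat_lit 5) (nat_lit 682) (nat_lit 5) (nat_lit 683) (nat_lit 5) (nat_lit 403) (nat_lit 401) (nat_lit 336)) (XT.lf (nat_lit 0) (nat_lit 3657175531) (nat_lit 1216) (nat_lit 489059462) (nat_lit 1292) (nat_lit 3257907188) (nat_lit 666) (nat_lit 5) (nat_lit 682) (nat_lit 5) (nat_lit 683) (nat_lit 5) (nat_lit 404) (nat_lit 401) (nat_lit 335))) (XT.nd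 (nat_lit 78) (nat_lit 1216) (nat_lit 0) (XT.lf (nat_lit 76) (nat_lit 3342996078) (nat_lit 0) (nat_lit 1945491654) (nat_lit 1292) (nat_lit 2160021458) (nat_lit 667) (nat_lit 5) (nat_lit 666) (nat_lit 5) (nat_lit 683) (nat_lit 5) (nat_lit 405) (nat_lit 401) (nat_lit 334)) (XT.nd (nat_lit 78) (nat_lit 1292) (nat_lit 0) (XT.lf (nat_lit 0) (nat_lit 6917829122) (nat_lit 1216) (nat_lit 260042451) (nat_lit 1292) (nat_lit 316583907) (nat_lit 667) (nat_lit 5) (nat_lit 683) (nat_lit 5) (nat_lit 684) (nat_lit 5) (nat_lit 406) (nat_lit 401) (nat_lit 333)) (XT.lf (nat_lit 0) (nat_lit 1022486789) (nat_lit 1292) (nat_lit 3872693480) (nat_lit 1368) (nat_lit 2646052193) (nat_lit 650) (nat_lit 5) (nat_lit 667) (nat_lit 5) (nat_lit 668) (nat_lit 5) (nat_lit 407) (nat_lit 401) (nat_lit 332))))))))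
noncomputable def xc95 : XT := (XT.nd (nat_lit 1482) (nat_lit 14288) (nat_lit 0) (XT.nd (nat_lit 702) (nat_lit 4104) (nat_lit 0) (XT.nd (nat_lit 312) (nat_lit 1292) (nat_lit 0) (XT.nd (nat_lit 156) (nat_lit 0) (nat_lit 76) (XT.nd (nat_lit 78) (nat_lit 0) (nat_lit 0) (XT.lf (nat_lit 76) (nat_lit 64700684) (nat_lit 0) (nat_lit 2544649746) (nat_lit 1368) (nat_lit 4980248539) (nat_lit 651) (nat_lit 5) (nat_lit 650) (nat_lit 5) (nat_lit 668) (nat_lit 5) (nat_lit 408) (nat_lit 401) (nat_lit 331)) (XT.lf (nat_lit 76) (nat_lit 4110862449) (nat_lit 0) (nat_lit 104994879) (nat_lit 1368) (nat_lit 3423317359) (nat_lit 651) (nat_lit 5) (nat_lit 650) (nat_lit 5) (nat_lit 668) (nat_lit 5) (nat_lit 409) (nat_lit 401) (nat_lit 330))) (XT.nd (nat_lit 78) (nat_lit 0) (nat_lit 0) (XT.lf (nat_lit 76) (nat_lit 516625198) (nat_lit 0) (nat_lit 5319462611) (nat_lit 1368) (nat_lit 1854022241) (nat_lit 652) (nat_lit 5) (nat_lit 651) (nat_lit 5) (nat_lit 669) (nat_lit 5) (nat_lit 410) (nat_lit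 401) (nat_lit 329)) (XT.lf (nat_lit 76) (nat_lit 4666853543) (nat_lit 0) (nat_lit 2809583690) (nat_lit 1368) (nat_lit 265872601) (nat_lit 652) (nat_lit 5) (nat_lit 651) (nat_lit 5) (nat_lit 669) (nat_lit 5) (nat_lit 411) (nat_lit 401) (nat_lit 328)))) (XT.nd (nat_lit 156) (nat_lit 0) (nat_lit 76) (XT.nd (nat_lit 78) (nat_lit 0) (nat_lit 76) (XT.lf (nat_lit 76) (nat_lit 1087235311) (nat_lit 0) (nat_lit 219932754) (nat_lit 1444) (nat_lit 6488791991) (nat_lit 634) (nat_lit 5) (nat_lit 633) (nat_lit 5) (nat_lit 652) (nat_lit 5) (nat_lit 412) (nat_lit 401) (nat_lit 327)) (XT.lf (nat_lit 0) (nat_lit 2909083759) (nat_lit 1368) (nat_lit 2516432924) (nat_lit 1444) (nat_lit 2425111966) (nat_lit 634) (nat_lit 5) (nat_lit 652) (nat_lit 5) (nat_lit 653) (nat_lit 5) (nat_lit 413) (nat_lit 401) (nat_lit 326))) (XT.nd (nat_lit 78) (nat_lit 0) (nat_lit 0) (XT.lf (nat_lit 76) (nat_lit 1758356158) (nat_lit 0) (nat_lit 2762725371) (nat_lit 1444) (nat_lit 3385748211) (nat_lit 635)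 (nat_lit 5) (nat_lit 634) (nat_lit 5) (nat_lit 653) (nat_lit 5) (nat_lit 414) (nat_lit 401) (nat_lit 325)) (XT.nd (nat_lit 78) (nat_lit 0) (nat_lit 76) (XT.lf (nat_lit 76) (nat_lit 6129949719) (nat_lit 0) (nat_lit 17961843) (nat_lit 1444) (nat_lit 1816591444) (nat_lit 635) (nat_lit 5) (nat_lit 634) (nat_lit 5) (nat_lit 653) (nat_lit 5) (nat_lit 415) (nat_lit 401) (nat_lit 324)) (XT.lf (nat_lit 76) (nat_lit 2558033155) (nat_lit 0) (nat_lit 5250365417) (nat_lit 1444) (nat_lit 214908758) (nat_lit 636) (nat_lit 5) (nat_lit 635) (nat_lit 5) (nat_lit 654) (nat_lit 5) (nat_lit 416) (nat_lit 401) (nat_lit 323)))))) (XT.nd (nat_lit 390) (nat_lit 2812) (nat_lit 0) (XT.nd (nat_lit 156) (nat_lit 0) (nat_lit 76) (XT.nd (nat_lit 78) (nat_lit 0) (nat_lit 76) (XT.lf (nat_lit 0) (nat_lit 1379452281) (nat_lit 1444) (nat_lit 1052505379) (nat_lit 1520) (nat_lit 5651560791) (nat_lit 616) (nat_lit 5) (nat_lit 635) (nat_lit 5) (nat_lit 636) (nat_lit 5) (nat_lit 417) (nat_lit 401) (nat_lit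 322)) (XT.lf (nat_lit 0) (nat_lit 2995842940) (nat_lit 1444) (nat_lit 4678534594) (nat_lit 1520) (nat_lit 470667448) (nat_lit 617) (nat_lit 5) (nat_lit 636) (nat_lit 5) (nat_lit 637) (nat_lit 5) (nat_lit 418) (nat_lit 401) (nat_lit 321))) (XT.nd (nat_lit 78) (nat_lit 0) (nat_lit 0) (XT.lf (nat_lit 0) (nat_lit 4635722216) (nat_lit 1444) (nat_lit 157123889) (nat_lit 1520) (nat_lit 3415132724) (nat_lit 617) (nat_lit 5) (nat_lit 636) (nat_lit 5) (nat_lit 637) (nat_lit 5) (nat_lit 419) (nat_lit 401) (nat_lit 320)) (XT.nd (nat_lit 78) (nat_lit 0) (nat_lit 76) (XT.lf (nat_lit 76) (nat_lit 4490586241) (nat_lit 0) (nat_lit 1815542704) (nat_lit 1520) (nat_lit 1966087810) (nat_lit 618) (nat_lit 5) (nat_lit 617) (nat_lit 5) (nat_lit 637) (nat_lit 5) (nat_lit 420) (nat_lit 401) (nat_lit 319)) (XT.lf (nat_lit 76) (nat_lit 875666252) (nat_lit 0) (nat_lit 7118048063) (nat_lit 1520) (nat_lit 344349714) (nat_lit 619) (nat_lit 5) (nat_lit 618) (nat_lit 5) (nat_lit 638) (nat_lit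 5) (nat_lit 421) (nat_lit 401) (nat_lit 318))))) (XT.nd (nat_lit 156) (nat_lit 1444) (nat_lit 0) (XT.nd (nat_lit 78) (nat_lit 0) (nat_lit 0) (XT.lf (nat_lit 0) (nat_lit 1299559500) (nat_lit 1520) (nat_lit 2771842826) (nat_lit 1596) (nat_lit 4333517540) (nat_lit 598) (nat_lit 5) (nat_lit 618) (nat_lit 5) (nat_lit 619) (nat_lit 5) (nat_lit 422) (nat_lit 401) (nat_lit 317)) (XT.lf (nat_lit 76) (nat_lit 2013318082) (nat_lit 0) (nat_lit 941441799) (nat_lit 1596) (nat_lit 5518646939) (nat_lit 599) (nat_lit 5) (nat_lit 598) (nat_lit 5) (nat_lit 619) (nat_lit 5) (nat_lit 423) (nat_lit 401) (nat_lit 316))) (XT.nd (nat_lit 78) (nat_lit 1520) (nat_lit 0) (XT.lf (nat_lit 0) (nat_lit 4646832026) (nat_lit 1520) (nat_lit 1649685456) (nat_lit 76) (nat_lit 2246670676) (nat_lit 599) (nat_lit 5) (nat_lit 619) (nat_lit 5) (nat_lit 600) (nat_lit 5) (nat_lit 424) (nat_lit 401) (nat_lit 315)) (XT.nd (nat_lit 78) (nat_lit 0) (nat_lit 0) (XT.lf (nat_lit 0) (nat_lit 3270237510) (nat_lit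 1520) (nat_lit 3100983504) (nat_lit 1596) (nat_lit 2243174601) (nat_lit 579) (nat_lit 5) (nat_lit 599) (nat_lit 5) (nat_lit 600) (nat_lit 5) (nat_lit 425) (nat_lit 401) (nat_lit 314)) (XT.lf (nat_lit 0) (nat_lit 8113731184) (nat_lit 1596) (nat_lit 400783388) (nat_lit 76) (nat_lit 172839980) (nat_lit 579) (nat_lit 5) (nat_lit 600) (nat_lit 5) (nat_lit 580) (nat_lit 5) (nat_lit 426) (nat_lit 401) (nat_lit 313))))))) (XT.nd (nat_lit 780) (nat_lit 5244) (nat_lit 0) (XT.nd (nat_lit 390) (nat_lit 3952) (nat_lit 0) (XT.nd (nat_lit 156) (nat_lit 1748) (nat_lit 0) (XT.nd (nat_lit 78) (nat_lit 1672) (nat_lit 0) (XT.lf (nat_lit 0) (nat_lit 1137462910) (nat_lit 1672) (nat_lit 4110107484) (nat_lit 76) (nat_lit 3513596524) (nat_lit 557) (nat_lit 5) (nat_lit 579) (nat_lit 5) (nat_lit 558) (nat_lit 5) (nat_lit 427) (nat_lit 401) (nat_lit 312)) (XT.lf (nat_lit 0) (nat_lit 958174920) (nat_lit 1672) (nat_lit 1898086811) (nat_lit 1748) (nat_lit 5980494535) (nat_lit 535) (nat_lit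 5) (nat_lit 557) (nat_lit 5) (nat_lit 558) (nat_lit 5) (nat_lit 428) (nat_lit 401) (nat_lit 311))) (XT.nd (nat_lit 78) (nat_lit 1748) (nat_lit 0) (XT.lf (nat_lit 0) (nat_lit 4619712984) (nat_lit 1748) (nat_lit 2763773792) (nat_lit 76) (nat_lit 1530165095) (nat_lit 535) (nat_lit 5) (nat_lit 558) (nat_lit 5) (nat_lit 536) (nat_lit 5) (nat_lit 429) (nat_lit 401) (nat_lit 310)) (XT.nd (nat_lit 78) (nat_lit 0) (nat_lit 0) (XT.lf (nat_lit 0) (nat_lit 2449390324) (nat_lit 1748) (nat_lit 3970706744) (nat_lit 1824) (nat_lit 2571955044) (nat_lit 512) (nat_lit 5) (nat_lit 535) (nat_lit 5) (nat_lit 536) (nat_lit 5) (nat_lit 430) (nat_lit 401) (nat_lit 309)) (XT.lf (nat_lit 0) (nat_lit 7780942298) (nat_lit 1748) (nat_lit 467657685) (nat_lit 1824) (nat_lit 823578153) (nat_lit 512) (nat_lit 5) (nat_lit 535) (nat_lit 5) (nat_lit 536) (nat_lit 5) (nat_lit 431) (nat_lit 401) (nat_lit 308))))) (XT.nd (nat_lit 156) (nat_lit 912) (nat_lit 0) (XT.nd (nat_lit 78) (nat_lit 1140) (nat_lit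 0) (XT.lf (nat_lit 0) (nat_lit 968039618) (nat_lit 1900) (nat_lit 5084779008) (nat_lit 76) (nat_lit 3100546208) (nat_lit 487) (nat_lit 5) (nat_lit 512) (nat_lit 5) (nat_lit 488) (nat_lit 5) (nat_lit 432) (nat_lit 401) (nat_lit 307)) (XT.lf (nat_lit 0) (nat_lit 288675296) (nat_lit 1140) (nat_lit 2483781050) (nat_lit 1216) (nat_lit 6463850156) (nat_lit 472) (nat_lit 5) (nat_lit 487) (nat_lit 5) (nat_lit 488) (nat_lit 5) (nat_lit 433) (nat_lit 401) (nat_lit 306))) (XT.nd (nat_lit 78) (nat_lit 912) (nat_lit 0) (XT.lf (nat_lit 0) (nat_lit 4629473207) (nat_lit 1216) (nat_lit 3513407330) (nat_lit 76) (nat_lit 1177696231) (nat_lit 472) (nat_lit 5) (nat_lit 488) (nat_lit 5) (nat_lit 473) (nat_lit 5) (nat_lit 434) (nat_lit 401) (nat_lit 305)) (XT.nd (nat_lit 78) (nat_lit 0) (nat_lit 0) (XT.lf (nat_lit 0) (nat_lit 2015990917) (nat_lit 912) (nat_lit 4512329114) (nat_lit 988) (nat_lit 2878118615) (nat_lit 460) (nat_lit 5) (nat_lit 472) (nat_lit 5) (nat_lit 473) (nat_lit 5)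 (nat_lit 435) (nat_lit 401) (nat_lit 304)) (XT.lf (nat_lit 0) (nat_lit 7680255596) (nat_lit 912) (nat_lit 783952246) (nat_lit 988) (nat_lit 1029828640) (nat_lit 460) (nat_lit 5) (nat_lit 472) (nat_lit 5) (nat_lit 473) (nat_lit 5) (nat_lit 436) (nat_lit 401) (nat_lit 303)))))) (XT.nd (nat_lit 390) (nat_lit 2508) (nat_lit 0) (XT.nd (nat_lit 156) (nat_lit 1748) (nat_lit 0) (XT.nd (nat_lit 78) (nat_lit 0) (nat_lit 0) (XT.lf (nat_lit 0) (nat_lit 865129142) (nat_lit 988) (nat_lit 5706303397) (nat_lit 76) (nat_lit 3011424234) (nat_lit 447) (nat_lit 5) (nat_lit 460) (nat_lit 5) (nat_lit 448) (nat_lit 5) (nat_lit 437) (nat_lit 401) (nat_lit 302)) (XT.lf (nat_lit 0) (nat_lit 2777791941) (nat_lit 988) (nat_lit 3562129) (nat_lit 76) (nat_lit 6892091349) (nat_lit 447) (nat_lit 5) (nat_lit 460) (nat_lit 5) (nat_lit 448) (nat_lit 5) (nat_lit 438) (nat_lit 401) (nat_lit 301))) (XT.nd (nat_lit 78) (nat_lit 912) (nat_lit 0) (XT.lf (nat_lit 0) (nat_lit 4750703383) (nat_lit 912)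 (nat_lit 3905744264) (nat_lit 76) (nat_lit 1108958285) (nat_lit 436) (nat_lit 5) (nat_lit 448) (nat_lit 5) (nat_lit 437) (nat_lit 5) (nat_lit 439) (nat_lit 401) (nat_lit 300)) (XT.nd (nat_lit 78) (nat_lit 0) (nat_lit 0) (XT.lf (nat_lit 0) (nat_lit 1964954487) (nat_lit 912) (nat_lit 4806237320) (nat_lit 988) (nat_lit 3087851473) (nat_lit 424) (nat_lit 5) (nat_lit 436) (nat_lit 5) (nat_lit 437) (nat_lit 5) (nat_lit 440) (nat_lit 401) (nat_lit 299)) (XT.lf (nat_lit 0) (nat_lit 7982774909) (nat_lit 912) (nat_lit 852743767) (nat_lit 988) (nat_lit 1118966124) (nat_lit 424) (nat_lit 5) (nat_lit 436) (nat_lit 5) (nat_lit 437) (nat_lit 5) (nat_lit 441) (nat_lit 401) (nat_lit 298))))) (XT.nd (nat_lit 156) (nat_lit 760) (nat_lit 0) (XT.nd (nat_lit 78) (nat_lit 836) (nat_lit 0) (XT.lf (nat_lit 0) (nat_lit 902588072) (nat_lit 912) (nat_lit 5978536806) (nat_lit 76) (nat_lit 3170095708) (nat_lit 412) (nat_lit 5) (nat_lit 424) (nat_lit 5) (nat_lit 413) (nat_lit 5) (nat_lit 442)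 (nat_lit 401) (nat_lit 297)) (XT.lf (nat_lit 0) (nat_lit 79598500) (nat_lit 836) (nat_lit 2867293894) (nat_lit 912) (nat_lit 7202904726) (nat_lit 401) (nat_lit 5) (nat_lit 412) (nat_lit 5) (nat_lit 413) (nat_lit 5) (nat_lit 443) (nat_lit 401) (nat_lit 296))) (XT.nd (nat_lit 78) (nat_lit 760) (nat_lit 0) (XT.lf (nat_lit 0) (nat_lit 5058513980) (nat_lit 912) (nat_lit 3941478714) (nat_lit 76) (nat_lit 1249823865) (nat_lit 401) (nat_lit 5) (nat_lit 413) (nat_lit 5) (nat_lit 402) (nat_lit 5) (nat_lit 444) (nat_lit 401) (nat_lit 295)) (XT.nd (nat_lit 78) (nat_lit 0) (nat_lit 0) (XT.lf (nat_lit 0) (nat_lit 2297784224) (nat_lit 760) (nat_lit 4927002069) (nat_lit 836) (nat_lit 3126801729) (nat_lit 391) (nat_lit 5) (nat_lit 401) (nat_lit 5) (nat_lit 402) (nat_lit 5) (nat_lit 445) (nat_lit 401) (nat_lit 294)) (XT.lf (nat_lit 0) (nat_lit 8692234178) (nat_lit 760) (nat_lit 747381984) (nat_lit 836) (nat_lit 1015674112) (nat_lit 391) (nat_lit 5) (nat_lit 401) (nat_lit 5) (nat_lit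 402) (nat_lit 5) (nat_lit 446) (nat_lit 401) (nat_lit 293))))))))
noncomputable def xc96 : XT := (XT.nd (nat_lit 56160) (nat_lit 0) (nat_lit 22800) (XT.nd (nat_lit 702) (nat_lit 2660) (nat_lit 0) (XT.nd (nat_lit 312) (nat_lit 2128) (nat_lit 0) (XT.nd (nat_lit 156) (nat_lit 760) (nat_lit 0) (XT.nd (nat_lit 78) (nat_lit 760) (nat_lit 0) (XT.lf (nat_lit 0) (nat_lit 1155297470) (nat_lit 836) (nat_lit 5899086326) (nat_lit 76) (nat_lit 3505884197) (nat_lit 380) (nat_lit 5) (nat_lit 391) (nat_lit 5) (nat_lit 381) (nat_lit 5) (nat_lit 447) (nat_lit 401) (nat_lit 292)) (XT.lf (nat_lit 0) (nat_lit 542958188) (nat_lit 760) (nat_lit 2812838303) (nat_lit 836) (nat_lit 7311420347) (nat_lit 370) (nat_lit 5) (nat_lit 380) (nat_lit 5) (nat_lit 381) (nat_lit 5) (nat_lit 448) (nat_lit 401) (nat_lit 291))) (XT.nd (nat_lit 78) (nat_lit 760) (nat_lit 0) (XT.lf (nat_lit 0) (nat_lit 5629531813) (nat_lit 836) (nat_lit 3615137850) (nat_lit 76) (nat_lit 1531050469) (nat_lit 370) (nat_lit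 5) (nat_lit 381) (nat_lit 5) (nat_lit 371) (nat_lit 5) (nat_lit 449) (nat_lit 401) (nat_lit 290)) (XT.lf (nat_lit 0) (nat_lit 3022289760) (nat_lit 760) (nat_lit 4944655108) (nat_lit 836) (nat_lit 2919084564) (nat_lit 360) (nat_lit 5) (nat_lit 370) (nat_lit 5) (nat_lit 371) (nat_lit 5) (nat_lit 450) (nat_lit 401) (nat_lit 289)))) (XT.nd (nat_lit 156) (nat_lit 1368) (nat_lit 0) (XT.nd (nat_lit 78) (nat_lit 760) (nat_lit 0) (XT.lf (nat_lit 0) (nat_lit 9818735219) (nat_lit 760) (nat_lit 536828177) (nat_lit 836) (nat_lit 642892379) (nat_lit 360) (nat_lit 5) (nat_lit 370) (nat_lit 5) (nat_lit 371) (nat_lit 5) (nat_lit 451) (nat_lit 401) (nat_lit 288)) (XT.lf (nat_lit 0) (nat_lit 1700137241) (nat_lit 760) (nat_lit 5459556987) (nat_lit 76) (nat_lit 3952351781) (nat_lit 350) (nat_lit 5) (nat_lit 360) (nat_lit 5) (nat_lit 351) (nat_lit 5) (nat_lit 452) (nat_lit 401) (nat_lit 287))) (XT.nd (nat_lit 78) (nat_lit 684) (nat_lit 0) (XT.lf (nat_lit 0) (nat_lit 1397278482) (nat_lit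 684) (nat_lit 2685419968) (nat_lit 760) (nat_lit 7145099022) (nat_lit 341) (nat_lit 5) (nat_lit 350) (nat_lit 5) (nat_lit 351) (nat_lit 5) (nat_lit 453) (nat_lit 401) (nat_lit 286)) (XT.nd (nat_lit 78) (nat_lit 684) (nat_lit 0) (XT.lf (nat_lit 0) (nat_lit 6542869730) (nat_lit 760) (nat_lit 2915288522) (nat_lit 76) (nat_lit 1887106534) (nat_lit 341) (nat_lit 5) (nat_lit 351) (nat_lit 5) (nat_lit 342) (nat_lit 5) (nat_lit 454) (nat_lit 401) (nat_lit 285)) (XT.lf (nat_lit 0) (nat_lit 4152396622) (nat_lit 684) (nat_lit 4925851274) (nat_lit 760) (nat_lit 2386313482) (nat_lit 332) (nat_lit 5) (nat_lit 341) (nat_lit 5) (nat_lit 342) (nat_lit 5) (nat_lit 455) (nat_lit 401) (nat_lit 284)))))) (XT.nd (nat_lit 390) (nat_lit 684) (nat_lit 0) (XT.nd (nat_lit 156) (nat_lit 1216) (nat_lit 0) (XT.nd (nat_lit 78) (nat_lit 684) (nat_lit 0) (XT.lf (nat_lit 0) (nat_lit 78116891) (nat_lit 760) (nat_lit 208160901) (nat_lit 76) (nat_lit 11299934943) (nat_lit 331) (nat_lit 5) (nat_lit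 341) (nat_lit 5) (nat_lit 332) (nat_lit 5) (nat_lit 456) (nat_lit 401) (nat_lit 283)) (XT.lf (nat_lit 0) (nat_lit 2616940630) (nat_lit 760) (nat_lit 4645712671) (nat_lit 76) (nat_lit 4446187198) (nat_lit 322) (nat_lit 5) (nat_lit 332) (nat_lit 5) (nat_lit 323) (nat_lit 5) (nat_lit 457) (nat_lit 401) (nat_lit 282))) (XT.nd (nat_lit 78) (nat_lit 608) (nat_lit 0) (XT.lf (nat_lit 0) (nat_lit 2659373638) (nat_lit 608) (nat_lit 2549649269) (nat_lit 684) (nat_lit 6624848270) (nat_lit 314) (nat_lit 5) (nat_lit 322) (nat_lit 5) (nat_lit 323) (nat_lit 5) (nat_lit 458) (nat_lit 401) (nat_lit 281)) (XT.nd (nat_lit 78) (nat_lit 608) (nat_lit 0) (XT.lf (nat_lit 0) (nat_lit 7881082163) (nat_lit 684) (nat_lit 1824660467) (nat_lit 76) (nat_lit 2255097131) (nat_lit 314) (nat_lit 5) (nat_lit 323) (nat_lit 5) (nat_lit 315) (nat_lit 5) (nat_lit 459) (nat_lit 401) (nat_lit 280)) (XT.lf (nat_lit 0) (nat_lit 5708039786) (nat_lit 608) (nat_lit 4934935122) (nat_lit 684) (nat_lit 1446644963)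 (nat_lit 306) (nat_lit 5) (nat_lit 314) (nat_lit 5) (nat_lit 315) (nat_lit 5) (nat_lit 460) (nat_lit 401) (nat_lit 279))))) (XT.nd (nat_lit 54834) (nat_lit 0) (nat_lit 27968) (XT.nd (nat_lit 54756) (nat_lit 0) (nat_lit 27968) (XT.lf (nat_lit 0) (nat_lit 1180556884) (nat_lit 608) (nat_lit 44845593) (nat_lit 684) (nat_lit 10995361722) (nat_lit 297) (nat_lit 5) (nat_lit 305) (nat_lit 5) (nat_lit 306) (nat_lit 5) (nat_lit 461) (nat_lit 401) (nat_lit 278)) (XT.lf (nat_lit 0) (nat_lit 1000516588) (nat_lit 1292) (nat_lit 1339824305) (nat_lit 1292) (nat_lit 1339824305) (nat_lit 665) (nat_lit 3) (nat_lit 682) (nat_lit 3) (nat_lit 682) (nat_lit 5) (nat_lit 402) (nat_lit 402) (nat_lit 336))) (XT.nd (nat_lit 78) (nat_lit 0) (nat_lit 0) (XT.lf (nat_lit 76) (nat_lit 1013812927) (nat_lit 0) (nat_lit 2561969102) (nat_lit 1292) (nat_lit 3827056903) (nat_lit 666) (nat_lit 5) (nat_lit 665) (nat_lit 3) (nat_lit 682) (nat_lit 5) (nat_lit 403) (nat_lit 402) (nat_lit 335)) (XT.nd (nat_lit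 78) (nat_lit 0) (nat_lit 76) (XT.lf (nat_lit 76) (nat_lit 4796481374) (nat_lit 0) (nat_lit 362781391) (nat_lit 1292) (nat_lit 2287390133) (nat_lit 666) (nat_lit 5) (nat_lit 665) (nat_lit 3) (nat_lit 682) (nat_lit 5) (nat_lit 404) (nat_lit 402) (nat_lit 334)) (XT.lf (nat_lit 76) (nat_lit 1144766245) (nat_lit 0) (nat_lit 5609467943) (nat_lit 1292) (nat_lit 737512535) (nat_lit 667) (nat_lit 5) (nat_lit 666) (nat_lit 5) (nat_lit 683) (nat_lit 5) (nat_lit 405) (nat_lit 402) (nat_lit 333))))))) (XT.nd (nat_lit 702) (nat_lit 2736) (nat_lit 0) (XT.nd (nat_lit 312) (nat_lit 1216) (nat_lit 0) (XT.nd (nat_lit 156) (nat_lit 0) (nat_lit 76) (XT.nd (nat_lit 78) (nat_lit 0) (nat_lit 0) (XT.lf (nat_lit 0) (nat_lit 813168522) (nat_lit 1292) (nat_lit 2515737711) (nat_lit 1368) (nat_lit 4209109342) (nat_lit 649) (nat_lit 5) (nat_lit 666) (nat_lit 5) (nat_lit 667) (nat_lit 5) (nat_lit 406) (nat_lit 402) (nat_lit 332)) (XT.lf (nat_lit 76) (nat_lit 1383943904) (nat_lit 0) (nat_lit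 971374416) (nat_lit 1368) (nat_lit 5230387375) (nat_lit 650) (nat_lit 5) (nat_lit 649) (nat_lit 5) (nat_lit 667) (nat_lit 5) (nat_lit 407) (nat_lit 402) (nat_lit 331))) (XT.nd (nat_lit 78) (nat_lit 0) (nat_lit 0) (XT.lf (nat_lit 0) (nat_lit 3916674927) (nat_lit 1292) (nat_lit 2269890020) (nat_lit 1368) (nat_lit 1448017397) (nat_lit 650) (nat_lit 5) (nat_lit 667) (nat_lit 5) (nat_lit 668) (nat_lit 5) (nat_lit 408) (nat_lit 402) (nat_lit 330)) (XT.lf (nat_lit 76) (nat_lit 1735197702) (nat_lit 0) (nat_lit 3754567899) (nat_lit 1368) (nat_lit 2195060784) (nat_lit 651) (nat_lit 5) (nat_lit 650) (nat_lit 5) (nat_lit 668) (nat_lit 5) (nat_lit 409) (nat_lit 402) (nat_lit 329)))) (XT.nd (nat_lit 156) (nat_lit 0) (nat_lit 0) (XT.nd (nat_lit 78) (nat_lit 1292) (nat_lit 0) (XT.lf (nat_lit 76) (nat_lit 5829553232) (nat_lit 0) (nat_lit 1243393951) (nat_lit 1368) (nat_lit 663555543) (nat_lit 651) (nat_lit 5) (nat_lit 650) (nat_lit 5) (nat_lit 668) (nat_lit 5) (nat_lit 410) (nat_lit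 402) (nat_lit 328)) (XT.lf (nat_lit 0) (nat_lit 873858937) (nat_lit 1368) (nat_lit 5580134032) (nat_lit 1444) (nat_lit 1335361659) (nat_lit 633) (nat_lit 5) (nat_lit 651) (nat_lit 5) (nat_lit 652) (nat_lit 5) (nat_lit 411) (nat_lit 402) (nat_lit 327))) (XT.nd (nat_lit 78) (nat_lit 0) (nat_lit 0) (XT.lf (nat_lit 0) (nat_lit 2418797508) (nat_lit 1368) (nat_lit 1444477000) (nat_lit 1444) (nat_lit 3980188121) (nat_lit 633) (nat_lit 5) (nat_lit 651) (nat_lit 5) (nat_lit 652) (nat_lit 5) (nat_lit 412) (nat_lit 402) (nat_lit 326)) (XT.nd (nat_lit 78) (nat_lit 0) (nat_lit 76) (XT.lf (nat_lit 76) (nat_lit 2788584481) (nat_lit 0) (nat_lit 1189387792) (nat_lit 1444) (nat_lit 3921013767) (nat_lit 634) (nat_lit 5) (nat_lit 633) (nat_lit 5) (nat_lit 652) (nat_lit 5) (nat_lit 413) (nat_lit 402) (nat_lit 325)) (XT.lf (nat_lit 0) (nat_lit 5553927258) (nat_lit 1368) (nat_lit 862091518) (nat_lit 1444) (nat_lit 1539889210) (nat_lit 634) (nat_lit 5) (nat_lit 652) (nat_lit 5) (nat_lit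 653) (nat_lit 5) (nat_lit 414) (nat_lit 402) (nat_lit 324)))))) (XT.nd (nat_lit 390) (nat_lit 1368) (nat_lit 0) (XT.nd (nat_lit 156) (nat_lit 0) (nat_lit 76) (XT.nd (nat_lit 78) (nat_lit 1444) (nat_lit 0) (XT.lf (nat_lit 76) (nat_lit 3486978412) (nat_lit 0) (nat_lit 3671462746) (nat_lit 1444) (nat_lit 855586416) (nat_lit 635) (nat_lit 5) (nat_lit 634) (nat_lit 5) (nat_lit 653) (nat_lit 5) (nat_lit 415) (nat_lit 402) (nat_lit 323)) (XT.lf (nat_lit 0) (nat_lit 684912597) (nat_lit 1444) (nat_lit 165560268) (nat_lit 1520) (nat_lit 7223290119) (nat_lit 615) (nat_lit 5) (nat_lit 634) (nat_lit 5) (nat_lit 635) (nat_lit 5) (nat_lit 416) (nat_lit 402) (nat_lit 322))) (XT.nd (nat_lit 78) (nat_lit 0) (nat_lit 0) (XT.lf (nat_lit 0) (nat_lit 2253694954) (nat_lit 1444) (nat_lit 3835995245) (nat_lit 1520) (nat_lit 2044711203) (nat_lit 616) (nat_lit 5) (nat_lit 635) (nat_lit 5) (nat_lit 636) (nat_lit 5) (nat_lit 417) (nat_lit 402) (nat_lit 321)) (XT.nd (nat_lit 78) (nat_lit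 0) (nat_lit 0) (XT.lf (nat_lit 76) (nat_lit 637910011) (nat_lit 0) (nat_lit 3194868099) (nat_lit 1520) (nat_lit 4363895974) (nat_lit 617) (nat_lit 5) (nat_lit 616) (nat_lit 5) (nat_lit 636) (nat_lit 5) (nat_lit 418) (nat_lit 402) (nat_lit 320)) (XT.lf (nat_lit 76) (nat_lit 5230956785) (nat_lit 0) (nat_lit 206742282) (nat_lit 1520) (nat_lit 2822608030) (nat_lit 617) (nat_lit 5) (nat_lit 616) (nat_lit 5) (nat_lit 636) (nat_lit 5) (nat_lit 419) (nat_lit 402) (nat_lit 319))))) (XT.nd (nat_lit 156) (nat_lit 0) (nat_lit 76) (XT.nd (nat_lit 78) (nat_lit 1520) (nat_lit 0) (XT.lf (nat_lit 76) (nat_lit 1570226734) (nat_lit 0) (nat_lit 5502323468) (nat_lit 1520) (nat_lit 1252705933) (nat_lit 618) (nat_lit 5) (nat_lit 617) (nat_lit 5) (nat_lit 637) (nat_lit 5) (nat_lit 420) (nat_lit 402) (nat_lit 318)) (XT.lf (nat_lit 0) (nat_lit 335302367) (nat_lit 1520) (nat_lit 2114835418) (nat_lit 1596) (nat_lit 5941495501) (nat_lit 597) (nat_lit 5) (nat_lit 617) (nat_lit 5) (nat_lit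 618) (nat_lit 5) (nat_lit 421) (nat_lit 402) (nat_lit 317))) (XT.nd (nat_lit 78) (nat_lit 0) (nat_lit 0) (XT.lf (nat_lit 0) (nat_lit 1929904554) (nat_lit 1520) (nat_lit 5842082118) (nat_lit 1596) (nat_lit 687353552) (nat_lit 598) (nat_lit 5) (nat_lit 618) (nat_lit 5) (nat_lit 619) (nat_lit 5) (nat_lit 422) (nat_lit 402) (nat_lit 316)) (XT.nd (nat_lit 78) (nat_lit 0) (nat_lit 0) (XT.lf (nat_lit 0) (nat_lit 3557447485) (nat_lit 1520) (nat_lit 1094649140) (nat_lit 1596) (nat_lit 3876283702) (nat_lit 598) (nat_lit 5) (nat_lit 618) (nat_lit 5) (nat_lit 619) (nat_lit 5) (nat_lit 423) (nat_lit 402) (nat_lit 315)) (XT.lf (nat_lit 76) (nat_lit 3774816101) (nat_lit 0) (nat_lit 1438348468) (nat_lit 1596) (nat_lit 3385724198) (nat_lit 599) (nat_lit 5) (nat_lit 598) (nat_lit 5) (nat_lit 619) (nat_lit 5) (nat_lit 424) (nat_lit 402) (nat_lit 314))))))))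
noncomputable def xc97 : XT := (XT.nd (nat_lit 1482) (nat_lit 7448) (nat_lit 0) (XT.nd (nat_lit 702) (nat_lit 5700) (nat_lit 0) (XT.nd (nat_lit 312) (nat_lit 5320) (nat_lit 0) (XT.nd (nat_lit 156) (nat_lit 1672) (nat_lit 0) (XT.nd (nat_lit 78) (nat_lit 0) (nat_lit 0) (XT.lf (nat_lit 0) (nat_lit 51647063) (nat_lit 1520) (nat_lit 6841599569) (nat_lit 1596) (nat_lit 1777735730) (nat_lit 579) (nat_lit 5) (nat_lit 599) (nat_lit 5) (nat_lit 600) (nat_lit 5) (nat_lit 425) (nat_lit 402) (nat_lit 313)) (XT.lf (nat_lit 0) (nat_lit 5057885544) (nat_lit 1520) (nat_lit 3562865991) (nat_lit 1596) (nat_lit 123489869) (nat_lit 579) (nat_lit 5) (nat_lit 599) (nat_lit 5) (nat_lit 600) (nat_lit 5) (nat_lit 426) (nat_lit 402) (nat_lit 312))) (XT.nd (nat_lit 78) (nat_lit 0) (nat_lit 0) (XT.lf (nat_lit 0) (nat_lit 1329914987) (nat_lit 1596) (nat_lit 194404273) (nat_lit 1672) (nat_lit 7294823531) (nat_lit 557) (nat_lit 5) (nat_lit 578) (nat_lit 5) (nat_lit 579) (nat_lit 5) (nat_lit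 427) (nat_lit 402) (nat_lit 311)) (XT.lf (nat_lit 0) (nat_lit 3222159753) (nat_lit 1672) (nat_lit 2443677310) (nat_lit 76) (nat_lit 3229314241) (nat_lit 557) (nat_lit 5) (nat_lit 579) (nat_lit 5) (nat_lit 558) (nat_lit 5) (nat_lit 428) (nat_lit 402) (nat_lit 310)))) (XT.nd (nat_lit 156) (nat_lit 3648) (nat_lit 0) (XT.nd (nat_lit 78) (nat_lit 0) (nat_lit 0) (XT.lf (nat_lit 0) (nat_lit 2714466582) (nat_lit 1672) (nat_lit 2231716213) (nat_lit 1748) (nat_lit 4026652680) (nat_lit 535) (nat_lit 5) (nat_lit 557) (nat_lit 5) (nat_lit 558) (nat_lit 5) (nat_lit 429) (nat_lit 402) (nat_lit 309)) (XT.lf (nat_lit 0) (nat_lit 6703162301) (nat_lit 1748) (nat_lit 1074241669) (nat_lit 76) (nat_lit 1274699837) (nat_lit 535) (nat_lit 5) (nat_lit 558) (nat_lit 5) (nat_lit 536) (nat_lit 5) (nat_lit 430) (nat_lit 402) (nat_lit 308))) (XT.nd (nat_lit 78) (nat_lit 1900) (nat_lit 0) (XT.lf (nat_lit 0) (nat_lit 4231706732) (nat_lit 1748) (nat_lit 4280060958) (nat_lit 1824) (nat_lit 620860090)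 (nat_lit 512) (nat_lit 5) (nat_lit 535) (nat_lit 5) (nat_lit 536) (nat_lit 5) (nat_lit 431) (nat_lit 402) (nat_lit 307)) (XT.nd (nat_lit 78) (nat_lit 0) (nat_lit 0) (XT.lf (nat_lit 0) (nat_lit 418978976) (nat_lit 1824) (nat_lit 692229058) (nat_lit 1900) (nat_lit 8103717940) (nat_lit 487) (nat_lit 5) (nat_lit 511) (nat_lit 5) (nat_lit 512) (nat_lit 5) (nat_lit 432) (nat_lit 402) (nat_lit 306)) (XT.lf (nat_lit 0) (nat_lit 2896778120) (nat_lit 1900) (nat_lit 3433241851) (nat_lit 76) (nat_lit 2968224604) (nat_lit 487) (nat_lit 5) (nat_lit 512) (nat_lit 5) (nat_lit 488) (nat_lit 5) (nat_lit 433) (nat_lit 402) (nat_lit 305)))))) (XT.nd (nat_lit 390) (nat_lit 2660) (nat_lit 0) (XT.nd (nat_lit 156) (nat_lit 1900) (nat_lit 0) (XT.nd (nat_lit 78) (nat_lit 0) (nat_lit 0) (XT.lf (nat_lit 0) (nat_lit 2036147113) (nat_lit 1140) (nat_lit 2675005552) (nat_lit 1216) (nat_lit 4672215023) (nat_lit 472) (nat_lit 5) (nat_lit 487) (nat_lit 5) (nat_lit 488) (nat_lit 5) (nat_lit 434)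 (nat_lit 402) (nat_lit 304)) (XT.lf (nat_lit 0) (nat_lit 6567482439) (nat_lit 1216) (nat_lit 1838300688) (nat_lit 76) (nat_lit 1064296780) (nat_lit 472) (nat_lit 5) (nat_lit 488) (nat_lit 5) (nat_lit 473) (nat_lit 5) (nat_lit 435) (nat_lit 402) (nat_lit 303))) (XT.nd (nat_lit 78) (nat_lit 988) (nat_lit 0) (XT.lf (nat_lit 0) (nat_lit 3790202795) (nat_lit 912) (nat_lit 4689176281) (nat_lit 988) (nat_lit 1078778491) (nat_lit 460) (nat_lit 5) (nat_lit 472) (nat_lit 5) (nat_lit 473) (nat_lit 5) (nat_lit 436) (nat_lit 402) (nat_lit 302)) (XT.nd (nat_lit 78) (nat_lit 912) (nat_lit 0) (XT.lf (nat_lit 0) (nat_lit 759967857) (nat_lit 988) (nat_lit 119466182) (nat_lit 76) (nat_lit 8768687242) (nat_lit 459) (nat_lit 5) (nat_lit 472) (nat_lit 5) (nat_lit 460) (nat_lit 5) (nat_lit 437) (nat_lit 402) (nat_lit 301)) (XT.lf (nat_lit 0) (nat_lit 2654548671) (nat_lit 988) (nat_lit 4072159592) (nat_lit 76) (nat_lit 3012363305) (nat_lit 447) (nat_lit 5) (nat_lit 460) (nat_lit 5)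 (nat_lit 448) (nat_lit 5) (nat_lit 438) (nat_lit 402) (nat_lit 300))))) (XT.nd (nat_lit 156) (nat_lit 1824) (nat_lit 0) (XT.nd (nat_lit 78) (nat_lit 0) (nat_lit 0) (XT.lf (nat_lit 0) (nat_lit 1733086439) (nat_lit 836) (nat_lit 2848883244) (nat_lit 912) (nat_lit 5249972207) (nat_lit 436) (nat_lit 5) (nat_lit 447) (nat_lit 5) (nat_lit 448) (nat_lit 5) (nat_lit 439) (nat_lit 402) (nat_lit 299)) (XT.lf (nat_lit 0) (nat_lit 6560000479) (nat_lit 912) (nat_lit 2246782550) (nat_lit 76) (nat_lit 1119645361) (nat_lit 436) (nat_lit 5) (nat_lit 448) (nat_lit 5) (nat_lit 437) (nat_lit 5) (nat_lit 440) (nat_lit 402) (nat_lit 298))) (XT.nd (nat_lit 78) (nat_lit 912) (nat_lit 0) (XT.lf (nat_lit 0) (nat_lit 3729902040) (nat_lit 912) (nat_lit 4868587292) (nat_lit 988) (nat_lit 1423897339) (nat_lit 424) (nat_lit 5) (nat_lit 436) (nat_lit 5) (nat_lit 437) (nat_lit 5) (nat_lit 441) (nat_lit 402) (nat_lit 297)) (XT.nd (nat_lit 78) (nat_lit 836) (nat_lit 0) (XT.lf (nat_lit 0) (nat_lit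 543307965) (nat_lit 988) (nat_lit 289732271) (nat_lit 76) (nat_lit 9287288779) (nat_lit 423) (nat_lit 5) (nat_lit 436) (nat_lit 5) (nat_lit 424) (nat_lit 5) (nat_lit 442) (nat_lit 402) (nat_lit 296)) (XT.lf (nat_lit 0) (nat_lit 2568995912) (nat_lit 912) (nat_lit 4362777712) (nat_lit 76) (nat_lit 3287504252) (nat_lit 412) (nat_lit 5) (nat_lit 424) (nat_lit 5) (nat_lit 413) (nat_lit 5) (nat_lit 443) (nat_lit 402) (nat_lit 295))))))) (XT.nd (nat_lit 702) (nat_lit 2736) (nat_lit 0) (XT.nd (nat_lit 312) (nat_lit 3040) (nat_lit 0) (XT.nd (nat_lit 156) (nat_lit 836) (nat_lit 0) (XT.nd (nat_lit 78) (nat_lit 0) (nat_lit 0) (XT.lf (nat_lit 0) (nat_lit 1805103656) (nat_lit 836) (nat_lit 2827954744) (nat_lit 912) (nat_lit 5687190098) (nat_lit 401) (nat_lit 5) (nat_lit 412) (nat_lit 5) (nat_lit 413) (nat_lit 5) (nat_lit 444) (nat_lit 402) (nat_lit 294)) (XT.lf (nat_lit 0) (nat_lit 6755621419) (nat_lit 912) (nat_lit 2298906321) (nat_lit 76) (nat_lit 1368366407) (nat_lit 401)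 (nat_lit 5) (nat_lit 413) (nat_lit 5) (nat_lit 402) (nat_lit 5) (nat_lit 445) (nat_lit 402) (nat_lit 293))) (XT.nd (nat_lit 78) (nat_lit 76) (nat_lit 0) (XT.lf (nat_lit 0) (nat_lit 4053816863) (nat_lit 760) (nat_lit 4891212384) (nat_lit 836) (nat_lit 1582075592) (nat_lit 391) (nat_lit 5) (nat_lit 401) (nat_lit 5) (nat_lit 402) (nat_lit 5) (nat_lit 446) (nat_lit 402) (nat_lit 292)) (XT.lf (nat_lit 0) (nat_lit 532680588) (nat_lit 836) (nat_lit 94378658) (nat_lit 76) (nat_lit 10006369739) (nat_lit 390) (nat_lit 5) (nat_lit 401) (nat_lit 5) (nat_lit 391) (nat_lit 5) (nat_lit 447) (nat_lit 402) (nat_lit 291)))) (XT.nd (nat_lit 156) (nat_lit 1520) (nat_lit 0) (XT.nd (nat_lit 78) (nat_lit 760) (nat_lit 0) (XT.lf (nat_lit 0) (nat_lit 2714916797) (nat_lit 836) (nat_lit 4301288170) (nat_lit 76) (nat_lit 3724538119) (nat_lit 380) (nat_lit 5) (nat_lit 391) (nat_lit 5) (nat_lit 381) (nat_lit 5) (nat_lit 448) (nat_lit 402) (nat_lit 290)) (XT.lf (nat_lit 0) (nat_lit 2258309209)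 (nat_lit 760) (nat_lit 2682055567) (nat_lit 836) (nat_lit 5909847350) (nat_lit 370) (nat_lit 5) (nat_lit 380) (nat_lit 5) (nat_lit 381) (nat_lit 5) (nat_lit 449) (nat_lit 402) (nat_lit 289))) (XT.nd (nat_lit 78) (nat_lit 1520) (nat_lit 0) (XT.lf (nat_lit 0) (nat_lit 7231011411) (nat_lit 836) (nat_lit 1987806764) (nat_lit 76) (nat_lit 1742638581) (nat_lit 370) (nat_lit 5) (nat_lit 381) (nat_lit 5) (nat_lit 371) (nat_lit 5) (nat_lit 450) (nat_lit 402) (nat_lit 288)) (XT.nd (nat_lit 78) (nat_lit 760) (nat_lit 0) (XT.lf (nat_lit 0) (nat_lit 4771187597) (nat_lit 760) (nat_lit 4825753780) (nat_lit 836) (nat_lit 1477395492) (nat_lit 360) (nat_lit 5) (nat_lit 370) (nat_lit 5) (nat_lit 371) (nat_lit 5) (nat_lit 451) (nat_lit 402) (nat_lit 287)) (XT.lf (nat_lit 0) (nat_lit 481895825) (nat_lit 684) (nat_lit 325452688) (nat_lit 760) (nat_lit 10382071559) (nat_lit 350) (nat_lit 5) (nat_lit 359) (nat_lit 5) (nat_lit 360) (nat_lit 5) (nat_lit 452) (nat_lit 402) (nat_lit 286))))))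 (XT.nd (nat_lit 390) (nat_lit 608) (nat_lit 0) (XT.nd (nat_lit 156) (nat_lit 1444) (nat_lit 0) (XT.nd (nat_lit 78) (nat_lit 684) (nat_lit 0) (XT.lf (nat_lit 0) (nat_lit 3169345408) (nat_lit 760) (nat_lit 3877950800) (nat_lit 76) (nat_lit 4258286613) (nat_lit 350) (nat_lit 5) (nat_lit 360) (nat_lit 5) (nat_lit 351) (nat_lit 5) (nat_lit 453) (nat_lit 402) (nat_lit 285)) (XT.lf (nat_lit 0) (nat_lit 3104897712) (nat_lit 684) (nat_lit 2477424403) (nat_lit 760) (nat_lit 5841671912) (nat_lit 341) (nat_lit 5) (nat_lit 350) (nat_lit 5) (nat_lit 351) (nat_lit 5) (nat_lit 454) (nat_lit 402) (nat_lit 284))) (XT.nd (nat_lit 78) (nat_lit 1444) (nat_lit 0) (XT.lf (nat_lit 0) (nat_lit 8065559332) (nat_lit 760) (nat_lit 1300717921) (nat_lit 76) (nat_lit 2178056185) (nat_lit 341) (nat_lit 5) (nat_lit 351) (nat_lit 5) (nat_lit 342) (nat_lit 5) (nat_lit 455) (nat_lit 402) (nat_lit 283)) (XT.nd (nat_lit 78) (nat_lit 760) (nat_lit 0) (XT.lf (nat_lit 0) (nat_lit 5897315160) (nat_lit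 684) (nat_lit 4737829040) (nat_lit 760) (nat_lit 1031201779) (nat_lit 332) (nat_lit 5) (nat_lit 341) (nat_lit 5) (nat_lit 342) (nat_lit 5) (nat_lit 456) (nat_lit 402) (nat_lit 282)) (XT.lf (nat_lit 0) (nat_lit 1446463339) (nat_lit 760) (nat_lit 10336583125) (nat_lit 76) (nat_lit 7554844) (nat_lit 322) (nat_lit 5) (nat_lit 332) (nat_lit 5) (nat_lit 323) (nat_lit 5) (nat_lit 457) (nat_lit 402) (nat_lit 281))))) (XT.nd (nat_lit 156) (nat_lit 0) (nat_lit 0) (XT.nd (nat_lit 78) (nat_lit 608) (nat_lit 0) (XT.lf (nat_lit 0) (nat_lit 4012501119) (nat_lit 760) (nat_lit 3077232348) (nat_lit 76) (nat_lit 4826419408) (nat_lit 322) (nat_lit 5) (nat_lit 332) (nat_lit 5) (nat_lit 323) (nat_lit 5) (nat_lit 458) (nat_lit 402) (nat_lit 280)) (XT.lf (nat_lit 0) (nat_lit 4363025460) (nat_lit 608) (nat_lit 2277777811) (nat_lit 684) (nat_lit 5403193331) (nat_lit 314) (nat_lit 5) (nat_lit 322) (nat_lit 5) (nat_lit 323) (nat_lit 5) (nat_lit 459) (nat_lit 402) (nat_lit 279))) (XT.nd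 (nat_lit 54912) (nat_lit 0) (nat_lit 26676) (XT.lf (nat_lit 0) (nat_lit 9342327489) (nat_lit 684) (nat_lit 219075149) (nat_lit 76) (nat_lit 2612581444) (nat_lit 314) (nat_lit 5) (nat_lit 323) (nat_lit 5) (nat_lit 315) (nat_lit 5) (nat_lit 460) (nat_lit 402) (nat_lit 278)) (XT.nd (nat_lit 78) (nat_lit 0) (nat_lit 0) (XT.lf (nat_lit 0) (nat_lit 2558631438) (nat_lit 1292) (nat_lit 582187487) (nat_lit 1292) (nat_lit 582187487) (nat_lit 665) (nat_lit 3) (nat_lit 682) (nat_lit 3) (nat_lit 682) (nat_lit 5) (nat_lit 403) (nat_lit 403) (nat_lit 334)) (XT.lf (nat_lit 76) (nat_lit 2592634304) (nat_lit 0) (nat_lit 4080673688) (nat_lit 1292) (nat_lit 817067513) (nat_lit 666) (nat_lit 5) (nat_lit 665) (nat_lit 3) (nat_lit 682) (nat_lit 5) (nat_lit 404) (nat_lit 403) (nat_lit 333))))))))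
noncomputable def xc98 : XT := (XT.nd (nat_lit 1482) (nat_lit 13224) (nat_lit 0) (XT.nd (nat_lit 702) (nat_lit 2660) (nat_lit 0) (XT.nd (nat_lit 312) (nat_lit 1216) (nat_lit 0) (XT.nd (nat_lit 156) (nat_lit 0) (nat_lit 76) (XT.nd (nat_lit 78) (nat_lit 0) (nat_lit 76) (XT.lf (nat_lit 0) (nat_lit 683785239) (nat_lit 1292) (nat_lit 1120354596) (nat_lit 1368) (nat_lit 5732022613) (nat_lit 648) (nat_lit 5) (nat_lit 665) (nat_lit 3) (nat_lit 666) (nat_lit 5) (nat_lit 405) (nat_lit 403) (nat_lit 332)) (XT.lf (nat_lit 0) (nat_lit 2186519706) (nat_lit 1292) (nat_lit 4843956598) (nat_lit 1368) (nat_lit 552624709) (nat_lit 649) (nat_lit 5) (nat_lit 666) (nat_lit 5) (nat_lit 667) (nat_lit 5) (nat_lit 406) (nat_lit 403) (nat_lit 331))) (XT.nd (nat_lit 78) (nat_lit 0) (nat_lit 0) (XT.lf (nat_lit 0) (nat_lit 3700918589) (nat_lit 1292) (nat_lit 972837464) (nat_lit 1368) (nat_lit 2957590099) (nat_lit 649) (nat_lit 5) (nat_lit 666) (nat_lit 5) (nat_lit 667) (nat_lit 5) (nat_lit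 407) (nat_lit 403) (nat_lit 330)) (XT.lf (nat_lit 76) (nat_lit 2994356106) (nat_lit 0) (nat_lit 2233527772) (nat_lit 1368) (nat_lit 2453026748) (nat_lit 650) (nat_lit 5) (nat_lit 649) (nat_lit 5) (nat_lit 667) (nat_lit 5) (nat_lit 408) (nat_lit 403) (nat_lit 329)))) (XT.nd (nat_lit 156) (nat_lit 0) (nat_lit 0) (XT.nd (nat_lit 78) (nat_lit 1368) (nat_lit 0) (XT.lf (nat_lit 0) (nat_lit 6757156063) (nat_lit 1292) (nat_lit 700276931) (nat_lit 1368) (nat_lit 274598045) (nat_lit 650) (nat_lit 5) (nat_lit 667) (nat_lit 5) (nat_lit 668) (nat_lit 5) (nat_lit 409) (nat_lit 403) (nat_lit 328)) (XT.lf (nat_lit 0) (nat_lit 526809685) (nat_lit 1368) (nat_lit 4413333200) (nat_lit 1444) (nat_lit 2843942619) (nat_lit 632) (nat_lit 5) (nat_lit 650) (nat_lit 5) (nat_lit 651) (nat_lit 5) (nat_lit 410) (nat_lit 403) (nat_lit 327))) (XT.nd (nat_lit 78) (nat_lit 0) (nat_lit 76) (XT.lf (nat_lit 0) (nat_lit 2014802299) (nat_lit 1368) (nat_lit 332114439) (nat_lit 1444) (nat_lit 5490748886)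 (nat_lit 632) (nat_lit 5) (nat_lit 650) (nat_lit 5) (nat_lit 651) (nat_lit 5) (nat_lit 411) (nat_lit 403) (nat_lit 326)) (XT.nd (nat_lit 78) (nat_lit 0) (nat_lit 0) (XT.lf (nat_lit 0) (nat_lit 3525091856) (nat_lit 1368) (nat_lit 4034160563) (nat_lit 1444) (nat_lit 333214185) (nat_lit 633) (nat_lit 5) (nat_lit 651) (nat_lit 5) (nat_lit 652) (nat_lit 5) (nat_lit 412) (nat_lit 403) (nat_lit 325)) (XT.lf (nat_lit 76) (nat_lit 153724236) (nat_lit 0) (nat_lit 4896560772) (nat_lit 1444) (nat_lit 2898384641) (nat_lit 634) (nat_lit 5) (nat_lit 633) (nat_lit 5) (nat_lit 652) (nat_lit 5) (nat_lit 413) (nat_lit 403) (nat_lit 324)))))) (XT.nd (nat_lit 390) (nat_lit 1368) (nat_lit 0) (XT.nd (nat_lit 156) (nat_lit 0) (nat_lit 0) (XT.nd (nat_lit 78) (nat_lit 1368) (nat_lit 0) (XT.lf (nat_lit 76) (nat_lit 4458739545) (nat_lit 0) (nat_lit 2140757616) (nat_lit 1444) (nat_lit 1406629291) (nat_lit 634) (nat_lit 5) (nat_lit 633) (nat_lit 5) (nat_lit 652) (nat_lit 5) (nat_lit 414)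 (nat_lit 403) (nat_lit 323)) (XT.lf (nat_lit 0) (nat_lit 89823163) (nat_lit 1444) (nat_lit 7296561928) (nat_lit 1520) (nat_lit 678804978) (nat_lit 615) (nat_lit 5) (nat_lit 634) (nat_lit 5) (nat_lit 635) (nat_lit 5) (nat_lit 415) (nat_lit 403) (nat_lit 322))) (XT.nd (nat_lit 78) (nat_lit 0) (nat_lit 0) (XT.lf (nat_lit 0) (nat_lit 1602996907) (nat_lit 1444) (nat_lit 2951479229) (nat_lit 1520) (nat_lit 3570660323) (nat_lit 615) (nat_lit 5) (nat_lit 634) (nat_lit 5) (nat_lit 635) (nat_lit 5) (nat_lit 416) (nat_lit 403) (nat_lit 321)) (XT.nd (nat_lit 78) (nat_lit 0) (nat_lit 76) (XT.lf (nat_lit 76) (nat_lit 1478405116) (nat_lit 0) (nat_lit 1645735363) (nat_lit 1520) (nat_lit 5062587174) (nat_lit 616) (nat_lit 5) (nat_lit 615) (nat_lit 5) (nat_lit 635) (nat_lit 5) (nat_lit 417) (nat_lit 403) (nat_lit 320)) (XT.lf (nat_lit 0) (nat_lit 4672881646) (nat_lit 1444) (nat_lit 2243010058) (nat_lit 1520) (nat_lit 1333715470) (nat_lit 616) (nat_lit 5) (nat_lit 635) (nat_lit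 5) (nat_lit 636) (nat_lit 5) (nat_lit 418) (nat_lit 403) (nat_lit 319))))) (XT.nd (nat_lit 156) (nat_lit 1444) (nat_lit 0) (XT.nd (nat_lit 78) (nat_lit 0) (nat_lit 0) (XT.lf (nat_lit 76) (nat_lit 2309388400) (nat_lit 0) (nat_lit 3938376345) (nat_lit 1520) (nat_lit 2066076199) (nat_lit 617) (nat_lit 5) (nat_lit 616) (nat_lit 5) (nat_lit 636) (nat_lit 5) (nat_lit 419) (nat_lit 403) (nat_lit 318)) (XT.lf (nat_lit 76) (nat_lit 6961772185) (nat_lit 0) (nat_lit 877162308) (nat_lit 1520) (nat_lit 540729117) (nat_lit 617) (nat_lit 5) (nat_lit 616) (nat_lit 5) (nat_lit 636) (nat_lit 5) (nat_lit 420) (nat_lit 403) (nat_lit 317))) (XT.nd (nat_lit 78) (nat_lit 0) (nat_lit 0) (XT.lf (nat_lit 0) (nat_lit 1008028027) (nat_lit 1520) (nat_lit 5186336612) (nat_lit 1596) (nat_lit 2252181939) (nat_lit 597) (nat_lit 5) (nat_lit 617) (nat_lit 5) (nat_lit 618) (nat_lit 5) (nat_lit 421) (nat_lit 403) (nat_lit 316)) (XT.nd (nat_lit 78) (nat_lit 0) (nat_lit 76) (XT.lf (nat_lit 0) (nat_lit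 2566547656) (nat_lit 1520) (nat_lit 494879861) (nat_lit 1596) (nat_lit 5453547651) (nat_lit 597) (nat_lit 5) (nat_lit 617) (nat_lit 5) (nat_lit 618) (nat_lit 5) (nat_lit 422) (nat_lit 403) (nat_lit 315)) (XT.lf (nat_lit 0) (nat_lit 4156636758) (nat_lit 1520) (nat_lit 4260266365) (nat_lit 1596) (nat_lit 167861224) (nat_lit 598) (nat_lit 5) (nat_lit 618) (nat_lit 5) (nat_lit 619) (nat_lit 5) (nat_lit 423) (nat_lit 403) (nat_lit 314))))))) (XT.nd (nat_lit 702) (nat_lit 6688) (nat_lit 0) (XT.nd (nat_lit 312) (nat_lit 5092) (nat_lit 0) (XT.nd (nat_lit 156) (nat_lit 1520) (nat_lit 0) (XT.nd (nat_lit 78) (nat_lit 0) (nat_lit 0) (XT.lf (nat_lit 76) (nat_lit 556101636) (nat_lit 0) (nat_lit 5221334901) (nat_lit 1596) (nat_lit 2878534595) (nat_lit 599) (nat_lit 5) (nat_lit 598) (nat_lit 5) (nat_lit 619) (nat_lit 5) (nat_lit 424) (nat_lit 403) (nat_lit 313)) (XT.lf (nat_lit 76) (nat_lit 5504706558) (nat_lit 0) (nat_lit 1926628925) (nat_lit 1596) (nat_lit 1297252907) (nat_lit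 599) (nat_lit 5) (nat_lit 598) (nat_lit 5) (nat_lit 619) (nat_lit 5) (nat_lit 425) (nat_lit 403) (nat_lit 312))) (XT.nd (nat_lit 78) (nat_lit 0) (nat_lit 0) (XT.lf (nat_lit 0) (nat_lit 304765483) (nat_lit 1596) (nat_lit 7063643310) (nat_lit 76) (nat_lit 1434343191) (nat_lit 578) (nat_lit 5) (nat_lit 599) (nat_lit 5) (nat_lit 579) (nat_lit 5) (nat_lit 426) (nat_lit 403) (nat_lit 311)) (XT.lf (nat_lit 0) (nat_lit 1928902412) (nat_lit 1596) (nat_lit 2076612605) (nat_lit 76) (nat_lit 4872563370) (nat_lit 578) (nat_lit 5) (nat_lit 599) (nat_lit 5) (nat_lit 579) (nat_lit 5) (nat_lit 427) (nat_lit 403) (nat_lit 310)))) (XT.nd (nat_lit 156) (nat_lit 3496) (nat_lit 0) (XT.nd (nat_lit 78) (nat_lit 0) (nat_lit 0) (XT.lf (nat_lit 0) (nat_lit 3028095764) (nat_lit 1596) (nat_lit 550513979) (nat_lit 1672) (nat_lit 5376439822) (nat_lit 557) (nat_lit 5) (nat_lit 578) (nat_lit 5) (nat_lit 579) (nat_lit 5) (nat_lit 428) (nat_lit 403) (nat_lit 309)) (XT.lf (nat_lit 0) (nat_lit 5268482596)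 (nat_lit 1672) (nat_lit 811820057) (nat_lit 76) (nat_lit 2953114085) (nat_lit 557) (nat_lit 5) (nat_lit 579) (nat_lit 5) (nat_lit 558) (nat_lit 5) (nat_lit 429) (nat_lit 403) (nat_lit 308))) (XT.nd (nat_lit 78) (nat_lit 1824) (nat_lit 0) (XT.lf (nat_lit 0) (nat_lit 4438429273) (nat_lit 1672) (nat_lit 2560537067) (nat_lit 1748) (nat_lit 2114248646) (nat_lit 535) (nat_lit 5) (nat_lit 557) (nat_lit 5) (nat_lit 558) (nat_lit 5) (nat_lit 430) (nat_lit 403) (nat_lit 307)) (XT.nd (nat_lit 78) (nat_lit 76) (nat_lit 0) (XT.lf (nat_lit 0) (nat_lit 589053634) (nat_lit 1748) (nat_lit 8165736402) (nat_lit 1824) (nat_lit 440004558) (nat_lit 512) (nat_lit 5) (nat_lit 535) (nat_lit 5) (nat_lit 536) (nat_lit 5) (nat_lit 431) (nat_lit 403) (nat_lit 306)) (XT.lf (nat_lit 0) (nat_lit 1274557722) (nat_lit 1824) (nat_lit 3303562728) (nat_lit 76) (nat_lit 4699251530) (nat_lit 511) (nat_lit 5) (nat_lit 535) (nat_lit 5) (nat_lit 512) (nat_lit 5) (nat_lit 432) (nat_lit 403) (nat_lit 305))))))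 (XT.nd (nat_lit 390) (nat_lit 2736) (nat_lit 0) (XT.nd (nat_lit 156) (nat_lit 2128) (nat_lit 0) (XT.nd (nat_lit 78) (nat_lit 0) (nat_lit 0) (XT.lf (nat_lit 0) (nat_lit 2107496898) (nat_lit 1824) (nat_lit 899127663) (nat_lit 1900) (nat_lit 6355136085) (nat_lit 487) (nat_lit 5) (nat_lit 511) (nat_lit 5) (nat_lit 512) (nat_lit 5) (nat_lit 433) (nat_lit 403) (nat_lit 304)) (XT.lf (nat_lit 0) (nat_lit 4789947929) (nat_lit 1900) (nat_lit 1816754115) (nat_lit 76) (nat_lit 2840802738) (nat_lit 487) (nat_lit 5) (nat_lit 512) (nat_lit 5) (nat_lit 488) (nat_lit 5) (nat_lit 434) (nat_lit 403) (nat_lit 303))) (XT.nd (nat_lit 78) (nat_lit 988) (nat_lit 0) (XT.lf (nat_lit 0) (nat_lit 3750936098) (nat_lit 1140) (nat_lit 2864558029) (nat_lit 1216) (nat_lit 2919338546) (nat_lit 472) (nat_lit 5) (nat_lit 487) (nat_lit 5) (nat_lit 488) (nat_lit 5) (nat_lit 435) (nat_lit 403) (nat_lit 302)) (XT.nd (nat_lit 78) (nat_lit 988) (nat_lit 0) (XT.lf (nat_lit 0) (nat_lit 8472591957) (nat_lit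 1216) (nat_lit 197466944) (nat_lit 76) (nat_lit 953947408) (nat_lit 472) (nat_lit 5) (nat_lit 488) (nat_lit 5) (nat_lit 473) (nat_lit 5) (nat_lit 436) (nat_lit 403) (nat_lit 301)) (XT.lf (nat_lit 0) (nat_lit 675466060) (nat_lit 988) (nat_lit 4186198792) (nat_lit 76) (nat_lit 4852570975) (nat_lit 459) (nat_lit 5) (nat_lit 472) (nat_lit 5) (nat_lit 460) (nat_lit 5) (nat_lit 437) (nat_lit 403) (nat_lit 300))))) (XT.nd (nat_lit 156) (nat_lit 1824) (nat_lit 0) (XT.nd (nat_lit 78) (nat_lit 0) (nat_lit 0) (XT.lf (nat_lit 0) (nat_lit 1555377716) (nat_lit 912) (nat_lit 956739787) (nat_lit 988) (nat_lit 7294227199) (nat_lit 447) (nat_lit 5) (nat_lit 459) (nat_lit 5) (nat_lit 460) (nat_lit 5) (nat_lit 438) (nat_lit 403) (nat_lit 299)) (XT.lf (nat_lit 0) (nat_lit 4410943131) (nat_lit 988) (nat_lit 2473220362) (nat_lit 76) (nat_lit 3015623438) (nat_lit 447) (nat_lit 5) (nat_lit 460) (nat_lit 5) (nat_lit 448) (nat_lit 5) (nat_lit 439) (nat_lit 403) (nat_lit 298))) (XT.nd (nat_lit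 78) (nat_lit 988) (nat_lit 0) (XT.lf (nat_lit 0) (nat_lit 3437075443) (nat_lit 836) (nat_lit 2917277392) (nat_lit 912) (nat_lit 3640613018) (nat_lit 436) (nat_lit 5) (nat_lit 447) (nat_lit 5) (nat_lit 448) (nat_lit 5) (nat_lit 440) (nat_lit 403) (nat_lit 297)) (XT.nd (nat_lit 78) (nat_lit 988) (nat_lit 0) (XT.lf (nat_lit 0) (nat_lit 8338915817) (nat_lit 912) (nat_lit 622094403) (nat_lit 76) (nat_lit 1130992431) (nat_lit 436) (nat_lit 5) (nat_lit 448) (nat_lit 5) (nat_lit 437) (nat_lit 5) (nat_lit 441) (nat_lit 403) (nat_lit 296)) (XT.lf (nat_lit 0) (nat_lit 203618427) (nat_lit 988) (nat_lit 4728510965) (nat_lit 76) (nat_lit 5258154698) (nat_lit 423) (nat_lit 5) (nat_lit 436) (nat_lit 5) (nat_lit 424) (nat_lit 5) (nat_lit 442) (nat_lit 403) (nat_lit 295))))))))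
noncomputable def xc99 : XT := (XT.nd (nat_lit 56394) (nat_lit 0) (nat_lit 21432) (XT.nd (nat_lit 702) (nat_lit 4256) (nat_lit 0) (XT.nd (nat_lit 312) (nat_lit 2356) (nat_lit 0) (XT.nd (nat_lit 156) (nat_lit 836) (nat_lit 0) (XT.nd (nat_lit 78) (nat_lit 0) (nat_lit 0) (XT.lf (nat_lit 0) (nat_lit 1369884040) (nat_lit 836) (nat_lit 798032859) (nat_lit 912) (nat_lit 8122543841) (nat_lit 412) (nat_lit 5) (nat_lit 423) (nat_lit 5) (nat_lit 424) (nat_lit 5) (nat_lit 443) (nat_lit 403) (nat_lit 294)) (XT.lf (nat_lit 0) (nat_lit 4204724234) (nat_lit 912) (nat_lit 2782088408) (nat_lit 76) (nat_lit 3405163824) (nat_lit 412) (nat_lit 5) (nat_lit 424) (nat_lit 5) (nat_lit 413) (nat_lit 5) (nat_lit 444) (nat_lit 403) (nat_lit 293))) (XT.nd (nat_lit 78) (nat_lit 0) (nat_lit 0) (XT.lf (nat_lit 0) (nat_lit 3498177266) (nat_lit 836) (nat_lit 2791583208) (nat_lit 912) (nat_lit 4205612176) (nat_lit 401) (nat_lit 5) (nat_lit 412) (nat_lit 5) (nat_lit 413) (nat_lit 5) (nat_lit 445)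 (nat_lit 403) (nat_lit 292)) (XT.lf (nat_lit 0) (nat_lit 8424698821) (nat_lit 912) (nat_lit 690326617) (nat_lit 76) (nat_lit 1485647293) (nat_lit 401) (nat_lit 5) (nat_lit 413) (nat_lit 5) (nat_lit 402) (nat_lit 5) (nat_lit 446) (nat_lit 403) (nat_lit 291)))) (XT.nd (nat_lit 156) (nat_lit 760) (nat_lit 0) (XT.nd (nat_lit 78) (nat_lit 836) (nat_lit 0) (XT.lf (nat_lit 0) (nat_lit 5778565782) (nat_lit 760) (nat_lit 4859923092) (nat_lit 836) (nat_lit 68866880) (nat_lit 391) (nat_lit 5) (nat_lit 401) (nat_lit 5) (nat_lit 402) (nat_lit 5) (nat_lit 447) (nat_lit 403) (nat_lit 290)) (XT.lf (nat_lit 0) (nat_lit 1555441080) (nat_lit 760) (nat_lit 492687403) (nat_lit 836) (nat_lit 8767873196) (nat_lit 380) (nat_lit 5) (nat_lit 390) (nat_lit 5) (nat_lit 391) (nat_lit 5) (nat_lit 448) (nat_lit 403) (nat_lit 289))) (XT.nd (nat_lit 78) (nat_lit 760) (nat_lit 0) (XT.lf (nat_lit 0) (nat_lit 4246063824) (nat_lit 836) (nat_lit 2738159874) (nat_lit 76) (nat_lit 3941797275) (nat_lit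 380) (nat_lit 5) (nat_lit 391) (nat_lit 5) (nat_lit 381) (nat_lit 5) (nat_lit 449) (nat_lit 403) (nat_lit 288)) (XT.nd (nat_lit 78) (nat_lit 0) (nat_lit 0) (XT.lf (nat_lit 0) (nat_lit 3941779755) (nat_lit 760) (nat_lit 2555920150) (nat_lit 836) (nat_lit 4540345909) (nat_lit 370) (nat_lit 5) (nat_lit 380) (nat_lit 5) (nat_lit 381) (nat_lit 5) (nat_lit 450) (nat_lit 403) (nat_lit 287)) (XT.lf (nat_lit 0) (nat_lit 8806705228) (nat_lit 836) (nat_lit 393927909) (nat_lit 76) (nat_lit 1951431282) (nat_lit 370) (nat_lit 5) (nat_lit 381) (nat_lit 5) (nat_lit 371) (nat_lit 5) (nat_lit 451) (nat_lit 403) (nat_lit 286)))))) (XT.nd (nat_lit 390) (nat_lit 1368) (nat_lit 0) (XT.nd (nat_lit 156) (nat_lit 1368) (nat_lit 0) (XT.nd (nat_lit 78) (nat_lit 760) (nat_lit 0) (XT.lf (nat_lit 0) (nat_lit 6489498740) (nat_lit 760) (nat_lit 4712931648) (nat_lit 836) (nat_lit 65122215) (nat_lit 360) (nat_lit 5) (nat_lit 370) (nat_lit 5) (nat_lit 371) (nat_lit 5) (nat_lit 452) (nat_lit 403)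 (nat_lit 285)) (XT.lf (nat_lit 0) (nat_lit 2122529580) (nat_lit 684) (nat_lit 106566629) (nat_lit 760) (nat_lit 9156000250) (nat_lit 350) (nat_lit 5) (nat_lit 359) (nat_lit 5) (nat_lit 360) (nat_lit 5) (nat_lit 453) (nat_lit 403) (nat_lit 284))) (XT.nd (nat_lit 78) (nat_lit 1368) (nat_lit 0) (XT.lf (nat_lit 0) (nat_lit 4612206964) (nat_lit 760) (nat_lit 2330368210) (nat_lit 76) (nat_lit 4561529811) (nat_lit 350) (nat_lit 5) (nat_lit 360) (nat_lit 5) (nat_lit 351) (nat_lit 5) (nat_lit 454) (nat_lit 403) (nat_lit 283)) (XT.nd (nat_lit 78) (nat_lit 684) (nat_lit 0) (XT.lf (nat_lit 0) (nat_lit 4781445551) (nat_lit 684) (nat_lit 2275431210) (nat_lit 760) (nat_lit 4568338982) (nat_lit 341) (nat_lit 5) (nat_lit 350) (nat_lit 5) (nat_lit 351) (nat_lit 5) (nat_lit 455) (nat_lit 403) (nat_lit 282)) (XT.lf (nat_lit 0) (nat_lit 284921053) (nat_lit 684) (nat_lit 9281585028) (nat_lit 760) (nat_lit 2181921314) (nat_lit 332) (nat_lit 5) (nat_lit 341) (nat_lit 5) (nat_lit 342)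 (nat_lit 5) (nat_lit 456) (nat_lit 403) (nat_lit 281))))) (XT.nd (nat_lit 156) (nat_lit 608) (nat_lit 0) (XT.nd (nat_lit 78) (nat_lit 684) (nat_lit 0) (XT.lf (nat_lit 0) (nat_lit 292649096) (nat_lit 760) (nat_lit 4262560103) (nat_lit 76) (nat_lit 7317986681) (nat_lit 331) (nat_lit 5) (nat_lit 341) (nat_lit 5) (nat_lit 332) (nat_lit 5) (nat_lit 457) (nat_lit 403) (nat_lit 280)) (XT.lf (nat_lit 0) (nat_lit 2792276602) (nat_lit 760) (nat_lit 8914496575) (nat_lit 76) (nat_lit 293302477) (nat_lit 322) (nat_lit 5) (nat_lit 332) (nat_lit 5) (nat_lit 323) (nat_lit 5) (nat_lit 458) (nat_lit 403) (nat_lit 279))) (XT.nd (nat_lit 78) (nat_lit 608) (nat_lit 0) (XT.lf (nat_lit 0) (nat_lit 5383813883) (nat_lit 760) (nat_lit 1541896394) (nat_lit 76) (nat_lit 5202944401) (nat_lit 322) (nat_lit 5) (nat_lit 332) (nat_lit 5) (nat_lit 323) (nat_lit 5) (nat_lit 459) (nat_lit 403) (nat_lit 278)) (XT.nd (nat_lit 54990) (nat_lit 0) (nat_lit 25384) (XT.lf (nat_lit 0) (nat_lit 6036660776)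 (nat_lit 608) (nat_lit 2013006143) (nat_lit 684) (nat_lit 4209688663) (nat_lit 314) (nat_lit 5) (nat_lit 322) (nat_lit 5) (nat_lit 323) (nat_lit 5) (nat_lit 460) (nat_lit 403) (nat_lit 277)) (XT.lf (nat_lit 0) (nat_lit 159088003) (nat_lit 0) (nat_lit 159088003) (nat_lit 1292) (nat_lit 3449639516) (nat_lit 648) (nat_lit 5) (nat_lit 648) (nat_lit 3) (nat_lit 665) (nat_lit 3) (nat_lit 404) (nat_lit 404) (nat_lit 332))))))) (XT.nd (nat_lit 702) (nat_lit 2660) (nat_lit 0) (XT.nd (nat_lit 312) (nat_lit 1292) (nat_lit 0) (XT.nd (nat_lit 156) (nat_lit 0) (nat_lit 0) (XT.nd (nat_lit 78) (nat_lit 0) (nat_lit 0) (XT.lf (nat_lit 0) (nat_lit 2105289729) (nat_lit 1292) (nat_lit 3453351571) (nat_lit 1368) (nat_lit 2023094570) (nat_lit 648) (nat_lit 5) (nat_lit 665) (nat_lit 3) (nat_lit 666) (nat_lit 5) (nat_lit 405) (nat_lit 404) (nat_lit 331)) (XT.lf (nat_lit 76) (nat_lit 368873616) (nat_lit 0) (nat_lit 3201343364) (nat_lit 1368) (nat_lit 4059213597) (nat_lit 649) (nat_lit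 5) (nat_lit 648) (nat_lit 5) (nat_lit 666) (nat_lit 5) (nat_lit 406) (nat_lit 404) (nat_lit 330))) (XT.nd (nat_lit 78) (nat_lit 0) (nat_lit 76) (XT.lf (nat_lit 76) (nat_lit 4294594195) (nat_lit 0) (nat_lit 755745743) (nat_lit 1368) (nat_lit 2628021298) (nat_lit 649) (nat_lit 5) (nat_lit 648) (nat_lit 5) (nat_lit 666) (nat_lit 5) (nat_lit 407) (nat_lit 404) (nat_lit 329)) (XT.lf (nat_lit 76) (nat_lit 546218054) (nat_lit 0) (nat_lit 5992248685) (nat_lit 1368) (nat_lit 1190235740) (nat_lit 650) (nat_lit 5) (nat_lit 649) (nat_lit 5) (nat_lit 667) (nat_lit 5) (nat_lit 408) (nat_lit 404) (nat_lit 328)))) (XT.nd (nat_lit 156) (nat_lit 0) (nat_lit 76) (XT.nd (nat_lit 78) (nat_lit 0) (nat_lit 0) (XT.lf (nat_lit 0) (nat_lit 264456261) (nat_lit 1368) (nat_lit 3206436733) (nat_lit 1444) (nat_lit 4309286185) (nat_lit 631) (nat_lit 5) (nat_lit 649) (nat_lit 5) (nat_lit 650) (nat_lit 5) (nat_lit 409) (nat_lit 404) (nat_lit 327)) (XT.lf (nat_lit 76) (nat_lit 832002843) (nat_lit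 0) (nat_lit 870338774) (nat_lit 1444) (nat_lit 6130785710) (nat_lit 632) (nat_lit 5) (nat_lit 631) (nat_lit 5) (nat_lit 650) (nat_lit 5) (nat_lit 410) (nat_lit 404) (nat_lit 326))) (XT.nd (nat_lit 78) (nat_lit 0) (nat_lit 0) (XT.lf (nat_lit 0) (nat_lit 3167495144) (nat_lit 1368) (nat_lit 2924561003) (nat_lit 1444) (nat_lit 1795108081) (nat_lit 632) (nat_lit 5) (nat_lit 650) (nat_lit 5) (nat_lit 651) (nat_lit 5) (nat_lit 411) (nat_lit 404) (nat_lit 325)) (XT.nd (nat_lit 78) (nat_lit 0) (nat_lit 0) (XT.lf (nat_lit 76) (nat_lit 1223404977) (nat_lit 0) (nat_lit 3418214235) (nat_lit 1444) (nat_lit 3301069307) (nat_lit 633) (nat_lit 5) (nat_lit 632) (nat_lit 5) (nat_lit 651) (nat_lit 5) (nat_lit 412) (nat_lit 404) (nat_lit 324)) (XT.lf (nat_lit 76) (nat_lit 5473697638) (nat_lit 0) (nat_lit 657649749) (nat_lit 1444) (nat_lit 1868253477) (nat_lit 633) (nat_lit 5) (nat_lit 632) (nat_lit 5) (nat_lit 651) (nat_lit 5) (nat_lit 413) (nat_lit 404) (nat_lit 323)))))) (XT.nd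 (nat_lit 390) (nat_lit 1368) (nat_lit 0) (XT.nd (nat_lit 156) (nat_lit 0) (nat_lit 0) (XT.nd (nat_lit 78) (nat_lit 1444) (nat_lit 0) (XT.lf (nat_lit 76) (nat_lit 1739527520) (nat_lit 0) (nat_lit 5903886172) (nat_lit 1444) (nat_lit 414386891) (nat_lit 634) (nat_lit 5) (nat_lit 633) (nat_lit 5) (nat_lit 652) (nat_lit 5) (nat_lit 414) (nat_lit 404) (nat_lit 322)) (XT.lf (nat_lit 0) (nat_lit 1043493624) (nat_lit 1444) (nat_lit 2024639678) (nat_lit 1520) (nat_lit 5049113221) (nat_lit 614) (nat_lit 5) (nat_lit 633) (nat_lit 5) (nat_lit 634) (nat_lit 5) (nat_lit 415) (nat_lit 404) (nat_lit 321))) (XT.nd (nat_lit 78) (nat_lit 0) (nat_lit 76) (XT.lf (nat_lit 76) (nat_lit 2362602938) (nat_lit 0) (nat_lit 145894776) (nat_lit 1520) (nat_lit 5669658594) (nat_lit 615) (nat_lit 5) (nat_lit 614) (nat_lit 5) (nat_lit 634) (nat_lit 5) (nat_lit 416) (nat_lit 404) (nat_lit 320)) (XT.nd (nat_lit 78) (nat_lit 0) (nat_lit 0) (XT.lf (nat_lit 0) (nat_lit 4003616495) (nat_lit 1444) (nat_lit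 1414541126) (nat_lit 1520) (nat_lit 2822110375) (nat_lit 615) (nat_lit 5) (nat_lit 634) (nat_lit 5) (nat_lit 635) (nat_lit 5) (nat_lit 417) (nat_lit 404) (nat_lit 319)) (XT.lf (nat_lit 76) (nat_lit 3093441118) (nat_lit 0) (nat_lit 2425593383) (nat_lit 1520) (nat_lit 2784779480) (nat_lit 616) (nat_lit 5) (nat_lit 615) (nat_lit 5) (nat_lit 635) (nat_lit 5) (nat_lit 418) (nat_lit 404) (nat_lit 318))))) (XT.nd (nat_lit 156) (nat_lit 0) (nat_lit 0) (XT.nd (nat_lit 78) (nat_lit 1520) (nat_lit 0) (XT.lf (nat_lit 0) (nat_lit 7048262378) (nat_lit 1444) (nat_lit 683001852) (nat_lit 1520) (nat_lit 637696625) (nat_lit 616) (nat_lit 5) (nat_lit 635) (nat_lit 5) (nat_lit 636) (nat_lit 5) (nat_lit 419) (nat_lit 404) (nat_lit 317)) (XT.lf (nat_lit 0) (nat_lit 182656314) (nat_lit 1520) (nat_lit 4486482602) (nat_lit 1596) (nat_lit 3766004196) (nat_lit 596) (nat_lit 5) (nat_lit 616) (nat_lit 5) (nat_lit 617) (nat_lit 5) (nat_lit 420) (nat_lit 404) (nat_lit 316))) (XT.nd (nat_lit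 78) (nat_lit 0) (nat_lit 76) (XT.lf (nat_lit 76) (nat_lit 151849113) (nat_lit 0) (nat_lit 1522880743) (nat_lit 1596) (nat_lit 6828217846) (nat_lit 597) (nat_lit 5) (nat_lit 596) (nat_lit 5) (nat_lit 617) (nat_lit 5) (nat_lit 421) (nat_lit 404) (nat_lit 315)) (XT.nd (nat_lit 78) (nat_lit 0) (nat_lit 0) (XT.lf (nat_lit 0) (nat_lit 3209109412) (nat_lit 1520) (nat_lit 3660404260) (nat_lit 1596) (nat_lit 1702345420) (nat_lit 597) (nat_lit 5) (nat_lit 617) (nat_lit 5) (nat_lit 618) (nat_lit 5) (nat_lit 422) (nat_lit 404) (nat_lit 314)) (XT.lf (nat_lit 76) (nat_lit 1107451957) (nat_lit 0) (nat_lit 3655774636) (nat_lit 1596) (nat_lit 3879141118) (nat_lit 598) (nat_lit 5) (nat_lit 597) (nat_lit 5) (nat_lit 618) (nat_lit 5) (nat_lit 423) (nat_lit 404) (nat_lit 313))))))))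
noncomputable def xc100 : XT := (XT.nd (nat_lit 1482) (nat_lit 7752) (nat_lit 0) (XT.nd (nat_lit 702) (nat_lit 6612) (nat_lit 0) (XT.nd (nat_lit 312) (nat_lit 5016) (nat_lit 0) (XT.nd (nat_lit 156) (nat_lit 1520) (nat_lit 0) (XT.nd (nat_lit 78) (nat_lit 0) (nat_lit 76) (XT.lf (nat_lit 76) (nat_lit 5999330675) (nat_lit 0) (nat_lit 345850507) (nat_lit 1596) (nat_lit 2369170219) (nat_lit 598) (nat_lit 5) (nat_lit 597) (nat_lit 5) (nat_lit 618) (nat_lit 5) (nat_lit 424) (nat_lit 404) (nat_lit 312)) (XT.lf (nat_lit 76) (nat_lit 2189178703) (nat_lit 0) (nat_lit 5776265018) (nat_lit 1596) (nat_lit 822197665) (nat_lit 599) (nat_lit 5) (nat_lit 598) (nat_lit 5) (nat_lit 619) (nat_lit 5) (nat_lit 425) (nat_lit 404) (nat_lit 311))) (XT.nd (nat_lit 78) (nat_lit 0) (nat_lit 76) (XT.lf (nat_lit 0) (nat_lit 739433801) (nat_lit 1596) (nat_lit 1662435731) (nat_lit 1672) (nat_lit 6460556892) (nat_lit 577) (nat_lit 5) (nat_lit 598) (nat_lit 5) (nat_lit 599) (nat_lit 5) (nat_lit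 426) (nat_lit 404) (nat_lit 310)) (XT.lf (nat_lit 0) (nat_lit 2323811868) (nat_lit 1596) (nat_lit 5555256805) (nat_lit 76) (nat_lit 1059479330) (nat_lit 578) (nat_lit 5) (nat_lit 599) (nat_lit 5) (nat_lit 579) (nat_lit 5) (nat_lit 427) (nat_lit 404) (nat_lit 309)))) (XT.nd (nat_lit 156) (nat_lit 3496) (nat_lit 0) (XT.nd (nat_lit 78) (nat_lit 1596) (nat_lit 0) (XT.lf (nat_lit 0) (nat_lit 3940961907) (nat_lit 1596) (nat_lit 500831747) (nat_lit 76) (nat_lit 4574376672) (nat_lit 578) (nat_lit 5) (nat_lit 599) (nat_lit 5) (nat_lit 579) (nat_lit 5) (nat_lit 428) (nat_lit 404) (nat_lit 308)) (XT.lf (nat_lit 0) (nat_lit 4695330571) (nat_lit 1596) (nat_lit 900068684) (nat_lit 1672) (nat_lit 3499846955) (nat_lit 557) (nat_lit 5) (nat_lit 578) (nat_lit 5) (nat_lit 579) (nat_lit 5) (nat_lit 429) (nat_lit 404) (nat_lit 307))) (XT.nd (nat_lit 78) (nat_lit 1824) (nat_lit 0) (XT.lf (nat_lit 0) (nat_lit 797873773) (nat_lit 1672) (nat_lit 6486079646) (nat_lit 1748) (nat_lit 1891929630)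 (nat_lit 535) (nat_lit 5) (nat_lit 557) (nat_lit 5) (nat_lit 558) (nat_lit 5) (nat_lit 430) (nat_lit 404) (nat_lit 306)) (XT.nd (nat_lit 78) (nat_lit 1824) (nat_lit 0) (XT.lf (nat_lit 0) (nat_lit 6132035767) (nat_lit 1672) (nat_lit 2884899029) (nat_lit 1748) (nat_lit 240984708) (nat_lit 535) (nat_lit 5) (nat_lit 557) (nat_lit 5) (nat_lit 558) (nat_lit 5) (nat_lit 431) (nat_lit 404) (nat_lit 305)) (XT.lf (nat_lit 0) (nat_lit 1419365298) (nat_lit 1824) (nat_lit 7116838816) (nat_lit 76) (nat_lit 805298975) (nat_lit 511) (nat_lit 5) (nat_lit 535) (nat_lit 5) (nat_lit 512) (nat_lit 5) (nat_lit 432) (nat_lit 404) (nat_lit 304)))))) (XT.nd (nat_lit 390) (nat_lit 2660) (nat_lit 0) (XT.nd (nat_lit 156) (nat_lit 2128) (nat_lit 0) (XT.nd (nat_lit 78) (nat_lit 1824) (nat_lit 0) (XT.lf (nat_lit 0) (nat_lit 3125817302) (nat_lit 1824) (nat_lit 1744042781) (nat_lit 76) (nat_lit 4556543969) (nat_lit 511) (nat_lit 5) (nat_lit 535) (nat_lit 5) (nat_lit 512) (nat_lit 5) (nat_lit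 433) (nat_lit 404) (nat_lit 303)) (XT.lf (nat_lit 0) (nat_lit 3764543359) (nat_lit 1824) (nat_lit 1102667718) (nat_lit 1900) (nat_lit 4645775703) (nat_lit 487) (nat_lit 5) (nat_lit 511) (nat_lit 5) (nat_lit 512) (nat_lit 5) (nat_lit 434) (nat_lit 404) (nat_lit 302))) (XT.nd (nat_lit 78) (nat_lit 2128) (nat_lit 0) (XT.lf (nat_lit 0) (nat_lit 6649716752) (nat_lit 1900) (nat_lit 233373153) (nat_lit 76) (nat_lit 2718085576) (nat_lit 487) (nat_lit 5) (nat_lit 512) (nat_lit 5) (nat_lit 488) (nat_lit 5) (nat_lit 435) (nat_lit 404) (nat_lit 301)) (XT.nd (nat_lit 78) (nat_lit 988) (nat_lit 0) (XT.lf (nat_lit 0) (nat_lit 5435014838) (nat_lit 1140) (nat_lit 3052618476) (nat_lit 1216) (nat_lit 1203099427) (nat_lit 472) (nat_lit 5) (nat_lit 487) (nat_lit 5) (nat_lit 488) (nat_lit 5) (nat_lit 436) (nat_lit 404) (nat_lit 300)) (XT.lf (nat_lit 0) (nat_lit 566478249) (nat_lit 988) (nat_lit 8356137737) (nat_lit 76) (nat_lit 859512597) (nat_lit 459) (nat_lit 5) (nat_lit 472) (nat_lit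 5) (nat_lit 460) (nat_lit 5) (nat_lit 437) (nat_lit 404) (nat_lit 299))))) (XT.nd (nat_lit 156) (nat_lit 1748) (nat_lit 0) (XT.nd (nat_lit 78) (nat_lit 912) (nat_lit 0) (XT.lf (nat_lit 0) (nat_lit 2381967288) (nat_lit 988) (nat_lit 2645575548) (nat_lit 76) (nat_lit 4847117869) (nat_lit 459) (nat_lit 5) (nat_lit 472) (nat_lit 5) (nat_lit 460) (nat_lit 5) (nat_lit 438) (nat_lit 404) (nat_lit 298)) (XT.lf (nat_lit 0) (nat_lit 3200145995) (nat_lit 912) (nat_lit 1032486801) (nat_lit 988) (nat_lit 5736433341) (nat_lit 447) (nat_lit 5) (nat_lit 459) (nat_lit 5) (nat_lit 460) (nat_lit 5) (nat_lit 439) (nat_lit 404) (nat_lit 297))) (XT.nd (nat_lit 78) (nat_lit 1748) (nat_lit 0) (XT.lf (nat_lit 0) (nat_lit 6136324130) (nat_lit 988) (nat_lit 907553644) (nat_lit 76) (nat_lit 3021161653) (nat_lit 447) (nat_lit 5) (nat_lit 460) (nat_lit 5) (nat_lit 448) (nat_lit 5) (nat_lit 440) (nat_lit 404) (nat_lit 296)) (XT.nd (nat_lit 78) (nat_lit 912) (nat_lit 0) (XT.lf (nat_lit 0) (nat_lit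 5110322214) (nat_lit 836) (nat_lit 2986596107) (nat_lit 912) (nat_lit 2065637280) (nat_lit 436) (nat_lit 5) (nat_lit 447) (nat_lit 5) (nat_lit 448) (nat_lit 5) (nat_lit 441) (nat_lit 404) (nat_lit 295)) (XT.lf (nat_lit 0) (nat_lit 983148143) (nat_lit 912) (nat_lit 9112661774) (nat_lit 988) (nat_lit 166230472) (nat_lit 424) (nat_lit 5) (nat_lit 436) (nat_lit 5) (nat_lit 437) (nat_lit 5) (nat_lit 442) (nat_lit 404) (nat_lit 294))))))) (XT.nd (nat_lit 702) (nat_lit 3648) (nat_lit 0) (XT.nd (nat_lit 312) (nat_lit 2356) (nat_lit 0) (XT.nd (nat_lit 156) (nat_lit 836) (nat_lit 0) (XT.nd (nat_lit 78) (nat_lit 836) (nat_lit 0) (XT.lf (nat_lit 0) (nat_lit 1781071755) (nat_lit 988) (nat_lit 3207939340) (nat_lit 76) (nat_lit 5373611057) (nat_lit 423) (nat_lit 5) (nat_lit 436) (nat_lit 5) (nat_lit 424) (nat_lit 5) (nat_lit 443) (nat_lit 404) (nat_lit 293)) (XT.lf (nat_lit 0) (nat_lit 3001797632) (nat_lit 836) (nat_lit 762425539) (nat_lit 912) (nat_lit 6700987825) (nat_lit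 412) (nat_lit 5) (nat_lit 423) (nat_lit 5) (nat_lit 424) (nat_lit 5) (nat_lit 444) (nat_lit 404) (nat_lit 292))) (XT.nd (nat_lit 78) (nat_lit 836) (nat_lit 0) (XT.lf (nat_lit 0) (nat_lit 5811644942) (nat_lit 912) (nat_lit 1234553650) (nat_lit 76) (nat_lit 3523160879) (nat_lit 412) (nat_lit 5) (nat_lit 424) (nat_lit 5) (nat_lit 413) (nat_lit 5) (nat_lit 445) (nat_lit 404) (nat_lit 291)) (XT.lf (nat_lit 0) (nat_lit 5160770124) (nat_lit 836) (nat_lit 2758092852) (nat_lit 912) (nat_lit 2756350982) (nat_lit 401) (nat_lit 5) (nat_lit 412) (nat_lit 5) (nat_lit 413) (nat_lit 5) (nat_lit 446) (nat_lit 404) (nat_lit 290)))) (XT.nd (nat_lit 156) (nat_lit 1520) (nat_lit 0) (XT.nd (nat_lit 78) (nat_lit 76) (nat_lit 0) (XT.lf (nat_lit 0) (nat_lit 897952999) (nat_lit 760) (nat_lit 9175469150) (nat_lit 836) (nat_lit 709659450) (nat_lit 391) (nat_lit 5) (nat_lit 401) (nat_lit 5) (nat_lit 402) (nat_lit 5) (nat_lit 447) (nat_lit 404) (nat_lit 289)) (XT.lf (nat_lit 0) (nat_lit 1396064623)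 (nat_lit 836) (nat_lit 3427588698) (nat_lit 76) (nat_lit 6068550918) (nat_lit 390) (nat_lit 5) (nat_lit 401) (nat_lit 5) (nat_lit 391) (nat_lit 5) (nat_lit 448) (nat_lit 404) (nat_lit 288))) (XT.nd (nat_lit 78) (nat_lit 760) (nat_lit 0) (XT.lf (nat_lit 0) (nat_lit 3175349054) (nat_lit 760) (nat_lit 360712022) (nat_lit 836) (nat_lit 7467321235) (nat_lit 380) (nat_lit 5) (nat_lit 390) (nat_lit 5) (nat_lit 391) (nat_lit 5) (nat_lit 449) (nat_lit 404) (nat_lit 287)) (XT.nd (nat_lit 78) (nat_lit 760) (nat_lit 0) (XT.lf (nat_lit 0) (nat_lit 5750485957) (nat_lit 836) (nat_lit 1207807674) (nat_lit 76) (nat_lit 4157857744) (nat_lit 380) (nat_lit 5) (nat_lit 391) (nat_lit 5) (nat_lit 381) (nat_lit 5) (nat_lit 450) (nat_lit 404) (nat_lit 286)) (XT.lf (nat_lit 0) (nat_lit 5595302356) (nat_lit 760) (nat_lit 2434242965) (nat_lit 836) (nat_lit 3201223580) (nat_lit 370) (nat_lit 5) (nat_lit 380) (nat_lit 5) (nat_lit 381) (nat_lit 5) (nat_lit 451) (nat_lit 404) (nat_lit 285))))))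 (XT.nd (nat_lit 390) (nat_lit 1444) (nat_lit 0) (XT.nd (nat_lit 156) (nat_lit 1368) (nat_lit 0) (XT.nd (nat_lit 78) (nat_lit 76) (nat_lit 0) (XT.lf (nat_lit 0) (nat_lit 1183919805) (nat_lit 760) (nat_lit 9182109577) (nat_lit 836) (nat_lit 981412525) (nat_lit 360) (nat_lit 5) (nat_lit 370) (nat_lit 5) (nat_lit 371) (nat_lit 5) (nat_lit 452) (nat_lit 404) (nat_lit 284)) (XT.lf (nat_lit 0) (nat_lit 1302104569) (nat_lit 836) (nat_lit 3295139516) (nat_lit 76) (nat_lit 6868315034) (nat_lit 359) (nat_lit 5) (nat_lit 370) (nat_lit 5) (nat_lit 360) (nat_lit 5) (nat_lit 453) (nat_lit 404) (nat_lit 283))) (XT.nd (nat_lit 78) (nat_lit 684) (nat_lit 0) (XT.lf (nat_lit 0) (nat_lit 3625398519) (nat_lit 760) (nat_lit 7853836393) (nat_lit 76) (nat_lit 106529068) (nat_lit 350) (nat_lit 5) (nat_lit 360) (nat_lit 5) (nat_lit 351) (nat_lit 5) (nat_lit 454) (nat_lit 404) (nat_lit 282)) (XT.nd (nat_lit 78) (nat_lit 684) (nat_lit 0) (XT.lf (nat_lit 0) (nat_lit 6030359069) (nat_lit 760)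 (nat_lit 814940197) (nat_lit 76) (nat_lit 4862369659) (nat_lit 350) (nat_lit 5) (nat_lit 360) (nat_lit 5) (nat_lit 351) (nat_lit 5) (nat_lit 455) (nat_lit 404) (nat_lit 281)) (XT.lf (nat_lit 0) (nat_lit 6428833290) (nat_lit 684) (nat_lit 2079165824) (nat_lit 760) (nat_lit 3323521248) (nat_lit 341) (nat_lit 5) (nat_lit 350) (nat_lit 5) (nat_lit 351) (nat_lit 5) (nat_lit 456) (nat_lit 404) (nat_lit 280))))) (XT.nd (nat_lit 156) (nat_lit 684) (nat_lit 0) (XT.nd (nat_lit 78) (nat_lit 76) (nat_lit 0) (XT.lf (nat_lit 0) (nat_lit 1856637263) (nat_lit 684) (nat_lit 9197204384) (nat_lit 760) (nat_lit 903634187) (nat_lit 332) (nat_lit 5) (nat_lit 341) (nat_lit 5) (nat_lit 342) (nat_lit 5) (nat_lit 457) (nat_lit 404) (nat_lit 279)) (XT.lf (nat_lit 0) (nat_lit 1577510179) (nat_lit 760) (nat_lit 2795502403) (nat_lit 76) (nat_lit 7712067055) (nat_lit 331) (nat_lit 5) (nat_lit 341) (nat_lit 5) (nat_lit 332) (nat_lit 5) (nat_lit 458) (nat_lit 404) (nat_lit 278))) (XT.nd (nat_lit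 78) (nat_lit 0) (nat_lit 0) (XT.lf (nat_lit 0) (nat_lit 4113869920) (nat_lit 760) (nat_lit 7527217291) (nat_lit 76) (nat_lit 573675001) (nat_lit 322) (nat_lit 5) (nat_lit 332) (nat_lit 5) (nat_lit 323) (nat_lit 5) (nat_lit 459) (nat_lit 404) (nat_lit 277)) (XT.nd (nat_lit 55068) (nat_lit 0) (nat_lit 24776) (XT.lf (nat_lit 0) (nat_lit 6732419363) (nat_lit 760) (nat_lit 37862541) (nat_lit 76) (nat_lit 5576127284) (nat_lit 322) (nat_lit 5) (nat_lit 332) (nat_lit 5) (nat_lit 323) (nat_lit 5) (nat_lit 460) (nat_lit 404) (nat_lit 276)) (XT.lf (nat_lit 0) (nat_lit 882197152) (nat_lit 0) (nat_lit 882197152) (nat_lit 1292) (nat_lit 2049980432) (nat_lit 648) (nat_lit 5) (nat_lit 648) (nat_lit 3) (nat_lit 665) (nat_lit 3) (nat_lit 405) (nat_lit 405) (nat_lit 330))))))))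
noncomputable def xc101 : XT := (XT.nd (nat_lit 1482) (nat_lit 13072) (nat_lit 0) (XT.nd (nat_lit 702) (nat_lit 1368) (nat_lit 0) (XT.nd (nat_lit 312) (nat_lit 1292) (nat_lit 0) (XT.nd (nat_lit 156) (nat_lit 1368) (nat_lit 0) (XT.nd (nat_lit 78) (nat_lit 0) (nat_lit 0) (XT.lf (nat_lit 0) (nat_lit 4961474999) (nat_lit 1292) (nat_lit 2045166189) (nat_lit 1368) (nat_lit 670447810) (nat_lit 648) (nat_lit 5) (nat_lit 665) (nat_lit 3) (nat_lit 666) (nat_lit 5) (nat_lit 406) (nat_lit 405) (nat_lit 329)) (XT.lf (nat_lit 76) (nat_lit 1843784737) (nat_lit 0) (nat_lit 4566266232) (nat_lit 1368) (nat_lit 1316599627) (nat_lit 649) (nat_lit 5) (nat_lit 648) (nat_lit 5) (nat_lit 666) (nat_lit 5) (nat_lit 407) (nat_lit 405) (nat_lit 328))) (XT.nd (nat_lit 78) (nat_lit 0) (nat_lit 76) (XT.lf (nat_lit 0) (nat_lit 86695783) (nat_lit 1368) (nat_lit 1958971337) (nat_lit 1444) (nat_lit 5731967000) (nat_lit 630) (nat_lit 5) (nat_lit 648) (nat_lit 5) (nat_lit 649) (nat_lit 5) (nat_lit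 408) (nat_lit 405) (nat_lit 327)) (XT.lf (nat_lit 0) (nat_lit 1482007609) (nat_lit 1368) (nat_lit 5791189338) (nat_lit 1444) (nat_lit 556634714) (nat_lit 631) (nat_lit 5) (nat_lit 649) (nat_lit 5) (nat_lit 650) (nat_lit 5) (nat_lit 409) (nat_lit 405) (nat_lit 326)))) (XT.nd (nat_lit 156) (nat_lit 1368) (nat_lit 0) (XT.nd (nat_lit 78) (nat_lit 0) (nat_lit 0) (XT.lf (nat_lit 0) (nat_lit 2897319609) (nat_lit 1368) (nat_lit 1773445448) (nat_lit 1444) (nat_lit 3212466221) (nat_lit 631) (nat_lit 5) (nat_lit 649) (nat_lit 5) (nat_lit 650) (nat_lit 5) (nat_lit 410) (nat_lit 405) (nat_lit 325)) (XT.lf (nat_lit 76) (nat_lit 2335913446) (nat_lit 0) (nat_lit 1986184510) (nat_lit 1444) (nat_lit 3615977728) (nat_lit 632) (nat_lit 5) (nat_lit 631) (nat_lit 5) (nat_lit 650) (nat_lit 5) (nat_lit 411) (nat_lit 405) (nat_lit 324))) (XT.nd (nat_lit 78) (nat_lit 1444) (nat_lit 0) (XT.lf (nat_lit 0) (nat_lit 5758862411) (nat_lit 1368) (nat_lit 1467251703) (nat_lit 1444) (nat_lit 768233051)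 (nat_lit 632) (nat_lit 5) (nat_lit 650) (nat_lit 5) (nat_lit 651) (nat_lit 5) (nat_lit 412) (nat_lit 405) (nat_lit 323)) (XT.nd (nat_lit 78) (nat_lit 1444) (nat_lit 0) (XT.lf (nat_lit 76) (nat_lit 2753701225) (nat_lit 0) (nat_lit 4468975604) (nat_lit 1444) (nat_lit 829100957) (nat_lit 633) (nat_lit 5) (nat_lit 632) (nat_lit 5) (nat_lit 651) (nat_lit 5) (nat_lit 413) (nat_lit 405) (nat_lit 322)) (XT.lf (nat_lit 0) (nat_lit 574965693) (nat_lit 1444) (nat_lit 1055113124) (nat_lit 1520) (nat_lit 6480649681) (nat_lit 613) (nat_lit 5) (nat_lit 632) (nat_lit 5) (nat_lit 633) (nat_lit 5) (nat_lit 414) (nat_lit 405) (nat_lit 321)))))) (XT.nd (nat_lit 390) (nat_lit 1444) (nat_lit 0) (XT.nd (nat_lit 156) (nat_lit 0) (nat_lit 0) (XT.nd (nat_lit 78) (nat_lit 0) (nat_lit 0) (XT.lf (nat_lit 0) (nat_lit 1994082885) (nat_lit 1444) (nat_lit 4888580964) (nat_lit 1520) (nat_lit 1288123350) (nat_lit 614) (nat_lit 5) (nat_lit 633) (nat_lit 5) (nat_lit 634) (nat_lit 5) (nat_lit 415)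 (nat_lit 405) (nat_lit 320)) (XT.lf (nat_lit 0) (nat_lit 3428298851) (nat_lit 1444) (nat_lit 542276318) (nat_lit 1520) (nat_lit 4261737578) (nat_lit 614) (nat_lit 5) (nat_lit 633) (nat_lit 5) (nat_lit 634) (nat_lit 5) (nat_lit 416) (nat_lit 405) (nat_lit 319))) (XT.nd (nat_lit 78) (nat_lit 0) (nat_lit 76) (XT.lf (nat_lit 76) (nat_lit 3922692360) (nat_lit 0) (nat_lit 963381333) (nat_lit 1520) (nat_lit 3409097621) (nat_lit 615) (nat_lit 5) (nat_lit 614) (nat_lit 5) (nat_lit 634) (nat_lit 5) (nat_lit 417) (nat_lit 405) (nat_lit 318)) (XT.nd (nat_lit 78) (nat_lit 0) (nat_lit 0) (XT.lf (nat_lit 76) (nat_lit 92373868) (nat_lit 0) (nat_lit 6268500301) (nat_lit 1520) (nat_lit 1998655480) (nat_lit 616) (nat_lit 5) (nat_lit 615) (nat_lit 5) (nat_lit 635) (nat_lit 5) (nat_lit 418) (nat_lit 405) (nat_lit 317)) (XT.lf (nat_lit 76) (nat_lit 4679212190) (nat_lit 0) (nat_lit 3192043844) (nat_lit 1520) (nat_lit 553797410) (nat_lit 616) (nat_lit 5) (nat_lit 615) (nat_lit 5) (nat_lit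 635) (nat_lit 5) (nat_lit 419) (nat_lit 405) (nat_lit 316))))) (XT.nd (nat_lit 156) (nat_lit 0) (nat_lit 76) (XT.nd (nat_lit 78) (nat_lit 0) (nat_lit 76) (XT.lf (nat_lit 76) (nat_lit 850976749) (nat_lit 0) (nat_lit 33234607) (nat_lit 1596) (nat_lit 7608030520) (nat_lit 596) (nat_lit 5) (nat_lit 595) (nat_lit 5) (nat_lit 616) (nat_lit 5) (nat_lit 420) (nat_lit 405) (nat_lit 315)) (XT.lf (nat_lit 0) (nat_lit 2360872241) (nat_lit 1520) (nat_lit 3014912399) (nat_lit 1596) (nat_lit 3184570079) (nat_lit 596) (nat_lit 5) (nat_lit 616) (nat_lit 5) (nat_lit 617) (nat_lit 5) (nat_lit 421) (nat_lit 405) (nat_lit 314))) (XT.nd (nat_lit 78) (nat_lit 0) (nat_lit 76) (XT.lf (nat_lit 76) (nat_lit 1705914241) (nat_lit 0) (nat_lit 2144304830) (nat_lit 1596) (nat_lit 4779947693) (nat_lit 597) (nat_lit 5) (nat_lit 596) (nat_lit 5) (nat_lit 617) (nat_lit 5) (nat_lit 422) (nat_lit 405) (nat_lit 313)) (XT.nd (nat_lit 78) (nat_lit 0) (nat_lit 0) (XT.lf (nat_lit 0) (nat_lit 5369524612)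 (nat_lit 1520) (nat_lit 2167234910) (nat_lit 1596) (nat_lit 1164612093) (nat_lit 597) (nat_lit 5) (nat_lit 617) (nat_lit 5) (nat_lit 618) (nat_lit 5) (nat_lit 423) (nat_lit 405) (nat_lit 312)) (XT.lf (nat_lit 76) (nat_lit 2685673317) (nat_lit 0) (nat_lit 4238051265) (nat_lit 1596) (nat_lit 1850185814) (nat_lit 598) (nat_lit 5) (nat_lit 597) (nat_lit 5) (nat_lit 618) (nat_lit 5) (nat_lit 424) (nat_lit 405) (nat_lit 311))))))) (XT.nd (nat_lit 702) (nat_lit 6688) (nat_lit 0) (XT.nd (nat_lit 312) (nat_lit 5016) (nat_lit 0) (XT.nd (nat_lit 156) (nat_lit 0) (nat_lit 0) (XT.nd (nat_lit 78) (nat_lit 1520) (nat_lit 0) (XT.lf (nat_lit 76) (nat_lit 7644878387) (nat_lit 0) (nat_lit 851945101) (nat_lit 1596) (nat_lit 351320166) (nat_lit 598) (nat_lit 5) (nat_lit 597) (nat_lit 5) (nat_lit 618) (nat_lit 5) (nat_lit 425) (nat_lit 405) (nat_lit 310)) (XT.lf (nat_lit 0) (nat_lit 1177531618) (nat_lit 1596) (nat_lit 5139366665) (nat_lit 1672) (nat_lit 2606501344) (nat_lit 577) (nat_lit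 5) (nat_lit 598) (nat_lit 5) (nat_lit 599) (nat_lit 5) (nat_lit 426) (nat_lit 405) (nat_lit 309))) (XT.nd (nat_lit 78) (nat_lit 0) (nat_lit 76) (XT.lf (nat_lit 0) (nat_lit 2720079635) (nat_lit 1596) (nat_lit 141154784) (nat_lit 1672) (nat_lit 6139123389) (nat_lit 577) (nat_lit 5) (nat_lit 598) (nat_lit 5) (nat_lit 599) (nat_lit 5) (nat_lit 427) (nat_lit 405) (nat_lit 308)) (XT.lf (nat_lit 0) (nat_lit 4305073837) (nat_lit 1596) (nat_lit 4080760853) (nat_lit 76) (nat_lit 692788559) (nat_lit 578) (nat_lit 5) (nat_lit 599) (nat_lit 5) (nat_lit 579) (nat_lit 5) (nat_lit 428) (nat_lit 405) (nat_lit 307)))) (XT.nd (nat_lit 156) (nat_lit 3496) (nat_lit 0) (XT.nd (nat_lit 78) (nat_lit 0) (nat_lit 0) (XT.lf (nat_lit 0) (nat_lit 1057532213) (nat_lit 1596) (nat_lit 4865963889) (nat_lit 1672) (nat_lit 3234923332) (nat_lit 557) (nat_lit 5) (nat_lit 578) (nat_lit 5) (nat_lit 579) (nat_lit 5) (nat_lit 429) (nat_lit 405) (nat_lit 306)) (XT.lf (nat_lit 0) (nat_lit 6333521008)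 (nat_lit 1596) (nat_lit 1243468390) (nat_lit 1672) (nat_lit 1662768092) (nat_lit 557) (nat_lit 5) (nat_lit 578) (nat_lit 5) (nat_lit 579) (nat_lit 5) (nat_lit 430) (nat_lit 405) (nat_lit 305))) (XT.nd (nat_lit 78) (nat_lit 1824) (nat_lit 0) (XT.lf (nat_lit 0) (nat_lit 2387201747) (nat_lit 1672) (nat_lit 6883596553) (nat_lit 1748) (nat_lit 51779094) (nat_lit 535) (nat_lit 5) (nat_lit 557) (nat_lit 5) (nat_lit 558) (nat_lit 5) (nat_lit 431) (nat_lit 405) (nat_lit 304)) (XT.nd (nat_lit 78) (nat_lit 1748) (nat_lit 0) (XT.lf (nat_lit 0) (nat_lit 1574437958) (nat_lit 1748) (nat_lit 1620138169) (nat_lit 76) (nat_lit 6212193313) (nat_lit 534) (nat_lit 5) (nat_lit 557) (nat_lit 5) (nat_lit 535) (nat_lit 5) (nat_lit 432) (nat_lit 405) (nat_lit 303)) (XT.lf (nat_lit 0) (nat_lit 3237721648) (nat_lit 1824) (nat_lit 5665458728) (nat_lit 76) (nat_lit 589353393) (nat_lit 511) (nat_lit 5) (nat_lit 535) (nat_lit 5) (nat_lit 512) (nat_lit 5) (nat_lit 433) (nat_lit 405) (nat_lit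 302)))))) (XT.nd (nat_lit 390) (nat_lit 2736) (nat_lit 0) (XT.nd (nat_lit 156) (nat_lit 2128) (nat_lit 0) (XT.nd (nat_lit 78) (nat_lit 1824) (nat_lit 0) (XT.lf (nat_lit 0) (nat_lit 4943205260) (nat_lit 1824) (nat_lit 216456122) (nat_lit 76) (nat_lit 4420173318) (nat_lit 511) (nat_lit 5) (nat_lit 535) (nat_lit 5) (nat_lit 512) (nat_lit 5) (nat_lit 434) (nat_lit 405) (nat_lit 301)) (XT.lf (nat_lit 0) (nat_lit 5392022349) (nat_lit 1824) (nat_lit 1303073149) (nat_lit 1900) (nat_lit 2973540213) (nat_lit 487) (nat_lit 5) (nat_lit 511) (nat_lit 5) (nat_lit 512) (nat_lit 5) (nat_lit 435) (nat_lit 405) (nat_lit 300))) (XT.nd (nat_lit 78) (nat_lit 988) (nat_lit 0) (XT.lf (nat_lit 0) (nat_lit 1336305770) (nat_lit 1140) (nat_lit 7150554265) (nat_lit 1216) (nat_lit 1272255977) (nat_lit 472) (nat_lit 5) (nat_lit 487) (nat_lit 5) (nat_lit 488) (nat_lit 5) (nat_lit 436) (nat_lit 405) (nat_lit 299)) (XT.nd (nat_lit 78) (nat_lit 912) (nat_lit 0) (XT.lf (nat_lit 0) (nat_lit 472277272)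 (nat_lit 1216) (nat_lit 2763915700) (nat_lit 76) (nat_lit 6614846890) (nat_lit 471) (nat_lit 5) (nat_lit 487) (nat_lit 5) (nat_lit 472) (nat_lit 5) (nat_lit 437) (nat_lit 405) (nat_lit 298)) (XT.lf (nat_lit 0) (nat_lit 2237603800) (nat_lit 988) (nat_lit 6930763218) (nat_lit 76) (nat_lit 776208216) (nat_lit 459) (nat_lit 5) (nat_lit 472) (nat_lit 5) (nat_lit 460) (nat_lit 5) (nat_lit 438) (nat_lit 405) (nat_lit 297))))) (XT.nd (nat_lit 156) (nat_lit 1824) (nat_lit 0) (XT.nd (nat_lit 78) (nat_lit 912) (nat_lit 0) (XT.lf (nat_lit 0) (nat_lit 4056857601) (nat_lit 988) (nat_lit 1137215222) (nat_lit 76) (nat_lit 4845536077) (nat_lit 459) (nat_lit 5) (nat_lit 472) (nat_lit 5) (nat_lit 460) (nat_lit 5) (nat_lit 439) (nat_lit 405) (nat_lit 296)) (XT.lf (nat_lit 0) (nat_lit 4815149227) (nat_lit 912) (nat_lit 1107550433) (nat_lit 988) (nat_lit 4213639515) (nat_lit 447) (nat_lit 5) (nat_lit 459) (nat_lit 5) (nat_lit 460) (nat_lit 5) (nat_lit 440) (nat_lit 405) (nat_lit 295)))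 (XT.nd (nat_lit 78) (nat_lit 988) (nat_lit 0) (XT.lf (nat_lit 0) (nat_lit 635037529) (nat_lit 836) (nat_lit 7201725302) (nat_lit 912) (nat_lit 2398023139) (nat_lit 436) (nat_lit 5) (nat_lit 447) (nat_lit 5) (nat_lit 448) (nat_lit 5) (nat_lit 441) (nat_lit 405) (nat_lit 294)) (XT.nd (nat_lit 78) (nat_lit 988) (nat_lit 0) (XT.lf (nat_lit 0) (nat_lit 6754729026) (nat_lit 836) (nat_lit 3056875095) (nat_lit 912) (nat_lit 523147643) (nat_lit 436) (nat_lit 5) (nat_lit 447) (nat_lit 5) (nat_lit 448) (nat_lit 5) (nat_lit 442) (nat_lit 405) (nat_lit 293)) (XT.lf (nat_lit 0) (nat_lit 1375199016) (nat_lit 988) (nat_lit 7879896830) (nat_lit 76) (nat_lit 1181356761) (nat_lit 423) (nat_lit 5) (nat_lit 436) (nat_lit 5) (nat_lit 424) (nat_lit 5) (nat_lit 443) (nat_lit 405) (nat_lit 292))))))))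
noncomputable def xc102 : XT := (XT.nd (nat_lit 56628) (nat_lit 0) (nat_lit 18620) (XT.nd (nat_lit 702) (nat_lit 2964) (nat_lit 0) (XT.nd (nat_lit 312) (nat_lit 2356) (nat_lit 0) (XT.nd (nat_lit 156) (nat_lit 836) (nat_lit 0) (XT.nd (nat_lit 78) (nat_lit 836) (nat_lit 0) (XT.lf (nat_lit 0) (nat_lit 3328977850) (nat_lit 988) (nat_lit 1719674208) (nat_lit 76) (nat_lit 5490976844) (nat_lit 423) (nat_lit 5) (nat_lit 436) (nat_lit 5) (nat_lit 424) (nat_lit 5) (nat_lit 444) (nat_lit 405) (nat_lit 291)) (XT.lf (nat_lit 0) (nat_lit 4604044188) (nat_lit 836) (nat_lit 728108520) (nat_lit 912) (nat_lit 5312509606) (nat_lit 412) (nat_lit 5) (nat_lit 423) (nat_lit 5) (nat_lit 424) (nat_lit 5) (nat_lit 445) (nat_lit 405) (nat_lit 290))) (XT.nd (nat_lit 78) (nat_lit 0) (nat_lit 0) (XT.lf (nat_lit 0) (nat_lit 285421863) (nat_lit 836) (nat_lit 7108002150) (nat_lit 912) (nat_lit 3358011723) (nat_lit 401) (nat_lit 5) (nat_lit 412) (nat_lit 5) (nat_lit 413) (nat_lit 5) (nat_lit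 446) (nat_lit 405) (nat_lit 289)) (XT.lf (nat_lit 0) (nat_lit 6794771101) (nat_lit 836) (nat_lit 2727401171) (nat_lit 912) (nat_lit 1337647323) (nat_lit 401) (nat_lit 5) (nat_lit 412) (nat_lit 5) (nat_lit 413) (nat_lit 5) (nat_lit 447) (nat_lit 405) (nat_lit 288)))) (XT.nd (nat_lit 156) (nat_lit 1520) (nat_lit 0) (XT.nd (nat_lit 78) (nat_lit 0) (nat_lit 0) (XT.lf (nat_lit 0) (nat_lit 722295304) (nat_lit 836) (nat_lit 8510169675) (nat_lit 76) (nat_lit 1737639157) (nat_lit 390) (nat_lit 5) (nat_lit 401) (nat_lit 5) (nat_lit 391) (nat_lit 5) (nat_lit 448) (nat_lit 405) (nat_lit 287)) (XT.lf (nat_lit 0) (nat_lit 2832470706) (nat_lit 836) (nat_lit 1958923054) (nat_lit 76) (nat_lit 6290484868) (nat_lit 390) (nat_lit 5) (nat_lit 401) (nat_lit 5) (nat_lit 391) (nat_lit 5) (nat_lit 449) (nat_lit 405) (nat_lit 286))) (XT.nd (nat_lit 78) (nat_lit 760) (nat_lit 0) (XT.lf (nat_lit 0) (nat_lit 4765960181) (nat_lit 760) (nat_lit 231604532) (nat_lit 836) (nat_lit 6198069597)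 (nat_lit 380) (nat_lit 5) (nat_lit 390) (nat_lit 5) (nat_lit 391) (nat_lit 5) (nat_lit 450) (nat_lit 405) (nat_lit 285)) (XT.nd (nat_lit 78) (nat_lit 0) (nat_lit 0) (XT.lf (nat_lit 0) (nat_lit 295474811) (nat_lit 760) (nat_lit 6936319191) (nat_lit 836) (nat_lit 4079354435) (nat_lit 370) (nat_lit 5) (nat_lit 380) (nat_lit 5) (nat_lit 381) (nat_lit 5) (nat_lit 451) (nat_lit 405) (nat_lit 284)) (XT.lf (nat_lit 0) (nat_lit 7220748394) (nat_lit 760) (nat_lit 2316842100) (nat_lit 836) (nat_lit 1890844700) (nat_lit 370) (nat_lit 5) (nat_lit 380) (nat_lit 5) (nat_lit 381) (nat_lit 5) (nat_lit 452) (nat_lit 405) (nat_lit 283)))))) (XT.nd (nat_lit 390) (nat_lit 760) (nat_lit 0) (XT.nd (nat_lit 156) (nat_lit 1368) (nat_lit 0) (XT.nd (nat_lit 78) (nat_lit 0) (nat_lit 0) (XT.lf (nat_lit 0) (nat_lit 352929286) (nat_lit 836) (nat_lit 8813191014) (nat_lit 76) (nat_lit 2381583608) (nat_lit 359) (nat_lit 5) (nat_lit 370) (nat_lit 5) (nat_lit 360) (nat_lit 5) (nat_lit 453) (nat_lit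 405) (nat_lit 282)) (XT.lf (nat_lit 0) (nat_lit 2642696889) (nat_lit 836) (nat_lit 1844275533) (nat_lit 76) (nat_lit 7181606876) (nat_lit 359) (nat_lit 5) (nat_lit 370) (nat_lit 5) (nat_lit 360) (nat_lit 5) (nat_lit 454) (nat_lit 405) (nat_lit 281))) (XT.nd (nat_lit 78) (nat_lit 684) (nat_lit 0) (XT.lf (nat_lit 0) (nat_lit 4997816260) (nat_lit 760) (nat_lit 6479505889) (nat_lit 76) (nat_lit 314158916) (nat_lit 350) (nat_lit 5) (nat_lit 360) (nat_lit 5) (nat_lit 351) (nat_lit 5) (nat_lit 455) (nat_lit 405) (nat_lit 280)) (XT.nd (nat_lit 78) (nat_lit 0) (nat_lit 0) (XT.lf (nat_lit 0) (nat_lit 679046454) (nat_lit 684) (nat_lit 6750749959) (nat_lit 760) (nat_lit 4486449287) (nat_lit 341) (nat_lit 5) (nat_lit 350) (nat_lit 5) (nat_lit 351) (nat_lit 5) (nat_lit 456) (nat_lit 405) (nat_lit 279)) (XT.lf (nat_lit 0) (nat_lit 8048912098) (nat_lit 684) (nat_lit 1888363509) (nat_lit 760) (nat_lit 2105692832) (nat_lit 341) (nat_lit 5) (nat_lit 350) (nat_lit 5) (nat_lit 351)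 (nat_lit 5) (nat_lit 457) (nat_lit 405) (nat_lit 278))))) (XT.nd (nat_lit 55302) (nat_lit 0) (nat_lit 22724) (XT.nd (nat_lit 78) (nat_lit 0) (nat_lit 0) (XT.lf (nat_lit 0) (nat_lit 344310989) (nat_lit 760) (nat_lit 8774999538) (nat_lit 76) (nat_lit 3052355920) (nat_lit 331) (nat_lit 5) (nat_lit 341) (nat_lit 5) (nat_lit 332) (nat_lit 5) (nat_lit 458) (nat_lit 405) (nat_lit 277)) (XT.lf (nat_lit 0) (nat_lit 2838403039) (nat_lit 760) (nat_lit 1359381596) (nat_lit 76) (nat_lit 8104409741) (nat_lit 331) (nat_lit 5) (nat_lit 341) (nat_lit 5) (nat_lit 332) (nat_lit 5) (nat_lit 459) (nat_lit 405) (nat_lit 276))) (XT.nd (nat_lit 78) (nat_lit 1368) (nat_lit 0) (XT.lf (nat_lit 0) (nat_lit 1591812826) (nat_lit 0) (nat_lit 1591812826) (nat_lit 1292) (nat_lit 679357708) (nat_lit 648) (nat_lit 5) (nat_lit 648) (nat_lit 3) (nat_lit 665) (nat_lit 3) (nat_lit 406) (nat_lit 406) (nat_lit 328)) (XT.nd (nat_lit 78) (nat_lit 1368) (nat_lit 0) (XT.lf (nat_lit 0) (nat_lit 7105957621)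 (nat_lit 0) (nat_lit 663862453) (nat_lit 1292) (nat_lit 6628393) (nat_lit 648) (nat_lit 5) (nat_lit 648) (nat_lit 3) (nat_lit 665) (nat_lit 3) (nat_lit 407) (nat_lit 406) (nat_lit 327)) (XT.lf (nat_lit 0) (nat_lit 1353231361) (nat_lit 1368) (nat_lit 4545659924) (nat_lit 1444) (nat_lit 1928895703) (nat_lit 630) (nat_lit 5) (nat_lit 648) (nat_lit 5) (nat_lit 649) (nat_lit 5) (nat_lit 408) (nat_lit 406) (nat_lit 326))))))) (XT.nd (nat_lit 702) (nat_lit 2736) (nat_lit 0) (XT.nd (nat_lit 312) (nat_lit 1368) (nat_lit 0) (XT.nd (nat_lit 156) (nat_lit 0) (nat_lit 76) (XT.nd (nat_lit 78) (nat_lit 0) (nat_lit 0) (XT.lf (nat_lit 0) (nat_lit 2714459298) (nat_lit 1368) (nat_lit 580362479) (nat_lit 1444) (nat_lit 4585844432) (nat_lit 630) (nat_lit 5) (nat_lit 648) (nat_lit 5) (nat_lit 649) (nat_lit 5) (nat_lit 409) (nat_lit 406) (nat_lit 325)) (XT.lf (nat_lit 76) (nat_lit 3491685919) (nat_lit 0) (nat_lit 599910015) (nat_lit 1444) (nat_lit 3843233398) (nat_lit 631) (nat_lit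 5) (nat_lit 630) (nat_lit 5) (nat_lit 649) (nat_lit 5) (nat_lit 410) (nat_lit 406) (nat_lit 324))) (XT.nd (nat_lit 78) (nat_lit 0) (nat_lit 0) (XT.lf (nat_lit 0) (nat_lit 5480808313) (nat_lit 1368) (nat_lit 369929332) (nat_lit 1444) (nat_lit 2139647411) (nat_lit 631) (nat_lit 5) (nat_lit 649) (nat_lit 5) (nat_lit 650) (nat_lit 5) (nat_lit 411) (nat_lit 406) (nat_lit 323)) (XT.lf (nat_lit 76) (nat_lit 3812149733) (nat_lit 0) (nat_lit 3081693436) (nat_lit 1444) (nat_lit 1153287963) (nat_lit 632) (nat_lit 5) (nat_lit 631) (nat_lit 5) (nat_lit 650) (nat_lit 5) (nat_lit 412) (nat_lit 406) (nat_lit 322)))) (XT.nd (nat_lit 156) (nat_lit 0) (nat_lit 76) (XT.nd (nat_lit 78) (nat_lit 0) (nat_lit 76) (XT.lf (nat_lit 0) (nat_lit 197229375) (nat_lit 1444) (nat_lit 42519362) (nat_lit 1520) (nat_lit 7865831090) (nat_lit 612) (nat_lit 5) (nat_lit 631) (nat_lit 5) (nat_lit 632) (nat_lit 5) (nat_lit 413) (nat_lit 406) (nat_lit 321)) (XT.lf (nat_lit 0) (nat_lit 1572851161) (nat_lit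 1444) (nat_lit 3919198703) (nat_lit 1520) (nat_lit 2672724435) (nat_lit 613) (nat_lit 5) (nat_lit 632) (nat_lit 5) (nat_lit 633) (nat_lit 5) (nat_lit 414) (nat_lit 406) (nat_lit 320))) (XT.nd (nat_lit 78) (nat_lit 0) (nat_lit 76) (XT.lf (nat_lit 76) (nat_lit 379098374) (nat_lit 0) (nat_lit 2570066082) (nat_lit 1520) (nat_lit 5276524623) (nat_lit 614) (nat_lit 5) (nat_lit 613) (nat_lit 5) (nat_lit 633) (nat_lit 5) (nat_lit 415) (nat_lit 406) (nat_lit 319)) (XT.nd (nat_lit 78) (nat_lit 0) (nat_lit 0) (XT.lf (nat_lit 0) (nat_lit 4351548222) (nat_lit 1444) (nat_lit 3493356355) (nat_lit 1520) (nat_lit 442946692) (nat_lit 614) (nat_lit 5) (nat_lit 633) (nat_lit 5) (nat_lit 634) (nat_lit 5) (nat_lit 416) (nat_lit 406) (nat_lit 318)) (XT.lf (nat_lit 76) (nat_lit 922701342) (nat_lit 0) (nat_lit 4852295137) (nat_lit 1520) (nat_lit 2576399889) (nat_lit 615) (nat_lit 5) (nat_lit 614) (nat_lit 5) (nat_lit 634) (nat_lit 5) (nat_lit 417) (nat_lit 406) (nat_lit 317)))))) (XT.nd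 (nat_lit 390) (nat_lit 1444) (nat_lit 0) (XT.nd (nat_lit 156) (nat_lit 0) (nat_lit 0) (XT.nd (nat_lit 78) (nat_lit 1444) (nat_lit 0) (XT.lf (nat_lit 76) (nat_lit 5455238251) (nat_lit 0) (nat_lit 1765586926) (nat_lit 1520) (nat_lit 1195508962) (nat_lit 615) (nat_lit 5) (nat_lit 614) (nat_lit 5) (nat_lit 634) (nat_lit 5) (nat_lit 418) (nat_lit 406) (nat_lit 316)) (XT.lf (nat_lit 0) (nat_lit 200547087) (nat_lit 1520) (nat_lit 6895838810) (nat_lit 1596) (nat_lit 1386350294) (nat_lit 595) (nat_lit 5) (nat_lit 615) (nat_lit 5) (nat_lit 616) (nat_lit 5) (nat_lit 419) (nat_lit 406) (nat_lit 315))) (XT.nd (nat_lit 78) (nat_lit 0) (nat_lit 0) (XT.lf (nat_lit 0) (nat_lit 1611592603) (nat_lit 1520) (nat_lit 2323537646) (nat_lit 1596) (nat_lit 4615116464) (nat_lit 595) (nat_lit 5) (nat_lit 615) (nat_lit 5) (nat_lit 616) (nat_lit 5) (nat_lit 420) (nat_lit 406) (nat_lit 314)) (XT.nd (nat_lit 78) (nat_lit 0) (nat_lit 76) (XT.lf (nat_lit 76) (nat_lit 2351723179) (nat_lit 0) (nat_lit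 686332749) (nat_lit 1596) (nat_lit 5581307578) (nat_lit 596) (nat_lit 5) (nat_lit 595) (nat_lit 5) (nat_lit 616) (nat_lit 5) (nat_lit 421) (nat_lit 406) (nat_lit 313)) (XT.lf (nat_lit 0) (nat_lit 4498211563) (nat_lit 1520) (nat_lit 1574537968) (nat_lit 1596) (nat_lit 2617009845) (nat_lit 596) (nat_lit 5) (nat_lit 616) (nat_lit 5) (nat_lit 617) (nat_lit 5) (nat_lit 422) (nat_lit 406) (nat_lit 312))))) (XT.nd (nat_lit 156) (nat_lit 1520) (nat_lit 0) (XT.nd (nat_lit 78) (nat_lit 0) (nat_lit 76) (XT.lf (nat_lit 76) (nat_lit 3230832358) (nat_lit 0) (nat_lit 2755209450) (nat_lit 1596) (nat_lit 2775551923) (nat_lit 597) (nat_lit 5) (nat_lit 596) (nat_lit 5) (nat_lit 617) (nat_lit 5) (nat_lit 423) (nat_lit 406) (nat_lit 311)) (XT.lf (nat_lit 0) (nat_lit 7491748833) (nat_lit 1520) (nat_lit 705026517) (nat_lit 1596) (nat_lit 638327022) (nat_lit 597) (nat_lit 5) (nat_lit 617) (nat_lit 5) (nat_lit 618) (nat_lit 5) (nat_lit 424) (nat_lit 406) (nat_lit 310))) (XT.nd (nat_lit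 78) (nat_lit 0) (nat_lit 0) (XT.lf (nat_lit 0) (nat_lit 135745170) (nat_lit 1596) (nat_lit 4675545987) (nat_lit 1672) (nat_lit 4098378828) (nat_lit 576) (nat_lit 5) (nat_lit 597) (nat_lit 5) (nat_lit 598) (nat_lit 5) (nat_lit 425) (nat_lit 406) (nat_lit 309)) (XT.nd (nat_lit 78) (nat_lit 0) (nat_lit 76) (XT.lf (nat_lit 76) (nat_lit 270904847) (nat_lit 0) (nat_lit 1336211051) (nat_lit 1672) (nat_lit 7378821908) (nat_lit 577) (nat_lit 5) (nat_lit 576) (nat_lit 5) (nat_lit 598) (nat_lit 5) (nat_lit 426) (nat_lit 406) (nat_lit 308)) (XT.lf (nat_lit 0) (nat_lit 3128393190) (nat_lit 1596) (nat_lit 3718105311) (nat_lit 1672) (nat_lit 2216822900) (nat_lit 577) (nat_lit 5) (nat_lit 598) (nat_lit 5) (nat_lit 599) (nat_lit 5) (nat_lit 427) (nat_lit 406) (nat_lit 307))))))))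
noncomputable def xc103 : XT := (XT.nd (nat_lit 1482) (nat_lit 6156) (nat_lit 0) (XT.nd (nat_lit 702) (nat_lit 5700) (nat_lit 0) (XT.nd (nat_lit 312) (nat_lit 5244) (nat_lit 0) (XT.nd (nat_lit 156) (nat_lit 1596) (nat_lit 0) (XT.nd (nat_lit 78) (nat_lit 0) (nat_lit 76) (XT.lf (nat_lit 76) (nat_lit 1368130780) (nat_lit 0) (nat_lit 3304753789) (nat_lit 1672) (nat_lit 4469512329) (nat_lit 578) (nat_lit 5) (nat_lit 577) (nat_lit 5) (nat_lit 599) (nat_lit 5) (nat_lit 428) (nat_lit 406) (nat_lit 306)) (XT.lf (nat_lit 0) (nat_lit 6250830957) (nat_lit 1596) (nat_lit 2638345804) (nat_lit 76) (nat_lit 333825839) (nat_lit 578) (nat_lit 5) (nat_lit 599) (nat_lit 5) (nat_lit 579) (nat_lit 5) (nat_lit 429) (nat_lit 406) (nat_lit 305))) (XT.nd (nat_lit 78) (nat_lit 76) (nat_lit 0) (XT.lf (nat_lit 0) (nat_lit 2592686607) (nat_lit 1596) (nat_lit 5282301140) (nat_lit 1672) (nat_lit 1429939641) (nat_lit 557) (nat_lit 5) (nat_lit 578) (nat_lit 5) (nat_lit 579) (nat_lit 5) (nat_lit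 430) (nat_lit 406) (nat_lit 304)) (XT.lf (nat_lit 0) (nat_lit 135201512) (nat_lit 1672) (nat_lit 1444991691) (nat_lit 76) (nat_lit 7808400045) (nat_lit 556) (nat_lit 5) (nat_lit 578) (nat_lit 5) (nat_lit 557) (nat_lit 5) (nat_lit 431) (nat_lit 406) (nat_lit 303)))) (XT.nd (nat_lit 156) (nat_lit 3572) (nat_lit 0) (XT.nd (nat_lit 78) (nat_lit 0) (nat_lit 0) (XT.lf (nat_lit 0) (nat_lit 1729268773) (nat_lit 1748) (nat_lit 5537791903) (nat_lit 76) (nat_lit 2206347309) (nat_lit 534) (nat_lit 5) (nat_lit 557) (nat_lit 5) (nat_lit 535) (nat_lit 5) (nat_lit 432) (nat_lit 406) (nat_lit 302)) (XT.lf (nat_lit 0) (nat_lit 3352388262) (nat_lit 1748) (nat_lit 146709217) (nat_lit 76) (nat_lit 6060878119) (nat_lit 534) (nat_lit 5) (nat_lit 557) (nat_lit 5) (nat_lit 535) (nat_lit 5) (nat_lit 433) (nat_lit 406) (nat_lit 301))) (XT.nd (nat_lit 78) (nat_lit 1824) (nat_lit 0) (XT.lf (nat_lit 0) (nat_lit 5022938446) (nat_lit 1824) (nat_lit 4246937007) (nat_lit 76) (nat_lit 378099745)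 (nat_lit 511) (nat_lit 5) (nat_lit 535) (nat_lit 5) (nat_lit 512) (nat_lit 5) (nat_lit 434) (nat_lit 406) (nat_lit 300)) (XT.nd (nat_lit 78) (nat_lit 0) (nat_lit 0) (XT.lf (nat_lit 0) (nat_lit 1298033696) (nat_lit 1824) (nat_lit 5439191174) (nat_lit 1900) (nat_lit 3000303414) (nat_lit 487) (nat_lit 5) (nat_lit 511) (nat_lit 5) (nat_lit 512) (nat_lit 5) (nat_lit 435) (nat_lit 406) (nat_lit 299)) (XT.lf (nat_lit 0) (nat_lit 6991777562) (nat_lit 1824) (nat_lit 1500561061) (nat_lit 1900) (nat_lit 1336402978) (nat_lit 487) (nat_lit 5) (nat_lit 511) (nat_lit 5) (nat_lit 512) (nat_lit 5) (nat_lit 436) (nat_lit 406) (nat_lit 298)))))) (XT.nd (nat_lit 390) (nat_lit 2660) (nat_lit 0) (XT.nd (nat_lit 156) (nat_lit 1824) (nat_lit 0) (XT.nd (nat_lit 78) (nat_lit 0) (nat_lit 0) (XT.lf (nat_lit 0) (nat_lit 369655981) (nat_lit 1216) (nat_lit 7044655601) (nat_lit 76) (nat_lit 2507148510) (nat_lit 471) (nat_lit 5) (nat_lit 487) (nat_lit 5) (nat_lit 472) (nat_lit 5) (nat_lit 437)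 (nat_lit 406) (nat_lit 297)) (XT.lf (nat_lit 0) (nat_lit 2099700754) (nat_lit 1216) (nat_lit 1311169201) (nat_lit 76) (nat_lit 6604831145) (nat_lit 471) (nat_lit 5) (nat_lit 487) (nat_lit 5) (nat_lit 472) (nat_lit 5) (nat_lit 438) (nat_lit 406) (nat_lit 296))) (XT.nd (nat_lit 78) (nat_lit 912) (nat_lit 0) (XT.lf (nat_lit 0) (nat_lit 3877699962) (nat_lit 988) (nat_lit 5538719818) (nat_lit 76) (nat_lit 695140077) (nat_lit 459) (nat_lit 5) (nat_lit 472) (nat_lit 5) (nat_lit 460) (nat_lit 5) (nat_lit 439) (nat_lit 406) (nat_lit 295)) (XT.nd (nat_lit 78) (nat_lit 0) (nat_lit 0) (XT.lf (nat_lit 0) (nat_lit 345213762) (nat_lit 912) (nat_lit 5359085176) (nat_lit 988) (nat_lit 4504776056) (nat_lit 447) (nat_lit 5) (nat_lit 459) (nat_lit 5) (nat_lit 460) (nat_lit 5) (nat_lit 440) (nat_lit 406) (nat_lit 294)) (XT.lf (nat_lit 0) (nat_lit 6402225291) (nat_lit 912) (nat_lit 1182002380) (nat_lit 988) (nat_lit 2723976807) (nat_lit 447) (nat_lit 5) (nat_lit 459) (nat_lit 5) (nat_lit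 460) (nat_lit 5) (nat_lit 441) (nat_lit 406) (nat_lit 293))))) (XT.nd (nat_lit 156) (nat_lit 1748) (nat_lit 0) (XT.nd (nat_lit 78) (nat_lit 76) (nat_lit 0) (XT.lf (nat_lit 0) (nat_lit 2159699424) (nat_lit 836) (nat_lit 7356100069) (nat_lit 912) (nat_lit 893236168) (nat_lit 436) (nat_lit 5) (nat_lit 447) (nat_lit 5) (nat_lit 448) (nat_lit 5) (nat_lit 442) (nat_lit 406) (nat_lit 292)) (XT.lf (nat_lit 0) (nat_lit 975723951) (nat_lit 912) (nat_lit 2145878535) (nat_lit 76) (nat_lit 7389866881) (nat_lit 435) (nat_lit 5) (nat_lit 447) (nat_lit 5) (nat_lit 436) (nat_lit 5) (nat_lit 443) (nat_lit 406) (nat_lit 291))) (XT.nd (nat_lit 78) (nat_lit 836) (nat_lit 0) (XT.lf (nat_lit 0) (nat_lit 2885335016) (nat_lit 988) (nat_lit 6515510533) (nat_lit 76) (nat_lit 1214683470) (nat_lit 423) (nat_lit 5) (nat_lit 436) (nat_lit 5) (nat_lit 424) (nat_lit 5) (nat_lit 444) (nat_lit 406) (nat_lit 290)) (XT.nd (nat_lit 78) (nat_lit 836) (nat_lit 0) (XT.lf (nat_lit 0) (nat_lit 4849118211)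 (nat_lit 988) (nat_lit 261926286) (nat_lit 76) (nat_lit 5610305767) (nat_lit 423) (nat_lit 5) (nat_lit 436) (nat_lit 5) (nat_lit 424) (nat_lit 5) (nat_lit 445) (nat_lit 406) (nat_lit 289)) (XT.lf (nat_lit 0) (nat_lit 6178449758) (nat_lit 836) (nat_lit 695029851) (nat_lit 912) (nat_lit 3955382275) (nat_lit 412) (nat_lit 5) (nat_lit 423) (nat_lit 5) (nat_lit 424) (nat_lit 5) (nat_lit 446) (nat_lit 406) (nat_lit 288))))))) (XT.nd (nat_lit 780) (nat_lit 1444) (nat_lit 0) (XT.nd (nat_lit 390) (nat_lit 2280) (nat_lit 0) (XT.nd (nat_lit 156) (nat_lit 1520) (nat_lit 0) (XT.nd (nat_lit 78) (nat_lit 76) (nat_lit 0) (XT.lf (nat_lit 0) (nat_lit 1791900472) (nat_lit 836) (nat_lit 7165992058) (nat_lit 912) (nat_lit 1980239920) (nat_lit 401) (nat_lit 5) (nat_lit 412) (nat_lit 5) (nat_lit 413) (nat_lit 5) (nat_lit 447) (nat_lit 406) (nat_lit 287)) (XT.lf (nat_lit 0) (nat_lit 51515157) (nat_lit 912) (nat_lit 2647568604) (nat_lit 76) (nat_lit 8350148978) (nat_lit 400) (nat_lit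 5) (nat_lit 412) (nat_lit 5) (nat_lit 401) (nat_lit 5) (nat_lit 448) (nat_lit 406) (nat_lit 286))) (XT.nd (nat_lit 78) (nat_lit 760) (nat_lit 0) (XT.lf (nat_lit 0) (nat_lit 2117608652) (nat_lit 836) (nat_lit 7173297168) (nat_lit 76) (nat_lit 1870983050) (nat_lit 390) (nat_lit 5) (nat_lit 401) (nat_lit 5) (nat_lit 391) (nat_lit 5) (nat_lit 449) (nat_lit 406) (nat_lit 285)) (XT.nd (nat_lit 78) (nat_lit 760) (nat_lit 0) (XT.lf (nat_lit 0) (nat_lit 4242911730) (nat_lit 836) (nat_lit 520576123) (nat_lit 76) (nat_lit 6512952516) (nat_lit 390) (nat_lit 5) (nat_lit 401) (nat_lit 5) (nat_lit 391) (nat_lit 5) (nat_lit 450) (nat_lit 406) (nat_lit 284)) (XT.lf (nat_lit 0) (nat_lit 6329084216) (nat_lit 760) (nat_lit 105208431) (nat_lit 836) (nat_lit 4958518817) (nat_lit 380) (nat_lit 5) (nat_lit 390) (nat_lit 5) (nat_lit 391) (nat_lit 5) (nat_lit 451) (nat_lit 406) (nat_lit 283))))) (XT.nd (nat_lit 156) (nat_lit 1520) (nat_lit 0) (XT.nd (nat_lit 78) (nat_lit 0) (nat_lit 0)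 (XT.lf (nat_lit 0) (nat_lit 1785247043) (nat_lit 760) (nat_lit 6912216434) (nat_lit 836) (nat_lit 2813487257) (nat_lit 370) (nat_lit 5) (nat_lit 380) (nat_lit 5) (nat_lit 381) (nat_lit 5) (nat_lit 452) (nat_lit 406) (nat_lit 282)) (XT.lf (nat_lit 0) (nat_lit 8819930750) (nat_lit 760) (nat_lit 2203542529) (nat_lit 836) (nat_lit 607627999) (nat_lit 370) (nat_lit 5) (nat_lit 380) (nat_lit 5) (nat_lit 381) (nat_lit 5) (nat_lit 453) (nat_lit 406) (nat_lit 281))) (XT.nd (nat_lit 78) (nat_lit 684) (nat_lit 0) (XT.lf (nat_lit 0) (nat_lit 1648762606) (nat_lit 836) (nat_lit 7502428586) (nat_lit 76) (nat_lit 2601691300) (nat_lit 359) (nat_lit 5) (nat_lit 370) (nat_lit 5) (nat_lit 360) (nat_lit 5) (nat_lit 454) (nat_lit 406) (nat_lit 280)) (XT.nd (nat_lit 78) (nat_lit 684) (nat_lit 0) (XT.lf (nat_lit 0) (nat_lit 3959055467) (nat_lit 836) (nat_lit 423292172) (nat_lit 76) (nat_lit 7494333151) (nat_lit 359) (nat_lit 5) (nat_lit 370) (nat_lit 5) (nat_lit 360) (nat_lit 5) (nat_lit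 455) (nat_lit 406) (nat_lit 279)) (XT.lf (nat_lit 0) (nat_lit 6347205274) (nat_lit 760) (nat_lit 5137155183) (nat_lit 76) (nat_lit 517961575) (nat_lit 350) (nat_lit 5) (nat_lit 360) (nat_lit 5) (nat_lit 351) (nat_lit 5) (nat_lit 456) (nat_lit 406) (nat_lit 278)))))) (XT.nd (nat_lit 55614) (nat_lit 0) (nat_lit 21356) (XT.nd (nat_lit 156) (nat_lit 760) (nat_lit 0) (XT.nd (nat_lit 78) (nat_lit 0) (nat_lit 0) (XT.lf (nat_lit 0) (nat_lit 2154884385) (nat_lit 684) (nat_lit 6657935907) (nat_lit 760) (nat_lit 3317061763) (nat_lit 341) (nat_lit 5) (nat_lit 350) (nat_lit 5) (nat_lit 351) (nat_lit 5) (nat_lit 457) (nat_lit 406) (nat_lit 277)) (XT.lf (nat_lit 0) (nat_lit 9643475636) (nat_lit 684) (nat_lit 1702768965) (nat_lit 760) (nat_lit 913378738) (nat_lit 341) (nat_lit 5) (nat_lit 350) (nat_lit 5) (nat_lit 351) (nat_lit 5) (nat_lit 458) (nat_lit 406) (nat_lit 276))) (XT.nd (nat_lit 55302) (nat_lit 0) (nat_lit 22648) (XT.lf (nat_lit 0) (nat_lit 1556435108) (nat_lit 760)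 (nat_lit 7487724181) (nat_lit 76) (nat_lit 3346835730) (nat_lit 331) (nat_lit 5) (nat_lit 341) (nat_lit 5) (nat_lit 332) (nat_lit 5) (nat_lit 459) (nat_lit 406) (nat_lit 275)) (XT.nd (nat_lit 78) (nat_lit 0) (nat_lit 0) (XT.lf (nat_lit 0) (nat_lit 655155777) (nat_lit 1444) (nat_lit 1629198491) (nat_lit 1444) (nat_lit 1629198491) (nat_lit 629) (nat_lit 3) (nat_lit 648) (nat_lit 3) (nat_lit 648) (nat_lit 5) (nat_lit 407) (nat_lit 407) (nat_lit 326)) (XT.lf (nat_lit 76) (nat_lit 663862453) (nat_lit 0) (nat_lit 1959290285) (nat_lit 1444) (nat_lit 5256229075) (nat_lit 630) (nat_lit 5) (nat_lit 629) (nat_lit 3) (nat_lit 648) (nat_lit 5) (nat_lit 408) (nat_lit 407) (nat_lit 325))))) (XT.nd (nat_lit 156) (nat_lit 1368) (nat_lit 0) (XT.nd (nat_lit 78) (nat_lit 0) (nat_lit 0) (XT.lf (nat_lit 0) (nat_lit 3954834811) (nat_lit 1368) (nat_lit 3246584608) (nat_lit 1444) (nat_lit 731432532) (nat_lit 630) (nat_lit 5) (nat_lit 648) (nat_lit 5) (nat_lit 649) (nat_lit 5) (nat_lit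 409) (nat_lit 407) (nat_lit 324)) (XT.lf (nat_lit 76) (nat_lit 781007157) (nat_lit 0) (nat_lit 4516869813) (nat_lit 1444) (nat_lit 2689819994) (nat_lit 631) (nat_lit 5) (nat_lit 630) (nat_lit 5) (nat_lit 649) (nat_lit 5) (nat_lit 410) (nat_lit 407) (nat_lit 323))) (XT.nd (nat_lit 78) (nat_lit 1368) (nat_lit 0) (XT.lf (nat_lit 76) (nat_lit 4915288120) (nat_lit 0) (nat_lit 1741495638) (nat_lit 1444) (nat_lit 1387075042) (nat_lit 631) (nat_lit 5) (nat_lit 630) (nat_lit 5) (nat_lit 649) (nat_lit 5) (nat_lit 411) (nat_lit 407) (nat_lit 322)) (XT.nd (nat_lit 78) (nat_lit 1444) (nat_lit 0) (XT.lf (nat_lit 76) (nat_lit 1019145844) (nat_lit 0) (nat_lit 7005368033) (nat_lit 1444) (nat_lit 76997093) (nat_lit 632) (nat_lit 5) (nat_lit 631) (nat_lit 5) (nat_lit 650) (nat_lit 5) (nat_lit 412) (nat_lit 407) (nat_lit 321)) (XT.lf (nat_lit 0) (nat_lit 1243690108) (nat_lit 1444) (nat_lit 2906079190) (nat_lit 1520) (nat_lit 4010364895) (nat_lit 612) (nat_lit 5) (nat_lit 631) (nat_lit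 5) (nat_lit 632) (nat_lit 5) (nat_lit 413) (nat_lit 407) (nat_lit 320))))))))
noncomputable def xc104 : XT := (XT.nd (nat_lit 1482) (nat_lit 13376) (nat_lit 0) (XT.nd (nat_lit 702) (nat_lit 2888) (nat_lit 0) (XT.nd (nat_lit 312) (nat_lit 1368) (nat_lit 0) (XT.nd (nat_lit 156) (nat_lit 0) (nat_lit 76) (XT.nd (nat_lit 78) (nat_lit 0) (nat_lit 76) (XT.lf (nat_lit 76) (nat_lit 1352768293) (nat_lit 0) (nat_lit 1214655150) (nat_lit 1520) (nat_lit 5652942990) (nat_lit 613) (nat_lit 5) (nat_lit 612) (nat_lit 5) (nat_lit 632) (nat_lit 5) (nat_lit 414) (nat_lit 407) (nat_lit 319)) (XT.lf (nat_lit 0) (nat_lit 3918267097) (nat_lit 1444) (nat_lit 2575678934) (nat_lit 1520) (nat_lit 1787844576) (nat_lit 613) (nat_lit 5) (nat_lit 632) (nat_lit 5) (nat_lit 633) (nat_lit 5) (nat_lit 415) (nat_lit 407) (nat_lit 318))) (XT.nd (nat_lit 78) (nat_lit 0) (nat_lit 0) (XT.lf (nat_lit 76) (nat_lit 1799229454) (nat_lit 0) (nat_lit 3486676665) (nat_lit 1520) (nat_lit 3058741573) (nat_lit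 614) (nat_lit 5) (nat_lit 613) (nat_lit 5) (nat_lit 633) (nat_lit 5) (nat_lit 416) (nat_lit 407) (nat_lit 317)) (XT.lf (nat_lit 76) (nat_lit 6278268739) (nat_lit 0) (nat_lit 390434488) (nat_lit 1520) (nat_lit 1740302587) (nat_lit 614) (nat_lit 5) (nat_lit 613) (nat_lit 5) (nat_lit 633) (nat_lit 5) (nat_lit 417) (nat_lit 407) (nat_lit 316)))) (XT.nd (nat_lit 156) (nat_lit 0) (nat_lit 76) (XT.nd (nat_lit 78) (nat_lit 1520) (nat_lit 0) (XT.lf (nat_lit 76) (nat_lit 2366735805) (nat_lit 0) (nat_lit 5716927282) (nat_lit 1520) (nat_lit 390897875) (nat_lit 615) (nat_lit 5) (nat_lit 614) (nat_lit 5) (nat_lit 634) (nat_lit 5) (nat_lit 418) (nat_lit 407) (nat_lit 315)) (XT.lf (nat_lit 0) (nat_lit 960976661) (nat_lit 1520) (nat_lit 1586008875) (nat_lit 1596) (nat_lit 5994545573) (nat_lit 594) (nat_lit 5) (nat_lit 614) (nat_lit 5) (nat_lit 615) (nat_lit 5) (nat_lit 419) (nat_lit 407) (nat_lit 314))) (XT.nd (nat_lit 78) (nat_lit 0) (nat_lit 0) (XT.lf (nat_lit 0) (nat_lit 2331085035)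 (nat_lit 1520) (nat_lit 5569488036) (nat_lit 1596) (nat_lit 709287304) (nat_lit 595) (nat_lit 5) (nat_lit 615) (nat_lit 5) (nat_lit 616) (nat_lit 5) (nat_lit 420) (nat_lit 407) (nat_lit 313)) (XT.nd (nat_lit 78) (nat_lit 0) (nat_lit 0) (XT.lf (nat_lit 0) (nat_lit 3728654853) (nat_lit 1520) (nat_lit 934451977) (nat_lit 1596) (nat_lit 4016448208) (nat_lit 595) (nat_lit 5) (nat_lit 615) (nat_lit 5) (nat_lit 616) (nat_lit 5) (nat_lit 421) (nat_lit 407) (nat_lit 312)) (XT.lf (nat_lit 76) (nat_lit 3824869614) (nat_lit 0) (nat_lit 1327158068) (nat_lit 1596) (nat_lit 3598658881) (nat_lit 596) (nat_lit 5) (nat_lit 595) (nat_lit 5) (nat_lit 616) (nat_lit 5) (nat_lit 422) (nat_lit 407) (nat_lit 311)))))) (XT.nd (nat_lit 390) (nat_lit 1520) (nat_lit 0) (XT.nd (nat_lit 156) (nat_lit 1520) (nat_lit 0) (XT.nd (nat_lit 78) (nat_lit 0) (nat_lit 0) (XT.lf (nat_lit 0) (nat_lit 6597135691) (nat_lit 1520) (nat_lit 163628997) (nat_lit 1596) (nat_lit 2062610677) (nat_lit 596) (nat_lit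 5) (nat_lit 616) (nat_lit 5) (nat_lit 617) (nat_lit 5) (nat_lit 423) (nat_lit 407) (nat_lit 310)) (XT.lf (nat_lit 76) (nat_lit 4728359264) (nat_lit 0) (nat_lit 3356275312) (nat_lit 1596) (nat_lit 812613593) (nat_lit 597) (nat_lit 5) (nat_lit 596) (nat_lit 5) (nat_lit 617) (nat_lit 5) (nat_lit 424) (nat_lit 407) (nat_lit 309))) (XT.nd (nat_lit 78) (nat_lit 0) (nat_lit 0) (XT.lf (nat_lit 0) (nat_lit 601991443) (nat_lit 1596) (nat_lit 8239299367) (nat_lit 1672) (nat_lit 131606711) (nat_lit 576) (nat_lit 5) (nat_lit 597) (nat_lit 5) (nat_lit 598) (nat_lit 5) (nat_lit 425) (nat_lit 407) (nat_lit 308)) (XT.nd (nat_lit 78) (nat_lit 0) (nat_lit 0) (XT.lf (nat_lit 0) (nat_lit 2059052030) (nat_lit 1596) (nat_lit 3305962954) (nat_lit 1672) (nat_lit 3684436562) (nat_lit 576) (nat_lit 5) (nat_lit 597) (nat_lit 5) (nat_lit 598) (nat_lit 5) (nat_lit 426) (nat_lit 407) (nat_lit 307)) (XT.lf (nat_lit 76) (nat_lit 1729791278) (nat_lit 0) (nat_lit 1801837109) (nat_lit 1672) (nat_lit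 5596180772) (nat_lit 577) (nat_lit 5) (nat_lit 576) (nat_lit 5) (nat_lit 598) (nat_lit 5) (nat_lit 427) (nat_lit 407) (nat_lit 306))))) (XT.nd (nat_lit 156) (nat_lit 1596) (nat_lit 0) (XT.nd (nat_lit 78) (nat_lit 0) (nat_lit 0) (XT.lf (nat_lit 0) (nat_lit 5043432161) (nat_lit 1596) (nat_lit 2327599398) (nat_lit 1672) (nat_lit 1836506848) (nat_lit 577) (nat_lit 5) (nat_lit 598) (nat_lit 5) (nat_lit 599) (nat_lit 5) (nat_lit 428) (nat_lit 407) (nat_lit 305)) (XT.lf (nat_lit 76) (nat_lit 2850724125) (nat_lit 0) (nat_lit 3741214603) (nat_lit 1672) (nat_lit 2696794179) (nat_lit 578) (nat_lit 5) (nat_lit 577) (nat_lit 5) (nat_lit 599) (nat_lit 5) (nat_lit 429) (nat_lit 407) (nat_lit 304))) (XT.nd (nat_lit 78) (nat_lit 1596) (nat_lit 0) (XT.lf (nat_lit 76) (nat_lit 8145331677) (nat_lit 0) (nat_lit 18076210) (nat_lit 1672) (nat_lit 1208303560) (nat_lit 578) (nat_lit 5) (nat_lit 577) (nat_lit 5) (nat_lit 599) (nat_lit 5) (nat_lit 430) (nat_lit 407) (nat_lit 303)) (XT.nd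 (nat_lit 78) (nat_lit 0) (nat_lit 0) (XT.lf (nat_lit 0) (nat_lit 334101652) (nat_lit 1672) (nat_lit 5358233629) (nat_lit 76) (nat_lit 3763409829) (nat_lit 556) (nat_lit 5) (nat_lit 578) (nat_lit 5) (nat_lit 557) (nat_lit 5) (nat_lit 431) (nat_lit 407) (nat_lit 302)) (XT.lf (nat_lit 0) (nat_lit 1876641907) (nat_lit 1672) (nat_lit 24105085) (nat_lit 76) (nat_lit 7640843394) (nat_lit 556) (nat_lit 5) (nat_lit 578) (nat_lit 5) (nat_lit 557) (nat_lit 5) (nat_lit 432) (nat_lit 407) (nat_lit 301))))))) (XT.nd (nat_lit 702) (nat_lit 5092) (nat_lit 0) (XT.nd (nat_lit 312) (nat_lit 3040) (nat_lit 0) (XT.nd (nat_lit 156) (nat_lit 1824) (nat_lit 0) (XT.nd (nat_lit 78) (nat_lit 1748) (nat_lit 0) (XT.lf (nat_lit 0) (nat_lit 3476071350) (nat_lit 1748) (nat_lit 4172242137) (nat_lit 76) (nat_lit 1980318313) (nat_lit 534) (nat_lit 5) (nat_lit 557) (nat_lit 5) (nat_lit 535) (nat_lit 5) (nat_lit 433) (nat_lit 407) (nat_lit 300)) (XT.lf (nat_lit 0) (nat_lit 1314960983) (nat_lit 1748)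 (nat_lit 3791656958) (nat_lit 1824) (nat_lit 4610813531) (nat_lit 511) (nat_lit 5) (nat_lit 534) (nat_lit 5) (nat_lit 535) (nat_lit 5) (nat_lit 434) (nat_lit 407) (nat_lit 299))) (XT.nd (nat_lit 78) (nat_lit 1824) (nat_lit 0) (XT.lf (nat_lit 0) (nat_lit 6777051929) (nat_lit 1824) (nat_lit 2859527711) (nat_lit 76) (nat_lit 171281966) (nat_lit 511) (nat_lit 5) (nat_lit 535) (nat_lit 5) (nat_lit 512) (nat_lit 5) (nat_lit 435) (nat_lit 407) (nat_lit 298)) (XT.lf (nat_lit 0) (nat_lit 2786655905) (nat_lit 1824) (nat_lit 5716040143) (nat_lit 1900) (nat_lit 1396968268) (nat_lit 487) (nat_lit 5) (nat_lit 511) (nat_lit 5) (nat_lit 512) (nat_lit 5) (nat_lit 436) (nat_lit 407) (nat_lit 297)))) (XT.nd (nat_lit 156) (nat_lit 1824) (nat_lit 0) (XT.nd (nat_lit 78) (nat_lit 1140) (nat_lit 0) (XT.lf (nat_lit 0) (nat_lit 264086077) (nat_lit 1900) (nat_lit 1429483798) (nat_lit 76) (nat_lit 8299736776) (nat_lit 486) (nat_lit 5) (nat_lit 511) (nat_lit 5) (nat_lit 487) (nat_lit 5)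 (nat_lit 437) (nat_lit 407) (nat_lit 296)) (XT.lf (nat_lit 0) (nat_lit 1963301980) (nat_lit 1216) (nat_lit 5707093014) (nat_lit 76) (nat_lit 2417769242) (nat_lit 471) (nat_lit 5) (nat_lit 487) (nat_lit 5) (nat_lit 472) (nat_lit 5) (nat_lit 438) (nat_lit 407) (nat_lit 295))) (XT.nd (nat_lit 78) (nat_lit 912) (nat_lit 0) (XT.lf (nat_lit 0) (nat_lit 113563187) (nat_lit 912) (nat_lit 3584018791) (nat_lit 988) (nat_lit 6487315400) (nat_lit 459) (nat_lit 5) (nat_lit 471) (nat_lit 5) (nat_lit 472) (nat_lit 5) (nat_lit 439) (nat_lit 407) (nat_lit 294)) (XT.nd (nat_lit 78) (nat_lit 912) (nat_lit 0) (XT.lf (nat_lit 0) (nat_lit 5488648892) (nat_lit 988) (nat_lit 4178272892) (nat_lit 76) (nat_lit 616201372) (nat_lit 459) (nat_lit 5) (nat_lit 472) (nat_lit 5) (nat_lit 460) (nat_lit 5) (nat_lit 440) (nat_lit 407) (nat_lit 293)) (XT.lf (nat_lit 0) (nat_lit 1813660273) (nat_lit 912) (nat_lit 5517542310) (nat_lit 988) (nat_lit 3051797559) (nat_lit 447) (nat_lit 5) (nat_lit 459)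 (nat_lit 5) (nat_lit 460) (nat_lit 5) (nat_lit 441) (nat_lit 407) (nat_lit 292)))))) (XT.nd (nat_lit 390) (nat_lit 2432) (nat_lit 0) (XT.nd (nat_lit 156) (nat_lit 1748) (nat_lit 0) (XT.nd (nat_lit 78) (nat_lit 912) (nat_lit 0) (XT.lf (nat_lit 0) (nat_lit 7963154341) (nat_lit 912) (nat_lit 1255912457) (nat_lit 988) (nat_lit 1265638678) (nat_lit 447) (nat_lit 5) (nat_lit 459) (nat_lit 5) (nat_lit 460) (nat_lit 5) (nat_lit 442) (nat_lit 407) (nat_lit 291)) (XT.lf (nat_lit 0) (nat_lit 573726937) (nat_lit 912) (nat_lit 6935583859) (nat_lit 76) (nat_lit 3078566317) (nat_lit 435) (nat_lit 5) (nat_lit 447) (nat_lit 5) (nat_lit 436) (nat_lit 5) (nat_lit 443) (nat_lit 407) (nat_lit 290))) (XT.nd (nat_lit 78) (nat_lit 1748) (nat_lit 0) (XT.lf (nat_lit 0) (nat_lit 2439237035) (nat_lit 912) (nat_lit 744851369) (nat_lit 76) (nat_lit 7508730379) (nat_lit 435) (nat_lit 5) (nat_lit 447) (nat_lit 5) (nat_lit 436) (nat_lit 5) (nat_lit 444) (nat_lit 407) (nat_lit 289)) (XT.nd (nat_lit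 78) (nat_lit 836) (nat_lit 0) (XT.lf (nat_lit 0) (nat_lit 4368101328) (nat_lit 988) (nat_lit 5182937012) (nat_lit 76) (nat_lit 1248300067) (nat_lit 423) (nat_lit 5) (nat_lit 436) (nat_lit 5) (nat_lit 424) (nat_lit 5) (nat_lit 445) (nat_lit 407) (nat_lit 288)) (XT.lf (nat_lit 0) (nat_lit 1182544203) (nat_lit 836) (nat_lit 5168351498) (nat_lit 912) (nat_lit 4556785666) (nat_lit 412) (nat_lit 5) (nat_lit 423) (nat_lit 5) (nat_lit 424) (nat_lit 5) (nat_lit 446) (nat_lit 407) (nat_lit 287))))) (XT.nd (nat_lit 156) (nat_lit 1596) (nat_lit 0) (XT.nd (nat_lit 78) (nat_lit 836) (nat_lit 0) (XT.lf (nat_lit 0) (nat_lit 7726782965) (nat_lit 836) (nat_lit 663139560) (nat_lit 912) (nat_lit 2627937130) (nat_lit 412) (nat_lit 5) (nat_lit 423) (nat_lit 5) (nat_lit 424) (nat_lit 5) (nat_lit 447) (nat_lit 407) (nat_lit 286)) (XT.lf (nat_lit 0) (nat_lit 3270231919) (nat_lit 836) (nat_lit 7228410194) (nat_lit 912) (nat_lit 631021153) (nat_lit 401) (nat_lit 5) (nat_lit 412) (nat_lit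 5) (nat_lit 413) (nat_lit 5) (nat_lit 448) (nat_lit 407) (nat_lit 285))) (XT.nd (nat_lit 78) (nat_lit 1520) (nat_lit 0) (XT.lf (nat_lit 0) (nat_lit 1396279670) (nat_lit 912) (nat_lit 1268453203) (nat_lit 76) (nat_lit 8578609835) (nat_lit 400) (nat_lit 5) (nat_lit 412) (nat_lit 5) (nat_lit 401) (nat_lit 5) (nat_lit 449) (nat_lit 407) (nat_lit 284)) (XT.nd (nat_lit 78) (nat_lit 760) (nat_lit 0) (XT.lf (nat_lit 0) (nat_lit 3487207502) (nat_lit 836) (nat_lit 5868208805) (nat_lit 76) (nat_lit 2003165407) (nat_lit 390) (nat_lit 5) (nat_lit 401) (nat_lit 5) (nat_lit 391) (nat_lit 5) (nat_lit 450) (nat_lit 407) (nat_lit 283)) (XT.lf (nat_lit 0) (nat_lit 900980151) (nat_lit 760) (nat_lit 4733861806) (nat_lit 836) (nat_lit 5840985780) (nat_lit 380) (nat_lit 5) (nat_lit 390) (nat_lit 5) (nat_lit 391) (nat_lit 5) (nat_lit 451) (nat_lit 407) (nat_lit 282))))))))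
noncomputable def xc105 : XT := (XT.nd (nat_lit 56862) (nat_lit 0) (nat_lit 11020) (XT.nd (nat_lit 56082) (nat_lit 0) (nat_lit 19152) (XT.nd (nat_lit 312) (nat_lit 1368) (nat_lit 0) (XT.nd (nat_lit 156) (nat_lit 836) (nat_lit 0) (XT.nd (nat_lit 78) (nat_lit 760) (nat_lit 0) (XT.lf (nat_lit 0) (nat_lit 7847967415) (nat_lit 836) (nat_lit 3728617196) (nat_lit 76) (nat_lit 18383302) (nat_lit 380) (nat_lit 5) (nat_lit 391) (nat_lit 5) (nat_lit 381) (nat_lit 5) (nat_lit 452) (nat_lit 407) (nat_lit 281)) (XT.lf (nat_lit 0) (nat_lit 3247194521) (nat_lit 760) (nat_lit 6893954475) (nat_lit 836) (nat_lit 1574626027) (nat_lit 370) (nat_lit 5) (nat_lit 380) (nat_lit 5) (nat_lit 381) (nat_lit 5) (nat_lit 453) (nat_lit 407) (nat_lit 280))) (XT.nd (nat_lit 78) (nat_lit 760) (nat_lit 0) (XT.lf (nat_lit 0) (nat_lit 641431404) (nat_lit 836) (nat_lit 1448440096) (nat_lit 76) (nat_lit 9748870616) (nat_lit 369) (nat_lit 5) (nat_lit 380) (nat_lit 5) (nat_lit 370) (nat_lit 5) (nat_lit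 454) (nat_lit 407) (nat_lit 279)) (XT.lf (nat_lit 0) (nat_lit 2920467898) (nat_lit 836) (nat_lit 6223193950) (nat_lit 76) (nat_lit 2819503693) (nat_lit 359) (nat_lit 5) (nat_lit 370) (nat_lit 5) (nat_lit 360) (nat_lit 5) (nat_lit 455) (nat_lit 407) (nat_lit 278)))) (XT.nd (nat_lit 156) (nat_lit 684) (nat_lit 0) (XT.nd (nat_lit 78) (nat_lit 0) (nat_lit 0) (XT.lf (nat_lit 0) (nat_lit 982384175) (nat_lit 684) (nat_lit 4276671906) (nat_lit 760) (nat_lit 6830741934) (nat_lit 350) (nat_lit 5) (nat_lit 359) (nat_lit 5) (nat_lit 360) (nat_lit 5) (nat_lit 456) (nat_lit 407) (nat_lit 277)) (XT.lf (nat_lit 0) (nat_lit 7675065075) (nat_lit 760) (nat_lit 3825114720) (nat_lit 76) (nat_lit 718170364) (nat_lit 350) (nat_lit 5) (nat_lit 360) (nat_lit 5) (nat_lit 351) (nat_lit 5) (nat_lit 457) (nat_lit 407) (nat_lit 276))) (XT.nd (nat_lit 55458) (nat_lit 0) (nat_lit 21888) (XT.lf (nat_lit 0) (nat_lit 3603457853) (nat_lit 684) (nat_lit 6572112455) (nat_lit 760) (nat_lit 2173179516)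 (nat_lit 341) (nat_lit 5) (nat_lit 350) (nat_lit 5) (nat_lit 351) (nat_lit 5) (nat_lit 458) (nat_lit 407) (nat_lit 275)) (XT.nd (nat_lit 78) (nat_lit 0) (nat_lit 0) (XT.lf (nat_lit 0) (nat_lit 1955275948) (nat_lit 1444) (nat_lit 1005403762) (nat_lit 1444) (nat_lit 1005403762) (nat_lit 629) (nat_lit 3) (nat_lit 648) (nat_lit 3) (nat_lit 648) (nat_lit 5) (nat_lit 408) (nat_lit 408) (nat_lit 324)) (XT.lf (nat_lit 76) (nat_lit 1981260537) (nat_lit 0) (nat_lit 3226385327) (nat_lit 1444) (nat_lit 2778682984) (nat_lit 630) (nat_lit 5) (nat_lit 629) (nat_lit 3) (nat_lit 648) (nat_lit 5) (nat_lit 409) (nat_lit 408) (nat_lit 323)))))) (XT.nd (nat_lit 390) (nat_lit 1368) (nat_lit 0) (XT.nd (nat_lit 156) (nat_lit 1368) (nat_lit 0) (XT.nd (nat_lit 78) (nat_lit 0) (nat_lit 76) (XT.lf (nat_lit 76) (nat_lit 6063548991) (nat_lit 0) (nat_lit 447856641) (nat_lit 1444) (nat_lit 1530553875) (nat_lit 630) (nat_lit 5) (nat_lit 629) (nat_lit 3) (nat_lit 648) (nat_lit 5) (nat_lit 410)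 (nat_lit 408) (nat_lit 322)) (XT.lf (nat_lit 76) (nat_lit 2123851303) (nat_lit 0) (nat_lit 5714645859) (nat_lit 1444) (nat_lit 260260488) (nat_lit 631) (nat_lit 5) (nat_lit 630) (nat_lit 5) (nat_lit 649) (nat_lit 5) (nat_lit 411) (nat_lit 408) (nat_lit 321))) (XT.nd (nat_lit 78) (nat_lit 0) (nat_lit 76) (XT.lf (nat_lit 0) (nat_lit 1006470644) (nat_lit 1444) (nat_lit 1848825125) (nat_lit 1520) (nat_lit 5301569294) (nat_lit 611) (nat_lit 5) (nat_lit 630) (nat_lit 5) (nat_lit 631) (nat_lit 5) (nat_lit 412) (nat_lit 408) (nat_lit 320)) (XT.nd (nat_lit 78) (nat_lit 0) (nat_lit 0) (XT.lf (nat_lit 0) (nat_lit 2279959403) (nat_lit 1444) (nat_lit 5845106271) (nat_lit 1520) (nat_lit 91336385) (nat_lit 612) (nat_lit 5) (nat_lit 631) (nat_lit 5) (nat_lit 632) (nat_lit 5) (nat_lit 413) (nat_lit 408) (nat_lit 319)) (XT.lf (nat_lit 0) (nat_lit 3579805491) (nat_lit 1444) (nat_lit 1612831908) (nat_lit 1520) (nat_lit 3084474647) (nat_lit 612) (nat_lit 5) (nat_lit 631) (nat_lit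 5) (nat_lit 632) (nat_lit 5) (nat_lit 414) (nat_lit 408) (nat_lit 318))))) (XT.nd (nat_lit 156) (nat_lit 1444) (nat_lit 0) (XT.nd (nat_lit 78) (nat_lit 0) (nat_lit 76) (XT.lf (nat_lit 76) (nat_lit 2722301941) (nat_lit 0) (nat_lit 2171109349) (nat_lit 1520) (nat_lit 3445869685) (nat_lit 613) (nat_lit 5) (nat_lit 612) (nat_lit 5) (nat_lit 632) (nat_lit 5) (nat_lit 415) (nat_lit 408) (nat_lit 317)) (XT.lf (nat_lit 0) (nat_lit 6220737507) (nat_lit 1444) (nat_lit 1260503025) (nat_lit 1520) (nat_lit 921703786) (nat_lit 613) (nat_lit 5) (nat_lit 632) (nat_lit 5) (nat_lit 633) (nat_lit 5) (nat_lit 416) (nat_lit 408) (nat_lit 316))) (XT.nd (nat_lit 78) (nat_lit 1520) (nat_lit 0) (XT.lf (nat_lit 76) (nat_lit 3192912153) (nat_lit 0) (nat_lit 4388022331) (nat_lit 1520) (nat_lit 886819958) (nat_lit 614) (nat_lit 5) (nat_lit 613) (nat_lit 5) (nat_lit 633) (nat_lit 5) (nat_lit 417) (nat_lit 408) (nat_lit 315)) (XT.nd (nat_lit 78) (nat_lit 0) (nat_lit 76) (XT.lf (nat_lit 0)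 (nat_lit 408769273) (nat_lit 1520) (nat_lit 802036859) (nat_lit 1596) (nat_lit 7323398361) (nat_lit 593) (nat_lit 5) (nat_lit 613) (nat_lit 5) (nat_lit 614) (nat_lit 5) (nat_lit 418) (nat_lit 408) (nat_lit 314)) (XT.lf (nat_lit 0) (nat_lit 1728477026) (nat_lit 1520) (nat_lit 4828969744) (nat_lit 1596) (nat_lit 2044217914) (nat_lit 594) (nat_lit 5) (nat_lit 614) (nat_lit 5) (nat_lit 615) (nat_lit 5) (nat_lit 419) (nat_lit 408) (nat_lit 313))))))) (XT.nd (nat_lit 702) (nat_lit 6764) (nat_lit 0) (XT.nd (nat_lit 312) (nat_lit 1444) (nat_lit 0) (XT.nd (nat_lit 156) (nat_lit 0) (nat_lit 76) (XT.nd (nat_lit 78) (nat_lit 0) (nat_lit 76) (XT.lf (nat_lit 0) (nat_lit 3060552694) (nat_lit 1520) (nat_lit 246725925) (nat_lit 1596) (nat_lit 5363475982) (nat_lit 594) (nat_lit 5) (nat_lit 614) (nat_lit 5) (nat_lit 615) (nat_lit 5) (nat_lit 420) (nat_lit 408) (nat_lit 312)) (XT.lf (nat_lit 0) (nat_lit 4421658106) (nat_lit 1520) (nat_lit 4273469540) (nat_lit 1596) (nat_lit 46050908)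 (nat_lit 595) (nat_lit 5) (nat_lit 615) (nat_lit 5) (nat_lit 616) (nat_lit 5) (nat_lit 421) (nat_lit 408) (nat_lit 311))) (XT.nd (nat_lit 78) (nat_lit 0) (nat_lit 0) (XT.lf (nat_lit 76) (nat_lit 432341231) (nat_lit 0) (nat_lit 5377567657) (nat_lit 1596) (nat_lit 3003103632) (nat_lit 596) (nat_lit 5) (nat_lit 595) (nat_lit 5) (nat_lit 616) (nat_lit 5) (nat_lit 422) (nat_lit 408) (nat_lit 310)) (XT.lf (nat_lit 76) (nat_lit 5272101312) (nat_lit 0) (nat_lit 1956448889) (nat_lit 1596) (nat_lit 1657680456) (nat_lit 596) (nat_lit 5) (nat_lit 595) (nat_lit 5) (nat_lit 616) (nat_lit 5) (nat_lit 423) (nat_lit 408) (nat_lit 309)))) (XT.nd (nat_lit 156) (nat_lit 0) (nat_lit 0) (XT.nd (nat_lit 78) (nat_lit 1596) (nat_lit 0) (XT.lf (nat_lit 76) (nat_lit 1235694366) (nat_lit 0) (nat_lit 7432356522) (nat_lit 1596) (nat_lit 293012535) (nat_lit 597) (nat_lit 5) (nat_lit 596) (nat_lit 5) (nat_lit 617) (nat_lit 5) (nat_lit 424) (nat_lit 408) (nat_lit 308)) (XT.lf (nat_lit 0) (nat_lit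 1096631005) (nat_lit 1596) (nat_lit 2844172156) (nat_lit 1672) (nat_lit 5096205078) (nat_lit 575) (nat_lit 5) (nat_lit 596) (nat_lit 5) (nat_lit 597) (nat_lit 5) (nat_lit 425) (nat_lit 408) (nat_lit 307))) (XT.nd (nat_lit 78) (nat_lit 0) (nat_lit 76) (XT.lf (nat_lit 76) (nat_lit 2142655536) (nat_lit 0) (nat_lit 356624469) (nat_lit 1672) (nat_lit 6615370492) (nat_lit 576) (nat_lit 5) (nat_lit 575) (nat_lit 5) (nat_lit 597) (nat_lit 5) (nat_lit 426) (nat_lit 408) (nat_lit 306)) (XT.nd (nat_lit 78) (nat_lit 0) (nat_lit 0) (XT.lf (nat_lit 0) (nat_lit 3946246100) (nat_lit 1596) (nat_lit 1965801982) (nat_lit 1672) (nat_lit 3281472233) (nat_lit 576) (nat_lit 5) (nat_lit 597) (nat_lit 5) (nat_lit 598) (nat_lit 5) (nat_lit 427) (nat_lit 408) (nat_lit 305)) (XT.lf (nat_lit 76) (nat_lit 3161415492) (nat_lit 0) (nat_lit 2259732594) (nat_lit 1672) (nat_lit 3852839514) (nat_lit 577) (nat_lit 5) (nat_lit 576) (nat_lit 5) (nat_lit 598) (nat_lit 5) (nat_lit 428) (nat_lit 408)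 (nat_lit 304)))))) (XT.nd (nat_lit 390) (nat_lit 3648) (nat_lit 0) (XT.nd (nat_lit 156) (nat_lit 3268) (nat_lit 0) (XT.nd (nat_lit 78) (nat_lit 0) (nat_lit 0) (XT.lf (nat_lit 0) (nat_lit 6924838201) (nat_lit 1596) (nat_lit 966165977) (nat_lit 1672) (nat_lit 1465074250) (nat_lit 577) (nat_lit 5) (nat_lit 598) (nat_lit 5) (nat_lit 599) (nat_lit 5) (nat_lit 429) (nat_lit 408) (nat_lit 303)) (XT.lf (nat_lit 76) (nat_lit 4306460955) (nat_lit 0) (nat_lit 4172022879) (nat_lit 1672) (nat_lit 960929604) (nat_lit 578) (nat_lit 5) (nat_lit 577) (nat_lit 5) (nat_lit 599) (nat_lit 5) (nat_lit 430) (nat_lit 408) (nat_lit 302))) (XT.nd (nat_lit 78) (nat_lit 1596) (nat_lit 0) (XT.lf (nat_lit 76) (nat_lit 153416435) (nat_lit 0) (nat_lit 362967117) (nat_lit 1748) (nat_lit 9008268381) (nat_lit 556) (nat_lit 5) (nat_lit 555) (nat_lit 5) (nat_lit 578) (nat_lit 5) (nat_lit 431) (nat_lit 408) (nat_lit 301)) (XT.nd (nat_lit 78) (nat_lit 1672) (nat_lit 0) (XT.lf (nat_lit 0) (nat_lit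 2045427180) (nat_lit 1672) (nat_lit 4044039047) (nat_lit 76) (nat_lit 3521300915) (nat_lit 556) (nat_lit 5) (nat_lit 578) (nat_lit 5) (nat_lit 557) (nat_lit 5) (nat_lit 432) (nat_lit 408) (nat_lit 300)) (XT.lf (nat_lit 0) (nat_lit 1387094268) (nat_lit 1672) (nat_lit 2207305525) (nat_lit 1748) (nat_lit 6104417899) (nat_lit 534) (nat_lit 5) (nat_lit 556) (nat_lit 5) (nat_lit 557) (nat_lit 5) (nat_lit 433) (nat_lit 408) (nat_lit 299))))) (XT.nd (nat_lit 156) (nat_lit 1900) (nat_lit 0) (XT.nd (nat_lit 78) (nat_lit 1748) (nat_lit 0) (XT.lf (nat_lit 0) (nat_lit 5191322497) (nat_lit 1748) (nat_lit 2836708122) (nat_lit 76) (nat_lit 1760259223) (nat_lit 534) (nat_lit 5) (nat_lit 557) (nat_lit 5) (nat_lit 535) (nat_lit 5) (nat_lit 434) (nat_lit 408) (nat_lit 298)) (XT.lf (nat_lit 0) (nat_lit 2750903673) (nat_lit 1748) (nat_lit 4080459477) (nat_lit 1824) (nat_lit 3047964694) (nat_lit 511) (nat_lit 5) (nat_lit 534) (nat_lit 5) (nat_lit 535) (nat_lit 5) (nat_lit 435) (nat_lit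 408) (nat_lit 297))) (XT.nd (nat_lit 78) (nat_lit 1900) (nat_lit 0) (XT.lf (nat_lit 0) (nat_lit 8470476357) (nat_lit 1748) (nat_lit 31764131) (nat_lit 1824) (nat_lit 1469985401) (nat_lit 511) (nat_lit 5) (nat_lit 534) (nat_lit 5) (nat_lit 535) (nat_lit 5) (nat_lit 436) (nat_lit 408) (nat_lit 296)) (XT.nd (nat_lit 78) (nat_lit 0) (nat_lit 0) (XT.lf (nat_lit 0) (nat_lit 171564018) (nat_lit 1900) (nat_lit 5819184614) (nat_lit 76) (nat_lit 4075538325) (nat_lit 486) (nat_lit 5) (nat_lit 511) (nat_lit 5) (nat_lit 487) (nat_lit 5) (nat_lit 437) (nat_lit 408) (nat_lit 295)) (XT.lf (nat_lit 0) (nat_lit 1816214596) (nat_lit 1900) (nat_lit 59218062) (nat_lit 76) (nat_lit 8286803191) (nat_lit 486) (nat_lit 5) (nat_lit 511) (nat_lit 5) (nat_lit 487) (nat_lit 5) (nat_lit 438) (nat_lit 408) (nat_lit 294))))))))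
noncomputable def xc106 : XT := (XT.nd (nat_lit 1482) (nat_lit 0) (nat_lit 0) (XT.nd (nat_lit 702) (nat_lit 4712) (nat_lit 0) (XT.nd (nat_lit 312) (nat_lit 2660) (nat_lit 0) (XT.nd (nat_lit 156) (nat_lit 912) (nat_lit 0) (XT.nd (nat_lit 78) (nat_lit 912) (nat_lit 0) (XT.lf (nat_lit 0) (nat_lit 3527224767) (nat_lit 1216) (nat_lit 4400189412) (nat_lit 76) (nat_lit 2332020208) (nat_lit 471) (nat_lit 5) (nat_lit 487) (nat_lit 5) (nat_lit 472) (nat_lit 5) (nat_lit 439) (nat_lit 408) (nat_lit 293)) (XT.lf (nat_lit 0) (nat_lit 1527530930) (nat_lit 912) (nat_lit 3747929874) (nat_lit 988) (nat_lit 5083055978) (nat_lit 459) (nat_lit 5) (nat_lit 471) (nat_lit 5) (nat_lit 472) (nat_lit 5) (nat_lit 440) (nat_lit 408) (nat_lit 292))) (XT.nd (nat_lit 78) (nat_lit 912) (nat_lit 0) (XT.lf (nat_lit 0) (nat_lit 7072273207) (nat_lit 988) (nat_lit 2847746344) (nat_lit 76) (nat_lit 539289042) (nat_lit 459) (nat_lit 5) (nat_lit 472) (nat_lit 5) (nat_lit 460) (nat_lit 5) (nat_lit 441)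 (nat_lit 408) (nat_lit 291)) (XT.lf (nat_lit 0) (nat_lit 3254722247) (nat_lit 912) (nat_lit 5677177498) (nat_lit 988) (nat_lit 1629678936) (nat_lit 447) (nat_lit 5) (nat_lit 459) (nat_lit 5) (nat_lit 460) (nat_lit 5) (nat_lit 442) (nat_lit 408) (nat_lit 290)))) (XT.nd (nat_lit 156) (nat_lit 1748) (nat_lit 0) (XT.nd (nat_lit 78) (nat_lit 836) (nat_lit 0) (XT.lf (nat_lit 0) (nat_lit 160982289) (nat_lit 988) (nat_lit 1167286124) (nat_lit 76) (nat_lit 9337598754) (nat_lit 446) (nat_lit 5) (nat_lit 459) (nat_lit 5) (nat_lit 447) (nat_lit 5) (nat_lit 443) (nat_lit 408) (nat_lit 289)) (XT.lf (nat_lit 0) (nat_lit 2000886383) (nat_lit 912) (nat_lit 5658663441) (nat_lit 76) (nat_lit 3111771133) (nat_lit 435) (nat_lit 5) (nat_lit 447) (nat_lit 5) (nat_lit 436) (nat_lit 5) (nat_lit 444) (nat_lit 408) (nat_lit 288))) (XT.nd (nat_lit 78) (nat_lit 836) (nat_lit 0) (XT.lf (nat_lit 0) (nat_lit 636473673) (nat_lit 912) (nat_lit 3243606891) (nat_lit 988) (nat_lit 6998753419) (nat_lit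 423) (nat_lit 5) (nat_lit 435) (nat_lit 5) (nat_lit 436) (nat_lit 5) (nat_lit 445) (nat_lit 408) (nat_lit 287)) (XT.nd (nat_lit 78) (nat_lit 836) (nat_lit 0) (XT.lf (nat_lit 0) (nat_lit 5825186164) (nat_lit 988) (nat_lit 3880517579) (nat_lit 76) (nat_lit 1282226976) (nat_lit 423) (nat_lit 5) (nat_lit 436) (nat_lit 5) (nat_lit 424) (nat_lit 5) (nat_lit 446) (nat_lit 408) (nat_lit 286)) (XT.lf (nat_lit 0) (nat_lit 2603022746) (nat_lit 836) (nat_lit 5226825501) (nat_lit 912) (nat_lit 3268948055) (nat_lit 412) (nat_lit 5) (nat_lit 423) (nat_lit 5) (nat_lit 424) (nat_lit 5) (nat_lit 447) (nat_lit 408) (nat_lit 285)))))) (XT.nd (nat_lit 390) (nat_lit 2280) (nat_lit 0) (XT.nd (nat_lit 156) (nat_lit 1520) (nat_lit 0) (XT.nd (nat_lit 78) (nat_lit 912) (nat_lit 0) (XT.lf (nat_lit 0) (nat_lit 9250757505) (nat_lit 836) (nat_lit 632389579) (nat_lit 912) (nat_lit 1328561242) (nat_lit 412) (nat_lit 5) (nat_lit 423) (nat_lit 5) (nat_lit 424) (nat_lit 5) (nat_lit 448) (nat_lit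 408) (nat_lit 284)) (XT.lf (nat_lit 0) (nat_lit 682186379) (nat_lit 912) (nat_lit 6608453994) (nat_lit 76) (nat_lit 4035352006) (nat_lit 400) (nat_lit 5) (nat_lit 412) (nat_lit 5) (nat_lit 401) (nat_lit 5) (nat_lit 449) (nat_lit 408) (nat_lit 283))) (XT.nd (nat_lit 78) (nat_lit 760) (nat_lit 0) (XT.lf (nat_lit 0) (nat_lit 83733789) (nat_lit 760) (nat_lit 2632570502) (nat_lit 836) (nat_lit 8726063291) (nat_lit 390) (nat_lit 5) (nat_lit 400) (nat_lit 5) (nat_lit 401) (nat_lit 5) (nat_lit 450) (nat_lit 408) (nat_lit 282)) (XT.nd (nat_lit 78) (nat_lit 760) (nat_lit 0) (XT.lf (nat_lit 0) (nat_lit 4832659722) (nat_lit 836) (nat_lit 4593267804) (nat_lit 76) (nat_lit 2134311661) (nat_lit 390) (nat_lit 5) (nat_lit 401) (nat_lit 5) (nat_lit 391) (nat_lit 5) (nat_lit 451) (nat_lit 408) (nat_lit 281)) (XT.lf (nat_lit 0) (nat_lit 2302145029) (nat_lit 760) (nat_lit 4705068250) (nat_lit 836) (nat_lit 4672937523) (nat_lit 380) (nat_lit 5) (nat_lit 390) (nat_lit 5) (nat_lit 391)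 (nat_lit 5) (nat_lit 452) (nat_lit 408) (nat_lit 280))))) (XT.nd (nat_lit 156) (nat_lit 1520) (nat_lit 0) (XT.nd (nat_lit 78) (nat_lit 760) (nat_lit 0) (XT.lf (nat_lit 0) (nat_lit 9240687683) (nat_lit 836) (nat_lit 2423251197) (nat_lit 76) (nat_lit 138213174) (nat_lit 380) (nat_lit 5) (nat_lit 391) (nat_lit 5) (nat_lit 381) (nat_lit 5) (nat_lit 453) (nat_lit 408) (nat_lit 279)) (XT.lf (nat_lit 0) (nat_lit 4682998213) (nat_lit 760) (nat_lit 6881404607) (nat_lit 836) (nat_lit 361279087) (nat_lit 370) (nat_lit 5) (nat_lit 380) (nat_lit 5) (nat_lit 381) (nat_lit 5) (nat_lit 454) (nat_lit 408) (nat_lit 278))) (XT.nd (nat_lit 78) (nat_lit 1444) (nat_lit 0) (XT.lf (nat_lit 0) (nat_lit 1858684706) (nat_lit 836) (nat_lit 117422530) (nat_lit 76) (nat_lit 10075321228) (nat_lit 369) (nat_lit 5) (nat_lit 380) (nat_lit 5) (nat_lit 370) (nat_lit 5) (nat_lit 455) (nat_lit 408) (nat_lit 277)) (XT.nd (nat_lit 78) (nat_lit 684) (nat_lit 0) (XT.lf (nat_lit 0) (nat_lit 4169505899)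 (nat_lit 836) (nat_lit 4973875431) (nat_lit 76) (nat_lit 3035234949) (nat_lit 359) (nat_lit 5) (nat_lit 370) (nat_lit 5) (nat_lit 360) (nat_lit 5) (nat_lit 456) (nat_lit 408) (nat_lit 276)) (XT.lf (nat_lit 0) (nat_lit 2366776215) (nat_lit 684) (nat_lit 4173604797) (nat_lit 760) (nat_lit 5767690088) (nat_lit 350) (nat_lit 5) (nat_lit 359) (nat_lit 5) (nat_lit 360) (nat_lit 5) (nat_lit 457) (nat_lit 408) (nat_lit 275))))))) (XT.nd (nat_lit 56160) (nat_lit 0) (nat_lit 17024) (XT.nd (nat_lit 55770) (nat_lit 0) (nat_lit 19836) (XT.nd (nat_lit 55614) (nat_lit 0) (nat_lit 19760) (XT.nd (nat_lit 55536) (nat_lit 0) (nat_lit 21204) (XT.lf (nat_lit 0) (nat_lit 8982849052) (nat_lit 760) (nat_lit 2541771218) (nat_lit 76) (nat_lit 915011239) (nat_lit 350) (nat_lit 5) (nat_lit 360) (nat_lit 5) (nat_lit 351) (nat_lit 5) (nat_lit 458) (nat_lit 408) (nat_lit 274)) (XT.lf (nat_lit 0) (nat_lit 3231422082) (nat_lit 1444) (nat_lit 394621124) (nat_lit 1444) (nat_lit 394621124) (nat_lit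 629) (nat_lit 3) (nat_lit 648) (nat_lit 3) (nat_lit 648) (nat_lit 5) (nat_lit 409) (nat_lit 409) (nat_lit 322))) (XT.nd (nat_lit 78) (nat_lit 1444) (nat_lit 0) (XT.lf (nat_lit 76) (nat_lit 3274365980) (nat_lit 0) (nat_lit 4471141058) (nat_lit 1444) (nat_lit 351874221) (nat_lit 630) (nat_lit 5) (nat_lit 629) (nat_lit 3) (nat_lit 648) (nat_lit 5) (nat_lit 410) (nat_lit 409) (nat_lit 321)) (XT.lf (nat_lit 0) (nat_lit 861099741) (nat_lit 1444) (nat_lit 747021898) (nat_lit 1520) (nat_lit 6546843986) (nat_lit 610) (nat_lit 5) (nat_lit 629) (nat_lit 3) (nat_lit 630) (nat_lit 5) (nat_lit 411) (nat_lit 409) (nat_lit 320)))) (XT.nd (nat_lit 156) (nat_lit 0) (nat_lit 0) (XT.nd (nat_lit 78) (nat_lit 0) (nat_lit 0) (XT.lf (nat_lit 0) (nat_lit 2093635162) (nat_lit 1444) (nat_lit 4785689678) (nat_lit 1520) (nat_lit 1334330051) (nat_lit 611) (nat_lit 5) (nat_lit 630) (nat_lit 5) (nat_lit 631) (nat_lit 5) (nat_lit 412) (nat_lit 409) (nat_lit 319)) (XT.lf (nat_lit 0) (nat_lit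 3336030674) (nat_lit 1444) (nat_lit 604437689) (nat_lit 1520) (nat_lit 4333345388) (nat_lit 611) (nat_lit 5) (nat_lit 630) (nat_lit 5) (nat_lit 631) (nat_lit 5) (nat_lit 413) (nat_lit 409) (nat_lit 318))) (XT.nd (nat_lit 78) (nat_lit 0) (nat_lit 76) (XT.lf (nat_lit 76) (nat_lit 3692280791) (nat_lit 0) (nat_lit 905077280) (nat_lit 1520) (nat_lit 3737936040) (nat_lit 612) (nat_lit 5) (nat_lit 611) (nat_lit 5) (nat_lit 631) (nat_lit 5) (nat_lit 414) (nat_lit 409) (nat_lit 317)) (XT.nd (nat_lit 78) (nat_lit 0) (nat_lit 0) (XT.lf (nat_lit 0) (nat_lit 5872894854) (nat_lit 1444) (nat_lit 346194979) (nat_lit 1520) (nat_lit 2179134588) (nat_lit 612) (nat_lit 5) (nat_lit 631) (nat_lit 5) (nat_lit 632) (nat_lit 5) (nat_lit 415) (nat_lit 409) (nat_lit 316)) (XT.lf (nat_lit 76) (nat_lit 4067096194) (nat_lit 0) (nat_lit 3110495681) (nat_lit 1520) (nat_lit 1284748473) (nat_lit 613) (nat_lit 5) (nat_lit 612) (nat_lit 5) (nat_lit 632) (nat_lit 5) (nat_lit 416) (nat_lit 409) (nat_lit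 315)))))) (XT.nd (nat_lit 390) (nat_lit 1444) (nat_lit 0) (XT.nd (nat_lit 156) (nat_lit 0) (nat_lit 0) (XT.nd (nat_lit 78) (nat_lit 1520) (nat_lit 0) (XT.lf (nat_lit 76) (nat_lit 28277042) (nat_lit 0) (nat_lit 8454799166) (nat_lit 1520) (nat_lit 45168517) (nat_lit 614) (nat_lit 5) (nat_lit 613) (nat_lit 5) (nat_lit 633) (nat_lit 5) (nat_lit 417) (nat_lit 409) (nat_lit 314)) (XT.lf (nat_lit 0) (nat_lit 1225539458) (nat_lit 1520) (nat_lit 4041338924) (nat_lit 1596) (nat_lit 3327983961) (nat_lit 593) (nat_lit 5) (nat_lit 613) (nat_lit 5) (nat_lit 614) (nat_lit 5) (nat_lit 418) (nat_lit 409) (nat_lit 313))) (XT.nd (nat_lit 78) (nat_lit 0) (nat_lit 76) (XT.lf (nat_lit 76) (nat_lit 495407239) (nat_lit 0) (nat_lit 2001452359) (nat_lit 1596) (nat_lit 6166430686) (nat_lit 594) (nat_lit 5) (nat_lit 593) (nat_lit 5) (nat_lit 614) (nat_lit 5) (nat_lit 419) (nat_lit 409) (nat_lit 312)) (XT.nd (nat_lit 78) (nat_lit 0) (nat_lit 0) (XT.lf (nat_lit 0) (nat_lit 3802611762) (nat_lit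 1520) (nat_lit 3581428426) (nat_lit 1596) (nat_lit 1348866486) (nat_lit 594) (nat_lit 5) (nat_lit 614) (nat_lit 5) (nat_lit 615) (nat_lit 5) (nat_lit 420) (nat_lit 409) (nat_lit 311)) (XT.lf (nat_lit 76) (nat_lit 1080272934) (nat_lit 0) (nat_lit 4048078384) (nat_lit 1596) (nat_lit 3675686625) (nat_lit 595) (nat_lit 5) (nat_lit 594) (nat_lit 5) (nat_lit 615) (nat_lit 5) (nat_lit 421) (nat_lit 409) (nat_lit 310))))) (XT.nd (nat_lit 156) (nat_lit 1520) (nat_lit 0) (XT.nd (nat_lit 78) (nat_lit 0) (nat_lit 76) (XT.lf (nat_lit 76) (nat_lit 5866474297) (nat_lit 0) (nat_lit 612173857) (nat_lit 1596) (nat_lit 2397982834) (nat_lit 595) (nat_lit 5) (nat_lit 594) (nat_lit 5) (nat_lit 615) (nat_lit 5) (nat_lit 422) (nat_lit 409) (nat_lit 309)) (XT.lf (nat_lit 76) (nat_lit 1784845218) (nat_lit 0) (nat_lit 6076048088) (nat_lit 1596) (nat_lit 1089683741) (nat_lit 596) (nat_lit 5) (nat_lit 595) (nat_lit 5) (nat_lit 616) (nat_lit 5) (nat_lit 423) (nat_lit 409) (nat_lit 308)))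 (XT.nd (nat_lit 78) (nat_lit 0) (nat_lit 76) (XT.lf (nat_lit 0) (nat_lit 240752697) (nat_lit 1596) (nat_lit 2332551824) (nat_lit 1672) (nat_lit 6452682085) (nat_lit 574) (nat_lit 5) (nat_lit 595) (nat_lit 5) (nat_lit 596) (nat_lit 5) (nat_lit 424) (nat_lit 409) (nat_lit 307)) (XT.nd (nat_lit 78) (nat_lit 0) (nat_lit 0) (XT.lf (nat_lit 0) (nat_lit 1582131441) (nat_lit 1596) (nat_lit 6502727154) (nat_lit 1672) (nat_lit 1017923217) (nat_lit 575) (nat_lit 5) (nat_lit 596) (nat_lit 5) (nat_lit 597) (nat_lit 5) (nat_lit 425) (nat_lit 409) (nat_lit 306)) (XT.lf (nat_lit 0) (nat_lit 2958842505) (nat_lit 1596) (nat_lit 1552811674) (nat_lit 1672) (nat_lit 4669288648) (nat_lit 575) (nat_lit 5) (nat_lit 596) (nat_lit 5) (nat_lit 597) (nat_lit 5) (nat_lit 426) (nat_lit 409) (nat_lit 305))))))))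
noncomputable def xc107 : XT := (XT.nd (nat_lit 1482) (nat_lit 6460) (nat_lit 0) (XT.nd (nat_lit 702) (nat_lit 7524) (nat_lit 0) (XT.nd (nat_lit 312) (nat_lit 3116) (nat_lit 0) (XT.nd (nat_lit 156) (nat_lit 0) (nat_lit 76) (XT.nd (nat_lit 78) (nat_lit 0) (nat_lit 76) (XT.lf (nat_lit 76) (nat_lit 3524882546) (nat_lit 0) (nat_lit 837274142) (nat_lit 1672) (nat_lit 4898528997) (nat_lit 576) (nat_lit 5) (nat_lit 575) (nat_lit 5) (nat_lit 597) (nat_lit 5) (nat_lit 427) (nat_lit 409) (nat_lit 304)) (XT.lf (nat_lit 0) (nat_lit 5799501116) (nat_lit 1596) (nat_lit 653445366) (nat_lit 1672) (nat_lit 2888957638) (nat_lit 576) (nat_lit 5) (nat_lit 597) (nat_lit 5) (nat_lit 598) (nat_lit 5) (nat_lit 428) (nat_lit 409) (nat_lit 303))) (XT.nd (nat_lit 78) (nat_lit 0) (nat_lit 76) (XT.lf (nat_lit 76) (nat_lit 4567423874) (nat_lit 0) (nat_lit 2710404701) (nat_lit 1672) (nat_lit 2146673627) (nat_lit 577) (nat_lit 5) (nat_lit 576) (nat_lit 5) (nat_lit 598) (nat_lit 5) (nat_lit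 429) (nat_lit 409) (nat_lit 302)) (XT.lf (nat_lit 76) (nat_lit 372710487) (nat_lit 0) (nat_lit 8404441320) (nat_lit 1672) (nat_lit 731771853) (nat_lit 578) (nat_lit 5) (nat_lit 577) (nat_lit 5) (nat_lit 599) (nat_lit 5) (nat_lit 430) (nat_lit 409) (nat_lit 301)))) (XT.nd (nat_lit 156) (nat_lit 1596) (nat_lit 0) (XT.nd (nat_lit 78) (nat_lit 0) (nat_lit 0) (XT.lf (nat_lit 0) (nat_lit 730444899) (nat_lit 1672) (nat_lit 3862277460) (nat_lit 1748) (nat_lit 5001651857) (nat_lit 555) (nat_lit 5) (nat_lit 577) (nat_lit 5) (nat_lit 578) (nat_lit 5) (nat_lit 431) (nat_lit 409) (nat_lit 300)) (XT.lf (nat_lit 76) (nat_lit 1514461840) (nat_lit 0) (nat_lit 685515562) (nat_lit 1748) (nat_lit 7481702246) (nat_lit 556) (nat_lit 5) (nat_lit 555) (nat_lit 5) (nat_lit 578) (nat_lit 5) (nat_lit 432) (nat_lit 409) (nat_lit 299))) (XT.nd (nat_lit 78) (nat_lit 1672) (nat_lit 0) (XT.lf (nat_lit 0) (nat_lit 3724785834) (nat_lit 1672) (nat_lit 2758753685) (nat_lit 76) (nat_lit 3286673963)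 (nat_lit 556) (nat_lit 5) (nat_lit 578) (nat_lit 5) (nat_lit 557) (nat_lit 5) (nat_lit 433) (nat_lit 409) (nat_lit 298)) (XT.nd (nat_lit 78) (nat_lit 0) (nat_lit 0) (XT.lf (nat_lit 0) (nat_lit 2772014361) (nat_lit 1672) (nat_lit 2509408767) (nat_lit 1748) (nat_lit 4579068211) (nat_lit 534) (nat_lit 5) (nat_lit 556) (nat_lit 5) (nat_lit 557) (nat_lit 5) (nat_lit 434) (nat_lit 409) (nat_lit 297)) (XT.lf (nat_lit 0) (nat_lit 6876972977) (nat_lit 1748) (nat_lit 1529564105) (nat_lit 76) (nat_lit 1545882076) (nat_lit 534) (nat_lit 5) (nat_lit 557) (nat_lit 5) (nat_lit 535) (nat_lit 5) (nat_lit 435) (nat_lit 409) (nat_lit 296)))))) (XT.nd (nat_lit 390) (nat_lit 2736) (nat_lit 0) (XT.nd (nat_lit 156) (nat_lit 2964) (nat_lit 0) (XT.nd (nat_lit 78) (nat_lit 76) (nat_lit 0) (XT.lf (nat_lit 0) (nat_lit 4160827043) (nat_lit 1748) (nat_lit 4366768186) (nat_lit 1824) (nat_lit 1518127075) (nat_lit 511) (nat_lit 5) (nat_lit 534) (nat_lit 5) (nat_lit 535) (nat_lit 5) (nat_lit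 436) (nat_lit 409) (nat_lit 295)) (XT.lf (nat_lit 0) (nat_lit 59429914) (nat_lit 1824) (nat_lit 173256497) (nat_lit 76) (nat_lit 9908395690) (nat_lit 510) (nat_lit 5) (nat_lit 534) (nat_lit 5) (nat_lit 511) (nat_lit 5) (nat_lit 437) (nat_lit 409) (nat_lit 294))) (XT.nd (nat_lit 78) (nat_lit 1140) (nat_lit 0) (XT.lf (nat_lit 0) (nat_lit 1691511766) (nat_lit 1900) (nat_lit 4564141431) (nat_lit 76) (nat_lit 3981629170) (nat_lit 486) (nat_lit 5) (nat_lit 511) (nat_lit 5) (nat_lit 487) (nat_lit 5) (nat_lit 438) (nat_lit 409) (nat_lit 293)) (XT.nd (nat_lit 78) (nat_lit 0) (nat_lit 0) (XT.lf (nat_lit 0) (nat_lit 1301199189) (nat_lit 1140) (nat_lit 2046568797) (nat_lit 1216) (nat_lit 6987807998) (nat_lit 471) (nat_lit 5) (nat_lit 486) (nat_lit 5) (nat_lit 487) (nat_lit 5) (nat_lit 439) (nat_lit 409) (nat_lit 292)) (XT.lf (nat_lit 0) (nat_lit 5063221729) (nat_lit 1216) (nat_lit 3122328665) (nat_lit 76) (nat_lit 2249763631) (nat_lit 471) (nat_lit 5) (nat_lit 487) (nat_lit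 5) (nat_lit 472) (nat_lit 5) (nat_lit 440) (nat_lit 409) (nat_lit 291))))) (XT.nd (nat_lit 156) (nat_lit 1824) (nat_lit 0) (XT.nd (nat_lit 78) (nat_lit 0) (nat_lit 0) (XT.lf (nat_lit 0) (nat_lit 2914960133) (nat_lit 912) (nat_lit 3911537748) (nat_lit 988) (nat_lit 3710278680) (nat_lit 459) (nat_lit 5) (nat_lit 471) (nat_lit 5) (nat_lit 472) (nat_lit 5) (nat_lit 441) (nat_lit 409) (nat_lit 290)) (XT.lf (nat_lit 0) (nat_lit 8630338564) (nat_lit 988) (nat_lit 1545520181) (nat_lit 76) (nat_lit 464303621) (nat_lit 459) (nat_lit 5) (nat_lit 472) (nat_lit 5) (nat_lit 460) (nat_lit 5) (nat_lit 442) (nat_lit 409) (nat_lit 289))) (XT.nd (nat_lit 78) (nat_lit 912) (nat_lit 0) (XT.lf (nat_lit 0) (nat_lit 4670055801) (nat_lit 912) (nat_lit 5838091620) (nat_lit 988) (nat_lit 236710641) (nat_lit 447) (nat_lit 5) (nat_lit 459) (nat_lit 5) (nat_lit 460) (nat_lit 5) (nat_lit 443) (nat_lit 409) (nat_lit 288)) (XT.nd (nat_lit 78) (nat_lit 0) (nat_lit 0) (XT.lf (nat_lit 0) (nat_lit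 153474735) (nat_lit 836) (nat_lit 1391003436) (nat_lit 912) (nat_lit 9307100814) (nat_lit 435) (nat_lit 5) (nat_lit 446) (nat_lit 5) (nat_lit 447) (nat_lit 5) (nat_lit 444) (nat_lit 409) (nat_lit 287)) (XT.lf (nat_lit 0) (nat_lit 3401616247) (nat_lit 912) (nat_lit 4411175334) (nat_lit 76) (nat_lit 3146741552) (nat_lit 435) (nat_lit 5) (nat_lit 447) (nat_lit 5) (nat_lit 436) (nat_lit 5) (nat_lit 445) (nat_lit 409) (nat_lit 286))))))) (XT.nd (nat_lit 702) (nat_lit 2280) (nat_lit 0) (XT.nd (nat_lit 312) (nat_lit 2432) (nat_lit 0) (XT.nd (nat_lit 156) (nat_lit 836) (nat_lit 0) (XT.nd (nat_lit 78) (nat_lit 0) (nat_lit 0) (XT.lf (nat_lit 0) (nat_lit 2000912802) (nat_lit 912) (nat_lit 3299577075) (nat_lit 988) (nat_lit 5769064631) (nat_lit 423) (nat_lit 5) (nat_lit 435) (nat_lit 5) (nat_lit 436) (nat_lit 5) (nat_lit 446) (nat_lit 409) (nat_lit 285)) (XT.lf (nat_lit 0) (nat_lit 7258224691) (nat_lit 988) (nat_lit 2606649487) (nat_lit 76) (nat_lit 1316484459) (nat_lit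 423) (nat_lit 5) (nat_lit 436) (nat_lit 5) (nat_lit 424) (nat_lit 5) (nat_lit 447) (nat_lit 409) (nat_lit 284))) (XT.nd (nat_lit 78) (nat_lit 0) (nat_lit 0) (XT.lf (nat_lit 0) (nat_lit 3997670339) (nat_lit 836) (nat_lit 5288212234) (nat_lit 912) (nat_lit 2008900907) (nat_lit 412) (nat_lit 5) (nat_lit 423) (nat_lit 5) (nat_lit 424) (nat_lit 5) (nat_lit 448) (nat_lit 409) (nat_lit 283)) (XT.lf (nat_lit 0) (nat_lit 10752034556) (nat_lit 836) (nat_lit 602733668) (nat_lit 912) (nat_lit 55695105) (nat_lit 412) (nat_lit 5) (nat_lit 423) (nat_lit 5) (nat_lit 424) (nat_lit 5) (nat_lit 449) (nat_lit 409) (nat_lit 282)))) (XT.nd (nat_lit 156) (nat_lit 760) (nat_lit 0) (XT.nd (nat_lit 78) (nat_lit 760) (nat_lit 0) (XT.lf (nat_lit 0) (nat_lit 1962060865) (nat_lit 912) (nat_lit 5391154570) (nat_lit 76) (nat_lit 4173972177) (nat_lit 400) (nat_lit 5) (nat_lit 412) (nat_lit 5) (nat_lit 401) (nat_lit 5) (nat_lit 450) (nat_lit 409) (nat_lit 281)) (XT.lf (nat_lit 0) (nat_lit 1425998887)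 (nat_lit 760) (nat_lit 2594738197) (nat_lit 836) (nat_lit 7625475716) (nat_lit 390) (nat_lit 5) (nat_lit 400) (nat_lit 5) (nat_lit 401) (nat_lit 5) (nat_lit 451) (nat_lit 409) (nat_lit 280))) (XT.nd (nat_lit 78) (nat_lit 760) (nat_lit 0) (XT.lf (nat_lit 0) (nat_lit 6155483687) (nat_lit 836) (nat_lit 3346892890) (nat_lit 76) (nat_lit 2264543977) (nat_lit 390) (nat_lit 5) (nat_lit 401) (nat_lit 5) (nat_lit 391) (nat_lit 5) (nat_lit 452) (nat_lit 409) (nat_lit 279)) (XT.nd (nat_lit 78) (nat_lit 0) (nat_lit 0) (XT.lf (nat_lit 0) (nat_lit 3677623987) (nat_lit 760) (nat_lit 4680493345) (nat_lit 836) (nat_lit 3531421290) (nat_lit 380) (nat_lit 5) (nat_lit 390) (nat_lit 5) (nat_lit 391) (nat_lit 5) (nat_lit 453) (nat_lit 409) (nat_lit 278)) (XT.lf (nat_lit 0) (nat_lit 10613276253) (nat_lit 836) (nat_lit 1145362566) (nat_lit 76) (nat_lit 255800780) (nat_lit 380) (nat_lit 5) (nat_lit 391) (nat_lit 5) (nat_lit 381) (nat_lit 5) (nat_lit 454) (nat_lit 409) (nat_lit 277))))))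 (XT.nd (nat_lit 55926) (nat_lit 0) (nat_lit 19760) (XT.nd (nat_lit 156) (nat_lit 684) (nat_lit 0) (XT.nd (nat_lit 78) (nat_lit 760) (nat_lit 0) (XT.lf (nat_lit 0) (nat_lit 817136839) (nat_lit 836) (nat_lit 6051824823) (nat_lit 76) (nat_lit 5271665564) (nat_lit 369) (nat_lit 5) (nat_lit 380) (nat_lit 5) (nat_lit 370) (nat_lit 5) (nat_lit 455) (nat_lit 409) (nat_lit 276)) (XT.lf (nat_lit 0) (nat_lit 1203185451) (nat_lit 760) (nat_lit 1858140222) (nat_lit 836) (nat_lit 9207822015) (nat_lit 359) (nat_lit 5) (nat_lit 369) (nat_lit 5) (nat_lit 370) (nat_lit 5) (nat_lit 456) (nat_lit 409) (nat_lit 275))) (XT.nd (nat_lit 78) (nat_lit 684) (nat_lit 0) (XT.lf (nat_lit 0) (nat_lit 5397291099) (nat_lit 836) (nat_lit 3752916186) (nat_lit 76) (nat_lit 3249093419) (nat_lit 359) (nat_lit 5) (nat_lit 370) (nat_lit 5) (nat_lit 360) (nat_lit 5) (nat_lit 457) (nat_lit 409) (nat_lit 274)) (XT.nd (nat_lit 55614) (nat_lit 0) (nat_lit 19760) (XT.lf (nat_lit 0) (nat_lit 3725861409) (nat_lit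 684) (nat_lit 4075799934) (nat_lit 760) (nat_lit 4729961724) (nat_lit 350) (nat_lit 5) (nat_lit 359) (nat_lit 5) (nat_lit 360) (nat_lit 5) (nat_lit 458) (nat_lit 409) (nat_lit 273)) (XT.lf (nat_lit 0) (nat_lit 202537602) (nat_lit 0) (nat_lit 202537602) (nat_lit 1444) (nat_lit 3672116064) (nat_lit 610) (nat_lit 5) (nat_lit 610) (nat_lit 3) (nat_lit 629) (nat_lit 3) (nat_lit 410) (nat_lit 410) (nat_lit 320))))) (XT.nd (nat_lit 156) (nat_lit 0) (nat_lit 76) (XT.nd (nat_lit 78) (nat_lit 0) (nat_lit 0) (XT.lf (nat_lit 0) (nat_lit 2000491305) (nat_lit 1444) (nat_lit 3681046556) (nat_lit 1520) (nat_lit 2530743714) (nat_lit 610) (nat_lit 5) (nat_lit 629) (nat_lit 3) (nat_lit 630) (nat_lit 5) (nat_lit 411) (nat_lit 410) (nat_lit 319)) (XT.lf (nat_lit 76) (nat_lit 455878092) (nat_lit 0) (nat_lit 2733928820) (nat_lit 1520) (nat_lit 5082028323) (nat_lit 611) (nat_lit 5) (nat_lit 610) (nat_lit 5) (nat_lit 630) (nat_lit 5) (nat_lit 412) (nat_lit 410) (nat_lit 318))) (XT.nd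 (nat_lit 78) (nat_lit 0) (nat_lit 0) (XT.lf (nat_lit 0) (nat_lit 4399655529) (nat_lit 1444) (nat_lit 3625164316) (nat_lit 1520) (nat_lit 307825189) (nat_lit 611) (nat_lit 5) (nat_lit 630) (nat_lit 5) (nat_lit 631) (nat_lit 5) (nat_lit 413) (nat_lit 410) (nat_lit 317)) (XT.nd (nat_lit 78) (nat_lit 0) (nat_lit 0) (XT.lf (nat_lit 76) (nat_lit 623254668) (nat_lit 0) (nat_lit 5003295814) (nat_lit 1520) (nat_lit 2768263561) (nat_lit 612) (nat_lit 5) (nat_lit 611) (nat_lit 5) (nat_lit 631) (nat_lit 5) (nat_lit 414) (nat_lit 410) (nat_lit 316)) (XT.lf (nat_lit 76) (nat_lit 4989630744) (nat_lit 0) (nat_lit 1883846341) (nat_lit 1520) (nat_lit 1584839471) (nat_lit 612) (nat_lit 5) (nat_lit 611) (nat_lit 5) (nat_lit 631) (nat_lit 5) (nat_lit 415) (nat_lit 410) (nat_lit 315))))))))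
noncomputable def xc108 : XT := (XT.nd (nat_lit 1482) (nat_lit 12540) (nat_lit 0) (XT.nd (nat_lit 702) (nat_lit 1444) (nat_lit 0) (XT.nd (nat_lit 312) (nat_lit 1368) (nat_lit 0) (XT.nd (nat_lit 156) (nat_lit 0) (nat_lit 0) (XT.nd (nat_lit 78) (nat_lit 1520) (nat_lit 0) (XT.lf (nat_lit 76) (nat_lit 907235624) (nat_lit 0) (nat_lit 7224237464) (nat_lit 1520) (nat_lit 391893415) (nat_lit 613) (nat_lit 5) (nat_lit 612) (nat_lit 5) (nat_lit 632) (nat_lit 5) (nat_lit 416) (nat_lit 410) (nat_lit 314)) (XT.lf (nat_lit 0) (nat_lit 822075100) (nat_lit 1520) (nat_lit 3206286702) (nat_lit 1596) (nat_lit 4561088881) (nat_lit 592) (nat_lit 5) (nat_lit 612) (nat_lit 5) (nat_lit 613) (nat_lit 5) (nat_lit 417) (nat_lit 410) (nat_lit 313))) (XT.nd (nat_lit 78) (nat_lit 0) (nat_lit 76) (XT.lf (nat_lit 76) (nat_lit 1289658035) (nat_lit 0) (nat_lit 746418992) (nat_lit 1596) (nat_lit 6621107681) (nat_lit 593) (nat_lit 5) (nat_lit 592) (nat_lit 5) (nat_lit 613) (nat_lit 5) (nat_lit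 418) (nat_lit 410) (nat_lit 312)) (XT.lf (nat_lit 0) (nat_lit 3286029097) (nat_lit 1520) (nat_lit 2840805427) (nat_lit 1596) (nat_lit 2599205488) (nat_lit 593) (nat_lit 5) (nat_lit 613) (nat_lit 5) (nat_lit 614) (nat_lit 5) (nat_lit 419) (nat_lit 410) (nat_lit 311)))) (XT.nd (nat_lit 156) (nat_lit 1444) (nat_lit 0) (XT.nd (nat_lit 78) (nat_lit 0) (nat_lit 76) (XT.lf (nat_lit 76) (nat_lit 1778245658) (nat_lit 0) (nat_lit 2772873537) (nat_lit 1596) (nat_lit 4245350447) (nat_lit 594) (nat_lit 5) (nat_lit 593) (nat_lit 5) (nat_lit 614) (nat_lit 5) (nat_lit 420) (nat_lit 410) (nat_lit 310)) (XT.lf (nat_lit 0) (nat_lit 5839030391) (nat_lit 1520) (nat_lit 2361130127) (nat_lit 1596) (nat_lit 668196961) (nat_lit 594) (nat_lit 5) (nat_lit 614) (nat_lit 5) (nat_lit 615) (nat_lit 5) (nat_lit 421) (nat_lit 410) (nat_lit 309))) (XT.nd (nat_lit 78) (nat_lit 1520) (nat_lit 0) (XT.lf (nat_lit 76) (nat_lit 2385305741) (nat_lit 0) (nat_lit 4775873301) (nat_lit 1596) (nat_lit 1780334445)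 (nat_lit 595) (nat_lit 5) (nat_lit 594) (nat_lit 5) (nat_lit 615) (nat_lit 5) (nat_lit 422) (nat_lit 410) (nat_lit 308)) (XT.nd (nat_lit 78) (nat_lit 1520) (nat_lit 0) (XT.lf (nat_lit 76) (nat_lit 7242065889) (nat_lit 0) (nat_lit 1258567677) (nat_lit 1596) (nat_lit 515681792) (nat_lit 595) (nat_lit 5) (nat_lit 594) (nat_lit 5) (nat_lit 615) (nat_lit 5) (nat_lit 423) (nat_lit 410) (nat_lit 307)) (XT.lf (nat_lit 0) (nat_lit 775071545) (nat_lit 1596) (nat_lit 5985278947) (nat_lit 1672) (nat_lit 2331942990) (nat_lit 574) (nat_lit 5) (nat_lit 595) (nat_lit 5) (nat_lit 596) (nat_lit 5) (nat_lit 424) (nat_lit 410) (nat_lit 306)))))) (XT.nd (nat_lit 390) (nat_lit 1444) (nat_lit 0) (XT.nd (nat_lit 156) (nat_lit 0) (nat_lit 76) (XT.nd (nat_lit 78) (nat_lit 0) (nat_lit 76) (XT.lf (nat_lit 0) (nat_lit 2080834158) (nat_lit 1596) (nat_lit 1088466517) (nat_lit 1672) (nat_lit 6000500334) (nat_lit 574) (nat_lit 5) (nat_lit 595) (nat_lit 5) (nat_lit 596) (nat_lit 5) (nat_lit 425)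 (nat_lit 410) (nat_lit 305)) (XT.lf (nat_lit 0) (nat_lit 3417969050) (nat_lit 1596) (nat_lit 5310973927) (nat_lit 1672) (nat_lit 519810572) (nat_lit 575) (nat_lit 5) (nat_lit 596) (nat_lit 5) (nat_lit 597) (nat_lit 5) (nat_lit 426) (nat_lit 410) (nat_lit 304))) (XT.nd (nat_lit 78) (nat_lit 0) (nat_lit 0) (XT.lf (nat_lit 0) (nat_lit 4786837963) (nat_lit 1596) (nat_lit 287977937) (nat_lit 1672) (nat_lit 4254369412) (nat_lit 575) (nat_lit 5) (nat_lit 596) (nat_lit 5) (nat_lit 597) (nat_lit 5) (nat_lit 427) (nat_lit 410) (nat_lit 303)) (XT.nd (nat_lit 78) (nat_lit 0) (nat_lit 76) (XT.lf (nat_lit 76) (nat_lit 4882744576) (nat_lit 0) (nat_lit 1309149559) (nat_lit 1672) (nat_lit 3219155377) (nat_lit 576) (nat_lit 5) (nat_lit 575) (nat_lit 5) (nat_lit 597) (nat_lit 5) (nat_lit 428) (nat_lit 410) (nat_lit 302)) (XT.lf (nat_lit 76) (nat_lit 641079154) (nat_lit 0) (nat_lit 6984004989) (nat_lit 1672) (nat_lit 1869466199) (nat_lit 577) (nat_lit 5) (nat_lit 576) (nat_lit 5)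 (nat_lit 598) (nat_lit 5) (nat_lit 429) (nat_lit 410) (nat_lit 301))))) (XT.nd (nat_lit 156) (nat_lit 0) (nat_lit 0) (XT.nd (nat_lit 78) (nat_lit 1596) (nat_lit 0) (XT.lf (nat_lit 76) (nat_lit 5949410637) (nat_lit 0) (nat_lit 3154345065) (nat_lit 1672) (nat_lit 475629132) (nat_lit 577) (nat_lit 5) (nat_lit 576) (nat_lit 5) (nat_lit 598) (nat_lit 5) (nat_lit 430) (nat_lit 410) (nat_lit 300)) (XT.lf (nat_lit 0) (nat_lit 927831266) (nat_lit 1672) (nat_lit 7973924303) (nat_lit 1748) (nat_lit 764154501) (nat_lit 555) (nat_lit 5) (nat_lit 577) (nat_lit 5) (nat_lit 578) (nat_lit 5) (nat_lit 431) (nat_lit 410) (nat_lit 299))) (XT.nd (nat_lit 78) (nat_lit 0) (nat_lit 0) (XT.lf (nat_lit 0) (nat_lit 2376866828) (nat_lit 1672) (nat_lit 2625633830) (nat_lit 1748) (nat_lit 4751124782) (nat_lit 555) (nat_lit 5) (nat_lit 577) (nat_lit 5) (nat_lit 578) (nat_lit 5) (nat_lit 432) (nat_lit 410) (nat_lit 298)) (XT.nd (nat_lit 78) (nat_lit 0) (nat_lit 76) (XT.lf (nat_lit 76) (nat_lit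 2849996248) (nat_lit 0) (nat_lit 1002271916) (nat_lit 1748) (nat_lit 5990879253) (nat_lit 556) (nat_lit 5) (nat_lit 555) (nat_lit 5) (nat_lit 578) (nat_lit 5) (nat_lit 433) (nat_lit 410) (nat_lit 297)) (XT.lf (nat_lit 0) (nat_lit 5374108647) (nat_lit 1672) (nat_lit 1500812512) (nat_lit 76) (nat_lit 3059200051) (nat_lit 556) (nat_lit 5) (nat_lit 578) (nat_lit 5) (nat_lit 557) (nat_lit 5) (nat_lit 434) (nat_lit 410) (nat_lit 296))))))) (XT.nd (nat_lit 702) (nat_lit 5244) (nat_lit 0) (XT.nd (nat_lit 312) (nat_lit 2052) (nat_lit 0) (XT.nd (nat_lit 156) (nat_lit 3648) (nat_lit 0) (XT.nd (nat_lit 78) (nat_lit 0) (nat_lit 0) (XT.lf (nat_lit 0) (nat_lit 4131931972) (nat_lit 1672) (nat_lit 2807537285) (nat_lit 1748) (nat_lit 3087183557) (nat_lit 534) (nat_lit 5) (nat_lit 556) (nat_lit 5) (nat_lit 557) (nat_lit 5) (nat_lit 435) (nat_lit 410) (nat_lit 295)) (XT.lf (nat_lit 0) (nat_lit 8534912311) (nat_lit 1748) (nat_lit 249238259) (nat_lit 76) (nat_lit 1336908973) (nat_lit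 534) (nat_lit 5) (nat_lit 557) (nat_lit 5) (nat_lit 535) (nat_lit 5) (nat_lit 436) (nat_lit 410) (nat_lit 294))) (XT.nd (nat_lit 78) (nat_lit 1900) (nat_lit 0) (XT.lf (nat_lit 0) (nat_lit 5546336257) (nat_lit 1748) (nat_lit 4650854337) (nat_lit 1824) (nat_lit 19465287) (nat_lit 511) (nat_lit 5) (nat_lit 534) (nat_lit 5) (nat_lit 535) (nat_lit 5) (nat_lit 437) (nat_lit 410) (nat_lit 293)) (XT.lf (nat_lit 0) (nat_lit 1134576291) (nat_lit 1824) (nat_lit 412791878) (nat_lit 1900) (nat_lit 8766800580) (nat_lit 486) (nat_lit 5) (nat_lit 510) (nat_lit 5) (nat_lit 511) (nat_lit 5) (nat_lit 438) (nat_lit 410) (nat_lit 292)))) (XT.nd (nat_lit 156) (nat_lit 912) (nat_lit 0) (XT.nd (nat_lit 78) (nat_lit 1140) (nat_lit 0) (XT.lf (nat_lit 0) (nat_lit 3182970286) (nat_lit 1900) (nat_lit 3337251562) (nat_lit 76) (nat_lit 3892653600) (nat_lit 486) (nat_lit 5) (nat_lit 511) (nat_lit 5) (nat_lit 487) (nat_lit 5) (nat_lit 439) (nat_lit 410) (nat_lit 291)) (XT.lf (nat_lit 0) (nat_lit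 2636723682) (nat_lit 1140) (nat_lit 2215549148) (nat_lit 1216) (nat_lit 5661263684) (nat_lit 471) (nat_lit 5) (nat_lit 486) (nat_lit 5) (nat_lit 487) (nat_lit 5) (nat_lit 440) (nat_lit 410) (nat_lit 290))) (XT.nd (nat_lit 78) (nat_lit 912) (nat_lit 0) (XT.lf (nat_lit 0) (nat_lit 6573033326) (nat_lit 1216) (nat_lit 1871948888) (nat_lit 76) (nat_lit 2170867149) (nat_lit 471) (nat_lit 5) (nat_lit 487) (nat_lit 5) (nat_lit 472) (nat_lit 5) (nat_lit 441) (nat_lit 410) (nat_lit 289)) (XT.nd (nat_lit 78) (nat_lit 0) (nat_lit 0) (XT.lf (nat_lit 0) (nat_lit 4277448671) (nat_lit 912) (nat_lit 4074975420) (nat_lit 988) (nat_lit 2367300076) (nat_lit 459) (nat_lit 5) (nat_lit 471) (nat_lit 5) (nat_lit 472) (nat_lit 5) (nat_lit 442) (nat_lit 410) (nat_lit 288)) (XT.lf (nat_lit 0) (nat_lit 10164556151) (nat_lit 988) (nat_lit 270028154) (nat_lit 76) (nat_lit 391149093) (nat_lit 459) (nat_lit 5) (nat_lit 472) (nat_lit 5) (nat_lit 460) (nat_lit 5) (nat_lit 443) (nat_lit 410) (nat_lit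 287)))))) (XT.nd (nat_lit 390) (nat_lit 2508) (nat_lit 0) (XT.nd (nat_lit 156) (nat_lit 912) (nat_lit 0) (XT.nd (nat_lit 78) (nat_lit 836) (nat_lit 0) (XT.lf (nat_lit 0) (nat_lit 1113956814) (nat_lit 988) (nat_lit 4878952516) (nat_lit 76) (nat_lit 4939832544) (nat_lit 446) (nat_lit 5) (nat_lit 459) (nat_lit 5) (nat_lit 447) (nat_lit 5) (nat_lit 444) (nat_lit 410) (nat_lit 286)) (XT.lf (nat_lit 0) (nat_lit 1463665966) (nat_lit 836) (nat_lit 1445909134) (nat_lit 912) (nat_lit 8132351318) (nat_lit 435) (nat_lit 5) (nat_lit 446) (nat_lit 5) (nat_lit 447) (nat_lit 5) (nat_lit 445) (nat_lit 410) (nat_lit 285))) (XT.nd (nat_lit 78) (nat_lit 912) (nat_lit 0) (XT.lf (nat_lit 0) (nat_lit 4777522598) (nat_lit 912) (nat_lit 3191573605) (nat_lit 76) (nat_lit 3183470112) (nat_lit 435) (nat_lit 5) (nat_lit 447) (nat_lit 5) (nat_lit 436) (nat_lit 5) (nat_lit 446) (nat_lit 410) (nat_lit 284)) (XT.nd (nat_lit 78) (nat_lit 0) (nat_lit 0) (XT.lf (nat_lit 0) (nat_lit 3340152181)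 (nat_lit 912) (nat_lit 3357012337) (nat_lit 988) (nat_lit 4567967784) (nat_lit 423) (nat_lit 5) (nat_lit 435) (nat_lit 5) (nat_lit 436) (nat_lit 5) (nat_lit 447) (nat_lit 410) (nat_lit 283)) (XT.lf (nat_lit 0) (nat_lit 8668801337) (nat_lit 988) (nat_lit 1359783588) (nat_lit 76) (nat_lit 1351092642) (nat_lit 423) (nat_lit 5) (nat_lit 436) (nat_lit 5) (nat_lit 424) (nat_lit 5) (nat_lit 448) (nat_lit 410) (nat_lit 282))))) (XT.nd (nat_lit 156) (nat_lit 760) (nat_lit 0) (XT.nd (nat_lit 78) (nat_lit 912) (nat_lit 0) (XT.lf (nat_lit 0) (nat_lit 5368076589) (nat_lit 836) (nat_lit 5352502261) (nat_lit 912) (nat_lit 775120727) (nat_lit 412) (nat_lit 5) (nat_lit 423) (nat_lit 5) (nat_lit 424) (nat_lit 5) (nat_lit 449) (nat_lit 410) (nat_lit 281)) (XT.lf (nat_lit 0) (nat_lit 618412509) (nat_lit 836) (nat_lit 562136734) (nat_lit 912) (nat_lit 10433398466) (nat_lit 400) (nat_lit 5) (nat_lit 411) (nat_lit 5) (nat_lit 412) (nat_lit 5) (nat_lit 450) (nat_lit 410) (nat_lit 280)))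 (XT.nd (nat_lit 78) (nat_lit 760) (nat_lit 0) (XT.lf (nat_lit 0) (nat_lit 3218363557) (nat_lit 912) (nat_lit 4201910664) (nat_lit 76) (nat_lit 4313115914) (nat_lit 400) (nat_lit 5) (nat_lit 412) (nat_lit 5) (nat_lit 401) (nat_lit 5) (nat_lit 451) (nat_lit 410) (nat_lit 279)) (XT.nd (nat_lit 78) (nat_lit 0) (nat_lit 0) (XT.lf (nat_lit 0) (nat_lit 2743052527) (nat_lit 760) (nat_lit 2559662838) (nat_lit 836) (nat_lit 6552390421) (nat_lit 390) (nat_lit 5) (nat_lit 400) (nat_lit 5) (nat_lit 401) (nat_lit 5) (nat_lit 452) (nat_lit 410) (nat_lit 278)) (XT.lf (nat_lit 0) (nat_lit 7457150427) (nat_lit 836) (nat_lit 2127555978) (nat_lit 76) (nat_lit 2393981420) (nat_lit 390) (nat_lit 5) (nat_lit 401) (nat_lit 5) (nat_lit 391) (nat_lit 5) (nat_lit 453) (nat_lit 410) (nat_lit 277))))))))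
noncomputable def xc109 : XT := (XT.nd (nat_lit 57174) (nat_lit 0) (nat_lit 6612) (XT.nd (nat_lit 56394) (nat_lit 0) (nat_lit 16264) (XT.nd (nat_lit 56004) (nat_lit 0) (nat_lit 19076) (XT.nd (nat_lit 156) (nat_lit 836) (nat_lit 0) (XT.nd (nat_lit 78) (nat_lit 760) (nat_lit 0) (XT.lf (nat_lit 0) (nat_lit 5028988903) (nat_lit 760) (nat_lit 4660035286) (nat_lit 836) (nat_lit 2415030316) (nat_lit 380) (nat_lit 5) (nat_lit 390) (nat_lit 5) (nat_lit 391) (nat_lit 5) (nat_lit 454) (nat_lit 410) (nat_lit 276)) (XT.lf (nat_lit 0) (nat_lit 107996299) (nat_lit 760) (nat_lit 11859898734) (nat_lit 836) (nat_lit 263986292) (nat_lit 370) (nat_lit 5) (nat_lit 380) (nat_lit 5) (nat_lit 381) (nat_lit 5) (nat_lit 455) (nat_lit 410) (nat_lit 275))) (XT.nd (nat_lit 78) (nat_lit 760) (nat_lit 0) (XT.lf (nat_lit 0) (nat_lit 1968435846) (nat_lit 836) (nat_lit 4891315791) (nat_lit 76) (nat_lit 5500989008) (nat_lit 369) (nat_lit 5) (nat_lit 380) (nat_lit 5) (nat_lit 370) (nat_lit 5) (nat_lit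 456) (nat_lit 410) (nat_lit 274)) (XT.lf (nat_lit 0) (nat_lit 2500363468) (nat_lit 760) (nat_lit 1743156847) (nat_lit 836) (nat_lit 8248590964) (nat_lit 359) (nat_lit 5) (nat_lit 369) (nat_lit 5) (nat_lit 370) (nat_lit 5) (nat_lit 457) (nat_lit 410) (nat_lit 273)))) (XT.nd (nat_lit 156) (nat_lit 0) (nat_lit 0) (XT.nd (nat_lit 78) (nat_lit 0) (nat_lit 0) (XT.lf (nat_lit 0) (nat_lit 785599344) (nat_lit 0) (nat_lit 785599344) (nat_lit 1444) (nat_lit 2564375966) (nat_lit 610) (nat_lit 5) (nat_lit 610) (nat_lit 3) (nat_lit 629) (nat_lit 3) (nat_lit 411) (nat_lit 411) (nat_lit 318)) (XT.lf (nat_lit 0) (nat_lit 4303761242) (nat_lit 1444) (nat_lit 2566567972) (nat_lit 1520) (nat_lit 1460932790) (nat_lit 610) (nat_lit 5) (nat_lit 629) (nat_lit 3) (nat_lit 630) (nat_lit 5) (nat_lit 412) (nat_lit 411) (nat_lit 317))) (XT.nd (nat_lit 78) (nat_lit 0) (nat_lit 0) (XT.lf (nat_lit 76) (nat_lit 1645278726) (nat_lit 0) (nat_lit 3834869967) (nat_lit 1520) (nat_lit 2912592334) (nat_lit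 611) (nat_lit 5) (nat_lit 610) (nat_lit 5) (nat_lit 630) (nat_lit 5) (nat_lit 413) (nat_lit 411) (nat_lit 316)) (XT.nd (nat_lit 78) (nat_lit 0) (nat_lit 76) (XT.lf (nat_lit 76) (nat_lit 5960877582) (nat_lit 0) (nat_lit 707593273) (nat_lit 1520) (nat_lit 1787210636) (nat_lit 611) (nat_lit 5) (nat_lit 610) (nat_lit 5) (nat_lit 630) (nat_lit 5) (nat_lit 414) (nat_lit 411) (nat_lit 315)) (XT.lf (nat_lit 76) (nat_lit 1835233818) (nat_lit 0) (nat_lit 6045192628) (nat_lit 1520) (nat_lit 639456980) (nat_lit 612) (nat_lit 5) (nat_lit 611) (nat_lit 5) (nat_lit 631) (nat_lit 5) (nat_lit 415) (nat_lit 411) (nat_lit 314)))))) (XT.nd (nat_lit 390) (nat_lit 1368) (nat_lit 0) (XT.nd (nat_lit 156) (nat_lit 0) (nat_lit 76) (XT.nd (nat_lit 78) (nat_lit 0) (nat_lit 76) (XT.lf (nat_lit 0) (nat_lit 517925731) (nat_lit 1520) (nat_lit 2323485607) (nat_lit 1596) (nat_lit 5744016246) (nat_lit 591) (nat_lit 5) (nat_lit 611) (nat_lit 5) (nat_lit 612) (nat_lit 5) (nat_lit 416) (nat_lit 411)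 (nat_lit 313)) (XT.lf (nat_lit 0) (nat_lit 1679366011) (nat_lit 1520) (nat_lit 6522373796) (nat_lit 1596) (nat_lit 450668837) (nat_lit 592) (nat_lit 5) (nat_lit 612) (nat_lit 5) (nat_lit 613) (nat_lit 5) (nat_lit 417) (nat_lit 411) (nat_lit 312))) (XT.nd (nat_lit 78) (nat_lit 0) (nat_lit 0) (XT.lf (nat_lit 0) (nat_lit 2871707530) (nat_lit 1520) (nat_lit 2051310103) (nat_lit 1596) (nat_lit 3797558244) (nat_lit 592) (nat_lit 5) (nat_lit 612) (nat_lit 5) (nat_lit 613) (nat_lit 5) (nat_lit 418) (nat_lit 411) (nat_lit 311)) (XT.nd (nat_lit 78) (nat_lit 0) (nat_lit 76) (XT.lf (nat_lit 76) (nat_lit 2526533118) (nat_lit 0) (nat_lit 1551453036) (nat_lit 1596) (nat_lit 4712318496) (nat_lit 593) (nat_lit 5) (nat_lit 592) (nat_lit 5) (nat_lit 613) (nat_lit 5) (nat_lit 419) (nat_lit 411) (nat_lit 310)) (XT.lf (nat_lit 0) (nat_lit 5308668990) (nat_lit 1520) (nat_lit 1666018041) (nat_lit 1596) (nat_lit 1886735396) (nat_lit 593) (nat_lit 5) (nat_lit 613) (nat_lit 5) (nat_lit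 614) (nat_lit 5) (nat_lit 420) (nat_lit 411) (nat_lit 309))))) (XT.nd (nat_lit 156) (nat_lit 1520) (nat_lit 0) (XT.nd (nat_lit 78) (nat_lit 0) (nat_lit 76) (XT.lf (nat_lit 76) (nat_lit 3037311411) (nat_lit 0) (nat_lit 3531322290) (nat_lit 1596) (nat_lit 2365235491) (nat_lit 594) (nat_lit 5) (nat_lit 593) (nat_lit 5) (nat_lit 614) (nat_lit 5) (nat_lit 421) (nat_lit 411) (nat_lit 308)) (XT.lf (nat_lit 0) (nat_lit 7840053976) (nat_lit 1520) (nat_lit 1166592956) (nat_lit 1596) (nat_lit 1392837) (nat_lit 594) (nat_lit 5) (nat_lit 614) (nat_lit 5) (nat_lit 615) (nat_lit 5) (nat_lit 422) (nat_lit 411) (nat_lit 307))) (XT.nd (nat_lit 78) (nat_lit 0) (nat_lit 0) (XT.lf (nat_lit 0) (nat_lit 75468379) (nat_lit 1596) (nat_lit 5417131977) (nat_lit 1672) (nat_lit 3590627344) (nat_lit 573) (nat_lit 5) (nat_lit 594) (nat_lit 5) (nat_lit 595) (nat_lit 5) (nat_lit 423) (nat_lit 411) (nat_lit 306)) (XT.nd (nat_lit 78) (nat_lit 0) (nat_lit 76) (XT.lf (nat_lit 0) (nat_lit 1311876743)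 (nat_lit 1596) (nat_lit 572584416) (nat_lit 1672) (nat_lit 7275629336) (nat_lit 573) (nat_lit 5) (nat_lit 594) (nat_lit 5) (nat_lit 595) (nat_lit 5) (nat_lit 424) (nat_lit 411) (nat_lit 305)) (XT.lf (nat_lit 0) (nat_lit 2589853767) (nat_lit 1596) (nat_lit 4839556739) (nat_lit 1672) (nat_lit 1808743230) (nat_lit 574) (nat_lit 5) (nat_lit 595) (nat_lit 5) (nat_lit 596) (nat_lit 5) (nat_lit 425) (nat_lit 411) (nat_lit 304))))))) (XT.nd (nat_lit 702) (nat_lit 8208) (nat_lit 0) (XT.nd (nat_lit 312) (nat_lit 1520) (nat_lit 0) (XT.nd (nat_lit 156) (nat_lit 0) (nat_lit 76) (XT.nd (nat_lit 78) (nat_lit 0) (nat_lit 76) (XT.lf (nat_lit 76) (nat_lit 132112305) (nat_lit 0) (nat_lit 3755197072) (nat_lit 1672) (nat_lit 5430590482) (nat_lit 575) (nat_lit 5) (nat_lit 574) (nat_lit 5) (nat_lit 596) (nat_lit 5) (nat_lit 426) (nat_lit 411) (nat_lit 303)) (XT.lf (nat_lit 0) (nat_lit 5220464320) (nat_lit 1596) (nat_lit 4146713042) (nat_lit 1672) (nat_lit 31868539) (nat_lit 575) (nat_lit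 5) (nat_lit 596) (nat_lit 5) (nat_lit 597) (nat_lit 5) (nat_lit 427) (nat_lit 411) (nat_lit 302))) (XT.nd (nat_lit 78) (nat_lit 0) (nat_lit 0) (XT.lf (nat_lit 76) (nat_lit 964480827) (nat_lit 0) (nat_lit 5624489169) (nat_lit 1672) (nat_lit 2892671116) (nat_lit 576) (nat_lit 5) (nat_lit 575) (nat_lit 5) (nat_lit 597) (nat_lit 5) (nat_lit 428) (nat_lit 411) (nat_lit 301)) (XT.lf (nat_lit 76) (nat_lit 6217773918) (nat_lit 0) (nat_lit 1772789235) (nat_lit 1672) (nat_lit 1575210726) (nat_lit 576) (nat_lit 5) (nat_lit 575) (nat_lit 5) (nat_lit 597) (nat_lit 5) (nat_lit 429) (nat_lit 411) (nat_lit 300)))) (XT.nd (nat_lit 156) (nat_lit 0) (nat_lit 76) (XT.nd (nat_lit 78) (nat_lit 1672) (nat_lit 0) (XT.lf (nat_lit 76) (nat_lit 1919232390) (nat_lit 0) (nat_lit 7505775550) (nat_lit 1672) (nat_lit 226484967) (nat_lit 577) (nat_lit 5) (nat_lit 576) (nat_lit 5) (nat_lit 598) (nat_lit 5) (nat_lit 430) (nat_lit 411) (nat_lit 299)) (XT.lf (nat_lit 0) (nat_lit 1147036882) (nat_lit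 1672) (nat_lit 2437296354) (nat_lit 1748) (nat_lit 6154185974) (nat_lit 554) (nat_lit 5) (nat_lit 576) (nat_lit 5) (nat_lit 577) (nat_lit 5) (nat_lit 431) (nat_lit 411) (nat_lit 298))) (XT.nd (nat_lit 78) (nat_lit 0) (nat_lit 0) (XT.lf (nat_lit 0) (nat_lit 2546204588) (nat_lit 1672) (nat_lit 6845276143) (nat_lit 1748) (nat_lit 435751206) (nat_lit 555) (nat_lit 5) (nat_lit 577) (nat_lit 5) (nat_lit 578) (nat_lit 5) (nat_lit 432) (nat_lit 411) (nat_lit 297)) (XT.nd (nat_lit 78) (nat_lit 0) (nat_lit 0) (XT.lf (nat_lit 0) (nat_lit 3992851906) (nat_lit 1672) (nat_lit 1415277246) (nat_lit 1748) (nat_lit 4509199842) (nat_lit 555) (nat_lit 5) (nat_lit 577) (nat_lit 5) (nat_lit 578) (nat_lit 5) (nat_lit 433) (nat_lit 411) (nat_lit 296)) (XT.lf (nat_lit 76) (nat_lit 4161557083) (nat_lit 0) (nat_lit 1313595750) (nat_lit 1748) (nat_lit 4533940746) (nat_lit 556) (nat_lit 5) (nat_lit 555) (nat_lit 5) (nat_lit 578) (nat_lit 5) (nat_lit 434) (nat_lit 411) (nat_lit 295))))))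 (XT.nd (nat_lit 390) (nat_lit 3040) (nat_lit 0) (XT.nd (nat_lit 156) (nat_lit 3648) (nat_lit 0) (XT.nd (nat_lit 78) (nat_lit 1672) (nat_lit 0) (XT.lf (nat_lit 0) (nat_lit 6995265460) (nat_lit 1672) (nat_lit 268702421) (nat_lit 76) (nat_lit 2838562261) (nat_lit 556) (nat_lit 5) (nat_lit 578) (nat_lit 5) (nat_lit 557) (nat_lit 5) (nat_lit 435) (nat_lit 411) (nat_lit 294)) (XT.lf (nat_lit 0) (nat_lit 5468393491) (nat_lit 1672) (nat_lit 3102000546) (nat_lit 1748) (nat_lit 1626949125) (nat_lit 534) (nat_lit 5) (nat_lit 556) (nat_lit 5) (nat_lit 557) (nat_lit 5) (nat_lit 436) (nat_lit 411) (nat_lit 293))) (XT.nd (nat_lit 78) (nat_lit 1900) (nat_lit 0) (XT.lf (nat_lit 0) (nat_lit 1019156006) (nat_lit 1748) (nat_lit 9154432482) (nat_lit 1824) (nat_lit 120532688) (nat_lit 511) (nat_lit 5) (nat_lit 534) (nat_lit 5) (nat_lit 535) (nat_lit 5) (nat_lit 437) (nat_lit 411) (nat_lit 292)) (XT.nd (nat_lit 78) (nat_lit 1824) (nat_lit 0) (XT.lf (nat_lit 0) (nat_lit 1430781524)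 (nat_lit 1824) (nat_lit 3492599317) (nat_lit 76) (nat_lit 5468603222) (nat_lit 510) (nat_lit 5) (nat_lit 534) (nat_lit 5) (nat_lit 511) (nat_lit 5) (nat_lit 438) (nat_lit 411) (nat_lit 291)) (XT.lf (nat_lit 0) (nat_lit 2419903781) (nat_lit 1824) (nat_lit 588546604) (nat_lit 1900) (nat_lit 7483399043) (nat_lit 486) (nat_lit 5) (nat_lit 510) (nat_lit 5) (nat_lit 511) (nat_lit 5) (nat_lit 439) (nat_lit 411) (nat_lit 290))))) (XT.nd (nat_lit 156) (nat_lit 1900) (nat_lit 0) (XT.nd (nat_lit 78) (nat_lit 1140) (nat_lit 0) (XT.lf (nat_lit 0) (nat_lit 4647656494) (nat_lit 1900) (nat_lit 2137010148) (nat_lit 76) (nat_lit 3808445780) (nat_lit 486) (nat_lit 5) (nat_lit 511) (nat_lit 5) (nat_lit 487) (nat_lit 5) (nat_lit 440) (nat_lit 411) (nat_lit 289)) (XT.lf (nat_lit 0) (nat_lit 3948109164) (nat_lit 1140) (nat_lit 2382936808) (nat_lit 1216) (nat_lit 4365126719) (nat_lit 471) (nat_lit 5) (nat_lit 486) (nat_lit 5) (nat_lit 487) (nat_lit 5) (nat_lit 441) (nat_lit 411) (nat_lit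 288))) (XT.nd (nat_lit 78) (nat_lit 1900) (nat_lit 0) (XT.lf (nat_lit 0) (nat_lit 8058345551) (nat_lit 1216) (nat_lit 647540162) (nat_lit 76) (nat_lit 2095203605) (nat_lit 471) (nat_lit 5) (nat_lit 487) (nat_lit 5) (nat_lit 472) (nat_lit 5) (nat_lit 442) (nat_lit 411) (nat_lit 287)) (XT.nd (nat_lit 78) (nat_lit 988) (nat_lit 0) (XT.lf (nat_lit 0) (nat_lit 5616543718) (nat_lit 912) (nat_lit 4238373157) (nat_lit 988) (nat_lit 1052492889) (nat_lit 459) (nat_lit 5) (nat_lit 471) (nat_lit 5) (nat_lit 472) (nat_lit 5) (nat_lit 443) (nat_lit 411) (nat_lit 286)) (XT.lf (nat_lit 0) (nat_lit 658340727) (nat_lit 988) (nat_lit 10027004071) (nat_lit 76) (nat_lit 330512909) (nat_lit 446) (nat_lit 5) (nat_lit 459) (nat_lit 5) (nat_lit 447) (nat_lit 5) (nat_lit 444) (nat_lit 411) (nat_lit 285))))))))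
noncomputable def xc110 : XT := (XT.nd (nat_lit 57252) (nat_lit 0) (nat_lit 12540) (XT.nd (nat_lit 702) (nat_lit 1596) (nat_lit 0) (XT.nd (nat_lit 312) (nat_lit 2508) (nat_lit 0) (XT.nd (nat_lit 156) (nat_lit 912) (nat_lit 0) (XT.nd (nat_lit 78) (nat_lit 836) (nat_lit 0) (XT.lf (nat_lit 0) (nat_lit 2435962091) (nat_lit 988) (nat_lit 3711846665) (nat_lit 76) (nat_lit 4977593433) (nat_lit 446) (nat_lit 5) (nat_lit 459) (nat_lit 5) (nat_lit 447) (nat_lit 5) (nat_lit 445) (nat_lit 411) (nat_lit 284)) (XT.lf (nat_lit 0) (nat_lit 2749303891) (nat_lit 836) (nat_lit 1500861177) (nat_lit 912) (nat_lit 6986951909) (nat_lit 435) (nat_lit 5) (nat_lit 446) (nat_lit 5) (nat_lit 447) (nat_lit 5) (nat_lit 446) (nat_lit 411) (nat_lit 283))) (XT.nd (nat_lit 78) (nat_lit 912) (nat_lit 0) (XT.lf (nat_lit 0) (nat_lit 6130160734) (nat_lit 912) (nat_lit 1998364289) (nat_lit 76) (nat_lit 3221950866) (nat_lit 435) (nat_lit 5) (nat_lit 447) (nat_lit 5) (nat_lit 436) (nat_lit 5) (nat_lit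 447) (nat_lit 411) (nat_lit 282)) (XT.lf (nat_lit 0) (nat_lit 4655726008) (nat_lit 912) (nat_lit 3415928554) (nat_lit 988) (nat_lit 3393969451) (nat_lit 423) (nat_lit 5) (nat_lit 435) (nat_lit 5) (nat_lit 436) (nat_lit 5) (nat_lit 448) (nat_lit 411) (nat_lit 281)))) (XT.nd (nat_lit 156) (nat_lit 1596) (nat_lit 0) (XT.nd (nat_lit 78) (nat_lit 912) (nat_lit 0) (XT.lf (nat_lit 0) (nat_lit 10058452020) (nat_lit 988) (nat_lit 138422081) (nat_lit 76) (nat_lit 1386071524) (nat_lit 423) (nat_lit 5) (nat_lit 436) (nat_lit 5) (nat_lit 424) (nat_lit 5) (nat_lit 449) (nat_lit 411) (nat_lit 280)) (XT.lf (nat_lit 0) (nat_lit 428175479) (nat_lit 912) (nat_lit 4988639820) (nat_lit 76) (nat_lit 6284732346) (nat_lit 411) (nat_lit 5) (nat_lit 423) (nat_lit 5) (nat_lit 412) (nat_lit 5) (nat_lit 450) (nat_lit 411) (nat_lit 279))) (XT.nd (nat_lit 78) (nat_lit 760) (nat_lit 0) (XT.lf (nat_lit 0) (nat_lit 1878917332) (nat_lit 836) (nat_lit 518081387) (nat_lit 912) (nat_lit 9425371173)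 (nat_lit 400) (nat_lit 5) (nat_lit 411) (nat_lit 5) (nat_lit 412) (nat_lit 5) (nat_lit 451) (nat_lit 411) (nat_lit 278)) (XT.nd (nat_lit 78) (nat_lit 760) (nat_lit 0) (XT.lf (nat_lit 0) (nat_lit 4452532322) (nat_lit 912) (nat_lit 3039248572) (nat_lit 76) (nat_lit 4452881013) (nat_lit 400) (nat_lit 5) (nat_lit 412) (nat_lit 5) (nat_lit 401) (nat_lit 5) (nat_lit 452) (nat_lit 411) (nat_lit 277)) (XT.lf (nat_lit 0) (nat_lit 4036411906) (nat_lit 760) (nat_lit 2527263128) (nat_lit 836) (nat_lit 5505434759) (nat_lit 390) (nat_lit 5) (nat_lit 400) (nat_lit 5) (nat_lit 401) (nat_lit 5) (nat_lit 453) (nat_lit 411) (nat_lit 276)))))) (XT.nd (nat_lit 56160) (nat_lit 0) (nat_lit 16796) (XT.nd (nat_lit 156) (nat_lit 836) (nat_lit 0) (XT.nd (nat_lit 78) (nat_lit 760) (nat_lit 0) (XT.lf (nat_lit 0) (nat_lit 8739085694) (nat_lit 836) (nat_lit 933779945) (nat_lit 76) (nat_lit 2522740097) (nat_lit 390) (nat_lit 5) (nat_lit 401) (nat_lit 5) (nat_lit 391) (nat_lit 5) (nat_lit 454)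 (nat_lit 411) (nat_lit 275)) (XT.lf (nat_lit 0) (nat_lit 6357762102) (nat_lit 760) (nat_lit 4643597462) (nat_lit 836) (nat_lit 1322404933) (nat_lit 380) (nat_lit 5) (nat_lit 390) (nat_lit 5) (nat_lit 391) (nat_lit 5) (nat_lit 455) (nat_lit 411) (nat_lit 274))) (XT.nd (nat_lit 78) (nat_lit 0) (nat_lit 0) (XT.lf (nat_lit 0) (nat_lit 846967679) (nat_lit 836) (nat_lit 11108197289) (nat_lit 76) (nat_lit 499134905) (nat_lit 369) (nat_lit 5) (nat_lit 380) (nat_lit 5) (nat_lit 370) (nat_lit 5) (nat_lit 456) (nat_lit 411) (nat_lit 273)) (XT.nd (nat_lit 55848) (nat_lit 0) (nat_lit 18316) (XT.lf (nat_lit 0) (nat_lit 3098689098) (nat_lit 836) (nat_lit 3757360553) (nat_lit 76) (nat_lit 5730088117) (nat_lit 369) (nat_lit 5) (nat_lit 380) (nat_lit 5) (nat_lit 370) (nat_lit 5) (nat_lit 457) (nat_lit 411) (nat_lit 272)) (XT.lf (nat_lit 0) (nat_lit 1357838618) (nat_lit 0) (nat_lit 1357838618) (nat_lit 1444) (nat_lit 1480347818) (nat_lit 610) (nat_lit 5) (nat_lit 610) (nat_lit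 3) (nat_lit 629) (nat_lit 3) (nat_lit 412) (nat_lit 412) (nat_lit 316))))) (XT.nd (nat_lit 156) (nat_lit 1520) (nat_lit 0) (XT.nd (nat_lit 78) (nat_lit 0) (nat_lit 0) (XT.lf (nat_lit 0) (nat_lit 6565211429) (nat_lit 1444) (nat_lit 1475935167) (nat_lit 1520) (nat_lit 413233148) (nat_lit 610) (nat_lit 5) (nat_lit 629) (nat_lit 3) (nat_lit 630) (nat_lit 5) (nat_lit 413) (nat_lit 412) (nat_lit 315)) (XT.lf (nat_lit 76) (nat_lit 2812635542) (nat_lit 0) (nat_lit 4917202287) (nat_lit 1520) (nat_lit 787956296) (nat_lit 611) (nat_lit 5) (nat_lit 610) (nat_lit 5) (nat_lit 630) (nat_lit 5) (nat_lit 414) (nat_lit 412) (nat_lit 314))) (XT.nd (nat_lit 78) (nat_lit 0) (nat_lit 76) (XT.lf (nat_lit 0) (nat_lit 312972078) (nat_lit 1520) (nat_lit 1392589441) (nat_lit 1596) (nat_lit 6877229948) (nat_lit 590) (nat_lit 5) (nat_lit 610) (nat_lit 5) (nat_lit 611) (nat_lit 5) (nat_lit 415) (nat_lit 412) (nat_lit 313)) (XT.nd (nat_lit 78) (nat_lit 0) (nat_lit 0) (XT.lf (nat_lit 0) (nat_lit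 1428132548) (nat_lit 1520) (nat_lit 5633638867) (nat_lit 1596) (nat_lit 1587157888) (nat_lit 591) (nat_lit 5) (nat_lit 611) (nat_lit 5) (nat_lit 612) (nat_lit 5) (nat_lit 416) (nat_lit 412) (nat_lit 312)) (XT.lf (nat_lit 0) (nat_lit 2559484582) (nat_lit 1520) (nat_lit 1212632850) (nat_lit 1596) (nat_lit 4944394697) (nat_lit 591) (nat_lit 5) (nat_lit 611) (nat_lit 5) (nat_lit 612) (nat_lit 5) (nat_lit 417) (nat_lit 412) (nat_lit 311))))))) (XT.nd (nat_lit 702) (nat_lit 2888) (nat_lit 0) (XT.nd (nat_lit 312) (nat_lit 1444) (nat_lit 0) (XT.nd (nat_lit 156) (nat_lit 0) (nat_lit 76) (XT.nd (nat_lit 78) (nat_lit 0) (nat_lit 76) (XT.lf (nat_lit 76) (nat_lit 3325428761) (nat_lit 0) (nat_lit 383337893) (nat_lit 1596) (nat_lit 5076773897) (nat_lit 592) (nat_lit 5) (nat_lit 591) (nat_lit 5) (nat_lit 612) (nat_lit 5) (nat_lit 418) (nat_lit 412) (nat_lit 310)) (XT.lf (nat_lit 0) (nat_lit 4883381327) (nat_lit 1520) (nat_lit 920573202) (nat_lit 1596) (nat_lit 3051948073) (nat_lit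 592) (nat_lit 5) (nat_lit 612) (nat_lit 5) (nat_lit 613) (nat_lit 5) (nat_lit 419) (nat_lit 412) (nat_lit 309))) (XT.nd (nat_lit 78) (nat_lit 0) (nat_lit 76) (XT.lf (nat_lit 76) (nat_lit 3741117916) (nat_lit 0) (nat_lit 2341906995) (nat_lit 1596) (nat_lit 2844616252) (nat_lit 593) (nat_lit 5) (nat_lit 592) (nat_lit 5) (nat_lit 613) (nat_lit 5) (nat_lit 420) (nat_lit 412) (nat_lit 308)) (XT.lf (nat_lit 0) (nat_lit 7295772118) (nat_lit 1520) (nat_lit 515559572) (nat_lit 1596) (nat_lit 1189700590) (nat_lit 593) (nat_lit 5) (nat_lit 613) (nat_lit 5) (nat_lit 614) (nat_lit 5) (nat_lit 421) (nat_lit 412) (nat_lit 307)))) (XT.nd (nat_lit 156) (nat_lit 0) (nat_lit 76) (XT.nd (nat_lit 78) (nat_lit 1596) (nat_lit 0) (XT.lf (nat_lit 76) (nat_lit 4274048451) (nat_lit 0) (nat_lit 4277642010) (nat_lit 1596) (nat_lit 523822434) (nat_lit 594) (nat_lit 5) (nat_lit 593) (nat_lit 5) (nat_lit 614) (nat_lit 5) (nat_lit 422) (nat_lit 412) (nat_lit 306)) (XT.lf (nat_lit 0) (nat_lit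 651668707) (nat_lit 1596) (nat_lit 4963064) (nat_lit 1672) (nat_lit 8495175703) (nat_lit 572) (nat_lit 5) (nat_lit 593) (nat_lit 5) (nat_lit 594) (nat_lit 5) (nat_lit 423) (nat_lit 412) (nat_lit 305))) (XT.nd (nat_lit 78) (nat_lit 0) (nat_lit 0) (XT.lf (nat_lit 0) (nat_lit 1872049950) (nat_lit 1596) (nat_lit 4315930566) (nat_lit 1672) (nat_lit 3041010295) (nat_lit 573) (nat_lit 5) (nat_lit 594) (nat_lit 5) (nat_lit 595) (nat_lit 5) (nat_lit 424) (nat_lit 412) (nat_lit 304)) (XT.nd (nat_lit 78) (nat_lit 0) (nat_lit 76) (XT.lf (nat_lit 76) (nat_lit 609788886) (nat_lit 0) (nat_lit 2492159254) (nat_lit 1672) (nat_lit 6206067488) (nat_lit 574) (nat_lit 5) (nat_lit 573) (nat_lit 5) (nat_lit 595) (nat_lit 5) (nat_lit 425) (nat_lit 412) (nat_lit 303)) (XT.lf (nat_lit 0) (nat_lit 4371063367) (nat_lit 1596) (nat_lit 3720058190) (nat_lit 1672) (nat_lit 1297207003) (nat_lit 574) (nat_lit 5) (nat_lit 595) (nat_lit 5) (nat_lit 596) (nat_lit 5) (nat_lit 426) (nat_lit 412) (nat_lit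 302)))))) (XT.nd (nat_lit 390) (nat_lit 1444) (nat_lit 0) (XT.nd (nat_lit 156) (nat_lit 1596) (nat_lit 0) (XT.nd (nat_lit 78) (nat_lit 0) (nat_lit 0) (XT.lf (nat_lit 76) (nat_lit 1343042330) (nat_lit 0) (nat_lit 4325360716) (nat_lit 1672) (nat_lit 3801787861) (nat_lit 575) (nat_lit 5) (nat_lit 574) (nat_lit 5) (nat_lit 596) (nat_lit 5) (nat_lit 427) (nat_lit 412) (nat_lit 301)) (XT.lf (nat_lit 76) (nat_lit 6542193510) (nat_lit 0) (nat_lit 452414753) (nat_lit 1672) (nat_lit 2559023864) (nat_lit 575) (nat_lit 5) (nat_lit 574) (nat_lit 5) (nat_lit 596) (nat_lit 5) (nat_lit 428) (nat_lit 412) (nat_lit 300))) (XT.nd (nat_lit 78) (nat_lit 1672) (nat_lit 0) (XT.lf (nat_lit 76) (nat_lit 2196882650) (nat_lit 0) (nat_lit 6165858055) (nat_lit 1672) (nat_lit 1275693403) (nat_lit 576) (nat_lit 5) (nat_lit 575) (nat_lit 5) (nat_lit 597) (nat_lit 5) (nat_lit 429) (nat_lit 412) (nat_lit 299)) (XT.nd (nat_lit 78) (nat_lit 0) (nat_lit 76) (XT.lf (nat_lit 0) (nat_lit 34813712)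 (nat_lit 1672) (nat_lit 2193667398) (nat_lit 1748) (nat_lit 7496407759) (nat_lit 553) (nat_lit 5) (nat_lit 575) (nat_lit 5) (nat_lit 576) (nat_lit 5) (nat_lit 430) (nat_lit 412) (nat_lit 298)) (XT.lf (nat_lit 0) (nat_lit 1365952266) (nat_lit 1672) (nat_lit 6648025959) (nat_lit 1748) (nat_lit 1798695795) (nat_lit 554) (nat_lit 5) (nat_lit 576) (nat_lit 5) (nat_lit 577) (nat_lit 5) (nat_lit 431) (nat_lit 412) (nat_lit 297))))) (XT.nd (nat_lit 156) (nat_lit 1520) (nat_lit 0) (XT.nd (nat_lit 78) (nat_lit 0) (nat_lit 76) (XT.lf (nat_lit 0) (nat_lit 2732661085) (nat_lit 1672) (nat_lit 1272924763) (nat_lit 1748) (nat_lit 5896450078) (nat_lit 554) (nat_lit 5) (nat_lit 576) (nat_lit 5) (nat_lit 577) (nat_lit 5) (nat_lit 432) (nat_lit 412) (nat_lit 296)) (XT.lf (nat_lit 0) (nat_lit 4134822544) (nat_lit 1672) (nat_lit 5744074548) (nat_lit 1748) (nat_lit 114125607) (nat_lit 555) (nat_lit 5) (nat_lit 577) (nat_lit 5) (nat_lit 578) (nat_lit 5) (nat_lit 433) (nat_lit 412) (nat_lit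 295))) (XT.nd (nat_lit 78) (nat_lit 1596) (nat_lit 0) (XT.lf (nat_lit 0) (nat_lit 5580251948) (nat_lit 1672) (nat_lit 229752283) (nat_lit 1748) (nat_lit 4275520483) (nat_lit 555) (nat_lit 5) (nat_lit 577) (nat_lit 5) (nat_lit 578) (nat_lit 5) (nat_lit 434) (nat_lit 412) (nat_lit 294)) (XT.nd (nat_lit 78) (nat_lit 1596) (nat_lit 0) (XT.lf (nat_lit 76) (nat_lit 5450633006) (nat_lit 0) (nat_lit 1619835366) (nat_lit 1748) (nat_lit 3109090830) (nat_lit 556) (nat_lit 5) (nat_lit 555) (nat_lit 5) (nat_lit 578) (nat_lit 5) (nat_lit 435) (nat_lit 412) (nat_lit 293)) (XT.lf (nat_lit 0) (nat_lit 951519315) (nat_lit 1672) (nat_lit 7644726158) (nat_lit 1748) (nat_lit 1679113777) (nat_lit 534) (nat_lit 5) (nat_lit 556) (nat_lit 5) (nat_lit 557) (nat_lit 5) (nat_lit 436) (nat_lit 412) (nat_lit 292))))))))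
noncomputable def xc111 : XT := (XT.nd (nat_lit 1482) (nat_lit 0) (nat_lit 0) (XT.nd (nat_lit 702) (nat_lit 5016) (nat_lit 0) (XT.nd (nat_lit 312) (nat_lit 3040) (nat_lit 0) (XT.nd (nat_lit 156) (nat_lit 1824) (nat_lit 0) (XT.nd (nat_lit 78) (nat_lit 1824) (nat_lit 0) (XT.lf (nat_lit 0) (nat_lit 6782896769) (nat_lit 1672) (nat_lit 3393099108) (nat_lit 1748) (nat_lit 196610269) (nat_lit 534) (nat_lit 5) (nat_lit 556) (nat_lit 5) (nat_lit 557) (nat_lit 5) (nat_lit 437) (nat_lit 412) (nat_lit 291)) (XT.lf (nat_lit 0) (nat_lit 1300606063) (nat_lit 1824) (nat_lit 8213589978) (nat_lit 76) (nat_lit 957384783) (nat_lit 510) (nat_lit 5) (nat_lit 534) (nat_lit 5) (nat_lit 511) (nat_lit 5) (nat_lit 438) (nat_lit 412) (nat_lit 290))) (XT.nd (nat_lit 78) (nat_lit 1824) (nat_lit 0) (XT.lf (nat_lit 0) (nat_lit 2853453019) (nat_lit 1824) (nat_lit 2340807906) (nat_lit 76) (nat_lit 5377681702) (nat_lit 510) (nat_lit 5) (nat_lit 534) (nat_lit 5) (nat_lit 511) (nat_lit 5) (nat_lit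 439) (nat_lit 412) (nat_lit 289)) (XT.lf (nat_lit 0) (nat_lit 3681908127) (nat_lit 1824) (nat_lit 761312238) (nat_lit 1900) (nat_lit 6230974032) (nat_lit 486) (nat_lit 5) (nat_lit 510) (nat_lit 5) (nat_lit 511) (nat_lit 5) (nat_lit 440) (nat_lit 412) (nat_lit 288)))) (XT.nd (nat_lit 156) (nat_lit 1900) (nat_lit 0) (XT.nd (nat_lit 78) (nat_lit 1140) (nat_lit 0) (XT.lf (nat_lit 0) (nat_lit 6087232847) (nat_lit 1900) (nat_lit 961962533) (nat_lit 76) (nat_lit 3728846825) (nat_lit 486) (nat_lit 5) (nat_lit 511) (nat_lit 5) (nat_lit 487) (nat_lit 5) (nat_lit 441) (nat_lit 412) (nat_lit 287)) (XT.lf (nat_lit 0) (nat_lit 5236847403) (nat_lit 1140) (nat_lit 2548893003) (nat_lit 1216) (nat_lit 3097794268) (nat_lit 471) (nat_lit 5) (nat_lit 486) (nat_lit 5) (nat_lit 487) (nat_lit 5) (nat_lit 442) (nat_lit 412) (nat_lit 286))) (XT.nd (nat_lit 78) (nat_lit 988) (nat_lit 0) (XT.lf (nat_lit 0) (nat_lit 559698195) (nat_lit 912) (nat_lit 8964728051) (nat_lit 988) (nat_lit 1466586583)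 (nat_lit 459) (nat_lit 5) (nat_lit 471) (nat_lit 5) (nat_lit 472) (nat_lit 5) (nat_lit 443) (nat_lit 412) (nat_lit 285)) (XT.nd (nat_lit 78) (nat_lit 912) (nat_lit 0) (XT.lf (nat_lit 0) (nat_lit 232624909) (nat_lit 988) (nat_lit 4167672695) (nat_lit 76) (nat_lit 6699557999) (nat_lit 458) (nat_lit 5) (nat_lit 471) (nat_lit 5) (nat_lit 459) (nat_lit 5) (nat_lit 444) (nat_lit 412) (nat_lit 284)) (XT.lf (nat_lit 0) (nat_lit 1945748855) (nat_lit 988) (nat_lit 8987656994) (nat_lit 76) (nat_lit 277284185) (nat_lit 446) (nat_lit 5) (nat_lit 459) (nat_lit 5) (nat_lit 447) (nat_lit 5) (nat_lit 445) (nat_lit 412) (nat_lit 283)))))) (XT.nd (nat_lit 390) (nat_lit 2432) (nat_lit 0) (XT.nd (nat_lit 156) (nat_lit 1748) (nat_lit 0) (XT.nd (nat_lit 78) (nat_lit 836) (nat_lit 0) (XT.lf (nat_lit 0) (nat_lit 3733937523) (nat_lit 988) (nat_lit 2570507953) (nat_lit 76) (nat_lit 5018479633) (nat_lit 446) (nat_lit 5) (nat_lit 459) (nat_lit 5) (nat_lit 447) (nat_lit 5) (nat_lit 446) (nat_lit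 412) (nat_lit 282)) (XT.lf (nat_lit 0) (nat_lit 4011868405) (nat_lit 836) (nat_lit 1555901335) (nat_lit 912) (nat_lit 5869437548) (nat_lit 435) (nat_lit 5) (nat_lit 446) (nat_lit 5) (nat_lit 447) (nat_lit 5) (nat_lit 447) (nat_lit 412) (nat_lit 281))) (XT.nd (nat_lit 78) (nat_lit 1748) (nat_lit 0) (XT.lf (nat_lit 0) (nat_lit 7461037385) (nat_lit 912) (nat_lit 830103212) (nat_lit 76) (nat_lit 3262179340) (nat_lit 435) (nat_lit 5) (nat_lit 447) (nat_lit 5) (nat_lit 436) (nat_lit 5) (nat_lit 448) (nat_lit 412) (nat_lit 280)) (XT.nd (nat_lit 78) (nat_lit 836) (nat_lit 0) (XT.lf (nat_lit 0) (nat_lit 5949120019) (nat_lit 912) (nat_lit 3476342445) (nat_lit 988) (nat_lit 2245626532) (nat_lit 423) (nat_lit 5) (nat_lit 435) (nat_lit 5) (nat_lit 436) (nat_lit 5) (nat_lit 449) (nat_lit 412) (nat_lit 279)) (XT.lf (nat_lit 0) (nat_lit 1072955665) (nat_lit 836) (nat_lit 10362676964) (nat_lit 912) (nat_lit 355451677) (nat_lit 412) (nat_lit 5) (nat_lit 423) (nat_lit 5) (nat_lit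 424) (nat_lit 5) (nat_lit 450) (nat_lit 412) (nat_lit 278))))) (XT.nd (nat_lit 156) (nat_lit 1520) (nat_lit 0) (XT.nd (nat_lit 78) (nat_lit 836) (nat_lit 0) (XT.lf (nat_lit 0) (nat_lit 1598243657) (nat_lit 912) (nat_lit 3880797874) (nat_lit 76) (nat_lit 6433306974) (nat_lit 411) (nat_lit 5) (nat_lit 423) (nat_lit 5) (nat_lit 412) (nat_lit 5) (nat_lit 451) (nat_lit 412) (nat_lit 277)) (XT.lf (nat_lit 0) (nat_lit 3116165588) (nat_lit 836) (nat_lit 475292226) (nat_lit 912) (nat_lit 8444429094) (nat_lit 400) (nat_lit 5) (nat_lit 411) (nat_lit 5) (nat_lit 412) (nat_lit 5) (nat_lit 452) (nat_lit 412) (nat_lit 276))) (XT.nd (nat_lit 78) (nat_lit 1520) (nat_lit 0) (XT.lf (nat_lit 0) (nat_lit 5665959645) (nat_lit 912) (nat_lit 1901744131) (nat_lit 76) (nat_lit 4593363836) (nat_lit 400) (nat_lit 5) (nat_lit 412) (nat_lit 5) (nat_lit 401) (nat_lit 5) (nat_lit 453) (nat_lit 412) (nat_lit 275)) (XT.nd (nat_lit 78) (nat_lit 760) (nat_lit 0) (XT.lf (nat_lit 0) (nat_lit 5307546074)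 (nat_lit 760) (nat_lit 2497461441) (nat_lit 836) (nat_lit 4483283295) (nat_lit 390) (nat_lit 5) (nat_lit 400) (nat_lit 5) (nat_lit 401) (nat_lit 5) (nat_lit 454) (nat_lit 412) (nat_lit 274)) (XT.lf (nat_lit 0) (nat_lit 238998019) (nat_lit 760) (nat_lit 9765225676) (nat_lit 836) (nat_lit 2413487029) (nat_lit 380) (nat_lit 5) (nat_lit 390) (nat_lit 5) (nat_lit 391) (nat_lit 5) (nat_lit 455) (nat_lit 412) (nat_lit 273))))))) (XT.nd (nat_lit 56706) (nat_lit 0) (nat_lit 13148) (XT.nd (nat_lit 56316) (nat_lit 0) (nat_lit 16036) (XT.nd (nat_lit 56082) (nat_lit 0) (nat_lit 15884) (XT.nd (nat_lit 56004) (nat_lit 0) (nat_lit 17480) (XT.lf (nat_lit 0) (nat_lit 7665418518) (nat_lit 760) (nat_lit 4631088280) (nat_lit 836) (nat_lit 252230588) (nat_lit 380) (nat_lit 5) (nat_lit 390) (nat_lit 5) (nat_lit 391) (nat_lit 5) (nat_lit 456) (nat_lit 412) (nat_lit 272)) (XT.lf (nat_lit 0) (nat_lit 1919912046) (nat_lit 0) (nat_lit 1919912046) (nat_lit 1444) (nat_lit 418724799) (nat_lit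 610) (nat_lit 5) (nat_lit 610) (nat_lit 3) (nat_lit 629) (nat_lit 3) (nat_lit 413) (nat_lit 413) (nat_lit 314))) (XT.nd (nat_lit 78) (nat_lit 0) (nat_lit 76) (XT.lf (nat_lit 0) (nat_lit 207133765) (nat_lit 1596) (nat_lit 413233148) (nat_lit 1596) (nat_lit 7961174385) (nat_lit 589) (nat_lit 3) (nat_lit 610) (nat_lit 3) (nat_lit 610) (nat_lit 5) (nat_lit 414) (nat_lit 413) (nat_lit 313)) (XT.nd (nat_lit 78) (nat_lit 0) (nat_lit 0) (XT.lf (nat_lit 0) (nat_lit 1277431868) (nat_lit 1520) (nat_lit 4696127114) (nat_lit 1596) (nat_lit 2673283261) (nat_lit 590) (nat_lit 5) (nat_lit 610) (nat_lit 5) (nat_lit 611) (nat_lit 5) (nat_lit 415) (nat_lit 413) (nat_lit 312)) (XT.lf (nat_lit 0) (nat_lit 2349237812) (nat_lit 1520) (nat_lit 324444772) (nat_lit 1596) (nat_lit 6040164586) (nat_lit 590) (nat_lit 5) (nat_lit 610) (nat_lit 5) (nat_lit 611) (nat_lit 5) (nat_lit 416) (nat_lit 413) (nat_lit 311))))) (XT.nd (nat_lit 156) (nat_lit 0) (nat_lit 0) (XT.nd (nat_lit 78) (nat_lit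 0) (nat_lit 0) (XT.lf (nat_lit 0) (nat_lit 3448068077) (nat_lit 1520) (nat_lit 4611681772) (nat_lit 1596) (nat_lit 722330582) (nat_lit 591) (nat_lit 5) (nat_lit 611) (nat_lit 5) (nat_lit 612) (nat_lit 5) (nat_lit 417) (nat_lit 413) (nat_lit 310)) (XT.lf (nat_lit 0) (nat_lit 4563000625) (nat_lit 1520) (nat_lit 124503279) (nat_lit 1596) (nat_lit 4164291940) (nat_lit 591) (nat_lit 5) (nat_lit 611) (nat_lit 5) (nat_lit 612) (nat_lit 5) (nat_lit 418) (nat_lit 413) (nat_lit 309))) (XT.nd (nat_lit 78) (nat_lit 0) (nat_lit 76) (XT.lf (nat_lit 76) (nat_lit 4497001259) (nat_lit 0) (nat_lit 1207160978) (nat_lit 1596) (nat_lit 3218664720) (nat_lit 592) (nat_lit 5) (nat_lit 591) (nat_lit 5) (nat_lit 612) (nat_lit 5) (nat_lit 419) (nat_lit 413) (nat_lit 308)) (XT.nd (nat_lit 78) (nat_lit 0) (nat_lit 0) (XT.lf (nat_lit 76) (nat_lit 189766266) (nat_lit 0) (nat_lit 6670868915) (nat_lit 1596) (nat_lit 2134793749) (nat_lit 593) (nat_lit 5) (nat_lit 592) (nat_lit 5) (nat_lit 613)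 (nat_lit 5) (nat_lit 420) (nat_lit 413) (nat_lit 307)) (XT.lf (nat_lit 76) (nat_lit 4934792769) (nat_lit 0) (nat_lit 3118680638) (nat_lit 1596) (nat_lit 1015744819) (nat_lit 593) (nat_lit 5) (nat_lit 592) (nat_lit 5) (nat_lit 613) (nat_lit 5) (nat_lit 421) (nat_lit 413) (nat_lit 306)))))) (XT.nd (nat_lit 390) (nat_lit 1444) (nat_lit 0) (XT.nd (nat_lit 156) (nat_lit 0) (nat_lit 0) (XT.nd (nat_lit 78) (nat_lit 0) (nat_lit 0) (XT.lf (nat_lit 0) (nat_lit 107363051) (nat_lit 1596) (nat_lit 8525448066) (nat_lit 1672) (nat_lit 511989344) (nat_lit 572) (nat_lit 5) (nat_lit 593) (nat_lit 5) (nat_lit 594) (nat_lit 5) (nat_lit 422) (nat_lit 413) (nat_lit 305)) (XT.lf (nat_lit 0) (nat_lit 1264276107) (nat_lit 1596) (nat_lit 3739890066) (nat_lit 1672) (nat_lit 4217095009) (nat_lit 572) (nat_lit 5) (nat_lit 593) (nat_lit 5) (nat_lit 594) (nat_lit 5) (nat_lit 423) (nat_lit 413) (nat_lit 304))) (XT.nd (nat_lit 78) (nat_lit 0) (nat_lit 76) (XT.lf (nat_lit 76) (nat_lit 1141412052)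 (nat_lit 0) (nat_lit 1287139622) (nat_lit 1672) (nat_lit 6871014958) (nat_lit 573) (nat_lit 5) (nat_lit 572) (nat_lit 5) (nat_lit 594) (nat_lit 5) (nat_lit 424) (nat_lit 413) (nat_lit 303)) (XT.nd (nat_lit 78) (nat_lit 0) (nat_lit 0) (XT.lf (nat_lit 0) (nat_lit 3634858310) (nat_lit 1596) (nat_lit 3239673197) (nat_lit 1672) (nat_lit 2504531773) (nat_lit 573) (nat_lit 5) (nat_lit 594) (nat_lit 5) (nat_lit 595) (nat_lit 5) (nat_lit 425) (nat_lit 413) (nat_lit 302)) (XT.lf (nat_lit 76) (nat_lit 1776912118) (nat_lit 0) (nat_lit 3086110169) (nat_lit 1672) (nat_lit 4597172950) (nat_lit 574) (nat_lit 5) (nat_lit 573) (nat_lit 5) (nat_lit 595) (nat_lit 5) (nat_lit 426) (nat_lit 413) (nat_lit 301))))) (XT.nd (nat_lit 156) (nat_lit 1596) (nat_lit 0) (XT.nd (nat_lit 78) (nat_lit 0) (nat_lit 0) (XT.lf (nat_lit 0) (nat_lit 6120741964) (nat_lit 1596) (nat_lit 2625399680) (nat_lit 1672) (nat_lit 796708340) (nat_lit 574) (nat_lit 5) (nat_lit 595) (nat_lit 5) (nat_lit 596) (nat_lit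 5) (nat_lit 427) (nat_lit 413) (nat_lit 300)) (XT.lf (nat_lit 76) (nat_lit 2531271667) (nat_lit 0) (nat_lit 4887703862) (nat_lit 1672) (nat_lit 2207875107) (nat_lit 575) (nat_lit 5) (nat_lit 574) (nat_lit 5) (nat_lit 596) (nat_lit 5) (nat_lit 428) (nat_lit 413) (nat_lit 299))) (XT.nd (nat_lit 78) (nat_lit 1596) (nat_lit 0) (XT.lf (nat_lit 76) (nat_lit 7811633940) (nat_lit 0) (nat_lit 927968863) (nat_lit 1672) (nat_lit 972999919) (nat_lit 575) (nat_lit 5) (nat_lit 574) (nat_lit 5) (nat_lit 596) (nat_lit 5) (nat_lit 429) (nat_lit 413) (nat_lit 298)) (XT.nd (nat_lit 78) (nat_lit 0) (nat_lit 0) (XT.lf (nat_lit 0) (nat_lit 304540940) (nat_lit 1672) (nat_lit 6394815850) (nat_lit 1748) (nat_lit 3100241314) (nat_lit 553) (nat_lit 5) (nat_lit 575) (nat_lit 5) (nat_lit 576) (nat_lit 5) (nat_lit 430) (nat_lit 413) (nat_lit 297)) (XT.lf (nat_lit 0) (nat_lit 1593041991) (nat_lit 1672) (nat_lit 1073699238) (nat_lit 1748) (nat_lit 7221494777) (nat_lit 553) (nat_lit 5) (nat_lit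 575) (nat_lit 5) (nat_lit 576) (nat_lit 5) (nat_lit 431) (nat_lit 413) (nat_lit 296))))))))
noncomputable def xc112 : XT := (XT.nd (nat_lit 1482) (nat_lit 3268) (nat_lit 0) (XT.nd (nat_lit 702) (nat_lit 6612) (nat_lit 0) (XT.nd (nat_lit 312) (nat_lit 3344) (nat_lit 0) (XT.nd (nat_lit 156) (nat_lit 0) (nat_lit 0) (XT.nd (nat_lit 78) (nat_lit 0) (nat_lit 0) (XT.lf (nat_lit 0) (nat_lit 2925313924) (nat_lit 1672) (nat_lit 5591655579) (nat_lit 1748) (nat_lit 1461317146) (nat_lit 554) (nat_lit 5) (nat_lit 576) (nat_lit 5) (nat_lit 577) (nat_lit 5) (nat_lit 432) (nat_lit 413) (nat_lit 295)) (XT.lf (nat_lit 0) (nat_lit 4289316868) (nat_lit 1672) (nat_lit 132372572) (nat_lit 1748) (nat_lit 5648347153) (nat_lit 554) (nat_lit 5) (nat_lit 576) (nat_lit 5) (nat_lit 577) (nat_lit 5) (nat_lit 433) (nat_lit 413) (nat_lit 294))) (XT.nd (nat_lit 78) (nat_lit 0) (nat_lit 76) (XT.lf (nat_lit 76) (nat_lit 5493047838) (nat_lit 0) (nat_lit 203777553) (nat_lit 1748) (nat_lit 4466471634)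 (nat_lit 555) (nat_lit 5) (nat_lit 554) (nat_lit 5) (nat_lit 577) (nat_lit 5) (nat_lit 434) (nat_lit 413) (nat_lit 293)) (XT.lf (nat_lit 76) (nat_lit 944739083) (nat_lit 0) (nat_lit 6202255048) (nat_lit 1748) (nat_lit 3111138334) (nat_lit 556) (nat_lit 5) (nat_lit 555) (nat_lit 5) (nat_lit 578) (nat_lit 5) (nat_lit 435) (nat_lit 413) (nat_lit 292)))) (XT.nd (nat_lit 156) (nat_lit 1824) (nat_lit 0) (XT.nd (nat_lit 78) (nat_lit 1596) (nat_lit 0) (XT.lf (nat_lit 76) (nat_lit 6718666025) (nat_lit 0) (nat_lit 1921328286) (nat_lit 1748) (nat_lit 1714593743) (nat_lit 556) (nat_lit 5) (nat_lit 555) (nat_lit 5) (nat_lit 578) (nat_lit 5) (nat_lit 436) (nat_lit 413) (nat_lit 291)) (XT.lf (nat_lit 0) (nat_lit 2152055004) (nat_lit 1672) (nat_lit 8022187888) (nat_lit 1748) (nat_lit 278502093) (nat_lit 534) (nat_lit 5) (nat_lit 556) (nat_lit 5) (nat_lit 557) (nat_lit 5) (nat_lit 437) (nat_lit 413) (nat_lit 290))) (XT.nd (nat_lit 78) (nat_lit 1748) (nat_lit 0) (XT.lf (nat_lit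 0) (nat_lit 1189719291) (nat_lit 1748) (nat_lit 2483422084) (nat_lit 76) (nat_lit 6879190302) (nat_lit 533) (nat_lit 5) (nat_lit 556) (nat_lit 5) (nat_lit 534) (nat_lit 5) (nat_lit 438) (nat_lit 413) (nat_lit 289)) (XT.nd (nat_lit 78) (nat_lit 0) (nat_lit 0) (XT.lf (nat_lit 0) (nat_lit 2693339620) (nat_lit 1824) (nat_lit 7180172172) (nat_lit 76) (nat_lit 780166220) (nat_lit 510) (nat_lit 5) (nat_lit 534) (nat_lit 5) (nat_lit 511) (nat_lit 5) (nat_lit 439) (nat_lit 413) (nat_lit 288)) (XT.lf (nat_lit 0) (nat_lit 4250445055) (nat_lit 1824) (nat_lit 1213418568) (nat_lit 76) (nat_lit 5292719396) (nat_lit 510) (nat_lit 5) (nat_lit 534) (nat_lit 5) (nat_lit 511) (nat_lit 5) (nat_lit 440) (nat_lit 413) (nat_lit 287)))))) (XT.nd (nat_lit 390) (nat_lit 2660) (nat_lit 0) (XT.nd (nat_lit 156) (nat_lit 988) (nat_lit 0) (XT.nd (nat_lit 78) (nat_lit 1140) (nat_lit 0) (XT.lf (nat_lit 0) (nat_lit 4922026749) (nat_lit 1824) (nat_lit 931281565) (nat_lit 1900) (nat_lit 5007945500)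 (nat_lit 486) (nat_lit 5) (nat_lit 510) (nat_lit 5) (nat_lit 511) (nat_lit 5) (nat_lit 441) (nat_lit 413) (nat_lit 286)) (XT.lf (nat_lit 0) (nat_lit 191813517) (nat_lit 1140) (nat_lit 7312741570) (nat_lit 1216) (nat_lit 3463136411) (nat_lit 471) (nat_lit 5) (nat_lit 486) (nat_lit 5) (nat_lit 487) (nat_lit 5) (nat_lit 442) (nat_lit 413) (nat_lit 285))) (XT.nd (nat_lit 78) (nat_lit 988) (nat_lit 0) (XT.lf (nat_lit 0) (nat_lit 6504383328) (nat_lit 1140) (nat_lit 2713574689) (nat_lit 1216) (nat_lit 1857717295) (nat_lit 471) (nat_lit 5) (nat_lit 486) (nat_lit 5) (nat_lit 487) (nat_lit 5) (nat_lit 443) (nat_lit 413) (nat_lit 284)) (XT.nd (nat_lit 78) (nat_lit 76) (nat_lit 0) (XT.lf (nat_lit 0) (nat_lit 1752136622) (nat_lit 912) (nat_lit 9221197142) (nat_lit 988) (nat_lit 212330942) (nat_lit 459) (nat_lit 5) (nat_lit 471) (nat_lit 5) (nat_lit 472) (nat_lit 5) (nat_lit 444) (nat_lit 413) (nat_lit 283)) (XT.lf (nat_lit 0) (nat_lit 1479192009) (nat_lit 988) (nat_lit 3076438951)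 (nat_lit 76) (nat_lit 6741383464) (nat_lit 458) (nat_lit 5) (nat_lit 471) (nat_lit 5) (nat_lit 459) (nat_lit 5) (nat_lit 445) (nat_lit 413) (nat_lit 282))))) (XT.nd (nat_lit 156) (nat_lit 1748) (nat_lit 0) (XT.nd (nat_lit 78) (nat_lit 0) (nat_lit 0) (XT.lf (nat_lit 0) (nat_lit 3209424803) (nat_lit 988) (nat_lit 7975669306) (nat_lit 76) (nat_lit 225314506) (nat_lit 446) (nat_lit 5) (nat_lit 459) (nat_lit 5) (nat_lit 447) (nat_lit 5) (nat_lit 446) (nat_lit 413) (nat_lit 281)) (XT.lf (nat_lit 0) (nat_lit 5009362323) (nat_lit 988) (nat_lit 1453544751) (nat_lit 76) (nat_lit 5062461616) (nat_lit 446) (nat_lit 5) (nat_lit 459) (nat_lit 5) (nat_lit 447) (nat_lit 5) (nat_lit 447) (nat_lit 413) (nat_lit 280))) (XT.nd (nat_lit 78) (nat_lit 912) (nat_lit 0) (XT.lf (nat_lit 0) (nat_lit 5252792468) (nat_lit 836) (nat_lit 1611070625) (nat_lit 912) (nat_lit 4778393583) (nat_lit 435) (nat_lit 5) (nat_lit 446) (nat_lit 5) (nat_lit 447) (nat_lit 5) (nat_lit 448) (nat_lit 413) (nat_lit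 279)) (XT.nd (nat_lit 78) (nat_lit 0) (nat_lit 0) (XT.lf (nat_lit 0) (nat_lit 318787055) (nat_lit 912) (nat_lit 8454895561) (nat_lit 988) (nat_lit 2987435230) (nat_lit 423) (nat_lit 5) (nat_lit 435) (nat_lit 5) (nat_lit 436) (nat_lit 5) (nat_lit 449) (nat_lit 413) (nat_lit 278)) (XT.lf (nat_lit 0) (nat_lit 7221773596) (nat_lit 912) (nat_lit 3538271562) (nat_lit 988) (nat_lit 1121544150) (nat_lit 423) (nat_lit 5) (nat_lit 435) (nat_lit 5) (nat_lit 436) (nat_lit 5) (nat_lit 450) (nat_lit 413) (nat_lit 277))))))) (XT.nd (nat_lit 56706) (nat_lit 0) (nat_lit 14516) (XT.nd (nat_lit 312) (nat_lit 1520) (nat_lit 0) (XT.nd (nat_lit 156) (nat_lit 836) (nat_lit 0) (XT.nd (nat_lit 78) (nat_lit 0) (nat_lit 0) (XT.lf (nat_lit 0) (nat_lit 780924404) (nat_lit 912) (nat_lit 9746201208) (nat_lit 76) (nat_lit 1477052858) (nat_lit 411) (nat_lit 5) (nat_lit 423) (nat_lit 5) (nat_lit 412) (nat_lit 5) (nat_lit 451) (nat_lit 413) (nat_lit 276)) (XT.lf (nat_lit 0) (nat_lit 2746610556)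 (nat_lit 912) (nat_lit 2797692241) (nat_lit 76) (nat_lit 6583964636) (nat_lit 411) (nat_lit 5) (nat_lit 423) (nat_lit 5) (nat_lit 412) (nat_lit 5) (nat_lit 452) (nat_lit 413) (nat_lit 275))) (XT.nd (nat_lit 78) (nat_lit 0) (nat_lit 0) (XT.lf (nat_lit 0) (nat_lit 4331574163) (nat_lit 836) (nat_lit 433711192) (nat_lit 912) (nat_lit 7489279324) (nat_lit 400) (nat_lit 5) (nat_lit 411) (nat_lit 5) (nat_lit 412) (nat_lit 5) (nat_lit 453) (nat_lit 413) (nat_lit 274)) (XT.lf (nat_lit 0) (nat_lit 6859994598) (nat_lit 912) (nat_lit 788020639) (nat_lit 76) (nat_lit 4734659413) (nat_lit 400) (nat_lit 5) (nat_lit 412) (nat_lit 5) (nat_lit 401) (nat_lit 5) (nat_lit 454) (nat_lit 413) (nat_lit 273)))) (XT.nd (nat_lit 56160) (nat_lit 0) (nat_lit 15884) (XT.nd (nat_lit 78) (nat_lit 760) (nat_lit 0) (XT.lf (nat_lit 0) (nat_lit 6557878013) (nat_lit 760) (nat_lit 2470183690) (nat_lit 836) (nat_lit 3484655843) (nat_lit 390) (nat_lit 5) (nat_lit 400) (nat_lit 5) (nat_lit 401) (nat_lit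 5) (nat_lit 455) (nat_lit 413) (nat_lit 272)) (XT.lf (nat_lit 0) (nat_lit 1401132072) (nat_lit 760) (nat_lit 9857215354) (nat_lit 836) (nat_lit 1386636728) (nat_lit 380) (nat_lit 5) (nat_lit 390) (nat_lit 5) (nat_lit 391) (nat_lit 5) (nat_lit 456) (nat_lit 413) (nat_lit 271))) (XT.nd (nat_lit 78) (nat_lit 0) (nat_lit 0) (XT.lf (nat_lit 0) (nat_lit 613602437) (nat_lit 1596) (nat_lit 1854735443) (nat_lit 1596) (nat_lit 1854735443) (nat_lit 589) (nat_lit 3) (nat_lit 610) (nat_lit 3) (nat_lit 610) (nat_lit 5) (nat_lit 414) (nat_lit 414) (nat_lit 312)) (XT.nd (nat_lit 78) (nat_lit 0) (nat_lit 76) (XT.lf (nat_lit 76) (nat_lit 621756890) (nat_lit 0) (nat_lit 1623164738) (nat_lit 1596) (nat_lit 6467577592) (nat_lit 590) (nat_lit 5) (nat_lit 589) (nat_lit 3) (nat_lit 610) (nat_lit 5) (nat_lit 415) (nat_lit 414) (nat_lit 311)) (XT.lf (nat_lit 0) (nat_lit 3293182753) (nat_lit 1520) (nat_lit 3715543326) (nat_lit 1596) (nat_lit 1771248965) (nat_lit 590) (nat_lit 5) (nat_lit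 610) (nat_lit 5) (nat_lit 611) (nat_lit 5) (nat_lit 416) (nat_lit 414) (nat_lit 310)))))) (XT.nd (nat_lit 390) (nat_lit 1444) (nat_lit 0) (XT.nd (nat_lit 156) (nat_lit 0) (nat_lit 76) (XT.nd (nat_lit 78) (nat_lit 0) (nat_lit 0) (XT.lf (nat_lit 76) (nat_lit 732105607) (nat_lit 0) (nat_lit 3620048950) (nat_lit 1596) (nat_lit 4496850917) (nat_lit 591) (nat_lit 5) (nat_lit 590) (nat_lit 5) (nat_lit 611) (nat_lit 5) (nat_lit 417) (nat_lit 414) (nat_lit 309)) (XT.lf (nat_lit 76) (nat_lit 5305257864) (nat_lit 0) (nat_lit 126639242) (nat_lit 1596) (nat_lit 3487527580) (nat_lit 591) (nat_lit 5) (nat_lit 590) (nat_lit 5) (nat_lit 611) (nat_lit 5) (nat_lit 418) (nat_lit 414) (nat_lit 308))) (XT.nd (nat_lit 78) (nat_lit 0) (nat_lit 0) (XT.lf (nat_lit 76) (nat_lit 954714982) (nat_lit 0) (nat_lit 5582259437) (nat_lit 1596) (nat_lit 2454203066) (nat_lit 592) (nat_lit 5) (nat_lit 591) (nat_lit 5) (nat_lit 612) (nat_lit 5) (nat_lit 419) (nat_lit 414) (nat_lit 307)) (XT.nd (nat_lit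 78) (nat_lit 0) (nat_lit 76) (XT.lf (nat_lit 76) (nat_lit 5649094228) (nat_lit 0) (nat_lit 2015768180) (nat_lit 1596) (nat_lit 1399488749) (nat_lit 592) (nat_lit 5) (nat_lit 591) (nat_lit 5) (nat_lit 612) (nat_lit 5) (nat_lit 420) (nat_lit 414) (nat_lit 306)) (XT.lf (nat_lit 76) (nat_lit 1290475802) (nat_lit 0) (nat_lit 7519909337) (nat_lit 1596) (nat_lit 328701625) (nat_lit 593) (nat_lit 5) (nat_lit 592) (nat_lit 5) (nat_lit 613) (nat_lit 5) (nat_lit 421) (nat_lit 414) (nat_lit 305))))) (XT.nd (nat_lit 156) (nat_lit 0) (nat_lit 76) (XT.nd (nat_lit 78) (nat_lit 0) (nat_lit 0) (XT.lf (nat_lit 0) (nat_lit 766293895) (nat_lit 1596) (nat_lit 3111209339) (nat_lit 1672) (nat_lit 5337458583) (nat_lit 571) (nat_lit 5) (nat_lit 592) (nat_lit 5) (nat_lit 593) (nat_lit 5) (nat_lit 422) (nat_lit 414) (nat_lit 304)) (XT.lf (nat_lit 76) (nat_lit 1727190284) (nat_lit 0) (nat_lit 139665618) (nat_lit 1672) (nat_lit 7425693656) (nat_lit 572) (nat_lit 5) (nat_lit 571) (nat_lit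 5) (nat_lit 593) (nat_lit 5) (nat_lit 423) (nat_lit 414) (nat_lit 303))) (XT.nd (nat_lit 78) (nat_lit 0) (nat_lit 0) (XT.lf (nat_lit 0) (nat_lit 3011560441) (nat_lit 1596) (nat_lit 2705369677) (nat_lit 1672) (nat_lit 3654316311) (nat_lit 572) (nat_lit 5) (nat_lit 593) (nat_lit 5) (nat_lit 594) (nat_lit 5) (nat_lit 424) (nat_lit 414) (nat_lit 302)) (XT.nd (nat_lit 78) (nat_lit 0) (nat_lit 76) (XT.lf (nat_lit 76) (nat_lit 2266260337) (nat_lit 0) (nat_lit 1906251545) (nat_lit 1672) (nat_lit 5279138299) (nat_lit 573) (nat_lit 5) (nat_lit 572) (nat_lit 5) (nat_lit 594) (nat_lit 5) (nat_lit 425) (nat_lit 414) (nat_lit 301)) (XT.lf (nat_lit 0) (nat_lit 5365924720) (nat_lit 1596) (nat_lit 2187034922) (nat_lit 1672) (nat_lit 1980517518) (nat_lit 573) (nat_lit 5) (nat_lit 594) (nat_lit 5) (nat_lit 595) (nat_lit 5) (nat_lit 426) (nat_lit 414) (nat_lit 300))))))))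
noncomputable def xc113 : XT := (XT.nd (nat_lit 1482) (nat_lit 5168) (nat_lit 0) (XT.nd (nat_lit 702) (nat_lit 7144) (nat_lit 0) (XT.nd (nat_lit 312) (nat_lit 0) (nat_lit 76) (XT.nd (nat_lit 156) (nat_lit 1596) (nat_lit 0) (XT.nd (nat_lit 78) (nat_lit 0) (nat_lit 76) (XT.lf (nat_lit 76) (nat_lit 2922530574) (nat_lit 0) (nat_lit 3670811735) (nat_lit 1672) (nat_lit 3023395641) (nat_lit 574) (nat_lit 5) (nat_lit 573) (nat_lit 5) (nat_lit 595) (nat_lit 5) (nat_lit 427) (nat_lit 414) (nat_lit 299)) (XT.lf (nat_lit 0) (nat_lit 7840866654) (nat_lit 1596) (nat_lit 1554244013) (nat_lit 1672) (nat_lit 306642120) (nat_lit 574) (nat_lit 5) (nat_lit 595) (nat_lit 5) (nat_lit 596) (nat_lit 5) (nat_lit 428) (nat_lit 414) (nat_lit 298))) (XT.nd (nat_lit 78) (nat_lit 1672) (nat_lit 0) (XT.lf (nat_lit 76) (nat_lit 3698168238) (nat_lit 0) (nat_lit 5442816582) (nat_lit 1672) (nat_lit 646930234) (nat_lit 575) (nat_lit 5) (nat_lit 574) (nat_lit 5) (nat_lit 596) (nat_lit 5) (nat_lit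 429) (nat_lit 414) (nat_lit 297)) (XT.lf (nat_lit 0) (nat_lit 573547714) (nat_lit 1672) (nat_lit 817522544) (nat_lit 1748) (nat_lit 8484853565) (nat_lit 552) (nat_lit 5) (nat_lit 574) (nat_lit 5) (nat_lit 575) (nat_lit 5) (nat_lit 430) (nat_lit 414) (nat_lit 296)))) (XT.nd (nat_lit 156) (nat_lit 0) (nat_lit 76) (XT.nd (nat_lit 78) (nat_lit 0) (nat_lit 0) (XT.lf (nat_lit 0) (nat_lit 1837623921) (nat_lit 1672) (nat_lit 5381691081) (nat_lit 1748) (nat_lit 2745735221) (nat_lit 553) (nat_lit 5) (nat_lit 575) (nat_lit 5) (nat_lit 576) (nat_lit 5) (nat_lit 431) (nat_lit 414) (nat_lit 295)) (XT.lf (nat_lit 76) (nat_lit 23786868) (nat_lit 0) (nat_lit 3098321541) (nat_lit 1748) (nat_lit 6933948205) (nat_lit 554) (nat_lit 5) (nat_lit 553) (nat_lit 5) (nat_lit 576) (nat_lit 5) (nat_lit 432) (nat_lit 414) (nat_lit 294))) (XT.nd (nat_lit 78) (nat_lit 0) (nat_lit 0) (XT.lf (nat_lit 0) (nat_lit 4456371733) (nat_lit 1672) (nat_lit 4560340959) (nat_lit 1748) (nat_lit 1131688659)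 (nat_lit 554) (nat_lit 5) (nat_lit 576) (nat_lit 5) (nat_lit 577) (nat_lit 5) (nat_lit 433) (nat_lit 414) (nat_lit 293)) (XT.nd (nat_lit 78) (nat_lit 0) (nat_lit 0) (XT.lf (nat_lit 76) (nat_lit 998812653) (nat_lit 0) (nat_lit 4826453477) (nat_lit 1748) (nat_lit 4417167936) (nat_lit 555) (nat_lit 5) (nat_lit 554) (nat_lit 5) (nat_lit 577) (nat_lit 5) (nat_lit 434) (nat_lit 414) (nat_lit 292)) (XT.lf (nat_lit 76) (nat_lit 6716268621) (nat_lit 0) (nat_lit 517092509) (nat_lit 1748) (nat_lit 3104749852) (nat_lit 555) (nat_lit 5) (nat_lit 554) (nat_lit 5) (nat_lit 577) (nat_lit 5) (nat_lit 435) (nat_lit 414) (nat_lit 291)))))) (XT.nd (nat_lit 390) (nat_lit 3952) (nat_lit 0) (XT.nd (nat_lit 156) (nat_lit 3420) (nat_lit 0) (XT.nd (nat_lit 78) (nat_lit 0) (nat_lit 0) (XT.lf (nat_lit 76) (nat_lit 2099928334) (nat_lit 0) (nat_lit 6590119967) (nat_lit 1748) (nat_lit 1745244529) (nat_lit 556) (nat_lit 5) (nat_lit 555) (nat_lit 5) (nat_lit 578) (nat_lit 5) (nat_lit 436) (nat_lit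 414) (nat_lit 290)) (XT.lf (nat_lit 76) (nat_lit 7967053531) (nat_lit 0) (nat_lit 2218401732) (nat_lit 1748) (nat_lit 348771331) (nat_lit 556) (nat_lit 5) (nat_lit 555) (nat_lit 5) (nat_lit 578) (nat_lit 5) (nat_lit 437) (nat_lit 414) (nat_lit 289))) (XT.nd (nat_lit 78) (nat_lit 1748) (nat_lit 0) (XT.lf (nat_lit 0) (nat_lit 1080076673) (nat_lit 1748) (nat_lit 7311154078) (nat_lit 76) (nat_lit 2243397559) (nat_lit 533) (nat_lit 5) (nat_lit 556) (nat_lit 5) (nat_lit 534) (nat_lit 5) (nat_lit 438) (nat_lit 414) (nat_lit 288)) (XT.nd (nat_lit 78) (nat_lit 1748) (nat_lit 0) (XT.lf (nat_lit 0) (nat_lit 2547261866) (nat_lit 1748) (nat_lit 1402006879) (nat_lit 76) (nat_lit 6787434603) (nat_lit 533) (nat_lit 5) (nat_lit 556) (nat_lit 5) (nat_lit 534) (nat_lit 5) (nat_lit 439) (nat_lit 414) (nat_lit 287)) (XT.lf (nat_lit 0) (nat_lit 4060856389) (nat_lit 1824) (nat_lit 6172593757) (nat_lit 76) (nat_lit 607028427) (nat_lit 510) (nat_lit 5) (nat_lit 534) (nat_lit 5) (nat_lit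 511) (nat_lit 5) (nat_lit 440) (nat_lit 414) (nat_lit 286))))) (XT.nd (nat_lit 156) (nat_lit 2128) (nat_lit 0) (XT.nd (nat_lit 78) (nat_lit 1824) (nat_lit 0) (XT.lf (nat_lit 0) (nat_lit 5623346090) (nat_lit 1824) (nat_lit 109077275) (nat_lit 76) (nat_lit 5213533473) (nat_lit 510) (nat_lit 5) (nat_lit 534) (nat_lit 5) (nat_lit 511) (nat_lit 5) (nat_lit 441) (nat_lit 414) (nat_lit 285)) (XT.lf (nat_lit 0) (nat_lit 6141651885) (nat_lit 1824) (nat_lit 1098641416) (nat_lit 1900) (nat_lit 3812787212) (nat_lit 486) (nat_lit 5) (nat_lit 510) (nat_lit 5) (nat_lit 511) (nat_lit 5) (nat_lit 442) (nat_lit 414) (nat_lit 284))) (XT.nd (nat_lit 78) (nat_lit 988) (nat_lit 0) (XT.lf (nat_lit 0) (nat_lit 1335648784) (nat_lit 1140) (nat_lit 7570470740) (nat_lit 1216) (nat_lit 2255896337) (nat_lit 471) (nat_lit 5) (nat_lit 486) (nat_lit 5) (nat_lit 487) (nat_lit 5) (nat_lit 443) (nat_lit 414) (nat_lit 283)) (XT.nd (nat_lit 78) (nat_lit 988) (nat_lit 0) (XT.lf (nat_lit 0) (nat_lit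 7752117070) (nat_lit 1140) (nat_lit 2877134749) (nat_lit 1216) (nat_lit 643398305) (nat_lit 471) (nat_lit 5) (nat_lit 486) (nat_lit 5) (nat_lit 487) (nat_lit 5) (nat_lit 444) (nat_lit 414) (nat_lit 282)) (XT.lf (nat_lit 0) (nat_lit 1003826226) (nat_lit 988) (nat_lit 8469236405) (nat_lit 76) (nat_lit 1911992226) (nat_lit 458) (nat_lit 5) (nat_lit 471) (nat_lit 5) (nat_lit 459) (nat_lit 5) (nat_lit 445) (nat_lit 414) (nat_lit 281))))))) (XT.nd (nat_lit 702) (nat_lit 760) (nat_lit 0) (XT.nd (nat_lit 312) (nat_lit 2660) (nat_lit 0) (XT.nd (nat_lit 156) (nat_lit 836) (nat_lit 0) (XT.nd (nat_lit 78) (nat_lit 912) (nat_lit 0) (XT.lf (nat_lit 0) (nat_lit 2702465393) (nat_lit 988) (nat_lit 2008991185) (nat_lit 76) (nat_lit 6787624344) (nat_lit 458) (nat_lit 5) (nat_lit 471) (nat_lit 5) (nat_lit 459) (nat_lit 5) (nat_lit 446) (nat_lit 414) (nat_lit 280)) (XT.lf (nat_lit 0) (nat_lit 4450815309) (nat_lit 988) (nat_lit 6989718612) (nat_lit 76) (nat_lit 174538826) (nat_lit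 446) (nat_lit 5) (nat_lit 459) (nat_lit 5) (nat_lit 447) (nat_lit 5) (nat_lit 447) (nat_lit 414) (nat_lit 279))) (XT.nd (nat_lit 78) (nat_lit 836) (nat_lit 0) (XT.lf (nat_lit 0) (nat_lit 6263669187) (nat_lit 988) (nat_lit 359611647) (nat_lit 76) (nat_lit 5109512838) (nat_lit 446) (nat_lit 5) (nat_lit 459) (nat_lit 5) (nat_lit 447) (nat_lit 5) (nat_lit 448) (nat_lit 414) (nat_lit 278)) (XT.lf (nat_lit 0) (nat_lit 6473464132) (nat_lit 836) (nat_lit 1666409361) (nat_lit 912) (nat_lit 3712453653) (nat_lit 435) (nat_lit 5) (nat_lit 446) (nat_lit 5) (nat_lit 447) (nat_lit 5) (nat_lit 449) (nat_lit 414) (nat_lit 277)))) (XT.nd (nat_lit 156) (nat_lit 1748) (nat_lit 0) (XT.nd (nat_lit 78) (nat_lit 0) (nat_lit 0) (XT.lf (nat_lit 0) (nat_lit 1456212968) (nat_lit 912) (nat_lit 8616544716) (nat_lit 988) (nat_lit 1901110491) (nat_lit 423) (nat_lit 5) (nat_lit 435) (nat_lit 5) (nat_lit 436) (nat_lit 5) (nat_lit 450) (nat_lit 414) (nat_lit 276)) (XT.lf (nat_lit 0) (nat_lit 8475081786)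 (nat_lit 912) (nat_lit 3601734291) (nat_lit 988) (nat_lit 20373617) (nat_lit 423) (nat_lit 5) (nat_lit 435) (nat_lit 5) (nat_lit 436) (nat_lit 5) (nat_lit 451) (nat_lit 414) (nat_lit 275))) (XT.nd (nat_lit 78) (nat_lit 836) (nat_lit 0) (XT.lf (nat_lit 0) (nat_lit 1891054683) (nat_lit 912) (nat_lit 8803162889) (nat_lit 76) (nat_lit 1528154232) (nat_lit 411) (nat_lit 5) (nat_lit 423) (nat_lit 5) (nat_lit 412) (nat_lit 5) (nat_lit 452) (nat_lit 414) (nat_lit 274)) (XT.nd (nat_lit 78) (nat_lit 836) (nat_lit 0) (XT.lf (nat_lit 0) (nat_lit 3874593543) (nat_lit 912) (nat_lit 1737996730) (nat_lit 76) (nat_lit 6736781495) (nat_lit 411) (nat_lit 5) (nat_lit 423) (nat_lit 5) (nat_lit 412) (nat_lit 5) (nat_lit 453) (nat_lit 414) (nat_lit 273)) (XT.lf (nat_lit 0) (nat_lit 5526515205) (nat_lit 836) (nat_lit 393282302) (nat_lit 912) (nat_lit 6558674337) (nat_lit 400) (nat_lit 5) (nat_lit 411) (nat_lit 5) (nat_lit 412) (nat_lit 5) (nat_lit 454) (nat_lit 414) (nat_lit 272))))))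 (XT.nd (nat_lit 56550) (nat_lit 0) (nat_lit 13680) (XT.nd (nat_lit 56316) (nat_lit 0) (nat_lit 15124) (XT.nd (nat_lit 56238) (nat_lit 0) (nat_lit 15124) (XT.lf (nat_lit 0) (nat_lit 307283215) (nat_lit 760) (nat_lit 7730656610) (nat_lit 836) (nat_lit 4571573410) (nat_lit 390) (nat_lit 5) (nat_lit 400) (nat_lit 5) (nat_lit 401) (nat_lit 5) (nat_lit 455) (nat_lit 414) (nat_lit 271)) (XT.lf (nat_lit 0) (nat_lit 1620780530) (nat_lit 1596) (nat_lit 1384428070) (nat_lit 1596) (nat_lit 1384428070) (nat_lit 589) (nat_lit 3) (nat_lit 610) (nat_lit 3) (nat_lit 610) (nat_lit 5) (nat_lit 415) (nat_lit 415) (nat_lit 310))) (XT.nd (nat_lit 78) (nat_lit 0) (nat_lit 76) (XT.lf (nat_lit 76) (nat_lit 1642319850) (nat_lit 0) (nat_lit 2604841811) (nat_lit 1596) (nat_lit 4600440712) (nat_lit 590) (nat_lit 5) (nat_lit 589) (nat_lit 3) (nat_lit 610) (nat_lit 5) (nat_lit 416) (nat_lit 415) (nat_lit 309)) (XT.nd (nat_lit 78) (nat_lit 0) (nat_lit 0) (XT.lf (nat_lit 0) (nat_lit 5271966677)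 (nat_lit 1520) (nat_lit 2757072252) (nat_lit 1596) (nat_lit 888277210) (nat_lit 590) (nat_lit 5) (nat_lit 610) (nat_lit 5) (nat_lit 611) (nat_lit 5) (nat_lit 417) (nat_lit 415) (nat_lit 308)) (XT.lf (nat_lit 76) (nat_lit 1772735042) (nat_lit 0) (nat_lit 4548536025) (nat_lit 1596) (nat_lit 2667073048) (nat_lit 591) (nat_lit 5) (nat_lit 590) (nat_lit 5) (nat_lit 611) (nat_lit 5) (nat_lit 418) (nat_lit 415) (nat_lit 307))))) (XT.nd (nat_lit 156) (nat_lit 1520) (nat_lit 0) (XT.nd (nat_lit 78) (nat_lit 0) (nat_lit 76) (XT.lf (nat_lit 76) (nat_lit 6417232945) (nat_lit 0) (nat_lit 968472121) (nat_lit 1596) (nat_lit 1675204714) (nat_lit 591) (nat_lit 5) (nat_lit 590) (nat_lit 5) (nat_lit 611) (nat_lit 5) (nat_lit 419) (nat_lit 415) (nat_lit 306)) (XT.lf (nat_lit 76) (nat_lit 2015135698) (nat_lit 0) (nat_lit 6462986961) (nat_lit 1596) (nat_lit 656670201) (nat_lit 592) (nat_lit 5) (nat_lit 591) (nat_lit 5) (nat_lit 612) (nat_lit 5) (nat_lit 420) (nat_lit 415) (nat_lit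 305))) (XT.nd (nat_lit 78) (nat_lit 0) (nat_lit 76) (XT.lf (nat_lit 0) (nat_lit 377908027) (nat_lit 1596) (nat_lit 2429641844) (nat_lit 1672) (nat_lit 6402540374) (nat_lit 570) (nat_lit 5) (nat_lit 591) (nat_lit 5) (nat_lit 592) (nat_lit 5) (nat_lit 421) (nat_lit 415) (nat_lit 304)) (XT.nd (nat_lit 78) (nat_lit 0) (nat_lit 0) (XT.lf (nat_lit 0) (nat_lit 1422813210) (nat_lit 1596) (nat_lit 6925781016) (nat_lit 1672) (nat_lit 938243977) (nat_lit 571) (nat_lit 5) (nat_lit 592) (nat_lit 5) (nat_lit 593) (nat_lit 5) (nat_lit 422) (nat_lit 415) (nat_lit 303)) (XT.lf (nat_lit 0) (nat_lit 2500925330) (nat_lit 1596) (nat_lit 2116938100) (nat_lit 1672) (nat_lit 4747011512) (nat_lit 571) (nat_lit 5) (nat_lit 592) (nat_lit 5) (nat_lit 593) (nat_lit 5) (nat_lit 423) (nat_lit 415) (nat_lit 302))))))))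
noncomputable def xc114 : XT := (XT.nd (nat_lit 1482) (nat_lit 6536) (nat_lit 0) (XT.nd (nat_lit 702) (nat_lit 5016) (nat_lit 0) (XT.nd (nat_lit 312) (nat_lit 1444) (nat_lit 0) (XT.nd (nat_lit 156) (nat_lit 0) (nat_lit 76) (XT.nd (nat_lit 78) (nat_lit 0) (nat_lit 76) (XT.lf (nat_lit 76) (nat_lit 2811278887) (nat_lit 0) (nat_lit 785322157) (nat_lit 1672) (nat_lit 5847951345) (nat_lit 572) (nat_lit 5) (nat_lit 571) (nat_lit 5) (nat_lit 593) (nat_lit 5) (nat_lit 424) (nat_lit 415) (nat_lit 301)) (XT.lf (nat_lit 0) (nat_lit 4726923150) (nat_lit 1596) (nat_lit 1693235058) (nat_lit 1672) (nat_lit 3105410520) (nat_lit 572) (nat_lit 5) (nat_lit 593) (nat_lit 5) (nat_lit 594) (nat_lit 5) (nat_lit 425) (nat_lit 415) (nat_lit 300))) (XT.nd (nat_lit 78) (nat_lit 0) (nat_lit 76) (XT.lf (nat_lit 76) (nat_lit 3370812806) (nat_lit 0) (nat_lit 2514704461) (nat_lit 1672) (nat_lit 3722574815) (nat_lit 573) (nat_lit 5) (nat_lit 572) (nat_lit 5) (nat_lit 594) (nat_lit 5) (nat_lit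 426) (nat_lit 415) (nat_lit 299)) (XT.lf (nat_lit 0) (nat_lit 7067215960) (nat_lit 1596) (nat_lit 1156735118) (nat_lit 1672) (nat_lit 1468316171) (nat_lit 573) (nat_lit 5) (nat_lit 594) (nat_lit 5) (nat_lit 595) (nat_lit 5) (nat_lit 427) (nat_lit 415) (nat_lit 298)))) (XT.nd (nat_lit 156) (nat_lit 1596) (nat_lit 0) (XT.nd (nat_lit 78) (nat_lit 0) (nat_lit 0) (XT.lf (nat_lit 76) (nat_lit 4047955632) (nat_lit 0) (nat_lit 4246899407) (nat_lit 1672) (nat_lit 1482824752) (nat_lit 574) (nat_lit 5) (nat_lit 573) (nat_lit 5) (nat_lit 595) (nat_lit 5) (nat_lit 428) (nat_lit 415) (nat_lit 297)) (XT.lf (nat_lit 76) (nat_lit 9358611214) (nat_lit 0) (nat_lit 175883556) (nat_lit 1672) (nat_lit 330556857) (nat_lit 574) (nat_lit 5) (nat_lit 573) (nat_lit 5) (nat_lit 595) (nat_lit 5) (nat_lit 429) (nat_lit 415) (nat_lit 296))) (XT.nd (nat_lit 78) (nat_lit 0) (nat_lit 0) (XT.lf (nat_lit 0) (nat_lit 871325990) (nat_lit 1672) (nat_lit 5114098716) (nat_lit 1748) (nat_lit 3967883525)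 (nat_lit 552) (nat_lit 5) (nat_lit 574) (nat_lit 5) (nat_lit 575) (nat_lit 5) (nat_lit 430) (nat_lit 415) (nat_lit 295)) (XT.nd (nat_lit 78) (nat_lit 0) (nat_lit 76) (XT.lf (nat_lit 76) (nat_lit 241012168) (nat_lit 0) (nat_lit 1838258107) (nat_lit 1748) (nat_lit 7964286993) (nat_lit 553) (nat_lit 5) (nat_lit 552) (nat_lit 5) (nat_lit 575) (nat_lit 5) (nat_lit 431) (nat_lit 415) (nat_lit 294)) (XT.lf (nat_lit 0) (nat_lit 3342073594) (nat_lit 1672) (nat_lit 4392611056) (nat_lit 1748) (nat_lit 2400312632) (nat_lit 553) (nat_lit 5) (nat_lit 575) (nat_lit 5) (nat_lit 576) (nat_lit 5) (nat_lit 432) (nat_lit 415) (nat_lit 293)))))) (XT.nd (nat_lit 390) (nat_lit 5092) (nat_lit 0) (XT.nd (nat_lit 156) (nat_lit 0) (nat_lit 76) (XT.nd (nat_lit 78) (nat_lit 0) (nat_lit 76) (XT.lf (nat_lit 76) (nat_lit 1113761229) (nat_lit 0) (nat_lit 3516781914) (nat_lit 1748) (nat_lit 5597714751) (nat_lit 554) (nat_lit 5) (nat_lit 553) (nat_lit 5) (nat_lit 576) (nat_lit 5) (nat_lit 433)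 (nat_lit 415) (nat_lit 292)) (XT.lf (nat_lit 0) (nat_lit 5960869728) (nat_lit 1672) (nat_lit 3552789866) (nat_lit 1748) (nat_lit 809402373) (nat_lit 554) (nat_lit 5) (nat_lit 576) (nat_lit 5) (nat_lit 577) (nat_lit 5) (nat_lit 434) (nat_lit 415) (nat_lit 291))) (XT.nd (nat_lit 78) (nat_lit 0) (nat_lit 0) (XT.lf (nat_lit 76) (nat_lit 2110318147) (nat_lit 0) (nat_lit 5226158433) (nat_lit 1748) (nat_lit 3082912064) (nat_lit 555) (nat_lit 5) (nat_lit 554) (nat_lit 5) (nat_lit 577) (nat_lit 5) (nat_lit 435) (nat_lit 415) (nat_lit 290)) (XT.nd (nat_lit 78) (nat_lit 0) (nat_lit 76) (XT.lf (nat_lit 76) (nat_lit 7920720700) (nat_lit 0) (nat_lit 824665620) (nat_lit 1748) (nat_lit 1772139721) (nat_lit 555) (nat_lit 5) (nat_lit 554) (nat_lit 5) (nat_lit 577) (nat_lit 5) (nat_lit 436) (nat_lit 415) (nat_lit 289)) (XT.lf (nat_lit 76) (nat_lit 3234097671) (nat_lit 0) (nat_lit 6975497738) (nat_lit 1748) (nat_lit 407488354) (nat_lit 556) (nat_lit 5) (nat_lit 555) (nat_lit 5)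 (nat_lit 578) (nat_lit 5) (nat_lit 437) (nat_lit 415) (nat_lit 288))))) (XT.nd (nat_lit 156) (nat_lit 3496) (nat_lit 0) (XT.nd (nat_lit 78) (nat_lit 0) (nat_lit 76) (XT.lf (nat_lit 0) (nat_lit 977015364) (nat_lit 1748) (nat_lit 1527801421) (nat_lit 1824) (nat_lit 8213578607) (nat_lit 532) (nat_lit 5) (nat_lit 555) (nat_lit 5) (nat_lit 556) (nat_lit 5) (nat_lit 438) (nat_lit 415) (nat_lit 287)) (XT.lf (nat_lit 0) (nat_lit 2409274470) (nat_lit 1748) (nat_lit 6348471623) (nat_lit 76) (nat_lit 2063422858) (nat_lit 533) (nat_lit 5) (nat_lit 556) (nat_lit 5) (nat_lit 534) (nat_lit 5) (nat_lit 439) (nat_lit 415) (nat_lit 286))) (XT.nd (nat_lit 78) (nat_lit 3572) (nat_lit 0) (XT.lf (nat_lit 0) (nat_lit 3880164224) (nat_lit 1748) (nat_lit 342884727) (nat_lit 76) (nat_lit 6702749321) (nat_lit 533) (nat_lit 5) (nat_lit 556) (nat_lit 5) (nat_lit 534) (nat_lit 5) (nat_lit 440) (nat_lit 415) (nat_lit 285)) (XT.nd (nat_lit 78) (nat_lit 1824) (nat_lit 0) (XT.lf (nat_lit 0) (nat_lit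 5404712864) (nat_lit 1824) (nat_lit 5189565568) (nat_lit 76) (nat_lit 437756926) (nat_lit 510) (nat_lit 5) (nat_lit 534) (nat_lit 5) (nat_lit 511) (nat_lit 5) (nat_lit 441) (nat_lit 415) (nat_lit 284)) (XT.lf (nat_lit 0) (nat_lit 986463198) (nat_lit 1824) (nat_lit 5993636300) (nat_lit 1900) (nat_lit 4159890747) (nat_lit 486) (nat_lit 5) (nat_lit 510) (nat_lit 5) (nat_lit 511) (nat_lit 5) (nat_lit 442) (nat_lit 415) (nat_lit 283))))))) (XT.nd (nat_lit 702) (nat_lit 1748) (nat_lit 0) (XT.nd (nat_lit 312) (nat_lit 2660) (nat_lit 0) (XT.nd (nat_lit 156) (nat_lit 988) (nat_lit 0) (XT.nd (nat_lit 78) (nat_lit 1140) (nat_lit 0) (XT.lf (nat_lit 0) (nat_lit 7342132560) (nat_lit 1824) (nat_lit 1263572932) (nat_lit 1900) (nat_lit 2644024505) (nat_lit 486) (nat_lit 5) (nat_lit 510) (nat_lit 5) (nat_lit 511) (nat_lit 5) (nat_lit 443) (nat_lit 415) (nat_lit 282)) (XT.lf (nat_lit 0) (nat_lit 2458093206) (nat_lit 1140) (nat_lit 7829025809) (nat_lit 1216) (nat_lit 1074079621)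 (nat_lit 471) (nat_lit 5) (nat_lit 486) (nat_lit 5) (nat_lit 487) (nat_lit 5) (nat_lit 444) (nat_lit 415) (nat_lit 281))) (XT.nd (nat_lit 78) (nat_lit 912) (nat_lit 0) (XT.lf (nat_lit 0) (nat_lit 539441929) (nat_lit 1216) (nat_lit 2496660335) (nat_lit 76) (nat_lit 8438344059) (nat_lit 470) (nat_lit 5) (nat_lit 486) (nat_lit 5) (nat_lit 471) (nat_lit 5) (nat_lit 445) (nat_lit 415) (nat_lit 280)) (XT.lf (nat_lit 0) (nat_lit 2194186617) (nat_lit 988) (nat_lit 7531781382) (nat_lit 76) (nat_lit 1863382277) (nat_lit 458) (nat_lit 5) (nat_lit 471) (nat_lit 5) (nat_lit 459) (nat_lit 5) (nat_lit 446) (nat_lit 415) (nat_lit 279)))) (XT.nd (nat_lit 156) (nat_lit 1748) (nat_lit 0) (XT.nd (nat_lit 78) (nat_lit 912) (nat_lit 0) (XT.lf (nat_lit 0) (nat_lit 3903851824) (nat_lit 988) (nat_lit 964033998) (nat_lit 76) (nat_lit 6838229975) (nat_lit 458) (nat_lit 5) (nat_lit 471) (nat_lit 5) (nat_lit 459) (nat_lit 5) (nat_lit 447) (nat_lit 415) (nat_lit 278)) (XT.lf (nat_lit 0) (nat_lit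 5671321436) (nat_lit 988) (nat_lit 6028528671) (nat_lit 76) (nat_lit 124894299) (nat_lit 446) (nat_lit 5) (nat_lit 459) (nat_lit 5) (nat_lit 447) (nat_lit 5) (nat_lit 448) (nat_lit 415) (nat_lit 277))) (XT.nd (nat_lit 78) (nat_lit 912) (nat_lit 0) (XT.lf (nat_lit 0) (nat_lit 722062484) (nat_lit 836) (nat_lit 6780871940) (nat_lit 912) (nat_lit 4442235283) (nat_lit 435) (nat_lit 5) (nat_lit 446) (nat_lit 5) (nat_lit 447) (nat_lit 5) (nat_lit 449) (nat_lit 415) (nat_lit 276)) (XT.nd (nat_lit 78) (nat_lit 912) (nat_lit 0) (XT.lf (nat_lit 0) (nat_lit 7675228509) (nat_lit 836) (nat_lit 1721957198) (nat_lit 912) (nat_lit 2670297688) (nat_lit 435) (nat_lit 5) (nat_lit 446) (nat_lit 5) (nat_lit 447) (nat_lit 5) (nat_lit 450) (nat_lit 415) (nat_lit 275)) (XT.lf (nat_lit 0) (nat_lit 2572467344) (nat_lit 912) (nat_lit 8781716098) (nat_lit 988) (nat_lit 837562685) (nat_lit 423) (nat_lit 5) (nat_lit 435) (nat_lit 5) (nat_lit 436) (nat_lit 5) (nat_lit 451) (nat_lit 415) (nat_lit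 274)))))) (XT.nd (nat_lit 56628) (nat_lit 0) (nat_lit 12844) (XT.nd (nat_lit 156) (nat_lit 836) (nat_lit 0) (XT.nd (nat_lit 78) (nat_lit 836) (nat_lit 0) (XT.lf (nat_lit 0) (nat_lit 1045298052) (nat_lit 988) (nat_lit 2614437294) (nat_lit 76) (nat_lit 8658084708) (nat_lit 422) (nat_lit 5) (nat_lit 435) (nat_lit 5) (nat_lit 423) (nat_lit 5) (nat_lit 452) (nat_lit 415) (nat_lit 273)) (XT.lf (nat_lit 0) (nat_lit 2980886341) (nat_lit 912) (nat_lit 7885452268) (nat_lit 76) (nat_lit 1579440421) (nat_lit 411) (nat_lit 5) (nat_lit 423) (nat_lit 5) (nat_lit 412) (nat_lit 5) (nat_lit 453) (nat_lit 415) (nat_lit 272))) (XT.nd (nat_lit 78) (nat_lit 836) (nat_lit 0) (XT.lf (nat_lit 0) (nat_lit 4983468319) (nat_lit 912) (nat_lit 700429332) (nat_lit 76) (nat_lit 6891833893) (nat_lit 411) (nat_lit 5) (nat_lit 423) (nat_lit 5) (nat_lit 412) (nat_lit 5) (nat_lit 454) (nat_lit 415) (nat_lit 271)) (XT.nd (nat_lit 56316) (nat_lit 0) (nat_lit 14364) (XT.lf (nat_lit 0) (nat_lit 6702318056)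 (nat_lit 836) (nat_lit 353951569) (nat_lit 912) (nat_lit 5651410132) (nat_lit 400) (nat_lit 5) (nat_lit 411) (nat_lit 5) (nat_lit 412) (nat_lit 5) (nat_lit 455) (nat_lit 415) (nat_lit 270)) (XT.lf (nat_lit 0) (nat_lit 2609468770) (nat_lit 1596) (nat_lit 924417590) (nat_lit 1596) (nat_lit 924417590) (nat_lit 589) (nat_lit 3) (nat_lit 610) (nat_lit 3) (nat_lit 610) (nat_lit 5) (nat_lit 416) (nat_lit 416) (nat_lit 308))))) (XT.nd (nat_lit 156) (nat_lit 1520) (nat_lit 0) (XT.nd (nat_lit 78) (nat_lit 0) (nat_lit 76) (XT.lf (nat_lit 76) (nat_lit 2644147237) (nat_lit 0) (nat_lit 3569293297) (nat_lit 1596) (nat_lit 2773487174) (nat_lit 590) (nat_lit 5) (nat_lit 589) (nat_lit 3) (nat_lit 610) (nat_lit 5) (nat_lit 417) (nat_lit 416) (nat_lit 307)) (XT.lf (nat_lit 0) (nat_lit 7216045253) (nat_lit 1520) (nat_lit 1819535938) (nat_lit 1596) (nat_lit 23308485) (nat_lit 590) (nat_lit 5) (nat_lit 610) (nat_lit 5) (nat_lit 611) (nat_lit 5) (nat_lit 418) (nat_lit 416) (nat_lit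 306))) (XT.nd (nat_lit 78) (nat_lit 1596) (nat_lit 0) (XT.lf (nat_lit 76) (nat_lit 2794336727) (nat_lit 0) (nat_lit 5462349974) (nat_lit 1596) (nat_lit 875244491) (nat_lit 591) (nat_lit 5) (nat_lit 590) (nat_lit 5) (nat_lit 611) (nat_lit 5) (nat_lit 419) (nat_lit 416) (nat_lit 305)) (XT.nd (nat_lit 78) (nat_lit 0) (nat_lit 76) (XT.lf (nat_lit 0) (nat_lit 98966196) (nat_lit 1596) (nat_lit 1694920300) (nat_lit 1672) (nat_lit 7412758061) (nat_lit 569) (nat_lit 5) (nat_lit 590) (nat_lit 5) (nat_lit 591) (nat_lit 5) (nat_lit 420) (nat_lit 416) (nat_lit 304)) (XT.lf (nat_lit 0) (nat_lit 1090613258) (nat_lit 1596) (nat_lit 6233532784) (nat_lit 1672) (nat_lit 1958397006) (nat_lit 570) (nat_lit 5) (nat_lit 591) (nat_lit 5) (nat_lit 592) (nat_lit 5) (nat_lit 421) (nat_lit 416) (nat_lit 303))))))))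
noncomputable def xc115 : XT := (XT.nd (nat_lit 1482) (nat_lit 10032) (nat_lit 0) (XT.nd (nat_lit 702) (nat_lit 1444) (nat_lit 0) (XT.nd (nat_lit 312) (nat_lit 1444) (nat_lit 0) (XT.nd (nat_lit 156) (nat_lit 0) (nat_lit 76) (XT.nd (nat_lit 78) (nat_lit 0) (nat_lit 76) (XT.lf (nat_lit 0) (nat_lit 2102752727) (nat_lit 1596) (nat_lit 1474147707) (nat_lit 1672) (nat_lit 5783045885) (nat_lit 570) (nat_lit 5) (nat_lit 591) (nat_lit 5) (nat_lit 592) (nat_lit 5) (nat_lit 422) (nat_lit 416) (nat_lit 302)) (XT.lf (nat_lit 0) (nat_lit 3136863157) (nat_lit 1596) (nat_lit 6028516807) (nat_lit 1672) (nat_lit 273483129) (nat_lit 571) (nat_lit 5) (nat_lit 592) (nat_lit 5) (nat_lit 593) (nat_lit 5) (nat_lit 423) (nat_lit 416) (nat_lit 301))) (XT.nd (nat_lit 78) (nat_lit 0) (nat_lit 0) (XT.lf (nat_lit 0) (nat_lit 4203486663) (nat_lit 1596) (nat_lit 1143806441) (nat_lit 1672) (nat_lit 4171828480) (nat_lit 571) (nat_lit 5) (nat_lit 592) (nat_lit 5) (nat_lit 593) (nat_lit 5) (nat_lit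 424) (nat_lit 416) (nat_lit 300)) (XT.lf (nat_lit 76) (nat_lit 3876294159) (nat_lit 0) (nat_lit 1418928664) (nat_lit 1672) (nat_lit 4305686819) (nat_lit 572) (nat_lit 5) (nat_lit 571) (nat_lit 5) (nat_lit 593) (nat_lit 5) (nat_lit 425) (nat_lit 416) (nat_lit 299)))) (XT.nd (nat_lit 156) (nat_lit 1596) (nat_lit 0) (XT.nd (nat_lit 78) (nat_lit 0) (nat_lit 0) (XT.lf (nat_lit 0) (nat_lit 6412322339) (nat_lit 1596) (nat_lit 702261223) (nat_lit 1672) (nat_lit 2569679325) (nat_lit 572) (nat_lit 5) (nat_lit 593) (nat_lit 5) (nat_lit 594) (nat_lit 5) (nat_lit 426) (nat_lit 416) (nat_lit 298)) (XT.lf (nat_lit 76) (nat_lit 4456325239) (nat_lit 0) (nat_lit 3113179907) (nat_lit 1672) (nat_lit 2199423226) (nat_lit 573) (nat_lit 5) (nat_lit 572) (nat_lit 5) (nat_lit 594) (nat_lit 5) (nat_lit 427) (nat_lit 416) (nat_lit 297))) (XT.nd (nat_lit 78) (nat_lit 1672) (nat_lit 0) (XT.lf (nat_lit 0) (nat_lit 8740637120) (nat_lit 1596) (nat_lit 147535620) (nat_lit 1672) (nat_lit 967298317)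 (nat_lit 573) (nat_lit 5) (nat_lit 594) (nat_lit 5) (nat_lit 595) (nat_lit 5) (nat_lit 428) (nat_lit 416) (nat_lit 296)) (XT.nd (nat_lit 78) (nat_lit 0) (nat_lit 0) (XT.lf (nat_lit 0) (nat_lit 26041191) (nat_lit 1672) (nat_lit 4788773546) (nat_lit 1748) (nat_lit 5128241332) (nat_lit 551) (nat_lit 5) (nat_lit 573) (nat_lit 5) (nat_lit 574) (nat_lit 5) (nat_lit 429) (nat_lit 416) (nat_lit 295)) (XT.lf (nat_lit 76) (nat_lit 517629350) (nat_lit 0) (nat_lit 641893286) (nat_lit 1748) (nat_lit 8873028434) (nat_lit 552) (nat_lit 5) (nat_lit 551) (nat_lit 5) (nat_lit 574) (nat_lit 5) (nat_lit 430) (nat_lit 416) (nat_lit 294)))))) (XT.nd (nat_lit 390) (nat_lit 1520) (nat_lit 0) (XT.nd (nat_lit 156) (nat_lit 0) (nat_lit 76) (XT.nd (nat_lit 78) (nat_lit 0) (nat_lit 0) (XT.lf (nat_lit 0) (nat_lit 2352170937) (nat_lit 1672) (nat_lit 4165670645) (nat_lit 1748) (nat_lit 3605264445) (nat_lit 552) (nat_lit 5) (nat_lit 574) (nat_lit 5) (nat_lit 575) (nat_lit 5) (nat_lit 431) (nat_lit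 416) (nat_lit 293)) (XT.lf (nat_lit 76) (nat_lit 1289629890) (nat_lit 0) (nat_lit 2272726764) (nat_lit 1748) (nat_lit 6653241740) (nat_lit 553) (nat_lit 5) (nat_lit 552) (nat_lit 5) (nat_lit 575) (nat_lit 5) (nat_lit 432) (nat_lit 416) (nat_lit 292))) (XT.nd (nat_lit 78) (nat_lit 0) (nat_lit 0) (XT.lf (nat_lit 0) (nat_lit 4819619790) (nat_lit 1672) (nat_lit 3426336166) (nat_lit 1748) (nat_lit 2063527177) (nat_lit 553) (nat_lit 5) (nat_lit 575) (nat_lit 5) (nat_lit 576) (nat_lit 5) (nat_lit 433) (nat_lit 416) (nat_lit 291)) (XT.nd (nat_lit 78) (nat_lit 0) (nat_lit 76) (XT.lf (nat_lit 76) (nat_lit 2183228518) (nat_lit 0) (nat_lit 3929768401) (nat_lit 1748) (nat_lit 4292029275) (nat_lit 554) (nat_lit 5) (nat_lit 553) (nat_lit 5) (nat_lit 576) (nat_lit 5) (nat_lit 434) (nat_lit 416) (nat_lit 290)) (XT.lf (nat_lit 0) (nat_lit 7440497119) (nat_lit 1672) (nat_lit 2567753860) (nat_lit 1748) (nat_lit 494064027) (nat_lit 554) (nat_lit 5) (nat_lit 576) (nat_lit 5) (nat_lit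 577) (nat_lit 5) (nat_lit 435) (nat_lit 416) (nat_lit 289))))) (XT.nd (nat_lit 156) (nat_lit 1672) (nat_lit 0) (XT.nd (nat_lit 78) (nat_lit 0) (nat_lit 0) (XT.lf (nat_lit 76) (nat_lit 3201668341) (nat_lit 0) (nat_lit 5622084799) (nat_lit 1748) (nat_lit 1777212337) (nat_lit 555) (nat_lit 5) (nat_lit 554) (nat_lit 5) (nat_lit 577) (nat_lit 5) (nat_lit 436) (nat_lit 416) (nat_lit 288)) (XT.lf (nat_lit 76) (nat_lit 9107707497) (nat_lit 0) (nat_lit 1126848342) (nat_lit 1748) (nat_lit 467035487) (nat_lit 555) (nat_lit 5) (nat_lit 554) (nat_lit 5) (nat_lit 577) (nat_lit 5) (nat_lit 437) (nat_lit 416) (nat_lit 287))) (XT.nd (nat_lit 78) (nat_lit 0) (nat_lit 0) (XT.lf (nat_lit 0) (nat_lit 891868380) (nat_lit 1748) (nat_lit 6460883138) (nat_lit 1824) (nat_lit 3450686786) (nat_lit 532) (nat_lit 5) (nat_lit 555) (nat_lit 5) (nat_lit 556) (nat_lit 5) (nat_lit 438) (nat_lit 416) (nat_lit 286)) (XT.nd (nat_lit 78) (nat_lit 0) (nat_lit 76) (XT.lf (nat_lit 0) (nat_lit 2273080507)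 (nat_lit 1748) (nat_lit 512216197) (nat_lit 1824) (nat_lit 8121936099) (nat_lit 532) (nat_lit 5) (nat_lit 555) (nat_lit 5) (nat_lit 556) (nat_lit 5) (nat_lit 439) (nat_lit 416) (nat_lit 285)) (XT.lf (nat_lit 0) (nat_lit 3714280666) (nat_lit 1748) (nat_lit 5409595673) (nat_lit 76) (nat_lit 1888579576) (nat_lit 533) (nat_lit 5) (nat_lit 556) (nat_lit 5) (nat_lit 534) (nat_lit 5) (nat_lit 440) (nat_lit 416) (nat_lit 284))))))) (XT.nd (nat_lit 702) (nat_lit 3496) (nat_lit 0) (XT.nd (nat_lit 312) (nat_lit 3040) (nat_lit 0) (XT.nd (nat_lit 156) (nat_lit 1824) (nat_lit 0) (XT.nd (nat_lit 78) (nat_lit 0) (nat_lit 0) (XT.lf (nat_lit 0) (nat_lit 704442927) (nat_lit 1748) (nat_lit 4490075455) (nat_lit 1824) (nat_lit 5925060838) (nat_lit 510) (nat_lit 5) (nat_lit 533) (nat_lit 5) (nat_lit 534) (nat_lit 5) (nat_lit 441) (nat_lit 416) (nat_lit 283)) (XT.lf (nat_lit 0) (nat_lit 6726416644) (nat_lit 1824) (nat_lit 4229842785) (nat_lit 76) (nat_lit 272144446) (nat_lit 510) (nat_lit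 5) (nat_lit 534) (nat_lit 5) (nat_lit 511) (nat_lit 5) (nat_lit 442) (nat_lit 416) (nat_lit 282))) (XT.nd (nat_lit 78) (nat_lit 0) (nat_lit 0) (XT.lf (nat_lit 0) (nat_lit 2062709753) (nat_lit 1824) (nat_lit 6253664603) (nat_lit 1900) (nat_lit 3022482237) (nat_lit 486) (nat_lit 5) (nat_lit 510) (nat_lit 5) (nat_lit 511) (nat_lit 5) (nat_lit 443) (nat_lit 416) (nat_lit 281)) (XT.lf (nat_lit 0) (nat_lit 8524776477) (nat_lit 1824) (nat_lit 1426251819) (nat_lit 1900) (nat_lit 1500232126) (nat_lit 486) (nat_lit 5) (nat_lit 510) (nat_lit 5) (nat_lit 511) (nat_lit 5) (nat_lit 444) (nat_lit 416) (nat_lit 280)))) (XT.nd (nat_lit 156) (nat_lit 1824) (nat_lit 0) (XT.nd (nat_lit 78) (nat_lit 0) (nat_lit 0) (XT.lf (nat_lit 0) (nat_lit 82631926) (nat_lit 1216) (nat_lit 8005404952) (nat_lit 76) (nat_lit 3477251500) (nat_lit 470) (nat_lit 5) (nat_lit 486) (nat_lit 5) (nat_lit 471) (nat_lit 5) (nat_lit 445) (nat_lit 416) (nat_lit 279)) (XT.lf (nat_lit 0) (nat_lit 1691235334) (nat_lit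 1216) (nat_lit 1498897976) (nat_lit 76) (nat_lit 8490981847) (nat_lit 470) (nat_lit 5) (nat_lit 486) (nat_lit 5) (nat_lit 471) (nat_lit 5) (nat_lit 446) (nat_lit 416) (nat_lit 278))) (XT.nd (nat_lit 78) (nat_lit 912) (nat_lit 0) (XT.lf (nat_lit 0) (nat_lit 3362910667) (nat_lit 988) (nat_lit 6618557196) (nat_lit 76) (nat_lit 1817172613) (nat_lit 458) (nat_lit 5) (nat_lit 471) (nat_lit 5) (nat_lit 459) (nat_lit 5) (nat_lit 447) (nat_lit 416) (nat_lit 277)) (XT.nd (nat_lit 78) (nat_lit 0) (nat_lit 0) (XT.lf (nat_lit 0) (nat_lit 60478323) (nat_lit 912) (nat_lit 5024627828) (nat_lit 988) (nat_lit 6833068416) (nat_lit 446) (nat_lit 5) (nat_lit 458) (nat_lit 5) (nat_lit 459) (nat_lit 5) (nat_lit 448) (nat_lit 416) (nat_lit 276)) (XT.lf (nat_lit 0) (nat_lit 6872300557) (nat_lit 988) (nat_lit 5090867494) (nat_lit 76) (nat_lit 76320189) (nat_lit 446) (nat_lit 5) (nat_lit 459) (nat_lit 5) (nat_lit 447) (nat_lit 5) (nat_lit 449) (nat_lit 416) (nat_lit 275)))))) (XT.nd (nat_lit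 390) (nat_lit 836) (nat_lit 0) (XT.nd (nat_lit 156) (nat_lit 1824) (nat_lit 0) (XT.nd (nat_lit 78) (nat_lit 0) (nat_lit 0) (XT.lf (nat_lit 0) (nat_lit 1787773434) (nat_lit 836) (nat_lit 6938273349) (nat_lit 912) (nat_lit 3436565246) (nat_lit 435) (nat_lit 5) (nat_lit 446) (nat_lit 5) (nat_lit 447) (nat_lit 5) (nat_lit 450) (nat_lit 416) (nat_lit 274)) (XT.lf (nat_lit 0) (nat_lit 8859389647) (nat_lit 836) (nat_lit 1777753175) (nat_lit 912) (nat_lit 1650649972) (nat_lit 435) (nat_lit 5) (nat_lit 446) (nat_lit 5) (nat_lit 447) (nat_lit 5) (nat_lit 451) (nat_lit 416) (nat_lit 273))) (XT.nd (nat_lit 78) (nat_lit 836) (nat_lit 0) (XT.lf (nat_lit 0) (nat_lit 201798968) (nat_lit 988) (nat_lit 8747315774) (nat_lit 76) (nat_lit 3465679074) (nat_lit 422) (nat_lit 5) (nat_lit 435) (nat_lit 5) (nat_lit 423) (nat_lit 5) (nat_lit 452) (nat_lit 416) (nat_lit 272)) (XT.nd (nat_lit 78) (nat_lit 836) (nat_lit 0) (XT.lf (nat_lit 0) (nat_lit 2090624039) (nat_lit 988) (nat_lit 1628685048)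 (nat_lit 76) (nat_lit 8824378968) (nat_lit 422) (nat_lit 5) (nat_lit 435) (nat_lit 5) (nat_lit 423) (nat_lit 5) (nat_lit 453) (nat_lit 416) (nat_lit 271)) (XT.lf (nat_lit 0) (nat_lit 4051663779) (nat_lit 912) (nat_lit 6991860007) (nat_lit 76) (nat_lit 1630947629) (nat_lit 411) (nat_lit 5) (nat_lit 423) (nat_lit 5) (nat_lit 412) (nat_lit 5) (nat_lit 454) (nat_lit 416) (nat_lit 270))))) (XT.nd (nat_lit 56472) (nat_lit 0) (nat_lit 12844) (XT.nd (nat_lit 56394) (nat_lit 0) (nat_lit 14364) (XT.lf (nat_lit 0) (nat_lit 320452426) (nat_lit 836) (nat_lit 5756098899) (nat_lit 912) (nat_lit 6730826577) (nat_lit 400) (nat_lit 5) (nat_lit 411) (nat_lit 5) (nat_lit 412) (nat_lit 5) (nat_lit 455) (nat_lit 416) (nat_lit 269)) (XT.lf (nat_lit 0) (nat_lit 3580797544) (nat_lit 1596) (nat_lit 474144848) (nat_lit 1596) (nat_lit 474144848) (nat_lit 589) (nat_lit 3) (nat_lit 610) (nat_lit 3) (nat_lit 610) (nat_lit 5) (nat_lit 417) (nat_lit 417) (nat_lit 306))) (XT.nd (nat_lit 78) (nat_lit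 1520) (nat_lit 0) (XT.lf (nat_lit 76) (nat_lit 3628384458) (nat_lit 0) (nat_lit 4517605969) (nat_lit 1596) (nat_lit 984510212) (nat_lit 590) (nat_lit 5) (nat_lit 589) (nat_lit 3) (nat_lit 610) (nat_lit 5) (nat_lit 418) (nat_lit 417) (nat_lit 305)) (XT.nd (nat_lit 78) (nat_lit 1520) (nat_lit 0) (XT.lf (nat_lit 76) (nat_lit 8297392783) (nat_lit 0) (nat_lit 835641555) (nat_lit 1596) (nat_lit 71579769) (nat_lit 590) (nat_lit 5) (nat_lit 589) (nat_lit 3) (nat_lit 610) (nat_lit 5) (nat_lit 419) (nat_lit 417) (nat_lit 304)) (XT.lf (nat_lit 0) (nat_lit 869218973) (nat_lit 1596) (nat_lit 5487436308) (nat_lit 1672) (nat_lit 2923025267) (nat_lit 569) (nat_lit 5) (nat_lit 590) (nat_lit 5) (nat_lit 591) (nat_lit 5) (nat_lit 420) (nat_lit 417) (nat_lit 303))))))))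
noncomputable def xc116 : XT := (XT.nd (nat_lit 1482) (nat_lit 8284) (nat_lit 0) (XT.nd (nat_lit 702) (nat_lit 1520) (nat_lit 0) (XT.nd (nat_lit 312) (nat_lit 1368) (nat_lit 0) (XT.nd (nat_lit 156) (nat_lit 0) (nat_lit 76) (XT.nd (nat_lit 78) (nat_lit 0) (nat_lit 76) (XT.lf (nat_lit 0) (nat_lit 1816886487) (nat_lit 1596) (nat_lit 776746425) (nat_lit 1672) (nat_lit 6762825717) (nat_lit 569) (nat_lit 5) (nat_lit 590) (nat_lit 5) (nat_lit 591) (nat_lit 5) (nat_lit 421) (nat_lit 417) (nat_lit 302)) (XT.lf (nat_lit 0) (nat_lit 2796039777) (nat_lit 1596) (nat_lit 5373804446) (nat_lit 1672) (nat_lit 1264677401) (nat_lit 570) (nat_lit 5) (nat_lit 591) (nat_lit 5) (nat_lit 592) (nat_lit 5) (nat_lit 422) (nat_lit 417) (nat_lit 301))) (XT.nd (nat_lit 78) (nat_lit 0) (nat_lit 0) (XT.lf (nat_lit 0) (nat_lit 3795409991) (nat_lit 1596) (nat_lit 538533609) (nat_lit 1672) (nat_lit 5180189601) (nat_lit 570) (nat_lit 5) (nat_lit 591) (nat_lit 5) (nat_lit 592) (nat_lit 5) (nat_lit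 423) (nat_lit 417) (nat_lit 300)) (XT.lf (nat_lit 76) (nat_lit 4439172862) (nat_lit 0) (nat_lit 383054629) (nat_lit 1672) (nat_lit 4772960323) (nat_lit 571) (nat_lit 5) (nat_lit 570) (nat_lit 5) (nat_lit 592) (nat_lit 5) (nat_lit 424) (nat_lit 417) (nat_lit 299)))) (XT.nd (nat_lit 156) (nat_lit 1520) (nat_lit 0) (XT.nd (nat_lit 78) (nat_lit 0) (nat_lit 0) (XT.lf (nat_lit 0) (nat_lit 5875928971) (nat_lit 1596) (nat_lit 190644103) (nat_lit 1672) (nat_lit 3611163490) (nat_lit 571) (nat_lit 5) (nat_lit 592) (nat_lit 5) (nat_lit 593) (nat_lit 5) (nat_lit 425) (nat_lit 417) (nat_lit 298)) (XT.lf (nat_lit 76) (nat_lit 4923437203) (nat_lit 0) (nat_lit 2041213488) (nat_lit 1672) (nat_lit 2797006675) (nat_lit 572) (nat_lit 5) (nat_lit 571) (nat_lit 5) (nat_lit 593) (nat_lit 5) (nat_lit 426) (nat_lit 417) (nat_lit 297))) (XT.nd (nat_lit 78) (nat_lit 1596) (nat_lit 0) (XT.lf (nat_lit 76) (nat_lit 272307722) (nat_lit 0) (nat_lit 7799114731) (nat_lit 1672) (nat_lit 1775908619)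 (nat_lit 573) (nat_lit 5) (nat_lit 572) (nat_lit 5) (nat_lit 594) (nat_lit 5) (nat_lit 427) (nat_lit 417) (nat_lit 296)) (XT.nd (nat_lit 78) (nat_lit 1596) (nat_lit 0) (XT.lf (nat_lit 76) (nat_lit 5524014006) (nat_lit 0) (nat_lit 3702338313) (nat_lit 1672) (nat_lit 707845480) (nat_lit 573) (nat_lit 5) (nat_lit 572) (nat_lit 5) (nat_lit 594) (nat_lit 5) (nat_lit 428) (nat_lit 417) (nat_lit 295)) (XT.lf (nat_lit 0) (nat_lit 365694276) (nat_lit 1672) (nat_lit 9172476282) (nat_lit 1748) (nat_lit 484799356) (nat_lit 551) (nat_lit 5) (nat_lit 573) (nat_lit 5) (nat_lit 574) (nat_lit 5) (nat_lit 429) (nat_lit 417) (nat_lit 294)))))) (XT.nd (nat_lit 390) (nat_lit 1520) (nat_lit 0) (XT.nd (nat_lit 156) (nat_lit 0) (nat_lit 76) (XT.nd (nat_lit 78) (nat_lit 0) (nat_lit 0) (XT.lf (nat_lit 0) (nat_lit 1486275563) (nat_lit 1672) (nat_lit 3879430730) (nat_lit 1748) (nat_lit 4747016626) (nat_lit 551) (nat_lit 5) (nat_lit 573) (nat_lit 5) (nat_lit 574) (nat_lit 5) (nat_lit 430)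 (nat_lit 417) (nat_lit 293)) (XT.lf (nat_lit 76) (nat_lit 1526487603) (nat_lit 0) (nat_lit 1093800160) (nat_lit 1748) (nat_lit 7584162834) (nat_lit 552) (nat_lit 5) (nat_lit 551) (nat_lit 5) (nat_lit 574) (nat_lit 5) (nat_lit 431) (nat_lit 417) (nat_lit 292))) (XT.nd (nat_lit 78) (nat_lit 0) (nat_lit 0) (XT.lf (nat_lit 0) (nat_lit 3805806461) (nat_lit 1672) (nat_lit 3239074365) (nat_lit 1748) (nat_lit 3252555479) (nat_lit 552) (nat_lit 5) (nat_lit 574) (nat_lit 5) (nat_lit 575) (nat_lit 5) (nat_lit 432) (nat_lit 417) (nat_lit 291)) (XT.nd (nat_lit 78) (nat_lit 0) (nat_lit 76) (XT.lf (nat_lit 76) (nat_lit 2318688038) (nat_lit 0) (nat_lit 2700441482) (nat_lit 1748) (nat_lit 5373070326) (nat_lit 553) (nat_lit 5) (nat_lit 552) (nat_lit 5) (nat_lit 575) (nat_lit 5) (nat_lit 433) (nat_lit 417) (nat_lit 290)) (XT.lf (nat_lit 0) (nat_lit 6271937527) (nat_lit 1672) (nat_lit 2481668819) (nat_lit 1748) (nat_lit 1734947944) (nat_lit 553) (nat_lit 5) (nat_lit 575) (nat_lit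 5) (nat_lit 576) (nat_lit 5) (nat_lit 434) (nat_lit 417) (nat_lit 289))))) (XT.nd (nat_lit 156) (nat_lit 1672) (nat_lit 0) (XT.nd (nat_lit 78) (nat_lit 0) (nat_lit 76) (XT.lf (nat_lit 76) (nat_lit 3233421409) (nat_lit 0) (nat_lit 4337709068) (nat_lit 1748) (nat_lit 3015278770) (nat_lit 554) (nat_lit 5) (nat_lit 553) (nat_lit 5) (nat_lit 576) (nat_lit 5) (nat_lit 435) (nat_lit 417) (nat_lit 288)) (XT.lf (nat_lit 0) (nat_lit 8896890679) (nat_lit 1672) (nat_lit 1604026466) (nat_lit 1748) (nat_lit 185292488) (nat_lit 554) (nat_lit 5) (nat_lit 576) (nat_lit 5) (nat_lit 577) (nat_lit 5) (nat_lit 436) (nat_lit 417) (nat_lit 287))) (XT.nd (nat_lit 78) (nat_lit 1748) (nat_lit 0) (XT.lf (nat_lit 76) (nat_lit 4274106005) (nat_lit 0) (nat_lit 6014614151) (nat_lit 1748) (nat_lit 498494791) (nat_lit 555) (nat_lit 5) (nat_lit 554) (nat_lit 5) (nat_lit 577) (nat_lit 5) (nat_lit 437) (nat_lit 417) (nat_lit 286)) (XT.nd (nat_lit 78) (nat_lit 0) (nat_lit 76) (XT.lf (nat_lit 0)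 (nat_lit 801464711) (nat_lit 1748) (nat_lit 617138089) (nat_lit 1824) (nat_lit 9471650349) (nat_lit 531) (nat_lit 5) (nat_lit 554) (nat_lit 5) (nat_lit 555) (nat_lit 5) (nat_lit 438) (nat_lit 417) (nat_lit 285)) (XT.lf (nat_lit 0) (nat_lit 2161200685) (nat_lit 1748) (nat_lit 5564472121) (nat_lit 1824) (nat_lit 3268804365) (nat_lit 532) (nat_lit 5) (nat_lit 555) (nat_lit 5) (nat_lit 556) (nat_lit 5) (nat_lit 439) (nat_lit 417) (nat_lit 284))))))) (XT.nd (nat_lit 702) (nat_lit 2736) (nat_lit 0) (XT.nd (nat_lit 312) (nat_lit 3952) (nat_lit 0) (XT.nd (nat_lit 156) (nat_lit 1672) (nat_lit 0) (XT.nd (nat_lit 78) (nat_lit 0) (nat_lit 76) (XT.lf (nat_lit 76) (nat_lit 489477376) (nat_lit 0) (nat_lit 3059198574) (nat_lit 1824) (nat_lit 7552098833) (nat_lit 533) (nat_lit 5) (nat_lit 532) (nat_lit 5) (nat_lit 556) (nat_lit 5) (nat_lit 440) (nat_lit 417) (nat_lit 283)) (XT.lf (nat_lit 0) (nat_lit 4996583107) (nat_lit 1748) (nat_lit 4493330280) (nat_lit 76) (nat_lit 1718631311)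 (nat_lit 533) (nat_lit 5) (nat_lit 556) (nat_lit 5) (nat_lit 534) (nat_lit 5) (nat_lit 441) (nat_lit 417) (nat_lit 282))) (XT.nd (nat_lit 78) (nat_lit 0) (nat_lit 0) (XT.lf (nat_lit 0) (nat_lit 1736249242) (nat_lit 1748) (nat_lit 4753097427) (nat_lit 1824) (nat_lit 4828805377) (nat_lit 510) (nat_lit 5) (nat_lit 533) (nat_lit 5) (nat_lit 534) (nat_lit 5) (nat_lit 442) (nat_lit 417) (nat_lit 281)) (XT.lf (nat_lit 0) (nat_lit 8027428562) (nat_lit 1824) (nat_lit 3292223095) (nat_lit 76) (nat_lit 109990624) (nat_lit 510) (nat_lit 5) (nat_lit 534) (nat_lit 5) (nat_lit 511) (nat_lit 5) (nat_lit 443) (nat_lit 417) (nat_lit 280)))) (XT.nd (nat_lit 156) (nat_lit 2128) (nat_lit 0) (XT.nd (nat_lit 78) (nat_lit 0) (nat_lit 0) (XT.lf (nat_lit 0) (nat_lit 3119455385) (nat_lit 1824) (nat_lit 6513451060) (nat_lit 1900) (nat_lit 1909723187) (nat_lit 486) (nat_lit 5) (nat_lit 510) (nat_lit 5) (nat_lit 511) (nat_lit 5) (nat_lit 444) (nat_lit 417) (nat_lit 279)) (XT.lf (nat_lit 0)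 (nat_lit 9690851847) (nat_lit 1824) (nat_lit 1586848586) (nat_lit 1900) (nat_lit 380032167) (nat_lit 486) (nat_lit 5) (nat_lit 510) (nat_lit 5) (nat_lit 511) (nat_lit 5) (nat_lit 445) (nat_lit 417) (nat_lit 278))) (XT.nd (nat_lit 78) (nat_lit 912) (nat_lit 0) (XT.lf (nat_lit 0) (nat_lit 1202916492) (nat_lit 1216) (nat_lit 7138360537) (nat_lit 76) (nat_lit 3432944478) (nat_lit 470) (nat_lit 5) (nat_lit 486) (nat_lit 5) (nat_lit 471) (nat_lit 5) (nat_lit 446) (nat_lit 417) (nat_lit 277)) (XT.nd (nat_lit 78) (nat_lit 912) (nat_lit 0) (XT.lf (nat_lit 0) (nat_lit 2821758009) (nat_lit 1216) (nat_lit 521863667) (nat_lit 76) (nat_lit 8549181826) (nat_lit 470) (nat_lit 5) (nat_lit 486) (nat_lit 5) (nat_lit 471) (nat_lit 5) (nat_lit 447) (nat_lit 417) (nat_lit 276)) (XT.lf (nat_lit 0) (nat_lit 4511330277) (nat_lit 988) (nat_lit 5728379499) (nat_lit 76) (nat_lit 1773280281) (nat_lit 458) (nat_lit 5) (nat_lit 471) (nat_lit 5) (nat_lit 459) (nat_lit 5) (nat_lit 448) (nat_lit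 417) (nat_lit 275)))))) (XT.nd (nat_lit 390) (nat_lit 0) (nat_lit 0) (XT.nd (nat_lit 156) (nat_lit 1824) (nat_lit 0) (XT.nd (nat_lit 78) (nat_lit 0) (nat_lit 0) (XT.lf (nat_lit 0) (nat_lit 1077509435) (nat_lit 912) (nat_lit 5175856380) (nat_lit 988) (nat_lit 5881841093) (nat_lit 446) (nat_lit 5) (nat_lit 458) (nat_lit 5) (nat_lit 459) (nat_lit 5) (nat_lit 449) (nat_lit 417) (nat_lit 274)) (XT.lf (nat_lit 0) (nat_lit 8055068264) (nat_lit 988) (nat_lit 4175545522) (nat_lit 76) (nat_lit 28757786) (nat_lit 446) (nat_lit 5) (nat_lit 459) (nat_lit 5) (nat_lit 447) (nat_lit 5) (nat_lit 450) (nat_lit 417) (nat_lit 273))) (XT.nd (nat_lit 78) (nat_lit 988) (nat_lit 0) (XT.lf (nat_lit 0) (nat_lit 2833976518) (nat_lit 836) (nat_lit 7097976888) (nat_lit 912) (nat_lit 2453283149) (nat_lit 435) (nat_lit 5) (nat_lit 446) (nat_lit 5) (nat_lit 447) (nat_lit 5) (nat_lit 451) (nat_lit 417) (nat_lit 272)) (XT.nd (nat_lit 78) (nat_lit 988) (nat_lit 0) (XT.lf (nat_lit 0) (nat_lit 10027212358)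 (nat_lit 836) (nat_lit 1833835760) (nat_lit 912) (nat_lit 652277284) (nat_lit 435) (nat_lit 5) (nat_lit 446) (nat_lit 5) (nat_lit 447) (nat_lit 5) (nat_lit 452) (nat_lit 417) (nat_lit 271)) (XT.lf (nat_lit 0) (nat_lit 1210168305) (nat_lit 988) (nat_lit 7904574843) (nat_lit 76) (nat_lit 3528259877) (nat_lit 422) (nat_lit 5) (nat_lit 435) (nat_lit 5) (nat_lit 423) (nat_lit 5) (nat_lit 453) (nat_lit 417) (nat_lit 270))))) (XT.nd (nat_lit 56628) (nat_lit 0) (nat_lit 11096) (XT.nd (nat_lit 56550) (nat_lit 0) (nat_lit 12692) (XT.lf (nat_lit 0) (nat_lit 3117077067) (nat_lit 988) (nat_lit 663526154) (nat_lit 76) (nat_lit 8994265784) (nat_lit 422) (nat_lit 5) (nat_lit 435) (nat_lit 5) (nat_lit 423) (nat_lit 5) (nat_lit 454) (nat_lit 417) (nat_lit 269)) (XT.lf (nat_lit 0) (nat_lit 4535861590) (nat_lit 1596) (nat_lit 33069217) (nat_lit 1596) (nat_lit 33069217) (nat_lit 589) (nat_lit 3) (nat_lit 610) (nat_lit 3) (nat_lit 610) (nat_lit 5) (nat_lit 418) (nat_lit 418) (nat_lit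 304))) (XT.nd (nat_lit 78) (nat_lit 0) (nat_lit 0) (XT.lf (nat_lit 0) (nat_lit 758543531) (nat_lit 1596) (nat_lit 4687199001) (nat_lit 1672) (nat_lit 3832507045) (nat_lit 568) (nat_lit 5) (nat_lit 589) (nat_lit 3) (nat_lit 590) (nat_lit 5) (nat_lit 419) (nat_lit 418) (nat_lit 303)) (XT.nd (nat_lit 78) (nat_lit 0) (nat_lit 76) (XT.lf (nat_lit 0) (nat_lit 1643214505) (nat_lit 1596) (nat_lit 24460762) (nat_lit 1672) (nat_lit 7686735236) (nat_lit 568) (nat_lit 5) (nat_lit 589) (nat_lit 3) (nat_lit 590) (nat_lit 5) (nat_lit 420) (nat_lit 418) (nat_lit 302)) (XT.lf (nat_lit 0) (nat_lit 2568898417) (nat_lit 1596) (nat_lit 4663780837) (nat_lit 1672) (nat_lit 2198949002) (nat_lit 569) (nat_lit 5) (nat_lit 590) (nat_lit 5) (nat_lit 591) (nat_lit 5) (nat_lit 421) (nat_lit 418) (nat_lit 301))))))))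
noncomputable def xc117 : XT := (XT.nd (nat_lit 1482) (nat_lit 8284) (nat_lit 0) (XT.nd (nat_lit 702) (nat_lit 1444) (nat_lit 0) (XT.nd (nat_lit 312) (nat_lit 1444) (nat_lit 0) (XT.nd (nat_lit 156) (nat_lit 0) (nat_lit 76) (XT.nd (nat_lit 78) (nat_lit 0) (nat_lit 76) (XT.lf (nat_lit 76) (nat_lit 124453023) (nat_lit 0) (nat_lit 3378888112) (nat_lit 1672) (nat_lit 6007244328) (nat_lit 570) (nat_lit 5) (nat_lit 569) (nat_lit 5) (nat_lit 591) (nat_lit 5) (nat_lit 422) (nat_lit 418) (nat_lit 300)) (XT.lf (nat_lit 0) (nat_lit 4470198033) (nat_lit 1596) (nat_lit 4535106954) (nat_lit 1672) (nat_lit 585542320) (nat_lit 570) (nat_lit 5) (nat_lit 591) (nat_lit 5) (nat_lit 592) (nat_lit 5) (nat_lit 423) (nat_lit 418) (nat_lit 299))) (XT.nd (nat_lit 78) (nat_lit 0) (nat_lit 0) (XT.lf (nat_lit 76) (nat_lit 383344508) (nat_lit 0) (nat_lit 5076969924) (nat_lit 1672) (nat_lit 4212321509) (nat_lit 571) (nat_lit 5) (nat_lit 570) (nat_lit 5) (nat_lit 592) (nat_lit 5) (nat_lit 424)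 (nat_lit 418) (nat_lit 298)) (XT.lf (nat_lit 76) (nat_lit 5449474706) (nat_lit 0) (nat_lit 1030579771) (nat_lit 1672) (nat_lit 3275809444) (nat_lit 571) (nat_lit 5) (nat_lit 570) (nat_lit 5) (nat_lit 592) (nat_lit 5) (nat_lit 425) (nat_lit 418) (nat_lit 297)))) (XT.nd (nat_lit 156) (nat_lit 1596) (nat_lit 0) (XT.nd (nat_lit 78) (nat_lit 0) (nat_lit 0) (XT.lf (nat_lit 76) (nat_lit 753563842) (nat_lit 0) (nat_lit 6771470476) (nat_lit 1672) (nat_lit 2315625242) (nat_lit 572) (nat_lit 5) (nat_lit 571) (nat_lit 5) (nat_lit 593) (nat_lit 5) (nat_lit 426) (nat_lit 418) (nat_lit 296)) (XT.lf (nat_lit 76) (nat_lit 5953871692) (nat_lit 0) (nat_lit 2652881906) (nat_lit 1672) (nat_lit 1320080718) (nat_lit 572) (nat_lit 5) (nat_lit 571) (nat_lit 5) (nat_lit 593) (nat_lit 5) (nat_lit 427) (nat_lit 418) (nat_lit 295))) (XT.nd (nat_lit 78) (nat_lit 1672) (nat_lit 0) (XT.lf (nat_lit 76) (nat_lit 1237128643) (nat_lit 0) (nat_lit 8471660562) (nat_lit 1672) (nat_lit 305969722) (nat_lit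 573) (nat_lit 5) (nat_lit 572) (nat_lit 5) (nat_lit 594) (nat_lit 5) (nat_lit 428) (nat_lit 418) (nat_lit 294)) (XT.nd (nat_lit 78) (nat_lit 0) (nat_lit 76) (XT.lf (nat_lit 0) (nat_lit 744047907) (nat_lit 1672) (nat_lit 3533779058) (nat_lit 1748) (nat_lit 5826016922) (nat_lit 550) (nat_lit 5) (nat_lit 572) (nat_lit 5) (nat_lit 573) (nat_lit 5) (nat_lit 429) (nat_lit 418) (nat_lit 293)) (XT.lf (nat_lit 0) (nat_lit 1804099876) (nat_lit 1672) (nat_lit 8370515722) (nat_lit 1748) (nat_lit 20191880) (nat_lit 551) (nat_lit 5) (nat_lit 573) (nat_lit 5) (nat_lit 574) (nat_lit 5) (nat_lit 430) (nat_lit 418) (nat_lit 292)))))) (XT.nd (nat_lit 390) (nat_lit 1520) (nat_lit 0) (XT.nd (nat_lit 156) (nat_lit 0) (nat_lit 76) (XT.nd (nat_lit 78) (nat_lit 0) (nat_lit 0) (XT.lf (nat_lit 0) (nat_lit 2919032167) (nat_lit 1672) (nat_lit 2990931026) (nat_lit 1748) (nat_lit 4376953563) (nat_lit 551) (nat_lit 5) (nat_lit 573) (nat_lit 5) (nat_lit 574) (nat_lit 5) (nat_lit 431) (nat_lit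 418) (nat_lit 291)) (XT.lf (nat_lit 76) (nat_lit 2516749830) (nat_lit 0) (nat_lit 1537695587) (nat_lit 1748) (nat_lit 6326459155) (nat_lit 552) (nat_lit 5) (nat_lit 551) (nat_lit 5) (nat_lit 574) (nat_lit 5) (nat_lit 432) (nat_lit 418) (nat_lit 290))) (XT.nd (nat_lit 78) (nat_lit 0) (nat_lit 0) (XT.lf (nat_lit 0) (nat_lit 5233895011) (nat_lit 1672) (nat_lit 2333162183) (nat_lit 1748) (nat_lit 2909288389) (nat_lit 552) (nat_lit 5) (nat_lit 574) (nat_lit 5) (nat_lit 575) (nat_lit 5) (nat_lit 433) (nat_lit 418) (nat_lit 289)) (XT.nd (nat_lit 78) (nat_lit 0) (nat_lit 76) (XT.lf (nat_lit 76) (nat_lit 3329369326) (nat_lit 0) (nat_lit 3121866866) (nat_lit 1748) (nat_lit 4122173170) (nat_lit 553) (nat_lit 5) (nat_lit 552) (nat_lit 5) (nat_lit 575) (nat_lit 5) (nat_lit 434) (nat_lit 418) (nat_lit 288)) (XT.lf (nat_lit 0) (nat_lit 7700649384) (nat_lit 1672) (nat_lit 1557451686) (nat_lit 1748) (nat_lit 1414158844) (nat_lit 553) (nat_lit 5) (nat_lit 575) (nat_lit 5) (nat_lit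 576) (nat_lit 5) (nat_lit 435) (nat_lit 418) (nat_lit 287))))) (XT.nd (nat_lit 156) (nat_lit 1672) (nat_lit 0) (XT.nd (nat_lit 78) (nat_lit 0) (nat_lit 0) (XT.lf (nat_lit 76) (nat_lit 4265533435) (nat_lit 0) (nat_lit 4741019668) (nat_lit 1748) (nat_lit 1765904327) (nat_lit 554) (nat_lit 5) (nat_lit 553) (nat_lit 5) (nat_lit 576) (nat_lit 5) (nat_lit 436) (nat_lit 418) (nat_lit 286)) (XT.lf (nat_lit 76) (nat_lit 10213569226) (nat_lit 0) (nat_lit 118839403) (nat_lit 1748) (nat_lit 542373595) (nat_lit 554) (nat_lit 5) (nat_lit 553) (nat_lit 5) (nat_lit 576) (nat_lit 5) (nat_lit 437) (nat_lit 418) (nat_lit 285))) (XT.nd (nat_lit 78) (nat_lit 0) (nat_lit 0) (XT.lf (nat_lit 0) (nat_lit 744863868) (nat_lit 1748) (nat_lit 5654255648) (nat_lit 1824) (nat_lit 4578972557) (nat_lit 531) (nat_lit 5) (nat_lit 554) (nat_lit 5) (nat_lit 555) (nat_lit 5) (nat_lit 438) (nat_lit 418) (nat_lit 284)) (XT.nd (nat_lit 78) (nat_lit 0) (nat_lit 76) (XT.lf (nat_lit 76) (nat_lit 341482243)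 (nat_lit 0) (nat_lit 1700444528) (nat_lit 1824) (nat_lit 9041642785) (nat_lit 532) (nat_lit 5) (nat_lit 531) (nat_lit 5) (nat_lit 555) (nat_lit 5) (nat_lit 439) (nat_lit 418) (nat_lit 283)) (XT.lf (nat_lit 0) (nat_lit 3407322562) (nat_lit 1748) (nat_lit 4689959296) (nat_lit 1824) (nat_lit 3093026899) (nat_lit 532) (nat_lit 5) (nat_lit 555) (nat_lit 5) (nat_lit 556) (nat_lit 5) (nat_lit 440) (nat_lit 418) (nat_lit 282))))))) (XT.nd (nat_lit 702) (nat_lit 2736) (nat_lit 0) (XT.nd (nat_lit 312) (nat_lit 3952) (nat_lit 0) (XT.nd (nat_lit 156) (nat_lit 1672) (nat_lit 0) (XT.nd (nat_lit 78) (nat_lit 0) (nat_lit 76) (XT.lf (nat_lit 76) (nat_lit 1478583650) (nat_lit 0) (nat_lit 3326735824) (nat_lit 1824) (nat_lit 6493757404) (nat_lit 533) (nat_lit 5) (nat_lit 532) (nat_lit 5) (nat_lit 556) (nat_lit 5) (nat_lit 441) (nat_lit 418) (nat_lit 281)) (XT.lf (nat_lit 0) (nat_lit 6257622830) (nat_lit 1748) (nat_lit 3598520504) (nat_lit 76) (nat_lit 1553350097) (nat_lit 533) (nat_lit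 5) (nat_lit 556) (nat_lit 5) (nat_lit 534) (nat_lit 5) (nat_lit 442) (nat_lit 418) (nat_lit 280))) (XT.nd (nat_lit 78) (nat_lit 0) (nat_lit 0) (XT.lf (nat_lit 0) (nat_lit 2749172474) (nat_lit 1748) (nat_lit 5014653477) (nat_lit 1824) (nat_lit 3757795289) (nat_lit 510) (nat_lit 5) (nat_lit 533) (nat_lit 5) (nat_lit 534) (nat_lit 5) (nat_lit 443) (nat_lit 418) (nat_lit 279)) (XT.lf (nat_lit 0) (nat_lit 9259938316) (nat_lit 1748) (nat_lit 49548122) (nat_lit 1824) (nat_lit 2326318502) (nat_lit 510) (nat_lit 5) (nat_lit 533) (nat_lit 5) (nat_lit 534) (nat_lit 5) (nat_lit 444) (nat_lit 418) (nat_lit 278)))) (XT.nd (nat_lit 156) (nat_lit 2052) (nat_lit 0) (XT.nd (nat_lit 78) (nat_lit 76) (nat_lit 0) (XT.lf (nat_lit 0) (nat_lit 4157903160) (nat_lit 1824) (nat_lit 6773202170) (nat_lit 1900) (nat_lit 820266080) (nat_lit 486) (nat_lit 5) (nat_lit 510) (nat_lit 5) (nat_lit 511) (nat_lit 5) (nat_lit 445) (nat_lit 418) (nat_lit 277)) (XT.lf (nat_lit 0) (nat_lit 708492453)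 (nat_lit 1900) (nat_lit 1032281971) (nat_lit 76) (nat_lit 10128342336) (nat_lit 485) (nat_lit 5) (nat_lit 510) (nat_lit 5) (nat_lit 486) (nat_lit 5) (nat_lit 446) (nat_lit 418) (nat_lit 276))) (XT.nd (nat_lit 78) (nat_lit 912) (nat_lit 0) (XT.lf (nat_lit 0) (nat_lit 2302168909) (nat_lit 1216) (nat_lit 6293860817) (nat_lit 76) (nat_lit 3392172329) (nat_lit 470) (nat_lit 5) (nat_lit 486) (nat_lit 5) (nat_lit 471) (nat_lit 5) (nat_lit 447) (nat_lit 418) (nat_lit 275)) (XT.nd (nat_lit 78) (nat_lit 0) (nat_lit 0) (XT.lf (nat_lit 0) (nat_lit 441396813) (nat_lit 912) (nat_lit 3493774046) (nat_lit 988) (nat_lit 8174349158) (nat_lit 458) (nat_lit 5) (nat_lit 470) (nat_lit 5) (nat_lit 471) (nat_lit 5) (nat_lit 448) (nat_lit 418) (nat_lit 274)) (XT.lf (nat_lit 0) (nat_lit 5640735465) (nat_lit 988) (nat_lit 4860105066) (nat_lit 76) (nat_lit 1731625756) (nat_lit 458) (nat_lit 5) (nat_lit 471) (nat_lit 5) (nat_lit 459) (nat_lit 5) (nat_lit 449) (nat_lit 418) (nat_lit 273))))))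 (XT.nd (nat_lit 56940) (nat_lit 0) (nat_lit 11096) (XT.nd (nat_lit 156) (nat_lit 1824) (nat_lit 0) (XT.nd (nat_lit 78) (nat_lit 0) (nat_lit 0) (XT.lf (nat_lit 0) (nat_lit 2075435581) (nat_lit 912) (nat_lit 5328139362) (nat_lit 988) (nat_lit 4953833266) (nat_lit 446) (nat_lit 5) (nat_lit 458) (nat_lit 5) (nat_lit 459) (nat_lit 5) (nat_lit 450) (nat_lit 418) (nat_lit 272)) (XT.lf (nat_lit 0) (nat_lit 9202930741) (nat_lit 912) (nat_lit 18086900) (nat_lit 988) (nat_lit 3263444402) (nat_lit 446) (nat_lit 5) (nat_lit 458) (nat_lit 5) (nat_lit 459) (nat_lit 5) (nat_lit 451) (nat_lit 418) (nat_lit 271))) (XT.nd (nat_lit 78) (nat_lit 988) (nat_lit 0) (XT.lf (nat_lit 0) (nat_lit 3861866752) (nat_lit 836) (nat_lit 7260061447) (nat_lit 912) (nat_lit 1491186373) (nat_lit 435) (nat_lit 5) (nat_lit 446) (nat_lit 5) (nat_lit 447) (nat_lit 5) (nat_lit 452) (nat_lit 418) (nat_lit 270)) (XT.nd (nat_lit 78) (nat_lit 912) (nat_lit 0) (XT.lf (nat_lit 0) (nat_lit 321737177) (nat_lit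 912) (nat_lit 1566346685) (nat_lit 76) (nat_lit 10856027758) (nat_lit 434) (nat_lit 5) (nat_lit 446) (nat_lit 5) (nat_lit 435) (nat_lit 5) (nat_lit 453) (nat_lit 418) (nat_lit 269)) (XT.lf (nat_lit 0) (nat_lit 2199705542) (nat_lit 988) (nat_lit 7084497129) (nat_lit 76) (nat_lit 3592353737) (nat_lit 422) (nat_lit 5) (nat_lit 435) (nat_lit 5) (nat_lit 423) (nat_lit 5) (nat_lit 454) (nat_lit 418) (nat_lit 268))))) (XT.nd (nat_lit 156) (nat_lit 0) (nat_lit 0) (XT.nd (nat_lit 78) (nat_lit 0) (nat_lit 0) (XT.lf (nat_lit 0) (nat_lit 396705004) (nat_lit 0) (nat_lit 396705004) (nat_lit 1596) (nat_lit 3883439047) (nat_lit 568) (nat_lit 5) (nat_lit 568) (nat_lit 3) (nat_lit 589) (nat_lit 3) (nat_lit 419) (nat_lit 419) (nat_lit 302)) (XT.lf (nat_lit 0) (nat_lit 2455350002) (nat_lit 1596) (nat_lit 3898167541) (nat_lit 1672) (nat_lit 3076664315) (nat_lit 568) (nat_lit 5) (nat_lit 589) (nat_lit 3) (nat_lit 590) (nat_lit 5) (nat_lit 420) (nat_lit 419) (nat_lit 301))) (XT.nd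 (nat_lit 78) (nat_lit 0) (nat_lit 76) (XT.lf (nat_lit 76) (nat_lit 851686157) (nat_lit 0) (nat_lit 2478584702) (nat_lit 1672) (nat_lit 6178144013) (nat_lit 569) (nat_lit 5) (nat_lit 568) (nat_lit 5) (nat_lit 590) (nat_lit 5) (nat_lit 421) (nat_lit 419) (nat_lit 300)) (XT.nd (nat_lit 78) (nat_lit 0) (nat_lit 0) (XT.lf (nat_lit 0) (nat_lit 4237245883) (nat_lit 1596) (nat_lit 3859897480) (nat_lit 1672) (nat_lit 1490778069) (nat_lit 569) (nat_lit 5) (nat_lit 590) (nat_lit 5) (nat_lit 591) (nat_lit 5) (nat_lit 422) (nat_lit 419) (nat_lit 299)) (XT.lf (nat_lit 76) (nat_lit 1018198696) (nat_lit 0) (nat_lit 4146260104) (nat_lit 1672) (nat_lit 4504517355) (nat_lit 570) (nat_lit 5) (nat_lit 569) (nat_lit 5) (nat_lit 591) (nat_lit 5) (nat_lit 423) (nat_lit 419) (nat_lit 298))))))))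
noncomputable def xc118 : XT := (XT.nd (nat_lit 1482) (nat_lit 7220) (nat_lit 0) (XT.nd (nat_lit 702) (nat_lit 1444) (nat_lit 0) (XT.nd (nat_lit 312) (nat_lit 1520) (nat_lit 0) (XT.nd (nat_lit 156) (nat_lit 0) (nat_lit 76) (XT.nd (nat_lit 78) (nat_lit 0) (nat_lit 76) (XT.lf (nat_lit 76) (nat_lit 6034644037) (nat_lit 0) (nat_lit 80882427) (nat_lit 1672) (nat_lit 3636019300) (nat_lit 570) (nat_lit 5) (nat_lit 569) (nat_lit 5) (nat_lit 591) (nat_lit 5) (nat_lit 424) (nat_lit 419) (nat_lit 297)) (XT.lf (nat_lit 76) (nat_lit 1294460797) (nat_lit 0) (nat_lit 5805827018) (nat_lit 1672) (nat_lit 2735185503) (nat_lit 571) (nat_lit 5) (nat_lit 570) (nat_lit 5) (nat_lit 592) (nat_lit 5) (nat_lit 425) (nat_lit 419) (nat_lit 296))) (XT.nd (nat_lit 78) (nat_lit 0) (nat_lit 76) (XT.lf (nat_lit 76) (nat_lit 6444198905) (nat_lit 0) (nat_lit 1666208714) (nat_lit 1672) (nat_lit 1810558539) (nat_lit 571) (nat_lit 5) (nat_lit 570) (nat_lit 5) (nat_lit 592) (nat_lit 5) (nat_lit 426)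 (nat_lit 419) (nat_lit 295)) (XT.lf (nat_lit 76) (nat_lit 1682327026) (nat_lit 0) (nat_lit 7466551010) (nat_lit 1672) (nat_lit 859127855) (nat_lit 572) (nat_lit 5) (nat_lit 571) (nat_lit 5) (nat_lit 593) (nat_lit 5) (nat_lit 427) (nat_lit 419) (nat_lit 294)))) (XT.nd (nat_lit 156) (nat_lit 0) (nat_lit 76) (XT.nd (nat_lit 78) (nat_lit 0) (nat_lit 76) (XT.lf (nat_lit 0) (nat_lit 125196898) (nat_lit 1672) (nat_lit 3128580082) (nat_lit 1748) (nat_lit 6842688470) (nat_lit 549) (nat_lit 5) (nat_lit 571) (nat_lit 5) (nat_lit 572) (nat_lit 5) (nat_lit 428) (nat_lit 419) (nat_lit 293)) (XT.lf (nat_lit 0) (nat_lit 1120024680) (nat_lit 1672) (nat_lit 8010057883) (nat_lit 1748) (nat_lit 1056451655) (nat_lit 550) (nat_lit 5) (nat_lit 572) (nat_lit 5) (nat_lit 573) (nat_lit 5) (nat_lit 429) (nat_lit 419) (nat_lit 292))) (XT.nd (nat_lit 78) (nat_lit 0) (nat_lit 0) (XT.lf (nat_lit 0) (nat_lit 2158949152) (nat_lit 1672) (nat_lit 2681808837) (nat_lit 1748) (nat_lit 5437162370)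 (nat_lit 550) (nat_lit 5) (nat_lit 572) (nat_lit 5) (nat_lit 573) (nat_lit 5) (nat_lit 430) (nat_lit 419) (nat_lit 291)) (XT.nd (nat_lit 78) (nat_lit 0) (nat_lit 76) (XT.lf (nat_lit 76) (nat_lit 2777491563) (nat_lit 0) (nat_lit 441074738) (nat_lit 1748) (nat_lit 7152569638) (nat_lit 551) (nat_lit 5) (nat_lit 550) (nat_lit 5) (nat_lit 573) (nat_lit 5) (nat_lit 431) (nat_lit 419) (nat_lit 290)) (XT.lf (nat_lit 0) (nat_lit 4325962495) (nat_lit 1672) (nat_lit 2122175714) (nat_lit 1748) (nat_lit 4017545887) (nat_lit 551) (nat_lit 5) (nat_lit 573) (nat_lit 5) (nat_lit 574) (nat_lit 5) (nat_lit 432) (nat_lit 419) (nat_lit 289)))))) (XT.nd (nat_lit 390) (nat_lit 1596) (nat_lit 0) (XT.nd (nat_lit 156) (nat_lit 0) (nat_lit 76) (XT.nd (nat_lit 78) (nat_lit 0) (nat_lit 76) (XT.lf (nat_lit 76) (nat_lit 3489549719) (nat_lit 0) (nat_lit 1974081395) (nat_lit 1748) (nat_lit 5098329614) (nat_lit 552) (nat_lit 5) (nat_lit 551) (nat_lit 5) (nat_lit 574) (nat_lit 5) (nat_lit 433)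 (nat_lit 419) (nat_lit 288)) (XT.lf (nat_lit 0) (nat_lit 6638046594) (nat_lit 1672) (nat_lit 1446824976) (nat_lit 1748) (nat_lit 2575011451) (nat_lit 552) (nat_lit 5) (nat_lit 574) (nat_lit 5) (nat_lit 575) (nat_lit 5) (nat_lit 434) (nat_lit 419) (nat_lit 287))) (XT.nd (nat_lit 78) (nat_lit 0) (nat_lit 76) (XT.lf (nat_lit 76) (nat_lit 4322819002) (nat_lit 0) (nat_lit 3537453526) (nat_lit 1748) (nat_lit 2899004790) (nat_lit 553) (nat_lit 5) (nat_lit 552) (nat_lit 5) (nat_lit 575) (nat_lit 5) (nat_lit 435) (nat_lit 419) (nat_lit 286)) (XT.nd (nat_lit 78) (nat_lit 0) (nat_lit 0) (XT.lf (nat_lit 0) (nat_lit 9107327796) (nat_lit 1672) (nat_lit 652566011) (nat_lit 1748) (nat_lit 1100757997) (nat_lit 553) (nat_lit 5) (nat_lit 575) (nat_lit 5) (nat_lit 576) (nat_lit 5) (nat_lit 436) (nat_lit 419) (nat_lit 285)) (XT.lf (nat_lit 76) (nat_lit 5280720689) (nat_lit 0) (nat_lit 5140104209) (nat_lit 1748) (nat_lit 542398867) (nat_lit 554) (nat_lit 5) (nat_lit 553) (nat_lit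 5) (nat_lit 576) (nat_lit 5) (nat_lit 437) (nat_lit 419) (nat_lit 284))))) (XT.nd (nat_lit 156) (nat_lit 0) (nat_lit 76) (XT.nd (nat_lit 78) (nat_lit 0) (nat_lit 76) (XT.lf (nat_lit 76) (nat_lit 260399493) (nat_lit 0) (nat_lit 413280473) (nat_lit 1824) (nat_lit 10394276831) (nat_lit 531) (nat_lit 5) (nat_lit 530) (nat_lit 5) (nat_lit 554) (nat_lit 5) (nat_lit 438) (nat_lit 419) (nat_lit 283)) (XT.lf (nat_lit 0) (nat_lit 1958011771) (nat_lit 1748) (nat_lit 4819806944) (nat_lit 1824) (nat_lit 4395870188) (nat_lit 531) (nat_lit 5) (nat_lit 554) (nat_lit 5) (nat_lit 555) (nat_lit 5) (nat_lit 439) (nat_lit 419) (nat_lit 282))) (XT.nd (nat_lit 78) (nat_lit 0) (nat_lit 76) (XT.lf (nat_lit 76) (nat_lit 1289611931) (nat_lit 0) (nat_lit 1974020435) (nat_lit 1824) (nat_lit 8017991241) (nat_lit 532) (nat_lit 5) (nat_lit 531) (nat_lit 5) (nat_lit 555) (nat_lit 5) (nat_lit 440) (nat_lit 419) (nat_lit 281)) (XT.nd (nat_lit 78) (nat_lit 0) (nat_lit 0) (XT.lf (nat_lit 0) (nat_lit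 4631656887) (nat_lit 1748) (nat_lit 3836236118) (nat_lit 1824) (nat_lit 2923098170) (nat_lit 532) (nat_lit 5) (nat_lit 555) (nat_lit 5) (nat_lit 556) (nat_lit 5) (nat_lit 441) (nat_lit 419) (nat_lit 280)) (XT.lf (nat_lit 76) (nat_lit 2449443987) (nat_lit 0) (nat_lit 3591610869) (nat_lit 1824) (nat_lit 5461210979) (nat_lit 533) (nat_lit 5) (nat_lit 532) (nat_lit 5) (nat_lit 556) (nat_lit 5) (nat_lit 442) (nat_lit 419) (nat_lit 279))))))) (XT.nd (nat_lit 702) (nat_lit 836) (nat_lit 0) (XT.nd (nat_lit 312) (nat_lit 2964) (nat_lit 0) (XT.nd (nat_lit 156) (nat_lit 1900) (nat_lit 0) (XT.nd (nat_lit 78) (nat_lit 1748) (nat_lit 0) (XT.lf (nat_lit 0) (nat_lit 7498796107) (nat_lit 1748) (nat_lit 2724050716) (nat_lit 76) (nat_lit 1392516059) (nat_lit 533) (nat_lit 5) (nat_lit 556) (nat_lit 5) (nat_lit 534) (nat_lit 5) (nat_lit 443) (nat_lit 419) (nat_lit 278)) (XT.lf (nat_lit 0) (nat_lit 3744369541) (nat_lit 1748) (nat_lit 5274975479) (nat_lit 1824) (nat_lit 2710703794)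 (nat_lit 510) (nat_lit 5) (nat_lit 533) (nat_lit 5) (nat_lit 534) (nat_lit 5) (nat_lit 444) (nat_lit 419) (nat_lit 277))) (XT.nd (nat_lit 78) (nat_lit 1900) (nat_lit 0) (XT.lf (nat_lit 0) (nat_lit 10366915139) (nat_lit 1748) (nat_lit 207430194) (nat_lit 1824) (nat_lit 1272602322) (nat_lit 510) (nat_lit 5) (nat_lit 533) (nat_lit 5) (nat_lit 534) (nat_lit 5) (nat_lit 445) (nat_lit 419) (nat_lit 276)) (XT.lf (nat_lit 0) (nat_lit 243950115) (nat_lit 1900) (nat_lit 6787533205) (nat_lit 76) (nat_lit 4933631194) (nat_lit 485) (nat_lit 5) (nat_lit 510) (nat_lit 5) (nat_lit 486) (nat_lit 5) (nat_lit 446) (nat_lit 419) (nat_lit 275)))) (XT.nd (nat_lit 156) (nat_lit 1824) (nat_lit 0) (XT.nd (nat_lit 78) (nat_lit 1140) (nat_lit 0) (XT.lf (nat_lit 0) (nat_lit 1771337225) (nat_lit 1900) (nat_lit 119229391) (nat_lit 76) (nat_lit 10194958981) (nat_lit 485) (nat_lit 5) (nat_lit 510) (nat_lit 5) (nat_lit 486) (nat_lit 5) (nat_lit 447) (nat_lit 419) (nat_lit 274)) (XT.lf (nat_lit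 0) (nat_lit 3381655277) (nat_lit 1216) (nat_lit 5470807881) (nat_lit 76) (nat_lit 3354834079) (nat_lit 470) (nat_lit 5) (nat_lit 486) (nat_lit 5) (nat_lit 471) (nat_lit 5) (nat_lit 448) (nat_lit 419) (nat_lit 273))) (XT.nd (nat_lit 78) (nat_lit 912) (nat_lit 0) (XT.lf (nat_lit 0) (nat_lit 1392911941) (nat_lit 912) (nat_lit 3640262289) (nat_lit 988) (nat_lit 7298150189) (nat_lit 458) (nat_lit 5) (nat_lit 470) (nat_lit 5) (nat_lit 471) (nat_lit 5) (nat_lit 449) (nat_lit 419) (nat_lit 272)) (XT.nd (nat_lit 78) (nat_lit 912) (nat_lit 0) (XT.lf (nat_lit 0) (nat_lit 6752376186) (nat_lit 988) (nat_lit 4012630098) (nat_lit 76) (nat_lit 1692132809) (nat_lit 458) (nat_lit 5) (nat_lit 471) (nat_lit 5) (nat_lit 459) (nat_lit 5) (nat_lit 450) (nat_lit 419) (nat_lit 271)) (XT.lf (nat_lit 0) (nat_lit 3055406382) (nat_lit 912) (nat_lit 5481574367) (nat_lit 988) (nat_lit 4047868939) (nat_lit 446) (nat_lit 5) (nat_lit 458) (nat_lit 5) (nat_lit 459) (nat_lit 5) (nat_lit 451) (nat_lit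 419) (nat_lit 270)))))) (XT.nd (nat_lit 57096) (nat_lit 0) (nat_lit 10184) (XT.nd (nat_lit 56862) (nat_lit 0) (nat_lit 10108) (XT.nd (nat_lit 78) (nat_lit 836) (nat_lit 0) (XT.lf (nat_lit 0) (nat_lit 10307050227) (nat_lit 912) (nat_lit 64401792) (nat_lit 988) (nat_lit 2343378984) (nat_lit 446) (nat_lit 5) (nat_lit 458) (nat_lit 5) (nat_lit 459) (nat_lit 5) (nat_lit 452) (nat_lit 419) (nat_lit 269)) (XT.lf (nat_lit 0) (nat_lit 4872601495) (nat_lit 836) (nat_lit 7424606218) (nat_lit 912) (nat_lit 549112331) (nat_lit 435) (nat_lit 5) (nat_lit 446) (nat_lit 5) (nat_lit 447) (nat_lit 5) (nat_lit 453) (nat_lit 419) (nat_lit 268))) (XT.nd (nat_lit 78) (nat_lit 0) (nat_lit 0) (XT.lf (nat_lit 0) (nat_lit 818147077) (nat_lit 0) (nat_lit 818147077) (nat_lit 1596) (nat_lit 3117551564) (nat_lit 568) (nat_lit 5) (nat_lit 568) (nat_lit 3) (nat_lit 589) (nat_lit 3) (nat_lit 420) (nat_lit 420) (nat_lit 300)) (XT.nd (nat_lit 78) (nat_lit 0) (nat_lit 0) (XT.lf (nat_lit 0) (nat_lit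 4120792642) (nat_lit 1596) (nat_lit 3127634697) (nat_lit 1672) (nat_lit 2338031442) (nat_lit 568) (nat_lit 5) (nat_lit 589) (nat_lit 3) (nat_lit 590) (nat_lit 5) (nat_lit 421) (nat_lit 420) (nat_lit 299)) (XT.lf (nat_lit 76) (nat_lit 1711633863) (nat_lit 0) (nat_lit 3275357955) (nat_lit 1672) (nat_lit 4679789041) (nat_lit 569) (nat_lit 5) (nat_lit 568) (nat_lit 5) (nat_lit 590) (nat_lit 5) (nat_lit 422) (nat_lit 420) (nat_lit 298))))) (XT.nd (nat_lit 156) (nat_lit 0) (nat_lit 0) (XT.nd (nat_lit 78) (nat_lit 0) (nat_lit 0) (XT.lf (nat_lit 0) (nat_lit 5876171402) (nat_lit 1596) (nat_lit 3074774232) (nat_lit 1672) (nat_lit 797650615) (nat_lit 569) (nat_lit 5) (nat_lit 590) (nat_lit 5) (nat_lit 591) (nat_lit 5) (nat_lit 423) (nat_lit 420) (nat_lit 297)) (XT.lf (nat_lit 76) (nat_lit 1895210702) (nat_lit 0) (nat_lit 4901805674) (nat_lit 1672) (nat_lit 3034753935) (nat_lit 570) (nat_lit 5) (nat_lit 569) (nat_lit 5) (nat_lit 591) (nat_lit 5) (nat_lit 424) (nat_lit 420)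 (nat_lit 296))) (XT.nd (nat_lit 78) (nat_lit 0) (nat_lit 76) (XT.lf (nat_lit 76) (nat_lit 6995187929) (nat_lit 0) (nat_lit 741931808) (nat_lit 1672) (nat_lit 2179471287) (nat_lit 570) (nat_lit 5) (nat_lit 569) (nat_lit 5) (nat_lit 591) (nat_lit 5) (nat_lit 425) (nat_lit 420) (nat_lit 295)) (XT.nd (nat_lit 78) (nat_lit 0) (nat_lit 0) (XT.lf (nat_lit 76) (nat_lit 2188717371) (nat_lit 0) (nat_lit 6524901743) (nat_lit 1672) (nat_lit 1289137160) (nat_lit 571) (nat_lit 5) (nat_lit 570) (nat_lit 5) (nat_lit 592) (nat_lit 5) (nat_lit 426) (nat_lit 420) (nat_lit 294)) (XT.lf (nat_lit 76) (nat_lit 7424423430) (nat_lit 0) (nat_lit 2290668364) (nat_lit 1672) (nat_lit 375444167) (nat_lit 571) (nat_lit 5) (nat_lit 570) (nat_lit 5) (nat_lit 592) (nat_lit 5) (nat_lit 427) (nat_lit 420) (nat_lit 293))))))))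
noncomputable def xc119 : XT := (XT.nd (nat_lit 1482) (nat_lit 4864) (nat_lit 0) (XT.nd (nat_lit 702) (nat_lit 2964) (nat_lit 0) (XT.nd (nat_lit 312) (nat_lit 0) (nat_lit 76) (XT.nd (nat_lit 156) (nat_lit 0) (nat_lit 76) (XT.nd (nat_lit 78) (nat_lit 0) (nat_lit 0) (XT.lf (nat_lit 0) (nat_lit 560692235) (nat_lit 1672) (nat_lit 7589346444) (nat_lit 1748) (nat_lit 2029730927) (nat_lit 549) (nat_lit 5) (nat_lit 571) (nat_lit 5) (nat_lit 572) (nat_lit 5) (nat_lit 428) (nat_lit 420) (nat_lit 292)) (XT.lf (nat_lit 0) (nat_lit 1525259345) (nat_lit 1672) (nat_lit 2311586576) (nat_lit 1748) (nat_lit 6433597668) (nat_lit 549) (nat_lit 5) (nat_lit 571) (nat_lit 5) (nat_lit 572) (nat_lit 5) (nat_lit 429) (nat_lit 420) (nat_lit 291))) (XT.nd (nat_lit 78) (nat_lit 0) (nat_lit 0) (XT.lf (nat_lit 0) (nat_lit 2514994082) (nat_lit 1672) (nat_lit 7265704333) (nat_lit 1748) (nat_lit 582115110) (nat_lit 550) (nat_lit 5) (nat_lit 572) (nat_lit 5) (nat_lit 573) (nat_lit 5) (nat_lit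 430) (nat_lit 420) (nat_lit 290)) (XT.lf (nat_lit 0) (nat_lit 3547783928) (nat_lit 1672) (nat_lit 1848626673) (nat_lit 1748) (nat_lit 5060155050) (nat_lit 550) (nat_lit 5) (nat_lit 572) (nat_lit 5) (nat_lit 573) (nat_lit 5) (nat_lit 431) (nat_lit 420) (nat_lit 289)))) (XT.nd (nat_lit 156) (nat_lit 0) (nat_lit 76) (XT.nd (nat_lit 78) (nat_lit 0) (nat_lit 76) (XT.lf (nat_lit 76) (nat_lit 3714025405) (nat_lit 0) (nat_lit 893902540) (nat_lit 1748) (nat_lit 5944130907) (nat_lit 551) (nat_lit 5) (nat_lit 550) (nat_lit 5) (nat_lit 573) (nat_lit 5) (nat_lit 432) (nat_lit 420) (nat_lit 288)) (XT.lf (nat_lit 0) (nat_lit 5708665602) (nat_lit 1672) (nat_lit 1272102954) (nat_lit 1748) (nat_lit 3668305545) (nat_lit 551) (nat_lit 5) (nat_lit 573) (nat_lit 5) (nat_lit 574) (nat_lit 5) (nat_lit 433) (nat_lit 420) (nat_lit 287))) (XT.nd (nat_lit 78) (nat_lit 0) (nat_lit 76) (XT.lf (nat_lit 76) (nat_lit 4445985170) (nat_lit 0) (nat_lit 2403443737) (nat_lit 1748) (nat_lit 3898240531)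 (nat_lit 552) (nat_lit 5) (nat_lit 551) (nat_lit 5) (nat_lit 574) (nat_lit 5) (nat_lit 434) (nat_lit 420) (nat_lit 286)) (XT.nd (nat_lit 78) (nat_lit 0) (nat_lit 0) (XT.lf (nat_lit 0) (nat_lit 8019821063) (nat_lit 1672) (nat_lit 578990569) (nat_lit 1748) (nat_lit 2249288779) (nat_lit 552) (nat_lit 5) (nat_lit 574) (nat_lit 5) (nat_lit 575) (nat_lit 5) (nat_lit 435) (nat_lit 420) (nat_lit 285)) (XT.lf (nat_lit 76) (nat_lit 5300146480) (nat_lit 0) (nat_lit 3947638699) (nat_lit 1748) (nat_lit 1702071540) (nat_lit 553) (nat_lit 5) (nat_lit 552) (nat_lit 5) (nat_lit 575) (nat_lit 5) (nat_lit 436) (nat_lit 420) (nat_lit 284)))))) (XT.nd (nat_lit 390) (nat_lit 1520) (nat_lit 0) (XT.nd (nat_lit 156) (nat_lit 0) (nat_lit 0) (XT.nd (nat_lit 78) (nat_lit 1748) (nat_lit 0) (XT.lf (nat_lit 76) (nat_lit 237180674) (nat_lit 0) (nat_lit 10257856510) (nat_lit 1748) (nat_lit 558716399) (nat_lit 554) (nat_lit 5) (nat_lit 553) (nat_lit 5) (nat_lit 576) (nat_lit 5) (nat_lit 437)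 (nat_lit 420) (nat_lit 283)) (XT.lf (nat_lit 0) (nat_lit 648082375) (nat_lit 1748) (nat_lit 4882924144) (nat_lit 1824) (nat_lit 5627672097) (nat_lit 530) (nat_lit 5) (nat_lit 553) (nat_lit 5) (nat_lit 554) (nat_lit 5) (nat_lit 438) (nat_lit 420) (nat_lit 282))) (XT.nd (nat_lit 78) (nat_lit 0) (nat_lit 76) (XT.lf (nat_lit 76) (nat_lit 1169259979) (nat_lit 0) (nat_lit 694420785) (nat_lit 1824) (nat_lit 9402104625) (nat_lit 531) (nat_lit 5) (nat_lit 530) (nat_lit 5) (nat_lit 554) (nat_lit 5) (nat_lit 439) (nat_lit 420) (nat_lit 281)) (XT.nd (nat_lit 78) (nat_lit 0) (nat_lit 0) (XT.lf (nat_lit 0) (nat_lit 3148893099) (nat_lit 1748) (nat_lit 4005463158) (nat_lit 1824) (nat_lit 4219772001) (nat_lit 531) (nat_lit 5) (nat_lit 554) (nat_lit 5) (nat_lit 555) (nat_lit 5) (nat_lit 440) (nat_lit 420) (nat_lit 280)) (XT.lf (nat_lit 76) (nat_lit 2220152384) (nat_lit 0) (nat_lit 2243765182) (nat_lit 1824) (nat_lit 7020638262) (nat_lit 532) (nat_lit 5) (nat_lit 531) (nat_lit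 5) (nat_lit 555) (nat_lit 5) (nat_lit 441) (nat_lit 420) (nat_lit 279))))) (XT.nd (nat_lit 156) (nat_lit 1672) (nat_lit 0) (XT.nd (nat_lit 78) (nat_lit 0) (nat_lit 0) (XT.lf (nat_lit 0) (nat_lit 5835581714) (nat_lit 1748) (nat_lit 3002231924) (nat_lit 1824) (nat_lit 2758771527) (nat_lit 532) (nat_lit 5) (nat_lit 555) (nat_lit 5) (nat_lit 556) (nat_lit 5) (nat_lit 442) (nat_lit 420) (nat_lit 278)) (XT.lf (nat_lit 76) (nat_lit 3403170145) (nat_lit 0) (nat_lit 3854081619) (nat_lit 1824) (nat_lit 4453151871) (nat_lit 533) (nat_lit 5) (nat_lit 532) (nat_lit 5) (nat_lit 556) (nat_lit 5) (nat_lit 443) (nat_lit 420) (nat_lit 277))) (XT.nd (nat_lit 78) (nat_lit 1748) (nat_lit 0) (XT.lf (nat_lit 0) (nat_lit 8721456400) (nat_lit 1748) (nat_lit 1868842960) (nat_lit 76) (nat_lit 1235917093) (nat_lit 533) (nat_lit 5) (nat_lit 556) (nat_lit 5) (nat_lit 534) (nat_lit 5) (nat_lit 444) (nat_lit 420) (nat_lit 276)) (XT.nd (nat_lit 78) (nat_lit 0) (nat_lit 0) (XT.lf (nat_lit 0)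 (nat_lit 4722960908) (nat_lit 1748) (nat_lit 5534289802) (nat_lit 1824) (nat_lit 1686248704) (nat_lit 510) (nat_lit 5) (nat_lit 533) (nat_lit 5) (nat_lit 534) (nat_lit 5) (nat_lit 445) (nat_lit 420) (nat_lit 275)) (XT.lf (nat_lit 0) (nat_lit 11460237732) (nat_lit 1748) (nat_lit 362377635) (nat_lit 1824) (nat_lit 240535578) (nat_lit 510) (nat_lit 5) (nat_lit 533) (nat_lit 5) (nat_lit 534) (nat_lit 5) (nat_lit 446) (nat_lit 420) (nat_lit 274))))))) (XT.nd (nat_lit 57642) (nat_lit 0) (nat_lit 7752) (XT.nd (nat_lit 390) (nat_lit 912) (nat_lit 0) (XT.nd (nat_lit 156) (nat_lit 912) (nat_lit 0) (XT.nd (nat_lit 78) (nat_lit 1140) (nat_lit 0) (XT.lf (nat_lit 0) (nat_lit 1276941787) (nat_lit 1900) (nat_lit 6007893458) (nat_lit 76) (nat_lit 4899019306) (nat_lit 485) (nat_lit 5) (nat_lit 510) (nat_lit 5) (nat_lit 486) (nat_lit 5) (nat_lit 447) (nat_lit 420) (nat_lit 273)) (XT.lf (nat_lit 0) (nat_lit 786137940) (nat_lit 1140) (nat_lit 2033683755) (nat_lit 1216) (nat_lit 9487153259)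 (nat_lit 470) (nat_lit 5) (nat_lit 485) (nat_lit 5) (nat_lit 486) (nat_lit 5) (nat_lit 448) (nat_lit 420) (nat_lit 272))) (XT.nd (nat_lit 78) (nat_lit 912) (nat_lit 0) (XT.lf (nat_lit 0) (nat_lit 4442601522) (nat_lit 1216) (nat_lit 4668142000) (nat_lit 76) (nat_lit 3320833396) (nat_lit 470) (nat_lit 5) (nat_lit 486) (nat_lit 5) (nat_lit 471) (nat_lit 5) (nat_lit 449) (nat_lit 420) (nat_lit 271)) (XT.nd (nat_lit 78) (nat_lit 0) (nat_lit 0) (XT.lf (nat_lit 0) (nat_lit 2326851678) (nat_lit 912) (nat_lit 3786705329) (nat_lit 988) (nat_lit 6444799514) (nat_lit 458) (nat_lit 5) (nat_lit 470) (nat_lit 5) (nat_lit 471) (nat_lit 5) (nat_lit 450) (nat_lit 420) (nat_lit 270)) (XT.lf (nat_lit 0) (nat_lit 7847464090) (nat_lit 988) (nat_lit 3184888592) (nat_lit 76) (nat_lit 1654728385) (nat_lit 458) (nat_lit 5) (nat_lit 471) (nat_lit 5) (nat_lit 459) (nat_lit 5) (nat_lit 451) (nat_lit 420) (nat_lit 269))))) (XT.nd (nat_lit 57018) (nat_lit 0) (nat_lit 9272) (XT.nd (nat_lit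 56940) (nat_lit 0) (nat_lit 9272) (XT.lf (nat_lit 0) (nat_lit 4018534971) (nat_lit 912) (nat_lit 5636257966) (nat_lit 988) (nat_lit 3162812293) (nat_lit 446) (nat_lit 5) (nat_lit 458) (nat_lit 5) (nat_lit 459) (nat_lit 5) (nat_lit 452) (nat_lit 420) (nat_lit 268)) (XT.lf (nat_lit 0) (nat_lit 1231960972) (nat_lit 0) (nat_lit 1231960972) (nat_lit 1596) (nat_lit 2369102650) (nat_lit 568) (nat_lit 5) (nat_lit 568) (nat_lit 3) (nat_lit 589) (nat_lit 3) (nat_lit 421) (nat_lit 421) (nat_lit 298))) (XT.nd (nat_lit 78) (nat_lit 0) (nat_lit 0) (XT.lf (nat_lit 0) (nat_lit 5756779853) (nat_lit 1596) (nat_lit 2374639337) (nat_lit 1672) (nat_lit 1615697340) (nat_lit 568) (nat_lit 5) (nat_lit 589) (nat_lit 3) (nat_lit 590) (nat_lit 5) (nat_lit 422) (nat_lit 421) (nat_lit 297)) (XT.nd (nat_lit 78) (nat_lit 0) (nat_lit 76) (XT.lf (nat_lit 76) (nat_lit 2556049146) (nat_lit 0) (nat_lit 4059051925) (nat_lit 1672) (nat_lit 3214448017) (nat_lit 569) (nat_lit 5) (nat_lit 568) (nat_lit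 5) (nat_lit 590) (nat_lit 5) (nat_lit 423) (nat_lit 421) (nat_lit 296)) (XT.lf (nat_lit 0) (nat_lit 7487524705) (nat_lit 1596) (nat_lit 2307433502) (nat_lit 1672) (nat_lit 118733370) (nat_lit 569) (nat_lit 5) (nat_lit 590) (nat_lit 5) (nat_lit 591) (nat_lit 5) (nat_lit 424) (nat_lit 421) (nat_lit 295)))))) (XT.nd (nat_lit 390) (nat_lit 0) (nat_lit 76) (XT.nd (nat_lit 156) (nat_lit 1596) (nat_lit 0) (XT.nd (nat_lit 78) (nat_lit 0) (nat_lit 0) (XT.lf (nat_lit 76) (nat_lit 2756498261) (nat_lit 0) (nat_lit 5646343486) (nat_lit 1672) (nat_lit 1596166270) (nat_lit 570) (nat_lit 5) (nat_lit 569) (nat_lit 5) (nat_lit 591) (nat_lit 5) (nat_lit 425) (nat_lit 421) (nat_lit 294)) (XT.lf (nat_lit 76) (nat_lit 7942330261) (nat_lit 0) (nat_lit 1390595639) (nat_lit 1672) (nat_lit 753175670) (nat_lit 570) (nat_lit 5) (nat_lit 569) (nat_lit 5) (nat_lit 591) (nat_lit 5) (nat_lit 426) (nat_lit 421) (nat_lit 293))) (XT.nd (nat_lit 78) (nat_lit 0) (nat_lit 0) (XT.lf (nat_lit 0) (nat_lit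 125883196) (nat_lit 1672) (nat_lit 7108216422) (nat_lit 1748) (nat_lit 2940411374) (nat_lit 548) (nat_lit 5) (nat_lit 570) (nat_lit 5) (nat_lit 571) (nat_lit 5) (nat_lit 427) (nat_lit 421) (nat_lit 292)) (XT.nd (nat_lit 78) (nat_lit 0) (nat_lit 76) (XT.lf (nat_lit 0) (nat_lit 1017714240) (nat_lit 1672) (nat_lit 1880119056) (nat_lit 1748) (nat_lit 7366650215) (nat_lit 548) (nat_lit 5) (nat_lit 570) (nat_lit 5) (nat_lit 571) (nat_lit 5) (nat_lit 428) (nat_lit 421) (nat_lit 291)) (XT.lf (nat_lit 0) (nat_lit 1942061481) (nat_lit 1672) (nat_lit 6878814640) (nat_lit 1748) (nat_lit 1535085769) (nat_lit 549) (nat_lit 5) (nat_lit 571) (nat_lit 5) (nat_lit 572) (nat_lit 5) (nat_lit 429) (nat_lit 421) (nat_lit 290))))) (XT.nd (nat_lit 156) (nat_lit 0) (nat_lit 76) (XT.nd (nat_lit 78) (nat_lit 0) (nat_lit 76) (XT.lf (nat_lit 0) (nat_lit 2899054141) (nat_lit 1672) (nat_lit 1512407785) (nat_lit 1748) (nat_lit 6037524742) (nat_lit 549) (nat_lit 5) (nat_lit 571) (nat_lit 5)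 (nat_lit 572) (nat_lit 5) (nat_lit 430) (nat_lit 421) (nat_lit 289)) (XT.lf (nat_lit 0) (nat_lit 3884564349) (nat_lit 1672) (nat_lit 6541588673) (nat_lit 1748) (nat_lit 117531365) (nat_lit 550) (nat_lit 5) (nat_lit 572) (nat_lit 5) (nat_lit 573) (nat_lit 5) (nat_lit 431) (nat_lit 421) (nat_lit 288))) (XT.nd (nat_lit 78) (nat_lit 0) (nat_lit 0) (XT.lf (nat_lit 0) (nat_lit 4912141945) (nat_lit 1672) (nat_lit 1033217102) (nat_lit 1748) (nat_lit 4694469870) (nat_lit 550) (nat_lit 5) (nat_lit 572) (nat_lit 5) (nat_lit 573) (nat_lit 5) (nat_lit 432) (nat_lit 421) (nat_lit 287)) (XT.nd (nat_lit 78) (nat_lit 0) (nat_lit 76) (XT.lf (nat_lit 76) (nat_lit 4635080240) (nat_lit 0) (nat_lit 1338545593) (nat_lit 1748) (nat_lit 4764003409) (nat_lit 551) (nat_lit 5) (nat_lit 550) (nat_lit 5) (nat_lit 573) (nat_lit 5) (nat_lit 433) (nat_lit 421) (nat_lit 286)) (XT.lf (nat_lit 0) (nat_lit 7068690373) (nat_lit 1672) (nat_lit 439686234) (nat_lit 1748) (nat_lit 3328761948) (nat_lit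 551) (nat_lit 5) (nat_lit 573) (nat_lit 5) (nat_lit 574) (nat_lit 5) (nat_lit 434) (nat_lit 421) (nat_lit 285))))))))
noncomputable def xc120 : XT := (XT.nd (nat_lit 58422) (nat_lit 0) (nat_lit 5396) (XT.nd (nat_lit 702) (nat_lit 5472) (nat_lit 0) (XT.nd (nat_lit 312) (nat_lit 0) (nat_lit 0) (XT.nd (nat_lit 156) (nat_lit 1596) (nat_lit 0) (XT.nd (nat_lit 78) (nat_lit 0) (nat_lit 76) (XT.lf (nat_lit 76) (nat_lit 5387119846) (nat_lit 0) (nat_lit 2826253783) (nat_lit 1748) (nat_lit 2724710076) (nat_lit 552) (nat_lit 5) (nat_lit 551) (nat_lit 5) (nat_lit 574) (nat_lit 5) (nat_lit 435) (nat_lit 421) (nat_lit 284)) (XT.lf (nat_lit 76) (nat_lit 274984286) (nat_lit 0) (nat_lit 9107531396) (nat_lit 1748) (nat_lit 1658500773) (nat_lit 553) (nat_lit 5) (nat_lit 552) (nat_lit 5) (nat_lit 575) (nat_lit 5) (nat_lit 436) (nat_lit 421) (nat_lit 283))) (XT.nd (nat_lit 78) (nat_lit 1672) (nat_lit 0) (XT.lf (nat_lit 76) (nat_lit 6262426897) (nat_lit 0) (nat_lit 4352846859) (nat_lit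 1748) (nat_lit 529929441) (nat_lit 553) (nat_lit 5) (nat_lit 552) (nat_lit 5) (nat_lit 575) (nat_lit 5) (nat_lit 437) (nat_lit 421) (nat_lit 282)) (XT.lf (nat_lit 0) (nat_lit 608243578) (nat_lit 1748) (nat_lit 10137403329) (nat_lit 1824) (nat_lit 505842548) (nat_lit 530) (nat_lit 5) (nat_lit 553) (nat_lit 5) (nat_lit 554) (nat_lit 5) (nat_lit 438) (nat_lit 421) (nat_lit 281)))) (XT.nd (nat_lit 156) (nat_lit 0) (nat_lit 76) (XT.nd (nat_lit 78) (nat_lit 0) (nat_lit 0) (XT.lf (nat_lit 0) (nat_lit 1808749991) (nat_lit 1748) (nat_lit 4106267989) (nat_lit 1824) (nat_lit 5443880089) (nat_lit 530) (nat_lit 5) (nat_lit 553) (nat_lit 5) (nat_lit 554) (nat_lit 5) (nat_lit 439) (nat_lit 421) (nat_lit 280)) (XT.lf (nat_lit 76) (nat_lit 2061207746) (nat_lit 0) (nat_lit 970587847) (nat_lit 1824) (nat_lit 8436688680) (nat_lit 531) (nat_lit 5) (nat_lit 530) (nat_lit 5) (nat_lit 554) (nat_lit 5) (nat_lit 440) (nat_lit 421) (nat_lit 279))) (XT.nd (nat_lit 78) (nat_lit 0) (nat_lit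 0) (XT.lf (nat_lit 0) (nat_lit 4318869320) (nat_lit 1748) (nat_lit 3210197638) (nat_lit 1824) (nat_lit 4050403898) (nat_lit 531) (nat_lit 5) (nat_lit 554) (nat_lit 5) (nat_lit 555) (nat_lit 5) (nat_lit 441) (nat_lit 421) (nat_lit 278)) (XT.nd (nat_lit 78) (nat_lit 0) (nat_lit 76) (XT.lf (nat_lit 76) (nat_lit 3134171170) (nat_lit 0) (nat_lit 2509963378) (nat_lit 1824) (nat_lit 6048293624) (nat_lit 532) (nat_lit 5) (nat_lit 531) (nat_lit 5) (nat_lit 555) (nat_lit 5) (nat_lit 442) (nat_lit 421) (nat_lit 277)) (XT.lf (nat_lit 0) (nat_lit 7020432227) (nat_lit 1748) (nat_lit 2186912360) (nat_lit 1824) (nat_lit 2599809503) (nat_lit 532) (nat_lit 5) (nat_lit 555) (nat_lit 5) (nat_lit 556) (nat_lit 5) (nat_lit 443) (nat_lit 421) (nat_lit 276)))))) (XT.nd (nat_lit 390) (nat_lit 2052) (nat_lit 0) (XT.nd (nat_lit 156) (nat_lit 3572) (nat_lit 0) (XT.nd (nat_lit 78) (nat_lit 0) (nat_lit 76) (XT.lf (nat_lit 76) (nat_lit 4340838776) (nat_lit 0) (nat_lit 4114399057) (nat_lit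 1824) (nat_lit 3468317055) (nat_lit 533) (nat_lit 5) (nat_lit 532) (nat_lit 5) (nat_lit 556) (nat_lit 5) (nat_lit 444) (nat_lit 421) (nat_lit 275)) (XT.lf (nat_lit 0) (nat_lit 9926916259) (nat_lit 1748) (nat_lit 1031855371) (nat_lit 76) (nat_lit 1083348537) (nat_lit 533) (nat_lit 5) (nat_lit 556) (nat_lit 5) (nat_lit 534) (nat_lit 5) (nat_lit 445) (nat_lit 421) (nat_lit 274))) (XT.nd (nat_lit 78) (nat_lit 1900) (nat_lit 0) (XT.lf (nat_lit 0) (nat_lit 5686032176) (nat_lit 1748) (nat_lit 5792817595) (nat_lit 1824) (nat_lit 683190551) (nat_lit 510) (nat_lit 5) (nat_lit 533) (nat_lit 5) (nat_lit 534) (nat_lit 5) (nat_lit 446) (nat_lit 421) (nat_lit 273)) (XT.nd (nat_lit 78) (nat_lit 0) (nat_lit 0) (XT.lf (nat_lit 0) (nat_lit 254875630) (nat_lit 1824) (nat_lit 507773730) (nat_lit 1900) (nat_lit 11521700906) (nat_lit 485) (nat_lit 5) (nat_lit 509) (nat_lit 5) (nat_lit 510) (nat_lit 5) (nat_lit 447) (nat_lit 421) (nat_lit 272)) (XT.lf (nat_lit 0) (nat_lit 2290670424)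 (nat_lit 1900) (nat_lit 5248206641) (nat_lit 76) (nat_lit 4868890781) (nat_lit 485) (nat_lit 5) (nat_lit 510) (nat_lit 5) (nat_lit 486) (nat_lit 5) (nat_lit 448) (nat_lit 421) (nat_lit 271))))) (XT.nd (nat_lit 156) (nat_lit 912) (nat_lit 0) (XT.nd (nat_lit 78) (nat_lit 0) (nat_lit 0) (XT.lf (nat_lit 0) (nat_lit 1675916933) (nat_lit 1140) (nat_lit 2174789680) (nat_lit 1216) (nat_lit 8682918070) (nat_lit 470) (nat_lit 5) (nat_lit 485) (nat_lit 5) (nat_lit 486) (nat_lit 5) (nat_lit 449) (nat_lit 421) (nat_lit 270)) (XT.lf (nat_lit 0) (nat_lit 5486195132) (nat_lit 1216) (nat_lit 3884840059) (nat_lit 76) (nat_lit 3290078434) (nat_lit 470) (nat_lit 5) (nat_lit 486) (nat_lit 5) (nat_lit 471) (nat_lit 5) (nat_lit 450) (nat_lit 421) (nat_lit 269))) (XT.nd (nat_lit 78) (nat_lit 0) (nat_lit 0) (XT.lf (nat_lit 0) (nat_lit 3244285961) (nat_lit 912) (nat_lit 3933217785) (nat_lit 988) (nat_lit 5613186394) (nat_lit 458) (nat_lit 5) (nat_lit 470) (nat_lit 5) (nat_lit 471) (nat_lit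 5) (nat_lit 451) (nat_lit 421) (nat_lit 268)) (XT.nd (nat_lit 57018) (nat_lit 0) (nat_lit 8360) (XT.lf (nat_lit 0) (nat_lit 8927174214) (nat_lit 988) (nat_lit 2375850774) (nat_lit 76) (nat_lit 1619342483) (nat_lit 458) (nat_lit 5) (nat_lit 471) (nat_lit 5) (nat_lit 459) (nat_lit 5) (nat_lit 452) (nat_lit 421) (nat_lit 267)) (XT.lf (nat_lit 0) (nat_lit 1638617640) (nat_lit 0) (nat_lit 1638617640) (nat_lit 1596) (nat_lit 1637169107) (nat_lit 568) (nat_lit 5) (nat_lit 568) (nat_lit 3) (nat_lit 589) (nat_lit 3) (nat_lit 422) (nat_lit 422) (nat_lit 296))))))) (XT.nd (nat_lit 702) (nat_lit 1368) (nat_lit 0) (XT.nd (nat_lit 312) (nat_lit 1596) (nat_lit 0) (XT.nd (nat_lit 156) (nat_lit 0) (nat_lit 0) (XT.nd (nat_lit 78) (nat_lit 0) (nat_lit 0) (XT.lf (nat_lit 0) (nat_lit 7365159738) (nat_lit 1596) (nat_lit 1638252796) (nat_lit 1672) (nat_lit 908781441) (nat_lit 568) (nat_lit 5) (nat_lit 589) (nat_lit 3) (nat_lit 590) (nat_lit 5) (nat_lit 423) (nat_lit 422) (nat_lit 295))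 (XT.lf (nat_lit 76) (nat_lit 3385892356) (nat_lit 0) (nat_lit 4830531706) (nat_lit 1672) (nat_lit 1780335588) (nat_lit 569) (nat_lit 5) (nat_lit 568) (nat_lit 5) (nat_lit 590) (nat_lit 5) (nat_lit 424) (nat_lit 422) (nat_lit 294))) (XT.nd (nat_lit 78) (nat_lit 0) (nat_lit 76) (XT.lf (nat_lit 76) (nat_lit 8522649100) (nat_lit 0) (nat_lit 554045972) (nat_lit 1672) (nat_lit 1006481938) (nat_lit 569) (nat_lit 5) (nat_lit 568) (nat_lit 5) (nat_lit 590) (nat_lit 5) (nat_lit 425) (nat_lit 422) (nat_lit 293)) (XT.lf (nat_lit 76) (nat_lit 3603038592) (nat_lit 0) (nat_lit 6380667605) (nat_lit 1672) (nat_lit 187025827) (nat_lit 570) (nat_lit 5) (nat_lit 569) (nat_lit 5) (nat_lit 591) (nat_lit 5) (nat_lit 426) (nat_lit 422) (nat_lit 292)))) (XT.nd (nat_lit 156) (nat_lit 0) (nat_lit 76) (XT.nd (nat_lit 78) (nat_lit 0) (nat_lit 76) (XT.lf (nat_lit 0) (nat_lit 636114801) (nat_lit 1672) (nat_lit 1387237075) (nat_lit 1748) (nat_lit 8236685916) (nat_lit 547) (nat_lit 5) (nat_lit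 569) (nat_lit 5) (nat_lit 570) (nat_lit 5) (nat_lit 427) (nat_lit 422) (nat_lit 291)) (XT.lf (nat_lit 0) (nat_lit 1496680070) (nat_lit 1672) (nat_lit 6429959828) (nat_lit 1748) (nat_lit 2423995730) (nat_lit 548) (nat_lit 5) (nat_lit 570) (nat_lit 5) (nat_lit 571) (nat_lit 5) (nat_lit 428) (nat_lit 422) (nat_lit 290))) (XT.nd (nat_lit 78) (nat_lit 0) (nat_lit 76) (XT.lf (nat_lit 0) (nat_lit 2379518731) (nat_lit 1672) (nat_lit 1113387200) (nat_lit 1748) (nat_lit 6950038248) (nat_lit 548) (nat_lit 5) (nat_lit 570) (nat_lit 5) (nat_lit 571) (nat_lit 5) (nat_lit 429) (nat_lit 422) (nat_lit 289)) (XT.nd (nat_lit 78) (nat_lit 0) (nat_lit 0) (XT.lf (nat_lit 0) (nat_lit 3297853308) (nat_lit 1672) (nat_lit 6187557088) (nat_lit 1748) (nat_lit 1051331721) (nat_lit 549) (nat_lit 5) (nat_lit 571) (nat_lit 5) (nat_lit 572) (nat_lit 5) (nat_lit 430) (nat_lit 422) (nat_lit 288)) (XT.lf (nat_lit 0) (nat_lit 4248163260) (nat_lit 1672) (nat_lit 730073739) (nat_lit 1748) (nat_lit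 5653906842) (nat_lit 549) (nat_lit 5) (nat_lit 571) (nat_lit 5) (nat_lit 572) (nat_lit 5) (nat_lit 431) (nat_lit 422) (nat_lit 287)))))) (XT.nd (nat_lit 390) (nat_lit 1520) (nat_lit 0) (XT.nd (nat_lit 156) (nat_lit 0) (nat_lit 76) (XT.nd (nat_lit 78) (nat_lit 0) (nat_lit 76) (XT.lf (nat_lit 76) (nat_lit 4890178366) (nat_lit 0) (nat_lit 342341486) (nat_lit 1748) (nat_lit 5496632939) (nat_lit 550) (nat_lit 5) (nat_lit 549) (nat_lit 5) (nat_lit 572) (nat_lit 5) (nat_lit 432) (nat_lit 422) (nat_lit 286)) (XT.lf (nat_lit 0) (nat_lit 6253562733) (nat_lit 1672) (nat_lit 234598376) (nat_lit 1748) (nat_lit 4339600827) (nat_lit 550) (nat_lit 5) (nat_lit 572) (nat_lit 5) (nat_lit 573) (nat_lit 5) (nat_lit 433) (nat_lit 422) (nat_lit 285))) (XT.nd (nat_lit 78) (nat_lit 0) (nat_lit 76) (XT.lf (nat_lit 76) (nat_lit 5541674893) (nat_lit 0) (nat_lit 1775509701) (nat_lit 1748) (nat_lit 3610715508) (nat_lit 551) (nat_lit 5) (nat_lit 550) (nat_lit 5) (nat_lit 573) (nat_lit 5) (nat_lit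 434) (nat_lit 422) (nat_lit 284)) (XT.nd (nat_lit 78) (nat_lit 0) (nat_lit 0) (XT.lf (nat_lit 76) (nat_lit 381064853) (nat_lit 0) (nat_lit 8028946980) (nat_lit 1748) (nat_lit 2619870539) (nat_lit 552) (nat_lit 5) (nat_lit 551) (nat_lit 5) (nat_lit 574) (nat_lit 5) (nat_lit 435) (nat_lit 422) (nat_lit 283)) (XT.lf (nat_lit 76) (nat_lit 6313984669) (nat_lit 0) (nat_lit 3242968374) (nat_lit 1748) (nat_lit 1576306098) (nat_lit 552) (nat_lit 5) (nat_lit 551) (nat_lit 5) (nat_lit 574) (nat_lit 5) (nat_lit 436) (nat_lit 422) (nat_lit 282))))) (XT.nd (nat_lit 156) (nat_lit 0) (nat_lit 76) (XT.nd (nat_lit 78) (nat_lit 1748) (nat_lit 0) (XT.lf (nat_lit 76) (nat_lit 1119971704) (nat_lit 0) (nat_lit 9609540245) (nat_lit 1748) (nat_lit 509137915) (nat_lit 553) (nat_lit 5) (nat_lit 552) (nat_lit 5) (nat_lit 575) (nat_lit 5) (nat_lit 437) (nat_lit 422) (nat_lit 281)) (XT.lf (nat_lit 0) (nat_lit 610702015) (nat_lit 1748) (nat_lit 4138690140) (nat_lit 1824) (nat_lit 6595902476)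 (nat_lit 529) (nat_lit 5) (nat_lit 552) (nat_lit 5) (nat_lit 553) (nat_lit 5) (nat_lit 438) (nat_lit 422) (nat_lit 280))) (XT.nd (nat_lit 78) (nat_lit 0) (nat_lit 0) (XT.lf (nat_lit 0) (nat_lit 1745610379) (nat_lit 1748) (nat_lit 9482980182) (nat_lit 1824) (nat_lit 225424645) (nat_lit 530) (nat_lit 5) (nat_lit 553) (nat_lit 5) (nat_lit 554) (nat_lit 5) (nat_lit 439) (nat_lit 422) (nat_lit 279)) (XT.nd (nat_lit 78) (nat_lit 0) (nat_lit 0) (XT.lf (nat_lit 0) (nat_lit 2948064137) (nat_lit 1748) (nat_lit 3348029414) (nat_lit 1824) (nat_lit 5267919697) (nat_lit 530) (nat_lit 5) (nat_lit 553) (nat_lit 5) (nat_lit 554) (nat_lit 5) (nat_lit 440) (nat_lit 422) (nat_lit 278)) (XT.lf (nat_lit 76) (nat_lit 2937267126) (nat_lit 0) (nat_lit 1242093650) (nat_lit 1824) (nat_lit 7496754597) (nat_lit 531) (nat_lit 5) (nat_lit 530) (nat_lit 5) (nat_lit 554) (nat_lit 5) (nat_lit 441) (nat_lit 422) (nat_lit 277))))))))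
noncomputable def xc121 : XT := (XT.nd (nat_lit 58578) (nat_lit 0) (nat_lit 1140) (XT.nd (nat_lit 702) (nat_lit 0) (nat_lit 0) (XT.nd (nat_lit 312) (nat_lit 4636) (nat_lit 0) (XT.nd (nat_lit 156) (nat_lit 0) (nat_lit 76) (XT.nd (nat_lit 78) (nat_lit 0) (nat_lit 0) (XT.lf (nat_lit 0) (nat_lit 5469258971) (nat_lit 1748) (nat_lit 2433018677) (nat_lit 1824) (nat_lit 3887502381) (nat_lit 531) (nat_lit 5) (nat_lit 554) (nat_lit 5) (nat_lit 555) (nat_lit 5) (nat_lit 442) (nat_lit 422) (nat_lit 276)) (XT.lf (nat_lit 76) (nat_lit 4032702093) (nat_lit 0) (nat_lit 2772891300) (nat_lit 1824) (nat_lit 5099711819) (nat_lit 532) (nat_lit 5) (nat_lit 531) (nat_lit 5) (nat_lit 555) (nat_lit 5) (nat_lit 443) (nat_lit 422) (nat_lit 275))) (XT.nd (nat_lit 78) (nat_lit 0) (nat_lit 0) (XT.lf (nat_lit 0) (nat_lit 8187502616) (nat_lit 1748) (nat_lit 1389277864) (nat_lit 1824) (nat_lit 2445983458) (nat_lit 532) (nat_lit 5) (nat_lit 555) (nat_lit 5) (nat_lit 556) (nat_lit 5) (nat_lit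 444) (nat_lit 422) (nat_lit 274)) (XT.lf (nat_lit 76) (nat_lit 5263492948) (nat_lit 0) (nat_lit 4372807574) (nat_lit 1824) (nat_lit 2505486305) (nat_lit 533) (nat_lit 5) (nat_lit 532) (nat_lit 5) (nat_lit 556) (nat_lit 5) (nat_lit 445) (nat_lit 422) (nat_lit 273)))) (XT.nd (nat_lit 156) (nat_lit 2964) (nat_lit 0) (XT.nd (nat_lit 78) (nat_lit 1824) (nat_lit 0) (XT.lf (nat_lit 0) (nat_lit 11116449134) (nat_lit 1748) (nat_lit 212080669) (nat_lit 76) (nat_lit 934612877) (nat_lit 533) (nat_lit 5) (nat_lit 556) (nat_lit 5) (nat_lit 534) (nat_lit 5) (nat_lit 446) (nat_lit 422) (nat_lit 272)) (XT.lf (nat_lit 0) (nat_lit 295738997) (nat_lit 1824) (nat_lit 5753051497) (nat_lit 76) (nat_lit 6336912043) (nat_lit 509) (nat_lit 5) (nat_lit 533) (nat_lit 5) (nat_lit 510) (nat_lit 5) (nat_lit 447) (nat_lit 422) (nat_lit 271))) (XT.nd (nat_lit 78) (nat_lit 1140) (nat_lit 0) (XT.lf (nat_lit 0) (nat_lit 1102346879) (nat_lit 1824) (nat_lit 645195295) (nat_lit 1900) (nat_lit 10763102301)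 (nat_lit 485) (nat_lit 5) (nat_lit 509) (nat_lit 5) (nat_lit 510) (nat_lit 5) (nat_lit 448) (nat_lit 422) (nat_lit 270)) (XT.nd (nat_lit 78) (nat_lit 1140) (nat_lit 0) (XT.lf (nat_lit 0) (nat_lit 3286301020) (nat_lit 1900) (nat_lit 4507491529) (nat_lit 76) (nat_lit 4843134310) (nat_lit 485) (nat_lit 5) (nat_lit 510) (nat_lit 5) (nat_lit 486) (nat_lit 5) (nat_lit 449) (nat_lit 422) (nat_lit 269)) (XT.lf (nat_lit 0) (nat_lit 2549550837) (nat_lit 1140) (nat_lit 2314817817) (nat_lit 1216) (nat_lit 7901195565) (nat_lit 470) (nat_lit 5) (nat_lit 485) (nat_lit 5) (nat_lit 486) (nat_lit 5) (nat_lit 450) (nat_lit 422) (nat_lit 268)))))) (XT.nd (nat_lit 57486) (nat_lit 0) (nat_lit 5852) (XT.nd (nat_lit 57252) (nat_lit 0) (nat_lit 5776) (XT.nd (nat_lit 57174) (nat_lit 0) (nat_lit 7448) (XT.lf (nat_lit 0) (nat_lit 6513586835) (nat_lit 1216) (nat_lit 3119914041) (nat_lit 76) (nat_lit 3262481666) (nat_lit 470) (nat_lit 5) (nat_lit 486) (nat_lit 5) (nat_lit 471) (nat_lit 5)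 (nat_lit 451) (nat_lit 422) (nat_lit 267)) (XT.lf (nat_lit 0) (nat_lit 2038573239) (nat_lit 0) (nat_lit 2038573239) (nat_lit 1596) (nat_lit 920858668) (nat_lit 568) (nat_lit 5) (nat_lit 568) (nat_lit 3) (nat_lit 589) (nat_lit 3) (nat_lit 423) (nat_lit 423) (nat_lit 294))) (XT.nd (nat_lit 78) (nat_lit 1672) (nat_lit 0) (XT.lf (nat_lit 0) (nat_lit 8947722726) (nat_lit 1596) (nat_lit 917577513) (nat_lit 1672) (nat_lit 216432420) (nat_lit 568) (nat_lit 5) (nat_lit 589) (nat_lit 3) (nat_lit 590) (nat_lit 5) (nat_lit 424) (nat_lit 423) (nat_lit 293)) (XT.nd (nat_lit 78) (nat_lit 1672) (nat_lit 0) (XT.lf (nat_lit 76) (nat_lit 4202093698) (nat_lit 0) (nat_lit 5590635941) (nat_lit 1672) (nat_lit 375725662) (nat_lit 569) (nat_lit 5) (nat_lit 568) (nat_lit 5) (nat_lit 590) (nat_lit 5) (nat_lit 425) (nat_lit 423) (nat_lit 292)) (XT.lf (nat_lit 0) (nat_lit 380311379) (nat_lit 1672) (nat_lit 832747345) (nat_lit 1748) (nat_lit 9044045960) (nat_lit 546) (nat_lit 5) (nat_lit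 568) (nat_lit 5) (nat_lit 569) (nat_lit 5) (nat_lit 426) (nat_lit 423) (nat_lit 291))))) (XT.nd (nat_lit 156) (nat_lit 0) (nat_lit 76) (XT.nd (nat_lit 78) (nat_lit 0) (nat_lit 0) (XT.lf (nat_lit 0) (nat_lit 1178675188) (nat_lit 1672) (nat_lit 5918963875) (nat_lit 1748) (nat_lit 3249193582) (nat_lit 547) (nat_lit 5) (nat_lit 569) (nat_lit 5) (nat_lit 570) (nat_lit 5) (nat_lit 427) (nat_lit 423) (nat_lit 290)) (XT.lf (nat_lit 0) (nat_lit 1988973957) (nat_lit 1672) (nat_lit 651408439) (nat_lit 1748) (nat_lit 7798053414) (nat_lit 547) (nat_lit 5) (nat_lit 569) (nat_lit 5) (nat_lit 570) (nat_lit 5) (nat_lit 428) (nat_lit 423) (nat_lit 289))) (XT.nd (nat_lit 78) (nat_lit 0) (nat_lit 0) (XT.lf (nat_lit 0) (nat_lit 2841760931) (nat_lit 1672) (nat_lit 5769996047) (nat_lit 1748) (nat_lit 1919588417) (nat_lit 548) (nat_lit 5) (nat_lit 570) (nat_lit 5) (nat_lit 571) (nat_lit 5) (nat_lit 429) (nat_lit 423) (nat_lit 288)) (XT.nd (nat_lit 78) (nat_lit 0) (nat_lit 76) (XT.lf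 (nat_lit 0) (nat_lit 3716469164) (nat_lit 1672) (nat_lit 362553985) (nat_lit 1748) (nat_lit 6546992711) (nat_lit 548) (nat_lit 5) (nat_lit 570) (nat_lit 5) (nat_lit 571) (nat_lit 5) (nat_lit 430) (nat_lit 423) (nat_lit 287)) (XT.lf (nat_lit 0) (nat_lit 4629622174) (nat_lit 1672) (nat_lit 5514659012) (nat_lit 1748) (nat_lit 577879537) (nat_lit 549) (nat_lit 5) (nat_lit 571) (nat_lit 5) (nat_lit 572) (nat_lit 5) (nat_lit 431) (nat_lit 423) (nat_lit 286))))))) (XT.nd (nat_lit 702) (nat_lit 3344) (nat_lit 0) (XT.nd (nat_lit 312) (nat_lit 1520) (nat_lit 0) (XT.nd (nat_lit 156) (nat_lit 0) (nat_lit 76) (XT.nd (nat_lit 78) (nat_lit 0) (nat_lit 0) (XT.lf (nat_lit 76) (nat_lit 36836547) (nat_lit 0) (nat_lit 5537521106) (nat_lit 1748) (nat_lit 5245604442) (nat_lit 550) (nat_lit 5) (nat_lit 549) (nat_lit 5) (nat_lit 572) (nat_lit 5) (nat_lit 432) (nat_lit 423) (nat_lit 285)) (XT.lf (nat_lit 76) (nat_lit 5763872232) (nat_lit 0) (nat_lit 794994397) (nat_lit 1748) (nat_lit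 4360435290) (nat_lit 550) (nat_lit 5) (nat_lit 549) (nat_lit 5) (nat_lit 572) (nat_lit 5) (nat_lit 433) (nat_lit 423) (nat_lit 284))) (XT.nd (nat_lit 78) (nat_lit 0) (nat_lit 0) (XT.lf (nat_lit 76) (nat_lit 555463974) (nat_lit 0) (nat_lit 7021680289) (nat_lit 1748) (nat_lit 3443202707) (nat_lit 551) (nat_lit 5) (nat_lit 550) (nat_lit 5) (nat_lit 573) (nat_lit 5) (nat_lit 434) (nat_lit 423) (nat_lit 283)) (XT.lf (nat_lit 76) (nat_lit 6434796980) (nat_lit 0) (nat_lit 2205284790) (nat_lit 1748) (nat_lit 2482845265) (nat_lit 551) (nat_lit 5) (nat_lit 550) (nat_lit 5) (nat_lit 573) (nat_lit 5) (nat_lit 435) (nat_lit 423) (nat_lit 282)))) (XT.nd (nat_lit 156) (nat_lit 1672) (nat_lit 0) (XT.nd (nat_lit 78) (nat_lit 0) (nat_lit 0) (XT.lf (nat_lit 76) (nat_lit 1191747352) (nat_lit 0) (nat_lit 8542652895) (nat_lit 1748) (nat_lit 1492956009) (nat_lit 552) (nat_lit 5) (nat_lit 551) (nat_lit 5) (nat_lit 574) (nat_lit 5) (nat_lit 436) (nat_lit 423) (nat_lit 281)) (XT.lf (nat_lit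 76) (nat_lit 7227579266) (nat_lit 0) (nat_lit 3654030658) (nat_lit 1748) (nat_lit 451644043) (nat_lit 552) (nat_lit 5) (nat_lit 551) (nat_lit 5) (nat_lit 574) (nat_lit 5) (nat_lit 437) (nat_lit 423) (nat_lit 280))) (XT.nd (nat_lit 78) (nat_lit 0) (nat_lit 0) (XT.lf (nat_lit 0) (nat_lit 609197097) (nat_lit 1748) (nat_lit 9495883657) (nat_lit 1824) (nat_lit 1335975409) (nat_lit 529) (nat_lit 5) (nat_lit 552) (nat_lit 5) (nat_lit 553) (nat_lit 5) (nat_lit 438) (nat_lit 423) (nat_lit 279)) (XT.nd (nat_lit 78) (nat_lit 0) (nat_lit 0) (XT.lf (nat_lit 0) (nat_lit 1722628592) (nat_lit 1748) (nat_lit 3415781303) (nat_lit 1824) (nat_lit 6411796379) (nat_lit 529) (nat_lit 5) (nat_lit 552) (nat_lit 5) (nat_lit 553) (nat_lit 5) (nat_lit 439) (nat_lit 423) (nat_lit 278)) (XT.lf (nat_lit 76) (nat_lit 2812380794) (nat_lit 0) (nat_lit 49975231) (nat_lit 1824) (nat_lit 8799102816) (nat_lit 530) (nat_lit 5) (nat_lit 529) (nat_lit 5) (nat_lit 553) (nat_lit 5) (nat_lit 440) (nat_lit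 423) (nat_lit 277)))))) (XT.nd (nat_lit 390) (nat_lit 3420) (nat_lit 0) (XT.nd (nat_lit 156) (nat_lit 0) (nat_lit 76) (XT.nd (nat_lit 78) (nat_lit 0) (nat_lit 0) (XT.lf (nat_lit 0) (nat_lit 4067328328) (nat_lit 1748) (nat_lit 2607258423) (nat_lit 1824) (nat_lit 5099500703) (nat_lit 530) (nat_lit 5) (nat_lit 553) (nat_lit 5) (nat_lit 554) (nat_lit 5) (nat_lit 441) (nat_lit 423) (nat_lit 276)) (XT.lf (nat_lit 76) (nat_lit 3798430024) (nat_lit 0) (nat_lit 1509240450) (nat_lit 1824) (nat_lit 6581072757) (nat_lit 531) (nat_lit 5) (nat_lit 530) (nat_lit 5) (nat_lit 554) (nat_lit 5) (nat_lit 442) (nat_lit 423) (nat_lit 275))) (XT.nd (nat_lit 78) (nat_lit 0) (nat_lit 0) (XT.lf (nat_lit 0) (nat_lit 6601339521) (nat_lit 1748) (nat_lit 1672968061) (nat_lit 1824) (nat_lit 3730814140) (nat_lit 531) (nat_lit 5) (nat_lit 554) (nat_lit 5) (nat_lit 555) (nat_lit 5) (nat_lit 443) (nat_lit 423) (nat_lit 274)) (XT.nd (nat_lit 78) (nat_lit 0) (nat_lit 76) (XT.lf (nat_lit 76) (nat_lit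 4916746658) (nat_lit 0) (nat_lit 3032817268) (nat_lit 1824) (nat_lit 4173690217) (nat_lit 532) (nat_lit 5) (nat_lit 531) (nat_lit 5) (nat_lit 555) (nat_lit 5) (nat_lit 444) (nat_lit 423) (nat_lit 273)) (XT.lf (nat_lit 0) (nat_lit 9338047886) (nat_lit 1748) (nat_lit 608362207) (nat_lit 1824) (nat_lit 2297073219) (nat_lit 532) (nat_lit 5) (nat_lit 555) (nat_lit 5) (nat_lit 556) (nat_lit 5) (nat_lit 445) (nat_lit 423) (nat_lit 272))))) (XT.nd (nat_lit 156) (nat_lit 1900) (nat_lit 0) (XT.nd (nat_lit 78) (nat_lit 1672) (nat_lit 0) (XT.lf (nat_lit 76) (nat_lit 6172143618) (nat_lit 0) (nat_lit 4629545287) (nat_lit 1824) (nat_lit 1563480411) (nat_lit 533) (nat_lit 5) (nat_lit 532) (nat_lit 5) (nat_lit 556) (nat_lit 5) (nat_lit 446) (nat_lit 423) (nat_lit 271)) (XT.lf (nat_lit 0) (nat_lit 599315442) (nat_lit 1748) (nat_lit 11695866851) (nat_lit 1824) (nat_lit 194095156) (nat_lit 510) (nat_lit 5) (nat_lit 533) (nat_lit 5) (nat_lit 534) (nat_lit 5) (nat_lit 447) (nat_lit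 423) (nat_lit 270))) (XT.nd (nat_lit 78) (nat_lit 1824) (nat_lit 0) (XT.lf (nat_lit 0) (nat_lit 1246919049) (nat_lit 1824) (nat_lit 5053087180) (nat_lit 76) (nat_lit 6314505053) (nat_lit 509) (nat_lit 5) (nat_lit 533) (nat_lit 5) (nat_lit 510) (nat_lit 5) (nat_lit 448) (nat_lit 423) (nat_lit 269)) (XT.nd (nat_lit 78) (nat_lit 0) (nat_lit 0) (XT.lf (nat_lit 0) (nat_lit 1934057155) (nat_lit 1824) (nat_lit 780423393) (nat_lit 1900) (nat_lit 10027737065) (nat_lit 485) (nat_lit 5) (nat_lit 509) (nat_lit 5) (nat_lit 510) (nat_lit 5) (nat_lit 449) (nat_lit 423) (nat_lit 268)) (XT.lf (nat_lit 0) (nat_lit 4264961669) (nat_lit 1900) (nat_lit 3784800871) (nat_lit 76) (nat_lit 4821644164) (nat_lit 485) (nat_lit 5) (nat_lit 510) (nat_lit 5) (nat_lit 486) (nat_lit 5) (nat_lit 450) (nat_lit 423) (nat_lit 267))))))))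
noncomputable def xc122 : XT := (XT.nd (nat_lit 58656) (nat_lit 0) (nat_lit 1140) (XT.nd (nat_lit 57876) (nat_lit 0) (nat_lit 4408) (XT.nd (nat_lit 57486) (nat_lit 0) (nat_lit 5776) (XT.nd (nat_lit 57330) (nat_lit 0) (nat_lit 5700) (XT.nd (nat_lit 57252) (nat_lit 0) (nat_lit 7448) (XT.lf (nat_lit 0) (nat_lit 3408034708) (nat_lit 1140) (nat_lit 2453898047) (nat_lit 1216) (nat_lit 7140937213) (nat_lit 470) (nat_lit 5) (nat_lit 485) (nat_lit 5) (nat_lit 486) (nat_lit 5) (nat_lit 451) (nat_lit 423) (nat_lit 266)) (XT.lf (nat_lit 0) (nat_lit 2432269776) (nat_lit 0) (nat_lit 2432269776) (nat_lit 1596) (nat_lit 219308693) (nat_lit 568) (nat_lit 5) (nat_lit 568) (nat_lit 3) (nat_lit 589) (nat_lit 3) (nat_lit 424) (nat_lit 424) (nat_lit 292))) (XT.nd (nat_lit 78) (nat_lit 0) (nat_lit 76) (XT.lf (nat_lit 0) (nat_lit 250203661) (nat_lit 1748) (nat_lit 216432420) (nat_lit 1748) (nat_lit 9789046960) (nat_lit 545) (nat_lit 3) (nat_lit 568) (nat_lit 3) (nat_lit 568) (nat_lit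 5) (nat_lit 425) (nat_lit 424) (nat_lit 291)) (XT.lf (nat_lit 0) (nat_lit 987922128) (nat_lit 1672) (nat_lit 5345626389) (nat_lit 1748) (nat_lit 4011002934) (nat_lit 546) (nat_lit 5) (nat_lit 568) (nat_lit 5) (nat_lit 569) (nat_lit 5) (nat_lit 426) (nat_lit 424) (nat_lit 290)))) (XT.nd (nat_lit 156) (nat_lit 0) (nat_lit 76) (XT.nd (nat_lit 78) (nat_lit 0) (nat_lit 76) (XT.lf (nat_lit 0) (nat_lit 1727266666) (nat_lit 1672) (nat_lit 126290334) (nat_lit 1748) (nat_lit 8581902796) (nat_lit 546) (nat_lit 5) (nat_lit 568) (nat_lit 5) (nat_lit 569) (nat_lit 5) (nat_lit 427) (nat_lit 424) (nat_lit 289)) (XT.lf (nat_lit 0) (nat_lit 2516108359) (nat_lit 1672) (nat_lit 5288741802) (nat_lit 1748) (nat_lit 2722641943) (nat_lit 547) (nat_lit 5) (nat_lit 569) (nat_lit 5) (nat_lit 570) (nat_lit 5) (nat_lit 428) (nat_lit 424) (nat_lit 288))) (XT.nd (nat_lit 78) (nat_lit 0) (nat_lit 76) (XT.lf (nat_lit 76) (nat_lit 70409720) (nat_lit 0) (nat_lit 3246898576) (nat_lit 1748) (nat_lit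 7304125134) (nat_lit 548) (nat_lit 5) (nat_lit 547) (nat_lit 5) (nat_lit 570) (nat_lit 5) (nat_lit 429) (nat_lit 424) (nat_lit 287)) (XT.nd (nat_lit 78) (nat_lit 0) (nat_lit 0) (XT.lf (nat_lit 0) (nat_lit 4162674639) (nat_lit 1672) (nat_lit 5127453852) (nat_lit 1748) (nat_lit 1426562242) (nat_lit 548) (nat_lit 5) (nat_lit 570) (nat_lit 5) (nat_lit 571) (nat_lit 5) (nat_lit 430) (nat_lit 424) (nat_lit 286)) (XT.lf (nat_lit 76) (nat_lit 378236074) (nat_lit 0) (nat_lit 4654310869) (nat_lit 1748) (nat_lit 5781154267) (nat_lit 549) (nat_lit 5) (nat_lit 548) (nat_lit 5) (nat_lit 571) (nat_lit 5) (nat_lit 431) (nat_lit 424) (nat_lit 285)))))) (XT.nd (nat_lit 390) (nat_lit 1596) (nat_lit 0) (XT.nd (nat_lit 156) (nat_lit 0) (nat_lit 0) (XT.nd (nat_lit 78) (nat_lit 0) (nat_lit 0) (XT.lf (nat_lit 0) (nat_lit 5938873403) (nat_lit 1672) (nat_lit 4859237835) (nat_lit 1748) (nat_lit 114159524) (nat_lit 549) (nat_lit 5) (nat_lit 571) (nat_lit 5) (nat_lit 572) (nat_lit 5) (nat_lit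 432) (nat_lit 424) (nat_lit 284)) (XT.lf (nat_lit 76) (nat_lit 798250041) (nat_lit 0) (nat_lit 6085336314) (nat_lit 1748) (nat_lit 4128820151) (nat_lit 550) (nat_lit 5) (nat_lit 549) (nat_lit 5) (nat_lit 572) (nat_lit 5) (nat_lit 433) (nat_lit 424) (nat_lit 283))) (XT.nd (nat_lit 78) (nat_lit 0) (nat_lit 76) (XT.lf (nat_lit 76) (nat_lit 6624911208) (nat_lit 0) (nat_lit 1239389173) (nat_lit 1748) (nat_lit 3249902447) (nat_lit 550) (nat_lit 5) (nat_lit 549) (nat_lit 5) (nat_lit 572) (nat_lit 5) (nat_lit 434) (nat_lit 424) (nat_lit 282)) (XT.nd (nat_lit 78) (nat_lit 0) (nat_lit 0) (XT.lf (nat_lit 76) (nat_lit 1333522850) (nat_lit 0) (nat_lit 7548648105) (nat_lit 1748) (nat_lit 2335513277) (nat_lit 551) (nat_lit 5) (nat_lit 550) (nat_lit 5) (nat_lit 573) (nat_lit 5) (nat_lit 435) (nat_lit 424) (nat_lit 281)) (XT.lf (nat_lit 76) (nat_lit 7315404289) (nat_lit 0) (nat_lit 2628345594) (nat_lit 1748) (nat_lit 1379018362) (nat_lit 551) (nat_lit 5) (nat_lit 550) (nat_lit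 5) (nat_lit 573) (nat_lit 5) (nat_lit 436) (nat_lit 424) (nat_lit 280))))) (XT.nd (nat_lit 156) (nat_lit 0) (nat_lit 76) (XT.nd (nat_lit 78) (nat_lit 1748) (nat_lit 0) (XT.lf (nat_lit 76) (nat_lit 1987459655) (nat_lit 0) (nat_lit 9052920578) (nat_lit 1748) (nat_lit 389297309) (nat_lit 552) (nat_lit 5) (nat_lit 551) (nat_lit 5) (nat_lit 574) (nat_lit 5) (nat_lit 437) (nat_lit 424) (nat_lit 279)) (XT.lf (nat_lit 0) (nat_lit 642082123) (nat_lit 1748) (nat_lit 3413479874) (nat_lit 1824) (nat_lit 7482482525) (nat_lit 528) (nat_lit 5) (nat_lit 551) (nat_lit 5) (nat_lit 552) (nat_lit 5) (nat_lit 438) (nat_lit 424) (nat_lit 278))) (XT.nd (nat_lit 78) (nat_lit 0) (nat_lit 0) (XT.lf (nat_lit 0) (nat_lit 1699530585) (nat_lit 1748) (nat_lit 8895916388) (nat_lit 1824) (nat_lit 1052867322) (nat_lit 529) (nat_lit 5) (nat_lit 552) (nat_lit 5) (nat_lit 553) (nat_lit 5) (nat_lit 439) (nat_lit 424) (nat_lit 277)) (XT.nd (nat_lit 78) (nat_lit 0) (nat_lit 0) (XT.lf (nat_lit 0) (nat_lit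 2814090522) (nat_lit 1748) (nat_lit 2709699927) (nat_lit 1824) (nat_lit 6236279763) (nat_lit 529) (nat_lit 5) (nat_lit 552) (nat_lit 5) (nat_lit 553) (nat_lit 5) (nat_lit 440) (nat_lit 424) (nat_lit 276)) (XT.lf (nat_lit 76) (nat_lit 3637930695) (nat_lit 0) (nat_lit 322950957) (nat_lit 1824) (nat_lit 7912980796) (nat_lit 530) (nat_lit 5) (nat_lit 529) (nat_lit 5) (nat_lit 553) (nat_lit 5) (nat_lit 441) (nat_lit 424) (nat_lit 275))))))) (XT.nd (nat_lit 58032) (nat_lit 0) (nat_lit 4560) (XT.nd (nat_lit 312) (nat_lit 3420) (nat_lit 0) (XT.nd (nat_lit 156) (nat_lit 0) (nat_lit 76) (XT.nd (nat_lit 78) (nat_lit 0) (nat_lit 0) (XT.lf (nat_lit 0) (nat_lit 5167804949) (nat_lit 1748) (nat_lit 1883037214) (nat_lit 1824) (nat_lit 4938344439) (nat_lit 530) (nat_lit 5) (nat_lit 553) (nat_lit 5) (nat_lit 554) (nat_lit 5) (nat_lit 442) (nat_lit 424) (nat_lit 274)) (XT.lf (nat_lit 76) (nat_lit 4645657328) (nat_lit 0) (nat_lit 1772321190) (nat_lit 1824) (nat_lit 5688456484) (nat_lit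 531) (nat_lit 5) (nat_lit 530) (nat_lit 5) (nat_lit 554) (nat_lit 5) (nat_lit 443) (nat_lit 424) (nat_lit 273))) (XT.nd (nat_lit 78) (nat_lit 0) (nat_lit 0) (XT.lf (nat_lit 0) (nat_lit 7716349175) (nat_lit 1748) (nat_lit 929119666) (nat_lit 1824) (nat_lit 3580095658) (nat_lit 531) (nat_lit 5) (nat_lit 554) (nat_lit 5) (nat_lit 555) (nat_lit 5) (nat_lit 444) (nat_lit 424) (nat_lit 272)) (XT.lf (nat_lit 76) (nat_lit 5787275481) (nat_lit 0) (nat_lit 3290002009) (nat_lit 1824) (nat_lit 3269067291) (nat_lit 532) (nat_lit 5) (nat_lit 531) (nat_lit 5) (nat_lit 555) (nat_lit 5) (nat_lit 445) (nat_lit 424) (nat_lit 271)))) (XT.nd (nat_lit 156) (nat_lit 3572) (nat_lit 0) (XT.nd (nat_lit 78) (nat_lit 0) (nat_lit 0) (XT.lf (nat_lit 76) (nat_lit 158852285) (nat_lit 0) (nat_lit 10315464689) (nat_lit 1824) (nat_lit 1995045842) (nat_lit 533) (nat_lit 5) (nat_lit 532) (nat_lit 5) (nat_lit 556) (nat_lit 5) (nat_lit 446) (nat_lit 424) (nat_lit 270)) (XT.lf (nat_lit 76) (nat_lit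 7067771046) (nat_lit 0) (nat_lit 4884844344) (nat_lit 1824) (nat_lit 641159458) (nat_lit 533) (nat_lit 5) (nat_lit 532) (nat_lit 5) (nat_lit 556) (nat_lit 5) (nat_lit 447) (nat_lit 424) (nat_lit 269))) (XT.nd (nat_lit 78) (nat_lit 1824) (nat_lit 0) (XT.lf (nat_lit 0) (nat_lit 731350104) (nat_lit 1824) (nat_lit 11327431392) (nat_lit 76) (nat_lit 661772598) (nat_lit 509) (nat_lit 5) (nat_lit 533) (nat_lit 5) (nat_lit 510) (nat_lit 5) (nat_lit 448) (nat_lit 424) (nat_lit 268)) (XT.nd (nat_lit 78) (nat_lit 1824) (nat_lit 0) (XT.lf (nat_lit 0) (nat_lit 2180416900) (nat_lit 1824) (nat_lit 4370772004) (nat_lit 76) (nat_lit 6297441414) (nat_lit 509) (nat_lit 5) (nat_lit 533) (nat_lit 5) (nat_lit 510) (nat_lit 5) (nat_lit 449) (nat_lit 424) (nat_lit 267)) (XT.lf (nat_lit 0) (nat_lit 2750961422) (nat_lit 1824) (nat_lit 913606056) (nat_lit 1900) (nat_lit 9314578541) (nat_lit 485) (nat_lit 5) (nat_lit 509) (nat_lit 5) (nat_lit 510) (nat_lit 5) (nat_lit 450) (nat_lit 424)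 (nat_lit 266)))))) (XT.nd (nat_lit 390) (nat_lit 0) (nat_lit 152) (XT.nd (nat_lit 156) (nat_lit 0) (nat_lit 76) (XT.nd (nat_lit 78) (nat_lit 0) (nat_lit 0) (XT.lf (nat_lit 0) (nat_lit 462173043) (nat_lit 1748) (nat_lit 2354861267) (nat_lit 1748) (nat_lit 2354861267) (nat_lit 545) (nat_lit 3) (nat_lit 568) (nat_lit 3) (nat_lit 568) (nat_lit 5) (nat_lit 425) (nat_lit 425) (nat_lit 290)) (XT.lf (nat_lit 76) (nat_lit 468315079) (nat_lit 0) (nat_lit 1129019760) (nat_lit 1748) (nat_lit 8836619320) (nat_lit 546) (nat_lit 5) (nat_lit 545) (nat_lit 3) (nat_lit 568) (nat_lit 5) (nat_lit 426) (nat_lit 425) (nat_lit 289))) (XT.nd (nat_lit 78) (nat_lit 0) (nat_lit 0) (XT.lf (nat_lit 0) (nat_lit 2320767884) (nat_lit 1672) (nat_lit 4743605625) (nat_lit 1748) (nat_lit 3460807225) (nat_lit 546) (nat_lit 5) (nat_lit 568) (nat_lit 5) (nat_lit 569) (nat_lit 5) (nat_lit 427) (nat_lit 425) (nat_lit 288)) (XT.nd (nat_lit 78) (nat_lit 0) (nat_lit 76) (XT.lf (nat_lit 76) (nat_lit 573741217)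 (nat_lit 0) (nat_lit 2479136394) (nat_lit 1748) (nat_lit 7565470070) (nat_lit 547) (nat_lit 5) (nat_lit 546) (nat_lit 5) (nat_lit 569) (nat_lit 5) (nat_lit 428) (nat_lit 425) (nat_lit 287)) (XT.lf (nat_lit 0) (nat_lit 3829271421) (nat_lit 1672) (nat_lit 4674984390) (nat_lit 1748) (nat_lit 2208529317) (nat_lit 547) (nat_lit 5) (nat_lit 569) (nat_lit 5) (nat_lit 570) (nat_lit 5) (nat_lit 429) (nat_lit 425) (nat_lit 286))))) (XT.nd (nat_lit 156) (nat_lit 0) (nat_lit 76) (XT.nd (nat_lit 78) (nat_lit 0) (nat_lit 76) (XT.lf (nat_lit 76) (nat_lit 786616397) (nat_lit 0) (nat_lit 3839758319) (nat_lit 1748) (nat_lit 6182632977) (nat_lit 548) (nat_lit 5) (nat_lit 547) (nat_lit 5) (nat_lit 570) (nat_lit 5) (nat_lit 430) (nat_lit 425) (nat_lit 285)) (XT.lf (nat_lit 0) (nat_lit 5460920913) (nat_lit 1672) (nat_lit 4501492629) (nat_lit 1748) (nat_lit 944311151) (nat_lit 548) (nat_lit 5) (nat_lit 570) (nat_lit 5) (nat_lit 571) (nat_lit 5) (nat_lit 431) (nat_lit 425) (nat_lit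 284))) (XT.nd (nat_lit 78) (nat_lit 0) (nat_lit 0) (XT.lf (nat_lit 76) (nat_lit 1109518265) (nat_lit 0) (nat_lit 5219547864) (nat_lit 1748) (nat_lit 4676991740) (nat_lit 549) (nat_lit 5) (nat_lit 548) (nat_lit 5) (nat_lit 571) (nat_lit 5) (nat_lit 432) (nat_lit 425) (nat_lit 283)) (XT.nd (nat_lit 78) (nat_lit 0) (nat_lit 76) (XT.lf (nat_lit 76) (nat_lit 6884401909) (nat_lit 0) (nat_lit 344902742) (nat_lit 1748) (nat_lit 3877778451) (nat_lit 549) (nat_lit 5) (nat_lit 548) (nat_lit 5) (nat_lit 571) (nat_lit 5) (nat_lit 433) (nat_lit 425) (nat_lit 282)) (XT.lf (nat_lit 76) (nat_lit 1545353799) (nat_lit 0) (nat_lit 6627136068) (nat_lit 1748) (nat_lit 3037140133) (nat_lit 550) (nat_lit 5) (nat_lit 549) (nat_lit 5) (nat_lit 572) (nat_lit 5) (nat_lit 434) (nat_lit 425) (nat_lit 281))))))))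
noncomputable def xc123 : XT := (XT.nd (nat_lit 58890) (nat_lit 0) (nat_lit 1444) (XT.nd (nat_lit 702) (nat_lit 1520) (nat_lit 0) (XT.nd (nat_lit 312) (nat_lit 0) (nat_lit 0) (XT.nd (nat_lit 156) (nat_lit 1596) (nat_lit 0) (XT.nd (nat_lit 78) (nat_lit 0) (nat_lit 76) (XT.lf (nat_lit 76) (nat_lit 7474212135) (nat_lit 0) (nat_lit 1676032867) (nat_lit 1748) (nat_lit 2163668711) (nat_lit 550) (nat_lit 5) (nat_lit 549) (nat_lit 5) (nat_lit 572) (nat_lit 5) (nat_lit 435) (nat_lit 425) (nat_lit 280)) (XT.lf (nat_lit 76) (nat_lit 2097361317) (nat_lit 0) (nat_lit 8071145683) (nat_lit 1748) (nat_lit 1251357065) (nat_lit 551) (nat_lit 5) (nat_lit 550) (nat_lit 5) (nat_lit 573) (nat_lit 5) (nat_lit 436) (nat_lit 425) (nat_lit 279))) (XT.nd (nat_lit 78) (nat_lit 1672) (nat_lit 0) (XT.lf (nat_lit 76) (nat_lit 8184426110) (nat_lit 0) (nat_lit 3045152326) (nat_lit 1748) (nat_lit 297906104) (nat_lit 551) (nat_lit 5) (nat_lit 550) (nat_lit 5) (nat_lit 573) (nat_lit 5) (nat_lit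 437) (nat_lit 425) (nat_lit 278)) (XT.lf (nat_lit 0) (nat_lit 683337491) (nat_lit 1748) (nat_lit 8872290685) (nat_lit 1824) (nat_lit 2081190221) (nat_lit 528) (nat_lit 5) (nat_lit 551) (nat_lit 5) (nat_lit 552) (nat_lit 5) (nat_lit 438) (nat_lit 425) (nat_lit 277)))) (XT.nd (nat_lit 156) (nat_lit 0) (nat_lit 76) (XT.nd (nat_lit 78) (nat_lit 0) (nat_lit 76) (XT.lf (nat_lit 0) (nat_lit 1709054088) (nat_lit 1748) (nat_lit 2740383362) (nat_lit 1824) (nat_lit 7298285357) (nat_lit 528) (nat_lit 5) (nat_lit 551) (nat_lit 5) (nat_lit 552) (nat_lit 5) (nat_lit 439) (nat_lit 425) (nat_lit 276)) (XT.lf (nat_lit 0) (nat_lit 2769804881) (nat_lit 1748) (nat_lit 8314621969) (nat_lit 1824) (nat_lit 776128057) (nat_lit 529) (nat_lit 5) (nat_lit 552) (nat_lit 5) (nat_lit 553) (nat_lit 5) (nat_lit 440) (nat_lit 425) (nat_lit 275))) (XT.nd (nat_lit 78) (nat_lit 0) (nat_lit 0) (XT.lf (nat_lit 0) (nat_lit 3886336730) (nat_lit 1748) (nat_lit 2019567703) (nat_lit 1824) (nat_lit 6069047896)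 (nat_lit 529) (nat_lit 5) (nat_lit 552) (nat_lit 5) (nat_lit 553) (nat_lit 5) (nat_lit 441) (nat_lit 425) (nat_lit 274)) (XT.nd (nat_lit 78) (nat_lit 0) (nat_lit 76) (XT.lf (nat_lit 76) (nat_lit 4450118648) (nat_lit 0) (nat_lit 590825028) (nat_lit 1824) (nat_lit 7050379132) (nat_lit 530) (nat_lit 5) (nat_lit 529) (nat_lit 5) (nat_lit 553) (nat_lit 5) (nat_lit 442) (nat_lit 425) (nat_lit 273)) (XT.lf (nat_lit 0) (nat_lit 6250717040) (nat_lit 1748) (nat_lit 1174478833) (nat_lit 1824) (nat_lit 4784183340) (nat_lit 530) (nat_lit 5) (nat_lit 553) (nat_lit 5) (nat_lit 554) (nat_lit 5) (nat_lit 443) (nat_lit 425) (nat_lit 272)))))) (XT.nd (nat_lit 390) (nat_lit 0) (nat_lit 76) (XT.nd (nat_lit 156) (nat_lit 1672) (nat_lit 0) (XT.nd (nat_lit 78) (nat_lit 0) (nat_lit 76) (XT.lf (nat_lit 76) (nat_lit 5479880263) (nat_lit 0) (nat_lit 2031619913) (nat_lit 1824) (nat_lit 4817760285) (nat_lit 531) (nat_lit 5) (nat_lit 530) (nat_lit 5) (nat_lit 554) (nat_lit 5) (nat_lit 444)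 (nat_lit 425) (nat_lit 271)) (XT.lf (nat_lit 0) (nat_lit 8815488599) (nat_lit 1748) (nat_lit 200578110) (nat_lit 1824) (nat_lit 3435112831) (nat_lit 531) (nat_lit 5) (nat_lit 554) (nat_lit 5) (nat_lit 555) (nat_lit 5) (nat_lit 445) (nat_lit 425) (nat_lit 270))) (XT.nd (nat_lit 78) (nat_lit 1748) (nat_lit 0) (XT.lf (nat_lit 76) (nat_lit 6645229650) (nat_lit 0) (nat_lit 3544699007) (nat_lit 1824) (nat_lit 2384720907) (nat_lit 532) (nat_lit 5) (nat_lit 531) (nat_lit 5) (nat_lit 555) (nat_lit 5) (nat_lit 446) (nat_lit 425) (nat_lit 269)) (XT.nd (nat_lit 78) (nat_lit 1824) (nat_lit 0) (XT.lf (nat_lit 76) (nat_lit 919073013) (nat_lit 0) (nat_lit 10681291778) (nat_lit 1824) (nat_lit 1100054051) (nat_lit 533) (nat_lit 5) (nat_lit 532) (nat_lit 5) (nat_lit 556) (nat_lit 5) (nat_lit 447) (nat_lit 425) (nat_lit 268)) (XT.lf (nat_lit 0) (nat_lit 259135061) (nat_lit 1824) (nat_lit 4878057233) (nat_lit 1900) (nat_lit 7690452161) (nat_lit 508) (nat_lit 5) (nat_lit 532) (nat_lit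 5) (nat_lit 533) (nat_lit 5) (nat_lit 448) (nat_lit 425) (nat_lit 267))))) (XT.nd (nat_lit 57564) (nat_lit 0) (nat_lit 2736) (XT.nd (nat_lit 78) (nat_lit 0) (nat_lit 0) (XT.lf (nat_lit 0) (nat_lit 1636721684) (nat_lit 1824) (nat_lit 10785963432) (nat_lit 76) (nat_lit 534465168) (nat_lit 509) (nat_lit 5) (nat_lit 533) (nat_lit 5) (nat_lit 510) (nat_lit 5) (nat_lit 449) (nat_lit 425) (nat_lit 266)) (XT.lf (nat_lit 0) (nat_lit 3097304237) (nat_lit 1824) (nat_lit 3705230005) (nat_lit 76) (nat_lit 6285603103) (nat_lit 509) (nat_lit 5) (nat_lit 533) (nat_lit 5) (nat_lit 510) (nat_lit 5) (nat_lit 450) (nat_lit 425) (nat_lit 265))) (XT.nd (nat_lit 78) (nat_lit 0) (nat_lit 0) (XT.lf (nat_lit 0) (nat_lit 1127831451) (nat_lit 1748) (nat_lit 2067186868) (nat_lit 1748) (nat_lit 2067186868) (nat_lit 545) (nat_lit 3) (nat_lit 568) (nat_lit 3) (nat_lit 568) (nat_lit 5) (nat_lit 426) (nat_lit 426) (nat_lit 288)) (XT.nd (nat_lit 78) (nat_lit 0) (nat_lit 76) (XT.lf (nat_lit 76)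 (nat_lit 1142819738) (nat_lit 0) (nat_lit 1777868451) (nat_lit 1748) (nat_lit 7696116920) (nat_lit 546) (nat_lit 5) (nat_lit 545) (nat_lit 3) (nat_lit 568) (nat_lit 5) (nat_lit 427) (nat_lit 426) (nat_lit 287)) (XT.lf (nat_lit 0) (nat_lit 3629281775) (nat_lit 1672) (nat_lit 4157073189) (nat_lit 1748) (nat_lit 2924087414) (nat_lit 546) (nat_lit 5) (nat_lit 568) (nat_lit 5) (nat_lit 569) (nat_lit 5) (nat_lit 428) (nat_lit 426) (nat_lit 286))))))) (XT.nd (nat_lit 780) (nat_lit 0) (nat_lit 76) (XT.nd (nat_lit 390) (nat_lit 1444) (nat_lit 0) (XT.nd (nat_lit 156) (nat_lit 0) (nat_lit 76) (XT.nd (nat_lit 78) (nat_lit 0) (nat_lit 76) (XT.lf (nat_lit 76) (nat_lit 1262137665) (nat_lit 0) (nat_lit 3093544025) (nat_lit 1748) (nat_lit 6450198014) (nat_lit 547) (nat_lit 5) (nat_lit 546) (nat_lit 5) (nat_lit 569) (nat_lit 5) (nat_lit 429) (nat_lit 426) (nat_lit 285)) (XT.lf (nat_lit 0) (nat_lit 5119660094) (nat_lit 1672) (nat_lit 4076892145) (nat_lit 1748) (nat_lit 1706212528)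 (nat_lit 547) (nat_lit 5) (nat_lit 569) (nat_lit 5) (nat_lit 570) (nat_lit 5) (nat_lit 430) (nat_lit 426) (nat_lit 284))) (XT.nd (nat_lit 78) (nat_lit 0) (nat_lit 76) (XT.lf (nat_lit 76) (nat_lit 1489390712) (nat_lit 0) (nat_lit 4423975412) (nat_lit 1748) (nat_lit 5087932445) (nat_lit 548) (nat_lit 5) (nat_lit 547) (nat_lit 5) (nat_lit 570) (nat_lit 5) (nat_lit 431) (nat_lit 426) (nat_lit 283)) (XT.nd (nat_lit 78) (nat_lit 0) (nat_lit 0) (XT.lf (nat_lit 0) (nat_lit 6737952461) (nat_lit 1672) (nat_lit 3891301124) (nat_lit 1748) (nat_lit 472249338) (nat_lit 548) (nat_lit 5) (nat_lit 570) (nat_lit 5) (nat_lit 571) (nat_lit 5) (nat_lit 432) (nat_lit 426) (nat_lit 282)) (XT.lf (nat_lit 76) (nat_lit 1827323268) (nat_lit 0) (nat_lit 5777755408) (nat_lit 1748) (nat_lit 3598111725) (nat_lit 549) (nat_lit 5) (nat_lit 548) (nat_lit 5) (nat_lit 571) (nat_lit 5) (nat_lit 433) (nat_lit 426) (nat_lit 281))))) (XT.nd (nat_lit 156) (nat_lit 1596) (nat_lit 0) (XT.nd (nat_lit 78)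 (nat_lit 0) (nat_lit 76) (XT.lf (nat_lit 76) (nat_lit 7704065082) (nat_lit 0) (nat_lit 796719020) (nat_lit 1748) (nat_lit 2805902795) (nat_lit 549) (nat_lit 5) (nat_lit 548) (nat_lit 5) (nat_lit 571) (nat_lit 5) (nat_lit 434) (nat_lit 426) (nat_lit 280)) (XT.lf (nat_lit 76) (nat_lit 2279008623) (nat_lit 0) (nat_lit 7163459093) (nat_lit 1748) (nat_lit 1969224323) (nat_lit 550) (nat_lit 5) (nat_lit 549) (nat_lit 5) (nat_lit 572) (nat_lit 5) (nat_lit 435) (nat_lit 426) (nat_lit 279))) (XT.nd (nat_lit 78) (nat_lit 1672) (nat_lit 0) (XT.lf (nat_lit 76) (nat_lit 8312664759) (nat_lit 0) (nat_lit 2105416567) (nat_lit 1748) (nat_lit 1100414034) (nat_lit 550) (nat_lit 5) (nat_lit 549) (nat_lit 5) (nat_lit 572) (nat_lit 5) (nat_lit 436) (nat_lit 426) (nat_lit 278)) (XT.nd (nat_lit 78) (nat_lit 1748) (nat_lit 0) (XT.lf (nat_lit 76) (nat_lit 2847851421) (nat_lit 0) (nat_lit 8589666459) (nat_lit 1748) (nat_lit 189430651) (nat_lit 551) (nat_lit 5) (nat_lit 550) (nat_lit 5)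 (nat_lit 573) (nat_lit 5) (nat_lit 437) (nat_lit 426) (nat_lit 277)) (XT.lf (nat_lit 0) (nat_lit 751785677) (nat_lit 1748) (nat_lit 2699320761) (nat_lit 1824) (nat_lit 8285933957) (nat_lit 527) (nat_lit 5) (nat_lit 550) (nat_lit 5) (nat_lit 551) (nat_lit 5) (nat_lit 438) (nat_lit 426) (nat_lit 276)))))) (XT.nd (nat_lit 390) (nat_lit 0) (nat_lit 152) (XT.nd (nat_lit 156) (nat_lit 0) (nat_lit 76) (XT.nd (nat_lit 78) (nat_lit 0) (nat_lit 0) (XT.lf (nat_lit 0) (nat_lit 1730465341) (nat_lit 1748) (nat_lit 8322906979) (nat_lit 1824) (nat_lit 1795513223) (nat_lit 528) (nat_lit 5) (nat_lit 551) (nat_lit 5) (nat_lit 552) (nat_lit 5) (nat_lit 439) (nat_lit 426) (nat_lit 275)) (XT.lf (nat_lit 0) (nat_lit 2756432326) (nat_lit 1748) (nat_lit 2082613069) (nat_lit 1824) (nat_lit 7123367924) (nat_lit 528) (nat_lit 5) (nat_lit 551) (nat_lit 5) (nat_lit 552) (nat_lit 5) (nat_lit 440) (nat_lit 426) (nat_lit 274))) (XT.nd (nat_lit 78) (nat_lit 0) (nat_lit 0) (XT.lf (nat_lit 0) (nat_lit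 3821244505) (nat_lit 1748) (nat_lit 7751182817) (nat_lit 1824) (nat_lit 505417812) (nat_lit 529) (nat_lit 5) (nat_lit 552) (nat_lit 5) (nat_lit 553) (nat_lit 5) (nat_lit 441) (nat_lit 426) (nat_lit 273)) (XT.nd (nat_lit 78) (nat_lit 0) (nat_lit 0) (XT.lf (nat_lit 0) (nat_lit 4940576725) (nat_lit 1748) (nat_lit 1344535929) (nat_lit 1824) (nat_lit 5909808456) (nat_lit 529) (nat_lit 5) (nat_lit 552) (nat_lit 5) (nat_lit 553) (nat_lit 5) (nat_lit 442) (nat_lit 426) (nat_lit 272)) (XT.lf (nat_lit 76) (nat_lit 5249837418) (nat_lit 0) (nat_lit 853905517) (nat_lit 1824) (nat_lit 6210166723) (nat_lit 530) (nat_lit 5) (nat_lit 529) (nat_lit 5) (nat_lit 553) (nat_lit 5) (nat_lit 443) (nat_lit 426) (nat_lit 271))))) (XT.nd (nat_lit 156) (nat_lit 0) (nat_lit 76) (XT.nd (nat_lit 78) (nat_lit 0) (nat_lit 0) (XT.lf (nat_lit 0) (nat_lit 7317250021) (nat_lit 1748) (nat_lit 480725883) (nat_lit 1824) (nat_lit 4636760521) (nat_lit 530) (nat_lit 5) (nat_lit 553) (nat_lit 5) (nat_lit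 554) (nat_lit 5) (nat_lit 444) (nat_lit 426) (nat_lit 270)) (XT.lf (nat_lit 76) (nat_lit 6302001694) (nat_lit 0) (nat_lit 2287412152) (nat_lit 1824) (nat_lit 3967878151) (nat_lit 531) (nat_lit 5) (nat_lit 530) (nat_lit 5) (nat_lit 554) (nat_lit 5) (nat_lit 445) (nat_lit 426) (nat_lit 269))) (XT.nd (nat_lit 78) (nat_lit 0) (nat_lit 0) (XT.lf (nat_lit 76) (nat_lit 520346986) (nat_lit 0) (nat_lit 9382954044) (nat_lit 1824) (nat_lit 2778672048) (nat_lit 532) (nat_lit 5) (nat_lit 531) (nat_lit 5) (nat_lit 555) (nat_lit 5) (nat_lit 446) (nat_lit 426) (nat_lit 268)) (XT.nd (nat_lit 78) (nat_lit 0) (nat_lit 76) (XT.lf (nat_lit 76) (nat_lit 7491522036) (nat_lit 0) (nat_lit 3797154845) (nat_lit 1824) (nat_lit 1519566681) (nat_lit 532) (nat_lit 5) (nat_lit 531) (nat_lit 5) (nat_lit 555) (nat_lit 5) (nat_lit 447) (nat_lit 426) (nat_lit 267)) (XT.lf (nat_lit 76) (nat_lit 1665101226) (nat_lit 0) (nat_lit 11048241139) (nat_lit 1824) (nat_lit 223465448) (nat_lit 533) (nat_lit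 5) (nat_lit 532) (nat_lit 5) (nat_lit 556) (nat_lit 5) (nat_lit 448) (nat_lit 426) (nat_lit 266))))))))
noncomputable def xc124 : XT := (XT.nd (nat_lit 59046) (nat_lit 0) (nat_lit 1368) (XT.nd (nat_lit 58266) (nat_lit 0) (nat_lit 1444) (XT.nd (nat_lit 57876) (nat_lit 0) (nat_lit 2888) (XT.nd (nat_lit 57720) (nat_lit 0) (nat_lit 2812) (XT.nd (nat_lit 57642) (nat_lit 0) (nat_lit 2812) (XT.lf (nat_lit 0) (nat_lit 1133733957) (nat_lit 1824) (nat_lit 4250685124) (nat_lit 1900) (nat_lit 7682389939) (nat_lit 508) (nat_lit 5) (nat_lit 532) (nat_lit 5) (nat_lit 533) (nat_lit 5) (nat_lit 449) (nat_lit 426) (nat_lit 265)) (XT.lf (nat_lit 0) (nat_lit 1781313636) (nat_lit 1748) (nat_lit 1786758573) (nat_lit 1748) (nat_lit 1786758573) (nat_lit 545) (nat_lit 3) (nat_lit 568) (nat_lit 3) (nat_lit 568) (nat_lit 5) (nat_lit 427) (nat_lit 427) (nat_lit 286))) (XT.nd (nat_lit 78) (nat_lit 0) (nat_lit 76) (XT.lf (nat_lit 76) (nat_lit 1804986357) (nat_lit 0) (nat_lit 2415375354) (nat_lit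 1748) (nat_lit 6583954305) (nat_lit 546) (nat_lit 5) (nat_lit 545) (nat_lit 3) (nat_lit 568) (nat_lit 5) (nat_lit 428) (nat_lit 427) (nat_lit 285)) (XT.lf (nat_lit 0) (nat_lit 4914957119) (nat_lit 1672) (nat_lit 3585269874) (nat_lit 1748) (nat_lit 2400162439) (nat_lit 546) (nat_lit 5) (nat_lit 568) (nat_lit 5) (nat_lit 569) (nat_lit 5) (nat_lit 429) (nat_lit 427) (nat_lit 284)))) (XT.nd (nat_lit 156) (nat_lit 0) (nat_lit 76) (XT.nd (nat_lit 78) (nat_lit 0) (nat_lit 76) (XT.lf (nat_lit 76) (nat_lit 1938016350) (nat_lit 0) (nat_lit 3698306970) (nat_lit 1748) (nat_lit 5361803418) (nat_lit 547) (nat_lit 5) (nat_lit 546) (nat_lit 5) (nat_lit 569) (nat_lit 5) (nat_lit 430) (nat_lit 427) (nat_lit 283)) (XT.lf (nat_lit 0) (nat_lit 6388723080) (nat_lit 1672) (nat_lit 3493693412) (nat_lit 1748) (nat_lit 1215070174) (nat_lit 547) (nat_lit 5) (nat_lit 569) (nat_lit 5) (nat_lit 570) (nat_lit 5) (nat_lit 431) (nat_lit 427) (nat_lit 282))) (XT.nd (nat_lit 78) (nat_lit 0) (nat_lit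 76) (XT.lf (nat_lit 76) (nat_lit 2179541835) (nat_lit 0) (nat_lit 5000173034) (nat_lit 1748) (nat_lit 4018648042) (nat_lit 548) (nat_lit 5) (nat_lit 547) (nat_lit 5) (nat_lit 570) (nat_lit 5) (nat_lit 432) (nat_lit 427) (nat_lit 281)) (XT.nd (nat_lit 78) (nat_lit 0) (nat_lit 0) (XT.lf (nat_lit 0) (nat_lit 7995177034) (nat_lit 1672) (nat_lit 3296096238) (nat_lit 1748) (nat_lit 9810400) (nat_lit 548) (nat_lit 5) (nat_lit 570) (nat_lit 5) (nat_lit 571) (nat_lit 5) (nat_lit 433) (nat_lit 427) (nat_lit 280)) (XT.lf (nat_lit 76) (nat_lit 2532472807) (nat_lit 0) (nat_lit 6329504853) (nat_lit 1748) (nat_lit 2543180602) (nat_lit 549) (nat_lit 5) (nat_lit 548) (nat_lit 5) (nat_lit 571) (nat_lit 5) (nat_lit 434) (nat_lit 427) (nat_lit 279)))))) (XT.nd (nat_lit 390) (nat_lit 0) (nat_lit 76) (XT.nd (nat_lit 156) (nat_lit 1596) (nat_lit 0) (XT.nd (nat_lit 78) (nat_lit 0) (nat_lit 76) (XT.lf (nat_lit 76) (nat_lit 8513639593) (nat_lit 0) (nat_lit 1240294906) (nat_lit 1748) (nat_lit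 1757223441) (nat_lit 549) (nat_lit 5) (nat_lit 548) (nat_lit 5) (nat_lit 571) (nat_lit 5) (nat_lit 435) (nat_lit 427) (nat_lit 278)) (XT.lf (nat_lit 76) (nat_lit 3000047992) (nat_lit 0) (nat_lit 7694829297) (nat_lit 1748) (nat_lit 923777387) (nat_lit 550) (nat_lit 5) (nat_lit 549) (nat_lit 5) (nat_lit 572) (nat_lit 5) (nat_lit 436) (nat_lit 427) (nat_lit 277))) (XT.nd (nat_lit 78) (nat_lit 1672) (nat_lit 0) (XT.lf (nat_lit 76) (nat_lit 9141132952) (nat_lit 0) (nat_lit 2528016096) (nat_lit 1748) (nat_lit 58862096) (nat_lit 550) (nat_lit 5) (nat_lit 549) (nat_lit 5) (nat_lit 572) (nat_lit 5) (nat_lit 437) (nat_lit 427) (nat_lit 276)) (XT.nd (nat_lit 78) (nat_lit 0) (nat_lit 0) (XT.lf (nat_lit 0) (nat_lit 840358634) (nat_lit 1748) (nat_lit 8258693223) (nat_lit 1824) (nat_lit 2739839860) (nat_lit 527) (nat_lit 5) (nat_lit 550) (nat_lit 5) (nat_lit 551) (nat_lit 5) (nat_lit 438) (nat_lit 427) (nat_lit 275)) (XT.lf (nat_lit 0) (nat_lit 1777648639) (nat_lit 1748) (nat_lit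 2072198036) (nat_lit 1824) (nat_lit 8101717983) (nat_lit 527) (nat_lit 5) (nat_lit 550) (nat_lit 5) (nat_lit 551) (nat_lit 5) (nat_lit 439) (nat_lit 427) (nat_lit 274))))) (XT.nd (nat_lit 156) (nat_lit 0) (nat_lit 76) (XT.nd (nat_lit 78) (nat_lit 0) (nat_lit 0) (XT.lf (nat_lit 0) (nat_lit 2758405193) (nat_lit 1748) (nat_lit 7790759275) (nat_lit 1824) (nat_lit 1516832174) (nat_lit 528) (nat_lit 5) (nat_lit 551) (nat_lit 5) (nat_lit 552) (nat_lit 5) (nat_lit 440) (nat_lit 427) (nat_lit 273)) (XT.lf (nat_lit 0) (nat_lit 3785414449) (nat_lit 1748) (nat_lit 1439357640) (nat_lit 1824) (nat_lit 6957412426) (nat_lit 528) (nat_lit 5) (nat_lit 551) (nat_lit 5) (nat_lit 552) (nat_lit 5) (nat_lit 441) (nat_lit 427) (nat_lit 272))) (XT.nd (nat_lit 78) (nat_lit 0) (nat_lit 0) (XT.lf (nat_lit 0) (nat_lit 4855035338) (nat_lit 1748) (nat_lit 7204811250) (nat_lit 1824) (nat_lit 240408130) (nat_lit 529) (nat_lit 5) (nat_lit 552) (nat_lit 5) (nat_lit 553) (nat_lit 5) (nat_lit 442)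 (nat_lit 427) (nat_lit 271)) (XT.nd (nat_lit 78) (nat_lit 0) (nat_lit 0) (XT.lf (nat_lit 0) (nat_lit 5977982321) (nat_lit 1748) (nat_lit 683784271) (nat_lit 1824) (nat_lit 5758281058) (nat_lit 529) (nat_lit 5) (nat_lit 552) (nat_lit 5) (nat_lit 553) (nat_lit 5) (nat_lit 443) (nat_lit 427) (nat_lit 270)) (XT.lf (nat_lit 76) (nat_lit 6037952580) (nat_lit 0) (nat_lit 1112490728) (nat_lit 1824) (nat_lit 5391252033) (nat_lit 530) (nat_lit 5) (nat_lit 529) (nat_lit 5) (nat_lit 553) (nat_lit 5) (nat_lit 444) (nat_lit 427) (nat_lit 269))))))) (XT.nd (nat_lit 58422) (nat_lit 304) (nat_lit 0) (XT.nd (nat_lit 58032) (nat_lit 0) (nat_lit 1140) (XT.nd (nat_lit 156) (nat_lit 0) (nat_lit 76) (XT.nd (nat_lit 78) (nat_lit 0) (nat_lit 0) (XT.lf (nat_lit 76) (nat_lit 201696002) (nat_lit 0) (nat_lit 8168166885) (nat_lit 1824) (nat_lit 4295442909) (nat_lit 531) (nat_lit 5) (nat_lit 530) (nat_lit 5) (nat_lit 554) (nat_lit 5) (nat_lit 445) (nat_lit 427) (nat_lit 268)) (XT.lf (nat_lit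 76) (nat_lit 7112897385) (nat_lit 0) (nat_lit 2539965317) (nat_lit 1824) (nat_lit 3137741923) (nat_lit 531) (nat_lit 5) (nat_lit 530) (nat_lit 5) (nat_lit 554) (nat_lit 5) (nat_lit 446) (nat_lit 427) (nat_lit 267))) (XT.nd (nat_lit 78) (nat_lit 0) (nat_lit 0) (XT.lf (nat_lit 76) (nat_lit 1230153722) (nat_lit 0) (nat_lit 9748614947) (nat_lit 1824) (nat_lit 1939295837) (nat_lit 532) (nat_lit 5) (nat_lit 531) (nat_lit 5) (nat_lit 555) (nat_lit 5) (nat_lit 447) (nat_lit 427) (nat_lit 266)) (XT.lf (nat_lit 76) (nat_lit 8327038552) (nat_lit 0) (nat_lit 4047609533) (nat_lit 1824) (nat_lit 672556396) (nat_lit 532) (nat_lit 5) (nat_lit 531) (nat_lit 5) (nat_lit 555) (nat_lit 5) (nat_lit 448) (nat_lit 427) (nat_lit 265)))) (XT.nd (nat_lit 156) (nat_lit 0) (nat_lit 76) (XT.nd (nat_lit 78) (nat_lit 0) (nat_lit 0) (XT.lf (nat_lit 0) (nat_lit 2423365856) (nat_lit 1748) (nat_lit 1513216511) (nat_lit 1748) (nat_lit 1513216511) (nat_lit 545) (nat_lit 3) (nat_lit 568) (nat_lit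 3) (nat_lit 568) (nat_lit 5) (nat_lit 428) (nat_lit 428) (nat_lit 284)) (XT.lf (nat_lit 76) (nat_lit 2455571112) (nat_lit 0) (nat_lit 3042257961) (nat_lit 1748) (nat_lit 5498712060) (nat_lit 546) (nat_lit 5) (nat_lit 545) (nat_lit 3) (nat_lit 568) (nat_lit 5) (nat_lit 429) (nat_lit 428) (nat_lit 283))) (XT.nd (nat_lit 78) (nat_lit 0) (nat_lit 0) (XT.lf (nat_lit 0) (nat_lit 6179240218) (nat_lit 1672) (nat_lit 3027462796) (nat_lit 1748) (nat_lit 1888374528) (nat_lit 546) (nat_lit 5) (nat_lit 568) (nat_lit 5) (nat_lit 569) (nat_lit 5) (nat_lit 430) (nat_lit 428) (nat_lit 282)) (XT.nd (nat_lit 78) (nat_lit 0) (nat_lit 76) (XT.lf (nat_lit 76) (nat_lit 2602147623) (nat_lit 0) (nat_lit 4294084012) (nat_lit 1748) (nat_lit 4298914000) (nat_lit 547) (nat_lit 5) (nat_lit 546) (nat_lit 5) (nat_lit 569) (nat_lit 5) (nat_lit 431) (nat_lit 428) (nat_lit 281)) (XT.lf (nat_lit 0) (nat_lit 7637864117) (nat_lit 1672) (nat_lit 2924643236) (nat_lit 1748) (nat_lit 734501715) (nat_lit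 547) (nat_lit 5) (nat_lit 569) (nat_lit 5) (nat_lit 570) (nat_lit 5) (nat_lit 432) (nat_lit 428) (nat_lit 280)))))) (XT.nd (nat_lit 390) (nat_lit 0) (nat_lit 0) (XT.nd (nat_lit 156) (nat_lit 1596) (nat_lit 0) (XT.nd (nat_lit 78) (nat_lit 0) (nat_lit 0) (XT.lf (nat_lit 76) (nat_lit 2857853268) (nat_lit 0) (nat_lit 5568955921) (nat_lit 1748) (nat_lit 2973450981) (nat_lit 548) (nat_lit 5) (nat_lit 547) (nat_lit 5) (nat_lit 570) (nat_lit 5) (nat_lit 433) (nat_lit 428) (nat_lit 279)) (XT.lf (nat_lit 76) (nat_lit 8787429427) (nat_lit 0) (nat_lit 449448081) (nat_lit 1748) (nat_lit 2268591898) (nat_lit 548) (nat_lit 5) (nat_lit 547) (nat_lit 5) (nat_lit 570) (nat_lit 5) (nat_lit 434) (nat_lit 428) (nat_lit 278))) (XT.nd (nat_lit 78) (nat_lit 1672) (nat_lit 0) (XT.lf (nat_lit 76) (nat_lit 3225762665) (nat_lit 0) (nat_lit 6875351328) (nat_lit 1748) (nat_lit 1510909498) (nat_lit 549) (nat_lit 5) (nat_lit 548) (nat_lit 5) (nat_lit 571) (nat_lit 5) (nat_lit 435) (nat_lit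 428) (nat_lit 277)) (XT.nd (nat_lit 78) (nat_lit 1672) (nat_lit 0) (XT.lf (nat_lit 76) (nat_lit 9313951994) (nat_lit 0) (nat_lit 1676136469) (nat_lit 1748) (nat_lit 730471130) (nat_lit 549) (nat_lit 5) (nat_lit 548) (nat_lit 5) (nat_lit 571) (nat_lit 5) (nat_lit 436) (nat_lit 428) (nat_lit 276)) (XT.lf (nat_lit 0) (nat_lit 99135700) (nat_lit 1748) (nat_lit 8121955517) (nat_lit 1824) (nat_lit 3609478291) (nat_lit 526) (nat_lit 5) (nat_lit 549) (nat_lit 5) (nat_lit 550) (nat_lit 5) (nat_lit 437) (nat_lit 428) (nat_lit 275))))) (XT.nd (nat_lit 156) (nat_lit 0) (nat_lit 76) (XT.nd (nat_lit 78) (nat_lit 0) (nat_lit 76) (XT.lf (nat_lit 0) (nat_lit 949601832) (nat_lit 1748) (nat_lit 1988318519) (nat_lit 1824) (nat_lit 9004481738) (nat_lit 526) (nat_lit 5) (nat_lit 549) (nat_lit 5) (nat_lit 550) (nat_lit 5) (nat_lit 438) (nat_lit 428) (nat_lit 274)) (XT.lf (nat_lit 0) (nat_lit 1848172913) (nat_lit 1748) (nat_lit 7756113028) (nat_lit 1824) (nat_lit 2451563467) (nat_lit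 527) (nat_lit 5) (nat_lit 550) (nat_lit 5) (nat_lit 551) (nat_lit 5) (nat_lit 439) (nat_lit 428) (nat_lit 273))) (XT.nd (nat_lit 78) (nat_lit 0) (nat_lit 76) (XT.lf (nat_lit 0) (nat_lit 2784777207) (nat_lit 1748) (nat_lit 1458981154) (nat_lit 1824) (nat_lit 7927406078) (nat_lit 527) (nat_lit 5) (nat_lit 550) (nat_lit 5) (nat_lit 551) (nat_lit 5) (nat_lit 440) (nat_lit 428) (nat_lit 272)) (XT.nd (nat_lit 78) (nat_lit 0) (nat_lit 0) (XT.lf (nat_lit 0) (nat_lit 3768331607) (nat_lit 1748) (nat_lit 7275096334) (nat_lit 1824) (nat_lit 1244793468) (nat_lit 528) (nat_lit 5) (nat_lit 551) (nat_lit 5) (nat_lit 552) (nat_lit 5) (nat_lit 441) (nat_lit 428) (nat_lit 271)) (XT.lf (nat_lit 0) (nat_lit 4797160297) (nat_lit 1748) (nat_lit 809832904) (nat_lit 1824) (nat_lit 6800114254) (nat_lit 528) (nat_lit 5) (nat_lit 551) (nat_lit 5) (nat_lit 552) (nat_lit 5) (nat_lit 442) (nat_lit 428) (nat_lit 270))))))))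
noncomputable def xc125 : XT := (XT.nd (nat_lit 59280) (nat_lit 0) (nat_lit 0) (XT.nd (nat_lit 58500) (nat_lit 228) (nat_lit 0) (XT.nd (nat_lit 312) (nat_lit 0) (nat_lit 152) (XT.nd (nat_lit 156) (nat_lit 0) (nat_lit 76) (XT.nd (nat_lit 78) (nat_lit 0) (nat_lit 76) (XT.lf (nat_lit 76) (nat_lit 5852978759) (nat_lit 0) (nat_lit 19473980) (nat_lit 1824) (nat_lit 6655400741) (nat_lit 529) (nat_lit 5) (nat_lit 528) (nat_lit 5) (nat_lit 552) (nat_lit 5) (nat_lit 443) (nat_lit 428) (nat_lit 269)) (XT.lf (nat_lit 0) (nat_lit 6999689277) (nat_lit 1748) (nat_lit 36519572) (nat_lit 1824) (nat_lit 5614196808) (nat_lit 529) (nat_lit 5) (nat_lit 552) (nat_lit 5) (nat_lit 553) (nat_lit 5) (nat_lit 444) (nat_lit 428) (nat_lit 268))) (XT.nd (nat_lit 78) (nat_lit 0) (nat_lit 76) (XT.lf (nat_lit 76) (nat_lit 6815303724) (nat_lit 0) (nat_lit 1366869628) (nat_lit 1824) (nat_lit 4592581472) (nat_lit 530) (nat_lit 5) (nat_lit 529) (nat_lit 5) (nat_lit 553) (nat_lit 5) (nat_lit 445)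 (nat_lit 428) (nat_lit 267)) (XT.lf (nat_lit 76) (nat_lit 877157037) (nat_lit 0) (nat_lit 8534280147) (nat_lit 1824) (nat_lit 3489691188) (nat_lit 531) (nat_lit 5) (nat_lit 530) (nat_lit 5) (nat_lit 554) (nat_lit 5) (nat_lit 446) (nat_lit 428) (nat_lit 266)))) (XT.nd (nat_lit 57954) (nat_lit 0) (nat_lit 1140) (XT.nd (nat_lit 78) (nat_lit 0) (nat_lit 76) (XT.lf (nat_lit 76) (nat_lit 7913417210) (nat_lit 0) (nat_lit 2789539059) (nat_lit 1824) (nat_lit 2326319722) (nat_lit 531) (nat_lit 5) (nat_lit 530) (nat_lit 5) (nat_lit 554) (nat_lit 5) (nat_lit 447) (nat_lit 428) (nat_lit 265)) (XT.lf (nat_lit 76) (nat_lit 1926998047) (nat_lit 0) (nat_lit 10114677041) (nat_lit 1824) (nat_lit 1117884088) (nat_lit 532) (nat_lit 5) (nat_lit 531) (nat_lit 5) (nat_lit 555) (nat_lit 5) (nat_lit 448) (nat_lit 428) (nat_lit 264))) (XT.nd (nat_lit 78) (nat_lit 0) (nat_lit 0) (XT.lf (nat_lit 0) (nat_lit 3054710861) (nat_lit 1748) (nat_lit 1246213220) (nat_lit 1748) (nat_lit 1246213220)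 (nat_lit 545) (nat_lit 3) (nat_lit 568) (nat_lit 3) (nat_lit 568) (nat_lit 5) (nat_lit 429) (nat_lit 429) (nat_lit 282)) (XT.nd (nat_lit 78) (nat_lit 0) (nat_lit 76) (XT.lf (nat_lit 76) (nat_lit 3095306361) (nat_lit 0) (nat_lit 3659211444) (nat_lit 1748) (nat_lit 4439019508) (nat_lit 546) (nat_lit 5) (nat_lit 545) (nat_lit 3) (nat_lit 568) (nat_lit 5) (nat_lit 430) (nat_lit 429) (nat_lit 281)) (XT.lf (nat_lit 0) (nat_lit 7423532400) (nat_lit 1672) (nat_lit 2482944313) (nat_lit 1748) (nat_lit 1388088231) (nat_lit 546) (nat_lit 5) (nat_lit 568) (nat_lit 5) (nat_lit 569) (nat_lit 5) (nat_lit 431) (nat_lit 429) (nat_lit 280)))))) (XT.nd (nat_lit 390) (nat_lit 1596) (nat_lit 0) (XT.nd (nat_lit 156) (nat_lit 0) (nat_lit 76) (XT.nd (nat_lit 78) (nat_lit 0) (nat_lit 76) (XT.lf (nat_lit 76) (nat_lit 3255277605) (nat_lit 0) (nat_lit 4881514043) (nat_lit 1748) (nat_lit 3260204193) (nat_lit 547) (nat_lit 5) (nat_lit 546) (nat_lit 5) (nat_lit 569) (nat_lit 5) (nat_lit 432)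 (nat_lit 429) (nat_lit 279)) (XT.lf (nat_lit 0) (nat_lit 8868443944) (nat_lit 1672) (nat_lit 2369022255) (nat_lit 1748) (nat_lit 263926599) (nat_lit 547) (nat_lit 5) (nat_lit 569) (nat_lit 5) (nat_lit 570) (nat_lit 5) (nat_lit 433) (nat_lit 429) (nat_lit 278))) (XT.nd (nat_lit 78) (nat_lit 0) (nat_lit 0) (XT.lf (nat_lit 76) (nat_lit 3525083956) (nat_lit 0) (nat_lit 6130911188) (nat_lit 1748) (nat_lit 1951057233) (nat_lit 548) (nat_lit 5) (nat_lit 547) (nat_lit 5) (nat_lit 570) (nat_lit 5) (nat_lit 434) (nat_lit 429) (nat_lit 277)) (XT.nd (nat_lit 78) (nat_lit 0) (nat_lit 76) (XT.lf (nat_lit 76) (nat_lit 9561289410) (nat_lit 0) (nat_lit 900178365) (nat_lit 1748) (nat_lit 1253313965) (nat_lit 548) (nat_lit 5) (nat_lit 547) (nat_lit 5) (nat_lit 570) (nat_lit 5) (nat_lit 435) (nat_lit 429) (nat_lit 276)) (XT.lf (nat_lit 76) (nat_lit 3907963810) (nat_lit 0) (nat_lit 7415834497) (nat_lit 1748) (nat_lit 500052414) (nat_lit 549) (nat_lit 5) (nat_lit 548) (nat_lit 5)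 (nat_lit 571) (nat_lit 5) (nat_lit 436) (nat_lit 429) (nat_lit 275))))) (XT.nd (nat_lit 156) (nat_lit 0) (nat_lit 76) (XT.nd (nat_lit 78) (nat_lit 0) (nat_lit 76) (XT.lf (nat_lit 0) (nat_lit 271967180) (nat_lit 1748) (nat_lit 1830941625) (nat_lit 1824) (nat_lit 9832013214) (nat_lit 525) (nat_lit 5) (nat_lit 548) (nat_lit 5) (nat_lit 549) (nat_lit 5) (nat_lit 437) (nat_lit 429) (nat_lit 274)) (XT.lf (nat_lit 0) (nat_lit 1090190712) (nat_lit 1748) (nat_lit 7647230488) (nat_lit 1824) (nat_lit 3309978252) (nat_lit 526) (nat_lit 5) (nat_lit 549) (nat_lit 5) (nat_lit 550) (nat_lit 5) (nat_lit 438) (nat_lit 429) (nat_lit 273))) (XT.nd (nat_lit 78) (nat_lit 0) (nat_lit 76) (XT.lf (nat_lit 0) (nat_lit 1938272592) (nat_lit 1748) (nat_lit 1403414165) (nat_lit 1824) (nat_lit 8820169799) (nat_lit 526) (nat_lit 5) (nat_lit 549) (nat_lit 5) (nat_lit 550) (nat_lit 5) (nat_lit 439) (nat_lit 429) (nat_lit 272)) (XT.nd (nat_lit 78) (nat_lit 0) (nat_lit 0) (XT.lf (nat_lit 0) (nat_lit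 2837661465) (nat_lit 1748) (nat_lit 7269410933) (nat_lit 1824) (nat_lit 2170843497) (nat_lit 527) (nat_lit 5) (nat_lit 550) (nat_lit 5) (nat_lit 551) (nat_lit 5) (nat_lit 440) (nat_lit 429) (nat_lit 271)) (XT.lf (nat_lit 0) (nat_lit 3774320882) (nat_lit 1748) (nat_lit 858921213) (nat_lit 1824) (nat_lit 7762668670) (nat_lit 527) (nat_lit 5) (nat_lit 550) (nat_lit 5) (nat_lit 551) (nat_lit 5) (nat_lit 441) (nat_lit 429) (nat_lit 270))))))) (XT.nd (nat_lit 58656) (nat_lit 228) (nat_lit 0) (XT.nd (nat_lit 312) (nat_lit 0) (nat_lit 76) (XT.nd (nat_lit 156) (nat_lit 0) (nat_lit 0) (XT.nd (nat_lit 78) (nat_lit 0) (nat_lit 0) (XT.lf (nat_lit 0) (nat_lit 4761382121) (nat_lit 1748) (nat_lit 6775194447) (nat_lit 1824) (nat_lit 979055592) (nat_lit 528) (nat_lit 5) (nat_lit 551) (nat_lit 5) (nat_lit 552) (nat_lit 5) (nat_lit 442) (nat_lit 429) (nat_lit 269)) (XT.lf (nat_lit 0) (nat_lit 5792793583) (nat_lit 1748) (nat_lit 193280726) (nat_lit 1824) (nat_lit 6651181494) (nat_lit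 528) (nat_lit 5) (nat_lit 551) (nat_lit 5) (nat_lit 552) (nat_lit 5) (nat_lit 443) (nat_lit 429) (nat_lit 268))) (XT.nd (nat_lit 78) (nat_lit 0) (nat_lit 76) (XT.lf (nat_lit 76) (nat_lit 6598624349) (nat_lit 0) (nat_lit 277407739) (nat_lit 1824) (nat_lit 5884655854) (nat_lit 529) (nat_lit 5) (nat_lit 528) (nat_lit 5) (nat_lit 552) (nat_lit 5) (nat_lit 444) (nat_lit 429) (nat_lit 267)) (XT.lf (nat_lit 76) (nat_lit 605972741) (nat_lit 0) (nat_lit 7404760529) (nat_lit 1824) (nat_lit 4875259497) (nat_lit 530) (nat_lit 5) (nat_lit 529) (nat_lit 5) (nat_lit 553) (nat_lit 5) (nat_lit 445) (nat_lit 429) (nat_lit 266)))) (XT.nd (nat_lit 58110) (nat_lit 0) (nat_lit 1216) (XT.nd (nat_lit 78) (nat_lit 0) (nat_lit 76) (XT.lf (nat_lit 76) (nat_lit 7582705620) (nat_lit 0) (nat_lit 1617322251) (nat_lit 1824) (nat_lit 3813137829) (nat_lit 530) (nat_lit 5) (nat_lit 529) (nat_lit 5) (nat_lit 553) (nat_lit 5) (nat_lit 446) (nat_lit 429) (nat_lit 265)) (XT.lf (nat_lit 76) (nat_lit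 1540054960) (nat_lit 0) (nat_lit 8899842647) (nat_lit 1824) (nat_lit 2702448699) (nat_lit 531) (nat_lit 5) (nat_lit 530) (nat_lit 5) (nat_lit 554) (nat_lit 5) (nat_lit 447) (nat_lit 429) (nat_lit 264))) (XT.nd (nat_lit 78) (nat_lit 0) (nat_lit 0) (XT.lf (nat_lit 0) (nat_lit 3676048916) (nat_lit 1748) (nat_lit 985413127) (nat_lit 1748) (nat_lit 985413127) (nat_lit 545) (nat_lit 3) (nat_lit 568) (nat_lit 3) (nat_lit 568) (nat_lit 5) (nat_lit 430) (nat_lit 430) (nat_lit 280)) (XT.nd (nat_lit 78) (nat_lit 0) (nat_lit 76) (XT.lf (nat_lit 76) (nat_lit 3724901672) (nat_lit 0) (nat_lit 4266909633) (nat_lit 1748) (nat_lit 3403552692) (nat_lit 546) (nat_lit 5) (nat_lit 545) (nat_lit 3) (nat_lit 568) (nat_lit 5) (nat_lit 431) (nat_lit 430) (nat_lit 279)) (XT.lf (nat_lit 0) (nat_lit 8649191994) (nat_lit 1672) (nat_lit 1951030979) (nat_lit 1748) (nat_lit 898689492) (nat_lit 546) (nat_lit 5) (nat_lit 568) (nat_lit 5) (nat_lit 569) (nat_lit 5) (nat_lit 432) (nat_lit 430) (nat_lit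 278)))))) (XT.nd (nat_lit 390) (nat_lit 0) (nat_lit 0) (XT.nd (nat_lit 156) (nat_lit 1596) (nat_lit 0) (XT.nd (nat_lit 78) (nat_lit 0) (nat_lit 0) (XT.lf (nat_lit 76) (nat_lit 3898129245) (nat_lit 0) (nat_lit 5461216940) (nat_lit 1748) (nat_lit 2244393199) (nat_lit 547) (nat_lit 5) (nat_lit 546) (nat_lit 5) (nat_lit 569) (nat_lit 5) (nat_lit 433) (nat_lit 430) (nat_lit 277)) (XT.lf (nat_lit 76) (nat_lit 9883242195) (nat_lit 0) (nat_lit 199837485) (nat_lit 1748) (nat_lit 1627595636) (nat_lit 547) (nat_lit 5) (nat_lit 546) (nat_lit 5) (nat_lit 569) (nat_lit 5) (nat_lit 434) (nat_lit 430) (nat_lit 276))) (XT.nd (nat_lit 78) (nat_lit 1672) (nat_lit 0) (XT.lf (nat_lit 76) (nat_lit 4181969355) (nat_lit 0) (nat_lit 6686609140) (nat_lit 1748) (nat_lit 950225661) (nat_lit 548) (nat_lit 5) (nat_lit 547) (nat_lit 5) (nat_lit 570) (nat_lit 5) (nat_lit 435) (nat_lit 430) (nat_lit 275)) (XT.nd (nat_lit 78) (nat_lit 1672) (nat_lit 0) (XT.lf (nat_lit 76) (nat_lit 10327401199)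 (nat_lit 0) (nat_lit 1342769901) (nat_lit 1748) (nat_lit 258916796) (nat_lit 548) (nat_lit 5) (nat_lit 547) (nat_lit 5) (nat_lit 570) (nat_lit 5) (nat_lit 436) (nat_lit 430) (nat_lit 274)) (XT.lf (nat_lit 0) (nat_lit 484161341) (nat_lit 1748) (nat_lit 7464068957) (nat_lit 1824) (nat_lit 4092413163) (nat_lit 525) (nat_lit 5) (nat_lit 548) (nat_lit 5) (nat_lit 549) (nat_lit 5) (nat_lit 437) (nat_lit 430) (nat_lit 273))))) (XT.nd (nat_lit 156) (nat_lit 0) (nat_lit 76) (XT.nd (nat_lit 78) (nat_lit 0) (nat_lit 76) (XT.lf (nat_lit 0) (nat_lit 1245568641) (nat_lit 1748) (nat_lit 1272634881) (nat_lit 1824) (nat_lit 9636053695) (nat_lit 525) (nat_lit 5) (nat_lit 548) (nat_lit 5) (nat_lit 549) (nat_lit 5) (nat_lit 438) (nat_lit 430) (nat_lit 272)) (XT.lf (nat_lit 0) (nat_lit 2062659941) (nat_lit 1748) (nat_lit 7187752818) (nat_lit 1824) (nat_lit 3018921373) (nat_lit 526) (nat_lit 5) (nat_lit 549) (nat_lit 5) (nat_lit 550) (nat_lit 5) (nat_lit 439) (nat_lit 430) (nat_lit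 271))) (XT.nd (nat_lit 78) (nat_lit 0) (nat_lit 76) (XT.lf (nat_lit 0) (nat_lit 2909062961) (nat_lit 1748) (nat_lit 831068449) (nat_lit 1824) (nat_lit 8646321779) (nat_lit 526) (nat_lit 5) (nat_lit 549) (nat_lit 5) (nat_lit 550) (nat_lit 5) (nat_lit 440) (nat_lit 430) (nat_lit 270)) (XT.nd (nat_lit 78) (nat_lit 0) (nat_lit 0) (XT.lf (nat_lit 0) (nat_lit 3809952077) (nat_lit 1748) (nat_lit 6797897618) (nat_lit 1824) (nat_lit 1897313770) (nat_lit 527) (nat_lit 5) (nat_lit 550) (nat_lit 5) (nat_lit 551) (nat_lit 5) (nat_lit 441) (nat_lit 430) (nat_lit 269)) (XT.lf (nat_lit 0) (nat_lit 4747392969) (nat_lit 1748) (nat_lit 271294213) (nat_lit 1824) (nat_lit 7607190086) (nat_lit 527) (nat_lit 5) (nat_lit 550) (nat_lit 5) (nat_lit 551) (nat_lit 5) (nat_lit 442) (nat_lit 430) (nat_lit 268))))))))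
noncomputable def xc126 : XT := (XT.nd (nat_lit 59592) (nat_lit 152) (nat_lit 0) (XT.nd (nat_lit 58812) (nat_lit 304) (nat_lit 0) (XT.nd (nat_lit 58422) (nat_lit 0) (nat_lit 1292) (XT.nd (nat_lit 156) (nat_lit 0) (nat_lit 0) (XT.nd (nat_lit 78) (nat_lit 0) (nat_lit 0) (XT.lf (nat_lit 0) (nat_lit 5738658861) (nat_lit 1748) (nat_lit 6290356340) (nat_lit 1824) (nat_lit 719288620) (nat_lit 528) (nat_lit 5) (nat_lit 551) (nat_lit 5) (nat_lit 552) (nat_lit 5) (nat_lit 443) (nat_lit 430) (nat_lit 267)) (XT.lf (nat_lit 76) (nat_lit 416494487) (nat_lit 0) (nat_lit 6359613143) (nat_lit 1824) (nat_lit 6096544125) (nat_lit 529) (nat_lit 5) (nat_lit 528) (nat_lit 5) (nat_lit 552) (nat_lit 5) (nat_lit 444) (nat_lit 430) (nat_lit 266))) (XT.nd (nat_lit 78) (nat_lit 0) (nat_lit 76) (XT.lf (nat_lit 76) (nat_lit 7334774090) (nat_lit 0) (nat_lit 530499416) (nat_lit 1824) (nat_lit 5133593780) (nat_lit 529) (nat_lit 5) (nat_lit 528) (nat_lit 5) (nat_lit 552) (nat_lit 5) (nat_lit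 445) (nat_lit 430) (nat_lit 265)) (XT.lf (nat_lit 76) (nat_lit 1236813589) (nat_lit 0) (nat_lit 7771596161) (nat_lit 1824) (nat_lit 4118553635) (nat_lit 530) (nat_lit 5) (nat_lit 529) (nat_lit 5) (nat_lit 553) (nat_lit 5) (nat_lit 446) (nat_lit 430) (nat_lit 264)))) (XT.nd (nat_lit 156) (nat_lit 0) (nat_lit 76) (XT.nd (nat_lit 78) (nat_lit 0) (nat_lit 0) (XT.lf (nat_lit 0) (nat_lit 4288058781) (nat_lit 1748) (nat_lit 730492058) (nat_lit 1748) (nat_lit 730492058) (nat_lit 545) (nat_lit 3) (nat_lit 568) (nat_lit 3) (nat_lit 568) (nat_lit 5) (nat_lit 431) (nat_lit 431) (nat_lit 278)) (XT.lf (nat_lit 76) (nat_lit 4345044825) (nat_lit 0) (nat_lit 4866005957) (nat_lit 1748) (nat_lit 2391032429) (nat_lit 546) (nat_lit 5) (nat_lit 545) (nat_lit 3) (nat_lit 568) (nat_lit 5) (nat_lit 432) (nat_lit 431) (nat_lit 277))) (XT.nd (nat_lit 78) (nat_lit 0) (nat_lit 0) (XT.lf (nat_lit 0) (nat_lit 9857536219) (nat_lit 1672) (nat_lit 1431062536) (nat_lit 1748) (nat_lit 419584751)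 (nat_lit 546) (nat_lit 5) (nat_lit 568) (nat_lit 5) (nat_lit 569) (nat_lit 5) (nat_lit 433) (nat_lit 431) (nat_lit 276)) (XT.nd (nat_lit 78) (nat_lit 0) (nat_lit 0) (XT.lf (nat_lit 76) (nat_lit 4531403333) (nat_lit 0) (nat_lit 6033794427) (nat_lit 1748) (nat_lit 1250243118) (nat_lit 547) (nat_lit 5) (nat_lit 546) (nat_lit 5) (nat_lit 569) (nat_lit 5) (nat_lit 434) (nat_lit 431) (nat_lit 275)) (XT.lf (nat_lit 76) (nat_lit 10625330082) (nat_lit 0) (nat_lit 658102028) (nat_lit 1748) (nat_lit 641482897) (nat_lit 547) (nat_lit 5) (nat_lit 546) (nat_lit 5) (nat_lit 569) (nat_lit 5) (nat_lit 435) (nat_lit 431) (nat_lit 274)))))) (XT.nd (nat_lit 390) (nat_lit 0) (nat_lit 152) (XT.nd (nat_lit 156) (nat_lit 0) (nat_lit 76) (XT.nd (nat_lit 78) (nat_lit 0) (nat_lit 0) (XT.lf (nat_lit 0) (nat_lit 29847141) (nat_lit 1748) (nat_lit 7206556606) (nat_lit 1824) (nat_lit 4799175036) (nat_lit 524) (nat_lit 5) (nat_lit 547) (nat_lit 5) (nat_lit 548) (nat_lit 5) (nat_lit 436) (nat_lit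 431) (nat_lit 273)) (XT.lf (nat_lit 0) (nat_lit 706393707) (nat_lit 1748) (nat_lit 1066592019) (nat_lit 1824) (nat_lit 10375377718) (nat_lit 524) (nat_lit 5) (nat_lit 547) (nat_lit 5) (nat_lit 548) (nat_lit 5) (nat_lit 437) (nat_lit 431) (nat_lit 272))) (XT.nd (nat_lit 78) (nat_lit 0) (nat_lit 0) (XT.lf (nat_lit 0) (nat_lit 1443023115) (nat_lit 1748) (nat_lit 7030089967) (nat_lit 1824) (nat_lit 3789359677) (nat_lit 525) (nat_lit 5) (nat_lit 548) (nat_lit 5) (nat_lit 549) (nat_lit 5) (nat_lit 438) (nat_lit 431) (nat_lit 271)) (XT.nd (nat_lit 78) (nat_lit 0) (nat_lit 76) (XT.lf (nat_lit 0) (nat_lit 2201047217) (nat_lit 1748) (nat_lit 726263688) (nat_lit 1824) (nat_lit 9451420112) (nat_lit 525) (nat_lit 5) (nat_lit 548) (nat_lit 5) (nat_lit 549) (nat_lit 5) (nat_lit 439) (nat_lit 431) (nat_lit 270)) (XT.lf (nat_lit 0) (nat_lit 3017663058) (nat_lit 1748) (nat_lit 6742866699) (nat_lit 1824) (nat_lit 2735916060) (nat_lit 526) (nat_lit 5) (nat_lit 549) (nat_lit 5) (nat_lit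 550) (nat_lit 5) (nat_lit 440) (nat_lit 431) (nat_lit 269))))) (XT.nd (nat_lit 156) (nat_lit 0) (nat_lit 76) (XT.nd (nat_lit 78) (nat_lit 0) (nat_lit 76) (XT.lf (nat_lit 0) (nat_lit 3863077473) (nat_lit 1748) (nat_lit 270590626) (nat_lit 1824) (nat_lit 8482597489) (nat_lit 526) (nat_lit 5) (nat_lit 549) (nat_lit 5) (nat_lit 550) (nat_lit 5) (nat_lit 441) (nat_lit 431) (nat_lit 268)) (XT.lf (nat_lit 0) (nat_lit 4766137069) (nat_lit 1748) (nat_lit 6340909076) (nat_lit 1824) (nat_lit 1630620871) (nat_lit 527) (nat_lit 5) (nat_lit 550) (nat_lit 5) (nat_lit 551) (nat_lit 5) (nat_lit 442) (nat_lit 431) (nat_lit 267))) (XT.nd (nat_lit 78) (nat_lit 0) (nat_lit 76) (XT.lf (nat_lit 76) (nat_lit 308647969) (nat_lit 0) (nat_lit 5398428130) (nat_lit 1824) (nat_lit 7154024008) (nat_lit 528) (nat_lit 5) (nat_lit 527) (nat_lit 5) (nat_lit 551) (nat_lit 5) (nat_lit 443) (nat_lit 431) (nat_lit 266)) (XT.nd (nat_lit 78) (nat_lit 0) (nat_lit 0) (XT.lf (nat_lit 0) (nat_lit 6701230095)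 (nat_lit 1748) (nat_lit 5819910106) (nat_lit 1824) (nat_lit 465173736) (nat_lit 528) (nat_lit 5) (nat_lit 551) (nat_lit 5) (nat_lit 552) (nat_lit 5) (nat_lit 444) (nat_lit 431) (nat_lit 265)) (XT.lf (nat_lit 76) (nat_lit 1017155018) (nat_lit 0) (nat_lit 6729495134) (nat_lit 1824) (nat_lit 5366754232) (nat_lit 529) (nat_lit 5) (nat_lit 528) (nat_lit 5) (nat_lit 552) (nat_lit 5) (nat_lit 445) (nat_lit 431) (nat_lit 264))))))) (XT.nd (nat_lit 58890) (nat_lit 76) (nat_lit 0) (XT.nd (nat_lit 58500) (nat_lit 380) (nat_lit 0) (XT.nd (nat_lit 58344) (nat_lit 0) (nat_lit 1292) (XT.nd (nat_lit 58266) (nat_lit 0) (nat_lit 1292) (XT.lf (nat_lit 76) (nat_lit 8062185886) (nat_lit 0) (nat_lit 779040509) (nat_lit 1824) (nat_lit 4401245287) (nat_lit 529) (nat_lit 5) (nat_lit 528) (nat_lit 5) (nat_lit 552) (nat_lit 5) (nat_lit 446) (nat_lit 431) (nat_lit 263)) (XT.lf (nat_lit 0) (nat_lit 4891398663) (nat_lit 1748) (nat_lit 481136758) (nat_lit 1748) (nat_lit 481136758) (nat_lit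 545) (nat_lit 3) (nat_lit 568) (nat_lit 3) (nat_lit 568) (nat_lit 5) (nat_lit 432) (nat_lit 432) (nat_lit 276))) (XT.nd (nat_lit 78) (nat_lit 0) (nat_lit 0) (XT.lf (nat_lit 76) (nat_lit 4956402777) (nat_lit 0) (nat_lit 5457134354) (nat_lit 1748) (nat_lit 1400222438) (nat_lit 546) (nat_lit 5) (nat_lit 545) (nat_lit 3) (nat_lit 568) (nat_lit 5) (nat_lit 433) (nat_lit 432) (nat_lit 275)) (XT.lf (nat_lit 76) (nat_lit 10999708921) (nat_lit 0) (nat_lit 50461733) (nat_lit 1748) (nat_lit 872266848) (nat_lit 546) (nat_lit 5) (nat_lit 545) (nat_lit 3) (nat_lit 568) (nat_lit 5) (nat_lit 434) (nat_lit 432) (nat_lit 274)))) (XT.nd (nat_lit 156) (nat_lit 0) (nat_lit 76) (XT.nd (nat_lit 78) (nat_lit 1748) (nat_lit 0) (XT.lf (nat_lit 76) (nat_lit 5155779481) (nat_lit 0) (nat_lit 6599830898) (nat_lit 1748) (nat_lit 276557145) (nat_lit 547) (nat_lit 5) (nat_lit 546) (nat_lit 5) (nat_lit 569) (nat_lit 5) (nat_lit 435) (nat_lit 432) (nat_lit 273)) (XT.lf (nat_lit 0) (nat_lit 320536347)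 (nat_lit 1748) (nat_lit 785204775) (nat_lit 1824) (nat_lit 11038431800) (nat_lit 523) (nat_lit 5) (nat_lit 546) (nat_lit 5) (nat_lit 547) (nat_lit 5) (nat_lit 436) (nat_lit 432) (nat_lit 272))) (XT.nd (nat_lit 78) (nat_lit 0) (nat_lit 0) (XT.lf (nat_lit 0) (nat_lit 978507990) (nat_lit 1748) (nat_lit 6796360550) (nat_lit 1824) (nat_lit 4482460541) (nat_lit 524) (nat_lit 5) (nat_lit 547) (nat_lit 5) (nat_lit 548) (nat_lit 5) (nat_lit 437) (nat_lit 432) (nat_lit 271)) (XT.nd (nat_lit 78) (nat_lit 0) (nat_lit 76) (XT.lf (nat_lit 0) (nat_lit 1649995999) (nat_lit 1748) (nat_lit 544465831) (nat_lit 1824) (nat_lit 10178279393) (nat_lit 524) (nat_lit 5) (nat_lit 547) (nat_lit 5) (nat_lit 548) (nat_lit 5) (nat_lit 438) (nat_lit 432) (nat_lit 270)) (XT.lf (nat_lit 0) (nat_lit 2384204364) (nat_lit 1748) (nat_lit 6610080108) (nat_lit 1824) (nat_lit 3495191325) (nat_lit 525) (nat_lit 5) (nat_lit 548) (nat_lit 5) (nat_lit 549) (nat_lit 5) (nat_lit 439) (nat_lit 432) (nat_lit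 269)))))) (XT.nd (nat_lit 390) (nat_lit 228) (nat_lit 0) (XT.nd (nat_lit 156) (nat_lit 0) (nat_lit 76) (XT.nd (nat_lit 78) (nat_lit 0) (nat_lit 76) (XT.lf (nat_lit 0) (nat_lit 3139500306) (nat_lit 1748) (nat_lit 191169689) (nat_lit 1824) (nat_lit 9277747000) (nat_lit 525) (nat_lit 5) (nat_lit 548) (nat_lit 5) (nat_lit 549) (nat_lit 5) (nat_lit 440) (nat_lit 432) (nat_lit 268)) (XT.lf (nat_lit 0) (nat_lit 3956284215) (nat_lit 1748) (nat_lit 6311940512) (nat_lit 1824) (nat_lit 2460584649) (nat_lit 526) (nat_lit 5) (nat_lit 549) (nat_lit 5) (nat_lit 550) (nat_lit 5) (nat_lit 441) (nat_lit 432) (nat_lit 267))) (XT.nd (nat_lit 78) (nat_lit 0) (nat_lit 76) (XT.lf (nat_lit 76) (nat_lit 282390895) (nat_lit 0) (nat_lit 4520828552) (nat_lit 1824) (nat_lit 8048113843) (nat_lit 527) (nat_lit 5) (nat_lit 526) (nat_lit 5) (nat_lit 550) (nat_lit 5) (nat_lit 442) (nat_lit 432) (nat_lit 266)) (XT.nd (nat_lit 78) (nat_lit 0) (nat_lit 0) (XT.lf (nat_lit 0) (nat_lit 5707274833)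 (nat_lit 1748) (nat_lit 5897805598) (nat_lit 1824) (nat_lit 1370423624) (nat_lit 527) (nat_lit 5) (nat_lit 550) (nat_lit 5) (nat_lit 551) (nat_lit 5) (nat_lit 443) (nat_lit 432) (nat_lit 265)) (XT.lf (nat_lit 76) (nat_lit 880993104) (nat_lit 0) (nat_lit 5773130898) (nat_lit 1824) (nat_lit 6447539980) (nat_lit 528) (nat_lit 5) (nat_lit 527) (nat_lit 5) (nat_lit 551) (nat_lit 5) (nat_lit 444) (nat_lit 432) (nat_lit 264))))) (XT.nd (nat_lit 58500) (nat_lit 456) (nat_lit 0) (XT.nd (nat_lit 58422) (nat_lit 0) (nat_lit 1292) (XT.lf (nat_lit 0) (nat_lit 7650131721) (nat_lit 1748) (nat_lit 5363208192) (nat_lit 1824) (nat_lit 216402761) (nat_lit 528) (nat_lit 5) (nat_lit 551) (nat_lit 5) (nat_lit 552) (nat_lit 5) (nat_lit 445) (nat_lit 432) (nat_lit 263)) (XT.lf (nat_lit 0) (nat_lit 5486707131) (nat_lit 1748) (nat_lit 237044441) (nat_lit 1748) (nat_lit 237044441) (nat_lit 545) (nat_lit 3) (nat_lit 568) (nat_lit 3) (nat_lit 568) (nat_lit 5) (nat_lit 433) (nat_lit 433)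 (nat_lit 274))) (XT.nd (nat_lit 78) (nat_lit 1748) (nat_lit 0) (XT.lf (nat_lit 76) (nat_lit 5559622582) (nat_lit 0) (nat_lit 6040910140) (nat_lit 1748) (nat_lit 429927542) (nat_lit 546) (nat_lit 5) (nat_lit 545) (nat_lit 3) (nat_lit 568) (nat_lit 5) (nat_lit 434) (nat_lit 433) (nat_lit 273)) (XT.nd (nat_lit 78) (nat_lit 0) (nat_lit 76) (XT.lf (nat_lit 0) (nat_lit 87845246) (nat_lit 1748) (nat_lit 428362802) (nat_lit 1824) (nat_lit 11625475963) (nat_lit 522) (nat_lit 5) (nat_lit 545) (nat_lit 3) (nat_lit 546) (nat_lit 5) (nat_lit 435) (nat_lit 433) (nat_lit 272)) (XT.lf (nat_lit 0) (nat_lit 668932405) (nat_lit 1748) (nat_lit 6486472909) (nat_lit 1824) (nat_lit 5098495768) (nat_lit 523) (nat_lit 5) (nat_lit 546) (nat_lit 5) (nat_lit 547) (nat_lit 5) (nat_lit 436) (nat_lit 433) (nat_lit 271))))))))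
noncomputable def xc127 : XT := (XT.nd (nat_lit 118638) (nat_lit 0) (nat_lit 0) (XT.nd (nat_lit 59202) (nat_lit 0) (nat_lit 0) (XT.nd (nat_lit 312) (nat_lit 76) (nat_lit 0) (XT.nd (nat_lit 156) (nat_lit 0) (nat_lit 76) (XT.nd (nat_lit 78) (nat_lit 0) (nat_lit 76) (XT.lf (nat_lit 0) (nat_lit 1255693206) (nat_lit 1748) (nat_lit 285603585) (nat_lit 1824) (nat_lit 10827184666) (nat_lit 523) (nat_lit 5) (nat_lit 546) (nat_lit 5) (nat_lit 547) (nat_lit 5) (nat_lit 437) (nat_lit 433) (nat_lit 270)) (XT.lf (nat_lit 0) (nat_lit 1909327579) (nat_lit 1748) (nat_lit 6399485773) (nat_lit 1824) (nat_lit 4175437321) (nat_lit 524) (nat_lit 5) (nat_lit 547) (nat_lit 5) (nat_lit 548) (nat_lit 5) (nat_lit 438) (nat_lit 433) (nat_lit 269))) (XT.nd (nat_lit 78) (nat_lit 0) (nat_lit 76) (XT.lf (nat_lit 0) (nat_lit 2576377712) (nat_lit 1748) (nat_lit 33000258) (nat_lit 1824) (nat_lit 9992950442) (nat_lit 524) (nat_lit 5) (nat_lit 547) (nat_lit 5) (nat_lit 548) (nat_lit 5) (nat_lit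 439) (nat_lit 433) (nat_lit 268)) (XT.lf (nat_lit 0) (nat_lit 3308782711) (nat_lit 1748) (nat_lit 6203439287) (nat_lit 1824) (nat_lit 3209505431) (nat_lit 525) (nat_lit 5) (nat_lit 548) (nat_lit 5) (nat_lit 549) (nat_lit 5) (nat_lit 440) (nat_lit 433) (nat_lit 267)))) (XT.nd (nat_lit 156) (nat_lit 228) (nat_lit 0) (XT.nd (nat_lit 78) (nat_lit 0) (nat_lit 76) (XT.lf (nat_lit 76) (nat_lit 337712968) (nat_lit 0) (nat_lit 3726470254) (nat_lit 1824) (nat_lit 8779164254) (nat_lit 526) (nat_lit 5) (nat_lit 525) (nat_lit 5) (nat_lit 549) (nat_lit 5) (nat_lit 441) (nat_lit 433) (nat_lit 266)) (XT.lf (nat_lit 0) (nat_lit 4879573582) (nat_lit 1748) (nat_lit 5894365864) (nat_lit 1824) (nat_lit 2192562844) (nat_lit 526) (nat_lit 5) (nat_lit 549) (nat_lit 5) (nat_lit 550) (nat_lit 5) (nat_lit 442) (nat_lit 433) (nat_lit 265))) (XT.nd (nat_lit 78) (nat_lit 304) (nat_lit 0) (XT.lf (nat_lit 76) (nat_lit 828274451) (nat_lit 0) (nat_lit 4902128408) (nat_lit 1824) (nat_lit 7361334717)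 (nat_lit 527) (nat_lit 5) (nat_lit 526) (nat_lit 5) (nat_lit 550) (nat_lit 5) (nat_lit 443) (nat_lit 433) (nat_lit 264)) (XT.nd (nat_lit 58578) (nat_lit 380) (nat_lit 0) (XT.lf (nat_lit 0) (nat_lit 6634391325) (nat_lit 1748) (nat_lit 5467970802) (nat_lit 1824) (nat_lit 1116392589) (nat_lit 527) (nat_lit 5) (nat_lit 550) (nat_lit 5) (nat_lit 551) (nat_lit 5) (nat_lit 444) (nat_lit 433) (nat_lit 263)) (XT.lf (nat_lit 0) (nat_lit 2063988) (nat_lit 0) (nat_lit 2063988) (nat_lit 1748) (nat_lit 6066319622) (nat_lit 522) (nat_lit 5) (nat_lit 522) (nat_lit 3) (nat_lit 545) (nat_lit 3) (nat_lit 434) (nat_lit 434) (nat_lit 272)))))) (XT.nd (nat_lit 390) (nat_lit 0) (nat_lit 0) (XT.nd (nat_lit 156) (nat_lit 0) (nat_lit 76) (XT.nd (nat_lit 78) (nat_lit 0) (nat_lit 0) (XT.lf (nat_lit 0) (nat_lit 514174957) (nat_lit 1748) (nat_lit 6100305519) (nat_lit 1824) (nat_lit 5637706943) (nat_lit 522) (nat_lit 5) (nat_lit 545) (nat_lit 3) (nat_lit 546) (nat_lit 5) (nat_lit 435) (nat_lit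 434) (nat_lit 271)) (XT.lf (nat_lit 76) (nat_lit 51094679) (nat_lit 0) (nat_lit 967221272) (nat_lit 1824) (nat_lit 11347627463) (nat_lit 523) (nat_lit 5) (nat_lit 522) (nat_lit 5) (nat_lit 546) (nat_lit 5) (nat_lit 436) (nat_lit 434) (nat_lit 270))) (XT.nd (nat_lit 78) (nat_lit 0) (nat_lit 0) (XT.lf (nat_lit 0) (nat_lit 1592846477) (nat_lit 1748) (nat_lit 6111001107) (nat_lit 1824) (nat_lit 4776920811) (nat_lit 523) (nat_lit 5) (nat_lit 546) (nat_lit 5) (nat_lit 547) (nat_lit 5) (nat_lit 437) (nat_lit 434) (nat_lit 269)) (XT.nd (nat_lit 78) (nat_lit 0) (nat_lit 76) (XT.lf (nat_lit 76) (nat_lit 206690477) (nat_lit 0) (nat_lit 1968140353) (nat_lit 1824) (nat_lit 10423139782) (nat_lit 524) (nat_lit 5) (nat_lit 523) (nat_lit 5) (nat_lit 547) (nat_lit 5) (nat_lit 438) (nat_lit 434) (nat_lit 268)) (XT.lf (nat_lit 0) (nat_lit 2823378634) (nat_lit 1748) (nat_lit 6015362851) (nat_lit 1824) (nat_lit 3877676912) (nat_lit 524) (nat_lit 5) (nat_lit 547) (nat_lit 5) (nat_lit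 548) (nat_lit 5) (nat_lit 439) (nat_lit 434) (nat_lit 267))))) (XT.nd (nat_lit 156) (nat_lit 152) (nat_lit 0) (XT.nd (nat_lit 78) (nat_lit 0) (nat_lit 76) (XT.lf (nat_lit 76) (nat_lit 474635884) (nat_lit 0) (nat_lit 3015041723) (nat_lit 1824) (nat_lit 9347461927) (nat_lit 525) (nat_lit 5) (nat_lit 524) (nat_lit 5) (nat_lit 548) (nat_lit 5) (nat_lit 440) (nat_lit 434) (nat_lit 266)) (XT.lf (nat_lit 0) (nat_lit 4217801752) (nat_lit 1748) (nat_lit 5809589556) (nat_lit 1824) (nat_lit 2931913801) (nat_lit 525) (nat_lit 5) (nat_lit 548) (nat_lit 5) (nat_lit 549) (nat_lit 5) (nat_lit 441) (nat_lit 434) (nat_lit 265))) (XT.nd (nat_lit 78) (nat_lit 228) (nat_lit 0) (XT.lf (nat_lit 76) (nat_lit 858978385) (nat_lit 0) (nat_lit 4116146096) (nat_lit 1824) (nat_lit 8108496794) (nat_lit 526) (nat_lit 5) (nat_lit 525) (nat_lit 5) (nat_lit 549) (nat_lit 5) (nat_lit 442) (nat_lit 434) (nat_lit 264)) (XT.nd (nat_lit 58734) (nat_lit 304) (nat_lit 0) (XT.lf (nat_lit 0) (nat_lit 5788548832)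 (nat_lit 1748) (nat_lit 5489556663) (nat_lit 1824) (nat_lit 1931499165) (nat_lit 526) (nat_lit 5) (nat_lit 549) (nat_lit 5) (nat_lit 550) (nat_lit 5) (nat_lit 443) (nat_lit 434) (nat_lit 263)) (XT.lf (nat_lit 0) (nat_lit 234956696) (nat_lit 0) (nat_lit 234956696) (nat_lit 1748) (nat_lit 5712629101) (nat_lit 522) (nat_lit 5) (nat_lit 522) (nat_lit 3) (nat_lit 545) (nat_lit 3) (nat_lit 435) (nat_lit 435) (nat_lit 270))))))) (XT.nd (nat_lit 59592) (nat_lit 0) (nat_lit 0) (XT.nd (nat_lit 390) (nat_lit 0) (nat_lit 0) (XT.nd (nat_lit 156) (nat_lit 0) (nat_lit 76) (XT.nd (nat_lit 78) (nat_lit 0) (nat_lit 0) (XT.lf (nat_lit 0) (nat_lit 1434636947) (nat_lit 1748) (nat_lit 5744512980) (nat_lit 1824) (nat_lit 5299877670) (nat_lit 522) (nat_lit 5) (nat_lit 545) (nat_lit 3) (nat_lit 546) (nat_lit 5) (nat_lit 436) (nat_lit 435) (nat_lit 269)) (XT.lf (nat_lit 76) (nat_lit 526771810) (nat_lit 0) (nat_lit 1407324091) (nat_lit 1824) (nat_lit 10661258109) (nat_lit 523) (nat_lit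 5) (nat_lit 522) (nat_lit 5) (nat_lit 546) (nat_lit 5) (nat_lit 437) (nat_lit 435) (nat_lit 268))) (XT.nd (nat_lit 78) (nat_lit 0) (nat_lit 0) (XT.lf (nat_lit 0) (nat_lit 2499881630) (nat_lit 1748) (nat_lit 5747637451) (nat_lit 1824) (nat_lit 4465361118) (nat_lit 523) (nat_lit 5) (nat_lit 546) (nat_lit 5) (nat_lit 547) (nat_lit 5) (nat_lit 438) (nat_lit 435) (nat_lit 267)) (XT.nd (nat_lit 78) (nat_lit 0) (nat_lit 76) (XT.lf (nat_lit 76) (nat_lit 693213336) (nat_lit 0) (nat_lit 2386263966) (nat_lit 1824) (nat_lit 9753229725) (nat_lit 524) (nat_lit 5) (nat_lit 523) (nat_lit 5) (nat_lit 547) (nat_lit 5) (nat_lit 439) (nat_lit 435) (nat_lit 266)) (XT.lf (nat_lit 0) (nat_lit 3721699824) (nat_lit 1748) (nat_lit 5643443429) (nat_lit 1824) (nat_lit 3588766440) (nat_lit 524) (nat_lit 5) (nat_lit 547) (nat_lit 5) (nat_lit 548) (nat_lit 5) (nat_lit 440) (nat_lit 435) (nat_lit 265))))) (XT.nd (nat_lit 58968) (nat_lit 152) (nat_lit 0) (XT.nd (nat_lit 78) (nat_lit 0) (nat_lit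 76) (XT.lf (nat_lit 76) (nat_lit 973116947) (nat_lit 0) (nat_lit 3414875732) (nat_lit 1824) (nat_lit 8689319215) (nat_lit 525) (nat_lit 5) (nat_lit 524) (nat_lit 5) (nat_lit 548) (nat_lit 5) (nat_lit 441) (nat_lit 435) (nat_lit 264)) (XT.lf (nat_lit 0) (nat_lit 5112272537) (nat_lit 1748) (nat_lit 5427974239) (nat_lit 1824) (nat_lit 2662042141) (nat_lit 525) (nat_lit 5) (nat_lit 548) (nat_lit 5) (nat_lit 549) (nat_lit 5) (nat_lit 442) (nat_lit 435) (nat_lit 263))) (XT.nd (nat_lit 78) (nat_lit 0) (nat_lit 0) (XT.lf (nat_lit 0) (nat_lit 463465353) (nat_lit 0) (nat_lit 463465353) (nat_lit 1748) (nat_lit 5370310255) (nat_lit 522) (nat_lit 5) (nat_lit 522) (nat_lit 3) (nat_lit 545) (nat_lit 3) (nat_lit 436) (nat_lit 436) (nat_lit 268)) (XT.nd (nat_lit 78) (nat_lit 0) (nat_lit 0) (XT.lf (nat_lit 0) (nat_lit 2338164837) (nat_lit 1748) (nat_lit 5400158094) (nat_lit 1824) (nat_lit 4972788515) (nat_lit 522) (nat_lit 5) (nat_lit 545) (nat_lit 3) (nat_lit 546) (nat_lit 5)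 (nat_lit 437) (nat_lit 436) (nat_lit 267)) (XT.lf (nat_lit 76) (nat_lit 993531042) (nat_lit 0) (nat_lit 1839890405) (nat_lit 1824) (nat_lit 9996626771) (nat_lit 523) (nat_lit 5) (nat_lit 522) (nat_lit 5) (nat_lit 546) (nat_lit 5) (nat_lit 438) (nat_lit 436) (nat_lit 266)))))) (XT.nd (nat_lit 59358) (nat_lit 0) (nat_lit 0) (XT.nd (nat_lit 156) (nat_lit 76) (nat_lit 0) (XT.nd (nat_lit 78) (nat_lit 0) (nat_lit 0) (XT.lf (nat_lit 0) (nat_lit 3391073249) (nat_lit 1748) (nat_lit 5395862327) (nat_lit 1824) (nat_lit 4163378347) (nat_lit 523) (nat_lit 5) (nat_lit 546) (nat_lit 5) (nat_lit 547) (nat_lit 5) (nat_lit 439) (nat_lit 436) (nat_lit 265)) (XT.lf (nat_lit 76) (nat_lit 1170734898) (nat_lit 0) (nat_lit 2798042308) (nat_lit 1824) (nat_lit 9104029755) (nat_lit 524) (nat_lit 5) (nat_lit 523) (nat_lit 5) (nat_lit 547) (nat_lit 5) (nat_lit 440) (nat_lit 436) (nat_lit 264))) (XT.nd (nat_lit 59046) (nat_lit 152) (nat_lit 0) (XT.lf (nat_lit 0) (nat_lit 4605297236) (nat_lit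 1748) (nat_lit 5283199380) (nat_lit 1824) (nat_lit 3308308002) (nat_lit 524) (nat_lit 5) (nat_lit 547) (nat_lit 5) (nat_lit 548) (nat_lit 5) (nat_lit 441) (nat_lit 436) (nat_lit 263)) (XT.nd (nat_lit 78) (nat_lit 0) (nat_lit 0) (XT.lf (nat_lit 0) (nat_lit 687853387) (nat_lit 0) (nat_lit 687853387) (nat_lit 1748) (nat_lit 5038874257) (nat_lit 522) (nat_lit 5) (nat_lit 522) (nat_lit 3) (nat_lit 545) (nat_lit 3) (nat_lit 437) (nat_lit 437) (nat_lit 266)) (XT.lf (nat_lit 0) (nat_lit 3225792370) (nat_lit 1748) (nat_lit 5066749159) (nat_lit 1824) (nat_lit 4655974862) (nat_lit 522) (nat_lit 5) (nat_lit 545) (nat_lit 3) (nat_lit 546) (nat_lit 5) (nat_lit 438) (nat_lit 437) (nat_lit 265))))) (XT.nd (nat_lit 156) (nat_lit 0) (nat_lit 0) (XT.nd (nat_lit 78) (nat_lit 0) (nat_lit 76) (XT.lf (nat_lit 76) (nat_lit 1451909733) (nat_lit 0) (nat_lit 2265403930) (nat_lit 1824) (nat_lit 9352791043) (nat_lit 523) (nat_lit 5) (nat_lit 522) (nat_lit 5) (nat_lit 546) (nat_lit 5) (nat_lit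 439) (nat_lit 437) (nat_lit 264)) (XT.lf (nat_lit 0) (nat_lit 4267424113) (nat_lit 1748) (nat_lit 5055175313) (nat_lit 1824) (nat_lit 3870550188) (nat_lit 523) (nat_lit 5) (nat_lit 546) (nat_lit 5) (nat_lit 547) (nat_lit 5) (nat_lit 440) (nat_lit 437) (nat_lit 263))) (XT.nd (nat_lit 59202) (nat_lit 76) (nat_lit 0) (XT.lf (nat_lit 76) (nat_lit 1639802512) (nat_lit 0) (nat_lit 3203919593) (nat_lit 1824) (nat_lit 8474629607) (nat_lit 524) (nat_lit 5) (nat_lit 523) (nat_lit 5) (nat_lit 547) (nat_lit 5) (nat_lit 441) (nat_lit 437) (nat_lit 262)) (XT.nd (nat_lit 78) (nat_lit 0) (nat_lit 0) (XT.lf (nat_lit 0) (nat_lit 4098520670) (nat_lit 1748) (nat_lit 4743812615) (nat_lit 1824) (nat_lit 4348989184) (nat_lit 522) (nat_lit 5) (nat_lit 545) (nat_lit 3) (nat_lit 546) (nat_lit 5) (nat_lit 439) (nat_lit 438) (nat_lit 263)) (XT.lf (nat_lit 76) (nat_lit 1902428195) (nat_lit 0) (nat_lit 2684333421) (nat_lit 1824) (nat_lit 8728843151) (nat_lit 523) (nat_lit 5) (nat_lit 522)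 (nat_lit 5) (nat_lit 546) (nat_lit 5) (nat_lit 440) (nat_lit 438) (nat_lit 262))))))))
noncomputable def ec0 : XT := (XT.nd (nat_lit 177840) (nat_lit 0) (nat_lit 0) (XT.nd (nat_lit 118482) (nat_lit 0) (nat_lit 0) (XT.nd (nat_lit 59280) (nat_lit 0) (nat_lit 0) (XT.nd (nat_lit 156) (nat_lit 0) (nat_lit 0) (XT.nd (nat_lit 78) (nat_lit 0) (nat_lit 0) (XT.lf (nat_lit 1900) (nat_lit 419354427) (nat_lit 0) (nat_lit 422861206) (nat_lit 1900) (nat_lit 419354427) (nat_lit 522) (nat_lit 1) (nat_lit 497) (nat_lit 0) (nat_lit 522) (nat_lit 0) (nat_lit 428) (nat_lit 356) (nat_lit 356)) (XT.lf (nat_lit 1900) (nat_lit 1658190458) (nat_lit 76) (nat_lit 420079224) (nat_lit 0) (nat_lit 420079224) (nat_lit 522) (nat_lit 1) (nat_lit 498) (nat_lit 1) (nat_lit 497) (nat_lit 0) (nat_lit 429) (nat_lit 356) (nat_lit 355))) (XT.nd (nat_lit 59046) (nat_lit 76) (nat_lit 0) (XT.lf (nat_lit 1900) (nat_lit 814179408) (nat_lit 0) (nat_lit 845469655) (nat_lit 1824) (nat_lit 814179408) (nat_lit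 523) (nat_lit 1) (nat_lit 498) (nat_lit 1) (nat_lit 522) (nat_lit 1) (nat_lit 430) (nat_lit 356) (nat_lit 354)) (XT.lf (nat_lit 1900) (nat_lit 427741516) (nat_lit 0) (nat_lit 431318430) (nat_lit 1900) (nat_lit 427741516) (nat_lit 522) (nat_lit 1) (nat_lit 497) (nat_lit 0) (nat_lit 522) (nat_lit 0) (nat_lit 426) (nat_lit 357) (nat_lit 357)))) (XT.nd (nat_lit 156) (nat_lit 0) (nat_lit 0) (XT.nd (nat_lit 78) (nat_lit 0) (nat_lit 76) (XT.lf (nat_lit 1900) (nat_lit 1691354267) (nat_lit 76) (nat_lit 428480809) (nat_lit 0) (nat_lit 428480809) (nat_lit 522) (nat_lit 1) (nat_lit 498) (nat_lit 1) (nat_lit 497) (nat_lit 0) (nat_lit 427) (nat_lit 357) (nat_lit 356)) (XT.lf (nat_lit 1900) (nat_lit 830462996) (nat_lit 0) (nat_lit 862379048) (nat_lit 1824) (nat_lit 830462996) (nat_lit 523) (nat_lit 1) (nat_lit 498) (nat_lit 1) (nat_lit 522) (nat_lit 1) (nat_lit 428) (nat_lit 357) (nat_lit 355))) (XT.nd (nat_lit 78) (nat_lit 76) (nat_lit 0) (XT.lf (nat_lit 1900) (nat_lit 1625420804)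 (nat_lit 76) (nat_lit 436626277) (nat_lit 0) (nat_lit 436626277) (nat_lit 523) (nat_lit 1) (nat_lit 499) (nat_lit 1) (nat_lit 498) (nat_lit 1) (nat_lit 429) (nat_lit 357) (nat_lit 354)) (XT.nd (nat_lit 58890) (nat_lit 152) (nat_lit 0) (XT.lf (nat_lit 1900) (nat_lit 789923709) (nat_lit 0) (nat_lit 894466166) (nat_lit 1824) (nat_lit 789923709) (nat_lit 524) (nat_lit 1) (nat_lit 499) (nat_lit 1) (nat_lit 523) (nat_lit 1) (nat_lit 430) (nat_lit 357) (nat_lit 353)) (XT.lf (nat_lit 1900) (nat_lit 436296346) (nat_lit 0) (nat_lit 439944799) (nat_lit 1900) (nat_lit 436296346) (nat_lit 522) (nat_lit 1) (nat_lit 497) (nat_lit 0) (nat_lit 522) (nat_lit 0) (nat_lit 424) (nat_lit 358) (nat_lit 358)))))) (XT.nd (nat_lit 312) (nat_lit 0) (nat_lit 0) (XT.nd (nat_lit 156) (nat_lit 0) (nat_lit 76) (XT.nd (nat_lit 78) (nat_lit 0) (nat_lit 76) (XT.lf (nat_lit 1900) (nat_lit 1725181353) (nat_lit 76) (nat_lit 437050425) (nat_lit 0) (nat_lit 437050425) (nat_lit 522) (nat_lit 1) (nat_lit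 498) (nat_lit 1) (nat_lit 497) (nat_lit 0) (nat_lit 425) (nat_lit 358) (nat_lit 357)) (XT.lf (nat_lit 1900) (nat_lit 847072256) (nat_lit 0) (nat_lit 879626629) (nat_lit 1824) (nat_lit 847072256) (nat_lit 523) (nat_lit 1) (nat_lit 498) (nat_lit 1) (nat_lit 522) (nat_lit 1) (nat_lit 426) (nat_lit 358) (nat_lit 356))) (XT.nd (nat_lit 78) (nat_lit 0) (nat_lit 76) (XT.lf (nat_lit 1900) (nat_lit 1657929220) (nat_lit 76) (nat_lit 445358803) (nat_lit 0) (nat_lit 445358803) (nat_lit 523) (nat_lit 1) (nat_lit 499) (nat_lit 1) (nat_lit 498) (nat_lit 1) (nat_lit 427) (nat_lit 358) (nat_lit 355)) (XT.lf (nat_lit 1900) (nat_lit 805722184) (nat_lit 0) (nat_lit 912355489) (nat_lit 1824) (nat_lit 805722184) (nat_lit 524) (nat_lit 1) (nat_lit 499) (nat_lit 1) (nat_lit 523) (nat_lit 1) (nat_lit 428) (nat_lit 358) (nat_lit 354)))) (XT.nd (nat_lit 58812) (nat_lit 152) (nat_lit 0) (XT.nd (nat_lit 78) (nat_lit 0) (nat_lit 76) (XT.lf (nat_lit 1900) (nat_lit 1559868645) (nat_lit 76)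 (nat_lit 469726873) (nat_lit 0) (nat_lit 469726873) (nat_lit 524) (nat_lit 1) (nat_lit 500) (nat_lit 1) (nat_lit 499) (nat_lit 1) (nat_lit 429) (nat_lit 358) (nat_lit 353)) (XT.lf (nat_lit 1900) (nat_lit 749486977) (nat_lit 0) (nat_lit 976148366) (nat_lit 1824) (nat_lit 749486977) (nat_lit 525) (nat_lit 1) (nat_lit 500) (nat_lit 1) (nat_lit 524) (nat_lit 1) (nat_lit 430) (nat_lit 358) (nat_lit 352))) (XT.nd (nat_lit 78) (nat_lit 0) (nat_lit 0) (XT.lf (nat_lit 1900) (nat_lit 445022273) (nat_lit 0) (nat_lit 448743695) (nat_lit 1900) (nat_lit 445022273) (nat_lit 522) (nat_lit 1) (nat_lit 497) (nat_lit 0) (nat_lit 522) (nat_lit 0) (nat_lit 422) (nat_lit 359) (nat_lit 359)) (XT.nd (nat_lit 78) (nat_lit 0) (nat_lit 76) (XT.lf (nat_lit 1900) (nat_lit 1759684980) (nat_lit 76) (nat_lit 445791433) (nat_lit 0) (nat_lit 445791433) (nat_lit 522) (nat_lit 1) (nat_lit 498) (nat_lit 1) (nat_lit 497) (nat_lit 0) (nat_lit 423) (nat_lit 359) (nat_lit 358)) (XT.lf (nat_lit 1900)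 (nat_lit 864013701) (nat_lit 0) (nat_lit 897219162) (nat_lit 1824) (nat_lit 864013701) (nat_lit 523) (nat_lit 1) (nat_lit 498) (nat_lit 1) (nat_lit 522) (nat_lit 1) (nat_lit 424) (nat_lit 359) (nat_lit 357))))))) (XT.nd (nat_lit 59202) (nat_lit 0) (nat_lit 0) (XT.nd (nat_lit 312) (nat_lit 76) (nat_lit 0) (XT.nd (nat_lit 156) (nat_lit 0) (nat_lit 76) (XT.nd (nat_lit 78) (nat_lit 0) (nat_lit 76) (XT.lf (nat_lit 1900) (nat_lit 1691087804) (nat_lit 76) (nat_lit 454265979) (nat_lit 0) (nat_lit 454265979) (nat_lit 523) (nat_lit 1) (nat_lit 499) (nat_lit 1) (nat_lit 498) (nat_lit 1) (nat_lit 425) (nat_lit 359) (nat_lit 356)) (XT.lf (nat_lit 1900) (nat_lit 821836627) (nat_lit 0) (nat_lit 930602599) (nat_lit 1824) (nat_lit 821836627) (nat_lit 524) (nat_lit 1) (nat_lit 499) (nat_lit 1) (nat_lit 523) (nat_lit 1) (nat_lit 426) (nat_lit 359) (nat_lit 355))) (XT.nd (nat_lit 78) (nat_lit 0) (nat_lit 76) (XT.lf (nat_lit 1900) (nat_lit 1591066017) (nat_lit 76) (nat_lit 479121410)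 (nat_lit 0) (nat_lit 479121410) (nat_lit 524) (nat_lit 1) (nat_lit 500) (nat_lit 1) (nat_lit 499) (nat_lit 1) (nat_lit 427) (nat_lit 359) (nat_lit 354)) (XT.lf (nat_lit 1900) (nat_lit 764476716) (nat_lit 0) (nat_lit 995671333) (nat_lit 1824) (nat_lit 764476716) (nat_lit 525) (nat_lit 1) (nat_lit 500) (nat_lit 1) (nat_lit 524) (nat_lit 1) (nat_lit 428) (nat_lit 359) (nat_lit 353)))) (XT.nd (nat_lit 58656) (nat_lit 228) (nat_lit 0) (XT.nd (nat_lit 78) (nat_lit 0) (nat_lit 76) (XT.lf (nat_lit 1900) (nat_lit 1461508273) (nat_lit 76) (nat_lit 519393991) (nat_lit 0) (nat_lit 519393991) (nat_lit 525) (nat_lit 1) (nat_lit 501) (nat_lit 1) (nat_lit 500) (nat_lit 1) (nat_lit 429) (nat_lit 359) (nat_lit 352)) (XT.lf (nat_lit 1900) (nat_lit 692853352) (nat_lit 0) (nat_lit 1090548287) (nat_lit 1824) (nat_lit 692853352) (nat_lit 526) (nat_lit 1) (nat_lit 501) (nat_lit 1) (nat_lit 525) (nat_lit 1) (nat_lit 430) (nat_lit 359) (nat_lit 351))) (XT.nd (nat_lit 78) (nat_lit 0) (nat_lit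 0) (XT.lf (nat_lit 1900) (nat_lit 453922719) (nat_lit 0) (nat_lit 457718568) (nat_lit 1900) (nat_lit 453922719) (nat_lit 522) (nat_lit 1) (nat_lit 497) (nat_lit 0) (nat_lit 522) (nat_lit 0) (nat_lit 420) (nat_lit 360) (nat_lit 360)) (XT.nd (nat_lit 78) (nat_lit 0) (nat_lit 76) (XT.lf (nat_lit 1900) (nat_lit 1794878679) (nat_lit 76) (nat_lit 454707262) (nat_lit 0) (nat_lit 454707262) (nat_lit 522) (nat_lit 1) (nat_lit 498) (nat_lit 1) (nat_lit 497) (nat_lit 0) (nat_lit 421) (nat_lit 360) (nat_lit 359)) (XT.lf (nat_lit 1900) (nat_lit 881293975) (nat_lit 0) (nat_lit 915163545) (nat_lit 1824) (nat_lit 881293975) (nat_lit 523) (nat_lit 1) (nat_lit 498) (nat_lit 1) (nat_lit 522) (nat_lit 1) (nat_lit 422) (nat_lit 360) (nat_lit 358)))))) (XT.nd (nat_lit 312) (nat_lit 76) (nat_lit 0) (XT.nd (nat_lit 156) (nat_lit 0) (nat_lit 76) (XT.nd (nat_lit 78) (nat_lit 0) (nat_lit 76) (XT.lf (nat_lit 1900) (nat_lit 1724909560) (nat_lit 76) (nat_lit 463351299) (nat_lit 0) (nat_lit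 463351299) (nat_lit 523) (nat_lit 1) (nat_lit 499) (nat_lit 1) (nat_lit 498) (nat_lit 1) (nat_lit 423) (nat_lit 360) (nat_lit 357)) (XT.lf (nat_lit 1900) (nat_lit 838273360) (nat_lit 0) (nat_lit 949214651) (nat_lit 1824) (nat_lit 838273360) (nat_lit 524) (nat_lit 1) (nat_lit 499) (nat_lit 1) (nat_lit 523) (nat_lit 1) (nat_lit 424) (nat_lit 360) (nat_lit 356))) (XT.nd (nat_lit 78) (nat_lit 0) (nat_lit 76) (XT.lf (nat_lit 1900) (nat_lit 1622887338) (nat_lit 76) (nat_lit 488703838) (nat_lit 0) (nat_lit 488703838) (nat_lit 524) (nat_lit 1) (nat_lit 500) (nat_lit 1) (nat_lit 499) (nat_lit 1) (nat_lit 425) (nat_lit 360) (nat_lit 355)) (XT.lf (nat_lit 1900) (nat_lit 779766251) (nat_lit 0) (nat_lit 1015584760) (nat_lit 1824) (nat_lit 779766251) (nat_lit 525) (nat_lit 1) (nat_lit 500) (nat_lit 1) (nat_lit 524) (nat_lit 1) (nat_lit 426) (nat_lit 360) (nat_lit 354)))) (XT.nd (nat_lit 156) (nat_lit 228) (nat_lit 0) (XT.nd (nat_lit 78) (nat_lit 0) (nat_lit 76) (XT.lf (nat_lit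 1900) (nat_lit 1490738439) (nat_lit 76) (nat_lit 529781871) (nat_lit 0) (nat_lit 529781871) (nat_lit 525) (nat_lit 1) (nat_lit 501) (nat_lit 1) (nat_lit 500) (nat_lit 1) (nat_lit 427) (nat_lit 360) (nat_lit 353)) (XT.lf (nat_lit 1900) (nat_lit 706710419) (nat_lit 0) (nat_lit 1112359253) (nat_lit 1824) (nat_lit 706710419) (nat_lit 526) (nat_lit 1) (nat_lit 501) (nat_lit 1) (nat_lit 525) (nat_lit 1) (nat_lit 428) (nat_lit 360) (nat_lit 352))) (XT.nd (nat_lit 78) (nat_lit 304) (nat_lit 0) (XT.lf (nat_lit 1900) (nat_lit 1330301118) (nat_lit 76) (nat_lit 585647109) (nat_lit 0) (nat_lit 585647109) (nat_lit 526) (nat_lit 1) (nat_lit 502) (nat_lit 1) (nat_lit 501) (nat_lit 1) (nat_lit 429) (nat_lit 360) (nat_lit 351)) (XT.nd (nat_lit 58422) (nat_lit 380) (nat_lit 0) (XT.lf (nat_lit 1900) (nat_lit 620000627) (nat_lit 0) (nat_lit 1237710793) (nat_lit 1824) (nat_lit 620000627) (nat_lit 527) (nat_lit 1) (nat_lit 502) (nat_lit 1) (nat_lit 526) (nat_lit 1) (nat_lit 430) (nat_lit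 360) (nat_lit 350)) (XT.lf (nat_lit 1900) (nat_lit 463001173) (nat_lit 0) (nat_lit 466872940) (nat_lit 1900) (nat_lit 463001173) (nat_lit 522) (nat_lit 1) (nat_lit 497) (nat_lit 0) (nat_lit 522) (nat_lit 0) (nat_lit 418) (nat_lit 361) (nat_lit 361))))))))
noncomputable def ec1 : XT := (XT.nd (nat_lit 59592) (nat_lit 0) (nat_lit 0) (XT.nd (nat_lit 702) (nat_lit 0) (nat_lit 0) (XT.nd (nat_lit 312) (nat_lit 0) (nat_lit 152) (XT.nd (nat_lit 156) (nat_lit 0) (nat_lit 76) (XT.nd (nat_lit 78) (nat_lit 0) (nat_lit 76) (XT.lf (nat_lit 1900) (nat_lit 1830776253) (nat_lit 76) (nat_lit 463801407) (nat_lit 0) (nat_lit 463801407) (nat_lit 522) (nat_lit 1) (nat_lit 498) (nat_lit 1) (nat_lit 497) (nat_lit 0) (nat_lit 419) (nat_lit 361) (nat_lit 360)) (XT.lf (nat_lit 1900) (nat_lit 898919855) (nat_lit 0) (nat_lit 933466816) (nat_lit 1824) (nat_lit 898919855) (nat_lit 523) (nat_lit 1) (nat_lit 498) (nat_lit 1) (nat_lit 522) (nat_lit 1) (nat_lit 420) (nat_lit 361) (nat_lit 359)))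 (XT.nd (nat_lit 78) (nat_lit 0) (nat_lit 76) (XT.lf (nat_lit 1900) (nat_lit 1759407752) (nat_lit 76) (nat_lit 472618325) (nat_lit 0) (nat_lit 472618325) (nat_lit 523) (nat_lit 1) (nat_lit 499) (nat_lit 1) (nat_lit 498) (nat_lit 1) (nat_lit 421) (nat_lit 361) (nat_lit 358)) (XT.lf (nat_lit 1900) (nat_lit 855038827) (nat_lit 0) (nat_lit 968198944) (nat_lit 1824) (nat_lit 855038827) (nat_lit 524) (nat_lit 1) (nat_lit 499) (nat_lit 1) (nat_lit 523) (nat_lit 1) (nat_lit 422) (nat_lit 361) (nat_lit 357)))) (XT.nd (nat_lit 156) (nat_lit 0) (nat_lit 76) (XT.nd (nat_lit 78) (nat_lit 0) (nat_lit 76) (XT.lf (nat_lit 1900) (nat_lit 1655345085) (nat_lit 76) (nat_lit 498477915) (nat_lit 0) (nat_lit 498477915) (nat_lit 524) (nat_lit 1) (nat_lit 500) (nat_lit 1) (nat_lit 499) (nat_lit 1) (nat_lit 423) (nat_lit 361) (nat_lit 356)) (XT.lf (nat_lit 1900) (nat_lit 795361576) (nat_lit 0) (nat_lit 1035896455) (nat_lit 1824) (nat_lit 795361576) (nat_lit 525) (nat_lit 1) (nat_lit 500)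 (nat_lit 1) (nat_lit 524) (nat_lit 1) (nat_lit 424) (nat_lit 361) (nat_lit 355))) (XT.nd (nat_lit 78) (nat_lit 0) (nat_lit 76) (XT.lf (nat_lit 1900) (nat_lit 1520553208) (nat_lit 76) (nat_lit 540377508) (nat_lit 0) (nat_lit 540377508) (nat_lit 525) (nat_lit 1) (nat_lit 501) (nat_lit 1) (nat_lit 500) (nat_lit 1) (nat_lit 425) (nat_lit 361) (nat_lit 354)) (XT.nd (nat_lit 78) (nat_lit 0) (nat_lit 0) (XT.lf (nat_lit 1900) (nat_lit 720844628) (nat_lit 0) (nat_lit 1134606438) (nat_lit 1824) (nat_lit 720844628) (nat_lit 526) (nat_lit 1) (nat_lit 501) (nat_lit 1) (nat_lit 525) (nat_lit 1) (nat_lit 426) (nat_lit 361) (nat_lit 353)) (XT.lf (nat_lit 1900) (nat_lit 1356907140) (nat_lit 76) (nat_lit 597360051) (nat_lit 0) (nat_lit 597360051) (nat_lit 526) (nat_lit 1) (nat_lit 502) (nat_lit 1) (nat_lit 501) (nat_lit 1) (nat_lit 427) (nat_lit 361) (nat_lit 352)))))) (XT.nd (nat_lit 58500) (nat_lit 0) (nat_lit 0) (XT.nd (nat_lit 156) (nat_lit 380) (nat_lit 0) (XT.nd (nat_lit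 78) (nat_lit 0) (nat_lit 0) (XT.lf (nat_lit 1900) (nat_lit 632400639) (nat_lit 0) (nat_lit 1262465009) (nat_lit 1824) (nat_lit 632400639) (nat_lit 527) (nat_lit 1) (nat_lit 502) (nat_lit 1) (nat_lit 526) (nat_lit 1) (nat_lit 428) (nat_lit 361) (nat_lit 351)) (XT.lf (nat_lit 1900) (nat_lit 1166195724) (nat_lit 76) (nat_lit 668512209) (nat_lit 0) (nat_lit 668512209) (nat_lit 527) (nat_lit 1) (nat_lit 503) (nat_lit 1) (nat_lit 502) (nat_lit 1) (nat_lit 429) (nat_lit 361) (nat_lit 350))) (XT.nd (nat_lit 58266) (nat_lit 456) (nat_lit 0) (XT.lf (nat_lit 1900) (nat_lit 530900230) (nat_lit 0) (nat_lit 1417693594) (nat_lit 1824) (nat_lit 530900230) (nat_lit 528) (nat_lit 1) (nat_lit 503) (nat_lit 1) (nat_lit 527) (nat_lit 1) (nat_lit 430) (nat_lit 361) (nat_lit 349)) (XT.lf (nat_lit 1900) (nat_lit 472261197) (nat_lit 0) (nat_lit 476210399) (nat_lit 1900) (nat_lit 472261197) (nat_lit 522) (nat_lit 1) (nat_lit 497) (nat_lit 0) (nat_lit 522) (nat_lit 0) (nat_lit 416) (nat_lit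 362) (nat_lit 362)))) (XT.nd (nat_lit 156) (nat_lit 0) (nat_lit 76) (XT.nd (nat_lit 78) (nat_lit 0) (nat_lit 76) (XT.lf (nat_lit 1900) (nat_lit 1867391778) (nat_lit 76) (nat_lit 473077435) (nat_lit 0) (nat_lit 473077435) (nat_lit 522) (nat_lit 1) (nat_lit 498) (nat_lit 1) (nat_lit 497) (nat_lit 0) (nat_lit 417) (nat_lit 362) (nat_lit 361)) (XT.lf (nat_lit 1900) (nat_lit 916898252) (nat_lit 0) (nat_lit 952136152) (nat_lit 1824) (nat_lit 916898252) (nat_lit 523) (nat_lit 1) (nat_lit 498) (nat_lit 1) (nat_lit 522) (nat_lit 1) (nat_lit 418) (nat_lit 362) (nat_lit 360))) (XT.nd (nat_lit 78) (nat_lit 0) (nat_lit 76) (XT.lf (nat_lit 1900) (nat_lit 1794595907) (nat_lit 76) (nat_lit 482070691) (nat_lit 0) (nat_lit 482070691) (nat_lit 523) (nat_lit 1) (nat_lit 499) (nat_lit 1) (nat_lit 498) (nat_lit 1) (nat_lit 419) (nat_lit 362) (nat_lit 359)) (XT.nd (nat_lit 78) (nat_lit 0) (nat_lit 0) (XT.lf (nat_lit 1900) (nat_lit 872139604) (nat_lit 0) (nat_lit 987562923) (nat_lit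 1824) (nat_lit 872139604) (nat_lit 524) (nat_lit 1) (nat_lit 499) (nat_lit 1) (nat_lit 523) (nat_lit 1) (nat_lit 420) (nat_lit 362) (nat_lit 358)) (XT.lf (nat_lit 1900) (nat_lit 1688451986) (nat_lit 76) (nat_lit 508447473) (nat_lit 0) (nat_lit 508447473) (nat_lit 524) (nat_lit 1) (nat_lit 500) (nat_lit 1) (nat_lit 499) (nat_lit 1) (nat_lit 421) (nat_lit 362) (nat_lit 357))))))) (XT.nd (nat_lit 58734) (nat_lit 228) (nat_lit 0) (XT.nd (nat_lit 312) (nat_lit 0) (nat_lit 152) (XT.nd (nat_lit 156) (nat_lit 0) (nat_lit 76) (XT.nd (nat_lit 78) (nat_lit 0) (nat_lit 0) (XT.lf (nat_lit 1900) (nat_lit 811268807) (nat_lit 0) (nat_lit 1056614384) (nat_lit 1824) (nat_lit 811268807) (nat_lit 525) (nat_lit 1) (nat_lit 500) (nat_lit 1) (nat_lit 524) (nat_lit 1) (nat_lit 422) (nat_lit 362) (nat_lit 356)) (XT.lf (nat_lit 1900) (nat_lit 1550964272) (nat_lit 76) (nat_lit 551185058) (nat_lit 0) (nat_lit 551185058) (nat_lit 525) (nat_lit 1) (nat_lit 501) (nat_lit 1) (nat_lit 500) (nat_lit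 1) (nat_lit 423) (nat_lit 362) (nat_lit 355))) (XT.nd (nat_lit 78) (nat_lit 0) (nat_lit 0) (XT.lf (nat_lit 1900) (nat_lit 735261520) (nat_lit 0) (nat_lit 1157298567) (nat_lit 1824) (nat_lit 735261520) (nat_lit 526) (nat_lit 1) (nat_lit 501) (nat_lit 1) (nat_lit 525) (nat_lit 1) (nat_lit 424) (nat_lit 362) (nat_lit 354)) (XT.lf (nat_lit 1900) (nat_lit 1384045283) (nat_lit 76) (nat_lit 609307252) (nat_lit 0) (nat_lit 609307252) (nat_lit 526) (nat_lit 1) (nat_lit 502) (nat_lit 1) (nat_lit 501) (nat_lit 1) (nat_lit 425) (nat_lit 362) (nat_lit 353)))) (XT.nd (nat_lit 156) (nat_lit 0) (nat_lit 76) (XT.nd (nat_lit 78) (nat_lit 0) (nat_lit 0) (XT.lf (nat_lit 1900) (nat_lit 645048652) (nat_lit 0) (nat_lit 1287714309) (nat_lit 1824) (nat_lit 645048652) (nat_lit 527) (nat_lit 1) (nat_lit 502) (nat_lit 1) (nat_lit 526) (nat_lit 1) (nat_lit 426) (nat_lit 362) (nat_lit 352)) (XT.lf (nat_lit 1900) (nat_lit 1189519638) (nat_lit 76) (nat_lit 681882453) (nat_lit 0) (nat_lit 681882453)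 (nat_lit 527) (nat_lit 1) (nat_lit 503) (nat_lit 1) (nat_lit 502) (nat_lit 1) (nat_lit 427) (nat_lit 362) (nat_lit 351))) (XT.nd (nat_lit 78) (nat_lit 0) (nat_lit 0) (XT.lf (nat_lit 1900) (nat_lit 541518235) (nat_lit 0) (nat_lit 1446047466) (nat_lit 1824) (nat_lit 541518235) (nat_lit 528) (nat_lit 1) (nat_lit 503) (nat_lit 1) (nat_lit 527) (nat_lit 1) (nat_lit 428) (nat_lit 362) (nat_lit 350)) (XT.nd (nat_lit 78) (nat_lit 0) (nat_lit 76) (XT.lf (nat_lit 1900) (nat_lit 969127736) (nat_lit 76) (nat_lit 768021787) (nat_lit 0) (nat_lit 768021787) (nat_lit 528) (nat_lit 1) (nat_lit 504) (nat_lit 1) (nat_lit 503) (nat_lit 1) (nat_lit 429) (nat_lit 362) (nat_lit 349)) (XT.lf (nat_lit 1900) (nat_lit 425517221) (nat_lit 0) (nat_lit 1630567272) (nat_lit 1824) (nat_lit 425517221) (nat_lit 529) (nat_lit 1) (nat_lit 504) (nat_lit 1) (nat_lit 528) (nat_lit 1) (nat_lit 430) (nat_lit 362) (nat_lit 348)))))) (XT.nd (nat_lit 312) (nat_lit 0) (nat_lit 152) (XT.nd (nat_lit 156)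 (nat_lit 0) (nat_lit 76) (XT.nd (nat_lit 78) (nat_lit 0) (nat_lit 0) (XT.lf (nat_lit 1900) (nat_lit 481706421) (nat_lit 0) (nat_lit 485734607) (nat_lit 1900) (nat_lit 481706421) (nat_lit 522) (nat_lit 1) (nat_lit 497) (nat_lit 0) (nat_lit 522) (nat_lit 0) (nat_lit 414) (nat_lit 363) (nat_lit 363)) (XT.lf (nat_lit 1900) (nat_lit 1904739614) (nat_lit 76) (nat_lit 482538984) (nat_lit 0) (nat_lit 482538984) (nat_lit 522) (nat_lit 1) (nat_lit 498) (nat_lit 1) (nat_lit 497) (nat_lit 0) (nat_lit 415) (nat_lit 363) (nat_lit 362))) (XT.nd (nat_lit 78) (nat_lit 0) (nat_lit 0) (XT.lf (nat_lit 1900) (nat_lit 935236217) (nat_lit 0) (nat_lit 971178875) (nat_lit 1824) (nat_lit 935236217) (nat_lit 523) (nat_lit 1) (nat_lit 498) (nat_lit 1) (nat_lit 522) (nat_lit 1) (nat_lit 416) (nat_lit 363) (nat_lit 361)) (XT.lf (nat_lit 1900) (nat_lit 1830487825) (nat_lit 76) (nat_lit 491712105) (nat_lit 0) (nat_lit 491712105) (nat_lit 523) (nat_lit 1) (nat_lit 499) (nat_lit 1) (nat_lit 498)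 (nat_lit 1) (nat_lit 417) (nat_lit 363) (nat_lit 360)))) (XT.nd (nat_lit 156) (nat_lit 0) (nat_lit 76) (XT.nd (nat_lit 78) (nat_lit 0) (nat_lit 0) (XT.lf (nat_lit 1900) (nat_lit 889582396) (nat_lit 0) (nat_lit 1007314181) (nat_lit 1824) (nat_lit 889582396) (nat_lit 524) (nat_lit 1) (nat_lit 499) (nat_lit 1) (nat_lit 523) (nat_lit 1) (nat_lit 418) (nat_lit 363) (nat_lit 359)) (XT.lf (nat_lit 1900) (nat_lit 1722221026) (nat_lit 76) (nat_lit 518616423) (nat_lit 0) (nat_lit 518616423) (nat_lit 524) (nat_lit 1) (nat_lit 500) (nat_lit 1) (nat_lit 499) (nat_lit 1) (nat_lit 419) (nat_lit 363) (nat_lit 358))) (XT.nd (nat_lit 78) (nat_lit 0) (nat_lit 0) (XT.lf (nat_lit 1900) (nat_lit 827494183) (nat_lit 0) (nat_lit 1077746672) (nat_lit 1824) (nat_lit 827494183) (nat_lit 525) (nat_lit 1) (nat_lit 500) (nat_lit 1) (nat_lit 524) (nat_lit 1) (nat_lit 420) (nat_lit 363) (nat_lit 357)) (XT.nd (nat_lit 78) (nat_lit 0) (nat_lit 76) (XT.lf (nat_lit 1900) (nat_lit 1581983557) (nat_lit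 76) (nat_lit 562208759) (nat_lit 0) (nat_lit 562208759) (nat_lit 525) (nat_lit 1) (nat_lit 501) (nat_lit 1) (nat_lit 500) (nat_lit 1) (nat_lit 421) (nat_lit 363) (nat_lit 356)) (XT.lf (nat_lit 1900) (nat_lit 749966751) (nat_lit 0) (nat_lit 1180444538) (nat_lit 1824) (nat_lit 749966751) (nat_lit 526) (nat_lit 1) (nat_lit 501) (nat_lit 1) (nat_lit 525) (nat_lit 1) (nat_lit 422) (nat_lit 363) (nat_lit 355))))))))
noncomputable def ec2 : XT := (XT.nd (nat_lit 59280) (nat_lit 0) (nat_lit 0) (XT.nd (nat_lit 58578) (nat_lit 0) (nat_lit 0) (XT.nd (nat_lit 312) (nat_lit 304) (nat_lit 0) (XT.nd (nat_lit 156) (nat_lit 0) (nat_lit 76) (XT.nd (nat_lit 78) (nat_lit 0) (nat_lit 76) (XT.lf (nat_lit 1900) (nat_lit 1411726188) (nat_lit 76) (nat_lit 621493397) (nat_lit 0) (nat_lit 621493397) (nat_lit 526) (nat_lit 1) (nat_lit 502) (nat_lit 1) (nat_lit 501) (nat_lit 1) (nat_lit 423) (nat_lit 363) (nat_lit 354)) (XT.lf (nat_lit 1900) (nat_lit 657949625) (nat_lit 0) (nat_lit 1313468596)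 (nat_lit 1824) (nat_lit 657949625) (nat_lit 527) (nat_lit 1) (nat_lit 502) (nat_lit 1) (nat_lit 526) (nat_lit 1) (nat_lit 424) (nat_lit 363) (nat_lit 353))) (XT.nd (nat_lit 78) (nat_lit 0) (nat_lit 76) (XT.lf (nat_lit 1900) (nat_lit 1213310031) (nat_lit 76) (nat_lit 695520102) (nat_lit 0) (nat_lit 695520102) (nat_lit 527) (nat_lit 1) (nat_lit 503) (nat_lit 1) (nat_lit 502) (nat_lit 1) (nat_lit 425) (nat_lit 363) (nat_lit 352)) (XT.lf (nat_lit 1900) (nat_lit 552348599) (nat_lit 0) (nat_lit 1474968416) (nat_lit 1824) (nat_lit 552348599) (nat_lit 528) (nat_lit 1) (nat_lit 503) (nat_lit 1) (nat_lit 527) (nat_lit 1) (nat_lit 426) (nat_lit 363) (nat_lit 351)))) (XT.nd (nat_lit 156) (nat_lit 456) (nat_lit 0) (XT.nd (nat_lit 78) (nat_lit 0) (nat_lit 76) (XT.lf (nat_lit 1900) (nat_lit 988510291) (nat_lit 76) (nat_lit 783382222) (nat_lit 0) (nat_lit 783382222) (nat_lit 528) (nat_lit 1) (nat_lit 504) (nat_lit 1) (nat_lit 503) (nat_lit 1) (nat_lit 427) (nat_lit 363) (nat_lit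 350)) (XT.lf (nat_lit 1900) (nat_lit 434027566) (nat_lit 0) (nat_lit 1663178617) (nat_lit 1824) (nat_lit 434027566) (nat_lit 529) (nat_lit 1) (nat_lit 504) (nat_lit 1) (nat_lit 528) (nat_lit 1) (nat_lit 428) (nat_lit 363) (nat_lit 349))) (XT.nd (nat_lit 78) (nat_lit 532) (nat_lit 0) (XT.lf (nat_lit 1900) (nat_lit 739019874) (nat_lit 76) (nat_lit 884214866) (nat_lit 0) (nat_lit 884214866) (nat_lit 529) (nat_lit 1) (nat_lit 505) (nat_lit 1) (nat_lit 504) (nat_lit 1) (nat_lit 429) (nat_lit 363) (nat_lit 348)) (XT.nd (nat_lit 57954) (nat_lit 608) (nat_lit 0) (XT.lf (nat_lit 1900) (nat_lit 303810274) (nat_lit 0) (nat_lit 1876415306) (nat_lit 1824) (nat_lit 303810274) (nat_lit 530) (nat_lit 1) (nat_lit 505) (nat_lit 1) (nat_lit 529) (nat_lit 1) (nat_lit 430) (nat_lit 363) (nat_lit 347)) (XT.lf (nat_lit 1900) (nat_lit 491340549) (nat_lit 0) (nat_lit 495449299) (nat_lit 1900) (nat_lit 491340549) (nat_lit 522) (nat_lit 1) (nat_lit 497) (nat_lit 0) (nat_lit 522) (nat_lit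 0) (nat_lit 412) (nat_lit 364) (nat_lit 364)))))) (XT.nd (nat_lit 312) (nat_lit 0) (nat_lit 152) (XT.nd (nat_lit 156) (nat_lit 0) (nat_lit 76) (XT.nd (nat_lit 78) (nat_lit 0) (nat_lit 76) (XT.lf (nat_lit 1900) (nat_lit 1942834406) (nat_lit 76) (nat_lit 492189764) (nat_lit 0) (nat_lit 492189764) (nat_lit 522) (nat_lit 1) (nat_lit 498) (nat_lit 1) (nat_lit 497) (nat_lit 0) (nat_lit 413) (nat_lit 364) (nat_lit 363)) (XT.lf (nat_lit 1900) (nat_lit 953940941) (nat_lit 0) (nat_lit 990602453) (nat_lit 1824) (nat_lit 953940941) (nat_lit 523) (nat_lit 1) (nat_lit 498) (nat_lit 1) (nat_lit 522) (nat_lit 1) (nat_lit 414) (nat_lit 364) (nat_lit 362))) (XT.nd (nat_lit 78) (nat_lit 0) (nat_lit 76) (XT.lf (nat_lit 1900) (nat_lit 1867097581) (nat_lit 76) (nat_lit 501546347) (nat_lit 0) (nat_lit 501546347) (nat_lit 523) (nat_lit 1) (nat_lit 499) (nat_lit 1) (nat_lit 498) (nat_lit 1) (nat_lit 415) (nat_lit 364) (nat_lit 361)) (XT.lf (nat_lit 1900) (nat_lit 907374044) (nat_lit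 0) (nat_lit 1027460465) (nat_lit 1824) (nat_lit 907374044) (nat_lit 524) (nat_lit 1) (nat_lit 499) (nat_lit 1) (nat_lit 523) (nat_lit 1) (nat_lit 416) (nat_lit 364) (nat_lit 360)))) (XT.nd (nat_lit 156) (nat_lit 0) (nat_lit 76) (XT.nd (nat_lit 78) (nat_lit 0) (nat_lit 76) (XT.lf (nat_lit 1900) (nat_lit 1756665447) (nat_lit 76) (nat_lit 528988751) (nat_lit 0) (nat_lit 528988751) (nat_lit 524) (nat_lit 1) (nat_lit 500) (nat_lit 1) (nat_lit 499) (nat_lit 1) (nat_lit 417) (nat_lit 364) (nat_lit 359)) (XT.lf (nat_lit 1900) (nat_lit 844044067) (nat_lit 0) (nat_lit 1099301605) (nat_lit 1824) (nat_lit 844044067) (nat_lit 525) (nat_lit 1) (nat_lit 500) (nat_lit 1) (nat_lit 524) (nat_lit 1) (nat_lit 418) (nat_lit 364) (nat_lit 358))) (XT.nd (nat_lit 78) (nat_lit 0) (nat_lit 76) (XT.lf (nat_lit 1900) (nat_lit 1613623228) (nat_lit 76) (nat_lit 573452935) (nat_lit 0) (nat_lit 573452935) (nat_lit 525) (nat_lit 1) (nat_lit 501) (nat_lit 1) (nat_lit 500) (nat_lit 1) (nat_lit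 419) (nat_lit 364) (nat_lit 357)) (XT.nd (nat_lit 78) (nat_lit 0) (nat_lit 0) (XT.lf (nat_lit 1900) (nat_lit 764966086) (nat_lit 0) (nat_lit 1204053429) (nat_lit 1824) (nat_lit 764966086) (nat_lit 526) (nat_lit 1) (nat_lit 501) (nat_lit 1) (nat_lit 525) (nat_lit 1) (nat_lit 420) (nat_lit 364) (nat_lit 356)) (XT.lf (nat_lit 1900) (nat_lit 1439960712) (nat_lit 76) (nat_lit 633923265) (nat_lit 0) (nat_lit 633923265) (nat_lit 526) (nat_lit 1) (nat_lit 502) (nat_lit 1) (nat_lit 501) (nat_lit 1) (nat_lit 421) (nat_lit 364) (nat_lit 355))))))) (XT.nd (nat_lit 58422) (nat_lit 380) (nat_lit 0) (XT.nd (nat_lit 312) (nat_lit 0) (nat_lit 152) (XT.nd (nat_lit 156) (nat_lit 0) (nat_lit 76) (XT.nd (nat_lit 78) (nat_lit 0) (nat_lit 0) (XT.lf (nat_lit 1900) (nat_lit 671108617) (nat_lit 0) (nat_lit 1339737968) (nat_lit 1824) (nat_lit 671108617) (nat_lit 527) (nat_lit 1) (nat_lit 502) (nat_lit 1) (nat_lit 526) (nat_lit 1) (nat_lit 422) (nat_lit 364) (nat_lit 354)) (XT.lf (nat_lit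 1900) (nat_lit 1237576232) (nat_lit 76) (nat_lit 709430504) (nat_lit 0) (nat_lit 709430504) (nat_lit 527) (nat_lit 1) (nat_lit 503) (nat_lit 1) (nat_lit 502) (nat_lit 1) (nat_lit 423) (nat_lit 364) (nat_lit 353))) (XT.nd (nat_lit 78) (nat_lit 0) (nat_lit 0) (XT.lf (nat_lit 1900) (nat_lit 563395571) (nat_lit 0) (nat_lit 1504467784) (nat_lit 1824) (nat_lit 563395571) (nat_lit 528) (nat_lit 1) (nat_lit 503) (nat_lit 1) (nat_lit 527) (nat_lit 1) (nat_lit 424) (nat_lit 364) (nat_lit 352)) (XT.lf (nat_lit 1900) (nat_lit 1008280497) (nat_lit 76) (nat_lit 799049867) (nat_lit 0) (nat_lit 799049867) (nat_lit 528) (nat_lit 1) (nat_lit 504) (nat_lit 1) (nat_lit 503) (nat_lit 1) (nat_lit 425) (nat_lit 364) (nat_lit 351)))) (XT.nd (nat_lit 156) (nat_lit 0) (nat_lit 76) (XT.nd (nat_lit 78) (nat_lit 0) (nat_lit 0) (XT.lf (nat_lit 1900) (nat_lit 442708117) (nat_lit 0) (nat_lit 1696442190) (nat_lit 1824) (nat_lit 442708117) (nat_lit 529) (nat_lit 1) (nat_lit 504) (nat_lit 1) (nat_lit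 528) (nat_lit 1) (nat_lit 426) (nat_lit 364) (nat_lit 350)) (XT.lf (nat_lit 1900) (nat_lit 753800271) (nat_lit 76) (nat_lit 901899163) (nat_lit 0) (nat_lit 901899163) (nat_lit 529) (nat_lit 1) (nat_lit 505) (nat_lit 1) (nat_lit 504) (nat_lit 1) (nat_lit 427) (nat_lit 364) (nat_lit 349))) (XT.nd (nat_lit 78) (nat_lit 0) (nat_lit 0) (XT.lf (nat_lit 1900) (nat_lit 309886479) (nat_lit 0) (nat_lit 1913943612) (nat_lit 1824) (nat_lit 309886479) (nat_lit 530) (nat_lit 1) (nat_lit 505) (nat_lit 1) (nat_lit 529) (nat_lit 1) (nat_lit 428) (nat_lit 364) (nat_lit 348)) (XT.nd (nat_lit 78) (nat_lit 0) (nat_lit 76) (XT.lf (nat_lit 1900) (nat_lit 475781898) (nat_lit 76) (nat_lit 1017137012) (nat_lit 0) (nat_lit 1017137012) (nat_lit 530) (nat_lit 1) (nat_lit 506) (nat_lit 1) (nat_lit 505) (nat_lit 1) (nat_lit 429) (nat_lit 364) (nat_lit 347)) (XT.lf (nat_lit 1900) (nat_lit 165731659) (nat_lit 0) (nat_lit 2155334108) (nat_lit 1824) (nat_lit 165731659) (nat_lit 531) (nat_lit 1)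 (nat_lit 506) (nat_lit 1) (nat_lit 530) (nat_lit 1) (nat_lit 430) (nat_lit 364) (nat_lit 346)))))) (XT.nd (nat_lit 312) (nat_lit 0) (nat_lit 152) (XT.nd (nat_lit 156) (nat_lit 0) (nat_lit 76) (XT.nd (nat_lit 78) (nat_lit 0) (nat_lit 0) (XT.lf (nat_lit 1900) (nat_lit 501167360) (nat_lit 0) (nat_lit 505358285) (nat_lit 1900) (nat_lit 501167360) (nat_lit 522) (nat_lit 1) (nat_lit 497) (nat_lit 0) (nat_lit 522) (nat_lit 0) (nat_lit 410) (nat_lit 365) (nat_lit 365)) (XT.lf (nat_lit 1900) (nat_lit 1981691094) (nat_lit 76) (nat_lit 502033559) (nat_lit 0) (nat_lit 502033559) (nat_lit 522) (nat_lit 1) (nat_lit 498) (nat_lit 1) (nat_lit 497) (nat_lit 0) (nat_lit 411) (nat_lit 365) (nat_lit 364))) (XT.nd (nat_lit 78) (nat_lit 0) (nat_lit 0) (XT.lf (nat_lit 1900) (nat_lit 973019760) (nat_lit 0) (nat_lit 1010414502) (nat_lit 1824) (nat_lit 973019760) (nat_lit 523) (nat_lit 1) (nat_lit 498) (nat_lit 1) (nat_lit 522) (nat_lit 1) (nat_lit 412) (nat_lit 365) (nat_lit 363)) (XT.lf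 (nat_lit 1900) (nat_lit 1904439533) (nat_lit 76) (nat_lit 511577274) (nat_lit 0) (nat_lit 511577274) (nat_lit 523) (nat_lit 1) (nat_lit 499) (nat_lit 1) (nat_lit 498) (nat_lit 1) (nat_lit 413) (nat_lit 365) (nat_lit 362)))) (XT.nd (nat_lit 156) (nat_lit 0) (nat_lit 76) (XT.nd (nat_lit 78) (nat_lit 0) (nat_lit 0) (XT.lf (nat_lit 1900) (nat_lit 925521525) (nat_lit 0) (nat_lit 1048009674) (nat_lit 1824) (nat_lit 925521525) (nat_lit 524) (nat_lit 1) (nat_lit 499) (nat_lit 1) (nat_lit 523) (nat_lit 1) (nat_lit 414) (nat_lit 365) (nat_lit 361)) (XT.lf (nat_lit 1900) (nat_lit 1791798755) (nat_lit 76) (nat_lit 539568526) (nat_lit 0) (nat_lit 539568526) (nat_lit 524) (nat_lit 1) (nat_lit 500) (nat_lit 1) (nat_lit 499) (nat_lit 1) (nat_lit 415) (nat_lit 365) (nat_lit 360))) (XT.nd (nat_lit 78) (nat_lit 0) (nat_lit 0) (XT.lf (nat_lit 1900) (nat_lit 860924948) (nat_lit 0) (nat_lit 1121287637) (nat_lit 1824) (nat_lit 860924948) (nat_lit 525) (nat_lit 1) (nat_lit 500) (nat_lit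 1) (nat_lit 524) (nat_lit 1) (nat_lit 416) (nat_lit 365) (nat_lit 359)) (XT.nd (nat_lit 78) (nat_lit 0) (nat_lit 76) (XT.lf (nat_lit 1900) (nat_lit 1645895693) (nat_lit 76) (nat_lit 584921993) (nat_lit 0) (nat_lit 584921993) (nat_lit 525) (nat_lit 1) (nat_lit 501) (nat_lit 1) (nat_lit 500) (nat_lit 1) (nat_lit 417) (nat_lit 365) (nat_lit 358)) (XT.lf (nat_lit 1900) (nat_lit 780265407) (nat_lit 0) (nat_lit 1228134498) (nat_lit 1824) (nat_lit 780265407) (nat_lit 526) (nat_lit 1) (nat_lit 501) (nat_lit 1) (nat_lit 525) (nat_lit 1) (nat_lit 418) (nat_lit 365) (nat_lit 357))))))))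
noncomputable def ec3 : XT := (XT.nd (nat_lit 58968) (nat_lit 1140) (nat_lit 0) (XT.nd (nat_lit 702) (nat_lit 304) (nat_lit 0) (XT.nd (nat_lit 312) (nat_lit 0) (nat_lit 152) (XT.nd (nat_lit 156) (nat_lit 0) (nat_lit 76) (XT.nd (nat_lit 78) (nat_lit 0) (nat_lit 76) (XT.lf (nat_lit 1900) (nat_lit 1468759927) (nat_lit 76) (nat_lit 646601731) (nat_lit 0) (nat_lit 646601731) (nat_lit 526) (nat_lit 1) (nat_lit 502) (nat_lit 1) (nat_lit 501) (nat_lit 1) (nat_lit 419) (nat_lit 365) (nat_lit 356)) (XT.lf (nat_lit 1900) (nat_lit 684530790) (nat_lit 0) (nat_lit 1366532727) (nat_lit 1824) (nat_lit 684530790) (nat_lit 527) (nat_lit 1) (nat_lit 502) (nat_lit 1) (nat_lit 526) (nat_lit 1) (nat_lit 420) (nat_lit 365) (nat_lit 355))) (XT.nd (nat_lit 78) (nat_lit 0) (nat_lit 76) (XT.lf (nat_lit 1900) (nat_lit 1262327756) (nat_lit 76) (nat_lit 723619114) (nat_lit 0) (nat_lit 723619114) (nat_lit 527) (nat_lit 1) (nat_lit 503) (nat_lit 1) (nat_lit 502) (nat_lit 1) (nat_lit 421) (nat_lit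 365) (nat_lit 354)) (XT.lf (nat_lit 1900) (nat_lit 574663483) (nat_lit 0) (nat_lit 1534557140) (nat_lit 1824) (nat_lit 574663483) (nat_lit 528) (nat_lit 1) (nat_lit 503) (nat_lit 1) (nat_lit 527) (nat_lit 1) (nat_lit 422) (nat_lit 365) (nat_lit 353)))) (XT.nd (nat_lit 156) (nat_lit 0) (nat_lit 76) (XT.nd (nat_lit 78) (nat_lit 0) (nat_lit 76) (XT.lf (nat_lit 1900) (nat_lit 1028446107) (nat_lit 76) (nat_lit 815030864) (nat_lit 0) (nat_lit 815030864) (nat_lit 528) (nat_lit 1) (nat_lit 504) (nat_lit 1) (nat_lit 503) (nat_lit 1) (nat_lit 423) (nat_lit 365) (nat_lit 352)) (XT.lf (nat_lit 1900) (nat_lit 451562279) (nat_lit 0) (nat_lit 1730371034) (nat_lit 1824) (nat_lit 451562279) (nat_lit 529) (nat_lit 1) (nat_lit 504) (nat_lit 1) (nat_lit 528) (nat_lit 1) (nat_lit 424) (nat_lit 365) (nat_lit 351))) (XT.nd (nat_lit 78) (nat_lit 0) (nat_lit 76) (XT.lf (nat_lit 1900) (nat_lit 768876277) (nat_lit 76) (nat_lit 919937146) (nat_lit 0) (nat_lit 919937146) (nat_lit 529) (nat_lit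 1) (nat_lit 505) (nat_lit 1) (nat_lit 504) (nat_lit 1) (nat_lit 425) (nat_lit 365) (nat_lit 350)) (XT.nd (nat_lit 78) (nat_lit 0) (nat_lit 0) (XT.lf (nat_lit 1900) (nat_lit 316084209) (nat_lit 0) (nat_lit 1952222485) (nat_lit 1824) (nat_lit 316084209) (nat_lit 530) (nat_lit 1) (nat_lit 505) (nat_lit 1) (nat_lit 529) (nat_lit 1) (nat_lit 426) (nat_lit 365) (nat_lit 349)) (XT.lf (nat_lit 1900) (nat_lit 485297536) (nat_lit 76) (nat_lit 1037479752) (nat_lit 0) (nat_lit 1037479752) (nat_lit 530) (nat_lit 1) (nat_lit 506) (nat_lit 1) (nat_lit 505) (nat_lit 1) (nat_lit 427) (nat_lit 365) (nat_lit 348)))))) (XT.nd (nat_lit 57876) (nat_lit 0) (nat_lit 0) (XT.nd (nat_lit 156) (nat_lit 684) (nat_lit 0) (XT.nd (nat_lit 78) (nat_lit 0) (nat_lit 0) (XT.lf (nat_lit 1900) (nat_lit 169046292) (nat_lit 0) (nat_lit 2198440790) (nat_lit 1824) (nat_lit 169046292) (nat_lit 531) (nat_lit 1) (nat_lit 506) (nat_lit 1) (nat_lit 530) (nat_lit 1) (nat_lit 428) (nat_lit 365) (nat_lit 347))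 (XT.lf (nat_lit 1900) (nat_lit 179310579) (nat_lit 76) (nat_lit 1166840351) (nat_lit 0) (nat_lit 1166840351) (nat_lit 531) (nat_lit 1) (nat_lit 507) (nat_lit 1) (nat_lit 506) (nat_lit 1) (nat_lit 429) (nat_lit 365) (nat_lit 346))) (XT.nd (nat_lit 57642) (nat_lit 760) (nat_lit 0) (XT.lf (nat_lit 1900) (nat_lit 11227229) (nat_lit 0) (nat_lit 2467433057) (nat_lit 1824) (nat_lit 11227229) (nat_lit 532) (nat_lit 1) (nat_lit 507) (nat_lit 1) (nat_lit 531) (nat_lit 1) (nat_lit 430) (nat_lit 365) (nat_lit 345)) (XT.lf (nat_lit 1900) (nat_lit 511190707) (nat_lit 0) (nat_lit 515465450) (nat_lit 1900) (nat_lit 511190707) (nat_lit 522) (nat_lit 1) (nat_lit 497) (nat_lit 0) (nat_lit 522) (nat_lit 0) (nat_lit 408) (nat_lit 366) (nat_lit 366)))) (XT.nd (nat_lit 156) (nat_lit 0) (nat_lit 76) (XT.nd (nat_lit 78) (nat_lit 0) (nat_lit 76) (XT.lf (nat_lit 1900) (nat_lit 2021324916) (nat_lit 76) (nat_lit 512074230) (nat_lit 0) (nat_lit 512074230) (nat_lit 522) (nat_lit 1) (nat_lit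 498) (nat_lit 1) (nat_lit 497) (nat_lit 0) (nat_lit 409) (nat_lit 366) (nat_lit 365)) (XT.lf (nat_lit 1900) (nat_lit 992480155) (nat_lit 0) (nat_lit 1030622792) (nat_lit 1824) (nat_lit 992480155) (nat_lit 523) (nat_lit 1) (nat_lit 498) (nat_lit 1) (nat_lit 522) (nat_lit 1) (nat_lit 410) (nat_lit 366) (nat_lit 364))) (XT.nd (nat_lit 78) (nat_lit 0) (nat_lit 76) (XT.lf (nat_lit 1900) (nat_lit 1942528324) (nat_lit 76) (nat_lit 521808819) (nat_lit 0) (nat_lit 521808819) (nat_lit 523) (nat_lit 1) (nat_lit 499) (nat_lit 1) (nat_lit 498) (nat_lit 1) (nat_lit 411) (nat_lit 366) (nat_lit 363)) (XT.nd (nat_lit 78) (nat_lit 0) (nat_lit 0) (XT.lf (nat_lit 1900) (nat_lit 944031955) (nat_lit 0) (nat_lit 1068969868) (nat_lit 1824) (nat_lit 944031955) (nat_lit 524) (nat_lit 1) (nat_lit 499) (nat_lit 1) (nat_lit 523) (nat_lit 1) (nat_lit 412) (nat_lit 366) (nat_lit 362)) (XT.lf (nat_lit 1900) (nat_lit 1827634731) (nat_lit 76) (nat_lit 550359897) (nat_lit 0) (nat_lit 550359897)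 (nat_lit 524) (nat_lit 1) (nat_lit 500) (nat_lit 1) (nat_lit 499) (nat_lit 1) (nat_lit 413) (nat_lit 366) (nat_lit 361))))))) (XT.nd (nat_lit 702) (nat_lit 1368) (nat_lit 0) (XT.nd (nat_lit 312) (nat_lit 0) (nat_lit 152) (XT.nd (nat_lit 156) (nat_lit 0) (nat_lit 76) (XT.nd (nat_lit 78) (nat_lit 0) (nat_lit 0) (XT.lf (nat_lit 1900) (nat_lit 878143447) (nat_lit 0) (nat_lit 1143713390) (nat_lit 1824) (nat_lit 878143447) (nat_lit 525) (nat_lit 1) (nat_lit 500) (nat_lit 1) (nat_lit 524) (nat_lit 1) (nat_lit 414) (nat_lit 366) (nat_lit 360)) (XT.lf (nat_lit 1900) (nat_lit 1678813607) (nat_lit 76) (nat_lit 596620433) (nat_lit 0) (nat_lit 596620433) (nat_lit 525) (nat_lit 1) (nat_lit 501) (nat_lit 1) (nat_lit 500) (nat_lit 1) (nat_lit 415) (nat_lit 366) (nat_lit 359))) (XT.nd (nat_lit 78) (nat_lit 0) (nat_lit 0) (XT.lf (nat_lit 1900) (nat_lit 795870716) (nat_lit 0) (nat_lit 1252697188) (nat_lit 1824) (nat_lit 795870716) (nat_lit 526) (nat_lit 1) (nat_lit 501) (nat_lit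 1) (nat_lit 525) (nat_lit 1) (nat_lit 416) (nat_lit 366) (nat_lit 358)) (XT.lf (nat_lit 1900) (nat_lit 1498135125) (nat_lit 76) (nat_lit 659533765) (nat_lit 0) (nat_lit 659533765) (nat_lit 526) (nat_lit 1) (nat_lit 502) (nat_lit 1) (nat_lit 501) (nat_lit 1) (nat_lit 417) (nat_lit 366) (nat_lit 357)))) (XT.nd (nat_lit 156) (nat_lit 0) (nat_lit 76) (XT.nd (nat_lit 78) (nat_lit 0) (nat_lit 0) (XT.lf (nat_lit 1900) (nat_lit 698221406) (nat_lit 0) (nat_lit 1393863381) (nat_lit 1824) (nat_lit 698221406) (nat_lit 527) (nat_lit 1) (nat_lit 502) (nat_lit 1) (nat_lit 526) (nat_lit 1) (nat_lit 418) (nat_lit 366) (nat_lit 356)) (XT.lf (nat_lit 1900) (nat_lit 1287574311) (nat_lit 76) (nat_lit 738091497) (nat_lit 0) (nat_lit 738091497) (nat_lit 527) (nat_lit 1) (nat_lit 503) (nat_lit 1) (nat_lit 502) (nat_lit 1) (nat_lit 419) (nat_lit 366) (nat_lit 355))) (XT.nd (nat_lit 78) (nat_lit 0) (nat_lit 0) (XT.lf (nat_lit 1900) (nat_lit 586156752) (nat_lit 0) (nat_lit 1565248282)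 (nat_lit 1824) (nat_lit 586156752) (nat_lit 528) (nat_lit 1) (nat_lit 503) (nat_lit 1) (nat_lit 527) (nat_lit 1) (nat_lit 420) (nat_lit 366) (nat_lit 354)) (XT.nd (nat_lit 78) (nat_lit 0) (nat_lit 76) (XT.lf (nat_lit 1900) (nat_lit 1049015029) (nat_lit 76) (nat_lit 831331482) (nat_lit 0) (nat_lit 831331482) (nat_lit 528) (nat_lit 1) (nat_lit 504) (nat_lit 1) (nat_lit 503) (nat_lit 1) (nat_lit 421) (nat_lit 366) (nat_lit 353)) (XT.lf (nat_lit 1900) (nat_lit 460593525) (nat_lit 0) (nat_lit 1764978454) (nat_lit 1824) (nat_lit 460593525) (nat_lit 529) (nat_lit 1) (nat_lit 504) (nat_lit 1) (nat_lit 528) (nat_lit 1) (nat_lit 422) (nat_lit 366) (nat_lit 352)))))) (XT.nd (nat_lit 312) (nat_lit 1672) (nat_lit 0) (XT.nd (nat_lit 156) (nat_lit 0) (nat_lit 76) (XT.nd (nat_lit 78) (nat_lit 0) (nat_lit 76) (XT.lf (nat_lit 1900) (nat_lit 784253802) (nat_lit 76) (nat_lit 938335889) (nat_lit 0) (nat_lit 938335889) (nat_lit 529) (nat_lit 1) (nat_lit 505) (nat_lit 1) (nat_lit 504)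 (nat_lit 1) (nat_lit 423) (nat_lit 366) (nat_lit 351)) (XT.lf (nat_lit 1900) (nat_lit 322405893) (nat_lit 0) (nat_lit 1991266934) (nat_lit 1824) (nat_lit 322405893) (nat_lit 530) (nat_lit 1) (nat_lit 505) (nat_lit 1) (nat_lit 529) (nat_lit 1) (nat_lit 424) (nat_lit 366) (nat_lit 350))) (XT.nd (nat_lit 78) (nat_lit 0) (nat_lit 76) (XT.lf (nat_lit 1900) (nat_lit 495003487) (nat_lit 76) (nat_lit 1058229347) (nat_lit 0) (nat_lit 1058229347) (nat_lit 530) (nat_lit 1) (nat_lit 506) (nat_lit 1) (nat_lit 505) (nat_lit 1) (nat_lit 425) (nat_lit 366) (nat_lit 349)) (XT.lf (nat_lit 1900) (nat_lit 172427218) (nat_lit 0) (nat_lit 2242409606) (nat_lit 1824) (nat_lit 172427218) (nat_lit 531) (nat_lit 1) (nat_lit 506) (nat_lit 1) (nat_lit 530) (nat_lit 1) (nat_lit 426) (nat_lit 366) (nat_lit 348)))) (XT.nd (nat_lit 156) (nat_lit 1824) (nat_lit 0) (XT.nd (nat_lit 78) (nat_lit 0) (nat_lit 76) (XT.lf (nat_lit 1900) (nat_lit 182896790) (nat_lit 76) (nat_lit 1190177158) (nat_lit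 0) (nat_lit 1190177158) (nat_lit 531) (nat_lit 1) (nat_lit 507) (nat_lit 1) (nat_lit 506) (nat_lit 1) (nat_lit 427) (nat_lit 366) (nat_lit 347)) (XT.lf (nat_lit 1900) (nat_lit 11451773) (nat_lit 0) (nat_lit 2516781718) (nat_lit 1824) (nat_lit 11451773) (nat_lit 532) (nat_lit 1) (nat_lit 507) (nat_lit 1) (nat_lit 531) (nat_lit 1) (nat_lit 428) (nat_lit 366) (nat_lit 346))) (XT.nd (nat_lit 78) (nat_lit 0) (nat_lit 0) (XT.lf (nat_lit 1976) (nat_lit 1183850457) (nat_lit 0) (nat_lit 148536377) (nat_lit 1900) (nat_lit 1183850457) (nat_lit 508) (nat_lit 1) (nat_lit 482) (nat_lit 1) (nat_lit 507) (nat_lit 1) (nat_lit 429) (nat_lit 366) (nat_lit 345)) (XT.nd (nat_lit 57486) (nat_lit 0) (nat_lit 1140) (XT.lf (nat_lit 1976) (nat_lit 2175799010) (nat_lit 76) (nat_lit 158712529) (nat_lit 0) (nat_lit 158712529) (nat_lit 508) (nat_lit 1) (nat_lit 483) (nat_lit 1) (nat_lit 482) (nat_lit 1) (nat_lit 430) (nat_lit 366) (nat_lit 344)) (XT.lf (nat_lit 1900) (nat_lit 521414521) (nat_lit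 0) (nat_lit 525774759) (nat_lit 1900) (nat_lit 521414521) (nat_lit 522) (nat_lit 1) (nat_lit 497) (nat_lit 0) (nat_lit 522) (nat_lit 0) (nat_lit 406) (nat_lit 367) (nat_lit 367))))))))
noncomputable def ec4 : XT := (XT.nd (nat_lit 1404) (nat_lit 1140) (nat_lit 0) (XT.nd (nat_lit 702) (nat_lit 0) (nat_lit 380) (XT.nd (nat_lit 312) (nat_lit 0) (nat_lit 152) (XT.nd (nat_lit 156) (nat_lit 0) (nat_lit 76) (XT.nd (nat_lit 78) (nat_lit 0) (nat_lit 76) (XT.lf (nat_lit 1900) (nat_lit 2061751414) (nat_lit 76) (nat_lit 522315715) (nat_lit 0) (nat_lit 522315715) (nat_lit 522) (nat_lit 1) (nat_lit 498) (nat_lit 1) (nat_lit 497) (nat_lit 0) (nat_lit 407) (nat_lit 367) (nat_lit 366)) (XT.lf (nat_lit 1900) (nat_lit 1012329758) (nat_lit 0) (nat_lit 1051235248) (nat_lit 1824) (nat_lit 1012329758) (nat_lit 523) (nat_lit 1) (nat_lit 498) (nat_lit 1) (nat_lit 522) (nat_lit 1) (nat_lit 408) (nat_lit 367) (nat_lit 365))) (XT.nd (nat_lit 78) (nat_lit 0) (nat_lit 76) (XT.lf (nat_lit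 1900) (nat_lit 1981378890) (nat_lit 76) (nat_lit 532244996) (nat_lit 0) (nat_lit 532244996) (nat_lit 523) (nat_lit 1) (nat_lit 499) (nat_lit 1) (nat_lit 498) (nat_lit 1) (nat_lit 409) (nat_lit 367) (nat_lit 364)) (XT.lf (nat_lit 1900) (nat_lit 962912594) (nat_lit 0) (nat_lit 1090349265) (nat_lit 1824) (nat_lit 962912594) (nat_lit 524) (nat_lit 1) (nat_lit 499) (nat_lit 1) (nat_lit 523) (nat_lit 1) (nat_lit 410) (nat_lit 367) (nat_lit 363)))) (XT.nd (nat_lit 156) (nat_lit 0) (nat_lit 76) (XT.nd (nat_lit 78) (nat_lit 0) (nat_lit 76) (XT.lf (nat_lit 1900) (nat_lit 1864187425) (nat_lit 76) (nat_lit 561367095) (nat_lit 0) (nat_lit 561367095) (nat_lit 524) (nat_lit 1) (nat_lit 500) (nat_lit 1) (nat_lit 499) (nat_lit 1) (nat_lit 411) (nat_lit 367) (nat_lit 362)) (XT.lf (nat_lit 1900) (nat_lit 895706316) (nat_lit 0) (nat_lit 1166587658) (nat_lit 1824) (nat_lit 895706316) (nat_lit 525) (nat_lit 1) (nat_lit 500) (nat_lit 1) (nat_lit 524) (nat_lit 1) (nat_lit 412) (nat_lit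 367) (nat_lit 361))) (XT.nd (nat_lit 78) (nat_lit 0) (nat_lit 76) (XT.lf (nat_lit 1900) (nat_lit 1712389879) (nat_lit 76) (nat_lit 608552842) (nat_lit 0) (nat_lit 608552842) (nat_lit 525) (nat_lit 1) (nat_lit 501) (nat_lit 1) (nat_lit 500) (nat_lit 1) (nat_lit 413) (nat_lit 367) (nat_lit 360)) (XT.nd (nat_lit 78) (nat_lit 0) (nat_lit 0) (XT.lf (nat_lit 1900) (nat_lit 811788130) (nat_lit 0) (nat_lit 1277751132) (nat_lit 1824) (nat_lit 811788130) (nat_lit 526) (nat_lit 1) (nat_lit 501) (nat_lit 1) (nat_lit 525) (nat_lit 1) (nat_lit 414) (nat_lit 367) (nat_lit 359)) (XT.lf (nat_lit 1900) (nat_lit 1528097828) (nat_lit 76) (nat_lit 672724440) (nat_lit 0) (nat_lit 672724440) (nat_lit 526) (nat_lit 1) (nat_lit 502) (nat_lit 1) (nat_lit 501) (nat_lit 1) (nat_lit 415) (nat_lit 367) (nat_lit 358)))))) (XT.nd (nat_lit 312) (nat_lit 0) (nat_lit 152) (XT.nd (nat_lit 156) (nat_lit 0) (nat_lit 76) (XT.nd (nat_lit 78) (nat_lit 0) (nat_lit 0) (XT.lf (nat_lit 1900) (nat_lit 712185834)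 (nat_lit 0) (nat_lit 1421740649) (nat_lit 1824) (nat_lit 712185834) (nat_lit 527) (nat_lit 1) (nat_lit 502) (nat_lit 1) (nat_lit 526) (nat_lit 1) (nat_lit 416) (nat_lit 367) (nat_lit 357)) (XT.lf (nat_lit 1900) (nat_lit 1313325798) (nat_lit 76) (nat_lit 752853327) (nat_lit 0) (nat_lit 752853327) (nat_lit 527) (nat_lit 1) (nat_lit 503) (nat_lit 1) (nat_lit 502) (nat_lit 1) (nat_lit 417) (nat_lit 367) (nat_lit 356))) (XT.nd (nat_lit 78) (nat_lit 0) (nat_lit 0) (XT.lf (nat_lit 1900) (nat_lit 597879887) (nat_lit 0) (nat_lit 1596553248) (nat_lit 1824) (nat_lit 597879887) (nat_lit 528) (nat_lit 1) (nat_lit 503) (nat_lit 1) (nat_lit 527) (nat_lit 1) (nat_lit 418) (nat_lit 367) (nat_lit 355)) (XT.lf (nat_lit 1900) (nat_lit 1069995330) (nat_lit 76) (nat_lit 847958111) (nat_lit 0) (nat_lit 847958111) (nat_lit 528) (nat_lit 1) (nat_lit 504) (nat_lit 1) (nat_lit 503) (nat_lit 1) (nat_lit 419) (nat_lit 367) (nat_lit 354)))) (XT.nd (nat_lit 156) (nat_lit 0) (nat_lit 76) (XT.nd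 (nat_lit 78) (nat_lit 0) (nat_lit 0) (XT.lf (nat_lit 1900) (nat_lit 469805395) (nat_lit 0) (nat_lit 1800278023) (nat_lit 1824) (nat_lit 469805395) (nat_lit 529) (nat_lit 1) (nat_lit 504) (nat_lit 1) (nat_lit 528) (nat_lit 1) (nat_lit 420) (nat_lit 367) (nat_lit 353)) (XT.lf (nat_lit 1900) (nat_lit 799938878) (nat_lit 76) (nat_lit 957102607) (nat_lit 0) (nat_lit 957102607) (nat_lit 529) (nat_lit 1) (nat_lit 505) (nat_lit 1) (nat_lit 504) (nat_lit 1) (nat_lit 421) (nat_lit 367) (nat_lit 352))) (XT.nd (nat_lit 78) (nat_lit 0) (nat_lit 0) (XT.lf (nat_lit 1900) (nat_lit 328854011) (nat_lit 0) (nat_lit 2031092273) (nat_lit 1824) (nat_lit 328854011) (nat_lit 530) (nat_lit 1) (nat_lit 505) (nat_lit 1) (nat_lit 529) (nat_lit 1) (nat_lit 422) (nat_lit 367) (nat_lit 351)) (XT.nd (nat_lit 78) (nat_lit 0) (nat_lit 76) (XT.lf (nat_lit 1900) (nat_lit 504903557) (nat_lit 76) (nat_lit 1079393934) (nat_lit 0) (nat_lit 1079393934) (nat_lit 530) (nat_lit 1) (nat_lit 506) (nat_lit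 1) (nat_lit 505) (nat_lit 1) (nat_lit 423) (nat_lit 367) (nat_lit 350)) (XT.lf (nat_lit 1900) (nat_lit 175875762) (nat_lit 0) (nat_lit 2287257798) (nat_lit 1824) (nat_lit 175875762) (nat_lit 531) (nat_lit 1) (nat_lit 506) (nat_lit 1) (nat_lit 530) (nat_lit 1) (nat_lit 424) (nat_lit 367) (nat_lit 349))))))) (XT.nd (nat_lit 57954) (nat_lit 0) (nat_lit 1216) (XT.nd (nat_lit 312) (nat_lit 0) (nat_lit 76) (XT.nd (nat_lit 156) (nat_lit 1824) (nat_lit 0) (XT.nd (nat_lit 78) (nat_lit 0) (nat_lit 76) (XT.lf (nat_lit 1900) (nat_lit 186554726) (nat_lit 76) (nat_lit 1213980702) (nat_lit 0) (nat_lit 1213980702) (nat_lit 531) (nat_lit 1) (nat_lit 507) (nat_lit 1) (nat_lit 506) (nat_lit 1) (nat_lit 425) (nat_lit 367) (nat_lit 348)) (XT.lf (nat_lit 1900) (nat_lit 11680809) (nat_lit 0) (nat_lit 2567117352) (nat_lit 1824) (nat_lit 11680809) (nat_lit 532) (nat_lit 1) (nat_lit 507) (nat_lit 1) (nat_lit 531) (nat_lit 1) (nat_lit 426) (nat_lit 367) (nat_lit 347))) (XT.nd (nat_lit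 78) (nat_lit 0) (nat_lit 0) (XT.lf (nat_lit 1976) (nat_lit 1207527466) (nat_lit 0) (nat_lit 151507104) (nat_lit 1900) (nat_lit 1207527466) (nat_lit 508) (nat_lit 1) (nat_lit 482) (nat_lit 1) (nat_lit 507) (nat_lit 1) (nat_lit 427) (nat_lit 367) (nat_lit 346)) (XT.lf (nat_lit 1976) (nat_lit 2219314991) (nat_lit 76) (nat_lit 161886780) (nat_lit 0) (nat_lit 161886780) (nat_lit 508) (nat_lit 1) (nat_lit 483) (nat_lit 1) (nat_lit 482) (nat_lit 1) (nat_lit 428) (nat_lit 367) (nat_lit 345)))) (XT.nd (nat_lit 57408) (nat_lit 0) (nat_lit 1064) (XT.nd (nat_lit 78) (nat_lit 0) (nat_lit 0) (XT.lf (nat_lit 1976) (nat_lit 1006357818) (nat_lit 0) (nat_lit 507071509) (nat_lit 1900) (nat_lit 1006357818) (nat_lit 509) (nat_lit 1) (nat_lit 483) (nat_lit 1) (nat_lit 508) (nat_lit 1) (nat_lit 429) (nat_lit 367) (nat_lit 344)) (XT.lf (nat_lit 1976) (nat_lit 1806831252) (nat_lit 76) (nat_lit 345022982) (nat_lit 0) (nat_lit 345022982) (nat_lit 509) (nat_lit 1) (nat_lit 484) (nat_lit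 1) (nat_lit 483) (nat_lit 1) (nat_lit 430) (nat_lit 367) (nat_lit 343))) (XT.nd (nat_lit 78) (nat_lit 0) (nat_lit 0) (XT.lf (nat_lit 1900) (nat_lit 531842812) (nat_lit 0) (nat_lit 536290255) (nat_lit 1900) (nat_lit 531842812) (nat_lit 522) (nat_lit 1) (nat_lit 497) (nat_lit 0) (nat_lit 522) (nat_lit 0) (nat_lit 404) (nat_lit 368) (nat_lit 368)) (XT.nd (nat_lit 78) (nat_lit 0) (nat_lit 76) (XT.lf (nat_lit 1900) (nat_lit 2102986442) (nat_lit 76) (nat_lit 532762029) (nat_lit 0) (nat_lit 532762029) (nat_lit 522) (nat_lit 1) (nat_lit 498) (nat_lit 1) (nat_lit 497) (nat_lit 0) (nat_lit 405) (nat_lit 368) (nat_lit 367)) (XT.lf (nat_lit 1900) (nat_lit 1032576353) (nat_lit 0) (nat_lit 1072259953) (nat_lit 1824) (nat_lit 1032576353) (nat_lit 523) (nat_lit 1) (nat_lit 498) (nat_lit 1) (nat_lit 522) (nat_lit 1) (nat_lit 406) (nat_lit 368) (nat_lit 366)))))) (XT.nd (nat_lit 312) (nat_lit 0) (nat_lit 152) (XT.nd (nat_lit 156) (nat_lit 0) (nat_lit 76) (XT.nd (nat_lit 78) (nat_lit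 0) (nat_lit 76) (XT.lf (nat_lit 1900) (nat_lit 2021006468) (nat_lit 76) (nat_lit 542889896) (nat_lit 0) (nat_lit 542889896) (nat_lit 523) (nat_lit 1) (nat_lit 499) (nat_lit 1) (nat_lit 498) (nat_lit 1) (nat_lit 407) (nat_lit 368) (nat_lit 365)) (XT.lf (nat_lit 1900) (nat_lit 982170846) (nat_lit 0) (nat_lit 1112156250) (nat_lit 1824) (nat_lit 982170846) (nat_lit 524) (nat_lit 1) (nat_lit 499) (nat_lit 1) (nat_lit 523) (nat_lit 1) (nat_lit 408) (nat_lit 368) (nat_lit 364))) (XT.nd (nat_lit 78) (nat_lit 0) (nat_lit 76) (XT.lf (nat_lit 1900) (nat_lit 1901471174) (nat_lit 76) (nat_lit 572594437) (nat_lit 0) (nat_lit 572594437) (nat_lit 524) (nat_lit 1) (nat_lit 500) (nat_lit 1) (nat_lit 499) (nat_lit 1) (nat_lit 409) (nat_lit 368) (nat_lit 363)) (XT.lf (nat_lit 1900) (nat_lit 913620443) (nat_lit 0) (nat_lit 1189919411) (nat_lit 1824) (nat_lit 913620443) (nat_lit 525) (nat_lit 1) (nat_lit 500) (nat_lit 1) (nat_lit 524) (nat_lit 1) (nat_lit 410) (nat_lit 368) (nat_lit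 362)))) (XT.nd (nat_lit 156) (nat_lit 0) (nat_lit 76) (XT.nd (nat_lit 78) (nat_lit 0) (nat_lit 76) (XT.lf (nat_lit 1900) (nat_lit 1746637677) (nat_lit 76) (nat_lit 620723899) (nat_lit 0) (nat_lit 620723899) (nat_lit 525) (nat_lit 1) (nat_lit 501) (nat_lit 1) (nat_lit 500) (nat_lit 1) (nat_lit 411) (nat_lit 368) (nat_lit 361)) (XT.lf (nat_lit 1900) (nat_lit 828023892) (nat_lit 0) (nat_lit 1303306154) (nat_lit 1824) (nat_lit 828023892) (nat_lit 526) (nat_lit 1) (nat_lit 501) (nat_lit 1) (nat_lit 525) (nat_lit 1) (nat_lit 412) (nat_lit 368) (nat_lit 360))) (XT.nd (nat_lit 78) (nat_lit 0) (nat_lit 76) (XT.lf (nat_lit 1900) (nat_lit 1558659784) (nat_lit 76) (nat_lit 686178929) (nat_lit 0) (nat_lit 686178929) (nat_lit 526) (nat_lit 1) (nat_lit 502) (nat_lit 1) (nat_lit 501) (nat_lit 1) (nat_lit 413) (nat_lit 368) (nat_lit 359)) (XT.nd (nat_lit 78) (nat_lit 0) (nat_lit 0) (XT.lf (nat_lit 1900) (nat_lit 726429550) (nat_lit 0) (nat_lit 1450175462) (nat_lit 1824) (nat_lit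 726429550) (nat_lit 527) (nat_lit 1) (nat_lit 502) (nat_lit 1) (nat_lit 526) (nat_lit 1) (nat_lit 414) (nat_lit 368) (nat_lit 358)) (XT.lf (nat_lit 1900) (nat_lit 1339592313) (nat_lit 76) (nat_lit 767910393) (nat_lit 0) (nat_lit 767910393) (nat_lit 527) (nat_lit 1) (nat_lit 503) (nat_lit 1) (nat_lit 502) (nat_lit 1) (nat_lit 415) (nat_lit 368) (nat_lit 357))))))))
noncomputable def ec5 : XT := (XT.nd (nat_lit 58500) (nat_lit 0) (nat_lit 2204) (XT.nd (nat_lit 702) (nat_lit 2584) (nat_lit 0) (XT.nd (nat_lit 312) (nat_lit 0) (nat_lit 152) (XT.nd (nat_lit 156) (nat_lit 0) (nat_lit 76) (XT.nd (nat_lit 78) (nat_lit 0) (nat_lit 0) (XT.lf (nat_lit 1900) (nat_lit 609837485) (nat_lit 0) (nat_lit 1628484313) (nat_lit 1824) (nat_lit 609837485) (nat_lit 528) (nat_lit 1) (nat_lit 503) (nat_lit 1) (nat_lit 527) (nat_lit 1) (nat_lit 416) (nat_lit 368) (nat_lit 356)) (XT.lf (nat_lit 1900) (nat_lit 1091395236) (nat_lit 76) (nat_lit 864917273) (nat_lit 0) (nat_lit 864917273) (nat_lit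 528) (nat_lit 1) (nat_lit 504) (nat_lit 1) (nat_lit 503) (nat_lit 1) (nat_lit 417) (nat_lit 368) (nat_lit 355))) (XT.nd (nat_lit 78) (nat_lit 0) (nat_lit 0) (XT.lf (nat_lit 1900) (nat_lit 479201503) (nat_lit 0) (nat_lit 1836283584) (nat_lit 1824) (nat_lit 479201503) (nat_lit 529) (nat_lit 1) (nat_lit 504) (nat_lit 1) (nat_lit 528) (nat_lit 1) (nat_lit 418) (nat_lit 368) (nat_lit 354)) (XT.lf (nat_lit 1900) (nat_lit 815937656) (nat_lit 76) (nat_lit 976244659) (nat_lit 0) (nat_lit 976244659) (nat_lit 529) (nat_lit 1) (nat_lit 505) (nat_lit 1) (nat_lit 504) (nat_lit 1) (nat_lit 419) (nat_lit 368) (nat_lit 353)))) (XT.nd (nat_lit 156) (nat_lit 0) (nat_lit 76) (XT.nd (nat_lit 78) (nat_lit 0) (nat_lit 0) (XT.lf (nat_lit 1900) (nat_lit 335431091) (nat_lit 0) (nat_lit 2071714118) (nat_lit 1824) (nat_lit 335431091) (nat_lit 530) (nat_lit 1) (nat_lit 505) (nat_lit 1) (nat_lit 529) (nat_lit 1) (nat_lit 420) (nat_lit 368) (nat_lit 352)) (XT.lf (nat_lit 1900) (nat_lit 515001628)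 (nat_lit 76) (nat_lit 1100981813) (nat_lit 0) (nat_lit 1100981813) (nat_lit 530) (nat_lit 1) (nat_lit 506) (nat_lit 1) (nat_lit 505) (nat_lit 1) (nat_lit 421) (nat_lit 368) (nat_lit 351))) (XT.nd (nat_lit 78) (nat_lit 0) (nat_lit 0) (XT.lf (nat_lit 1900) (nat_lit 179393278) (nat_lit 0) (nat_lit 2333002954) (nat_lit 1824) (nat_lit 179393278) (nat_lit 531) (nat_lit 1) (nat_lit 506) (nat_lit 1) (nat_lit 530) (nat_lit 1) (nat_lit 422) (nat_lit 368) (nat_lit 350)) (XT.nd (nat_lit 78) (nat_lit 0) (nat_lit 76) (XT.lf (nat_lit 1900) (nat_lit 190285821) (nat_lit 76) (nat_lit 1238260316) (nat_lit 0) (nat_lit 1238260316) (nat_lit 531) (nat_lit 1) (nat_lit 507) (nat_lit 1) (nat_lit 506) (nat_lit 1) (nat_lit 423) (nat_lit 368) (nat_lit 349)) (XT.lf (nat_lit 1900) (nat_lit 11914425) (nat_lit 0) (nat_lit 2618459699) (nat_lit 1824) (nat_lit 11914425) (nat_lit 532) (nat_lit 1) (nat_lit 507) (nat_lit 1) (nat_lit 531) (nat_lit 1) (nat_lit 424) (nat_lit 368) (nat_lit 348)))))) (XT.nd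 (nat_lit 312) (nat_lit 988) (nat_lit 0) (XT.nd (nat_lit 156) (nat_lit 0) (nat_lit 76) (XT.nd (nat_lit 78) (nat_lit 0) (nat_lit 0) (XT.lf (nat_lit 1976) (nat_lit 1231678016) (nat_lit 0) (nat_lit 154537246) (nat_lit 1900) (nat_lit 1231678016) (nat_lit 508) (nat_lit 1) (nat_lit 482) (nat_lit 1) (nat_lit 507) (nat_lit 1) (nat_lit 425) (nat_lit 368) (nat_lit 347)) (XT.lf (nat_lit 1976) (nat_lit 2263701290) (nat_lit 76) (nat_lit 165124516) (nat_lit 0) (nat_lit 165124516) (nat_lit 508) (nat_lit 1) (nat_lit 483) (nat_lit 1) (nat_lit 482) (nat_lit 1) (nat_lit 426) (nat_lit 368) (nat_lit 346))) (XT.nd (nat_lit 78) (nat_lit 0) (nat_lit 0) (XT.lf (nat_lit 1976) (nat_lit 1026484974) (nat_lit 0) (nat_lit 517212939) (nat_lit 1900) (nat_lit 1026484974) (nat_lit 509) (nat_lit 1) (nat_lit 483) (nat_lit 1) (nat_lit 508) (nat_lit 1) (nat_lit 427) (nat_lit 368) (nat_lit 345)) (XT.lf (nat_lit 1976) (nat_lit 1842967877) (nat_lit 76) (nat_lit 351923442) (nat_lit 0) (nat_lit 351923442)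 (nat_lit 509) (nat_lit 1) (nat_lit 484) (nat_lit 1) (nat_lit 483) (nat_lit 1) (nat_lit 428) (nat_lit 368) (nat_lit 344)))) (XT.nd (nat_lit 57252) (nat_lit 0) (nat_lit 2128) (XT.nd (nat_lit 78) (nat_lit 1140) (nat_lit 0) (XT.lf (nat_lit 76) (nat_lit 812439204) (nat_lit 0) (nat_lit 898787109) (nat_lit 1900) (nat_lit 812439204) (nat_lit 485) (nat_lit 1) (nat_lit 484) (nat_lit 1) (nat_lit 509) (nat_lit 1) (nat_lit 429) (nat_lit 368) (nat_lit 343)) (XT.lf (nat_lit 1216) (nat_lit 1405152129) (nat_lit 0) (nat_lit 547851054) (nat_lit 1140) (nat_lit 547851054) (nat_lit 485) (nat_lit 1) (nat_lit 469) (nat_lit 1) (nat_lit 484) (nat_lit 1) (nat_lit 430) (nat_lit 368) (nat_lit 342))) (XT.nd (nat_lit 78) (nat_lit 0) (nat_lit 0) (XT.lf (nat_lit 1900) (nat_lit 542479668) (nat_lit 0) (nat_lit 547016060) (nat_lit 1900) (nat_lit 542479668) (nat_lit 522) (nat_lit 1) (nat_lit 497) (nat_lit 0) (nat_lit 522) (nat_lit 0) (nat_lit 402) (nat_lit 369) (nat_lit 369)) (XT.nd (nat_lit 78)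 (nat_lit 0) (nat_lit 76) (XT.lf (nat_lit 1900) (nat_lit 2145046171) (nat_lit 76) (nat_lit 543417270) (nat_lit 0) (nat_lit 543417270) (nat_lit 522) (nat_lit 1) (nat_lit 498) (nat_lit 1) (nat_lit 497) (nat_lit 0) (nat_lit 403) (nat_lit 369) (nat_lit 368)) (XT.lf (nat_lit 1900) (nat_lit 1053227880) (nat_lit 0) (nat_lit 1093705152) (nat_lit 1824) (nat_lit 1053227880) (nat_lit 523) (nat_lit 1) (nat_lit 498) (nat_lit 1) (nat_lit 522) (nat_lit 1) (nat_lit 404) (nat_lit 369) (nat_lit 367))))))) (XT.nd (nat_lit 702) (nat_lit 0) (nat_lit 380) (XT.nd (nat_lit 312) (nat_lit 0) (nat_lit 152) (XT.nd (nat_lit 156) (nat_lit 0) (nat_lit 76) (XT.nd (nat_lit 78) (nat_lit 0) (nat_lit 76) (XT.lf (nat_lit 1900) (nat_lit 2061426597) (nat_lit 76) (nat_lit 553747694) (nat_lit 0) (nat_lit 553747694) (nat_lit 523) (nat_lit 1) (nat_lit 499) (nat_lit 1) (nat_lit 498) (nat_lit 1) (nat_lit 405) (nat_lit 369) (nat_lit 366)) (XT.lf (nat_lit 1900) (nat_lit 1001814263) (nat_lit 0) (nat_lit 1134399376)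 (nat_lit 1824) (nat_lit 1001814263) (nat_lit 524) (nat_lit 1) (nat_lit 499) (nat_lit 1) (nat_lit 523) (nat_lit 1) (nat_lit 406) (nat_lit 369) (nat_lit 365))) (XT.nd (nat_lit 78) (nat_lit 0) (nat_lit 76) (XT.lf (nat_lit 1900) (nat_lit 1939500597) (nat_lit 76) (nat_lit 584046326) (nat_lit 0) (nat_lit 584046326) (nat_lit 524) (nat_lit 1) (nat_lit 500) (nat_lit 1) (nat_lit 499) (nat_lit 1) (nat_lit 407) (nat_lit 369) (nat_lit 364)) (XT.lf (nat_lit 1900) (nat_lit 931892852) (nat_lit 0) (nat_lit 1213717799) (nat_lit 1824) (nat_lit 931892852) (nat_lit 525) (nat_lit 1) (nat_lit 500) (nat_lit 1) (nat_lit 524) (nat_lit 1) (nat_lit 408) (nat_lit 369) (nat_lit 363)))) (XT.nd (nat_lit 156) (nat_lit 0) (nat_lit 76) (XT.nd (nat_lit 78) (nat_lit 0) (nat_lit 76) (XT.lf (nat_lit 1900) (nat_lit 1781570430) (nat_lit 76) (nat_lit 633138377) (nat_lit 0) (nat_lit 633138377) (nat_lit 525) (nat_lit 1) (nat_lit 501) (nat_lit 1) (nat_lit 500) (nat_lit 1) (nat_lit 409) (nat_lit 369) (nat_lit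 362)) (XT.lf (nat_lit 1900) (nat_lit 844584370) (nat_lit 0) (nat_lit 1329372277) (nat_lit 1824) (nat_lit 844584370) (nat_lit 526) (nat_lit 1) (nat_lit 501) (nat_lit 1) (nat_lit 525) (nat_lit 1) (nat_lit 410) (nat_lit 369) (nat_lit 361))) (XT.nd (nat_lit 78) (nat_lit 0) (nat_lit 76) (XT.lf (nat_lit 1900) (nat_lit 1589832980) (nat_lit 76) (nat_lit 699902508) (nat_lit 0) (nat_lit 699902508) (nat_lit 526) (nat_lit 1) (nat_lit 502) (nat_lit 1) (nat_lit 501) (nat_lit 1) (nat_lit 411) (nat_lit 369) (nat_lit 360)) (XT.nd (nat_lit 78) (nat_lit 0) (nat_lit 0) (XT.lf (nat_lit 1900) (nat_lit 740958141) (nat_lit 0) (nat_lit 1479178971) (nat_lit 1824) (nat_lit 740958141) (nat_lit 527) (nat_lit 1) (nat_lit 502) (nat_lit 1) (nat_lit 526) (nat_lit 1) (nat_lit 412) (nat_lit 369) (nat_lit 359)) (XT.lf (nat_lit 1900) (nat_lit 1366384160) (nat_lit 76) (nat_lit 783268601) (nat_lit 0) (nat_lit 783268601) (nat_lit 527) (nat_lit 1) (nat_lit 503) (nat_lit 1) (nat_lit 502) (nat_lit 1)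 (nat_lit 413) (nat_lit 369) (nat_lit 358)))))) (XT.nd (nat_lit 312) (nat_lit 0) (nat_lit 152) (XT.nd (nat_lit 156) (nat_lit 0) (nat_lit 76) (XT.nd (nat_lit 78) (nat_lit 0) (nat_lit 0) (XT.lf (nat_lit 1900) (nat_lit 622034235) (nat_lit 0) (nat_lit 1661053999) (nat_lit 1824) (nat_lit 622034235) (nat_lit 528) (nat_lit 1) (nat_lit 503) (nat_lit 1) (nat_lit 527) (nat_lit 1) (nat_lit 414) (nat_lit 369) (nat_lit 357)) (XT.lf (nat_lit 1900) (nat_lit 1113223141) (nat_lit 76) (nat_lit 882215619) (nat_lit 0) (nat_lit 882215619) (nat_lit 528) (nat_lit 1) (nat_lit 504) (nat_lit 1) (nat_lit 503) (nat_lit 1) (nat_lit 415) (nat_lit 369) (nat_lit 356))) (XT.nd (nat_lit 78) (nat_lit 0) (nat_lit 0) (XT.lf (nat_lit 1900) (nat_lit 488785533) (nat_lit 0) (nat_lit 1873009256) (nat_lit 1824) (nat_lit 488785533) (nat_lit 529) (nat_lit 1) (nat_lit 504) (nat_lit 1) (nat_lit 528) (nat_lit 1) (nat_lit 416) (nat_lit 369) (nat_lit 355)) (XT.lf (nat_lit 1900) (nat_lit 832256409) (nat_lit 76)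 (nat_lit 995769552) (nat_lit 0) (nat_lit 995769552) (nat_lit 529) (nat_lit 1) (nat_lit 505) (nat_lit 1) (nat_lit 504) (nat_lit 1) (nat_lit 417) (nat_lit 369) (nat_lit 354)))) (XT.nd (nat_lit 156) (nat_lit 0) (nat_lit 76) (XT.nd (nat_lit 78) (nat_lit 0) (nat_lit 0) (XT.lf (nat_lit 1900) (nat_lit 342139713) (nat_lit 0) (nat_lit 2113148401) (nat_lit 1824) (nat_lit 342139713) (nat_lit 530) (nat_lit 1) (nat_lit 505) (nat_lit 1) (nat_lit 529) (nat_lit 1) (nat_lit 418) (nat_lit 369) (nat_lit 353)) (XT.lf (nat_lit 1900) (nat_lit 525301661) (nat_lit 76) (nat_lit 1123001449) (nat_lit 0) (nat_lit 1123001449) (nat_lit 530) (nat_lit 1) (nat_lit 506) (nat_lit 1) (nat_lit 505) (nat_lit 1) (nat_lit 419) (nat_lit 369) (nat_lit 352))) (XT.nd (nat_lit 78) (nat_lit 0) (nat_lit 0) (XT.lf (nat_lit 1900) (nat_lit 182981143) (nat_lit 0) (nat_lit 2379663013) (nat_lit 1824) (nat_lit 182981143) (nat_lit 531) (nat_lit 1) (nat_lit 506) (nat_lit 1) (nat_lit 530) (nat_lit 1) (nat_lit 420)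 (nat_lit 369) (nat_lit 351)) (XT.nd (nat_lit 78) (nat_lit 0) (nat_lit 76) (XT.lf (nat_lit 1900) (nat_lit 194091537) (nat_lit 76) (nat_lit 1263025522) (nat_lit 0) (nat_lit 1263025522) (nat_lit 531) (nat_lit 1) (nat_lit 507) (nat_lit 1) (nat_lit 506) (nat_lit 1) (nat_lit 421) (nat_lit 369) (nat_lit 350)) (XT.lf (nat_lit 1900) (nat_lit 12152714) (nat_lit 0) (nat_lit 2670828893) (nat_lit 1824) (nat_lit 12152714) (nat_lit 532) (nat_lit 1) (nat_lit 507) (nat_lit 1) (nat_lit 531) (nat_lit 1) (nat_lit 422) (nat_lit 369) (nat_lit 349))))))))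
noncomputable def ec6 : XT := (XT.nd (nat_lit 58422) (nat_lit 912) (nat_lit 0) (XT.nd (nat_lit 57720) (nat_lit 0) (nat_lit 2204) (XT.nd (nat_lit 312) (nat_lit 988) (nat_lit 0) (XT.nd (nat_lit 156) (nat_lit 0) (nat_lit 76) (XT.nd (nat_lit 78) (nat_lit 0) (nat_lit 0) (XT.lf (nat_lit 1976) (nat_lit 1256311576) (nat_lit 0) (nat_lit 157627991) (nat_lit 1900) (nat_lit 1256311576) (nat_lit 508) (nat_lit 1) (nat_lit 482) (nat_lit 1) (nat_lit 507) (nat_lit 1) (nat_lit 423) (nat_lit 369) (nat_lit 348)) (XT.lf (nat_lit 1976) (nat_lit 2308975316) (nat_lit 76) (nat_lit 168427006) (nat_lit 0) (nat_lit 168427006) (nat_lit 508) (nat_lit 1) (nat_lit 483) (nat_lit 1) (nat_lit 482) (nat_lit 1) (nat_lit 424) (nat_lit 369) (nat_lit 347))) (XT.nd (nat_lit 78) (nat_lit 0) (nat_lit 0) (XT.lf (nat_lit 1976) (nat_lit 1047014673) (nat_lit 0) (nat_lit 527557198) (nat_lit 1900) (nat_lit 1047014673) (nat_lit 509) (nat_lit 1) (nat_lit 483) (nat_lit 1) (nat_lit 508) (nat_lit 1) (nat_lit 425)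 (nat_lit 369) (nat_lit 346)) (XT.lf (nat_lit 1976) (nat_lit 1879827234) (nat_lit 76) (nat_lit 358961910) (nat_lit 0) (nat_lit 358961910) (nat_lit 509) (nat_lit 1) (nat_lit 484) (nat_lit 1) (nat_lit 483) (nat_lit 1) (nat_lit 426) (nat_lit 369) (nat_lit 345)))) (XT.nd (nat_lit 156) (nat_lit 0) (nat_lit 0) (XT.nd (nat_lit 78) (nat_lit 1140) (nat_lit 0) (XT.lf (nat_lit 76) (nat_lit 828687988) (nat_lit 0) (nat_lit 916762851) (nat_lit 1900) (nat_lit 828687988) (nat_lit 485) (nat_lit 1) (nat_lit 484) (nat_lit 1) (nat_lit 509) (nat_lit 1) (nat_lit 427) (nat_lit 369) (nat_lit 344)) (XT.lf (nat_lit 1216) (nat_lit 1433255172) (nat_lit 0) (nat_lit 558808075) (nat_lit 1140) (nat_lit 558808075) (nat_lit 485) (nat_lit 1) (nat_lit 469) (nat_lit 1) (nat_lit 484) (nat_lit 1) (nat_lit 428) (nat_lit 369) (nat_lit 343))) (XT.nd (nat_lit 57096) (nat_lit 0) (nat_lit 2128) (XT.lf (nat_lit 76) (nat_lit 602018569) (nat_lit 0) (nat_lit 1323836792) (nat_lit 1216) (nat_lit 602018569) (nat_lit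 470) (nat_lit 1) (nat_lit 469) (nat_lit 1) (nat_lit 485) (nat_lit 1) (nat_lit 429) (nat_lit 369) (nat_lit 342)) (XT.nd (nat_lit 78) (nat_lit 0) (nat_lit 0) (XT.lf (nat_lit 1900) (nat_lit 553329261) (nat_lit 0) (nat_lit 557956381) (nat_lit 1900) (nat_lit 553329261) (nat_lit 522) (nat_lit 1) (nat_lit 497) (nat_lit 0) (nat_lit 522) (nat_lit 0) (nat_lit 400) (nat_lit 370) (nat_lit 370)) (XT.lf (nat_lit 1900) (nat_lit 2187947095) (nat_lit 76) (nat_lit 554285615) (nat_lit 0) (nat_lit 554285615) (nat_lit 522) (nat_lit 1) (nat_lit 498) (nat_lit 1) (nat_lit 497) (nat_lit 0) (nat_lit 401) (nat_lit 370) (nat_lit 369)))))) (XT.nd (nat_lit 312) (nat_lit 0) (nat_lit 152) (XT.nd (nat_lit 156) (nat_lit 0) (nat_lit 76) (XT.nd (nat_lit 78) (nat_lit 0) (nat_lit 0) (XT.lf (nat_lit 1900) (nat_lit 1074292438) (nat_lit 0) (nat_lit 1115579255) (nat_lit 1824) (nat_lit 1074292438) (nat_lit 523) (nat_lit 1) (nat_lit 498) (nat_lit 1) (nat_lit 522) (nat_lit 1) (nat_lit 402) (nat_lit 370)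 (nat_lit 368)) (XT.lf (nat_lit 1900) (nat_lit 2102655129) (nat_lit 76) (nat_lit 564822648) (nat_lit 0) (nat_lit 564822648) (nat_lit 523) (nat_lit 1) (nat_lit 499) (nat_lit 1) (nat_lit 498) (nat_lit 1) (nat_lit 403) (nat_lit 370) (nat_lit 367))) (XT.nd (nat_lit 78) (nat_lit 0) (nat_lit 0) (XT.lf (nat_lit 1900) (nat_lit 1021850548) (nat_lit 0) (nat_lit 1157087363) (nat_lit 1824) (nat_lit 1021850548) (nat_lit 524) (nat_lit 1) (nat_lit 499) (nat_lit 1) (nat_lit 523) (nat_lit 1) (nat_lit 404) (nat_lit 370) (nat_lit 366)) (XT.lf (nat_lit 1900) (nat_lit 1978290609) (nat_lit 76) (nat_lit 595727252) (nat_lit 0) (nat_lit 595727252) (nat_lit 524) (nat_lit 1) (nat_lit 500) (nat_lit 1) (nat_lit 499) (nat_lit 1) (nat_lit 405) (nat_lit 370) (nat_lit 365)))) (XT.nd (nat_lit 156) (nat_lit 0) (nat_lit 76) (XT.nd (nat_lit 78) (nat_lit 0) (nat_lit 0) (XT.lf (nat_lit 1900) (nat_lit 950530709) (nat_lit 0) (nat_lit 1237992155) (nat_lit 1824) (nat_lit 950530709) (nat_lit 525) (nat_lit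 1) (nat_lit 500) (nat_lit 1) (nat_lit 524) (nat_lit 1) (nat_lit 406) (nat_lit 370) (nat_lit 364)) (XT.lf (nat_lit 1900) (nat_lit 1817201839) (nat_lit 76) (nat_lit 645801144) (nat_lit 0) (nat_lit 645801144) (nat_lit 525) (nat_lit 1) (nat_lit 501) (nat_lit 1) (nat_lit 500) (nat_lit 1) (nat_lit 407) (nat_lit 370) (nat_lit 363))) (XT.nd (nat_lit 78) (nat_lit 0) (nat_lit 0) (XT.lf (nat_lit 1900) (nat_lit 861476058) (nat_lit 0) (nat_lit 1355959723) (nat_lit 1824) (nat_lit 861476058) (nat_lit 526) (nat_lit 1) (nat_lit 501) (nat_lit 1) (nat_lit 525) (nat_lit 1) (nat_lit 408) (nat_lit 370) (nat_lit 362)) (XT.nd (nat_lit 78) (nat_lit 0) (nat_lit 76) (XT.lf (nat_lit 1900) (nat_lit 1621629639) (nat_lit 76) (nat_lit 713900558) (nat_lit 0) (nat_lit 713900558) (nat_lit 526) (nat_lit 1) (nat_lit 502) (nat_lit 1) (nat_lit 501) (nat_lit 1) (nat_lit 409) (nat_lit 370) (nat_lit 361)) (XT.lf (nat_lit 1900) (nat_lit 755777304) (nat_lit 0) (nat_lit 1508762551) (nat_lit 1824) (nat_lit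 755777304) (nat_lit 527) (nat_lit 1) (nat_lit 502) (nat_lit 1) (nat_lit 526) (nat_lit 1) (nat_lit 410) (nat_lit 370) (nat_lit 360))))))) (XT.nd (nat_lit 702) (nat_lit 3420) (nat_lit 0) (XT.nd (nat_lit 312) (nat_lit 0) (nat_lit 152) (XT.nd (nat_lit 156) (nat_lit 0) (nat_lit 76) (XT.nd (nat_lit 78) (nat_lit 0) (nat_lit 76) (XT.lf (nat_lit 1900) (nat_lit 1393711843) (nat_lit 76) (nat_lit 798933973) (nat_lit 0) (nat_lit 798933973) (nat_lit 527) (nat_lit 1) (nat_lit 503) (nat_lit 1) (nat_lit 502) (nat_lit 1) (nat_lit 411) (nat_lit 370) (nat_lit 359)) (XT.lf (nat_lit 1900) (nat_lit 634474920) (nat_lit 0) (nat_lit 1694275079) (nat_lit 1824) (nat_lit 634474920) (nat_lit 528) (nat_lit 1) (nat_lit 503) (nat_lit 1) (nat_lit 527) (nat_lit 1) (nat_lit 412) (nat_lit 370) (nat_lit 358))) (XT.nd (nat_lit 78) (nat_lit 0) (nat_lit 76) (XT.lf (nat_lit 1900) (nat_lit 1135487604) (nat_lit 76) (nat_lit 899859931) (nat_lit 0) (nat_lit 899859931) (nat_lit 528) (nat_lit 1) (nat_lit 504)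 (nat_lit 1) (nat_lit 503) (nat_lit 1) (nat_lit 413) (nat_lit 370) (nat_lit 357)) (XT.lf (nat_lit 1900) (nat_lit 498561244) (nat_lit 0) (nat_lit 1910469441) (nat_lit 1824) (nat_lit 498561244) (nat_lit 529) (nat_lit 1) (nat_lit 504) (nat_lit 1) (nat_lit 528) (nat_lit 1) (nat_lit 414) (nat_lit 370) (nat_lit 356)))) (XT.nd (nat_lit 156) (nat_lit 0) (nat_lit 76) (XT.nd (nat_lit 78) (nat_lit 0) (nat_lit 76) (XT.lf (nat_lit 1900) (nat_lit 848901537) (nat_lit 76) (nat_lit 1015684943) (nat_lit 0) (nat_lit 1015684943) (nat_lit 529) (nat_lit 1) (nat_lit 505) (nat_lit 1) (nat_lit 504) (nat_lit 1) (nat_lit 415) (nat_lit 370) (nat_lit 355)) (XT.lf (nat_lit 1900) (nat_lit 348982507) (nat_lit 0) (nat_lit 2155411369) (nat_lit 1824) (nat_lit 348982507) (nat_lit 530) (nat_lit 1) (nat_lit 505) (nat_lit 1) (nat_lit 529) (nat_lit 1) (nat_lit 416) (nat_lit 370) (nat_lit 354))) (XT.nd (nat_lit 78) (nat_lit 0) (nat_lit 76) (XT.lf (nat_lit 1900) (nat_lit 535807694) (nat_lit 76) (nat_lit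 1145461478) (nat_lit 0) (nat_lit 1145461478) (nat_lit 530) (nat_lit 1) (nat_lit 506) (nat_lit 1) (nat_lit 505) (nat_lit 1) (nat_lit 417) (nat_lit 370) (nat_lit 353)) (XT.nd (nat_lit 78) (nat_lit 0) (nat_lit 0) (XT.lf (nat_lit 1900) (nat_lit 186640766) (nat_lit 0) (nat_lit 2427256273) (nat_lit 1824) (nat_lit 186640766) (nat_lit 531) (nat_lit 1) (nat_lit 506) (nat_lit 1) (nat_lit 530) (nat_lit 1) (nat_lit 418) (nat_lit 370) (nat_lit 352)) (XT.lf (nat_lit 1900) (nat_lit 197973368) (nat_lit 76) (nat_lit 1288286032) (nat_lit 0) (nat_lit 1288286032) (nat_lit 531) (nat_lit 1) (nat_lit 507) (nat_lit 1) (nat_lit 506) (nat_lit 1) (nat_lit 419) (nat_lit 370) (nat_lit 351)))))) (XT.nd (nat_lit 312) (nat_lit 1900) (nat_lit 0) (XT.nd (nat_lit 156) (nat_lit 0) (nat_lit 0) (XT.nd (nat_lit 78) (nat_lit 1900) (nat_lit 0) (XT.lf (nat_lit 1900) (nat_lit 12395768) (nat_lit 0) (nat_lit 2724245471) (nat_lit 1824) (nat_lit 12395768) (nat_lit 532) (nat_lit 1) (nat_lit 507) (nat_lit 1)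 (nat_lit 531) (nat_lit 1) (nat_lit 420) (nat_lit 370) (nat_lit 350)) (XT.lf (nat_lit 1976) (nat_lit 1281437808) (nat_lit 0) (nat_lit 160780551) (nat_lit 1900) (nat_lit 1281437808) (nat_lit 508) (nat_lit 1) (nat_lit 482) (nat_lit 1) (nat_lit 507) (nat_lit 1) (nat_lit 421) (nat_lit 370) (nat_lit 349))) (XT.nd (nat_lit 78) (nat_lit 0) (nat_lit 76) (XT.lf (nat_lit 1976) (nat_lit 2355154823) (nat_lit 76) (nat_lit 171795546) (nat_lit 0) (nat_lit 171795546) (nat_lit 508) (nat_lit 1) (nat_lit 483) (nat_lit 1) (nat_lit 482) (nat_lit 1) (nat_lit 422) (nat_lit 370) (nat_lit 348)) (XT.lf (nat_lit 1976) (nat_lit 1067954967) (nat_lit 0) (nat_lit 538108342) (nat_lit 1900) (nat_lit 1067954967) (nat_lit 509) (nat_lit 1) (nat_lit 483) (nat_lit 1) (nat_lit 508) (nat_lit 1) (nat_lit 423) (nat_lit 370) (nat_lit 347)))) (XT.nd (nat_lit 156) (nat_lit 1976) (nat_lit 0) (XT.nd (nat_lit 78) (nat_lit 0) (nat_lit 76) (XT.lf (nat_lit 1976) (nat_lit 1917423779) (nat_lit 76) (nat_lit 366141149)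 (nat_lit 0) (nat_lit 366141149) (nat_lit 509) (nat_lit 1) (nat_lit 484) (nat_lit 1) (nat_lit 483) (nat_lit 1) (nat_lit 424) (nat_lit 370) (nat_lit 346)) (XT.lf (nat_lit 76) (nat_lit 845261747) (nat_lit 0) (nat_lit 935098108) (nat_lit 1900) (nat_lit 845261747) (nat_lit 485) (nat_lit 1) (nat_lit 484) (nat_lit 1) (nat_lit 509) (nat_lit 1) (nat_lit 425) (nat_lit 370) (nat_lit 345))) (XT.nd (nat_lit 78) (nat_lit 912) (nat_lit 0) (XT.lf (nat_lit 1216) (nat_lit 1461920275) (nat_lit 0) (nat_lit 569984236) (nat_lit 1140) (nat_lit 569984236) (nat_lit 485) (nat_lit 1) (nat_lit 469) (nat_lit 1) (nat_lit 484) (nat_lit 1) (nat_lit 426) (nat_lit 370) (nat_lit 344)) (XT.nd (nat_lit 78) (nat_lit 912) (nat_lit 0) (XT.lf (nat_lit 76) (nat_lit 614058940) (nat_lit 0) (nat_lit 1350313528) (nat_lit 1216) (nat_lit 614058940) (nat_lit 470) (nat_lit 1) (nat_lit 469) (nat_lit 1) (nat_lit 485) (nat_lit 1) (nat_lit 427) (nat_lit 370) (nat_lit 343)) (XT.lf (nat_lit 988) (nat_lit 990016204)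 (nat_lit 0) (nat_lit 782621811) (nat_lit 912) (nat_lit 782621811) (nat_lit 470) (nat_lit 1) (nat_lit 457) (nat_lit 1) (nat_lit 469) (nat_lit 1) (nat_lit 428) (nat_lit 370) (nat_lit 342))))))))
noncomputable def ec7 : XT := (XT.nd (nat_lit 58266) (nat_lit 912) (nat_lit 0) (XT.nd (nat_lit 57564) (nat_lit 0) (nat_lit 3344) (XT.nd (nat_lit 57174) (nat_lit 0) (nat_lit 3116) (XT.nd (nat_lit 57018) (nat_lit 0) (nat_lit 3040) (XT.nd (nat_lit 56940) (nat_lit 0) (nat_lit 3040) (XT.lf (nat_lit 76) (nat_lit 375013395) (nat_lit 0) (nat_lit 1782387243) (nat_lit 988) (nat_lit 375013395) (nat_lit 458) (nat_lit 1) (nat_lit 457) (nat_lit 1) (nat_lit 470) (nat_lit 1) (nat_lit 429) (nat_lit 370) (nat_lit 341)) (XT.lf (nat_lit 1900) (nat_lit 564395847) (nat_lit 0) (nat_lit 569115509) (nat_lit 1900) (nat_lit 564395847) (nat_lit 522) (nat_lit 1) (nat_lit 497) (nat_lit 0) (nat_lit 522) (nat_lit 0) (nat_lit 398) (nat_lit 371) (nat_lit 371))) (XT.nd (nat_lit 78) (nat_lit 0) (nat_lit 76)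 (XT.lf (nat_lit 1900) (nat_lit 2231706037) (nat_lit 76) (nat_lit 565371328) (nat_lit 0) (nat_lit 565371328) (nat_lit 522) (nat_lit 1) (nat_lit 498) (nat_lit 1) (nat_lit 497) (nat_lit 0) (nat_lit 399) (nat_lit 371) (nat_lit 370)) (XT.lf (nat_lit 1900) (nat_lit 1095778287) (nat_lit 0) (nat_lit 1137890840) (nat_lit 1824) (nat_lit 1095778287) (nat_lit 523) (nat_lit 1) (nat_lit 498) (nat_lit 1) (nat_lit 522) (nat_lit 1) (nat_lit 400) (nat_lit 371) (nat_lit 369)))) (XT.nd (nat_lit 156) (nat_lit 0) (nat_lit 76) (XT.nd (nat_lit 78) (nat_lit 0) (nat_lit 76) (XT.lf (nat_lit 1900) (nat_lit 2144708232) (nat_lit 76) (nat_lit 576119100) (nat_lit 0) (nat_lit 576119100) (nat_lit 523) (nat_lit 1) (nat_lit 499) (nat_lit 1) (nat_lit 498) (nat_lit 1) (nat_lit 401) (nat_lit 371) (nat_lit 368)) (XT.lf (nat_lit 1900) (nat_lit 1042287559) (nat_lit 0) (nat_lit 1180229110) (nat_lit 1824) (nat_lit 1042287559) (nat_lit 524) (nat_lit 1) (nat_lit 499) (nat_lit 1) (nat_lit 523) (nat_lit 1)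 (nat_lit 402) (nat_lit 371) (nat_lit 367))) (XT.nd (nat_lit 78) (nat_lit 0) (nat_lit 76) (XT.lf (nat_lit 1900) (nat_lit 2017856421) (nat_lit 76) (nat_lit 607641797) (nat_lit 0) (nat_lit 607641797) (nat_lit 524) (nat_lit 1) (nat_lit 500) (nat_lit 1) (nat_lit 499) (nat_lit 1) (nat_lit 403) (nat_lit 371) (nat_lit 366)) (XT.nd (nat_lit 78) (nat_lit 0) (nat_lit 0) (XT.lf (nat_lit 1900) (nat_lit 969541323) (nat_lit 0) (nat_lit 1262751999) (nat_lit 1824) (nat_lit 969541323) (nat_lit 525) (nat_lit 1) (nat_lit 500) (nat_lit 1) (nat_lit 524) (nat_lit 1) (nat_lit 404) (nat_lit 371) (nat_lit 365)) (XT.lf (nat_lit 1900) (nat_lit 1853545875) (nat_lit 76) (nat_lit 658717167) (nat_lit 0) (nat_lit 658717167) (nat_lit 525) (nat_lit 1) (nat_lit 501) (nat_lit 1) (nat_lit 500) (nat_lit 1) (nat_lit 405) (nat_lit 371) (nat_lit 364)))))) (XT.nd (nat_lit 312) (nat_lit 0) (nat_lit 152) (XT.nd (nat_lit 156) (nat_lit 0) (nat_lit 76) (XT.nd (nat_lit 78) (nat_lit 0) (nat_lit 0) (XT.lf (nat_lit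 1900) (nat_lit 878705579) (nat_lit 0) (nat_lit 1383078917) (nat_lit 1824) (nat_lit 878705579) (nat_lit 526) (nat_lit 1) (nat_lit 501) (nat_lit 1) (nat_lit 525) (nat_lit 1) (nat_lit 406) (nat_lit 371) (nat_lit 363)) (XT.lf (nat_lit 1900) (nat_lit 1654062232) (nat_lit 76) (nat_lit 728178569) (nat_lit 0) (nat_lit 728178569) (nat_lit 526) (nat_lit 1) (nat_lit 502) (nat_lit 1) (nat_lit 501) (nat_lit 1) (nat_lit 407) (nat_lit 371) (nat_lit 362))) (XT.nd (nat_lit 78) (nat_lit 0) (nat_lit 0) (XT.lf (nat_lit 1900) (nat_lit 770892850) (nat_lit 0) (nat_lit 1538937802) (nat_lit 1824) (nat_lit 770892850) (nat_lit 527) (nat_lit 1) (nat_lit 502) (nat_lit 1) (nat_lit 526) (nat_lit 1) (nat_lit 408) (nat_lit 371) (nat_lit 361)) (XT.lf (nat_lit 1900) (nat_lit 1421586080) (nat_lit 76) (nat_lit 814912652) (nat_lit 0) (nat_lit 814912652) (nat_lit 527) (nat_lit 1) (nat_lit 503) (nat_lit 1) (nat_lit 502) (nat_lit 1) (nat_lit 409) (nat_lit 371) (nat_lit 360)))) (XT.nd (nat_lit 156) (nat_lit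 0) (nat_lit 76) (XT.nd (nat_lit 78) (nat_lit 0) (nat_lit 0) (XT.lf (nat_lit 1900) (nat_lit 647164418) (nat_lit 0) (nat_lit 1728160581) (nat_lit 1824) (nat_lit 647164418) (nat_lit 528) (nat_lit 1) (nat_lit 503) (nat_lit 1) (nat_lit 527) (nat_lit 1) (nat_lit 410) (nat_lit 371) (nat_lit 359)) (XT.lf (nat_lit 1900) (nat_lit 1158197356) (nat_lit 76) (nat_lit 917857130) (nat_lit 0) (nat_lit 917857130) (nat_lit 528) (nat_lit 1) (nat_lit 504) (nat_lit 1) (nat_lit 503) (nat_lit 1) (nat_lit 411) (nat_lit 371) (nat_lit 358))) (XT.nd (nat_lit 78) (nat_lit 0) (nat_lit 0) (XT.lf (nat_lit 1900) (nat_lit 508532469) (nat_lit 0) (nat_lit 1948678830) (nat_lit 1824) (nat_lit 508532469) (nat_lit 529) (nat_lit 1) (nat_lit 504) (nat_lit 1) (nat_lit 528) (nat_lit 1) (nat_lit 412) (nat_lit 371) (nat_lit 357)) (XT.nd (nat_lit 78) (nat_lit 0) (nat_lit 76) (XT.lf (nat_lit 1900) (nat_lit 865879568) (nat_lit 76) (nat_lit 1035998642) (nat_lit 0) (nat_lit 1035998642) (nat_lit 529) (nat_lit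 1) (nat_lit 505) (nat_lit 1) (nat_lit 504) (nat_lit 1) (nat_lit 413) (nat_lit 371) (nat_lit 356)) (XT.lf (nat_lit 1900) (nat_lit 355962157) (nat_lit 0) (nat_lit 2198519596) (nat_lit 1824) (nat_lit 355962157) (nat_lit 530) (nat_lit 1) (nat_lit 505) (nat_lit 1) (nat_lit 529) (nat_lit 1) (nat_lit 414) (nat_lit 371) (nat_lit 355))))))) (XT.nd (nat_lit 702) (nat_lit 2812) (nat_lit 0) (XT.nd (nat_lit 312) (nat_lit 1748) (nat_lit 0) (XT.nd (nat_lit 156) (nat_lit 0) (nat_lit 76) (XT.nd (nat_lit 78) (nat_lit 0) (nat_lit 76) (XT.lf (nat_lit 1900) (nat_lit 546523848) (nat_lit 76) (nat_lit 1168370708) (nat_lit 0) (nat_lit 1168370708) (nat_lit 530) (nat_lit 1) (nat_lit 506) (nat_lit 1) (nat_lit 505) (nat_lit 1) (nat_lit 415) (nat_lit 371) (nat_lit 354)) (XT.lf (nat_lit 1900) (nat_lit 190373581) (nat_lit 0) (nat_lit 2475801399) (nat_lit 1824) (nat_lit 190373581) (nat_lit 531) (nat_lit 1) (nat_lit 506) (nat_lit 1) (nat_lit 530) (nat_lit 1) (nat_lit 416) (nat_lit 371) (nat_lit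 353))) (XT.nd (nat_lit 78) (nat_lit 0) (nat_lit 76) (XT.lf (nat_lit 1900) (nat_lit 201932835) (nat_lit 76) (nat_lit 1314051753) (nat_lit 0) (nat_lit 1314051753) (nat_lit 531) (nat_lit 1) (nat_lit 507) (nat_lit 1) (nat_lit 506) (nat_lit 1) (nat_lit 417) (nat_lit 371) (nat_lit 352)) (XT.lf (nat_lit 1900) (nat_lit 12643683) (nat_lit 0) (nat_lit 2778730381) (nat_lit 1824) (nat_lit 12643683) (nat_lit 532) (nat_lit 1) (nat_lit 507) (nat_lit 1) (nat_lit 531) (nat_lit 1) (nat_lit 418) (nat_lit 371) (nat_lit 351)))) (XT.nd (nat_lit 156) (nat_lit 0) (nat_lit 76) (XT.nd (nat_lit 78) (nat_lit 0) (nat_lit 0) (XT.lf (nat_lit 1976) (nat_lit 1307066564) (nat_lit 0) (nat_lit 163996162) (nat_lit 1900) (nat_lit 1307066564) (nat_lit 508) (nat_lit 1) (nat_lit 482) (nat_lit 1) (nat_lit 507) (nat_lit 1) (nat_lit 419) (nat_lit 371) (nat_lit 350)) (XT.lf (nat_lit 1976) (nat_lit 2402257919) (nat_lit 76) (nat_lit 175231457) (nat_lit 0) (nat_lit 175231457) (nat_lit 508) (nat_lit 1) (nat_lit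 483) (nat_lit 1) (nat_lit 482) (nat_lit 1) (nat_lit 420) (nat_lit 371) (nat_lit 349))) (XT.nd (nat_lit 78) (nat_lit 0) (nat_lit 0) (XT.lf (nat_lit 1976) (nat_lit 1089314066) (nat_lit 0) (nat_lit 548870508) (nat_lit 1900) (nat_lit 1089314066) (nat_lit 509) (nat_lit 1) (nat_lit 483) (nat_lit 1) (nat_lit 508) (nat_lit 1) (nat_lit 421) (nat_lit 371) (nat_lit 348)) (XT.nd (nat_lit 78) (nat_lit 0) (nat_lit 76) (XT.lf (nat_lit 1976) (nat_lit 1955772255) (nat_lit 76) (nat_lit 373463972) (nat_lit 0) (nat_lit 373463972) (nat_lit 509) (nat_lit 1) (nat_lit 484) (nat_lit 1) (nat_lit 483) (nat_lit 1) (nat_lit 422) (nat_lit 371) (nat_lit 347)) (XT.lf (nat_lit 76) (nat_lit 862166982) (nat_lit 0) (nat_lit 953800070) (nat_lit 1900) (nat_lit 862166982) (nat_lit 485) (nat_lit 1) (nat_lit 484) (nat_lit 1) (nat_lit 509) (nat_lit 1) (nat_lit 423) (nat_lit 371) (nat_lit 346)))))) (XT.nd (nat_lit 312) (nat_lit 912) (nat_lit 0) (XT.nd (nat_lit 156) (nat_lit 912) (nat_lit 0) (XT.nd (nat_lit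 78) (nat_lit 0) (nat_lit 0) (XT.lf (nat_lit 1216) (nat_lit 1491158681) (nat_lit 0) (nat_lit 581383921) (nat_lit 1140) (nat_lit 581383921) (nat_lit 485) (nat_lit 1) (nat_lit 469) (nat_lit 1) (nat_lit 484) (nat_lit 1) (nat_lit 424) (nat_lit 371) (nat_lit 345)) (XT.lf (nat_lit 76) (nat_lit 626340119) (nat_lit 0) (nat_lit 1377319798) (nat_lit 1216) (nat_lit 626340119) (nat_lit 470) (nat_lit 1) (nat_lit 469) (nat_lit 1) (nat_lit 485) (nat_lit 1) (nat_lit 425) (nat_lit 371) (nat_lit 344))) (XT.nd (nat_lit 78) (nat_lit 0) (nat_lit 0) (XT.lf (nat_lit 988) (nat_lit 1009816529) (nat_lit 0) (nat_lit 798274247) (nat_lit 912) (nat_lit 798274247) (nat_lit 470) (nat_lit 1) (nat_lit 457) (nat_lit 1) (nat_lit 469) (nat_lit 1) (nat_lit 426) (nat_lit 371) (nat_lit 343)) (XT.lf (nat_lit 76) (nat_lit 382513663) (nat_lit 0) (nat_lit 1818034988) (nat_lit 988) (nat_lit 382513663) (nat_lit 458) (nat_lit 1) (nat_lit 457) (nat_lit 1) (nat_lit 470) (nat_lit 1) (nat_lit 427) (nat_lit 371)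 (nat_lit 342)))) (XT.nd (nat_lit 56862) (nat_lit 0) (nat_lit 3952) (XT.nd (nat_lit 78) (nat_lit 0) (nat_lit 0) (XT.lf (nat_lit 988) (nat_lit 513077155) (nat_lit 0) (nat_lit 1023452420) (nat_lit 912) (nat_lit 1023452420) (nat_lit 458) (nat_lit 1) (nat_lit 445) (nat_lit 1) (nat_lit 457) (nat_lit 1) (nat_lit 428) (nat_lit 371) (nat_lit 341)) (XT.lf (nat_lit 76) (nat_lit 131334661) (nat_lit 0) (nat_lit 2274618286) (nat_lit 988) (nat_lit 131334661) (nat_lit 446) (nat_lit 1) (nat_lit 445) (nat_lit 1) (nat_lit 458) (nat_lit 1) (nat_lit 429) (nat_lit 371) (nat_lit 340))) (XT.nd (nat_lit 78) (nat_lit 0) (nat_lit 0) (XT.lf (nat_lit 1900) (nat_lit 575683764) (nat_lit 0) (nat_lit 580497819) (nat_lit 1900) (nat_lit 575683764) (nat_lit 522) (nat_lit 1) (nat_lit 497) (nat_lit 0) (nat_lit 522) (nat_lit 0) (nat_lit 396) (nat_lit 372) (nat_lit 372)) (XT.nd (nat_lit 78) (nat_lit 0) (nat_lit 76) (XT.lf (nat_lit 1900) (nat_lit 2276340157) (nat_lit 76) (nat_lit 576678754) (nat_lit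 0) (nat_lit 576678754) (nat_lit 522) (nat_lit 1) (nat_lit 498) (nat_lit 1) (nat_lit 497) (nat_lit 0) (nat_lit 397) (nat_lit 372) (nat_lit 371)) (XT.lf (nat_lit 1900) (nat_lit 1117693853) (nat_lit 0) (nat_lit 1160648657) (nat_lit 1824) (nat_lit 1117693853) (nat_lit 523) (nat_lit 1) (nat_lit 498) (nat_lit 1) (nat_lit 522) (nat_lit 1) (nat_lit 398) (nat_lit 372) (nat_lit 370))))))))
noncomputable def ec8 : XT := (XT.nd (nat_lit 1404) (nat_lit 5852) (nat_lit 0) (XT.nd (nat_lit 702) (nat_lit 0) (nat_lit 380) (XT.nd (nat_lit 312) (nat_lit 0) (nat_lit 152) (XT.nd (nat_lit 156) (nat_lit 0) (nat_lit 76) (XT.nd (nat_lit 78) (nat_lit 0) (nat_lit 76) (XT.lf (nat_lit 1900) (nat_lit 2187602397) (nat_lit 76) (nat_lit 587641482) (nat_lit 0) (nat_lit 587641482) (nat_lit 523) (nat_lit 1) (nat_lit 499) (nat_lit 1) (nat_lit 498) (nat_lit 1) (nat_lit 399) (nat_lit 372) (nat_lit 369)) (XT.lf (nat_lit 1900) (nat_lit 1063133310) (nat_lit 0) (nat_lit 1203833693) (nat_lit 1824) (nat_lit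 1063133310) (nat_lit 524) (nat_lit 1) (nat_lit 499) (nat_lit 1) (nat_lit 523) (nat_lit 1) (nat_lit 400) (nat_lit 372) (nat_lit 368))) (XT.nd (nat_lit 78) (nat_lit 0) (nat_lit 76) (XT.lf (nat_lit 1900) (nat_lit 2058213550) (nat_lit 76) (nat_lit 619794633) (nat_lit 0) (nat_lit 619794633) (nat_lit 524) (nat_lit 1) (nat_lit 500) (nat_lit 1) (nat_lit 499) (nat_lit 1) (nat_lit 401) (nat_lit 372) (nat_lit 367)) (XT.lf (nat_lit 1900) (nat_lit 988932149) (nat_lit 0) (nat_lit 1288007039) (nat_lit 1824) (nat_lit 988932149) (nat_lit 525) (nat_lit 1) (nat_lit 500) (nat_lit 1) (nat_lit 524) (nat_lit 1) (nat_lit 402) (nat_lit 372) (nat_lit 366)))) (XT.nd (nat_lit 156) (nat_lit 0) (nat_lit 76) (XT.nd (nat_lit 78) (nat_lit 0) (nat_lit 76) (XT.lf (nat_lit 1900) (nat_lit 1890616793) (nat_lit 76) (nat_lit 671891510) (nat_lit 0) (nat_lit 671891510) (nat_lit 525) (nat_lit 1) (nat_lit 501) (nat_lit 1) (nat_lit 500) (nat_lit 1) (nat_lit 403) (nat_lit 372) (nat_lit 365)) (XT.lf (nat_lit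 1900) (nat_lit 896279691) (nat_lit 0) (nat_lit 1410740496) (nat_lit 1824) (nat_lit 896279691) (nat_lit 526) (nat_lit 1) (nat_lit 501) (nat_lit 1) (nat_lit 525) (nat_lit 1) (nat_lit 404) (nat_lit 372) (nat_lit 364))) (XT.nd (nat_lit 78) (nat_lit 0) (nat_lit 76) (XT.lf (nat_lit 1900) (nat_lit 1687143477) (nat_lit 76) (nat_lit 742742141) (nat_lit 0) (nat_lit 742742141) (nat_lit 526) (nat_lit 1) (nat_lit 502) (nat_lit 1) (nat_lit 501) (nat_lit 1) (nat_lit 405) (nat_lit 372) (nat_lit 363)) (XT.nd (nat_lit 78) (nat_lit 0) (nat_lit 0) (XT.lf (nat_lit 1900) (nat_lit 786310707) (nat_lit 0) (nat_lit 1569716558) (nat_lit 1824) (nat_lit 786310707) (nat_lit 527) (nat_lit 1) (nat_lit 502) (nat_lit 1) (nat_lit 526) (nat_lit 1) (nat_lit 406) (nat_lit 372) (nat_lit 362)) (XT.lf (nat_lit 1900) (nat_lit 1450017801) (nat_lit 76) (nat_lit 831210906) (nat_lit 0) (nat_lit 831210906) (nat_lit 527) (nat_lit 1) (nat_lit 503) (nat_lit 1) (nat_lit 502) (nat_lit 1) (nat_lit 407) (nat_lit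 372) (nat_lit 361)))))) (XT.nd (nat_lit 312) (nat_lit 0) (nat_lit 152) (XT.nd (nat_lit 156) (nat_lit 0) (nat_lit 76) (XT.nd (nat_lit 78) (nat_lit 0) (nat_lit 0) (XT.lf (nat_lit 1900) (nat_lit 660107706) (nat_lit 0) (nat_lit 1762723793) (nat_lit 1824) (nat_lit 660107706) (nat_lit 528) (nat_lit 1) (nat_lit 503) (nat_lit 1) (nat_lit 527) (nat_lit 1) (nat_lit 408) (nat_lit 372) (nat_lit 360)) (XT.lf (nat_lit 1900) (nat_lit 1181361303) (nat_lit 76) (nat_lit 936214273) (nat_lit 0) (nat_lit 936214273) (nat_lit 528) (nat_lit 1) (nat_lit 504) (nat_lit 1) (nat_lit 503) (nat_lit 1) (nat_lit 409) (nat_lit 372) (nat_lit 359))) (XT.nd (nat_lit 78) (nat_lit 0) (nat_lit 0) (XT.lf (nat_lit 1900) (nat_lit 518703118) (nat_lit 0) (nat_lit 1987652406) (nat_lit 1824) (nat_lit 518703118) (nat_lit 529) (nat_lit 1) (nat_lit 504) (nat_lit 1) (nat_lit 528) (nat_lit 1) (nat_lit 410) (nat_lit 372) (nat_lit 358)) (XT.lf (nat_lit 1900) (nat_lit 883197160) (nat_lit 76) (nat_lit 1056718615)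 (nat_lit 0) (nat_lit 1056718615) (nat_lit 529) (nat_lit 1) (nat_lit 505) (nat_lit 1) (nat_lit 504) (nat_lit 1) (nat_lit 411) (nat_lit 372) (nat_lit 357)))) (XT.nd (nat_lit 156) (nat_lit 0) (nat_lit 76) (XT.nd (nat_lit 78) (nat_lit 0) (nat_lit 0) (XT.lf (nat_lit 1900) (nat_lit 363081400) (nat_lit 0) (nat_lit 2242489988) (nat_lit 1824) (nat_lit 363081400) (nat_lit 530) (nat_lit 1) (nat_lit 505) (nat_lit 1) (nat_lit 529) (nat_lit 1) (nat_lit 412) (nat_lit 372) (nat_lit 356)) (XT.lf (nat_lit 1900) (nat_lit 557454325) (nat_lit 76) (nat_lit 1191738122) (nat_lit 0) (nat_lit 1191738122) (nat_lit 530) (nat_lit 1) (nat_lit 506) (nat_lit 1) (nat_lit 505) (nat_lit 1) (nat_lit 413) (nat_lit 372) (nat_lit 355))) (XT.nd (nat_lit 78) (nat_lit 0) (nat_lit 0) (XT.lf (nat_lit 1900) (nat_lit 194181053) (nat_lit 0) (nat_lit 2525317427) (nat_lit 1824) (nat_lit 194181053) (nat_lit 531) (nat_lit 1) (nat_lit 506) (nat_lit 1) (nat_lit 530) (nat_lit 1) (nat_lit 414) (nat_lit 372) (nat_lit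 354)) (XT.nd (nat_lit 78) (nat_lit 0) (nat_lit 76) (XT.lf (nat_lit 1900) (nat_lit 205971492) (nat_lit 76) (nat_lit 1340332788) (nat_lit 0) (nat_lit 1340332788) (nat_lit 531) (nat_lit 1) (nat_lit 507) (nat_lit 1) (nat_lit 506) (nat_lit 1) (nat_lit 415) (nat_lit 372) (nat_lit 353)) (XT.lf (nat_lit 1900) (nat_lit 12896557) (nat_lit 0) (nat_lit 2834304988) (nat_lit 1824) (nat_lit 12896557) (nat_lit 532) (nat_lit 1) (nat_lit 507) (nat_lit 1) (nat_lit 531) (nat_lit 1) (nat_lit 416) (nat_lit 372) (nat_lit 352))))))) (XT.nd (nat_lit 702) (nat_lit 2736) (nat_lit 0) (XT.nd (nat_lit 312) (nat_lit 1900) (nat_lit 0) (XT.nd (nat_lit 156) (nat_lit 0) (nat_lit 76) (XT.nd (nat_lit 78) (nat_lit 0) (nat_lit 0) (XT.lf (nat_lit 1976) (nat_lit 1333207895) (nat_lit 0) (nat_lit 167276085) (nat_lit 1900) (nat_lit 1333207895) (nat_lit 508) (nat_lit 1) (nat_lit 482) (nat_lit 1) (nat_lit 507) (nat_lit 1) (nat_lit 417) (nat_lit 372) (nat_lit 351)) (XT.lf (nat_lit 1976) (nat_lit 2450303077)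 (nat_lit 76) (nat_lit 178736086) (nat_lit 0) (nat_lit 178736086) (nat_lit 508) (nat_lit 1) (nat_lit 483) (nat_lit 1) (nat_lit 482) (nat_lit 1) (nat_lit 418) (nat_lit 372) (nat_lit 350))) (XT.nd (nat_lit 78) (nat_lit 0) (nat_lit 0) (XT.lf (nat_lit 1976) (nat_lit 1111100348) (nat_lit 0) (nat_lit 559847919) (nat_lit 1900) (nat_lit 1111100348) (nat_lit 509) (nat_lit 1) (nat_lit 483) (nat_lit 1) (nat_lit 508) (nat_lit 1) (nat_lit 419) (nat_lit 372) (nat_lit 349)) (XT.lf (nat_lit 1976) (nat_lit 1994887700) (nat_lit 76) (nat_lit 380933251) (nat_lit 0) (nat_lit 380933251) (nat_lit 509) (nat_lit 1) (nat_lit 484) (nat_lit 1) (nat_lit 483) (nat_lit 1) (nat_lit 420) (nat_lit 372) (nat_lit 348)))) (XT.nd (nat_lit 156) (nat_lit 912) (nat_lit 0) (XT.nd (nat_lit 78) (nat_lit 1140) (nat_lit 0) (XT.lf (nat_lit 76) (nat_lit 879410322) (nat_lit 0) (nat_lit 972876072) (nat_lit 1900) (nat_lit 879410322) (nat_lit 485) (nat_lit 1) (nat_lit 484) (nat_lit 1) (nat_lit 509) (nat_lit 1)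 (nat_lit 421) (nat_lit 372) (nat_lit 347)) (XT.lf (nat_lit 1216) (nat_lit 1520981855) (nat_lit 0) (nat_lit 593011599) (nat_lit 1140) (nat_lit 593011599) (nat_lit 485) (nat_lit 1) (nat_lit 469) (nat_lit 1) (nat_lit 484) (nat_lit 1) (nat_lit 422) (nat_lit 372) (nat_lit 346))) (XT.nd (nat_lit 78) (nat_lit 912) (nat_lit 0) (XT.lf (nat_lit 76) (nat_lit 638866921) (nat_lit 0) (nat_lit 1404866194) (nat_lit 1216) (nat_lit 638866921) (nat_lit 470) (nat_lit 1) (nat_lit 469) (nat_lit 1) (nat_lit 485) (nat_lit 1) (nat_lit 423) (nat_lit 372) (nat_lit 345)) (XT.nd (nat_lit 78) (nat_lit 0) (nat_lit 0) (XT.lf (nat_lit 988) (nat_lit 1030012859) (nat_lit 0) (nat_lit 814239732) (nat_lit 912) (nat_lit 814239732) (nat_lit 470) (nat_lit 1) (nat_lit 457) (nat_lit 1) (nat_lit 469) (nat_lit 1) (nat_lit 424) (nat_lit 372) (nat_lit 344)) (XT.lf (nat_lit 76) (nat_lit 390163936) (nat_lit 0) (nat_lit 1854395687) (nat_lit 988) (nat_lit 390163936) (nat_lit 458) (nat_lit 1) (nat_lit 457) (nat_lit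 1) (nat_lit 470) (nat_lit 1) (nat_lit 425) (nat_lit 372) (nat_lit 343)))))) (XT.nd (nat_lit 56862) (nat_lit 0) (nat_lit 5776) (XT.nd (nat_lit 156) (nat_lit 1824) (nat_lit 0) (XT.nd (nat_lit 78) (nat_lit 0) (nat_lit 0) (XT.lf (nat_lit 988) (nat_lit 523338698) (nat_lit 0) (nat_lit 1043921468) (nat_lit 912) (nat_lit 1043921468) (nat_lit 458) (nat_lit 1) (nat_lit 445) (nat_lit 1) (nat_lit 457) (nat_lit 1) (nat_lit 426) (nat_lit 372) (nat_lit 342)) (XT.lf (nat_lit 76) (nat_lit 133961354) (nat_lit 0) (nat_lit 2320110651) (nat_lit 988) (nat_lit 133961354) (nat_lit 446) (nat_lit 1) (nat_lit 445) (nat_lit 1) (nat_lit 458) (nat_lit 1) (nat_lit 427) (nat_lit 372) (nat_lit 341))) (XT.nd (nat_lit 78) (nat_lit 988) (nat_lit 0) (XT.lf (nat_lit 912) (nat_lit 2250989) (nat_lit 0) (nat_lit 1281394345) (nat_lit 836) (nat_lit 1281394345) (nat_lit 446) (nat_lit 1) (nat_lit 434) (nat_lit 1) (nat_lit 445) (nat_lit 1) (nat_lit 428) (nat_lit 372) (nat_lit 340)) (XT.lf (nat_lit 988) (nat_lit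 2285901747) (nat_lit 0) (nat_lit 128263764) (nat_lit 912) (nat_lit 128263764) (nat_lit 434) (nat_lit 1) (nat_lit 421) (nat_lit 1) (nat_lit 433) (nat_lit 1) (nat_lit 429) (nat_lit 372) (nat_lit 339)))) (XT.nd (nat_lit 156) (nat_lit 0) (nat_lit 76) (XT.nd (nat_lit 78) (nat_lit 0) (nat_lit 0) (XT.lf (nat_lit 1900) (nat_lit 587197439) (nat_lit 0) (nat_lit 592107775) (nat_lit 1900) (nat_lit 587197439) (nat_lit 522) (nat_lit 1) (nat_lit 497) (nat_lit 0) (nat_lit 522) (nat_lit 0) (nat_lit 394) (nat_lit 373) (nat_lit 373)) (XT.lf (nat_lit 1900) (nat_lit 2321866961) (nat_lit 76) (nat_lit 588212329) (nat_lit 0) (nat_lit 588212329) (nat_lit 522) (nat_lit 1) (nat_lit 498) (nat_lit 1) (nat_lit 497) (nat_lit 0) (nat_lit 395) (nat_lit 373) (nat_lit 372))) (XT.nd (nat_lit 78) (nat_lit 0) (nat_lit 0) (XT.lf (nat_lit 1900) (nat_lit 1140047730) (nat_lit 0) (nat_lit 1183861630) (nat_lit 1824) (nat_lit 1140047730) (nat_lit 523) (nat_lit 1) (nat_lit 498) (nat_lit 1) (nat_lit 522)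 (nat_lit 1) (nat_lit 396) (nat_lit 373) (nat_lit 371)) (XT.nd (nat_lit 78) (nat_lit 0) (nat_lit 76) (XT.lf (nat_lit 1900) (nat_lit 2231354445) (nat_lit 76) (nat_lit 599394312) (nat_lit 0) (nat_lit 599394312) (nat_lit 523) (nat_lit 1) (nat_lit 499) (nat_lit 1) (nat_lit 498) (nat_lit 1) (nat_lit 397) (nat_lit 373) (nat_lit 370)) (XT.lf (nat_lit 1900) (nat_lit 1084395977) (nat_lit 0) (nat_lit 1227910366) (nat_lit 1824) (nat_lit 1084395977) (nat_lit 524) (nat_lit 1) (nat_lit 499) (nat_lit 1) (nat_lit 523) (nat_lit 1) (nat_lit 398) (nat_lit 373) (nat_lit 369))))))))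
noncomputable def ec9 : XT := (XT.nd (nat_lit 1404) (nat_lit 5472) (nat_lit 0) (XT.nd (nat_lit 702) (nat_lit 1292) (nat_lit 0) (XT.nd (nat_lit 312) (nat_lit 0) (nat_lit 152) (XT.nd (nat_lit 156) (nat_lit 0) (nat_lit 76) (XT.nd (nat_lit 78) (nat_lit 0) (nat_lit 76) (XT.lf (nat_lit 1900) (nat_lit 2099377821) (nat_lit 76) (nat_lit 632190526) (nat_lit 0) (nat_lit 632190526) (nat_lit 524) (nat_lit 1) (nat_lit 500) (nat_lit 1) (nat_lit 499) (nat_lit 1) (nat_lit 399) (nat_lit 373) (nat_lit 368)) (XT.lf (nat_lit 1900) (nat_lit 1008710792) (nat_lit 0) (nat_lit 1313767179) (nat_lit 1824) (nat_lit 1008710792) (nat_lit 525) (nat_lit 1) (nat_lit 500) (nat_lit 1) (nat_lit 524) (nat_lit 1) (nat_lit 400) (nat_lit 373) (nat_lit 367))) (XT.nd (nat_lit 78) (nat_lit 0) (nat_lit 76) (XT.lf (nat_lit 1900) (nat_lit 1928429129) (nat_lit 76) (nat_lit 685329341) (nat_lit 0) (nat_lit 685329341) (nat_lit 525) (nat_lit 1) (nat_lit 501) (nat_lit 1) (nat_lit 500) (nat_lit 1) (nat_lit 401)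 (nat_lit 373) (nat_lit 366)) (XT.lf (nat_lit 1900) (nat_lit 914205284) (nat_lit 0) (nat_lit 1438955306) (nat_lit 1824) (nat_lit 914205284) (nat_lit 526) (nat_lit 1) (nat_lit 501) (nat_lit 1) (nat_lit 525) (nat_lit 1) (nat_lit 402) (nat_lit 373) (nat_lit 365)))) (XT.nd (nat_lit 156) (nat_lit 0) (nat_lit 76) (XT.nd (nat_lit 78) (nat_lit 0) (nat_lit 76) (XT.lf (nat_lit 1900) (nat_lit 1720886346) (nat_lit 76) (nat_lit 757596983) (nat_lit 0) (nat_lit 757596983) (nat_lit 526) (nat_lit 1) (nat_lit 502) (nat_lit 1) (nat_lit 501) (nat_lit 1) (nat_lit 403) (nat_lit 373) (nat_lit 364)) (XT.lf (nat_lit 1900) (nat_lit 802036921) (nat_lit 0) (nat_lit 1601110889) (nat_lit 1824) (nat_lit 802036921) (nat_lit 527) (nat_lit 1) (nat_lit 502) (nat_lit 1) (nat_lit 526) (nat_lit 1) (nat_lit 404) (nat_lit 373) (nat_lit 363))) (XT.nd (nat_lit 78) (nat_lit 0) (nat_lit 76) (XT.lf (nat_lit 1900) (nat_lit 1479018157) (nat_lit 76) (nat_lit 847835124) (nat_lit 0) (nat_lit 847835124) (nat_lit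 527) (nat_lit 1) (nat_lit 503) (nat_lit 1) (nat_lit 502) (nat_lit 1) (nat_lit 405) (nat_lit 373) (nat_lit 362)) (XT.nd (nat_lit 78) (nat_lit 0) (nat_lit 0) (XT.lf (nat_lit 1900) (nat_lit 673309861) (nat_lit 0) (nat_lit 1797978268) (nat_lit 1824) (nat_lit 673309861) (nat_lit 528) (nat_lit 1) (nat_lit 503) (nat_lit 1) (nat_lit 527) (nat_lit 1) (nat_lit 406) (nat_lit 373) (nat_lit 361)) (XT.lf (nat_lit 1900) (nat_lit 1204988529) (nat_lit 76) (nat_lit 954938558) (nat_lit 0) (nat_lit 954938558) (nat_lit 528) (nat_lit 1) (nat_lit 504) (nat_lit 1) (nat_lit 503) (nat_lit 1) (nat_lit 407) (nat_lit 373) (nat_lit 360)))))) (XT.nd (nat_lit 312) (nat_lit 1672) (nat_lit 0) (XT.nd (nat_lit 156) (nat_lit 0) (nat_lit 76) (XT.nd (nat_lit 78) (nat_lit 0) (nat_lit 0) (XT.lf (nat_lit 1900) (nat_lit 529077181) (nat_lit 0) (nat_lit 2027405454) (nat_lit 1824) (nat_lit 529077181) (nat_lit 529) (nat_lit 1) (nat_lit 504) (nat_lit 1) (nat_lit 528) (nat_lit 1) (nat_lit 408) (nat_lit 373)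 (nat_lit 359)) (XT.lf (nat_lit 1900) (nat_lit 900861103) (nat_lit 76) (nat_lit 1077852987) (nat_lit 0) (nat_lit 1077852987) (nat_lit 529) (nat_lit 1) (nat_lit 505) (nat_lit 1) (nat_lit 504) (nat_lit 1) (nat_lit 409) (nat_lit 373) (nat_lit 358))) (XT.nd (nat_lit 78) (nat_lit 0) (nat_lit 0) (XT.lf (nat_lit 1900) (nat_lit 370343028) (nat_lit 0) (nat_lit 2287339788) (nat_lit 1824) (nat_lit 370343028) (nat_lit 530) (nat_lit 1) (nat_lit 505) (nat_lit 1) (nat_lit 529) (nat_lit 1) (nat_lit 410) (nat_lit 373) (nat_lit 357)) (XT.lf (nat_lit 1900) (nat_lit 568603411) (nat_lit 76) (nat_lit 1215572884) (nat_lit 0) (nat_lit 1215572884) (nat_lit 530) (nat_lit 1) (nat_lit 506) (nat_lit 1) (nat_lit 505) (nat_lit 1) (nat_lit 411) (nat_lit 373) (nat_lit 356)))) (XT.nd (nat_lit 156) (nat_lit 1824) (nat_lit 0) (XT.nd (nat_lit 78) (nat_lit 0) (nat_lit 0) (XT.lf (nat_lit 1900) (nat_lit 198064674) (nat_lit 0) (nat_lit 2575823775) (nat_lit 1824) (nat_lit 198064674) (nat_lit 531) (nat_lit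 1) (nat_lit 506) (nat_lit 1) (nat_lit 530) (nat_lit 1) (nat_lit 412) (nat_lit 373) (nat_lit 355)) (XT.lf (nat_lit 1900) (nat_lit 210090922) (nat_lit 76) (nat_lit 1367139444) (nat_lit 0) (nat_lit 1367139444) (nat_lit 531) (nat_lit 1) (nat_lit 507) (nat_lit 1) (nat_lit 506) (nat_lit 1) (nat_lit 413) (nat_lit 373) (nat_lit 354))) (XT.nd (nat_lit 78) (nat_lit 1900) (nat_lit 0) (XT.lf (nat_lit 1900) (nat_lit 13154488) (nat_lit 0) (nat_lit 2890991088) (nat_lit 1824) (nat_lit 13154488) (nat_lit 532) (nat_lit 1) (nat_lit 507) (nat_lit 1) (nat_lit 531) (nat_lit 1) (nat_lit 414) (nat_lit 373) (nat_lit 353)) (XT.nd (nat_lit 78) (nat_lit 0) (nat_lit 0) (XT.lf (nat_lit 1976) (nat_lit 1359872053) (nat_lit 0) (nat_lit 170621607) (nat_lit 1900) (nat_lit 1359872053) (nat_lit 508) (nat_lit 1) (nat_lit 482) (nat_lit 1) (nat_lit 507) (nat_lit 1) (nat_lit 415) (nat_lit 373) (nat_lit 352)) (XT.lf (nat_lit 1976) (nat_lit 2499309139) (nat_lit 76) (nat_lit 182310808) (nat_lit 0) (nat_lit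 182310808) (nat_lit 508) (nat_lit 1) (nat_lit 483) (nat_lit 1) (nat_lit 482) (nat_lit 1) (nat_lit 416) (nat_lit 373) (nat_lit 351))))))) (XT.nd (nat_lit 702) (nat_lit 2660) (nat_lit 0) (XT.nd (nat_lit 312) (nat_lit 1824) (nat_lit 0) (XT.nd (nat_lit 156) (nat_lit 1064) (nat_lit 0) (XT.nd (nat_lit 78) (nat_lit 0) (nat_lit 0) (XT.lf (nat_lit 1976) (nat_lit 1133322355) (nat_lit 0) (nat_lit 571044877) (nat_lit 1900) (nat_lit 1133322355) (nat_lit 509) (nat_lit 1) (nat_lit 483) (nat_lit 1) (nat_lit 508) (nat_lit 1) (nat_lit 417) (nat_lit 373) (nat_lit 350)) (XT.lf (nat_lit 1976) (nat_lit 2034785454) (nat_lit 76) (nat_lit 388551916) (nat_lit 0) (nat_lit 388551916) (nat_lit 509) (nat_lit 1) (nat_lit 484) (nat_lit 1) (nat_lit 483) (nat_lit 1) (nat_lit 418) (nat_lit 373) (nat_lit 349))) (XT.nd (nat_lit 78) (nat_lit 1140) (nat_lit 0) (XT.lf (nat_lit 76) (nat_lit 896998528) (nat_lit 0) (nat_lit 992333593) (nat_lit 1900) (nat_lit 896998528) (nat_lit 485) (nat_lit 1) (nat_lit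 484) (nat_lit 1) (nat_lit 509) (nat_lit 1) (nat_lit 419) (nat_lit 373) (nat_lit 348)) (XT.lf (nat_lit 1216) (nat_lit 1551401492) (nat_lit 0) (nat_lit 604871831) (nat_lit 1140) (nat_lit 604871831) (nat_lit 485) (nat_lit 1) (nat_lit 469) (nat_lit 1) (nat_lit 484) (nat_lit 1) (nat_lit 420) (nat_lit 373) (nat_lit 347)))) (XT.nd (nat_lit 156) (nat_lit 912) (nat_lit 0) (XT.nd (nat_lit 78) (nat_lit 912) (nat_lit 0) (XT.lf (nat_lit 76) (nat_lit 651644260) (nat_lit 0) (nat_lit 1432963518) (nat_lit 1216) (nat_lit 651644260) (nat_lit 470) (nat_lit 1) (nat_lit 469) (nat_lit 1) (nat_lit 485) (nat_lit 1) (nat_lit 421) (nat_lit 373) (nat_lit 346)) (XT.lf (nat_lit 988) (nat_lit 1050613116) (nat_lit 0) (nat_lit 830524527) (nat_lit 912) (nat_lit 830524527) (nat_lit 470) (nat_lit 1) (nat_lit 457) (nat_lit 1) (nat_lit 469) (nat_lit 1) (nat_lit 422) (nat_lit 373) (nat_lit 345))) (XT.nd (nat_lit 78) (nat_lit 912) (nat_lit 0) (XT.lf (nat_lit 76) (nat_lit 397967215) (nat_lit 0) (nat_lit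 1891483601) (nat_lit 988) (nat_lit 397967215) (nat_lit 458) (nat_lit 1) (nat_lit 457) (nat_lit 1) (nat_lit 470) (nat_lit 1) (nat_lit 423) (nat_lit 373) (nat_lit 344)) (XT.nd (nat_lit 78) (nat_lit 0) (nat_lit 0) (XT.lf (nat_lit 988) (nat_lit 533805472) (nat_lit 0) (nat_lit 1064799898) (nat_lit 912) (nat_lit 1064799898) (nat_lit 458) (nat_lit 1) (nat_lit 445) (nat_lit 1) (nat_lit 457) (nat_lit 1) (nat_lit 424) (nat_lit 373) (nat_lit 343)) (XT.lf (nat_lit 76) (nat_lit 136640581) (nat_lit 0) (nat_lit 2366512865) (nat_lit 988) (nat_lit 136640581) (nat_lit 446) (nat_lit 1) (nat_lit 445) (nat_lit 1) (nat_lit 458) (nat_lit 1) (nat_lit 425) (nat_lit 373) (nat_lit 342)))))) (XT.nd (nat_lit 56706) (nat_lit 0) (nat_lit 6612) (XT.nd (nat_lit 156) (nat_lit 836) (nat_lit 0) (XT.nd (nat_lit 78) (nat_lit 988) (nat_lit 0) (XT.lf (nat_lit 912) (nat_lit 2296009) (nat_lit 0) (nat_lit 1307022232) (nat_lit 836) (nat_lit 1307022232) (nat_lit 446) (nat_lit 1) (nat_lit 434) (nat_lit 1)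 (nat_lit 445) (nat_lit 1) (nat_lit 426) (nat_lit 373) (nat_lit 341)) (XT.lf (nat_lit 988) (nat_lit 2331619782) (nat_lit 0) (nat_lit 130829040) (nat_lit 912) (nat_lit 130829040) (nat_lit 434) (nat_lit 1) (nat_lit 421) (nat_lit 1) (nat_lit 433) (nat_lit 1) (nat_lit 427) (nat_lit 373) (nat_lit 340))) (XT.nd (nat_lit 78) (nat_lit 836) (nat_lit 0) (XT.lf (nat_lit 76) (nat_lit 1017409449) (nat_lit 0) (nat_lit 535545499) (nat_lit 988) (nat_lit 1017409449) (nat_lit 422) (nat_lit 1) (nat_lit 421) (nat_lit 1) (nat_lit 434) (nat_lit 1) (nat_lit 428) (nat_lit 373) (nat_lit 339)) (XT.lf (nat_lit 912) (nat_lit 1740314314) (nat_lit 0) (nat_lit 403758409) (nat_lit 836) (nat_lit 403758409) (nat_lit 422) (nat_lit 1) (nat_lit 410) (nat_lit 1) (nat_lit 421) (nat_lit 1) (nat_lit 429) (nat_lit 373) (nat_lit 338)))) (XT.nd (nat_lit 156) (nat_lit 0) (nat_lit 76) (XT.nd (nat_lit 78) (nat_lit 0) (nat_lit 0) (XT.lf (nat_lit 1900) (nat_lit 598941388) (nat_lit 0) (nat_lit 603949931) (nat_lit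 1900) (nat_lit 598941388) (nat_lit 522) (nat_lit 1) (nat_lit 497) (nat_lit 0) (nat_lit 522) (nat_lit 0) (nat_lit 392) (nat_lit 374) (nat_lit 374)) (XT.lf (nat_lit 1900) (nat_lit 2368304300) (nat_lit 76) (nat_lit 599976576) (nat_lit 0) (nat_lit 599976576) (nat_lit 522) (nat_lit 1) (nat_lit 498) (nat_lit 1) (nat_lit 497) (nat_lit 0) (nat_lit 393) (nat_lit 374) (nat_lit 373))) (XT.nd (nat_lit 78) (nat_lit 0) (nat_lit 0) (XT.lf (nat_lit 1900) (nat_lit 1162848684) (nat_lit 0) (nat_lit 1207538863) (nat_lit 1824) (nat_lit 1162848684) (nat_lit 523) (nat_lit 1) (nat_lit 498) (nat_lit 1) (nat_lit 522) (nat_lit 1) (nat_lit 394) (nat_lit 374) (nat_lit 372)) (XT.nd (nat_lit 78) (nat_lit 0) (nat_lit 76) (XT.lf (nat_lit 1900) (nat_lit 2275981533) (nat_lit 76) (nat_lit 611382198) (nat_lit 0) (nat_lit 611382198) (nat_lit 523) (nat_lit 1) (nat_lit 499) (nat_lit 1) (nat_lit 498) (nat_lit 1) (nat_lit 395) (nat_lit 374) (nat_lit 371)) (XT.lf (nat_lit 1900) (nat_lit 1106083896) (nat_lit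 0) (nat_lit 1252468574) (nat_lit 1824) (nat_lit 1106083896) (nat_lit 524) (nat_lit 1) (nat_lit 499) (nat_lit 1) (nat_lit 523) (nat_lit 1) (nat_lit 396) (nat_lit 374) (nat_lit 370))))))))
noncomputable def ec10 : XT := (XT.nd (nat_lit 1404) (nat_lit 6308) (nat_lit 0) (XT.nd (nat_lit 702) (nat_lit 1292) (nat_lit 0) (XT.nd (nat_lit 312) (nat_lit 0) (nat_lit 152) (XT.nd (nat_lit 156) (nat_lit 0) (nat_lit 76) (XT.nd (nat_lit 78) (nat_lit 0) (nat_lit 76) (XT.lf (nat_lit 1900) (nat_lit 2141365377) (nat_lit 76) (nat_lit 644834336) (nat_lit 0) (nat_lit 644834336) (nat_lit 524) (nat_lit 1) (nat_lit 500) (nat_lit 1) (nat_lit 499) (nat_lit 1) (nat_lit 397) (nat_lit 374) (nat_lit 369)) (XT.lf (nat_lit 1900) (nat_lit 1028885008) (nat_lit 0) (nat_lit 1340042523) (nat_lit 1824) (nat_lit 1028885008) (nat_lit 525) (nat_lit 1) (nat_lit 500) (nat_lit 1) (nat_lit 524) (nat_lit 1) (nat_lit 398) (nat_lit 374) (nat_lit 368))) (XT.nd (nat_lit 78) (nat_lit 0) (nat_lit 76) (XT.lf (nat_lit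 1900) (nat_lit 1966997711) (nat_lit 76) (nat_lit 699035927) (nat_lit 0) (nat_lit 699035927) (nat_lit 525) (nat_lit 1) (nat_lit 501) (nat_lit 1) (nat_lit 500) (nat_lit 1) (nat_lit 399) (nat_lit 374) (nat_lit 367)) (XT.lf (nat_lit 1900) (nat_lit 932489390) (nat_lit 0) (nat_lit 1467734412) (nat_lit 1824) (nat_lit 932489390) (nat_lit 526) (nat_lit 1) (nat_lit 501) (nat_lit 1) (nat_lit 525) (nat_lit 1) (nat_lit 400) (nat_lit 374) (nat_lit 366)))) (XT.nd (nat_lit 156) (nat_lit 0) (nat_lit 76) (XT.nd (nat_lit 78) (nat_lit 0) (nat_lit 76) (XT.lf (nat_lit 1900) (nat_lit 1755304073) (nat_lit 76) (nat_lit 772748923) (nat_lit 0) (nat_lit 772748923) (nat_lit 526) (nat_lit 1) (nat_lit 502) (nat_lit 1) (nat_lit 501) (nat_lit 1) (nat_lit 401) (nat_lit 374) (nat_lit 365)) (XT.lf (nat_lit 1900) (nat_lit 818077660) (nat_lit 0) (nat_lit 1633133107) (nat_lit 1824) (nat_lit 818077660) (nat_lit 527) (nat_lit 1) (nat_lit 502) (nat_lit 1) (nat_lit 526) (nat_lit 1) (nat_lit 402) (nat_lit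 374) (nat_lit 364))) (XT.nd (nat_lit 78) (nat_lit 0) (nat_lit 76) (XT.lf (nat_lit 1900) (nat_lit 1508598521) (nat_lit 76) (nat_lit 864791826) (nat_lit 0) (nat_lit 864791826) (nat_lit 527) (nat_lit 1) (nat_lit 503) (nat_lit 1) (nat_lit 502) (nat_lit 1) (nat_lit 403) (nat_lit 374) (nat_lit 363)) (XT.nd (nat_lit 78) (nat_lit 0) (nat_lit 0) (XT.lf (nat_lit 1900) (nat_lit 686776058) (nat_lit 0) (nat_lit 1833937834) (nat_lit 1824) (nat_lit 686776058) (nat_lit 528) (nat_lit 1) (nat_lit 503) (nat_lit 1) (nat_lit 527) (nat_lit 1) (nat_lit 404) (nat_lit 374) (nat_lit 362)) (XT.lf (nat_lit 1900) (nat_lit 1229088300) (nat_lit 76) (nat_lit 974037329) (nat_lit 0) (nat_lit 974037329) (nat_lit 528) (nat_lit 1) (nat_lit 504) (nat_lit 1) (nat_lit 503) (nat_lit 1) (nat_lit 405) (nat_lit 374) (nat_lit 361)))))) (XT.nd (nat_lit 312) (nat_lit 1672) (nat_lit 0) (XT.nd (nat_lit 156) (nat_lit 0) (nat_lit 76) (XT.nd (nat_lit 78) (nat_lit 0) (nat_lit 0) (XT.lf (nat_lit 1900) (nat_lit 539658724)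 (nat_lit 0) (nat_lit 2067953563) (nat_lit 1824) (nat_lit 539658724) (nat_lit 529) (nat_lit 1) (nat_lit 504) (nat_lit 1) (nat_lit 528) (nat_lit 1) (nat_lit 406) (nat_lit 374) (nat_lit 360)) (XT.lf (nat_lit 1900) (nat_lit 918878325) (nat_lit 76) (nat_lit 1099410047) (nat_lit 0) (nat_lit 1099410047) (nat_lit 529) (nat_lit 1) (nat_lit 505) (nat_lit 1) (nat_lit 504) (nat_lit 1) (nat_lit 407) (nat_lit 374) (nat_lit 359))) (XT.nd (nat_lit 78) (nat_lit 0) (nat_lit 0) (XT.lf (nat_lit 1900) (nat_lit 377749889) (nat_lit 0) (nat_lit 2333086584) (nat_lit 1824) (nat_lit 377749889) (nat_lit 530) (nat_lit 1) (nat_lit 505) (nat_lit 1) (nat_lit 529) (nat_lit 1) (nat_lit 408) (nat_lit 374) (nat_lit 358)) (XT.lf (nat_lit 1900) (nat_lit 579975479) (nat_lit 76) (nat_lit 1239884342) (nat_lit 0) (nat_lit 1239884342) (nat_lit 530) (nat_lit 1) (nat_lit 506) (nat_lit 1) (nat_lit 505) (nat_lit 1) (nat_lit 409) (nat_lit 374) (nat_lit 357)))) (XT.nd (nat_lit 156) (nat_lit 1824) (nat_lit 0)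 (XT.nd (nat_lit 78) (nat_lit 0) (nat_lit 0) (XT.lf (nat_lit 1900) (nat_lit 202025968) (nat_lit 0) (nat_lit 2627340251) (nat_lit 1824) (nat_lit 202025968) (nat_lit 531) (nat_lit 1) (nat_lit 506) (nat_lit 1) (nat_lit 530) (nat_lit 1) (nat_lit 410) (nat_lit 374) (nat_lit 356)) (XT.lf (nat_lit 1900) (nat_lit 214292740) (nat_lit 76) (nat_lit 1394482233) (nat_lit 0) (nat_lit 1394482233) (nat_lit 531) (nat_lit 1) (nat_lit 507) (nat_lit 1) (nat_lit 506) (nat_lit 1) (nat_lit 411) (nat_lit 374) (nat_lit 355))) (XT.nd (nat_lit 78) (nat_lit 1900) (nat_lit 0) (XT.lf (nat_lit 1900) (nat_lit 13417578) (nat_lit 0) (nat_lit 2948810910) (nat_lit 1824) (nat_lit 13417578) (nat_lit 532) (nat_lit 1) (nat_lit 507) (nat_lit 1) (nat_lit 531) (nat_lit 1) (nat_lit 412) (nat_lit 374) (nat_lit 354)) (XT.nd (nat_lit 78) (nat_lit 0) (nat_lit 0) (XT.lf (nat_lit 1976) (nat_lit 1387069494) (nat_lit 0) (nat_lit 174034039) (nat_lit 1900) (nat_lit 1387069494) (nat_lit 508) (nat_lit 1) (nat_lit 482)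 (nat_lit 1) (nat_lit 507) (nat_lit 1) (nat_lit 413) (nat_lit 374) (nat_lit 353)) (XT.lf (nat_lit 1976) (nat_lit 2549295322) (nat_lit 76) (nat_lit 185957024) (nat_lit 0) (nat_lit 185957024) (nat_lit 508) (nat_lit 1) (nat_lit 483) (nat_lit 1) (nat_lit 482) (nat_lit 1) (nat_lit 414) (nat_lit 374) (nat_lit 352))))))) (XT.nd (nat_lit 702) (nat_lit 3496) (nat_lit 0) (XT.nd (nat_lit 312) (nat_lit 1824) (nat_lit 0) (XT.nd (nat_lit 156) (nat_lit 1064) (nat_lit 0) (XT.nd (nat_lit 78) (nat_lit 0) (nat_lit 0) (XT.lf (nat_lit 1976) (nat_lit 1155988802) (nat_lit 0) (nat_lit 582465775) (nat_lit 1900) (nat_lit 1155988802) (nat_lit 509) (nat_lit 1) (nat_lit 483) (nat_lit 1) (nat_lit 508) (nat_lit 1) (nat_lit 415) (nat_lit 374) (nat_lit 351)) (XT.lf (nat_lit 1976) (nat_lit 2075481163) (nat_lit 76) (nat_lit 396322954) (nat_lit 0) (nat_lit 396322954) (nat_lit 509) (nat_lit 1) (nat_lit 484) (nat_lit 1) (nat_lit 483) (nat_lit 1) (nat_lit 416) (nat_lit 374) (nat_lit 350))) (XT.nd (nat_lit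 78) (nat_lit 1140) (nat_lit 0) (XT.lf (nat_lit 76) (nat_lit 914938499) (nat_lit 0) (nat_lit 1012180265) (nat_lit 1900) (nat_lit 914938499) (nat_lit 485) (nat_lit 1) (nat_lit 484) (nat_lit 1) (nat_lit 509) (nat_lit 1) (nat_lit 417) (nat_lit 374) (nat_lit 349)) (XT.lf (nat_lit 1216) (nat_lit 1582429521) (nat_lit 0) (nat_lit 616969268) (nat_lit 1140) (nat_lit 616969268) (nat_lit 485) (nat_lit 1) (nat_lit 469) (nat_lit 1) (nat_lit 484) (nat_lit 1) (nat_lit 418) (nat_lit 374) (nat_lit 348)))) (XT.nd (nat_lit 156) (nat_lit 912) (nat_lit 0) (XT.nd (nat_lit 78) (nat_lit 912) (nat_lit 0) (XT.lf (nat_lit 76) (nat_lit 664677145) (nat_lit 0) (nat_lit 1461622788) (nat_lit 1216) (nat_lit 664677145) (nat_lit 470) (nat_lit 1) (nat_lit 469) (nat_lit 1) (nat_lit 485) (nat_lit 1) (nat_lit 419) (nat_lit 374) (nat_lit 347)) (XT.lf (nat_lit 988) (nat_lit 1071625379) (nat_lit 0) (nat_lit 847135017) (nat_lit 912) (nat_lit 847135017) (nat_lit 470) (nat_lit 1) (nat_lit 457) (nat_lit 1)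 (nat_lit 469) (nat_lit 1) (nat_lit 420) (nat_lit 374) (nat_lit 346))) (XT.nd (nat_lit 78) (nat_lit 912) (nat_lit 0) (XT.lf (nat_lit 76) (nat_lit 405926559) (nat_lit 0) (nat_lit 1929313273) (nat_lit 988) (nat_lit 405926559) (nat_lit 458) (nat_lit 1) (nat_lit 457) (nat_lit 1) (nat_lit 470) (nat_lit 1) (nat_lit 421) (nat_lit 374) (nat_lit 345)) (XT.nd (nat_lit 78) (nat_lit 0) (nat_lit 0) (XT.lf (nat_lit 988) (nat_lit 544481582) (nat_lit 0) (nat_lit 1086095896) (nat_lit 912) (nat_lit 1086095896) (nat_lit 458) (nat_lit 1) (nat_lit 445) (nat_lit 1) (nat_lit 457) (nat_lit 1) (nat_lit 422) (nat_lit 374) (nat_lit 344)) (XT.lf (nat_lit 76) (nat_lit 139373393) (nat_lit 0) (nat_lit 2413843122) (nat_lit 988) (nat_lit 139373393) (nat_lit 446) (nat_lit 1) (nat_lit 445) (nat_lit 1) (nat_lit 458) (nat_lit 1) (nat_lit 423) (nat_lit 374) (nat_lit 343)))))) (XT.nd (nat_lit 312) (nat_lit 836) (nat_lit 0) (XT.nd (nat_lit 156) (nat_lit 836) (nat_lit 0) (XT.nd (nat_lit 78) (nat_lit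 988) (nat_lit 0) (XT.lf (nat_lit 912) (nat_lit 2341929) (nat_lit 0) (nat_lit 1333162677) (nat_lit 836) (nat_lit 1333162677) (nat_lit 446) (nat_lit 1) (nat_lit 434) (nat_lit 1) (nat_lit 445) (nat_lit 1) (nat_lit 424) (nat_lit 374) (nat_lit 342)) (XT.lf (nat_lit 988) (nat_lit 2378252178) (nat_lit 0) (nat_lit 133445621) (nat_lit 912) (nat_lit 133445621) (nat_lit 434) (nat_lit 1) (nat_lit 421) (nat_lit 1) (nat_lit 433) (nat_lit 1) (nat_lit 425) (nat_lit 374) (nat_lit 341))) (XT.nd (nat_lit 78) (nat_lit 836) (nat_lit 0) (XT.lf (nat_lit 76) (nat_lit 1037757638) (nat_lit 0) (nat_lit 546256409) (nat_lit 988) (nat_lit 1037757638) (nat_lit 422) (nat_lit 1) (nat_lit 421) (nat_lit 1) (nat_lit 434) (nat_lit 1) (nat_lit 426) (nat_lit 374) (nat_lit 340)) (XT.lf (nat_lit 912) (nat_lit 1775120601) (nat_lit 0) (nat_lit 411833577) (nat_lit 836) (nat_lit 411833577) (nat_lit 422) (nat_lit 1) (nat_lit 410) (nat_lit 1) (nat_lit 421) (nat_lit 1) (nat_lit 427) (nat_lit 374) (nat_lit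 339)))) (XT.nd (nat_lit 56394) (nat_lit 0) (nat_lit 7448) (XT.nd (nat_lit 78) (nat_lit 836) (nat_lit 0) (XT.lf (nat_lit 76) (nat_lit 734430125) (nat_lit 0) (nat_lit 1107163733) (nat_lit 912) (nat_lit 734430125) (nat_lit 411) (nat_lit 1) (nat_lit 410) (nat_lit 1) (nat_lit 422) (nat_lit 1) (nat_lit 428) (nat_lit 374) (nat_lit 338)) (XT.lf (nat_lit 912) (nat_lit 1161321034) (nat_lit 0) (nat_lit 696121352) (nat_lit 836) (nat_lit 696121352) (nat_lit 411) (nat_lit 1) (nat_lit 399) (nat_lit 1) (nat_lit 410) (nat_lit 1) (nat_lit 429) (nat_lit 374) (nat_lit 337))) (XT.nd (nat_lit 78) (nat_lit 0) (nat_lit 0) (XT.lf (nat_lit 1900) (nat_lit 610920215) (nat_lit 0) (nat_lit 616028929) (nat_lit 1900) (nat_lit 610920215) (nat_lit 522) (nat_lit 1) (nat_lit 497) (nat_lit 0) (nat_lit 522) (nat_lit 0) (nat_lit 390) (nat_lit 375) (nat_lit 375)) (XT.nd (nat_lit 78) (nat_lit 0) (nat_lit 76) (XT.lf (nat_lit 1900) (nat_lit 2415670386) (nat_lit 76) (nat_lit 611976107) (nat_lit 0) (nat_lit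 611976107) (nat_lit 522) (nat_lit 1) (nat_lit 498) (nat_lit 1) (nat_lit 497) (nat_lit 0) (nat_lit 391) (nat_lit 375) (nat_lit 374)) (XT.lf (nat_lit 1900) (nat_lit 1186105658) (nat_lit 0) (nat_lit 1231689640) (nat_lit 1824) (nat_lit 1186105658) (nat_lit 523) (nat_lit 1) (nat_lit 498) (nat_lit 1) (nat_lit 522) (nat_lit 1) (nat_lit 392) (nat_lit 375) (nat_lit 373))))))))
noncomputable def ec11 : XT := (XT.nd (nat_lit 1404) (nat_lit 7524) (nat_lit 0) (XT.nd (nat_lit 702) (nat_lit 0) (nat_lit 380) (XT.nd (nat_lit 312) (nat_lit 0) (nat_lit 152) (XT.nd (nat_lit 156) (nat_lit 0) (nat_lit 76) (XT.nd (nat_lit 78) (nat_lit 0) (nat_lit 76) (XT.lf (nat_lit 1900) (nat_lit 2321501164) (nat_lit 76) (nat_lit 623609842) (nat_lit 0) (nat_lit 623609842) (nat_lit 523) (nat_lit 1) (nat_lit 499) (nat_lit 1) (nat_lit 498) (nat_lit 1) (nat_lit 393) (nat_lit 375) (nat_lit 372)) (XT.lf (nat_lit 1900) (nat_lit 1128205574) (nat_lit 0) (nat_lit 1277517945) (nat_lit 1824) (nat_lit 1128205574)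 (nat_lit 524) (nat_lit 1) (nat_lit 499) (nat_lit 1) (nat_lit 523) (nat_lit 1) (nat_lit 394) (nat_lit 375) (nat_lit 371))) (XT.nd (nat_lit 78) (nat_lit 0) (nat_lit 76) (XT.lf (nat_lit 1900) (nat_lit 2184192685) (nat_lit 76) (nat_lit 657731023) (nat_lit 0) (nat_lit 657731023) (nat_lit 524) (nat_lit 1) (nat_lit 500) (nat_lit 1) (nat_lit 499) (nat_lit 1) (nat_lit 395) (nat_lit 375) (nat_lit 370)) (XT.lf (nat_lit 1900) (nat_lit 1049462708) (nat_lit 0) (nat_lit 1366843373) (nat_lit 1824) (nat_lit 1049462708) (nat_lit 525) (nat_lit 1) (nat_lit 500) (nat_lit 1) (nat_lit 524) (nat_lit 1) (nat_lit 396) (nat_lit 375) (nat_lit 369)))) (XT.nd (nat_lit 156) (nat_lit 0) (nat_lit 76) (XT.nd (nat_lit 78) (nat_lit 0) (nat_lit 76) (XT.lf (nat_lit 1900) (nat_lit 2006337666) (nat_lit 76) (nat_lit 713016646) (nat_lit 0) (nat_lit 713016646) (nat_lit 525) (nat_lit 1) (nat_lit 501) (nat_lit 1) (nat_lit 500) (nat_lit 1) (nat_lit 397) (nat_lit 375) (nat_lit 368)) (XT.lf (nat_lit 1900)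 (nat_lit 951139178) (nat_lit 0) (nat_lit 1497089100) (nat_lit 1824) (nat_lit 951139178) (nat_lit 526) (nat_lit 1) (nat_lit 501) (nat_lit 1) (nat_lit 525) (nat_lit 1) (nat_lit 398) (nat_lit 375) (nat_lit 367))) (XT.nd (nat_lit 78) (nat_lit 0) (nat_lit 76) (XT.lf (nat_lit 1900) (nat_lit 1790410155) (nat_lit 76) (nat_lit 788203902) (nat_lit 0) (nat_lit 788203902) (nat_lit 526) (nat_lit 1) (nat_lit 502) (nat_lit 1) (nat_lit 501) (nat_lit 1) (nat_lit 399) (nat_lit 375) (nat_lit 366)) (XT.nd (nat_lit 78) (nat_lit 0) (nat_lit 0) (XT.lf (nat_lit 1900) (nat_lit 834439213) (nat_lit 0) (nat_lit 1665795769) (nat_lit 1824) (nat_lit 834439213) (nat_lit 527) (nat_lit 1) (nat_lit 502) (nat_lit 1) (nat_lit 526) (nat_lit 1) (nat_lit 400) (nat_lit 375) (nat_lit 365)) (XT.lf (nat_lit 1900) (nat_lit 1538770491) (nat_lit 76) (nat_lit 882087663) (nat_lit 0) (nat_lit 882087663) (nat_lit 527) (nat_lit 1) (nat_lit 503) (nat_lit 1) (nat_lit 502) (nat_lit 1) (nat_lit 401) (nat_lit 375)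 (nat_lit 364)))))) (XT.nd (nat_lit 312) (nat_lit 0) (nat_lit 152) (XT.nd (nat_lit 156) (nat_lit 0) (nat_lit 76) (XT.nd (nat_lit 78) (nat_lit 0) (nat_lit 0) (XT.lf (nat_lit 1900) (nat_lit 700511579) (nat_lit 0) (nat_lit 1870616591) (nat_lit 1824) (nat_lit 700511579) (nat_lit 528) (nat_lit 1) (nat_lit 503) (nat_lit 1) (nat_lit 527) (nat_lit 1) (nat_lit 402) (nat_lit 375) (nat_lit 363)) (XT.lf (nat_lit 1900) (nat_lit 1253670066) (nat_lit 76) (nat_lit 993518076) (nat_lit 0) (nat_lit 993518076) (nat_lit 528) (nat_lit 1) (nat_lit 504) (nat_lit 1) (nat_lit 503) (nat_lit 1) (nat_lit 403) (nat_lit 375) (nat_lit 362))) (XT.nd (nat_lit 78) (nat_lit 0) (nat_lit 0) (XT.lf (nat_lit 1900) (nat_lit 550451899) (nat_lit 0) (nat_lit 2109312635) (nat_lit 1824) (nat_lit 550451899) (nat_lit 529) (nat_lit 1) (nat_lit 504) (nat_lit 1) (nat_lit 528) (nat_lit 1) (nat_lit 404) (nat_lit 375) (nat_lit 361)) (XT.lf (nat_lit 1900) (nat_lit 937255891) (nat_lit 76) (nat_lit 1121398248) (nat_lit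 0) (nat_lit 1121398248) (nat_lit 529) (nat_lit 1) (nat_lit 505) (nat_lit 1) (nat_lit 504) (nat_lit 1) (nat_lit 405) (nat_lit 375) (nat_lit 360)))) (XT.nd (nat_lit 156) (nat_lit 0) (nat_lit 76) (XT.nd (nat_lit 78) (nat_lit 0) (nat_lit 0) (XT.lf (nat_lit 1900) (nat_lit 385304887) (nat_lit 0) (nat_lit 2379748315) (nat_lit 1824) (nat_lit 385304887) (nat_lit 530) (nat_lit 1) (nat_lit 505) (nat_lit 1) (nat_lit 529) (nat_lit 1) (nat_lit 406) (nat_lit 375) (nat_lit 359)) (XT.lf (nat_lit 1900) (nat_lit 591574989) (nat_lit 76) (nat_lit 1264682029) (nat_lit 0) (nat_lit 1264682029) (nat_lit 530) (nat_lit 1) (nat_lit 506) (nat_lit 1) (nat_lit 505) (nat_lit 1) (nat_lit 407) (nat_lit 375) (nat_lit 358))) (XT.nd (nat_lit 78) (nat_lit 0) (nat_lit 0) (XT.lf (nat_lit 1900) (nat_lit 206066487) (nat_lit 0) (nat_lit 2679887056) (nat_lit 1824) (nat_lit 206066487) (nat_lit 531) (nat_lit 1) (nat_lit 506) (nat_lit 1) (nat_lit 530) (nat_lit 1) (nat_lit 408) (nat_lit 375) (nat_lit 357))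 (XT.nd (nat_lit 78) (nat_lit 0) (nat_lit 76) (XT.lf (nat_lit 1900) (nat_lit 218578595) (nat_lit 76) (nat_lit 1422371877) (nat_lit 0) (nat_lit 1422371877) (nat_lit 531) (nat_lit 1) (nat_lit 507) (nat_lit 1) (nat_lit 506) (nat_lit 1) (nat_lit 409) (nat_lit 375) (nat_lit 356)) (XT.lf (nat_lit 1900) (nat_lit 13685929) (nat_lit 0) (nat_lit 3007787128) (nat_lit 1824) (nat_lit 13685929) (nat_lit 532) (nat_lit 1) (nat_lit 507) (nat_lit 1) (nat_lit 531) (nat_lit 1) (nat_lit 410) (nat_lit 375) (nat_lit 355))))))) (XT.nd (nat_lit 702) (nat_lit 4408) (nat_lit 0) (XT.nd (nat_lit 312) (nat_lit 1900) (nat_lit 0) (XT.nd (nat_lit 156) (nat_lit 0) (nat_lit 76) (XT.nd (nat_lit 78) (nat_lit 0) (nat_lit 0) (XT.lf (nat_lit 1976) (nat_lit 1414810884) (nat_lit 0) (nat_lit 177514720) (nat_lit 1900) (nat_lit 1414810884) (nat_lit 508) (nat_lit 1) (nat_lit 482) (nat_lit 1) (nat_lit 507) (nat_lit 1) (nat_lit 411) (nat_lit 375) (nat_lit 354)) (XT.lf (nat_lit 1976) (nat_lit 2600281228) (nat_lit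 76) (nat_lit 189676165) (nat_lit 0) (nat_lit 189676165) (nat_lit 508) (nat_lit 1) (nat_lit 483) (nat_lit 1) (nat_lit 482) (nat_lit 1) (nat_lit 412) (nat_lit 375) (nat_lit 353))) (XT.nd (nat_lit 78) (nat_lit 0) (nat_lit 0) (XT.lf (nat_lit 1976) (nat_lit 1179108578) (nat_lit 0) (nat_lit 594115090) (nat_lit 1900) (nat_lit 1179108578) (nat_lit 509) (nat_lit 1) (nat_lit 483) (nat_lit 1) (nat_lit 508) (nat_lit 1) (nat_lit 413) (nat_lit 375) (nat_lit 352)) (XT.lf (nat_lit 1976) (nat_lit 2116990786) (nat_lit 76) (nat_lit 404249413) (nat_lit 0) (nat_lit 404249413) (nat_lit 509) (nat_lit 1) (nat_lit 484) (nat_lit 1) (nat_lit 483) (nat_lit 1) (nat_lit 414) (nat_lit 375) (nat_lit 351)))) (XT.nd (nat_lit 156) (nat_lit 912) (nat_lit 0) (XT.nd (nat_lit 78) (nat_lit 1140) (nat_lit 0) (XT.lf (nat_lit 76) (nat_lit 933237269) (nat_lit 0) (nat_lit 1032423870) (nat_lit 1900) (nat_lit 933237269) (nat_lit 485) (nat_lit 1) (nat_lit 484) (nat_lit 1) (nat_lit 509) (nat_lit 1) (nat_lit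 415) (nat_lit 375) (nat_lit 350)) (XT.lf (nat_lit 1216) (nat_lit 1614078112) (nat_lit 0) (nat_lit 629308653) (nat_lit 1140) (nat_lit 629308653) (nat_lit 485) (nat_lit 1) (nat_lit 469) (nat_lit 1) (nat_lit 484) (nat_lit 1) (nat_lit 416) (nat_lit 375) (nat_lit 349))) (XT.nd (nat_lit 78) (nat_lit 912) (nat_lit 0) (XT.lf (nat_lit 76) (nat_lit 677970688) (nat_lit 0) (nat_lit 1490855244) (nat_lit 1216) (nat_lit 677970688) (nat_lit 470) (nat_lit 1) (nat_lit 469) (nat_lit 1) (nat_lit 485) (nat_lit 1) (nat_lit 417) (nat_lit 375) (nat_lit 348)) (XT.nd (nat_lit 78) (nat_lit 0) (nat_lit 0) (XT.lf (nat_lit 988) (nat_lit 1093057886) (nat_lit 0) (nat_lit 864077717) (nat_lit 912) (nat_lit 864077717) (nat_lit 470) (nat_lit 1) (nat_lit 457) (nat_lit 1) (nat_lit 469) (nat_lit 1) (nat_lit 418) (nat_lit 375) (nat_lit 347)) (XT.lf (nat_lit 76) (nat_lit 414045090) (nat_lit 0) (nat_lit 1967899539) (nat_lit 988) (nat_lit 414045090) (nat_lit 458) (nat_lit 1) (nat_lit 457) (nat_lit 1)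 (nat_lit 470) (nat_lit 1) (nat_lit 419) (nat_lit 375) (nat_lit 346)))))) (XT.nd (nat_lit 312) (nat_lit 1672) (nat_lit 0) (XT.nd (nat_lit 156) (nat_lit 1824) (nat_lit 0) (XT.nd (nat_lit 78) (nat_lit 0) (nat_lit 0) (XT.lf (nat_lit 988) (nat_lit 555371213) (nat_lit 0) (nat_lit 1107817813) (nat_lit 912) (nat_lit 1107817813) (nat_lit 458) (nat_lit 1) (nat_lit 445) (nat_lit 1) (nat_lit 457) (nat_lit 1) (nat_lit 420) (nat_lit 375) (nat_lit 345)) (XT.lf (nat_lit 76) (nat_lit 142160860) (nat_lit 0) (nat_lit 2462119984) (nat_lit 988) (nat_lit 142160860) (nat_lit 446) (nat_lit 1) (nat_lit 445) (nat_lit 1) (nat_lit 458) (nat_lit 1) (nat_lit 421) (nat_lit 375) (nat_lit 344))) (XT.nd (nat_lit 78) (nat_lit 988) (nat_lit 0) (XT.lf (nat_lit 912) (nat_lit 2388767) (nat_lit 0) (nat_lit 1359825930) (nat_lit 836) (nat_lit 1359825930) (nat_lit 446) (nat_lit 1) (nat_lit 434) (nat_lit 1) (nat_lit 445) (nat_lit 1) (nat_lit 422) (nat_lit 375) (nat_lit 343)) (XT.lf (nat_lit 988) (nat_lit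 2425817221) (nat_lit 0) (nat_lit 136114533) (nat_lit 912) (nat_lit 136114533) (nat_lit 434) (nat_lit 1) (nat_lit 421) (nat_lit 1) (nat_lit 433) (nat_lit 1) (nat_lit 423) (nat_lit 375) (nat_lit 342)))) (XT.nd (nat_lit 156) (nat_lit 836) (nat_lit 0) (XT.nd (nat_lit 78) (nat_lit 836) (nat_lit 0) (XT.lf (nat_lit 76) (nat_lit 1058512791) (nat_lit 0) (nat_lit 557181537) (nat_lit 988) (nat_lit 1058512791) (nat_lit 422) (nat_lit 1) (nat_lit 421) (nat_lit 1) (nat_lit 434) (nat_lit 1) (nat_lit 424) (nat_lit 375) (nat_lit 341)) (XT.lf (nat_lit 912) (nat_lit 1810623013) (nat_lit 0) (nat_lit 420070248) (nat_lit 836) (nat_lit 420070248) (nat_lit 422) (nat_lit 1) (nat_lit 410) (nat_lit 1) (nat_lit 421) (nat_lit 1) (nat_lit 425) (nat_lit 375) (nat_lit 340))) (XT.nd (nat_lit 78) (nat_lit 836) (nat_lit 0) (XT.lf (nat_lit 76) (nat_lit 749118728) (nat_lit 0) (nat_lit 1129307008) (nat_lit 912) (nat_lit 749118728) (nat_lit 411) (nat_lit 1) (nat_lit 410) (nat_lit 1) (nat_lit 422) (nat_lit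 1) (nat_lit 426) (nat_lit 375) (nat_lit 339)) (XT.nd (nat_lit 78) (nat_lit 0) (nat_lit 0) (XT.lf (nat_lit 912) (nat_lit 1184547455) (nat_lit 0) (nat_lit 710043779) (nat_lit 836) (nat_lit 710043779) (nat_lit 411) (nat_lit 1) (nat_lit 399) (nat_lit 1) (nat_lit 410) (nat_lit 1) (nat_lit 427) (nat_lit 375) (nat_lit 338)) (XT.lf (nat_lit 76) (nat_lit 434581776) (nat_lit 0) (nat_lit 1712857398) (nat_lit 912) (nat_lit 434581776) (nat_lit 400) (nat_lit 1) (nat_lit 399) (nat_lit 1) (nat_lit 411) (nat_lit 1) (nat_lit 428) (nat_lit 375) (nat_lit 337))))))))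
noncomputable def ec12 : XT := (XT.nd (nat_lit 1404) (nat_lit 6612) (nat_lit 0) (XT.nd (nat_lit 702) (nat_lit 0) (nat_lit 304) (XT.nd (nat_lit 312) (nat_lit 0) (nat_lit 152) (XT.nd (nat_lit 156) (nat_lit 0) (nat_lit 76) (XT.nd (nat_lit 78) (nat_lit 0) (nat_lit 0) (XT.lf (nat_lit 1900) (nat_lit 623138620) (nat_lit 0) (nat_lit 628349508) (nat_lit 1900) (nat_lit 623138620) (nat_lit 522) (nat_lit 1) (nat_lit 497) (nat_lit 0) (nat_lit 522) (nat_lit 0) (nat_lit 388) (nat_lit 376) (nat_lit 376)) (XT.lf (nat_lit 1900) (nat_lit 2463983794) (nat_lit 76) (nat_lit 624215630) (nat_lit 0) (nat_lit 624215630) (nat_lit 522) (nat_lit 1) (nat_lit 498) (nat_lit 1) (nat_lit 497) (nat_lit 0) (nat_lit 389) (nat_lit 376) (nat_lit 375))) (XT.nd (nat_lit 78) (nat_lit 0) (nat_lit 0) (XT.lf (nat_lit 1900) (nat_lit 1209827771) (nat_lit 0) (nat_lit 1256323433) (nat_lit 1824) (nat_lit 1209827771) (nat_lit 523) (nat_lit 1) (nat_lit 498) (nat_lit 1) (nat_lit 522) (nat_lit 1) (nat_lit 390) (nat_lit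 376) (nat_lit 374)) (XT.lf (nat_lit 1900) (nat_lit 2367931187) (nat_lit 76) (nat_lit 636082039) (nat_lit 0) (nat_lit 636082039) (nat_lit 523) (nat_lit 1) (nat_lit 499) (nat_lit 1) (nat_lit 498) (nat_lit 1) (nat_lit 391) (nat_lit 376) (nat_lit 373)))) (XT.nd (nat_lit 156) (nat_lit 0) (nat_lit 76) (XT.nd (nat_lit 78) (nat_lit 0) (nat_lit 0) (XT.lf (nat_lit 1900) (nat_lit 1150769686) (nat_lit 0) (nat_lit 1303068304) (nat_lit 1824) (nat_lit 1150769686) (nat_lit 524) (nat_lit 1) (nat_lit 499) (nat_lit 1) (nat_lit 523) (nat_lit 1) (nat_lit 392) (nat_lit 376) (nat_lit 372)) (XT.lf (nat_lit 1900) (nat_lit 2227876538) (nat_lit 76) (nat_lit 670885643) (nat_lit 0) (nat_lit 670885643) (nat_lit 524) (nat_lit 1) (nat_lit 500) (nat_lit 1) (nat_lit 499) (nat_lit 1) (nat_lit 393) (nat_lit 376) (nat_lit 371))) (XT.nd (nat_lit 78) (nat_lit 0) (nat_lit 0) (XT.lf (nat_lit 1900) (nat_lit 1070451962) (nat_lit 0) (nat_lit 1394180241) (nat_lit 1824) (nat_lit 1070451962) (nat_lit 525)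 (nat_lit 1) (nat_lit 500) (nat_lit 1) (nat_lit 524) (nat_lit 1) (nat_lit 394) (nat_lit 376) (nat_lit 370)) (XT.nd (nat_lit 78) (nat_lit 0) (nat_lit 76) (XT.lf (nat_lit 1900) (nat_lit 2046464419) (nat_lit 76) (nat_lit 727276979) (nat_lit 0) (nat_lit 727276979) (nat_lit 525) (nat_lit 1) (nat_lit 501) (nat_lit 1) (nat_lit 500) (nat_lit 1) (nat_lit 395) (nat_lit 376) (nat_lit 369)) (XT.lf (nat_lit 1900) (nat_lit 970161961) (nat_lit 0) (nat_lit 1527030882) (nat_lit 1824) (nat_lit 970161961) (nat_lit 526) (nat_lit 1) (nat_lit 501) (nat_lit 1) (nat_lit 525) (nat_lit 1) (nat_lit 396) (nat_lit 376) (nat_lit 368)))))) (XT.nd (nat_lit 312) (nat_lit 0) (nat_lit 152) (XT.nd (nat_lit 156) (nat_lit 0) (nat_lit 76) (XT.nd (nat_lit 78) (nat_lit 0) (nat_lit 76) (XT.lf (nat_lit 1900) (nat_lit 1826218358) (nat_lit 76) (nat_lit 803967980) (nat_lit 0) (nat_lit 803967980) (nat_lit 526) (nat_lit 1) (nat_lit 502) (nat_lit 1) (nat_lit 501) (nat_lit 1) (nat_lit 397) (nat_lit 376) (nat_lit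 367)) (XT.lf (nat_lit 1900) (nat_lit 851127997) (nat_lit 0) (nat_lit 1699111684) (nat_lit 1824) (nat_lit 851127997) (nat_lit 527) (nat_lit 1) (nat_lit 502) (nat_lit 1) (nat_lit 526) (nat_lit 1) (nat_lit 398) (nat_lit 376) (nat_lit 366))) (XT.nd (nat_lit 78) (nat_lit 0) (nat_lit 76) (XT.lf (nat_lit 1900) (nat_lit 1569545901) (nat_lit 76) (nat_lit 899729416) (nat_lit 0) (nat_lit 899729416) (nat_lit 527) (nat_lit 1) (nat_lit 503) (nat_lit 1) (nat_lit 502) (nat_lit 1) (nat_lit 399) (nat_lit 376) (nat_lit 365)) (XT.lf (nat_lit 1900) (nat_lit 714521810) (nat_lit 0) (nat_lit 1908028922) (nat_lit 1824) (nat_lit 714521810) (nat_lit 528) (nat_lit 1) (nat_lit 503) (nat_lit 1) (nat_lit 527) (nat_lit 1) (nat_lit 400) (nat_lit 376) (nat_lit 364)))) (XT.nd (nat_lit 156) (nat_lit 0) (nat_lit 76) (XT.nd (nat_lit 78) (nat_lit 0) (nat_lit 76) (XT.lf (nat_lit 1900) (nat_lit 1278743467) (nat_lit 76) (nat_lit 1013388437) (nat_lit 0) (nat_lit 1013388437) (nat_lit 528) (nat_lit 1) (nat_lit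 504) (nat_lit 1) (nat_lit 503) (nat_lit 1) (nat_lit 401) (nat_lit 376) (nat_lit 363)) (XT.lf (nat_lit 1900) (nat_lit 561460937) (nat_lit 0) (nat_lit 2151498887) (nat_lit 1824) (nat_lit 561460937) (nat_lit 529) (nat_lit 1) (nat_lit 504) (nat_lit 1) (nat_lit 528) (nat_lit 1) (nat_lit 402) (nat_lit 376) (nat_lit 362))) (XT.nd (nat_lit 78) (nat_lit 0) (nat_lit 76) (XT.lf (nat_lit 1900) (nat_lit 956001009) (nat_lit 76) (nat_lit 1143826213) (nat_lit 0) (nat_lit 1143826213) (nat_lit 529) (nat_lit 1) (nat_lit 505) (nat_lit 1) (nat_lit 504) (nat_lit 1) (nat_lit 403) (nat_lit 376) (nat_lit 361)) (XT.nd (nat_lit 78) (nat_lit 0) (nat_lit 0) (XT.lf (nat_lit 1900) (nat_lit 393010985) (nat_lit 0) (nat_lit 2427343282) (nat_lit 1824) (nat_lit 393010985) (nat_lit 530) (nat_lit 1) (nat_lit 505) (nat_lit 1) (nat_lit 529) (nat_lit 1) (nat_lit 404) (nat_lit 376) (nat_lit 360)) (XT.lf (nat_lit 1900) (nat_lit 603406489) (nat_lit 76) (nat_lit 1289975669) (nat_lit 0) (nat_lit 1289975669)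 (nat_lit 530) (nat_lit 1) (nat_lit 506) (nat_lit 1) (nat_lit 505) (nat_lit 1) (nat_lit 405) (nat_lit 376) (nat_lit 359))))))) (XT.nd (nat_lit 702) (nat_lit 4484) (nat_lit 0) (XT.nd (nat_lit 312) (nat_lit 988) (nat_lit 0) (XT.nd (nat_lit 156) (nat_lit 1824) (nat_lit 0) (XT.nd (nat_lit 78) (nat_lit 0) (nat_lit 0) (XT.lf (nat_lit 1900) (nat_lit 210187817) (nat_lit 0) (nat_lit 2733484797) (nat_lit 1824) (nat_lit 210187817) (nat_lit 531) (nat_lit 1) (nat_lit 506) (nat_lit 1) (nat_lit 530) (nat_lit 1) (nat_lit 406) (nat_lit 376) (nat_lit 358)) (XT.lf (nat_lit 1900) (nat_lit 222950167) (nat_lit 76) (nat_lit 1450819315) (nat_lit 0) (nat_lit 1450819315) (nat_lit 531) (nat_lit 1) (nat_lit 507) (nat_lit 1) (nat_lit 506) (nat_lit 1) (nat_lit 407) (nat_lit 376) (nat_lit 357))) (XT.nd (nat_lit 78) (nat_lit 1900) (nat_lit 0) (XT.lf (nat_lit 1900) (nat_lit 13959648) (nat_lit 0) (nat_lit 3067942870) (nat_lit 1824) (nat_lit 13959648) (nat_lit 532) (nat_lit 1) (nat_lit 507) (nat_lit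 1) (nat_lit 531) (nat_lit 1) (nat_lit 408) (nat_lit 376) (nat_lit 356)) (XT.lf (nat_lit 1976) (nat_lit 1443107102) (nat_lit 0) (nat_lit 181065014) (nat_lit 1900) (nat_lit 1443107102) (nat_lit 508) (nat_lit 1) (nat_lit 482) (nat_lit 1) (nat_lit 507) (nat_lit 1) (nat_lit 409) (nat_lit 376) (nat_lit 355)))) (XT.nd (nat_lit 156) (nat_lit 988) (nat_lit 0) (XT.nd (nat_lit 78) (nat_lit 0) (nat_lit 76) (XT.lf (nat_lit 1976) (nat_lit 2652286853) (nat_lit 76) (nat_lit 193469688) (nat_lit 0) (nat_lit 193469688) (nat_lit 508) (nat_lit 1) (nat_lit 483) (nat_lit 1) (nat_lit 482) (nat_lit 1) (nat_lit 410) (nat_lit 376) (nat_lit 354)) (XT.lf (nat_lit 1976) (nat_lit 1202690749) (nat_lit 0) (nat_lit 605997392) (nat_lit 1900) (nat_lit 1202690749) (nat_lit 509) (nat_lit 1) (nat_lit 483) (nat_lit 1) (nat_lit 508) (nat_lit 1) (nat_lit 411) (nat_lit 376) (nat_lit 353))) (XT.nd (nat_lit 78) (nat_lit 1064) (nat_lit 0) (XT.lf (nat_lit 1976) (nat_lit 2159330602) (nat_lit 76) (nat_lit 412334402)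 (nat_lit 0) (nat_lit 412334402) (nat_lit 509) (nat_lit 1) (nat_lit 484) (nat_lit 1) (nat_lit 483) (nat_lit 1) (nat_lit 412) (nat_lit 376) (nat_lit 352)) (XT.nd (nat_lit 78) (nat_lit 1140) (nat_lit 0) (XT.lf (nat_lit 76) (nat_lit 951902014) (nat_lit 0) (nat_lit 1053072348) (nat_lit 1900) (nat_lit 951902014) (nat_lit 485) (nat_lit 1) (nat_lit 484) (nat_lit 1) (nat_lit 509) (nat_lit 1) (nat_lit 413) (nat_lit 376) (nat_lit 351)) (XT.lf (nat_lit 1216) (nat_lit 1646359674) (nat_lit 0) (nat_lit 641894826) (nat_lit 1140) (nat_lit 641894826) (nat_lit 485) (nat_lit 1) (nat_lit 469) (nat_lit 1) (nat_lit 484) (nat_lit 1) (nat_lit 414) (nat_lit 376) (nat_lit 350)))))) (XT.nd (nat_lit 312) (nat_lit 2660) (nat_lit 0) (XT.nd (nat_lit 156) (nat_lit 912) (nat_lit 0) (XT.nd (nat_lit 78) (nat_lit 912) (nat_lit 0) (XT.lf (nat_lit 76) (nat_lit 691530101) (nat_lit 0) (nat_lit 1520672349) (nat_lit 1216) (nat_lit 691530101) (nat_lit 470) (nat_lit 1) (nat_lit 469) (nat_lit 1) (nat_lit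 485) (nat_lit 1) (nat_lit 415) (nat_lit 376) (nat_lit 349)) (XT.lf (nat_lit 988) (nat_lit 1114919044) (nat_lit 0) (nat_lit 881359272) (nat_lit 912) (nat_lit 881359272) (nat_lit 470) (nat_lit 1) (nat_lit 457) (nat_lit 1) (nat_lit 469) (nat_lit 1) (nat_lit 416) (nat_lit 376) (nat_lit 348))) (XT.nd (nat_lit 78) (nat_lit 912) (nat_lit 0) (XT.lf (nat_lit 76) (nat_lit 422325992) (nat_lit 0) (nat_lit 2007257529) (nat_lit 988) (nat_lit 422325992) (nat_lit 458) (nat_lit 1) (nat_lit 457) (nat_lit 1) (nat_lit 470) (nat_lit 1) (nat_lit 417) (nat_lit 376) (nat_lit 347)) (XT.lf (nat_lit 988) (nat_lit 566478638) (nat_lit 0) (nat_lit 1129974170) (nat_lit 912) (nat_lit 1129974170) (nat_lit 458) (nat_lit 1) (nat_lit 445) (nat_lit 1) (nat_lit 457) (nat_lit 1) (nat_lit 418) (nat_lit 376) (nat_lit 346)))) (XT.nd (nat_lit 156) (nat_lit 1824) (nat_lit 0) (XT.nd (nat_lit 78) (nat_lit 836) (nat_lit 0) (XT.lf (nat_lit 76) (nat_lit 145004078) (nat_lit 0) (nat_lit 2511362384) (nat_lit 988)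 (nat_lit 145004078) (nat_lit 446) (nat_lit 1) (nat_lit 445) (nat_lit 1) (nat_lit 458) (nat_lit 1) (nat_lit 419) (nat_lit 376) (nat_lit 345)) (XT.lf (nat_lit 912) (nat_lit 2436543) (nat_lit 0) (nat_lit 1387022449) (nat_lit 836) (nat_lit 1387022449) (nat_lit 446) (nat_lit 1) (nat_lit 434) (nat_lit 1) (nat_lit 445) (nat_lit 1) (nat_lit 420) (nat_lit 376) (nat_lit 344))) (XT.nd (nat_lit 78) (nat_lit 836) (nat_lit 0) (XT.lf (nat_lit 988) (nat_lit 2474333566) (nat_lit 0) (nat_lit 138836824) (nat_lit 912) (nat_lit 138836824) (nat_lit 434) (nat_lit 1) (nat_lit 421) (nat_lit 1) (nat_lit 433) (nat_lit 1) (nat_lit 421) (nat_lit 376) (nat_lit 343)) (XT.nd (nat_lit 78) (nat_lit 836) (nat_lit 0) (XT.lf (nat_lit 76) (nat_lit 1079683047) (nat_lit 0) (nat_lit 568325168) (nat_lit 988) (nat_lit 1079683047) (nat_lit 422) (nat_lit 1) (nat_lit 421) (nat_lit 1) (nat_lit 434) (nat_lit 1) (nat_lit 422) (nat_lit 376) (nat_lit 342)) (XT.lf (nat_lit 912) (nat_lit 1846835473) (nat_lit 0)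 (nat_lit 428471653) (nat_lit 836) (nat_lit 428471653) (nat_lit 422) (nat_lit 1) (nat_lit 410) (nat_lit 1) (nat_lit 421) (nat_lit 1) (nat_lit 423) (nat_lit 376) (nat_lit 341))))))))
noncomputable def ec13 : XT := (XT.nd (nat_lit 57408) (nat_lit 0) (nat_lit 4256) (XT.nd (nat_lit 56706) (nat_lit 0) (nat_lit 8360) (XT.nd (nat_lit 312) (nat_lit 0) (nat_lit 0) (XT.nd (nat_lit 156) (nat_lit 760) (nat_lit 0) (XT.nd (nat_lit 78) (nat_lit 836) (nat_lit 0) (XT.lf (nat_lit 76) (nat_lit 764101102) (nat_lit 0) (nat_lit 1151893148) (nat_lit 912) (nat_lit 764101102) (nat_lit 411) (nat_lit 1) (nat_lit 410) (nat_lit 1) (nat_lit 422) (nat_lit 1) (nat_lit 424) (nat_lit 376) (nat_lit 340)) (XT.lf (nat_lit 912) (nat_lit 1208238404) (nat_lit 0) (nat_lit 724244655) (nat_lit 836) (nat_lit 724244655) (nat_lit 411) (nat_lit 1) (nat_lit 399) (nat_lit 1) (nat_lit 410) (nat_lit 1) (nat_lit 425) (nat_lit 376) (nat_lit 339))) (XT.nd (nat_lit 78) (nat_lit 760) (nat_lit 0) (XT.lf (nat_lit 76)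 (nat_lit 443273412) (nat_lit 0) (nat_lit 1747114546) (nat_lit 912) (nat_lit 443273412) (nat_lit 400) (nat_lit 1) (nat_lit 399) (nat_lit 1) (nat_lit 411) (nat_lit 1) (nat_lit 426) (nat_lit 376) (nat_lit 338)) (XT.lf (nat_lit 836) (nat_lit 559668748) (nat_lit 0) (nat_lit 1025576592) (nat_lit 760) (nat_lit 1025576592) (nat_lit 400) (nat_lit 1) (nat_lit 389) (nat_lit 1) (nat_lit 399) (nat_lit 1) (nat_lit 427) (nat_lit 376) (nat_lit 337)))) (XT.nd (nat_lit 56160) (nat_lit 0) (nat_lit 8208) (XT.nd (nat_lit 56082) (nat_lit 0) (nat_lit 8208) (XT.lf (nat_lit 76) (nat_lit 117746815) (nat_lit 0) (nat_lit 2352864020) (nat_lit 836) (nat_lit 117746815) (nat_lit 390) (nat_lit 1) (nat_lit 389) (nat_lit 1) (nat_lit 400) (nat_lit 1) (nat_lit 428) (nat_lit 376) (nat_lit 336)) (XT.lf (nat_lit 1900) (nat_lit 635601392) (nat_lit 0) (nat_lit 640916498) (nat_lit 1900) (nat_lit 635601392) (nat_lit 522) (nat_lit 1) (nat_lit 497) (nat_lit 0) (nat_lit 522) (nat_lit 0) (nat_lit 386) (nat_lit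 377) (nat_lit 377))) (XT.nd (nat_lit 78) (nat_lit 0) (nat_lit 76) (XT.lf (nat_lit 1900) (nat_lit 2513263469) (nat_lit 76) (nat_lit 636699942) (nat_lit 0) (nat_lit 636699942) (nat_lit 522) (nat_lit 1) (nat_lit 498) (nat_lit 1) (nat_lit 497) (nat_lit 0) (nat_lit 387) (nat_lit 377) (nat_lit 376)) (XT.nd (nat_lit 78) (nat_lit 0) (nat_lit 0) (XT.lf (nat_lit 1900) (nat_lit 1234024327) (nat_lit 0) (nat_lit 1281449902) (nat_lit 1824) (nat_lit 1234024327) (nat_lit 523) (nat_lit 1) (nat_lit 498) (nat_lit 1) (nat_lit 522) (nat_lit 1) (nat_lit 388) (nat_lit 377) (nat_lit 375)) (XT.lf (nat_lit 1900) (nat_lit 2415289811) (nat_lit 76) (nat_lit 648803680) (nat_lit 0) (nat_lit 648803680) (nat_lit 523) (nat_lit 1) (nat_lit 499) (nat_lit 1) (nat_lit 498) (nat_lit 1) (nat_lit 389) (nat_lit 377) (nat_lit 374)))))) (XT.nd (nat_lit 312) (nat_lit 0) (nat_lit 152) (XT.nd (nat_lit 156) (nat_lit 0) (nat_lit 76) (XT.nd (nat_lit 78) (nat_lit 0) (nat_lit 0) (XT.lf (nat_lit 1900) (nat_lit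 1173785079) (nat_lit 0) (nat_lit 1329129670) (nat_lit 1824) (nat_lit 1173785079) (nat_lit 524) (nat_lit 1) (nat_lit 499) (nat_lit 1) (nat_lit 523) (nat_lit 1) (nat_lit 390) (nat_lit 377) (nat_lit 373)) (XT.lf (nat_lit 1900) (nat_lit 2272434069) (nat_lit 76) (nat_lit 684303356) (nat_lit 0) (nat_lit 684303356) (nat_lit 524) (nat_lit 1) (nat_lit 500) (nat_lit 1) (nat_lit 499) (nat_lit 1) (nat_lit 391) (nat_lit 377) (nat_lit 372))) (XT.nd (nat_lit 78) (nat_lit 0) (nat_lit 0) (XT.lf (nat_lit 1900) (nat_lit 1091861002) (nat_lit 0) (nat_lit 1422063846) (nat_lit 1824) (nat_lit 1091861002) (nat_lit 525) (nat_lit 1) (nat_lit 500) (nat_lit 1) (nat_lit 524) (nat_lit 1) (nat_lit 392) (nat_lit 377) (nat_lit 371)) (XT.lf (nat_lit 1900) (nat_lit 2087393707) (nat_lit 76) (nat_lit 741822519) (nat_lit 0) (nat_lit 741822519) (nat_lit 525) (nat_lit 1) (nat_lit 501) (nat_lit 1) (nat_lit 500) (nat_lit 1) (nat_lit 393) (nat_lit 377) (nat_lit 370)))) (XT.nd (nat_lit 156) (nat_lit 0)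 (nat_lit 76) (XT.nd (nat_lit 78) (nat_lit 0) (nat_lit 0) (XT.lf (nat_lit 1900) (nat_lit 989565201) (nat_lit 0) (nat_lit 1557571500) (nat_lit 1824) (nat_lit 989565201) (nat_lit 526) (nat_lit 1) (nat_lit 501) (nat_lit 1) (nat_lit 525) (nat_lit 1) (nat_lit 394) (nat_lit 377) (nat_lit 369)) (XT.lf (nat_lit 1900) (nat_lit 1862742725) (nat_lit 76) (nat_lit 820047339) (nat_lit 0) (nat_lit 820047339) (nat_lit 526) (nat_lit 1) (nat_lit 502) (nat_lit 1) (nat_lit 501) (nat_lit 1) (nat_lit 395) (nat_lit 377) (nat_lit 368))) (XT.nd (nat_lit 78) (nat_lit 0) (nat_lit 0) (XT.lf (nat_lit 1900) (nat_lit 868150557) (nat_lit 0) (nat_lit 1733093918) (nat_lit 1824) (nat_lit 868150557) (nat_lit 527) (nat_lit 1) (nat_lit 502) (nat_lit 1) (nat_lit 526) (nat_lit 1) (nat_lit 396) (nat_lit 377) (nat_lit 367)) (XT.nd (nat_lit 78) (nat_lit 0) (nat_lit 76) (XT.lf (nat_lit 1900) (nat_lit 1600936819) (nat_lit 76) (nat_lit 917724004) (nat_lit 0) (nat_lit 917724004) (nat_lit 527) (nat_lit 1) (nat_lit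 503) (nat_lit 1) (nat_lit 502) (nat_lit 1) (nat_lit 397) (nat_lit 377) (nat_lit 366)) (XT.lf (nat_lit 1900) (nat_lit 728812247) (nat_lit 0) (nat_lit 1946189501) (nat_lit 1824) (nat_lit 728812247) (nat_lit 528) (nat_lit 1) (nat_lit 503) (nat_lit 1) (nat_lit 527) (nat_lit 1) (nat_lit 398) (nat_lit 377) (nat_lit 365))))))) (XT.nd (nat_lit 702) (nat_lit 2812) (nat_lit 0) (XT.nd (nat_lit 312) (nat_lit 1596) (nat_lit 0) (XT.nd (nat_lit 156) (nat_lit 0) (nat_lit 76) (XT.nd (nat_lit 78) (nat_lit 0) (nat_lit 76) (XT.lf (nat_lit 1900) (nat_lit 1304318336) (nat_lit 76) (nat_lit 1033656206) (nat_lit 0) (nat_lit 1033656206) (nat_lit 528) (nat_lit 1) (nat_lit 504) (nat_lit 1) (nat_lit 503) (nat_lit 1) (nat_lit 399) (nat_lit 377) (nat_lit 364)) (XT.lf (nat_lit 1900) (nat_lit 572690156) (nat_lit 0) (nat_lit 2194528865) (nat_lit 1824) (nat_lit 572690156) (nat_lit 529) (nat_lit 1) (nat_lit 504) (nat_lit 1) (nat_lit 528) (nat_lit 1) (nat_lit 400) (nat_lit 377) (nat_lit 363))) (XT.nd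 (nat_lit 78) (nat_lit 0) (nat_lit 76) (XT.lf (nat_lit 1900) (nat_lit 975121029) (nat_lit 76) (nat_lit 1166702737) (nat_lit 0) (nat_lit 1166702737) (nat_lit 529) (nat_lit 1) (nat_lit 505) (nat_lit 1) (nat_lit 504) (nat_lit 1) (nat_lit 401) (nat_lit 377) (nat_lit 362)) (XT.lf (nat_lit 1900) (nat_lit 400871204) (nat_lit 0) (nat_lit 2475890147) (nat_lit 1824) (nat_lit 400871204) (nat_lit 530) (nat_lit 1) (nat_lit 505) (nat_lit 1) (nat_lit 529) (nat_lit 1) (nat_lit 402) (nat_lit 377) (nat_lit 361)))) (XT.nd (nat_lit 156) (nat_lit 1748) (nat_lit 0) (XT.nd (nat_lit 78) (nat_lit 0) (nat_lit 76) (XT.lf (nat_lit 1900) (nat_lit 615474618) (nat_lit 76) (nat_lit 1315775183) (nat_lit 0) (nat_lit 1315775183) (nat_lit 530) (nat_lit 1) (nat_lit 506) (nat_lit 1) (nat_lit 505) (nat_lit 1) (nat_lit 403) (nat_lit 377) (nat_lit 360)) (XT.lf (nat_lit 1900) (nat_lit 214391573) (nat_lit 0) (nat_lit 2788154493) (nat_lit 1824) (nat_lit 214391573) (nat_lit 531) (nat_lit 1) (nat_lit 506)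 (nat_lit 1) (nat_lit 530) (nat_lit 1) (nat_lit 404) (nat_lit 377) (nat_lit 359))) (XT.nd (nat_lit 78) (nat_lit 1824) (nat_lit 0) (XT.lf (nat_lit 1900) (nat_lit 227409170) (nat_lit 76) (nat_lit 1479835701) (nat_lit 0) (nat_lit 1479835701) (nat_lit 531) (nat_lit 1) (nat_lit 507) (nat_lit 1) (nat_lit 506) (nat_lit 1) (nat_lit 405) (nat_lit 377) (nat_lit 358)) (XT.nd (nat_lit 78) (nat_lit 1900) (nat_lit 0) (XT.lf (nat_lit 1900) (nat_lit 14238841) (nat_lit 0) (nat_lit 3129301728) (nat_lit 1824) (nat_lit 14238841) (nat_lit 532) (nat_lit 1) (nat_lit 507) (nat_lit 1) (nat_lit 531) (nat_lit 1) (nat_lit 406) (nat_lit 377) (nat_lit 357)) (XT.lf (nat_lit 1976) (nat_lit 1471969244) (nat_lit 0) (nat_lit 184686315) (nat_lit 1900) (nat_lit 1471969244) (nat_lit 508) (nat_lit 1) (nat_lit 482) (nat_lit 1) (nat_lit 507) (nat_lit 1) (nat_lit 407) (nat_lit 377) (nat_lit 356)))))) (XT.nd (nat_lit 312) (nat_lit 2812) (nat_lit 0) (XT.nd (nat_lit 156) (nat_lit 0) (nat_lit 76) (XT.nd (nat_lit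 78) (nat_lit 0) (nat_lit 76) (XT.lf (nat_lit 1976) (nat_lit 2705332590) (nat_lit 76) (nat_lit 197339082) (nat_lit 0) (nat_lit 197339082) (nat_lit 508) (nat_lit 1) (nat_lit 483) (nat_lit 1) (nat_lit 482) (nat_lit 1) (nat_lit 408) (nat_lit 377) (nat_lit 355)) (XT.lf (nat_lit 1976) (nat_lit 1226744564) (nat_lit 0) (nat_lit 618117340) (nat_lit 1900) (nat_lit 1226744564) (nat_lit 509) (nat_lit 1) (nat_lit 483) (nat_lit 1) (nat_lit 508) (nat_lit 1) (nat_lit 409) (nat_lit 377) (nat_lit 354))) (XT.nd (nat_lit 78) (nat_lit 0) (nat_lit 76) (XT.lf (nat_lit 1976) (nat_lit 2202517214) (nat_lit 76) (nat_lit 420581090) (nat_lit 0) (nat_lit 420581090) (nat_lit 509) (nat_lit 1) (nat_lit 484) (nat_lit 1) (nat_lit 483) (nat_lit 1) (nat_lit 410) (nat_lit 377) (nat_lit 353)) (XT.lf (nat_lit 76) (nat_lit 970940055) (nat_lit 0) (nat_lit 1074133795) (nat_lit 1900) (nat_lit 970940055) (nat_lit 485) (nat_lit 1) (nat_lit 484) (nat_lit 1) (nat_lit 509) (nat_lit 1) (nat_lit 411) (nat_lit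 377) (nat_lit 352)))) (XT.nd (nat_lit 156) (nat_lit 1824) (nat_lit 0) (XT.nd (nat_lit 78) (nat_lit 0) (nat_lit 0) (XT.lf (nat_lit 1216) (nat_lit 1679286868) (nat_lit 0) (nat_lit 654732723) (nat_lit 1140) (nat_lit 654732723) (nat_lit 485) (nat_lit 1) (nat_lit 469) (nat_lit 1) (nat_lit 484) (nat_lit 1) (nat_lit 412) (nat_lit 377) (nat_lit 351)) (XT.lf (nat_lit 76) (nat_lit 705360703) (nat_lit 0) (nat_lit 1551085796) (nat_lit 1216) (nat_lit 705360703) (nat_lit 470) (nat_lit 1) (nat_lit 469) (nat_lit 1) (nat_lit 485) (nat_lit 1) (nat_lit 413) (nat_lit 377) (nat_lit 350))) (XT.nd (nat_lit 78) (nat_lit 912) (nat_lit 0) (XT.lf (nat_lit 988) (nat_lit 1137217425) (nat_lit 0) (nat_lit 898986457) (nat_lit 912) (nat_lit 898986457) (nat_lit 470) (nat_lit 1) (nat_lit 457) (nat_lit 1) (nat_lit 469) (nat_lit 1) (nat_lit 414) (nat_lit 377) (nat_lit 349)) (XT.nd (nat_lit 78) (nat_lit 912) (nat_lit 0) (XT.lf (nat_lit 76) (nat_lit 430772512) (nat_lit 0) (nat_lit 2047402680) (nat_lit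 988) (nat_lit 430772512) (nat_lit 458) (nat_lit 1) (nat_lit 457) (nat_lit 1) (nat_lit 470) (nat_lit 1) (nat_lit 415) (nat_lit 377) (nat_lit 348)) (XT.lf (nat_lit 988) (nat_lit 577808210) (nat_lit 0) (nat_lit 1152573653) (nat_lit 912) (nat_lit 1152573653) (nat_lit 458) (nat_lit 1) (nat_lit 445) (nat_lit 1) (nat_lit 457) (nat_lit 1) (nat_lit 416) (nat_lit 377) (nat_lit 347))))))))
noncomputable def ec14 : XT := (XT.nd (nat_lit 57252) (nat_lit 0) (nat_lit 8664) (XT.nd (nat_lit 702) (nat_lit 1596) (nat_lit 0) (XT.nd (nat_lit 312) (nat_lit 2432) (nat_lit 0) (XT.nd (nat_lit 156) (nat_lit 988) (nat_lit 0) (XT.nd (nat_lit 78) (nat_lit 836) (nat_lit 0) (XT.lf (nat_lit 76) (nat_lit 147904159) (nat_lit 0) (nat_lit 2561589632) (nat_lit 988) (nat_lit 147904159) (nat_lit 446) (nat_lit 1) (nat_lit 445) (nat_lit 1) (nat_lit 458) (nat_lit 1) (nat_lit 417) (nat_lit 377) (nat_lit 346)) (XT.lf (nat_lit 912) (nat_lit 2485274) (nat_lit 0) (nat_lit 1414762898) (nat_lit 836) (nat_lit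 1414762898) (nat_lit 446) (nat_lit 1) (nat_lit 434) (nat_lit 1) (nat_lit 445) (nat_lit 1) (nat_lit 418) (nat_lit 377) (nat_lit 345))) (XT.nd (nat_lit 78) (nat_lit 0) (nat_lit 0) (XT.lf (nat_lit 988) (nat_lit 2523820237) (nat_lit 0) (nat_lit 141613560) (nat_lit 912) (nat_lit 141613560) (nat_lit 434) (nat_lit 1) (nat_lit 421) (nat_lit 1) (nat_lit 433) (nat_lit 1) (nat_lit 419) (nat_lit 377) (nat_lit 344)) (XT.lf (nat_lit 76) (nat_lit 1101276708) (nat_lit 0) (nat_lit 579691672) (nat_lit 988) (nat_lit 1101276708) (nat_lit 422) (nat_lit 1) (nat_lit 421) (nat_lit 1) (nat_lit 434) (nat_lit 1) (nat_lit 420) (nat_lit 377) (nat_lit 343)))) (XT.nd (nat_lit 156) (nat_lit 1596) (nat_lit 0) (XT.nd (nat_lit 78) (nat_lit 0) (nat_lit 0) (XT.lf (nat_lit 912) (nat_lit 1883772182) (nat_lit 0) (nat_lit 437041086) (nat_lit 836) (nat_lit 437041086) (nat_lit 422) (nat_lit 1) (nat_lit 410) (nat_lit 1) (nat_lit 421) (nat_lit 1) (nat_lit 421) (nat_lit 377) (nat_lit 342)) (XT.lf (nat_lit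 76) (nat_lit 779383124) (nat_lit 0) (nat_lit 1174931011) (nat_lit 912) (nat_lit 779383124) (nat_lit 411) (nat_lit 1) (nat_lit 410) (nat_lit 1) (nat_lit 422) (nat_lit 1) (nat_lit 422) (nat_lit 377) (nat_lit 341))) (XT.nd (nat_lit 78) (nat_lit 760) (nat_lit 0) (XT.lf (nat_lit 912) (nat_lit 1232403172) (nat_lit 0) (nat_lit 738729548) (nat_lit 836) (nat_lit 738729548) (nat_lit 411) (nat_lit 1) (nat_lit 399) (nat_lit 1) (nat_lit 410) (nat_lit 1) (nat_lit 423) (nat_lit 377) (nat_lit 340)) (XT.nd (nat_lit 78) (nat_lit 760) (nat_lit 0) (XT.lf (nat_lit 76) (nat_lit 452138880) (nat_lit 0) (nat_lit 1782056837) (nat_lit 912) (nat_lit 452138880) (nat_lit 400) (nat_lit 1) (nat_lit 399) (nat_lit 1) (nat_lit 411) (nat_lit 1) (nat_lit 424) (nat_lit 377) (nat_lit 339)) (XT.lf (nat_lit 836) (nat_lit 570862123) (nat_lit 0) (nat_lit 1046088123) (nat_lit 760) (nat_lit 1046088123) (nat_lit 400) (nat_lit 1) (nat_lit 389) (nat_lit 1) (nat_lit 399) (nat_lit 1) (nat_lit 425) (nat_lit 377)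 (nat_lit 338)))))) (XT.nd (nat_lit 56160) (nat_lit 0) (nat_lit 9804) (XT.nd (nat_lit 156) (nat_lit 760) (nat_lit 0) (XT.nd (nat_lit 78) (nat_lit 836) (nat_lit 0) (XT.lf (nat_lit 76) (nat_lit 120101751) (nat_lit 0) (nat_lit 2399921301) (nat_lit 836) (nat_lit 120101751) (nat_lit 390) (nat_lit 1) (nat_lit 389) (nat_lit 1) (nat_lit 400) (nat_lit 1) (nat_lit 426) (nat_lit 377) (nat_lit 337)) (XT.lf (nat_lit 76) (nat_lit 1259442894) (nat_lit 0) (nat_lit 98452192) (nat_lit 836) (nat_lit 1259442894) (nat_lit 379) (nat_lit 1) (nat_lit 378) (nat_lit 1) (nat_lit 389) (nat_lit 1) (nat_lit 427) (nat_lit 377) (nat_lit 336))) (XT.nd (nat_lit 55926) (nat_lit 0) (nat_lit 9804) (XT.lf (nat_lit 836) (nat_lit 2165370601) (nat_lit 0) (nat_lit 214776646) (nat_lit 760) (nat_lit 214776646) (nat_lit 379) (nat_lit 1) (nat_lit 368) (nat_lit 1) (nat_lit 378) (nat_lit 1) (nat_lit 428) (nat_lit 377) (nat_lit 335)) (XT.lf (nat_lit 1900) (nat_lit 648313420) (nat_lit 0) (nat_lit 653734828) (nat_lit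 1900) (nat_lit 648313420) (nat_lit 522) (nat_lit 1) (nat_lit 497) (nat_lit 0) (nat_lit 522) (nat_lit 0) (nat_lit 384) (nat_lit 378) (nat_lit 378)))) (XT.nd (nat_lit 156) (nat_lit 0) (nat_lit 76) (XT.nd (nat_lit 78) (nat_lit 0) (nat_lit 76) (XT.lf (nat_lit 1900) (nat_lit 2563528739) (nat_lit 76) (nat_lit 649433941) (nat_lit 0) (nat_lit 649433941) (nat_lit 522) (nat_lit 1) (nat_lit 498) (nat_lit 1) (nat_lit 497) (nat_lit 0) (nat_lit 385) (nat_lit 378) (nat_lit 377)) (XT.lf (nat_lit 1900) (nat_lit 1258704813) (nat_lit 0) (nat_lit 1307078900) (nat_lit 1824) (nat_lit 1258704813) (nat_lit 523) (nat_lit 1) (nat_lit 498) (nat_lit 1) (nat_lit 522) (nat_lit 1) (nat_lit 386) (nat_lit 378) (nat_lit 376))) (XT.nd (nat_lit 78) (nat_lit 0) (nat_lit 76) (XT.lf (nat_lit 1900) (nat_lit 2463595607) (nat_lit 76) (nat_lit 661779754) (nat_lit 0) (nat_lit 661779754) (nat_lit 523) (nat_lit 1) (nat_lit 499) (nat_lit 1) (nat_lit 498) (nat_lit 1) (nat_lit 387) (nat_lit 378) (nat_lit 375))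 (XT.nd (nat_lit 78) (nat_lit 0) (nat_lit 0) (XT.lf (nat_lit 1900) (nat_lit 1197260781) (nat_lit 0) (nat_lit 1355712264) (nat_lit 1824) (nat_lit 1197260781) (nat_lit 524) (nat_lit 1) (nat_lit 499) (nat_lit 1) (nat_lit 523) (nat_lit 1) (nat_lit 388) (nat_lit 378) (nat_lit 374)) (XT.lf (nat_lit 1900) (nat_lit 2317882751) (nat_lit 76) (nat_lit 697989423) (nat_lit 0) (nat_lit 697989423) (nat_lit 524) (nat_lit 1) (nat_lit 500) (nat_lit 1) (nat_lit 499) (nat_lit 1) (nat_lit 389) (nat_lit 378) (nat_lit 373))))))) (XT.nd (nat_lit 702) (nat_lit 1368) (nat_lit 0) (XT.nd (nat_lit 312) (nat_lit 0) (nat_lit 152) (XT.nd (nat_lit 156) (nat_lit 0) (nat_lit 76) (XT.nd (nat_lit 78) (nat_lit 0) (nat_lit 0) (XT.lf (nat_lit 1900) (nat_lit 1113698222) (nat_lit 0) (nat_lit 1450505123) (nat_lit 1824) (nat_lit 1113698222) (nat_lit 525) (nat_lit 1) (nat_lit 500) (nat_lit 1) (nat_lit 524) (nat_lit 1) (nat_lit 390) (nat_lit 378) (nat_lit 372)) (XT.lf (nat_lit 1900) (nat_lit 2129141582) (nat_lit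 76) (nat_lit 756658969) (nat_lit 0) (nat_lit 756658969) (nat_lit 525) (nat_lit 1) (nat_lit 501) (nat_lit 1) (nat_lit 500) (nat_lit 1) (nat_lit 391) (nat_lit 378) (nat_lit 371))) (XT.nd (nat_lit 78) (nat_lit 0) (nat_lit 0) (XT.lf (nat_lit 1900) (nat_lit 1009356505) (nat_lit 0) (nat_lit 1588722930) (nat_lit 1824) (nat_lit 1009356505) (nat_lit 526) (nat_lit 1) (nat_lit 501) (nat_lit 1) (nat_lit 525) (nat_lit 1) (nat_lit 392) (nat_lit 378) (nat_lit 370)) (XT.lf (nat_lit 1900) (nat_lit 1899997580) (nat_lit 76) (nat_lit 836448286) (nat_lit 0) (nat_lit 836448286) (nat_lit 526) (nat_lit 1) (nat_lit 502) (nat_lit 1) (nat_lit 501) (nat_lit 1) (nat_lit 393) (nat_lit 378) (nat_lit 369)))) (XT.nd (nat_lit 156) (nat_lit 0) (nat_lit 76) (XT.nd (nat_lit 78) (nat_lit 0) (nat_lit 0) (XT.lf (nat_lit 1900) (nat_lit 885513569) (nat_lit 0) (nat_lit 1767755796) (nat_lit 1824) (nat_lit 885513569) (nat_lit 527) (nat_lit 1) (nat_lit 502) (nat_lit 1) (nat_lit 526) (nat_lit 1) (nat_lit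 394) (nat_lit 378) (nat_lit 368)) (XT.lf (nat_lit 1900) (nat_lit 1632955555) (nat_lit 76) (nat_lit 936078484) (nat_lit 0) (nat_lit 936078484) (nat_lit 527) (nat_lit 1) (nat_lit 503) (nat_lit 1) (nat_lit 502) (nat_lit 1) (nat_lit 395) (nat_lit 378) (nat_lit 367))) (XT.nd (nat_lit 78) (nat_lit 0) (nat_lit 0) (XT.lf (nat_lit 1900) (nat_lit 743388492) (nat_lit 0) (nat_lit 1985113291) (nat_lit 1824) (nat_lit 743388492) (nat_lit 528) (nat_lit 1) (nat_lit 503) (nat_lit 1) (nat_lit 527) (nat_lit 1) (nat_lit 396) (nat_lit 378) (nat_lit 366)) (XT.nd (nat_lit 78) (nat_lit 0) (nat_lit 76) (XT.lf (nat_lit 1900) (nat_lit 1330404703) (nat_lit 76) (nat_lit 1054329330) (nat_lit 0) (nat_lit 1054329330) (nat_lit 528) (nat_lit 1) (nat_lit 504) (nat_lit 1) (nat_lit 503) (nat_lit 1) (nat_lit 397) (nat_lit 378) (nat_lit 365)) (XT.lf (nat_lit 1900) (nat_lit 584143959) (nat_lit 0) (nat_lit 2238419442) (nat_lit 1824) (nat_lit 584143959) (nat_lit 529) (nat_lit 1) (nat_lit 504) (nat_lit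 1) (nat_lit 528) (nat_lit 1) (nat_lit 398) (nat_lit 378) (nat_lit 364)))))) (XT.nd (nat_lit 312) (nat_lit 1672) (nat_lit 0) (XT.nd (nat_lit 156) (nat_lit 0) (nat_lit 76) (XT.nd (nat_lit 78) (nat_lit 0) (nat_lit 76) (XT.lf (nat_lit 1900) (nat_lit 994623450) (nat_lit 76) (nat_lit 1190036792) (nat_lit 0) (nat_lit 1190036792) (nat_lit 529) (nat_lit 1) (nat_lit 505) (nat_lit 1) (nat_lit 504) (nat_lit 1) (nat_lit 399) (nat_lit 378) (nat_lit 363)) (XT.lf (nat_lit 1900) (nat_lit 408888628) (nat_lit 0) (nat_lit 2525407950) (nat_lit 1824) (nat_lit 408888628) (nat_lit 530) (nat_lit 1) (nat_lit 505) (nat_lit 1) (nat_lit 529) (nat_lit 1) (nat_lit 400) (nat_lit 378) (nat_lit 362))) (XT.nd (nat_lit 78) (nat_lit 0) (nat_lit 76) (XT.lf (nat_lit 1900) (nat_lit 627784111) (nat_lit 76) (nat_lit 1342090686) (nat_lit 0) (nat_lit 1342090686) (nat_lit 530) (nat_lit 1) (nat_lit 506) (nat_lit 1) (nat_lit 505) (nat_lit 1) (nat_lit 401) (nat_lit 378) (nat_lit 361)) (XT.lf (nat_lit 1900)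 (nat_lit 218679405) (nat_lit 0) (nat_lit 2843917583) (nat_lit 1824) (nat_lit 218679405) (nat_lit 531) (nat_lit 1) (nat_lit 506) (nat_lit 1) (nat_lit 530) (nat_lit 1) (nat_lit 402) (nat_lit 378) (nat_lit 360)))) (XT.nd (nat_lit 156) (nat_lit 1824) (nat_lit 0) (XT.nd (nat_lit 78) (nat_lit 0) (nat_lit 76) (XT.lf (nat_lit 1900) (nat_lit 231957354) (nat_lit 76) (nat_lit 1509432415) (nat_lit 0) (nat_lit 1509432415) (nat_lit 531) (nat_lit 1) (nat_lit 507) (nat_lit 1) (nat_lit 506) (nat_lit 1) (nat_lit 403) (nat_lit 378) (nat_lit 359)) (XT.lf (nat_lit 1900) (nat_lit 14523618) (nat_lit 0) (nat_lit 3191887762) (nat_lit 1824) (nat_lit 14523618) (nat_lit 532) (nat_lit 1) (nat_lit 507) (nat_lit 1) (nat_lit 531) (nat_lit 1) (nat_lit 404) (nat_lit 378) (nat_lit 358))) (XT.nd (nat_lit 78) (nat_lit 0) (nat_lit 0) (XT.lf (nat_lit 1976) (nat_lit 1501408629) (nat_lit 0) (nat_lit 188380041) (nat_lit 1900) (nat_lit 1501408629) (nat_lit 508) (nat_lit 1) (nat_lit 482) (nat_lit 1) (nat_lit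 507) (nat_lit 1) (nat_lit 405) (nat_lit 378) (nat_lit 357)) (XT.nd (nat_lit 78) (nat_lit 0) (nat_lit 76) (XT.lf (nat_lit 1976) (nat_lit 2759439242) (nat_lit 76) (nat_lit 201285863) (nat_lit 0) (nat_lit 201285863) (nat_lit 508) (nat_lit 1) (nat_lit 483) (nat_lit 1) (nat_lit 482) (nat_lit 1) (nat_lit 406) (nat_lit 378) (nat_lit 356)) (XT.lf (nat_lit 1976) (nat_lit 1251279456) (nat_lit 0) (nat_lit 630479686) (nat_lit 1900) (nat_lit 1251279456) (nat_lit 509) (nat_lit 1) (nat_lit 483) (nat_lit 1) (nat_lit 508) (nat_lit 1) (nat_lit 407) (nat_lit 378) (nat_lit 355))))))))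
noncomputable def ec15 : XT := (XT.nd (nat_lit 1404) (nat_lit 1520) (nat_lit 0) (XT.nd (nat_lit 702) (nat_lit 4256) (nat_lit 0) (XT.nd (nat_lit 312) (nat_lit 2660) (nat_lit 0) (XT.nd (nat_lit 156) (nat_lit 1064) (nat_lit 0) (XT.nd (nat_lit 78) (nat_lit 0) (nat_lit 76) (XT.lf (nat_lit 1976) (nat_lit 2246567558) (nat_lit 76) (nat_lit 428992712) (nat_lit 0) (nat_lit 428992712) (nat_lit 509) (nat_lit 1) (nat_lit 484) (nat_lit 1) (nat_lit 483) (nat_lit 1) (nat_lit 408) (nat_lit 378) (nat_lit 354)) (XT.lf (nat_lit 76) (nat_lit 990358856) (nat_lit 0) (nat_lit 1095616471) (nat_lit 1900) (nat_lit 990358856) (nat_lit 485) (nat_lit 1) (nat_lit 484) (nat_lit 1) (nat_lit 509) (nat_lit 1) (nat_lit 409) (nat_lit 378) (nat_lit 353))) (XT.nd (nat_lit 78) (nat_lit 0) (nat_lit 0) (XT.lf (nat_lit 1216) (nat_lit 1712872605) (nat_lit 0) (nat_lit 667827377) (nat_lit 1140) (nat_lit 667827377) (nat_lit 485) (nat_lit 1) (nat_lit 469) (nat_lit 1) (nat_lit 484) (nat_lit 1) (nat_lit 410)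 (nat_lit 378) (nat_lit 352)) (XT.lf (nat_lit 76) (nat_lit 719467918) (nat_lit 0) (nat_lit 1582107512) (nat_lit 1216) (nat_lit 719467918) (nat_lit 470) (nat_lit 1) (nat_lit 469) (nat_lit 1) (nat_lit 485) (nat_lit 1) (nat_lit 411) (nat_lit 378) (nat_lit 351)))) (XT.nd (nat_lit 156) (nat_lit 1748) (nat_lit 0) (XT.nd (nat_lit 78) (nat_lit 0) (nat_lit 0) (XT.lf (nat_lit 988) (nat_lit 1159961773) (nat_lit 0) (nat_lit 916966186) (nat_lit 912) (nat_lit 916966186) (nat_lit 470) (nat_lit 1) (nat_lit 457) (nat_lit 1) (nat_lit 469) (nat_lit 1) (nat_lit 412) (nat_lit 378) (nat_lit 350)) (XT.lf (nat_lit 76) (nat_lit 439387962) (nat_lit 0) (nat_lit 2088350734) (nat_lit 988) (nat_lit 439387962) (nat_lit 458) (nat_lit 1) (nat_lit 457) (nat_lit 1) (nat_lit 470) (nat_lit 1) (nat_lit 413) (nat_lit 378) (nat_lit 349))) (XT.nd (nat_lit 78) (nat_lit 836) (nat_lit 0) (XT.lf (nat_lit 988) (nat_lit 589364374) (nat_lit 0) (nat_lit 1175625126) (nat_lit 912) (nat_lit 1175625126) (nat_lit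 458) (nat_lit 1) (nat_lit 445) (nat_lit 1) (nat_lit 457) (nat_lit 1) (nat_lit 414) (nat_lit 378) (nat_lit 348)) (XT.nd (nat_lit 78) (nat_lit 836) (nat_lit 0) (XT.lf (nat_lit 76) (nat_lit 150862242) (nat_lit 0) (nat_lit 2612821424) (nat_lit 988) (nat_lit 150862242) (nat_lit 446) (nat_lit 1) (nat_lit 445) (nat_lit 1) (nat_lit 458) (nat_lit 1) (nat_lit 415) (nat_lit 378) (nat_lit 347)) (XT.lf (nat_lit 912) (nat_lit 2534979) (nat_lit 0) (nat_lit 1443058156) (nat_lit 836) (nat_lit 1443058156) (nat_lit 446) (nat_lit 1) (nat_lit 434) (nat_lit 1) (nat_lit 445) (nat_lit 1) (nat_lit 416) (nat_lit 378) (nat_lit 346)))))) (XT.nd (nat_lit 312) (nat_lit 2432) (nat_lit 0) (XT.nd (nat_lit 156) (nat_lit 836) (nat_lit 0) (XT.nd (nat_lit 78) (nat_lit 0) (nat_lit 0) (XT.lf (nat_lit 988) (nat_lit 2574296642) (nat_lit 0) (nat_lit 144445831) (nat_lit 912) (nat_lit 144445831) (nat_lit 434) (nat_lit 1) (nat_lit 421) (nat_lit 1) (nat_lit 433) (nat_lit 1) (nat_lit 417) (nat_lit 378) (nat_lit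 345)) (XT.lf (nat_lit 76) (nat_lit 1123302242) (nat_lit 0) (nat_lit 591285505) (nat_lit 988) (nat_lit 1123302242) (nat_lit 422) (nat_lit 1) (nat_lit 421) (nat_lit 1) (nat_lit 434) (nat_lit 1) (nat_lit 418) (nat_lit 378) (nat_lit 344))) (XT.nd (nat_lit 78) (nat_lit 0) (nat_lit 0) (XT.lf (nat_lit 912) (nat_lit 1921447626) (nat_lit 0) (nat_lit 445781908) (nat_lit 836) (nat_lit 445781908) (nat_lit 422) (nat_lit 1) (nat_lit 410) (nat_lit 1) (nat_lit 421) (nat_lit 1) (nat_lit 419) (nat_lit 378) (nat_lit 343)) (XT.lf (nat_lit 76) (nat_lit 794970787) (nat_lit 0) (nat_lit 1198429631) (nat_lit 912) (nat_lit 794970787) (nat_lit 411) (nat_lit 1) (nat_lit 410) (nat_lit 1) (nat_lit 422) (nat_lit 1) (nat_lit 420) (nat_lit 378) (nat_lit 342)))) (XT.nd (nat_lit 156) (nat_lit 1596) (nat_lit 0) (XT.nd (nat_lit 78) (nat_lit 0) (nat_lit 0) (XT.lf (nat_lit 912) (nat_lit 1257051236) (nat_lit 0) (nat_lit 753504139) (nat_lit 836) (nat_lit 753504139) (nat_lit 411) (nat_lit 1) (nat_lit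 399) (nat_lit 1) (nat_lit 410) (nat_lit 1) (nat_lit 421) (nat_lit 378) (nat_lit 341)) (XT.lf (nat_lit 76) (nat_lit 461181658) (nat_lit 0) (nat_lit 1817697973) (nat_lit 912) (nat_lit 461181658) (nat_lit 400) (nat_lit 1) (nat_lit 399) (nat_lit 1) (nat_lit 411) (nat_lit 1) (nat_lit 422) (nat_lit 378) (nat_lit 340))) (XT.nd (nat_lit 78) (nat_lit 836) (nat_lit 0) (XT.lf (nat_lit 836) (nat_lit 582279365) (nat_lit 0) (nat_lit 1067009886) (nat_lit 760) (nat_lit 1067009886) (nat_lit 400) (nat_lit 1) (nat_lit 389) (nat_lit 1) (nat_lit 399) (nat_lit 1) (nat_lit 423) (nat_lit 378) (nat_lit 339)) (XT.nd (nat_lit 78) (nat_lit 836) (nat_lit 0) (XT.lf (nat_lit 76) (nat_lit 122503786) (nat_lit 0) (nat_lit 2447919727) (nat_lit 836) (nat_lit 122503786) (nat_lit 390) (nat_lit 1) (nat_lit 389) (nat_lit 1) (nat_lit 400) (nat_lit 1) (nat_lit 424) (nat_lit 378) (nat_lit 338)) (XT.lf (nat_lit 76) (nat_lit 1284631752) (nat_lit 0) (nat_lit 100421236) (nat_lit 836) (nat_lit 1284631752)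 (nat_lit 379) (nat_lit 1) (nat_lit 378) (nat_lit 1) (nat_lit 389) (nat_lit 1) (nat_lit 425) (nat_lit 378) (nat_lit 337))))))) (XT.nd (nat_lit 56394) (nat_lit 0) (nat_lit 10792) (XT.nd (nat_lit 56004) (nat_lit 0) (nat_lit 10564) (XT.nd (nat_lit 156) (nat_lit 760) (nat_lit 0) (XT.nd (nat_lit 78) (nat_lit 0) (nat_lit 0) (XT.lf (nat_lit 836) (nat_lit 2208678013) (nat_lit 0) (nat_lit 219072179) (nat_lit 760) (nat_lit 219072179) (nat_lit 379) (nat_lit 1) (nat_lit 368) (nat_lit 1) (nat_lit 378) (nat_lit 1) (nat_lit 426) (nat_lit 378) (nat_lit 336)) (XT.lf (nat_lit 76) (nat_lit 920267910) (nat_lit 0) (nat_lit 783585660) (nat_lit 836) (nat_lit 920267910) (nat_lit 369) (nat_lit 1) (nat_lit 368) (nat_lit 1) (nat_lit 379) (nat_lit 1) (nat_lit 427) (nat_lit 378) (nat_lit 335))) (XT.nd (nat_lit 55770) (nat_lit 0) (nat_lit 10564) (XT.lf (nat_lit 836) (nat_lit 1474456932) (nat_lit 0) (nat_lit 563653845) (nat_lit 760) (nat_lit 563653845) (nat_lit 369) (nat_lit 1) (nat_lit 358)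 (nat_lit 1) (nat_lit 368) (nat_lit 1) (nat_lit 428) (nat_lit 378) (nat_lit 334)) (XT.lf (nat_lit 1900) (nat_lit 661279688) (nat_lit 0) (nat_lit 666809525) (nat_lit 1900) (nat_lit 661279688) (nat_lit 522) (nat_lit 1) (nat_lit 497) (nat_lit 0) (nat_lit 522) (nat_lit 0) (nat_lit 382) (nat_lit 379) (nat_lit 379)))) (XT.nd (nat_lit 156) (nat_lit 0) (nat_lit 76) (XT.nd (nat_lit 78) (nat_lit 0) (nat_lit 76) (XT.lf (nat_lit 1900) (nat_lit 2614799314) (nat_lit 76) (nat_lit 662422620) (nat_lit 0) (nat_lit 662422620) (nat_lit 522) (nat_lit 1) (nat_lit 498) (nat_lit 1) (nat_lit 497) (nat_lit 0) (nat_lit 383) (nat_lit 379) (nat_lit 378)) (XT.lf (nat_lit 1900) (nat_lit 1283878909) (nat_lit 0) (nat_lit 1333220478) (nat_lit 1824) (nat_lit 1283878909) (nat_lit 523) (nat_lit 1) (nat_lit 498) (nat_lit 1) (nat_lit 522) (nat_lit 1) (nat_lit 384) (nat_lit 379) (nat_lit 377))) (XT.nd (nat_lit 78) (nat_lit 0) (nat_lit 76) (XT.lf (nat_lit 1900) (nat_lit 2512867520) (nat_lit 76) (nat_lit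 675015349) (nat_lit 0) (nat_lit 675015349) (nat_lit 523) (nat_lit 1) (nat_lit 499) (nat_lit 1) (nat_lit 498) (nat_lit 1) (nat_lit 385) (nat_lit 379) (nat_lit 376)) (XT.nd (nat_lit 78) (nat_lit 0) (nat_lit 0) (XT.lf (nat_lit 1900) (nat_lit 1221205997) (nat_lit 0) (nat_lit 1382826509) (nat_lit 1824) (nat_lit 1221205997) (nat_lit 524) (nat_lit 1) (nat_lit 499) (nat_lit 1) (nat_lit 523) (nat_lit 1) (nat_lit 386) (nat_lit 379) (nat_lit 375)) (XT.lf (nat_lit 1900) (nat_lit 2364240406) (nat_lit 76) (nat_lit 711949212) (nat_lit 0) (nat_lit 711949212) (nat_lit 524) (nat_lit 1) (nat_lit 500) (nat_lit 1) (nat_lit 499) (nat_lit 1) (nat_lit 387) (nat_lit 379) (nat_lit 374)))))) (XT.nd (nat_lit 312) (nat_lit 0) (nat_lit 152) (XT.nd (nat_lit 156) (nat_lit 0) (nat_lit 76) (XT.nd (nat_lit 78) (nat_lit 0) (nat_lit 0) (XT.lf (nat_lit 1900) (nat_lit 1135972186) (nat_lit 0) (nat_lit 1479515225) (nat_lit 1824) (nat_lit 1135972186) (nat_lit 525) (nat_lit 1) (nat_lit 500) (nat_lit 1)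 (nat_lit 524) (nat_lit 1) (nat_lit 388) (nat_lit 379) (nat_lit 373)) (XT.lf (nat_lit 1900) (nat_lit 2171724413) (nat_lit 76) (nat_lit 771792148) (nat_lit 0) (nat_lit 771792148) (nat_lit 525) (nat_lit 1) (nat_lit 501) (nat_lit 1) (nat_lit 500) (nat_lit 1) (nat_lit 389) (nat_lit 379) (nat_lit 372))) (XT.nd (nat_lit 78) (nat_lit 0) (nat_lit 0) (XT.lf (nat_lit 1900) (nat_lit 1029543635) (nat_lit 0) (nat_lit 1620497388) (nat_lit 1824) (nat_lit 1029543635) (nat_lit 526) (nat_lit 1) (nat_lit 501) (nat_lit 1) (nat_lit 525) (nat_lit 1) (nat_lit 390) (nat_lit 379) (nat_lit 371)) (XT.lf (nat_lit 1900) (nat_lit 1937997531) (nat_lit 76) (nat_lit 853177252) (nat_lit 0) (nat_lit 853177252) (nat_lit 526) (nat_lit 1) (nat_lit 502) (nat_lit 1) (nat_lit 501) (nat_lit 1) (nat_lit 391) (nat_lit 379) (nat_lit 370)))) (XT.nd (nat_lit 156) (nat_lit 0) (nat_lit 76) (XT.nd (nat_lit 78) (nat_lit 0) (nat_lit 0) (XT.lf (nat_lit 1900) (nat_lit 903223840) (nat_lit 0) (nat_lit 1803110912) (nat_lit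 1824) (nat_lit 903223840) (nat_lit 527) (nat_lit 1) (nat_lit 502) (nat_lit 1) (nat_lit 526) (nat_lit 1) (nat_lit 392) (nat_lit 379) (nat_lit 369)) (XT.lf (nat_lit 1900) (nat_lit 1665614666) (nat_lit 76) (nat_lit 954800054) (nat_lit 0) (nat_lit 954800054) (nat_lit 527) (nat_lit 1) (nat_lit 503) (nat_lit 1) (nat_lit 502) (nat_lit 1) (nat_lit 393) (nat_lit 379) (nat_lit 368))) (XT.nd (nat_lit 78) (nat_lit 0) (nat_lit 0) (XT.lf (nat_lit 1900) (nat_lit 758256261) (nat_lit 0) (nat_lit 2024815557) (nat_lit 1824) (nat_lit 758256261) (nat_lit 528) (nat_lit 1) (nat_lit 503) (nat_lit 1) (nat_lit 527) (nat_lit 1) (nat_lit 394) (nat_lit 379) (nat_lit 367)) (XT.nd (nat_lit 78) (nat_lit 0) (nat_lit 76) (XT.lf (nat_lit 1900) (nat_lit 1357012797) (nat_lit 76) (nat_lit 1075415917) (nat_lit 0) (nat_lit 1075415917) (nat_lit 528) (nat_lit 1) (nat_lit 504) (nat_lit 1) (nat_lit 503) (nat_lit 1) (nat_lit 395) (nat_lit 379) (nat_lit 366)) (XT.lf (nat_lit 1900) (nat_lit 595826838) (nat_lit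 0) (nat_lit 2283187831) (nat_lit 1824) (nat_lit 595826838) (nat_lit 529) (nat_lit 1) (nat_lit 504) (nat_lit 1) (nat_lit 528) (nat_lit 1) (nat_lit 396) (nat_lit 379) (nat_lit 365))))))))
noncomputable def ec16 : XT := (XT.nd (nat_lit 1404) (nat_lit 5776) (nat_lit 0) (XT.nd (nat_lit 702) (nat_lit 3648) (nat_lit 0) (XT.nd (nat_lit 312) (nat_lit 1672) (nat_lit 0) (XT.nd (nat_lit 156) (nat_lit 0) (nat_lit 76) (XT.nd (nat_lit 78) (nat_lit 0) (nat_lit 76) (XT.lf (nat_lit 1900) (nat_lit 1014515919) (nat_lit 76) (nat_lit 1213837528) (nat_lit 0) (nat_lit 1213837528) (nat_lit 529) (nat_lit 1) (nat_lit 505) (nat_lit 1) (nat_lit 504) (nat_lit 1) (nat_lit 397) (nat_lit 379) (nat_lit 364)) (XT.lf (nat_lit 1900) (nat_lit 417066401) (nat_lit 0) (nat_lit 2575916109) (nat_lit 1824) (nat_lit 417066401) (nat_lit 530) (nat_lit 1) (nat_lit 505) (nat_lit 1) (nat_lit 529) (nat_lit 1) (nat_lit 398) (nat_lit 379) (nat_lit 363))) (XT.nd (nat_lit 78) (nat_lit 0) (nat_lit 76) (XT.lf (nat_lit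 1900) (nat_lit 640339793) (nat_lit 76) (nat_lit 1368932500) (nat_lit 0) (nat_lit 1368932500) (nat_lit 530) (nat_lit 1) (nat_lit 506) (nat_lit 1) (nat_lit 505) (nat_lit 1) (nat_lit 399) (nat_lit 379) (nat_lit 362)) (XT.lf (nat_lit 1900) (nat_lit 223052993) (nat_lit 0) (nat_lit 2900795934) (nat_lit 1824) (nat_lit 223052993) (nat_lit 531) (nat_lit 1) (nat_lit 506) (nat_lit 1) (nat_lit 530) (nat_lit 1) (nat_lit 400) (nat_lit 379) (nat_lit 361)))) (XT.nd (nat_lit 156) (nat_lit 1824) (nat_lit 0) (XT.nd (nat_lit 78) (nat_lit 0) (nat_lit 76) (XT.lf (nat_lit 1900) (nat_lit 236596501) (nat_lit 76) (nat_lit 1539621064) (nat_lit 0) (nat_lit 1539621064) (nat_lit 531) (nat_lit 1) (nat_lit 507) (nat_lit 1) (nat_lit 506) (nat_lit 1) (nat_lit 401) (nat_lit 379) (nat_lit 360)) (XT.lf (nat_lit 1900) (nat_lit 14814090) (nat_lit 0) (nat_lit 3255725518) (nat_lit 1824) (nat_lit 14814090) (nat_lit 532) (nat_lit 1) (nat_lit 507) (nat_lit 1) (nat_lit 531) (nat_lit 1) (nat_lit 402) (nat_lit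 379) (nat_lit 359))) (XT.nd (nat_lit 78) (nat_lit 0) (nat_lit 0) (XT.lf (nat_lit 1976) (nat_lit 1531436801) (nat_lit 0) (nat_lit 192147642) (nat_lit 1900) (nat_lit 1531436801) (nat_lit 508) (nat_lit 1) (nat_lit 482) (nat_lit 1) (nat_lit 507) (nat_lit 1) (nat_lit 403) (nat_lit 379) (nat_lit 358)) (XT.nd (nat_lit 78) (nat_lit 0) (nat_lit 76) (XT.lf (nat_lit 1976) (nat_lit 2814628026) (nat_lit 76) (nat_lit 205311581) (nat_lit 0) (nat_lit 205311581) (nat_lit 508) (nat_lit 1) (nat_lit 483) (nat_lit 1) (nat_lit 482) (nat_lit 1) (nat_lit 404) (nat_lit 379) (nat_lit 357)) (XT.lf (nat_lit 1976) (nat_lit 1276305045) (nat_lit 0) (nat_lit 643089280) (nat_lit 1900) (nat_lit 1276305045) (nat_lit 509) (nat_lit 1) (nat_lit 483) (nat_lit 1) (nat_lit 508) (nat_lit 1) (nat_lit 405) (nat_lit 379) (nat_lit 356)))))) (XT.nd (nat_lit 312) (nat_lit 2660) (nat_lit 0) (XT.nd (nat_lit 156) (nat_lit 1064) (nat_lit 0) (XT.nd (nat_lit 78) (nat_lit 0) (nat_lit 76) (XT.lf (nat_lit 1976) (nat_lit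 2291498909) (nat_lit 76) (nat_lit 437572566) (nat_lit 0) (nat_lit 437572566) (nat_lit 509) (nat_lit 1) (nat_lit 484) (nat_lit 1) (nat_lit 483) (nat_lit 1) (nat_lit 406) (nat_lit 379) (nat_lit 355)) (XT.lf (nat_lit 76) (nat_lit 1010166033) (nat_lit 0) (nat_lit 1117528800) (nat_lit 1900) (nat_lit 1010166033) (nat_lit 485) (nat_lit 1) (nat_lit 484) (nat_lit 1) (nat_lit 509) (nat_lit 1) (nat_lit 407) (nat_lit 379) (nat_lit 354))) (XT.nd (nat_lit 78) (nat_lit 0) (nat_lit 0) (XT.lf (nat_lit 1216) (nat_lit 1747130057) (nat_lit 0) (nat_lit 681183925) (nat_lit 1140) (nat_lit 681183925) (nat_lit 485) (nat_lit 1) (nat_lit 469) (nat_lit 1) (nat_lit 484) (nat_lit 1) (nat_lit 408) (nat_lit 379) (nat_lit 353)) (XT.lf (nat_lit 76) (nat_lit 733857276) (nat_lit 0) (nat_lit 1613749662) (nat_lit 1216) (nat_lit 733857276) (nat_lit 470) (nat_lit 1) (nat_lit 469) (nat_lit 1) (nat_lit 485) (nat_lit 1) (nat_lit 409) (nat_lit 379) (nat_lit 352)))) (XT.nd (nat_lit 156) (nat_lit 1748) (nat_lit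 0) (XT.nd (nat_lit 78) (nat_lit 0) (nat_lit 0) (XT.lf (nat_lit 988) (nat_lit 1183161009) (nat_lit 0) (nat_lit 935305510) (nat_lit 912) (nat_lit 935305510) (nat_lit 470) (nat_lit 1) (nat_lit 457) (nat_lit 1) (nat_lit 469) (nat_lit 1) (nat_lit 410) (nat_lit 379) (nat_lit 351)) (XT.lf (nat_lit 76) (nat_lit 448175721) (nat_lit 0) (nat_lit 2130117748) (nat_lit 988) (nat_lit 448175721) (nat_lit 458) (nat_lit 1) (nat_lit 457) (nat_lit 1) (nat_lit 470) (nat_lit 1) (nat_lit 411) (nat_lit 379) (nat_lit 350))) (XT.nd (nat_lit 78) (nat_lit 836) (nat_lit 0) (XT.lf (nat_lit 988) (nat_lit 601151662) (nat_lit 0) (nat_lit 1199137629) (nat_lit 912) (nat_lit 1199137629) (nat_lit 458) (nat_lit 1) (nat_lit 445) (nat_lit 1) (nat_lit 457) (nat_lit 1) (nat_lit 412) (nat_lit 379) (nat_lit 349)) (XT.nd (nat_lit 78) (nat_lit 836) (nat_lit 0) (XT.lf (nat_lit 76) (nat_lit 153879487) (nat_lit 0) (nat_lit 2665077853) (nat_lit 988) (nat_lit 153879487) (nat_lit 446) (nat_lit 1) (nat_lit 445)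 (nat_lit 1) (nat_lit 458) (nat_lit 1) (nat_lit 413) (nat_lit 379) (nat_lit 348)) (XT.lf (nat_lit 912) (nat_lit 2585679) (nat_lit 0) (nat_lit 1471919319) (nat_lit 836) (nat_lit 1471919319) (nat_lit 446) (nat_lit 1) (nat_lit 434) (nat_lit 1) (nat_lit 445) (nat_lit 1) (nat_lit 414) (nat_lit 379) (nat_lit 347))))))) (XT.nd (nat_lit 702) (nat_lit 1520) (nat_lit 0) (XT.nd (nat_lit 312) (nat_lit 2432) (nat_lit 0) (XT.nd (nat_lit 156) (nat_lit 836) (nat_lit 0) (XT.nd (nat_lit 78) (nat_lit 0) (nat_lit 0) (XT.lf (nat_lit 988) (nat_lit 2625782575) (nat_lit 0) (nat_lit 147334748) (nat_lit 912) (nat_lit 147334748) (nat_lit 434) (nat_lit 1) (nat_lit 421) (nat_lit 1) (nat_lit 433) (nat_lit 1) (nat_lit 415) (nat_lit 379) (nat_lit 346)) (XT.lf (nat_lit 76) (nat_lit 1145768287) (nat_lit 0) (nat_lit 603111215) (nat_lit 988) (nat_lit 1145768287) (nat_lit 422) (nat_lit 1) (nat_lit 421) (nat_lit 1) (nat_lit 434) (nat_lit 1) (nat_lit 416) (nat_lit 379) (nat_lit 345))) (XT.nd (nat_lit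 78) (nat_lit 0) (nat_lit 0) (XT.lf (nat_lit 912) (nat_lit 1959876579) (nat_lit 0) (nat_lit 454697546) (nat_lit 836) (nat_lit 454697546) (nat_lit 422) (nat_lit 1) (nat_lit 410) (nat_lit 1) (nat_lit 421) (nat_lit 1) (nat_lit 417) (nat_lit 379) (nat_lit 344)) (XT.lf (nat_lit 76) (nat_lit 810870203) (nat_lit 0) (nat_lit 1222398224) (nat_lit 912) (nat_lit 810870203) (nat_lit 411) (nat_lit 1) (nat_lit 410) (nat_lit 1) (nat_lit 422) (nat_lit 1) (nat_lit 418) (nat_lit 379) (nat_lit 343)))) (XT.nd (nat_lit 156) (nat_lit 1596) (nat_lit 0) (XT.nd (nat_lit 78) (nat_lit 0) (nat_lit 0) (XT.lf (nat_lit 912) (nat_lit 1282192260) (nat_lit 0) (nat_lit 768574222) (nat_lit 836) (nat_lit 768574222) (nat_lit 411) (nat_lit 1) (nat_lit 399) (nat_lit 1) (nat_lit 410) (nat_lit 1) (nat_lit 419) (nat_lit 379) (nat_lit 342)) (XT.lf (nat_lit 76) (nat_lit 470405291) (nat_lit 0) (nat_lit 1854051933) (nat_lit 912) (nat_lit 470405291) (nat_lit 400) (nat_lit 1) (nat_lit 399) (nat_lit 1) (nat_lit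 411) (nat_lit 1) (nat_lit 420) (nat_lit 379) (nat_lit 341))) (XT.nd (nat_lit 78) (nat_lit 836) (nat_lit 0) (XT.lf (nat_lit 836) (nat_lit 593924953) (nat_lit 0) (nat_lit 1088350084) (nat_lit 760) (nat_lit 1088350084) (nat_lit 400) (nat_lit 1) (nat_lit 389) (nat_lit 1) (nat_lit 399) (nat_lit 1) (nat_lit 421) (nat_lit 379) (nat_lit 340)) (XT.nd (nat_lit 78) (nat_lit 836) (nat_lit 0) (XT.lf (nat_lit 76) (nat_lit 124953862) (nat_lit 0) (nat_lit 2496878121) (nat_lit 836) (nat_lit 124953862) (nat_lit 390) (nat_lit 1) (nat_lit 389) (nat_lit 1) (nat_lit 400) (nat_lit 1) (nat_lit 422) (nat_lit 379) (nat_lit 339)) (XT.lf (nat_lit 76) (nat_lit 1310324387) (nat_lit 0) (nat_lit 102429661) (nat_lit 836) (nat_lit 1310324387) (nat_lit 379) (nat_lit 1) (nat_lit 378) (nat_lit 1) (nat_lit 389) (nat_lit 1) (nat_lit 423) (nat_lit 379) (nat_lit 338)))))) (XT.nd (nat_lit 55926) (nat_lit 0) (nat_lit 10564) (XT.nd (nat_lit 156) (nat_lit 760) (nat_lit 0) (XT.nd (nat_lit 78) (nat_lit 0)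 (nat_lit 0) (XT.lf (nat_lit 836) (nat_lit 2252851574) (nat_lit 0) (nat_lit 223453622) (nat_lit 760) (nat_lit 223453622) (nat_lit 379) (nat_lit 1) (nat_lit 368) (nat_lit 1) (nat_lit 378) (nat_lit 1) (nat_lit 424) (nat_lit 379) (nat_lit 337)) (XT.lf (nat_lit 76) (nat_lit 938673268) (nat_lit 0) (nat_lit 799257374) (nat_lit 836) (nat_lit 938673268) (nat_lit 369) (nat_lit 1) (nat_lit 368) (nat_lit 1) (nat_lit 379) (nat_lit 1) (nat_lit 425) (nat_lit 379) (nat_lit 336))) (XT.nd (nat_lit 78) (nat_lit 0) (nat_lit 0) (XT.lf (nat_lit 836) (nat_lit 1503946071) (nat_lit 0) (nat_lit 574926922) (nat_lit 760) (nat_lit 574926922) (nat_lit 369) (nat_lit 1) (nat_lit 358) (nat_lit 1) (nat_lit 368) (nat_lit 1) (nat_lit 426) (nat_lit 379) (nat_lit 335)) (XT.lf (nat_lit 76) (nat_lit 563953637) (nat_lit 0) (nat_lit 1503340491) (nat_lit 836) (nat_lit 563953637) (nat_lit 359) (nat_lit 1) (nat_lit 358) (nat_lit 1) (nat_lit 369) (nat_lit 1) (nat_lit 427) (nat_lit 379) (nat_lit 334)))) (XT.nd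 (nat_lit 156) (nat_lit 0) (nat_lit 76) (XT.nd (nat_lit 78) (nat_lit 0) (nat_lit 0) (XT.lf (nat_lit 1900) (nat_lit 674505282) (nat_lit 0) (nat_lit 680145715) (nat_lit 1900) (nat_lit 674505282) (nat_lit 522) (nat_lit 1) (nat_lit 497) (nat_lit 0) (nat_lit 522) (nat_lit 0) (nat_lit 380) (nat_lit 380) (nat_lit 380)) (XT.lf (nat_lit 1900) (nat_lit 2667095300) (nat_lit 76) (nat_lit 675671072) (nat_lit 0) (nat_lit 675671072) (nat_lit 522) (nat_lit 1) (nat_lit 498) (nat_lit 1) (nat_lit 497) (nat_lit 0) (nat_lit 381) (nat_lit 380) (nat_lit 379))) (XT.nd (nat_lit 78) (nat_lit 0) (nat_lit 0) (XT.lf (nat_lit 1900) (nat_lit 1309556488) (nat_lit 0) (nat_lit 1359884887) (nat_lit 1824) (nat_lit 1309556488) (nat_lit 523) (nat_lit 1) (nat_lit 498) (nat_lit 1) (nat_lit 522) (nat_lit 1) (nat_lit 382) (nat_lit 380) (nat_lit 378)) (XT.nd (nat_lit 78) (nat_lit 0) (nat_lit 76) (XT.lf (nat_lit 1900) (nat_lit 2563124870) (nat_lit 76) (nat_lit 688515656) (nat_lit 0) (nat_lit 688515656)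 (nat_lit 523) (nat_lit 1) (nat_lit 499) (nat_lit 1) (nat_lit 498) (nat_lit 1) (nat_lit 383) (nat_lit 380) (nat_lit 377)) (XT.lf (nat_lit 1900) (nat_lit 1245630116) (nat_lit 0) (nat_lit 1410483039) (nat_lit 1824) (nat_lit 1245630116) (nat_lit 524) (nat_lit 1) (nat_lit 499) (nat_lit 1) (nat_lit 523) (nat_lit 1) (nat_lit 384) (nat_lit 380) (nat_lit 376))))))))
noncomputable def ec17 : XT := (XT.nd (nat_lit 1404) (nat_lit 7068) (nat_lit 0) (XT.nd (nat_lit 702) (nat_lit 1292) (nat_lit 0) (XT.nd (nat_lit 312) (nat_lit 0) (nat_lit 152) (XT.nd (nat_lit 156) (nat_lit 0) (nat_lit 76) (XT.nd (nat_lit 78) (nat_lit 0) (nat_lit 76) (XT.lf (nat_lit 1900) (nat_lit 2411525214) (nat_lit 76) (nat_lit 726188196) (nat_lit 0) (nat_lit 726188196) (nat_lit 524) (nat_lit 1) (nat_lit 500) (nat_lit 1) (nat_lit 499) (nat_lit 1) (nat_lit 385) (nat_lit 380) (nat_lit 375)) (XT.lf (nat_lit 1900) (nat_lit 1158691630) (nat_lit 0) (nat_lit 1509105530) (nat_lit 1824) (nat_lit 1158691630) (nat_lit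 525) (nat_lit 1) (nat_lit 500) (nat_lit 1) (nat_lit 524) (nat_lit 1) (nat_lit 386) (nat_lit 380) (nat_lit 374))) (XT.nd (nat_lit 78) (nat_lit 0) (nat_lit 76) (XT.lf (nat_lit 1900) (nat_lit 2215158902) (nat_lit 76) (nat_lit 787227991) (nat_lit 0) (nat_lit 787227991) (nat_lit 525) (nat_lit 1) (nat_lit 501) (nat_lit 1) (nat_lit 500) (nat_lit 1) (nat_lit 387) (nat_lit 380) (nat_lit 373)) (XT.lf (nat_lit 1900) (nat_lit 1050134507) (nat_lit 0) (nat_lit 1652907336) (nat_lit 1824) (nat_lit 1050134507) (nat_lit 526) (nat_lit 1) (nat_lit 501) (nat_lit 1) (nat_lit 525) (nat_lit 1) (nat_lit 388) (nat_lit 380) (nat_lit 372)))) (XT.nd (nat_lit 156) (nat_lit 0) (nat_lit 76) (XT.nd (nat_lit 78) (nat_lit 0) (nat_lit 76) (XT.lf (nat_lit 1900) (nat_lit 1976757482) (nat_lit 76) (nat_lit 870240797) (nat_lit 0) (nat_lit 870240797) (nat_lit 526) (nat_lit 1) (nat_lit 502) (nat_lit 1) (nat_lit 501) (nat_lit 1) (nat_lit 389) (nat_lit 380) (nat_lit 371)) (XT.lf (nat_lit 1900) (nat_lit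 921288317) (nat_lit 0) (nat_lit 1839173131) (nat_lit 1824) (nat_lit 921288317) (nat_lit 527) (nat_lit 1) (nat_lit 502) (nat_lit 1) (nat_lit 526) (nat_lit 1) (nat_lit 390) (nat_lit 380) (nat_lit 370))) (XT.nd (nat_lit 78) (nat_lit 0) (nat_lit 76) (XT.lf (nat_lit 1900) (nat_lit 1698926960) (nat_lit 76) (nat_lit 973896055) (nat_lit 0) (nat_lit 973896055) (nat_lit 527) (nat_lit 1) (nat_lit 503) (nat_lit 1) (nat_lit 502) (nat_lit 1) (nat_lit 391) (nat_lit 380) (nat_lit 369)) (XT.nd (nat_lit 78) (nat_lit 0) (nat_lit 0) (XT.lf (nat_lit 1900) (nat_lit 773421387) (nat_lit 0) (nat_lit 2065311868) (nat_lit 1824) (nat_lit 773421387) (nat_lit 528) (nat_lit 1) (nat_lit 503) (nat_lit 1) (nat_lit 527) (nat_lit 1) (nat_lit 392) (nat_lit 380) (nat_lit 368)) (XT.lf (nat_lit 1900) (nat_lit 1384153053) (nat_lit 76) (nat_lit 1096924235) (nat_lit 0) (nat_lit 1096924235) (nat_lit 528) (nat_lit 1) (nat_lit 504) (nat_lit 1) (nat_lit 503) (nat_lit 1) (nat_lit 393) (nat_lit 380) (nat_lit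 367)))))) (XT.nd (nat_lit 312) (nat_lit 1672) (nat_lit 0) (XT.nd (nat_lit 156) (nat_lit 0) (nat_lit 76) (XT.nd (nat_lit 78) (nat_lit 0) (nat_lit 0) (XT.lf (nat_lit 1900) (nat_lit 607743375) (nat_lit 0) (nat_lit 2328851588) (nat_lit 1824) (nat_lit 607743375) (nat_lit 529) (nat_lit 1) (nat_lit 504) (nat_lit 1) (nat_lit 528) (nat_lit 1) (nat_lit 394) (nat_lit 380) (nat_lit 366)) (XT.lf (nat_lit 1900) (nat_lit 1034806237) (nat_lit 76) (nat_lit 1238114279) (nat_lit 0) (nat_lit 1238114279) (nat_lit 529) (nat_lit 1) (nat_lit 505) (nat_lit 1) (nat_lit 504) (nat_lit 1) (nat_lit 395) (nat_lit 380) (nat_lit 365))) (XT.nd (nat_lit 78) (nat_lit 0) (nat_lit 0) (XT.lf (nat_lit 1900) (nat_lit 425407729) (nat_lit 0) (nat_lit 2627434431) (nat_lit 1824) (nat_lit 425407729) (nat_lit 530) (nat_lit 1) (nat_lit 505) (nat_lit 1) (nat_lit 529) (nat_lit 1) (nat_lit 396) (nat_lit 380) (nat_lit 364)) (XT.lf (nat_lit 1900) (nat_lit 653146589) (nat_lit 76) (nat_lit 1396311150) (nat_lit 0)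 (nat_lit 1396311150) (nat_lit 530) (nat_lit 1) (nat_lit 506) (nat_lit 1) (nat_lit 505) (nat_lit 1) (nat_lit 397) (nat_lit 380) (nat_lit 363)))) (XT.nd (nat_lit 156) (nat_lit 1824) (nat_lit 0) (XT.nd (nat_lit 78) (nat_lit 0) (nat_lit 0) (XT.lf (nat_lit 1900) (nat_lit 227514053) (nat_lit 0) (nat_lit 2958811853) (nat_lit 1824) (nat_lit 227514053) (nat_lit 531) (nat_lit 1) (nat_lit 506) (nat_lit 1) (nat_lit 530) (nat_lit 1) (nat_lit 398) (nat_lit 380) (nat_lit 362)) (XT.lf (nat_lit 1900) (nat_lit 241328431) (nat_lit 76) (nat_lit 1570413485) (nat_lit 0) (nat_lit 1570413485) (nat_lit 531) (nat_lit 1) (nat_lit 507) (nat_lit 1) (nat_lit 506) (nat_lit 1) (nat_lit 399) (nat_lit 380) (nat_lit 361))) (XT.nd (nat_lit 78) (nat_lit 1900) (nat_lit 0) (XT.lf (nat_lit 1900) (nat_lit 15110372) (nat_lit 0) (nat_lit 3320840028) (nat_lit 1824) (nat_lit 15110372) (nat_lit 532) (nat_lit 1) (nat_lit 507) (nat_lit 1) (nat_lit 531) (nat_lit 1) (nat_lit 400) (nat_lit 380) (nat_lit 360))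 (XT.nd (nat_lit 78) (nat_lit 0) (nat_lit 0) (XT.lf (nat_lit 1976) (nat_lit 1562065537) (nat_lit 0) (nat_lit 195990595) (nat_lit 1900) (nat_lit 1562065537) (nat_lit 508) (nat_lit 1) (nat_lit 482) (nat_lit 1) (nat_lit 507) (nat_lit 1) (nat_lit 401) (nat_lit 380) (nat_lit 359)) (XT.lf (nat_lit 1976) (nat_lit 2870920587) (nat_lit 76) (nat_lit 209417812) (nat_lit 0) (nat_lit 209417812) (nat_lit 508) (nat_lit 1) (nat_lit 483) (nat_lit 1) (nat_lit 482) (nat_lit 1) (nat_lit 402) (nat_lit 380) (nat_lit 358))))))) (XT.nd (nat_lit 702) (nat_lit 4256) (nat_lit 0) (XT.nd (nat_lit 312) (nat_lit 1824) (nat_lit 0) (XT.nd (nat_lit 156) (nat_lit 1064) (nat_lit 0) (XT.nd (nat_lit 78) (nat_lit 0) (nat_lit 0) (XT.lf (nat_lit 1976) (nat_lit 1301831146) (nat_lit 0) (nat_lit 655951066) (nat_lit 1900) (nat_lit 1301831146) (nat_lit 509) (nat_lit 1) (nat_lit 483) (nat_lit 1) (nat_lit 508) (nat_lit 1) (nat_lit 403) (nat_lit 380) (nat_lit 357)) (XT.lf (nat_lit 1976) (nat_lit 2337328887)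 (nat_lit 76) (nat_lit 446324017) (nat_lit 0) (nat_lit 446324017) (nat_lit 509) (nat_lit 1) (nat_lit 484) (nat_lit 1) (nat_lit 483) (nat_lit 1) (nat_lit 404) (nat_lit 380) (nat_lit 356))) (XT.nd (nat_lit 78) (nat_lit 1140) (nat_lit 0) (XT.lf (nat_lit 76) (nat_lit 1030369354) (nat_lit 0) (nat_lit 1139879376) (nat_lit 1900) (nat_lit 1030369354) (nat_lit 485) (nat_lit 1) (nat_lit 484) (nat_lit 1) (nat_lit 509) (nat_lit 1) (nat_lit 405) (nat_lit 380) (nat_lit 355)) (XT.lf (nat_lit 1216) (nat_lit 1782072658) (nat_lit 0) (nat_lit 694807603) (nat_lit 1140) (nat_lit 694807603) (nat_lit 485) (nat_lit 1) (nat_lit 469) (nat_lit 1) (nat_lit 484) (nat_lit 1) (nat_lit 406) (nat_lit 380) (nat_lit 354)))) (XT.nd (nat_lit 156) (nat_lit 912) (nat_lit 0) (XT.nd (nat_lit 78) (nat_lit 912) (nat_lit 0) (XT.lf (nat_lit 76) (nat_lit 748534421) (nat_lit 0) (nat_lit 1646024655) (nat_lit 1216) (nat_lit 748534421) (nat_lit 470) (nat_lit 1) (nat_lit 469) (nat_lit 1) (nat_lit 485) (nat_lit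 1) (nat_lit 407) (nat_lit 380) (nat_lit 353)) (XT.lf (nat_lit 988) (nat_lit 1206824229) (nat_lit 0) (nat_lit 954011620) (nat_lit 912) (nat_lit 954011620) (nat_lit 470) (nat_lit 1) (nat_lit 457) (nat_lit 1) (nat_lit 469) (nat_lit 1) (nat_lit 408) (nat_lit 380) (nat_lit 352))) (XT.nd (nat_lit 78) (nat_lit 912) (nat_lit 0) (XT.lf (nat_lit 76) (nat_lit 457139236) (nat_lit 0) (nat_lit 2172720103) (nat_lit 988) (nat_lit 457139236) (nat_lit 458) (nat_lit 1) (nat_lit 457) (nat_lit 1) (nat_lit 470) (nat_lit 1) (nat_lit 409) (nat_lit 380) (nat_lit 351)) (XT.nd (nat_lit 78) (nat_lit 0) (nat_lit 0) (XT.lf (nat_lit 988) (nat_lit 613174695) (nat_lit 0) (nat_lit 1223120381) (nat_lit 912) (nat_lit 1223120381) (nat_lit 458) (nat_lit 1) (nat_lit 445) (nat_lit 1) (nat_lit 457) (nat_lit 1) (nat_lit 410) (nat_lit 380) (nat_lit 350)) (XT.lf (nat_lit 76) (nat_lit 156957077) (nat_lit 0) (nat_lit 2718379410) (nat_lit 988) (nat_lit 156957077) (nat_lit 446) (nat_lit 1) (nat_lit 445) (nat_lit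 1) (nat_lit 458) (nat_lit 1) (nat_lit 411) (nat_lit 380) (nat_lit 349)))))) (XT.nd (nat_lit 312) (nat_lit 1596) (nat_lit 0) (XT.nd (nat_lit 156) (nat_lit 836) (nat_lit 0) (XT.nd (nat_lit 78) (nat_lit 988) (nat_lit 0) (XT.lf (nat_lit 912) (nat_lit 2637392) (nat_lit 0) (nat_lit 1501357706) (nat_lit 836) (nat_lit 1501357706) (nat_lit 446) (nat_lit 1) (nat_lit 434) (nat_lit 1) (nat_lit 445) (nat_lit 1) (nat_lit 412) (nat_lit 380) (nat_lit 348)) (XT.lf (nat_lit 988) (nat_lit 2678298226) (nat_lit 0) (nat_lit 150281443) (nat_lit 912) (nat_lit 150281443) (nat_lit 434) (nat_lit 1) (nat_lit 421) (nat_lit 1) (nat_lit 433) (nat_lit 1) (nat_lit 413) (nat_lit 380) (nat_lit 347))) (XT.nd (nat_lit 78) (nat_lit 836) (nat_lit 0) (XT.lf (nat_lit 76) (nat_lit 1168683652) (nat_lit 0) (nat_lit 615173439) (nat_lit 988) (nat_lit 1168683652) (nat_lit 422) (nat_lit 1) (nat_lit 421) (nat_lit 1) (nat_lit 434) (nat_lit 1) (nat_lit 414) (nat_lit 380) (nat_lit 346)) (XT.lf (nat_lit 912) (nat_lit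 1999074110) (nat_lit 0) (nat_lit 463791497) (nat_lit 836) (nat_lit 463791497) (nat_lit 422) (nat_lit 1) (nat_lit 410) (nat_lit 1) (nat_lit 421) (nat_lit 1) (nat_lit 415) (nat_lit 380) (nat_lit 345)))) (XT.nd (nat_lit 156) (nat_lit 760) (nat_lit 0) (XT.nd (nat_lit 78) (nat_lit 836) (nat_lit 0) (XT.lf (nat_lit 76) (nat_lit 827087607) (nat_lit 0) (nat_lit 1246846188) (nat_lit 912) (nat_lit 827087607) (nat_lit 411) (nat_lit 1) (nat_lit 410) (nat_lit 1) (nat_lit 422) (nat_lit 1) (nat_lit 416) (nat_lit 380) (nat_lit 344)) (XT.lf (nat_lit 912) (nat_lit 1307836106) (nat_lit 0) (nat_lit 783945706) (nat_lit 836) (nat_lit 783945706) (nat_lit 411) (nat_lit 1) (nat_lit 399) (nat_lit 1) (nat_lit 410) (nat_lit 1) (nat_lit 417) (nat_lit 380) (nat_lit 343))) (XT.nd (nat_lit 78) (nat_lit 760) (nat_lit 0) (XT.lf (nat_lit 76) (nat_lit 479813397) (nat_lit 0) (nat_lit 1891132972) (nat_lit 912) (nat_lit 479813397) (nat_lit 400) (nat_lit 1) (nat_lit 399) (nat_lit 1) (nat_lit 411) (nat_lit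 1) (nat_lit 418) (nat_lit 380) (nat_lit 342)) (XT.nd (nat_lit 78) (nat_lit 0) (nat_lit 0) (XT.lf (nat_lit 836) (nat_lit 605803452) (nat_lit 0) (nat_lit 1110117085) (nat_lit 760) (nat_lit 1110117085) (nat_lit 400) (nat_lit 1) (nat_lit 389) (nat_lit 1) (nat_lit 399) (nat_lit 1) (nat_lit 419) (nat_lit 380) (nat_lit 341)) (XT.lf (nat_lit 76) (nat_lit 127452939) (nat_lit 0) (nat_lit 2546815684) (nat_lit 836) (nat_lit 127452939) (nat_lit 390) (nat_lit 1) (nat_lit 389) (nat_lit 1) (nat_lit 400) (nat_lit 1) (nat_lit 420) (nat_lit 380) (nat_lit 340))))))))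
noncomputable def ec18 : XT := (XT.nd (nat_lit 56862) (nat_lit 0) (nat_lit 8208) (XT.nd (nat_lit 56160) (nat_lit 0) (nat_lit 11324) (XT.nd (nat_lit 312) (nat_lit 684) (nat_lit 0) (XT.nd (nat_lit 156) (nat_lit 760) (nat_lit 0) (XT.nd (nat_lit 78) (nat_lit 760) (nat_lit 0) (XT.lf (nat_lit 76) (nat_lit 1336530874) (nat_lit 0) (nat_lit 104478254) (nat_lit 836) (nat_lit 1336530874) (nat_lit 379) (nat_lit 1) (nat_lit 378) (nat_lit 1) (nat_lit 389) (nat_lit 1) (nat_lit 421) (nat_lit 380) (nat_lit 339)) (XT.lf (nat_lit 836) (nat_lit 2297908605) (nat_lit 0) (nat_lit 227922695) (nat_lit 760) (nat_lit 227922695) (nat_lit 379) (nat_lit 1) (nat_lit 368) (nat_lit 1) (nat_lit 378) (nat_lit 1) (nat_lit 422) (nat_lit 380) (nat_lit 338))) (XT.nd (nat_lit 78) (nat_lit 760) (nat_lit 0) (XT.lf (nat_lit 76) (nat_lit 957446733) (nat_lit 0) (nat_lit 815242521) (nat_lit 836) (nat_lit 957446733) (nat_lit 369) (nat_lit 1) (nat_lit 368) (nat_lit 1) (nat_lit 379) (nat_lit 1) (nat_lit 423)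 (nat_lit 380) (nat_lit 337)) (XT.lf (nat_lit 836) (nat_lit 1534024992) (nat_lit 0) (nat_lit 586425461) (nat_lit 760) (nat_lit 586425461) (nat_lit 369) (nat_lit 1) (nat_lit 358) (nat_lit 1) (nat_lit 368) (nat_lit 1) (nat_lit 424) (nat_lit 380) (nat_lit 336)))) (XT.nd (nat_lit 156) (nat_lit 0) (nat_lit 0) (XT.nd (nat_lit 78) (nat_lit 684) (nat_lit 0) (XT.lf (nat_lit 76) (nat_lit 575232710) (nat_lit 0) (nat_lit 1533407300) (nat_lit 836) (nat_lit 575232710) (nat_lit 359) (nat_lit 1) (nat_lit 358) (nat_lit 1) (nat_lit 369) (nat_lit 1) (nat_lit 425) (nat_lit 380) (nat_lit 335)) (XT.lf (nat_lit 760) (nat_lit 764338419) (nat_lit 0) (nat_lit 948392172) (nat_lit 684) (nat_lit 948392172) (nat_lit 359) (nat_lit 1) (nat_lit 349) (nat_lit 1) (nat_lit 358) (nat_lit 1) (nat_lit 426) (nat_lit 380) (nat_lit 334))) (XT.nd (nat_lit 55536) (nat_lit 0) (nat_lit 11248) (XT.lf (nat_lit 76) (nat_lit 190360345) (nat_lit 0) (nat_lit 2257998940) (nat_lit 760) (nat_lit 190360345) (nat_lit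 350) (nat_lit 1) (nat_lit 349) (nat_lit 1) (nat_lit 359) (nat_lit 1) (nat_lit 427) (nat_lit 380) (nat_lit 333)) (XT.nd (nat_lit 78) (nat_lit 0) (nat_lit 0) (XT.lf (nat_lit 1900) (nat_lit 687995388) (nat_lit 0) (nat_lit 693748629) (nat_lit 1900) (nat_lit 687995388) (nat_lit 522) (nat_lit 1) (nat_lit 497) (nat_lit 0) (nat_lit 522) (nat_lit 0) (nat_lit 378) (nat_lit 381) (nat_lit 381)) (XT.lf (nat_lit 1900) (nat_lit 2720437206) (nat_lit 76) (nat_lit 689184494) (nat_lit 0) (nat_lit 689184494) (nat_lit 522) (nat_lit 1) (nat_lit 498) (nat_lit 1) (nat_lit 497) (nat_lit 0) (nat_lit 379) (nat_lit 381) (nat_lit 380)))))) (XT.nd (nat_lit 312) (nat_lit 0) (nat_lit 152) (XT.nd (nat_lit 156) (nat_lit 0) (nat_lit 76) (XT.nd (nat_lit 78) (nat_lit 0) (nat_lit 0) (XT.lf (nat_lit 1900) (nat_lit 1335747617) (nat_lit 0) (nat_lit 1387082585) (nat_lit 1824) (nat_lit 1335747617) (nat_lit 523) (nat_lit 1) (nat_lit 498) (nat_lit 1) (nat_lit 522) (nat_lit 1) (nat_lit 380) (nat_lit 381)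 (nat_lit 379)) (XT.lf (nat_lit 1900) (nat_lit 2614387367) (nat_lit 76) (nat_lit 702285969) (nat_lit 0) (nat_lit 702285969) (nat_lit 523) (nat_lit 1) (nat_lit 499) (nat_lit 1) (nat_lit 498) (nat_lit 1) (nat_lit 381) (nat_lit 381) (nat_lit 378))) (XT.nd (nat_lit 78) (nat_lit 0) (nat_lit 0) (XT.lf (nat_lit 1900) (nat_lit 1270542719) (nat_lit 0) (nat_lit 1438692700) (nat_lit 1824) (nat_lit 1270542719) (nat_lit 524) (nat_lit 1) (nat_lit 499) (nat_lit 1) (nat_lit 523) (nat_lit 1) (nat_lit 382) (nat_lit 381) (nat_lit 377)) (XT.lf (nat_lit 1900) (nat_lit 2459755718) (nat_lit 76) (nat_lit 740711960) (nat_lit 0) (nat_lit 740711960) (nat_lit 524) (nat_lit 1) (nat_lit 500) (nat_lit 1) (nat_lit 499) (nat_lit 1) (nat_lit 383) (nat_lit 381) (nat_lit 376)))) (XT.nd (nat_lit 156) (nat_lit 0) (nat_lit 76) (XT.nd (nat_lit 78) (nat_lit 0) (nat_lit 0) (XT.lf (nat_lit 1900) (nat_lit 1181865462) (nat_lit 0) (nat_lit 1539287640) (nat_lit 1824) (nat_lit 1181865462) (nat_lit 525) (nat_lit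 1) (nat_lit 500) (nat_lit 1) (nat_lit 524) (nat_lit 1) (nat_lit 384) (nat_lit 381) (nat_lit 375)) (XT.lf (nat_lit 1900) (nat_lit 2259462080) (nat_lit 76) (nat_lit 802972551) (nat_lit 0) (nat_lit 802972551) (nat_lit 525) (nat_lit 1) (nat_lit 501) (nat_lit 1) (nat_lit 500) (nat_lit 1) (nat_lit 385) (nat_lit 381) (nat_lit 374))) (XT.nd (nat_lit 78) (nat_lit 0) (nat_lit 0) (XT.lf (nat_lit 1900) (nat_lit 1071137198) (nat_lit 0) (nat_lit 1685965483) (nat_lit 1824) (nat_lit 1071137198) (nat_lit 526) (nat_lit 1) (nat_lit 501) (nat_lit 1) (nat_lit 525) (nat_lit 1) (nat_lit 386) (nat_lit 381) (nat_lit 373)) (XT.nd (nat_lit 78) (nat_lit 0) (nat_lit 76) (XT.lf (nat_lit 1900) (nat_lit 2016292632) (nat_lit 76) (nat_lit 887645613) (nat_lit 0) (nat_lit 887645613) (nat_lit 526) (nat_lit 1) (nat_lit 502) (nat_lit 1) (nat_lit 501) (nat_lit 1) (nat_lit 387) (nat_lit 381) (nat_lit 372)) (XT.lf (nat_lit 1900) (nat_lit 939714083) (nat_lit 0) (nat_lit 1875956593) (nat_lit 1824) (nat_lit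 939714083) (nat_lit 527) (nat_lit 1) (nat_lit 502) (nat_lit 1) (nat_lit 526) (nat_lit 1) (nat_lit 388) (nat_lit 381) (nat_lit 371))))))) (XT.nd (nat_lit 702) (nat_lit 3420) (nat_lit 0) (XT.nd (nat_lit 312) (nat_lit 0) (nat_lit 152) (XT.nd (nat_lit 156) (nat_lit 0) (nat_lit 76) (XT.nd (nat_lit 78) (nat_lit 0) (nat_lit 76) (XT.lf (nat_lit 1900) (nat_lit 1732905499) (nat_lit 76) (nat_lit 993373976) (nat_lit 0) (nat_lit 993373976) (nat_lit 527) (nat_lit 1) (nat_lit 503) (nat_lit 1) (nat_lit 502) (nat_lit 1) (nat_lit 389) (nat_lit 381) (nat_lit 370)) (XT.lf (nat_lit 1900) (nat_lit 788889814) (nat_lit 0) (nat_lit 2106618105) (nat_lit 1824) (nat_lit 788889814) (nat_lit 528) (nat_lit 1) (nat_lit 503) (nat_lit 1) (nat_lit 527) (nat_lit 1) (nat_lit 390) (nat_lit 381) (nat_lit 369))) (XT.nd (nat_lit 78) (nat_lit 0) (nat_lit 76) (XT.lf (nat_lit 1900) (nat_lit 1411836114) (nat_lit 76) (nat_lit 1118862720) (nat_lit 0) (nat_lit 1118862720) (nat_lit 528) (nat_lit 1) (nat_lit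 504) (nat_lit 1) (nat_lit 503) (nat_lit 1) (nat_lit 391) (nat_lit 381) (nat_lit 368)) (XT.lf (nat_lit 1900) (nat_lit 619898242) (nat_lit 0) (nat_lit 2375428620) (nat_lit 1824) (nat_lit 619898242) (nat_lit 529) (nat_lit 1) (nat_lit 504) (nat_lit 1) (nat_lit 528) (nat_lit 1) (nat_lit 392) (nat_lit 381) (nat_lit 367)))) (XT.nd (nat_lit 156) (nat_lit 0) (nat_lit 76) (XT.nd (nat_lit 78) (nat_lit 0) (nat_lit 76) (XT.lf (nat_lit 1900) (nat_lit 1055502362) (nat_lit 76) (nat_lit 1262876564) (nat_lit 0) (nat_lit 1262876564) (nat_lit 529) (nat_lit 1) (nat_lit 505) (nat_lit 1) (nat_lit 504) (nat_lit 1) (nat_lit 393) (nat_lit 381) (nat_lit 366)) (XT.lf (nat_lit 1900) (nat_lit 433915884) (nat_lit 0) (nat_lit 2679983120) (nat_lit 1824) (nat_lit 433915884) (nat_lit 530) (nat_lit 1) (nat_lit 505) (nat_lit 1) (nat_lit 529) (nat_lit 1) (nat_lit 394) (nat_lit 381) (nat_lit 365))) (XT.nd (nat_lit 78) (nat_lit 0) (nat_lit 76) (XT.lf (nat_lit 1900) (nat_lit 666209521) (nat_lit 76)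 (nat_lit 1424237373) (nat_lit 0) (nat_lit 1424237373) (nat_lit 530) (nat_lit 1) (nat_lit 506) (nat_lit 1) (nat_lit 505) (nat_lit 1) (nat_lit 395) (nat_lit 381) (nat_lit 364)) (XT.nd (nat_lit 78) (nat_lit 0) (nat_lit 0) (XT.lf (nat_lit 1900) (nat_lit 232064334) (nat_lit 0) (nat_lit 3017988090) (nat_lit 1824) (nat_lit 232064334) (nat_lit 531) (nat_lit 1) (nat_lit 506) (nat_lit 1) (nat_lit 530) (nat_lit 1) (nat_lit 396) (nat_lit 381) (nat_lit 363)) (XT.lf (nat_lit 1900) (nat_lit 246155000) (nat_lit 76) (nat_lit 1601821755) (nat_lit 0) (nat_lit 1601821755) (nat_lit 531) (nat_lit 1) (nat_lit 507) (nat_lit 1) (nat_lit 506) (nat_lit 1) (nat_lit 397) (nat_lit 381) (nat_lit 362)))))) (XT.nd (nat_lit 312) (nat_lit 1900) (nat_lit 0) (XT.nd (nat_lit 156) (nat_lit 0) (nat_lit 0) (XT.nd (nat_lit 78) (nat_lit 1900) (nat_lit 0) (XT.lf (nat_lit 1900) (nat_lit 15412579) (nat_lit 0) (nat_lit 3387256829) (nat_lit 1824) (nat_lit 15412579) (nat_lit 532) (nat_lit 1) (nat_lit 507) (nat_lit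 1) (nat_lit 531) (nat_lit 1) (nat_lit 398) (nat_lit 381) (nat_lit 361)) (XT.lf (nat_lit 1976) (nat_lit 1593306848) (nat_lit 0) (nat_lit 199910406) (nat_lit 1900) (nat_lit 1593306848) (nat_lit 508) (nat_lit 1) (nat_lit 482) (nat_lit 1) (nat_lit 507) (nat_lit 1) (nat_lit 399) (nat_lit 381) (nat_lit 360))) (XT.nd (nat_lit 78) (nat_lit 0) (nat_lit 76) (XT.lf (nat_lit 1976) (nat_lit 2928338999) (nat_lit 76) (nat_lit 213606169) (nat_lit 0) (nat_lit 213606169) (nat_lit 508) (nat_lit 1) (nat_lit 483) (nat_lit 1) (nat_lit 482) (nat_lit 1) (nat_lit 400) (nat_lit 381) (nat_lit 359)) (XT.lf (nat_lit 1976) (nat_lit 1327867768) (nat_lit 0) (nat_lit 669070087) (nat_lit 1900) (nat_lit 1327867768) (nat_lit 509) (nat_lit 1) (nat_lit 483) (nat_lit 1) (nat_lit 508) (nat_lit 1) (nat_lit 401) (nat_lit 381) (nat_lit 358)))) (XT.nd (nat_lit 156) (nat_lit 1976) (nat_lit 0) (XT.nd (nat_lit 78) (nat_lit 0) (nat_lit 76) (XT.lf (nat_lit 1976) (nat_lit 2384075465) (nat_lit 76) (nat_lit 455250498)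 (nat_lit 0) (nat_lit 455250498) (nat_lit 509) (nat_lit 1) (nat_lit 484) (nat_lit 1) (nat_lit 483) (nat_lit 1) (nat_lit 402) (nat_lit 381) (nat_lit 357)) (XT.lf (nat_lit 76) (nat_lit 1050976741) (nat_lit 0) (nat_lit 1162676964) (nat_lit 1900) (nat_lit 1050976741) (nat_lit 485) (nat_lit 1) (nat_lit 484) (nat_lit 1) (nat_lit 509) (nat_lit 1) (nat_lit 403) (nat_lit 381) (nat_lit 356))) (XT.nd (nat_lit 78) (nat_lit 912) (nat_lit 0) (XT.lf (nat_lit 1216) (nat_lit 1817714111) (nat_lit 0) (nat_lit 708703756) (nat_lit 1140) (nat_lit 708703756) (nat_lit 485) (nat_lit 1) (nat_lit 469) (nat_lit 1) (nat_lit 484) (nat_lit 1) (nat_lit 404) (nat_lit 381) (nat_lit 355)) (XT.nd (nat_lit 78) (nat_lit 912) (nat_lit 0) (XT.lf (nat_lit 76) (nat_lit 763505110) (nat_lit 0) (nat_lit 1678945149) (nat_lit 1216) (nat_lit 763505110) (nat_lit 470) (nat_lit 1) (nat_lit 469) (nat_lit 1) (nat_lit 485) (nat_lit 1) (nat_lit 405) (nat_lit 381) (nat_lit 354)) (XT.lf (nat_lit 988) (nat_lit 1230960714)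 (nat_lit 0) (nat_lit 973091853) (nat_lit 912) (nat_lit 973091853) (nat_lit 470) (nat_lit 1) (nat_lit 457) (nat_lit 1) (nat_lit 469) (nat_lit 1) (nat_lit 406) (nat_lit 381) (nat_lit 353))))))))
noncomputable def ec19 : XT := (XT.nd (nat_lit 1404) (nat_lit 1444) (nat_lit 0) (XT.nd (nat_lit 702) (nat_lit 3800) (nat_lit 0) (XT.nd (nat_lit 312) (nat_lit 2660) (nat_lit 0) (XT.nd (nat_lit 156) (nat_lit 836) (nat_lit 0) (XT.nd (nat_lit 78) (nat_lit 912) (nat_lit 0) (XT.lf (nat_lit 76) (nat_lit 466282021) (nat_lit 0) (nat_lit 2216174505) (nat_lit 988) (nat_lit 466282021) (nat_lit 458) (nat_lit 1) (nat_lit 457) (nat_lit 1) (nat_lit 470) (nat_lit 1) (nat_lit 407) (nat_lit 381) (nat_lit 352)) (XT.lf (nat_lit 988) (nat_lit 625438189) (nat_lit 0) (nat_lit 1247582789) (nat_lit 912) (nat_lit 1247582789) (nat_lit 458) (nat_lit 1) (nat_lit 445) (nat_lit 1) (nat_lit 457) (nat_lit 1) (nat_lit 408) (nat_lit 381) (nat_lit 351))) (XT.nd (nat_lit 78) (nat_lit 836) (nat_lit 0) (XT.lf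 (nat_lit 76) (nat_lit 160096219) (nat_lit 0) (nat_lit 2772746998) (nat_lit 988) (nat_lit 160096219) (nat_lit 446) (nat_lit 1) (nat_lit 445) (nat_lit 1) (nat_lit 458) (nat_lit 1) (nat_lit 409) (nat_lit 381) (nat_lit 350)) (XT.lf (nat_lit 912) (nat_lit 2690140) (nat_lit 0) (nat_lit 1531384860) (nat_lit 836) (nat_lit 1531384860) (nat_lit 446) (nat_lit 1) (nat_lit 434) (nat_lit 1) (nat_lit 445) (nat_lit 1) (nat_lit 410) (nat_lit 381) (nat_lit 349)))) (XT.nd (nat_lit 156) (nat_lit 1672) (nat_lit 0) (XT.nd (nat_lit 78) (nat_lit 0) (nat_lit 0) (XT.lf (nat_lit 988) (nat_lit 2731864191) (nat_lit 0) (nat_lit 153287072) (nat_lit 912) (nat_lit 153287072) (nat_lit 434) (nat_lit 1) (nat_lit 421) (nat_lit 1) (nat_lit 433) (nat_lit 1) (nat_lit 411) (nat_lit 381) (nat_lit 348)) (XT.lf (nat_lit 76) (nat_lit 1192057325) (nat_lit 0) (nat_lit 627476908) (nat_lit 988) (nat_lit 1192057325) (nat_lit 422) (nat_lit 1) (nat_lit 421) (nat_lit 1) (nat_lit 434) (nat_lit 1) (nat_lit 412) (nat_lit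 381) (nat_lit 347))) (XT.nd (nat_lit 78) (nat_lit 836) (nat_lit 0) (XT.lf (nat_lit 912) (nat_lit 2039055592) (nat_lit 0) (nat_lit 473067327) (nat_lit 836) (nat_lit 473067327) (nat_lit 422) (nat_lit 1) (nat_lit 410) (nat_lit 1) (nat_lit 421) (nat_lit 1) (nat_lit 413) (nat_lit 381) (nat_lit 346)) (XT.nd (nat_lit 78) (nat_lit 836) (nat_lit 0) (XT.lf (nat_lit 76) (nat_lit 843629359) (nat_lit 0) (nat_lit 1271783112) (nat_lit 912) (nat_lit 843629359) (nat_lit 411) (nat_lit 1) (nat_lit 410) (nat_lit 1) (nat_lit 422) (nat_lit 1) (nat_lit 414) (nat_lit 381) (nat_lit 345)) (XT.lf (nat_lit 912) (nat_lit 1333992828) (nat_lit 0) (nat_lit 799624620) (nat_lit 836) (nat_lit 799624620) (nat_lit 411) (nat_lit 1) (nat_lit 399) (nat_lit 1) (nat_lit 410) (nat_lit 1) (nat_lit 415) (nat_lit 381) (nat_lit 344)))))) (XT.nd (nat_lit 312) (nat_lit 2204) (nat_lit 0) (XT.nd (nat_lit 156) (nat_lit 836) (nat_lit 0) (XT.nd (nat_lit 78) (nat_lit 760) (nat_lit 0) (XT.lf (nat_lit 76) (nat_lit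 489409665) (nat_lit 0) (nat_lit 1928955631) (nat_lit 912) (nat_lit 489409665) (nat_lit 400) (nat_lit 1) (nat_lit 399) (nat_lit 1) (nat_lit 411) (nat_lit 1) (nat_lit 416) (nat_lit 381) (nat_lit 343)) (XT.lf (nat_lit 836) (nat_lit 617919521) (nat_lit 0) (nat_lit 1132319427) (nat_lit 760) (nat_lit 1132319427) (nat_lit 400) (nat_lit 1) (nat_lit 389) (nat_lit 1) (nat_lit 399) (nat_lit 1) (nat_lit 417) (nat_lit 381) (nat_lit 342))) (XT.nd (nat_lit 78) (nat_lit 836) (nat_lit 0) (XT.lf (nat_lit 76) (nat_lit 130001998) (nat_lit 0) (nat_lit 2597751998) (nat_lit 836) (nat_lit 130001998) (nat_lit 390) (nat_lit 1) (nat_lit 389) (nat_lit 1) (nat_lit 400) (nat_lit 1) (nat_lit 418) (nat_lit 381) (nat_lit 341)) (XT.lf (nat_lit 76) (nat_lit 1363261492) (nat_lit 0) (nat_lit 106567819) (nat_lit 836) (nat_lit 1363261492) (nat_lit 379) (nat_lit 1) (nat_lit 378) (nat_lit 1) (nat_lit 389) (nat_lit 1) (nat_lit 419) (nat_lit 381) (nat_lit 340)))) (XT.nd (nat_lit 156) (nat_lit 1444) (nat_lit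 0) (XT.nd (nat_lit 78) (nat_lit 0) (nat_lit 0) (XT.lf (nat_lit 836) (nat_lit 2343866777) (nat_lit 0) (nat_lit 232481149) (nat_lit 760) (nat_lit 232481149) (nat_lit 379) (nat_lit 1) (nat_lit 368) (nat_lit 1) (nat_lit 378) (nat_lit 1) (nat_lit 420) (nat_lit 381) (nat_lit 339)) (XT.lf (nat_lit 76) (nat_lit 976595668) (nat_lit 0) (nat_lit 831547371) (nat_lit 836) (nat_lit 976595668) (nat_lit 369) (nat_lit 1) (nat_lit 368) (nat_lit 1) (nat_lit 379) (nat_lit 1) (nat_lit 421) (nat_lit 381) (nat_lit 338))) (XT.nd (nat_lit 78) (nat_lit 684) (nat_lit 0) (XT.lf (nat_lit 836) (nat_lit 1564705492) (nat_lit 0) (nat_lit 598153970) (nat_lit 760) (nat_lit 598153970) (nat_lit 369) (nat_lit 1) (nat_lit 358) (nat_lit 1) (nat_lit 368) (nat_lit 1) (nat_lit 422) (nat_lit 381) (nat_lit 337)) (XT.nd (nat_lit 78) (nat_lit 684) (nat_lit 0) (XT.lf (nat_lit 76) (nat_lit 586737364) (nat_lit 0) (nat_lit 1564075446) (nat_lit 836) (nat_lit 586737364) (nat_lit 359) (nat_lit 1) (nat_lit 358) (nat_lit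 1) (nat_lit 369) (nat_lit 1) (nat_lit 423) (nat_lit 381) (nat_lit 336)) (XT.lf (nat_lit 760) (nat_lit 779625187) (nat_lit 0) (nat_lit 967360015) (nat_lit 684) (nat_lit 967360015) (nat_lit 359) (nat_lit 1) (nat_lit 349) (nat_lit 1) (nat_lit 358) (nat_lit 1) (nat_lit 424) (nat_lit 381) (nat_lit 335))))))) (XT.nd (nat_lit 56004) (nat_lit 0) (nat_lit 12920) (XT.nd (nat_lit 55614) (nat_lit 0) (nat_lit 12692) (XT.nd (nat_lit 156) (nat_lit 684) (nat_lit 0) (XT.nd (nat_lit 78) (nat_lit 760) (nat_lit 0) (XT.lf (nat_lit 76) (nat_lit 194167552) (nat_lit 0) (nat_lit 2303158919) (nat_lit 760) (nat_lit 194167552) (nat_lit 350) (nat_lit 1) (nat_lit 349) (nat_lit 1) (nat_lit 359) (nat_lit 1) (nat_lit 425) (nat_lit 381) (nat_lit 334)) (XT.lf (nat_lit 76) (nat_lit 1329247153) (nat_lit 0) (nat_lit 10298126) (nat_lit 760) (nat_lit 1329247153) (nat_lit 340) (nat_lit 1) (nat_lit 339) (nat_lit 1) (nat_lit 349) (nat_lit 1) (nat_lit 426) (nat_lit 381) (nat_lit 333))) (XT.nd (nat_lit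 55380) (nat_lit 0) (nat_lit 12692) (XT.lf (nat_lit 760) (nat_lit 2247758732) (nat_lit 0) (nat_lit 199338351) (nat_lit 684) (nat_lit 199338351) (nat_lit 340) (nat_lit 1) (nat_lit 330) (nat_lit 1) (nat_lit 339) (nat_lit 1) (nat_lit 427) (nat_lit 381) (nat_lit 332)) (XT.lf (nat_lit 1900) (nat_lit 701755296) (nat_lit 0) (nat_lit 707623602) (nat_lit 1900) (nat_lit 701755296) (nat_lit 522) (nat_lit 1) (nat_lit 497) (nat_lit 0) (nat_lit 522) (nat_lit 0) (nat_lit 376) (nat_lit 382) (nat_lit 382)))) (XT.nd (nat_lit 156) (nat_lit 0) (nat_lit 76) (XT.nd (nat_lit 78) (nat_lit 0) (nat_lit 76) (XT.lf (nat_lit 1900) (nat_lit 2774845950) (nat_lit 76) (nat_lit 702968184) (nat_lit 0) (nat_lit 702968184) (nat_lit 522) (nat_lit 1) (nat_lit 498) (nat_lit 1) (nat_lit 497) (nat_lit 0) (nat_lit 377) (nat_lit 382) (nat_lit 381)) (XT.lf (nat_lit 1900) (nat_lit 1362462570) (nat_lit 0) (nat_lit 1414824237) (nat_lit 1824) (nat_lit 1362462570) (nat_lit 523) (nat_lit 1) (nat_lit 498) (nat_lit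 1) (nat_lit 522) (nat_lit 1) (nat_lit 378) (nat_lit 382) (nat_lit 380))) (XT.nd (nat_lit 78) (nat_lit 0) (nat_lit 76) (XT.lf (nat_lit 1900) (nat_lit 2666675115) (nat_lit 76) (nat_lit 716331688) (nat_lit 0) (nat_lit 716331688) (nat_lit 523) (nat_lit 1) (nat_lit 499) (nat_lit 1) (nat_lit 498) (nat_lit 1) (nat_lit 379) (nat_lit 382) (nat_lit 379)) (XT.nd (nat_lit 78) (nat_lit 0) (nat_lit 0) (XT.lf (nat_lit 1900) (nat_lit 1295953573) (nat_lit 0) (nat_lit 1467466554) (nat_lit 1824) (nat_lit 1295953573) (nat_lit 524) (nat_lit 1) (nat_lit 499) (nat_lit 1) (nat_lit 523) (nat_lit 1) (nat_lit 380) (nat_lit 382) (nat_lit 378)) (XT.lf (nat_lit 1900) (nat_lit 2508950832) (nat_lit 76) (nat_lit 755526199) (nat_lit 0) (nat_lit 755526199) (nat_lit 524) (nat_lit 1) (nat_lit 500) (nat_lit 1) (nat_lit 499) (nat_lit 1) (nat_lit 381) (nat_lit 382) (nat_lit 377)))))) (XT.nd (nat_lit 312) (nat_lit 0) (nat_lit 152) (XT.nd (nat_lit 156) (nat_lit 0) (nat_lit 76) (XT.nd (nat_lit 78) (nat_lit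 0) (nat_lit 0) (XT.lf (nat_lit 1900) (nat_lit 1205502772) (nat_lit 0) (nat_lit 1570073393) (nat_lit 1824) (nat_lit 1205502772) (nat_lit 525) (nat_lit 1) (nat_lit 500) (nat_lit 1) (nat_lit 524) (nat_lit 1) (nat_lit 382) (nat_lit 382) (nat_lit 376)) (XT.lf (nat_lit 1900) (nat_lit 2304651321) (nat_lit 76) (nat_lit 819032002) (nat_lit 0) (nat_lit 819032002) (nat_lit 525) (nat_lit 1) (nat_lit 501) (nat_lit 1) (nat_lit 500) (nat_lit 1) (nat_lit 383) (nat_lit 382) (nat_lit 375))) (XT.nd (nat_lit 78) (nat_lit 0) (nat_lit 0) (XT.lf (nat_lit 1900) (nat_lit 1092559942) (nat_lit 0) (nat_lit 1719684792) (nat_lit 1824) (nat_lit 1092559942) (nat_lit 526) (nat_lit 1) (nat_lit 501) (nat_lit 1) (nat_lit 525) (nat_lit 1) (nat_lit 384) (nat_lit 382) (nat_lit 374)) (XT.lf (nat_lit 1900) (nat_lit 2056618484) (nat_lit 76) (nat_lit 905398525) (nat_lit 0) (nat_lit 905398525) (nat_lit 526) (nat_lit 1) (nat_lit 502) (nat_lit 1) (nat_lit 501) (nat_lit 1) (nat_lit 385) (nat_lit 382) (nat_lit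 373)))) (XT.nd (nat_lit 156) (nat_lit 0) (nat_lit 76) (XT.nd (nat_lit 78) (nat_lit 0) (nat_lit 0) (XT.lf (nat_lit 1900) (nat_lit 958508365) (nat_lit 0) (nat_lit 1913475725) (nat_lit 1824) (nat_lit 958508365) (nat_lit 527) (nat_lit 1) (nat_lit 502) (nat_lit 1) (nat_lit 526) (nat_lit 1) (nat_lit 386) (nat_lit 382) (nat_lit 372)) (XT.lf (nat_lit 1900) (nat_lit 1767563609) (nat_lit 76) (nat_lit 1013241456) (nat_lit 0) (nat_lit 1013241456) (nat_lit 527) (nat_lit 1) (nat_lit 503) (nat_lit 1) (nat_lit 502) (nat_lit 1) (nat_lit 387) (nat_lit 382) (nat_lit 371))) (XT.nd (nat_lit 78) (nat_lit 0) (nat_lit 0) (XT.lf (nat_lit 1900) (nat_lit 804667611) (nat_lit 0) (nat_lit 2148750467) (nat_lit 1824) (nat_lit 804667611) (nat_lit 528) (nat_lit 1) (nat_lit 503) (nat_lit 1) (nat_lit 527) (nat_lit 1) (nat_lit 388) (nat_lit 382) (nat_lit 370)) (XT.nd (nat_lit 78) (nat_lit 0) (nat_lit 76) (XT.lf (nat_lit 1900) (nat_lit 1440072836) (nat_lit 76) (nat_lit 1141239974) (nat_lit 0) (nat_lit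 1141239974) (nat_lit 528) (nat_lit 1) (nat_lit 504) (nat_lit 1) (nat_lit 503) (nat_lit 1) (nat_lit 389) (nat_lit 382) (nat_lit 369)) (XT.lf (nat_lit 1900) (nat_lit 632296207) (nat_lit 0) (nat_lit 2422937192) (nat_lit 1824) (nat_lit 632296207) (nat_lit 529) (nat_lit 1) (nat_lit 504) (nat_lit 1) (nat_lit 528) (nat_lit 1) (nat_lit 390) (nat_lit 382) (nat_lit 368))))))))
noncomputable def ec20 : XT := (XT.nd (nat_lit 1404) (nat_lit 7904) (nat_lit 0) (XT.nd (nat_lit 702) (nat_lit 3648) (nat_lit 0) (XT.nd (nat_lit 312) (nat_lit 1672) (nat_lit 0) (XT.nd (nat_lit 156) (nat_lit 0) (nat_lit 76) (XT.nd (nat_lit 78) (nat_lit 0) (nat_lit 76) (XT.lf (nat_lit 1900) (nat_lit 1076612409) (nat_lit 76) (nat_lit 1288134095) (nat_lit 0) (nat_lit 1288134095) (nat_lit 529) (nat_lit 1) (nat_lit 505) (nat_lit 1) (nat_lit 504) (nat_lit 1) (nat_lit 391) (nat_lit 382) (nat_lit 367)) (XT.lf (nat_lit 1900) (nat_lit 442594201) (nat_lit 0) (nat_lit 2733582783) (nat_lit 1824) (nat_lit 442594201)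 (nat_lit 530) (nat_lit 1) (nat_lit 505) (nat_lit 1) (nat_lit 529) (nat_lit 1) (nat_lit 392) (nat_lit 382) (nat_lit 366))) (XT.nd (nat_lit 78) (nat_lit 0) (nat_lit 76) (XT.lf (nat_lit 1900) (nat_lit 679533711) (nat_lit 76) (nat_lit 1452722121) (nat_lit 0) (nat_lit 1452722121) (nat_lit 530) (nat_lit 1) (nat_lit 506) (nat_lit 1) (nat_lit 505) (nat_lit 1) (nat_lit 393) (nat_lit 382) (nat_lit 365)) (XT.lf (nat_lit 1900) (nat_lit 236705620) (nat_lit 0) (nat_lit 3078347852) (nat_lit 1824) (nat_lit 236705620) (nat_lit 531) (nat_lit 1) (nat_lit 506) (nat_lit 1) (nat_lit 530) (nat_lit 1) (nat_lit 394) (nat_lit 382) (nat_lit 364)))) (XT.nd (nat_lit 156) (nat_lit 1824) (nat_lit 0) (XT.nd (nat_lit 78) (nat_lit 0) (nat_lit 76) (XT.lf (nat_lit 1900) (nat_lit 251078100) (nat_lit 76) (nat_lit 1633858190) (nat_lit 0) (nat_lit 1633858190) (nat_lit 531) (nat_lit 1) (nat_lit 507) (nat_lit 1) (nat_lit 506) (nat_lit 1) (nat_lit 395) (nat_lit 382) (nat_lit 363)) (XT.lf (nat_lit 1900)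 (nat_lit 15720831) (nat_lit 0) (nat_lit 3455001965) (nat_lit 1824) (nat_lit 15720831) (nat_lit 532) (nat_lit 1) (nat_lit 507) (nat_lit 1) (nat_lit 531) (nat_lit 1) (nat_lit 396) (nat_lit 382) (nat_lit 362))) (XT.nd (nat_lit 78) (nat_lit 0) (nat_lit 0) (XT.lf (nat_lit 1976) (nat_lit 1625172985) (nat_lit 0) (nat_lit 203908615) (nat_lit 1900) (nat_lit 1625172985) (nat_lit 508) (nat_lit 1) (nat_lit 482) (nat_lit 1) (nat_lit 507) (nat_lit 1) (nat_lit 397) (nat_lit 382) (nat_lit 361)) (XT.nd (nat_lit 78) (nat_lit 0) (nat_lit 76) (XT.lf (nat_lit 1976) (nat_lit 2986905779) (nat_lit 76) (nat_lit 217878292) (nat_lit 0) (nat_lit 217878292) (nat_lit 508) (nat_lit 1) (nat_lit 483) (nat_lit 1) (nat_lit 482) (nat_lit 1) (nat_lit 398) (nat_lit 382) (nat_lit 360)) (XT.lf (nat_lit 1976) (nat_lit 1354425124) (nat_lit 0) (nat_lit 682451489) (nat_lit 1900) (nat_lit 1354425124) (nat_lit 509) (nat_lit 1) (nat_lit 483) (nat_lit 1) (nat_lit 508) (nat_lit 1) (nat_lit 399) (nat_lit 382)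 (nat_lit 359)))))) (XT.nd (nat_lit 312) (nat_lit 2660) (nat_lit 0) (XT.nd (nat_lit 156) (nat_lit 1064) (nat_lit 0) (XT.nd (nat_lit 78) (nat_lit 0) (nat_lit 76) (XT.lf (nat_lit 1976) (nat_lit 2431756975) (nat_lit 76) (nat_lit 464355507) (nat_lit 0) (nat_lit 464355507) (nat_lit 509) (nat_lit 1) (nat_lit 484) (nat_lit 1) (nat_lit 483) (nat_lit 1) (nat_lit 400) (nat_lit 382) (nat_lit 358)) (XT.lf (nat_lit 76) (nat_lit 1071996275) (nat_lit 0) (nat_lit 1185930503) (nat_lit 1900) (nat_lit 1071996275) (nat_lit 485) (nat_lit 1) (nat_lit 484) (nat_lit 1) (nat_lit 509) (nat_lit 1) (nat_lit 401) (nat_lit 382) (nat_lit 357))) (XT.nd (nat_lit 78) (nat_lit 0) (nat_lit 0) (XT.lf (nat_lit 1216) (nat_lit 1854068394) (nat_lit 0) (nat_lit 722877831) (nat_lit 1140) (nat_lit 722877831) (nat_lit 485) (nat_lit 1) (nat_lit 469) (nat_lit 1) (nat_lit 484) (nat_lit 1) (nat_lit 402) (nat_lit 382) (nat_lit 356)) (XT.lf (nat_lit 76) (nat_lit 778775212) (nat_lit 0) (nat_lit 1712524051) (nat_lit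 1216) (nat_lit 778775212) (nat_lit 470) (nat_lit 1) (nat_lit 469) (nat_lit 1) (nat_lit 485) (nat_lit 1) (nat_lit 403) (nat_lit 382) (nat_lit 355)))) (XT.nd (nat_lit 156) (nat_lit 1748) (nat_lit 0) (XT.nd (nat_lit 78) (nat_lit 0) (nat_lit 0) (XT.lf (nat_lit 988) (nat_lit 1255579928) (nat_lit 0) (nat_lit 992553690) (nat_lit 912) (nat_lit 992553690) (nat_lit 470) (nat_lit 1) (nat_lit 457) (nat_lit 1) (nat_lit 469) (nat_lit 1) (nat_lit 404) (nat_lit 382) (nat_lit 354)) (XT.lf (nat_lit 76) (nat_lit 475607661) (nat_lit 0) (nat_lit 2260497995) (nat_lit 988) (nat_lit 475607661) (nat_lit 458) (nat_lit 1) (nat_lit 457) (nat_lit 1) (nat_lit 470) (nat_lit 1) (nat_lit 405) (nat_lit 382) (nat_lit 353))) (XT.nd (nat_lit 78) (nat_lit 836) (nat_lit 0) (XT.lf (nat_lit 988) (nat_lit 637946953) (nat_lit 0) (nat_lit 1272534445) (nat_lit 912) (nat_lit 1272534445) (nat_lit 458) (nat_lit 1) (nat_lit 445) (nat_lit 1) (nat_lit 457) (nat_lit 1) (nat_lit 406) (nat_lit 382) (nat_lit 352))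 (XT.nd (nat_lit 78) (nat_lit 836) (nat_lit 0) (XT.lf (nat_lit 76) (nat_lit 163298143) (nat_lit 0) (nat_lit 2828201938) (nat_lit 988) (nat_lit 163298143) (nat_lit 446) (nat_lit 1) (nat_lit 445) (nat_lit 1) (nat_lit 458) (nat_lit 1) (nat_lit 407) (nat_lit 382) (nat_lit 351)) (XT.lf (nat_lit 912) (nat_lit 2743943) (nat_lit 0) (nat_lit 1562012557) (nat_lit 836) (nat_lit 1562012557) (nat_lit 446) (nat_lit 1) (nat_lit 434) (nat_lit 1) (nat_lit 445) (nat_lit 1) (nat_lit 408) (nat_lit 382) (nat_lit 350))))))) (XT.nd (nat_lit 702) (nat_lit 3648) (nat_lit 0) (XT.nd (nat_lit 312) (nat_lit 2432) (nat_lit 0) (XT.nd (nat_lit 156) (nat_lit 836) (nat_lit 0) (XT.nd (nat_lit 78) (nat_lit 0) (nat_lit 0) (XT.lf (nat_lit 988) (nat_lit 2786501474) (nat_lit 0) (nat_lit 156352813) (nat_lit 912) (nat_lit 156352813) (nat_lit 434) (nat_lit 1) (nat_lit 421) (nat_lit 1) (nat_lit 433) (nat_lit 1) (nat_lit 409) (nat_lit 382) (nat_lit 349)) (XT.lf (nat_lit 76) (nat_lit 1215898472) (nat_lit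 0) (nat_lit 640026446) (nat_lit 988) (nat_lit 1215898472) (nat_lit 422) (nat_lit 1) (nat_lit 421) (nat_lit 1) (nat_lit 434) (nat_lit 1) (nat_lit 410) (nat_lit 382) (nat_lit 348))) (XT.nd (nat_lit 78) (nat_lit 0) (nat_lit 0) (XT.lf (nat_lit 912) (nat_lit 2079836704) (nat_lit 0) (nat_lit 482528674) (nat_lit 836) (nat_lit 482528674) (nat_lit 422) (nat_lit 1) (nat_lit 410) (nat_lit 1) (nat_lit 421) (nat_lit 1) (nat_lit 411) (nat_lit 382) (nat_lit 347)) (XT.lf (nat_lit 76) (nat_lit 860501946) (nat_lit 0) (nat_lit 1297218774) (nat_lit 912) (nat_lit 860501946) (nat_lit 411) (nat_lit 1) (nat_lit 410) (nat_lit 1) (nat_lit 422) (nat_lit 1) (nat_lit 412) (nat_lit 382) (nat_lit 346)))) (XT.nd (nat_lit 156) (nat_lit 1596) (nat_lit 0) (XT.nd (nat_lit 78) (nat_lit 0) (nat_lit 0) (XT.lf (nat_lit 912) (nat_lit 1360672684) (nat_lit 0) (nat_lit 815617112) (nat_lit 836) (nat_lit 815617112) (nat_lit 411) (nat_lit 1) (nat_lit 399) (nat_lit 1) (nat_lit 410) (nat_lit 1) (nat_lit 413)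 (nat_lit 382) (nat_lit 345)) (XT.lf (nat_lit 76) (nat_lit 499197858) (nat_lit 0) (nat_lit 1967534744) (nat_lit 912) (nat_lit 499197858) (nat_lit 400) (nat_lit 1) (nat_lit 399) (nat_lit 1) (nat_lit 411) (nat_lit 1) (nat_lit 414) (nat_lit 382) (nat_lit 344))) (XT.nd (nat_lit 78) (nat_lit 836) (nat_lit 0) (XT.lf (nat_lit 836) (nat_lit 630277911) (nat_lit 0) (nat_lit 1154965816) (nat_lit 760) (nat_lit 1154965816) (nat_lit 400) (nat_lit 1) (nat_lit 389) (nat_lit 1) (nat_lit 399) (nat_lit 1) (nat_lit 415) (nat_lit 382) (nat_lit 343)) (XT.nd (nat_lit 78) (nat_lit 836) (nat_lit 0) (XT.lf (nat_lit 76) (nat_lit 132602038) (nat_lit 0) (nat_lit 2649707037) (nat_lit 836) (nat_lit 132602038) (nat_lit 390) (nat_lit 1) (nat_lit 389) (nat_lit 1) (nat_lit 400) (nat_lit 1) (nat_lit 416) (nat_lit 382) (nat_lit 342)) (XT.lf (nat_lit 76) (nat_lit 1390526722) (nat_lit 0) (nat_lit 108699176) (nat_lit 836) (nat_lit 1390526722) (nat_lit 379) (nat_lit 1) (nat_lit 378) (nat_lit 1) (nat_lit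 389) (nat_lit 1) (nat_lit 417) (nat_lit 382) (nat_lit 341)))))) (XT.nd (nat_lit 312) (nat_lit 2128) (nat_lit 0) (XT.nd (nat_lit 156) (nat_lit 760) (nat_lit 0) (XT.nd (nat_lit 78) (nat_lit 0) (nat_lit 0) (XT.lf (nat_lit 836) (nat_lit 2390744113) (nat_lit 0) (nat_lit 237130772) (nat_lit 760) (nat_lit 237130772) (nat_lit 379) (nat_lit 1) (nat_lit 368) (nat_lit 1) (nat_lit 378) (nat_lit 1) (nat_lit 418) (nat_lit 382) (nat_lit 340)) (XT.lf (nat_lit 76) (nat_lit 996127581) (nat_lit 0) (nat_lit 848178319) (nat_lit 836) (nat_lit 996127581) (nat_lit 369) (nat_lit 1) (nat_lit 368) (nat_lit 1) (nat_lit 379) (nat_lit 1) (nat_lit 419) (nat_lit 382) (nat_lit 339))) (XT.nd (nat_lit 78) (nat_lit 0) (nat_lit 0) (XT.lf (nat_lit 836) (nat_lit 1595999602) (nat_lit 0) (nat_lit 610117049) (nat_lit 760) (nat_lit 610117049) (nat_lit 369) (nat_lit 1) (nat_lit 358) (nat_lit 1) (nat_lit 368) (nat_lit 1) (nat_lit 420) (nat_lit 382) (nat_lit 338)) (XT.lf (nat_lit 76) (nat_lit 598472112)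 (nat_lit 0) (nat_lit 1595356955) (nat_lit 836) (nat_lit 598472112) (nat_lit 359) (nat_lit 1) (nat_lit 358) (nat_lit 1) (nat_lit 369) (nat_lit 1) (nat_lit 421) (nat_lit 382) (nat_lit 337)))) (XT.nd (nat_lit 156) (nat_lit 1444) (nat_lit 0) (XT.nd (nat_lit 78) (nat_lit 0) (nat_lit 0) (XT.lf (nat_lit 760) (nat_lit 795217691) (nat_lit 0) (nat_lit 986707216) (nat_lit 684) (nat_lit 986707216) (nat_lit 359) (nat_lit 1) (nat_lit 349) (nat_lit 1) (nat_lit 358) (nat_lit 1) (nat_lit 422) (nat_lit 382) (nat_lit 336)) (XT.lf (nat_lit 76) (nat_lit 198050903) (nat_lit 0) (nat_lit 2349222097) (nat_lit 760) (nat_lit 198050903) (nat_lit 350) (nat_lit 1) (nat_lit 349) (nat_lit 1) (nat_lit 359) (nat_lit 1) (nat_lit 423) (nat_lit 382) (nat_lit 335))) (XT.nd (nat_lit 78) (nat_lit 684) (nat_lit 0) (XT.lf (nat_lit 76) (nat_lit 1355832096) (nat_lit 0) (nat_lit 10504089) (nat_lit 760) (nat_lit 1355832096) (nat_lit 340) (nat_lit 1) (nat_lit 339) (nat_lit 1) (nat_lit 349) (nat_lit 1) (nat_lit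 424) (nat_lit 382) (nat_lit 334)) (XT.nd (nat_lit 78) (nat_lit 0) (nat_lit 0) (XT.lf (nat_lit 760) (nat_lit 2292713907) (nat_lit 0) (nat_lit 203325118) (nat_lit 684) (nat_lit 203325118) (nat_lit 340) (nat_lit 1) (nat_lit 330) (nat_lit 1) (nat_lit 339) (nat_lit 1) (nat_lit 425) (nat_lit 382) (nat_lit 333)) (XT.lf (nat_lit 76) (nat_lit 933397398) (nat_lit 0) (nat_lit 809914631) (nat_lit 760) (nat_lit 933397398) (nat_lit 331) (nat_lit 1) (nat_lit 330) (nat_lit 1) (nat_lit 340) (nat_lit 1) (nat_lit 426) (nat_lit 382) (nat_lit 332))))))))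
noncomputable def ec21 : XT := (XT.nd (nat_lit 56550) (nat_lit 0) (nat_lit 7600) (XT.nd (nat_lit 55848) (nat_lit 0) (nat_lit 13680) (XT.nd (nat_lit 55458) (nat_lit 0) (nat_lit 13452) (XT.nd (nat_lit 55302) (nat_lit 0) (nat_lit 13376) (XT.nd (nat_lit 55224) (nat_lit 0) (nat_lit 13376) (XT.lf (nat_lit 760) (nat_lit 1443898656) (nat_lit 0) (nat_lit 605247894) (nat_lit 684) (nat_lit 605247894) (nat_lit 331) (nat_lit 1) (nat_lit 321) (nat_lit 1) (nat_lit 330) (nat_lit 1) (nat_lit 427) (nat_lit 382) (nat_lit 331)) (XT.lf (nat_lit 1900) (nat_lit 715790402) (nat_lit 0) (nat_lit 721776074) (nat_lit 1900) (nat_lit 715790402) (nat_lit 522) (nat_lit 1) (nat_lit 497) (nat_lit 0) (nat_lit 522) (nat_lit 0) (nat_lit 374) (nat_lit 383) (nat_lit 383))) (XT.nd (nat_lit 78) (nat_lit 0) (nat_lit 76) (XT.lf (nat_lit 1900) (nat_lit 2830342869) (nat_lit 76) (nat_lit 717027547) (nat_lit 0) (nat_lit 717027547) (nat_lit 522) (nat_lit 1) (nat_lit 498) (nat_lit 1) (nat_lit 497) (nat_lit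 0) (nat_lit 375) (nat_lit 383) (nat_lit 382)) (XT.lf (nat_lit 1900) (nat_lit 1389711821) (nat_lit 0) (nat_lit 1443120721) (nat_lit 1824) (nat_lit 1389711821) (nat_lit 523) (nat_lit 1) (nat_lit 498) (nat_lit 1) (nat_lit 522) (nat_lit 1) (nat_lit 376) (nat_lit 383) (nat_lit 381)))) (XT.nd (nat_lit 156) (nat_lit 0) (nat_lit 76) (XT.nd (nat_lit 78) (nat_lit 0) (nat_lit 76) (XT.lf (nat_lit 1900) (nat_lit 2720008617) (nat_lit 76) (nat_lit 730658322) (nat_lit 0) (nat_lit 730658322) (nat_lit 523) (nat_lit 1) (nat_lit 499) (nat_lit 1) (nat_lit 498) (nat_lit 1) (nat_lit 377) (nat_lit 383) (nat_lit 380)) (XT.lf (nat_lit 1900) (nat_lit 1321872645) (nat_lit 0) (nat_lit 1496815885) (nat_lit 1824) (nat_lit 1321872645) (nat_lit 524) (nat_lit 1) (nat_lit 499) (nat_lit 1) (nat_lit 523) (nat_lit 1) (nat_lit 378) (nat_lit 383) (nat_lit 379))) (XT.nd (nat_lit 78) (nat_lit 0) (nat_lit 76) (XT.lf (nat_lit 1900) (nat_lit 2559129849) (nat_lit 76) (nat_lit 770636723) (nat_lit 0) (nat_lit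 770636723) (nat_lit 524) (nat_lit 1) (nat_lit 500) (nat_lit 1) (nat_lit 499) (nat_lit 1) (nat_lit 379) (nat_lit 383) (nat_lit 378)) (XT.nd (nat_lit 78) (nat_lit 0) (nat_lit 0) (XT.lf (nat_lit 1900) (nat_lit 1229612827) (nat_lit 0) (nat_lit 1601474861) (nat_lit 1824) (nat_lit 1229612827) (nat_lit 525) (nat_lit 1) (nat_lit 500) (nat_lit 1) (nat_lit 524) (nat_lit 1) (nat_lit 380) (nat_lit 383) (nat_lit 377)) (XT.lf (nat_lit 1900) (nat_lit 2350744348) (nat_lit 76) (nat_lit 835412642) (nat_lit 0) (nat_lit 835412642) (nat_lit 525) (nat_lit 1) (nat_lit 501) (nat_lit 1) (nat_lit 500) (nat_lit 1) (nat_lit 381) (nat_lit 383) (nat_lit 376)))))) (XT.nd (nat_lit 312) (nat_lit 0) (nat_lit 152) (XT.nd (nat_lit 156) (nat_lit 0) (nat_lit 76) (XT.nd (nat_lit 78) (nat_lit 0) (nat_lit 0) (XT.lf (nat_lit 1900) (nat_lit 1114411140) (nat_lit 0) (nat_lit 1754078488) (nat_lit 1824) (nat_lit 1114411140) (nat_lit 526) (nat_lit 1) (nat_lit 501) (nat_lit 1) (nat_lit 525) (nat_lit 1) (nat_lit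 382) (nat_lit 383) (nat_lit 375)) (XT.lf (nat_lit 1900) (nat_lit 2097750854) (nat_lit 76) (nat_lit 923506496) (nat_lit 0) (nat_lit 923506496) (nat_lit 526) (nat_lit 1) (nat_lit 502) (nat_lit 1) (nat_lit 501) (nat_lit 1) (nat_lit 383) (nat_lit 383) (nat_lit 374))) (XT.nd (nat_lit 78) (nat_lit 0) (nat_lit 0) (XT.lf (nat_lit 1900) (nat_lit 977678532) (nat_lit 0) (nat_lit 1951745240) (nat_lit 1824) (nat_lit 977678532) (nat_lit 527) (nat_lit 1) (nat_lit 502) (nat_lit 1) (nat_lit 526) (nat_lit 1) (nat_lit 384) (nat_lit 383) (nat_lit 373)) (XT.lf (nat_lit 1900) (nat_lit 1802914881) (nat_lit 76) (nat_lit 1033506285) (nat_lit 0) (nat_lit 1033506285) (nat_lit 527) (nat_lit 1) (nat_lit 503) (nat_lit 1) (nat_lit 502) (nat_lit 1) (nat_lit 385) (nat_lit 383) (nat_lit 372)))) (XT.nd (nat_lit 156) (nat_lit 0) (nat_lit 76) (XT.nd (nat_lit 78) (nat_lit 0) (nat_lit 0) (XT.lf (nat_lit 1900) (nat_lit 820760963) (nat_lit 0) (nat_lit 2191725477) (nat_lit 1824) (nat_lit 820760963) (nat_lit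 528) (nat_lit 1) (nat_lit 503) (nat_lit 1) (nat_lit 527) (nat_lit 1) (nat_lit 386) (nat_lit 383) (nat_lit 371)) (XT.lf (nat_lit 1900) (nat_lit 1468874293) (nat_lit 76) (nat_lit 1164064774) (nat_lit 0) (nat_lit 1164064774) (nat_lit 528) (nat_lit 1) (nat_lit 504) (nat_lit 1) (nat_lit 503) (nat_lit 1) (nat_lit 387) (nat_lit 383) (nat_lit 370))) (XT.nd (nat_lit 78) (nat_lit 0) (nat_lit 0) (XT.lf (nat_lit 1900) (nat_lit 644942131) (nat_lit 0) (nat_lit 2471395936) (nat_lit 1824) (nat_lit 644942131) (nat_lit 529) (nat_lit 1) (nat_lit 504) (nat_lit 1) (nat_lit 528) (nat_lit 1) (nat_lit 388) (nat_lit 383) (nat_lit 369)) (XT.nd (nat_lit 78) (nat_lit 0) (nat_lit 76) (XT.lf (nat_lit 1900) (nat_lit 1098144658) (nat_lit 76) (nat_lit 1313896777) (nat_lit 0) (nat_lit 1313896777) (nat_lit 529) (nat_lit 1) (nat_lit 505) (nat_lit 1) (nat_lit 504) (nat_lit 1) (nat_lit 389) (nat_lit 383) (nat_lit 368)) (XT.lf (nat_lit 1900) (nat_lit 451446085) (nat_lit 0) (nat_lit 2788254438) (nat_lit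 1824) (nat_lit 451446085) (nat_lit 530) (nat_lit 1) (nat_lit 505) (nat_lit 1) (nat_lit 529) (nat_lit 1) (nat_lit 390) (nat_lit 383) (nat_lit 367))))))) (XT.nd (nat_lit 702) (nat_lit 4636) (nat_lit 0) (XT.nd (nat_lit 312) (nat_lit 1748) (nat_lit 0) (XT.nd (nat_lit 156) (nat_lit 0) (nat_lit 76) (XT.nd (nat_lit 78) (nat_lit 0) (nat_lit 76) (XT.lf (nat_lit 1900) (nat_lit 693124385) (nat_lit 76) (nat_lit 1481776563) (nat_lit 0) (nat_lit 1481776563) (nat_lit 530) (nat_lit 1) (nat_lit 506) (nat_lit 1) (nat_lit 505) (nat_lit 1) (nat_lit 391) (nat_lit 383) (nat_lit 366)) (XT.lf (nat_lit 1900) (nat_lit 241439733) (nat_lit 0) (nat_lit 3139914809) (nat_lit 1824) (nat_lit 241439733) (nat_lit 531) (nat_lit 1) (nat_lit 506) (nat_lit 1) (nat_lit 530) (nat_lit 1) (nat_lit 392) (nat_lit 383) (nat_lit 365))) (XT.nd (nat_lit 78) (nat_lit 0) (nat_lit 76) (XT.lf (nat_lit 1900) (nat_lit 256099662) (nat_lit 76) (nat_lit 1666535354) (nat_lit 0) (nat_lit 1666535354) (nat_lit 531) (nat_lit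 1) (nat_lit 507) (nat_lit 1) (nat_lit 506) (nat_lit 1) (nat_lit 393) (nat_lit 383) (nat_lit 364)) (XT.lf (nat_lit 1900) (nat_lit 16035248) (nat_lit 0) (nat_lit 3524102005) (nat_lit 1824) (nat_lit 16035248) (nat_lit 532) (nat_lit 1) (nat_lit 507) (nat_lit 1) (nat_lit 531) (nat_lit 1) (nat_lit 394) (nat_lit 383) (nat_lit 363)))) (XT.nd (nat_lit 156) (nat_lit 0) (nat_lit 76) (XT.nd (nat_lit 78) (nat_lit 0) (nat_lit 0) (XT.lf (nat_lit 1976) (nat_lit 1657676445) (nat_lit 0) (nat_lit 207986787) (nat_lit 1900) (nat_lit 1657676445) (nat_lit 508) (nat_lit 1) (nat_lit 482) (nat_lit 1) (nat_lit 507) (nat_lit 1) (nat_lit 395) (nat_lit 383) (nat_lit 362)) (XT.lf (nat_lit 1976) (nat_lit 3046643894) (nat_lit 76) (nat_lit 222235858) (nat_lit 0) (nat_lit 222235858) (nat_lit 508) (nat_lit 1) (nat_lit 483) (nat_lit 1) (nat_lit 482) (nat_lit 1) (nat_lit 396) (nat_lit 383) (nat_lit 361))) (XT.nd (nat_lit 78) (nat_lit 0) (nat_lit 0) (XT.lf (nat_lit 1976) (nat_lit 1381513626) (nat_lit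 0) (nat_lit 696100519) (nat_lit 1900) (nat_lit 1381513626) (nat_lit 509) (nat_lit 1) (nat_lit 483) (nat_lit 1) (nat_lit 508) (nat_lit 1) (nat_lit 397) (nat_lit 383) (nat_lit 360)) (XT.nd (nat_lit 78) (nat_lit 0) (nat_lit 76) (XT.lf (nat_lit 1976) (nat_lit 2480392114) (nat_lit 76) (nat_lit 473642618) (nat_lit 0) (nat_lit 473642618) (nat_lit 509) (nat_lit 1) (nat_lit 484) (nat_lit 1) (nat_lit 483) (nat_lit 1) (nat_lit 398) (nat_lit 383) (nat_lit 359)) (XT.lf (nat_lit 76) (nat_lit 1093436201) (nat_lit 0) (nat_lit 1209649113) (nat_lit 1900) (nat_lit 1093436201) (nat_lit 485) (nat_lit 1) (nat_lit 484) (nat_lit 1) (nat_lit 509) (nat_lit 1) (nat_lit 399) (nat_lit 383) (nat_lit 358)))))) (XT.nd (nat_lit 312) (nat_lit 2736) (nat_lit 0) (XT.nd (nat_lit 156) (nat_lit 912) (nat_lit 0) (XT.nd (nat_lit 78) (nat_lit 0) (nat_lit 0) (XT.lf (nat_lit 1216) (nat_lit 1891149762) (nat_lit 0) (nat_lit 737335387) (nat_lit 1140) (nat_lit 737335387) (nat_lit 485) (nat_lit 1) (nat_lit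 469) (nat_lit 1) (nat_lit 484) (nat_lit 1) (nat_lit 400) (nat_lit 383) (nat_lit 357)) (XT.lf (nat_lit 76) (nat_lit 794350716) (nat_lit 0) (nat_lit 1746774533) (nat_lit 1216) (nat_lit 794350716) (nat_lit 470) (nat_lit 1) (nat_lit 469) (nat_lit 1) (nat_lit 485) (nat_lit 1) (nat_lit 401) (nat_lit 383) (nat_lit 356))) (XT.nd (nat_lit 78) (nat_lit 0) (nat_lit 0) (XT.lf (nat_lit 988) (nat_lit 1280691526) (nat_lit 0) (nat_lit 1012404764) (nat_lit 912) (nat_lit 1012404764) (nat_lit 470) (nat_lit 1) (nat_lit 457) (nat_lit 1) (nat_lit 469) (nat_lit 1) (nat_lit 402) (nat_lit 383) (nat_lit 355)) (XT.lf (nat_lit 76) (nat_lit 485119814) (nat_lit 0) (nat_lit 2305707955) (nat_lit 988) (nat_lit 485119814) (nat_lit 458) (nat_lit 1) (nat_lit 457) (nat_lit 1) (nat_lit 470) (nat_lit 1) (nat_lit 403) (nat_lit 383) (nat_lit 354)))) (XT.nd (nat_lit 156) (nat_lit 1824) (nat_lit 0) (XT.nd (nat_lit 78) (nat_lit 0) (nat_lit 0) (XT.lf (nat_lit 988) (nat_lit 650705892) (nat_lit 0) (nat_lit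 1297985134) (nat_lit 912) (nat_lit 1297985134) (nat_lit 458) (nat_lit 1) (nat_lit 445) (nat_lit 1) (nat_lit 457) (nat_lit 1) (nat_lit 404) (nat_lit 383) (nat_lit 353)) (XT.lf (nat_lit 76) (nat_lit 166564106) (nat_lit 0) (nat_lit 2884765977) (nat_lit 988) (nat_lit 166564106) (nat_lit 446) (nat_lit 1) (nat_lit 445) (nat_lit 1) (nat_lit 458) (nat_lit 1) (nat_lit 405) (nat_lit 383) (nat_lit 352))) (XT.nd (nat_lit 78) (nat_lit 988) (nat_lit 0) (XT.lf (nat_lit 912) (nat_lit 2798822) (nat_lit 0) (nat_lit 1593252808) (nat_lit 836) (nat_lit 1593252808) (nat_lit 446) (nat_lit 1) (nat_lit 434) (nat_lit 1) (nat_lit 445) (nat_lit 1) (nat_lit 406) (nat_lit 383) (nat_lit 351)) (XT.nd (nat_lit 78) (nat_lit 0) (nat_lit 0) (XT.lf (nat_lit 988) (nat_lit 2842231504) (nat_lit 0) (nat_lit 159479870) (nat_lit 912) (nat_lit 159479870) (nat_lit 434) (nat_lit 1) (nat_lit 421) (nat_lit 1) (nat_lit 433) (nat_lit 1) (nat_lit 407) (nat_lit 383) (nat_lit 350)) (XT.lf (nat_lit 76) (nat_lit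 1240216441) (nat_lit 0) (nat_lit 652826975) (nat_lit 988) (nat_lit 1240216441) (nat_lit 422) (nat_lit 1) (nat_lit 421) (nat_lit 1) (nat_lit 434) (nat_lit 1) (nat_lit 408) (nat_lit 383) (nat_lit 349))))))))
noncomputable def ec22 : XT := (XT.nd (nat_lit 56472) (nat_lit 0) (nat_lit 13376) (XT.nd (nat_lit 702) (nat_lit 3572) (nat_lit 0) (XT.nd (nat_lit 312) (nat_lit 2356) (nat_lit 0) (XT.nd (nat_lit 156) (nat_lit 836) (nat_lit 0) (XT.nd (nat_lit 78) (nat_lit 0) (nat_lit 0) (XT.lf (nat_lit 912) (nat_lit 2121433438) (nat_lit 0) (nat_lit 492179247) (nat_lit 836) (nat_lit 492179247) (nat_lit 422) (nat_lit 1) (nat_lit 410) (nat_lit 1) (nat_lit 421) (nat_lit 1) (nat_lit 409) (nat_lit 383) (nat_lit 348)) (XT.lf (nat_lit 76) (nat_lit 877711985) (nat_lit 0) (nat_lit 1323163150) (nat_lit 912) (nat_lit 877711985) (nat_lit 411) (nat_lit 1) (nat_lit 410) (nat_lit 1) (nat_lit 422) (nat_lit 1) (nat_lit 410) (nat_lit 383) (nat_lit 347))) (XT.nd (nat_lit 78) (nat_lit 0) (nat_lit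 0) (XT.lf (nat_lit 912) (nat_lit 1387886138) (nat_lit 0) (nat_lit 831929455) (nat_lit 836) (nat_lit 831929455) (nat_lit 411) (nat_lit 1) (nat_lit 399) (nat_lit 1) (nat_lit 410) (nat_lit 1) (nat_lit 411) (nat_lit 383) (nat_lit 346)) (XT.lf (nat_lit 76) (nat_lit 509181815) (nat_lit 0) (nat_lit 2006885439) (nat_lit 912) (nat_lit 509181815) (nat_lit 400) (nat_lit 1) (nat_lit 399) (nat_lit 1) (nat_lit 411) (nat_lit 1) (nat_lit 412) (nat_lit 383) (nat_lit 345)))) (XT.nd (nat_lit 156) (nat_lit 1596) (nat_lit 0) (XT.nd (nat_lit 78) (nat_lit 0) (nat_lit 0) (XT.lf (nat_lit 836) (nat_lit 642883469) (nat_lit 0) (nat_lit 1178065132) (nat_lit 760) (nat_lit 1178065132) (nat_lit 400) (nat_lit 1) (nat_lit 389) (nat_lit 1) (nat_lit 399) (nat_lit 1) (nat_lit 413) (nat_lit 383) (nat_lit 344)) (XT.lf (nat_lit 76) (nat_lit 135254079) (nat_lit 0) (nat_lit 2702701178) (nat_lit 836) (nat_lit 135254079) (nat_lit 390) (nat_lit 1) (nat_lit 389) (nat_lit 1) (nat_lit 400) (nat_lit 1) (nat_lit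 414) (nat_lit 383) (nat_lit 343))) (XT.nd (nat_lit 78) (nat_lit 760) (nat_lit 0) (XT.lf (nat_lit 76) (nat_lit 1418337256) (nat_lit 0) (nat_lit 110873159) (nat_lit 836) (nat_lit 1418337256) (nat_lit 379) (nat_lit 1) (nat_lit 378) (nat_lit 1) (nat_lit 389) (nat_lit 1) (nat_lit 415) (nat_lit 383) (nat_lit 342)) (XT.nd (nat_lit 78) (nat_lit 0) (nat_lit 0) (XT.lf (nat_lit 836) (nat_lit 2438558995) (nat_lit 0) (nat_lit 241873387) (nat_lit 760) (nat_lit 241873387) (nat_lit 379) (nat_lit 1) (nat_lit 368) (nat_lit 1) (nat_lit 378) (nat_lit 1) (nat_lit 416) (nat_lit 383) (nat_lit 341)) (XT.lf (nat_lit 76) (nat_lit 1016050133) (nat_lit 0) (nat_lit 865141885) (nat_lit 836) (nat_lit 1016050133) (nat_lit 369) (nat_lit 1) (nat_lit 368) (nat_lit 1) (nat_lit 379) (nat_lit 1) (nat_lit 417) (nat_lit 383) (nat_lit 340)))))) (XT.nd (nat_lit 312) (nat_lit 2128) (nat_lit 0) (XT.nd (nat_lit 156) (nat_lit 684) (nat_lit 0) (XT.nd (nat_lit 78) (nat_lit 0) (nat_lit 0) (XT.lf (nat_lit 836)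 (nat_lit 1627919594) (nat_lit 0) (nat_lit 622319390) (nat_lit 760) (nat_lit 622319390) (nat_lit 369) (nat_lit 1) (nat_lit 358) (nat_lit 1) (nat_lit 368) (nat_lit 1) (nat_lit 418) (nat_lit 383) (nat_lit 339)) (XT.lf (nat_lit 76) (nat_lit 610441554) (nat_lit 0) (nat_lit 1627264095) (nat_lit 836) (nat_lit 610441554) (nat_lit 359) (nat_lit 1) (nat_lit 358) (nat_lit 1) (nat_lit 369) (nat_lit 1) (nat_lit 419) (nat_lit 383) (nat_lit 338))) (XT.nd (nat_lit 78) (nat_lit 0) (nat_lit 0) (XT.lf (nat_lit 760) (nat_lit 811122045) (nat_lit 0) (nat_lit 1006441360) (nat_lit 684) (nat_lit 1006441360) (nat_lit 359) (nat_lit 1) (nat_lit 349) (nat_lit 1) (nat_lit 358) (nat_lit 1) (nat_lit 420) (nat_lit 383) (nat_lit 337)) (XT.lf (nat_lit 76) (nat_lit 202011921) (nat_lit 0) (nat_lit 2396206539) (nat_lit 760) (nat_lit 202011921) (nat_lit 350) (nat_lit 1) (nat_lit 349) (nat_lit 1) (nat_lit 359) (nat_lit 1) (nat_lit 421) (nat_lit 383) (nat_lit 336)))) (XT.nd (nat_lit 156) (nat_lit 684)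 (nat_lit 0) (XT.nd (nat_lit 78) (nat_lit 684) (nat_lit 0) (XT.lf (nat_lit 76) (nat_lit 1382948738) (nat_lit 0) (nat_lit 10714171) (nat_lit 760) (nat_lit 1382948738) (nat_lit 340) (nat_lit 1) (nat_lit 339) (nat_lit 1) (nat_lit 349) (nat_lit 1) (nat_lit 422) (nat_lit 383) (nat_lit 335)) (XT.lf (nat_lit 760) (nat_lit 2338568185) (nat_lit 0) (nat_lit 207391620) (nat_lit 684) (nat_lit 207391620) (nat_lit 340) (nat_lit 1) (nat_lit 330) (nat_lit 1) (nat_lit 339) (nat_lit 1) (nat_lit 423) (nat_lit 383) (nat_lit 334))) (XT.nd (nat_lit 78) (nat_lit 684) (nat_lit 0) (XT.lf (nat_lit 76) (nat_lit 952065346) (nat_lit 0) (nat_lit 826112923) (nat_lit 760) (nat_lit 952065346) (nat_lit 331) (nat_lit 1) (nat_lit 330) (nat_lit 1) (nat_lit 340) (nat_lit 1) (nat_lit 424) (nat_lit 383) (nat_lit 333)) (XT.nd (nat_lit 78) (nat_lit 0) (nat_lit 0) (XT.lf (nat_lit 760) (nat_lit 1472776629) (nat_lit 0) (nat_lit 617352852) (nat_lit 684) (nat_lit 617352852) (nat_lit 331) (nat_lit 1) (nat_lit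 321) (nat_lit 1) (nat_lit 330) (nat_lit 1) (nat_lit 425) (nat_lit 383) (nat_lit 332)) (XT.lf (nat_lit 76) (nat_lit 520063500) (nat_lit 0) (nat_lit 1644849104) (nat_lit 760) (nat_lit 520063500) (nat_lit 322) (nat_lit 1) (nat_lit 321) (nat_lit 1) (nat_lit 331) (nat_lit 1) (nat_lit 426) (nat_lit 383) (nat_lit 331))))))) (XT.nd (nat_lit 702) (nat_lit 0) (nat_lit 304) (XT.nd (nat_lit 312) (nat_lit 0) (nat_lit 152) (XT.nd (nat_lit 156) (nat_lit 0) (nat_lit 76) (XT.nd (nat_lit 78) (nat_lit 0) (nat_lit 0) (XT.lf (nat_lit 1900) (nat_lit 730106210) (nat_lit 0) (nat_lit 736211596) (nat_lit 1900) (nat_lit 730106210) (nat_lit 522) (nat_lit 1) (nat_lit 497) (nat_lit 0) (nat_lit 522) (nat_lit 0) (nat_lit 372) (nat_lit 384) (nat_lit 384)) (XT.lf (nat_lit 1900) (nat_lit 2886949726) (nat_lit 76) (nat_lit 731368098) (nat_lit 0) (nat_lit 731368098) (nat_lit 522) (nat_lit 1) (nat_lit 498) (nat_lit 1) (nat_lit 497) (nat_lit 0) (nat_lit 373) (nat_lit 384) (nat_lit 383))) (XT.nd (nat_lit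 78) (nat_lit 0) (nat_lit 0) (XT.lf (nat_lit 1900) (nat_lit 1417506057) (nat_lit 0) (nat_lit 1471983136) (nat_lit 1824) (nat_lit 1417506057) (nat_lit 523) (nat_lit 1) (nat_lit 498) (nat_lit 1) (nat_lit 522) (nat_lit 1) (nat_lit 374) (nat_lit 384) (nat_lit 382)) (XT.lf (nat_lit 1900) (nat_lit 2774408789) (nat_lit 76) (nat_lit 745271488) (nat_lit 0) (nat_lit 745271488) (nat_lit 523) (nat_lit 1) (nat_lit 499) (nat_lit 1) (nat_lit 498) (nat_lit 1) (nat_lit 375) (nat_lit 384) (nat_lit 381)))) (XT.nd (nat_lit 156) (nat_lit 0) (nat_lit 76) (XT.nd (nat_lit 78) (nat_lit 0) (nat_lit 0) (XT.lf (nat_lit 1900) (nat_lit 1348310098) (nat_lit 0) (nat_lit 1526752203) (nat_lit 1824) (nat_lit 1348310098) (nat_lit 524) (nat_lit 1) (nat_lit 499) (nat_lit 1) (nat_lit 523) (nat_lit 1) (nat_lit 376) (nat_lit 384) (nat_lit 380)) (XT.lf (nat_lit 1900) (nat_lit 2610312446) (nat_lit 76) (nat_lit 786049458) (nat_lit 0) (nat_lit 786049458) (nat_lit 524) (nat_lit 1) (nat_lit 500) (nat_lit 1)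 (nat_lit 499) (nat_lit 1) (nat_lit 377) (nat_lit 384) (nat_lit 379))) (XT.nd (nat_lit 78) (nat_lit 0) (nat_lit 0) (XT.lf (nat_lit 1900) (nat_lit 1254205084) (nat_lit 0) (nat_lit 1633504358) (nat_lit 1824) (nat_lit 1254205084) (nat_lit 525) (nat_lit 1) (nat_lit 500) (nat_lit 1) (nat_lit 524) (nat_lit 1) (nat_lit 378) (nat_lit 384) (nat_lit 378)) (XT.nd (nat_lit 78) (nat_lit 0) (nat_lit 76) (XT.lf (nat_lit 1900) (nat_lit 2397759235) (nat_lit 76) (nat_lit 852120895) (nat_lit 0) (nat_lit 852120895) (nat_lit 525) (nat_lit 1) (nat_lit 501) (nat_lit 1) (nat_lit 500) (nat_lit 1) (nat_lit 379) (nat_lit 384) (nat_lit 377)) (XT.lf (nat_lit 1900) (nat_lit 1136699363) (nat_lit 0) (nat_lit 1789160058) (nat_lit 1824) (nat_lit 1136699363) (nat_lit 526) (nat_lit 1) (nat_lit 501) (nat_lit 1) (nat_lit 525) (nat_lit 1) (nat_lit 380) (nat_lit 384) (nat_lit 376)))))) (XT.nd (nat_lit 312) (nat_lit 0) (nat_lit 152) (XT.nd (nat_lit 156) (nat_lit 0) (nat_lit 76) (XT.nd (nat_lit 78) (nat_lit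 0) (nat_lit 76) (XT.lf (nat_lit 1900) (nat_lit 2139705871) (nat_lit 76) (nat_lit 941976625) (nat_lit 0) (nat_lit 941976625) (nat_lit 526) (nat_lit 1) (nat_lit 502) (nat_lit 1) (nat_lit 501) (nat_lit 1) (nat_lit 381) (nat_lit 384) (nat_lit 375)) (XT.lf (nat_lit 1900) (nat_lit 997232103) (nat_lit 0) (nat_lit 1990780144) (nat_lit 1824) (nat_lit 997232103) (nat_lit 527) (nat_lit 1) (nat_lit 502) (nat_lit 1) (nat_lit 526) (nat_lit 1) (nat_lit 382) (nat_lit 384) (nat_lit 374))) (XT.nd (nat_lit 78) (nat_lit 0) (nat_lit 76) (XT.lf (nat_lit 1900) (nat_lit 1838973179) (nat_lit 76) (nat_lit 1054176411) (nat_lit 0) (nat_lit 1054176411) (nat_lit 527) (nat_lit 1) (nat_lit 503) (nat_lit 1) (nat_lit 502) (nat_lit 1) (nat_lit 383) (nat_lit 384) (nat_lit 373)) (XT.lf (nat_lit 1900) (nat_lit 837176182) (nat_lit 0) (nat_lit 2235559986) (nat_lit 1824) (nat_lit 837176182) (nat_lit 528) (nat_lit 1) (nat_lit 503) (nat_lit 1) (nat_lit 527) (nat_lit 1) (nat_lit 384) (nat_lit 384) (nat_lit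 372)))) (XT.nd (nat_lit 156) (nat_lit 0) (nat_lit 76) (XT.nd (nat_lit 78) (nat_lit 0) (nat_lit 76) (XT.lf (nat_lit 1900) (nat_lit 1498251779) (nat_lit 76) (nat_lit 1187346069) (nat_lit 0) (nat_lit 1187346069) (nat_lit 528) (nat_lit 1) (nat_lit 504) (nat_lit 1) (nat_lit 503) (nat_lit 1) (nat_lit 385) (nat_lit 384) (nat_lit 371)) (XT.lf (nat_lit 1900) (nat_lit 657840974) (nat_lit 0) (nat_lit 2520823855) (nat_lit 1824) (nat_lit 657840974) (nat_lit 529) (nat_lit 1) (nat_lit 504) (nat_lit 1) (nat_lit 528) (nat_lit 1) (nat_lit 386) (nat_lit 384) (nat_lit 370))) (XT.nd (nat_lit 78) (nat_lit 0) (nat_lit 76) (XT.lf (nat_lit 1900) (nat_lit 1120107551) (nat_lit 76) (nat_lit 1340174713) (nat_lit 0) (nat_lit 1340174713) (nat_lit 529) (nat_lit 1) (nat_lit 505) (nat_lit 1) (nat_lit 504) (nat_lit 1) (nat_lit 387) (nat_lit 384) (nat_lit 369)) (XT.nd (nat_lit 78) (nat_lit 0) (nat_lit 0) (XT.lf (nat_lit 1900) (nat_lit 460475007) (nat_lit 0) (nat_lit 2844019527) (nat_lit 1824) (nat_lit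 460475007) (nat_lit 530) (nat_lit 1) (nat_lit 505) (nat_lit 1) (nat_lit 529) (nat_lit 1) (nat_lit 388) (nat_lit 384) (nat_lit 368)) (XT.lf (nat_lit 1900) (nat_lit 706986873) (nat_lit 76) (nat_lit 1511412094) (nat_lit 0) (nat_lit 1511412094) (nat_lit 530) (nat_lit 1) (nat_lit 506) (nat_lit 1) (nat_lit 505) (nat_lit 1) (nat_lit 389) (nat_lit 384) (nat_lit 367))))))))
noncomputable def ec23 : XT := (XT.nd (nat_lit 1404) (nat_lit 7372) (nat_lit 0) (XT.nd (nat_lit 702) (nat_lit 4484) (nat_lit 0) (XT.nd (nat_lit 312) (nat_lit 988) (nat_lit 0) (XT.nd (nat_lit 156) (nat_lit 1824) (nat_lit 0) (XT.nd (nat_lit 78) (nat_lit 0) (nat_lit 0) (XT.lf (nat_lit 1900) (nat_lit 246268527) (nat_lit 0) (nat_lit 3202713105) (nat_lit 1824) (nat_lit 246268527) (nat_lit 531) (nat_lit 1) (nat_lit 506) (nat_lit 1) (nat_lit 530) (nat_lit 1) (nat_lit 390) (nat_lit 384) (nat_lit 366)) (XT.lf (nat_lit 1900) (nat_lit 261221655) (nat_lit 76) (nat_lit 1699866061) (nat_lit 0) (nat_lit 1699866061)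 (nat_lit 531) (nat_lit 1) (nat_lit 507) (nat_lit 1) (nat_lit 506) (nat_lit 1) (nat_lit 391) (nat_lit 384) (nat_lit 365))) (XT.nd (nat_lit 78) (nat_lit 1900) (nat_lit 0) (XT.lf (nat_lit 1900) (nat_lit 16355953) (nat_lit 0) (nat_lit 3594584045) (nat_lit 1824) (nat_lit 16355953) (nat_lit 532) (nat_lit 1) (nat_lit 507) (nat_lit 1) (nat_lit 531) (nat_lit 1) (nat_lit 392) (nat_lit 384) (nat_lit 364)) (XT.lf (nat_lit 1976) (nat_lit 1690829973) (nat_lit 0) (nat_lit 212146523) (nat_lit 1900) (nat_lit 1690829973) (nat_lit 508) (nat_lit 1) (nat_lit 482) (nat_lit 1) (nat_lit 507) (nat_lit 1) (nat_lit 393) (nat_lit 384) (nat_lit 363)))) (XT.nd (nat_lit 156) (nat_lit 988) (nat_lit 0) (XT.nd (nat_lit 78) (nat_lit 0) (nat_lit 76) (XT.lf (nat_lit 1976) (nat_lit 3107576772) (nat_lit 76) (nat_lit 226680575) (nat_lit 0) (nat_lit 226680575) (nat_lit 508) (nat_lit 1) (nat_lit 483) (nat_lit 1) (nat_lit 482) (nat_lit 1) (nat_lit 394) (nat_lit 384) (nat_lit 362)) (XT.lf (nat_lit 1976)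 (nat_lit 1409143899) (nat_lit 0) (nat_lit 710022529) (nat_lit 1900) (nat_lit 1409143899) (nat_lit 509) (nat_lit 1) (nat_lit 483) (nat_lit 1) (nat_lit 508) (nat_lit 1) (nat_lit 395) (nat_lit 384) (nat_lit 361))) (XT.nd (nat_lit 78) (nat_lit 1064) (nat_lit 0) (XT.lf (nat_lit 1976) (nat_lit 2529999956) (nat_lit 76) (nat_lit 483115470) (nat_lit 0) (nat_lit 483115470) (nat_lit 509) (nat_lit 1) (nat_lit 484) (nat_lit 1) (nat_lit 483) (nat_lit 1) (nat_lit 396) (nat_lit 384) (nat_lit 360)) (XT.nd (nat_lit 78) (nat_lit 1140) (nat_lit 0) (XT.lf (nat_lit 76) (nat_lit 1115304925) (nat_lit 0) (nat_lit 1233842095) (nat_lit 1900) (nat_lit 1115304925) (nat_lit 485) (nat_lit 1) (nat_lit 484) (nat_lit 1) (nat_lit 509) (nat_lit 1) (nat_lit 397) (nat_lit 384) (nat_lit 359)) (XT.lf (nat_lit 1216) (nat_lit 1928972757) (nat_lit 0) (nat_lit 752082095) (nat_lit 1140) (nat_lit 752082095) (nat_lit 485) (nat_lit 1) (nat_lit 469) (nat_lit 1) (nat_lit 484) (nat_lit 1) (nat_lit 398) (nat_lit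 384) (nat_lit 358)))))) (XT.nd (nat_lit 312) (nat_lit 2660) (nat_lit 0) (XT.nd (nat_lit 156) (nat_lit 912) (nat_lit 0) (XT.nd (nat_lit 78) (nat_lit 912) (nat_lit 0) (XT.lf (nat_lit 76) (nat_lit 810237731) (nat_lit 0) (nat_lit 1781710023) (nat_lit 1216) (nat_lit 810237731) (nat_lit 470) (nat_lit 1) (nat_lit 469) (nat_lit 1) (nat_lit 485) (nat_lit 1) (nat_lit 399) (nat_lit 384) (nat_lit 357)) (XT.lf (nat_lit 988) (nat_lit 1306305357) (nat_lit 0) (nat_lit 1032652859) (nat_lit 912) (nat_lit 1032652859) (nat_lit 470) (nat_lit 1) (nat_lit 457) (nat_lit 1) (nat_lit 469) (nat_lit 1) (nat_lit 400) (nat_lit 384) (nat_lit 356))) (XT.nd (nat_lit 78) (nat_lit 912) (nat_lit 0) (XT.lf (nat_lit 76) (nat_lit 494822210) (nat_lit 0) (nat_lit 2351822114) (nat_lit 988) (nat_lit 494822210) (nat_lit 458) (nat_lit 1) (nat_lit 457) (nat_lit 1) (nat_lit 470) (nat_lit 1) (nat_lit 401) (nat_lit 384) (nat_lit 355)) (XT.lf (nat_lit 988) (nat_lit 663720010) (nat_lit 0) (nat_lit 1323944836)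 (nat_lit 912) (nat_lit 1323944836) (nat_lit 458) (nat_lit 1) (nat_lit 445) (nat_lit 1) (nat_lit 457) (nat_lit 1) (nat_lit 402) (nat_lit 384) (nat_lit 354)))) (XT.nd (nat_lit 156) (nat_lit 1824) (nat_lit 0) (XT.nd (nat_lit 78) (nat_lit 836) (nat_lit 0) (XT.lf (nat_lit 76) (nat_lit 169895388) (nat_lit 0) (nat_lit 2942461296) (nat_lit 988) (nat_lit 169895388) (nat_lit 446) (nat_lit 1) (nat_lit 445) (nat_lit 1) (nat_lit 458) (nat_lit 1) (nat_lit 403) (nat_lit 384) (nat_lit 353)) (XT.lf (nat_lit 912) (nat_lit 2854798) (nat_lit 0) (nat_lit 1625117864) (nat_lit 836) (nat_lit 1625117864) (nat_lit 446) (nat_lit 1) (nat_lit 434) (nat_lit 1) (nat_lit 445) (nat_lit 1) (nat_lit 404) (nat_lit 384) (nat_lit 352))) (XT.nd (nat_lit 78) (nat_lit 836) (nat_lit 0) (XT.lf (nat_lit 988) (nat_lit 2899076134) (nat_lit 0) (nat_lit 162669467) (nat_lit 912) (nat_lit 162669467) (nat_lit 434) (nat_lit 1) (nat_lit 421) (nat_lit 1) (nat_lit 433) (nat_lit 1) (nat_lit 405) (nat_lit 384) (nat_lit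 351)) (XT.nd (nat_lit 78) (nat_lit 836) (nat_lit 0) (XT.lf (nat_lit 76) (nat_lit 1265020770) (nat_lit 0) (nat_lit 665883515) (nat_lit 988) (nat_lit 1265020770) (nat_lit 422) (nat_lit 1) (nat_lit 421) (nat_lit 1) (nat_lit 434) (nat_lit 1) (nat_lit 406) (nat_lit 384) (nat_lit 350)) (XT.lf (nat_lit 912) (nat_lit 2163862107) (nat_lit 0) (nat_lit 502022832) (nat_lit 836) (nat_lit 502022832) (nat_lit 422) (nat_lit 1) (nat_lit 410) (nat_lit 1) (nat_lit 421) (nat_lit 1) (nat_lit 407) (nat_lit 384) (nat_lit 349))))))) (XT.nd (nat_lit 702) (nat_lit 3420) (nat_lit 0) (XT.nd (nat_lit 312) (nat_lit 2356) (nat_lit 0) (XT.nd (nat_lit 156) (nat_lit 760) (nat_lit 0) (XT.nd (nat_lit 78) (nat_lit 836) (nat_lit 0) (XT.lf (nat_lit 76) (nat_lit 895266225) (nat_lit 0) (nat_lit 1349626413) (nat_lit 912) (nat_lit 895266225) (nat_lit 411) (nat_lit 1) (nat_lit 410) (nat_lit 1) (nat_lit 422) (nat_lit 1) (nat_lit 408) (nat_lit 384) (nat_lit 348)) (XT.lf (nat_lit 912) (nat_lit 1415643861)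 (nat_lit 0) (nat_lit 848568044) (nat_lit 836) (nat_lit 848568044) (nat_lit 411) (nat_lit 1) (nat_lit 399) (nat_lit 1) (nat_lit 410) (nat_lit 1) (nat_lit 409) (nat_lit 384) (nat_lit 347))) (XT.nd (nat_lit 78) (nat_lit 760) (nat_lit 0) (XT.lf (nat_lit 76) (nat_lit 519365452) (nat_lit 0) (nat_lit 2047023147) (nat_lit 912) (nat_lit 519365452) (nat_lit 400) (nat_lit 1) (nat_lit 399) (nat_lit 1) (nat_lit 411) (nat_lit 1) (nat_lit 410) (nat_lit 384) (nat_lit 346)) (XT.lf (nat_lit 836) (nat_lit 655741139) (nat_lit 0) (nat_lit 1201626435) (nat_lit 760) (nat_lit 1201626435) (nat_lit 400) (nat_lit 1) (nat_lit 389) (nat_lit 1) (nat_lit 399) (nat_lit 1) (nat_lit 411) (nat_lit 384) (nat_lit 345)))) (XT.nd (nat_lit 156) (nat_lit 1520) (nat_lit 0) (XT.nd (nat_lit 78) (nat_lit 836) (nat_lit 0) (XT.lf (nat_lit 76) (nat_lit 137959160) (nat_lit 0) (nat_lit 2756755202) (nat_lit 836) (nat_lit 137959160) (nat_lit 390) (nat_lit 1) (nat_lit 389) (nat_lit 1) (nat_lit 400) (nat_lit 1)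 (nat_lit 412) (nat_lit 384) (nat_lit 344)) (XT.lf (nat_lit 76) (nat_lit 1446704001) (nat_lit 0) (nat_lit 113090623) (nat_lit 836) (nat_lit 1446704001) (nat_lit 379) (nat_lit 1) (nat_lit 378) (nat_lit 1) (nat_lit 389) (nat_lit 1) (nat_lit 413) (nat_lit 384) (nat_lit 343))) (XT.nd (nat_lit 78) (nat_lit 760) (nat_lit 0) (XT.lf (nat_lit 836) (nat_lit 2487330175) (nat_lit 0) (nat_lit 246710855) (nat_lit 760) (nat_lit 246710855) (nat_lit 379) (nat_lit 1) (nat_lit 368) (nat_lit 1) (nat_lit 378) (nat_lit 1) (nat_lit 414) (nat_lit 384) (nat_lit 342)) (XT.nd (nat_lit 78) (nat_lit 760) (nat_lit 0) (XT.lf (nat_lit 76) (nat_lit 1036371136) (nat_lit 0) (nat_lit 882444723) (nat_lit 836) (nat_lit 1036371136) (nat_lit 369) (nat_lit 1) (nat_lit 368) (nat_lit 1) (nat_lit 379) (nat_lit 1) (nat_lit 415) (nat_lit 384) (nat_lit 341)) (XT.lf (nat_lit 836) (nat_lit 1660477986) (nat_lit 0) (nat_lit 634765778) (nat_lit 760) (nat_lit 634765778) (nat_lit 369) (nat_lit 1) (nat_lit 358) (nat_lit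 1) (nat_lit 368) (nat_lit 1) (nat_lit 416) (nat_lit 384) (nat_lit 340)))))) (XT.nd (nat_lit 312) (nat_lit 1976) (nat_lit 0) (XT.nd (nat_lit 156) (nat_lit 760) (nat_lit 0) (XT.nd (nat_lit 78) (nat_lit 684) (nat_lit 0) (XT.lf (nat_lit 76) (nat_lit 622650385) (nat_lit 0) (nat_lit 1659809376) (nat_lit 836) (nat_lit 622650385) (nat_lit 359) (nat_lit 1) (nat_lit 358) (nat_lit 1) (nat_lit 369) (nat_lit 1) (nat_lit 417) (nat_lit 384) (nat_lit 339)) (XT.lf (nat_lit 760) (nat_lit 827344486) (nat_lit 0) (nat_lit 1026570187) (nat_lit 684) (nat_lit 1026570187) (nat_lit 359) (nat_lit 1) (nat_lit 349) (nat_lit 1) (nat_lit 358) (nat_lit 1) (nat_lit 418) (nat_lit 384) (nat_lit 338))) (XT.nd (nat_lit 78) (nat_lit 760) (nat_lit 0) (XT.lf (nat_lit 76) (nat_lit 206052160) (nat_lit 0) (nat_lit 2444130670) (nat_lit 760) (nat_lit 206052160) (nat_lit 350) (nat_lit 1) (nat_lit 349) (nat_lit 1) (nat_lit 359) (nat_lit 1) (nat_lit 419) (nat_lit 384) (nat_lit 337)) (XT.lf (nat_lit 76) (nat_lit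 1410607712) (nat_lit 0) (nat_lit 10928454) (nat_lit 760) (nat_lit 1410607712) (nat_lit 340) (nat_lit 1) (nat_lit 339) (nat_lit 1) (nat_lit 349) (nat_lit 1) (nat_lit 420) (nat_lit 384) (nat_lit 336)))) (XT.nd (nat_lit 156) (nat_lit 1292) (nat_lit 0) (XT.nd (nat_lit 78) (nat_lit 0) (nat_lit 0) (XT.lf (nat_lit 760) (nat_lit 2385339548) (nat_lit 0) (nat_lit 211539452) (nat_lit 684) (nat_lit 211539452) (nat_lit 340) (nat_lit 1) (nat_lit 330) (nat_lit 1) (nat_lit 339) (nat_lit 1) (nat_lit 421) (nat_lit 384) (nat_lit 335)) (XT.lf (nat_lit 76) (nat_lit 971106653) (nat_lit 0) (nat_lit 842635182) (nat_lit 760) (nat_lit 971106653) (nat_lit 331) (nat_lit 1) (nat_lit 330) (nat_lit 1) (nat_lit 340) (nat_lit 1) (nat_lit 422) (nat_lit 384) (nat_lit 334))) (XT.nd (nat_lit 78) (nat_lit 608) (nat_lit 0) (XT.lf (nat_lit 760) (nat_lit 1502232162) (nat_lit 0) (nat_lit 629699909) (nat_lit 684) (nat_lit 629699909) (nat_lit 331) (nat_lit 1) (nat_lit 321) (nat_lit 1) (nat_lit 330) (nat_lit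 1) (nat_lit 423) (nat_lit 384) (nat_lit 333)) (XT.nd (nat_lit 78) (nat_lit 608) (nat_lit 0) (XT.lf (nat_lit 76) (nat_lit 530464770) (nat_lit 0) (nat_lit 1677746086) (nat_lit 760) (nat_lit 530464770) (nat_lit 322) (nat_lit 1) (nat_lit 321) (nat_lit 1) (nat_lit 331) (nat_lit 1) (nat_lit 424) (nat_lit 384) (nat_lit 332)) (XT.lf (nat_lit 684) (nat_lit 617242110) (nat_lit 0) (nat_lit 1049355431) (nat_lit 608) (nat_lit 1049355431) (nat_lit 322) (nat_lit 1) (nat_lit 313) (nat_lit 1) (nat_lit 321) (nat_lit 1) (nat_lit 425) (nat_lit 384) (nat_lit 331))))))))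
noncomputable def ec24 : XT := (XT.nd (nat_lit 56316) (nat_lit 0) (nat_lit 8208) (XT.nd (nat_lit 55614) (nat_lit 0) (nat_lit 14288) (XT.nd (nat_lit 55224) (nat_lit 0) (nat_lit 14060) (XT.nd (nat_lit 55068) (nat_lit 0) (nat_lit 13984) (XT.nd (nat_lit 54990) (nat_lit 0) (nat_lit 13984) (XT.lf (nat_lit 76) (nat_lit 89083368) (nat_lit 0) (nat_lit 2515428972) (nat_lit 684) (nat_lit 89083368) (nat_lit 314) (nat_lit 1) (nat_lit 313) (nat_lit 1) (nat_lit 322) (nat_lit 1) (nat_lit 426) (nat_lit 384) (nat_lit 330)) (XT.lf (nat_lit 1900) (nat_lit 744708334) (nat_lit 0) (nat_lit 750935827) (nat_lit 1900) (nat_lit 744708334) (nat_lit 522) (nat_lit 1) (nat_lit 497) (nat_lit 0) (nat_lit 522) (nat_lit 0) (nat_lit 370) (nat_lit 385) (nat_lit 385))) (XT.nd (nat_lit 78) (nat_lit 0) (nat_lit 76) (XT.lf (nat_lit 1900) (nat_lit 2944688721) (nat_lit 76) (nat_lit 745995460) (nat_lit 0) (nat_lit 745995460) (nat_lit 522) (nat_lit 1) (nat_lit 498) (nat_lit 1) (nat_lit 497) (nat_lit 0)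 (nat_lit 371) (nat_lit 385) (nat_lit 384)) (XT.lf (nat_lit 1900) (nat_lit 1445856179) (nat_lit 0) (nat_lit 1501422798) (nat_lit 1824) (nat_lit 1445856179) (nat_lit 523) (nat_lit 1) (nat_lit 498) (nat_lit 1) (nat_lit 522) (nat_lit 1) (nat_lit 372) (nat_lit 385) (nat_lit 383)))) (XT.nd (nat_lit 156) (nat_lit 0) (nat_lit 76) (XT.nd (nat_lit 78) (nat_lit 0) (nat_lit 76) (XT.lf (nat_lit 1900) (nat_lit 2829896965) (nat_lit 76) (nat_lit 760176918) (nat_lit 0) (nat_lit 760176918) (nat_lit 523) (nat_lit 1) (nat_lit 499) (nat_lit 1) (nat_lit 498) (nat_lit 1) (nat_lit 373) (nat_lit 385) (nat_lit 382)) (XT.lf (nat_lit 1900) (nat_lit 1375276300) (nat_lit 0) (nat_lit 1557287247) (nat_lit 1824) (nat_lit 1375276300) (nat_lit 524) (nat_lit 1) (nat_lit 499) (nat_lit 1) (nat_lit 523) (nat_lit 1) (nat_lit 374) (nat_lit 385) (nat_lit 381))) (XT.nd (nat_lit 78) (nat_lit 0) (nat_lit 76) (XT.lf (nat_lit 1900) (nat_lit 2662518695) (nat_lit 76) (nat_lit 801770447) (nat_lit 0) (nat_lit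 801770447) (nat_lit 524) (nat_lit 1) (nat_lit 500) (nat_lit 1) (nat_lit 499) (nat_lit 1) (nat_lit 375) (nat_lit 385) (nat_lit 380)) (XT.nd (nat_lit 78) (nat_lit 0) (nat_lit 0) (XT.lf (nat_lit 1900) (nat_lit 1279289185) (nat_lit 0) (nat_lit 1666174445) (nat_lit 1824) (nat_lit 1279289185) (nat_lit 525) (nat_lit 1) (nat_lit 500) (nat_lit 1) (nat_lit 524) (nat_lit 1) (nat_lit 376) (nat_lit 385) (nat_lit 379)) (XT.lf (nat_lit 1900) (nat_lit 2445714419) (nat_lit 76) (nat_lit 869163313) (nat_lit 0) (nat_lit 869163313) (nat_lit 525) (nat_lit 1) (nat_lit 501) (nat_lit 1) (nat_lit 500) (nat_lit 1) (nat_lit 377) (nat_lit 385) (nat_lit 378)))))) (XT.nd (nat_lit 312) (nat_lit 0) (nat_lit 152) (XT.nd (nat_lit 156) (nat_lit 0) (nat_lit 76) (XT.nd (nat_lit 78) (nat_lit 0) (nat_lit 0) (XT.lf (nat_lit 1900) (nat_lit 1159433351) (nat_lit 0) (nat_lit 1824943259) (nat_lit 1824) (nat_lit 1159433351) (nat_lit 526) (nat_lit 1) (nat_lit 501) (nat_lit 1) (nat_lit 525) (nat_lit 1) (nat_lit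 378) (nat_lit 385) (nat_lit 377)) (XT.lf (nat_lit 1900) (nat_lit 2182499988) (nat_lit 76) (nat_lit 960816158) (nat_lit 0) (nat_lit 960816158) (nat_lit 526) (nat_lit 1) (nat_lit 502) (nat_lit 1) (nat_lit 501) (nat_lit 1) (nat_lit 379) (nat_lit 385) (nat_lit 376))) (XT.nd (nat_lit 78) (nat_lit 0) (nat_lit 0) (XT.lf (nat_lit 1900) (nat_lit 1017176745) (nat_lit 0) (nat_lit 2030595747) (nat_lit 1824) (nat_lit 1017176745) (nat_lit 527) (nat_lit 1) (nat_lit 502) (nat_lit 1) (nat_lit 526) (nat_lit 1) (nat_lit 380) (nat_lit 385) (nat_lit 375)) (XT.lf (nat_lit 1900) (nat_lit 1875752642) (nat_lit 76) (nat_lit 1075259939) (nat_lit 0) (nat_lit 1075259939) (nat_lit 527) (nat_lit 1) (nat_lit 503) (nat_lit 1) (nat_lit 502) (nat_lit 1) (nat_lit 381) (nat_lit 385) (nat_lit 374)))) (XT.nd (nat_lit 156) (nat_lit 0) (nat_lit 76) (XT.nd (nat_lit 78) (nat_lit 0) (nat_lit 0) (XT.lf (nat_lit 1900) (nat_lit 853919706) (nat_lit 0) (nat_lit 2280271186) (nat_lit 1824) (nat_lit 853919706)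 (nat_lit 528) (nat_lit 1) (nat_lit 503) (nat_lit 1) (nat_lit 527) (nat_lit 1) (nat_lit 382) (nat_lit 385) (nat_lit 373)) (XT.lf (nat_lit 1900) (nat_lit 1528216815) (nat_lit 76) (nat_lit 1211092991) (nat_lit 0) (nat_lit 1211092991) (nat_lit 528) (nat_lit 1) (nat_lit 504) (nat_lit 1) (nat_lit 503) (nat_lit 1) (nat_lit 383) (nat_lit 385) (nat_lit 372))) (XT.nd (nat_lit 78) (nat_lit 0) (nat_lit 0) (XT.lf (nat_lit 1900) (nat_lit 670997793) (nat_lit 0) (nat_lit 2571240332) (nat_lit 1824) (nat_lit 670997793) (nat_lit 529) (nat_lit 1) (nat_lit 504) (nat_lit 1) (nat_lit 528) (nat_lit 1) (nat_lit 384) (nat_lit 385) (nat_lit 371)) (XT.nd (nat_lit 78) (nat_lit 0) (nat_lit 76) (XT.lf (nat_lit 1900) (nat_lit 1142509702) (nat_lit 76) (nat_lit 1366978207) (nat_lit 0) (nat_lit 1366978207) (nat_lit 529) (nat_lit 1) (nat_lit 505) (nat_lit 1) (nat_lit 504) (nat_lit 1) (nat_lit 385) (nat_lit 385) (nat_lit 370)) (XT.lf (nat_lit 1900) (nat_lit 469684507) (nat_lit 0) (nat_lit 2900899918)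 (nat_lit 1824) (nat_lit 469684507) (nat_lit 530) (nat_lit 1) (nat_lit 505) (nat_lit 1) (nat_lit 529) (nat_lit 1) (nat_lit 386) (nat_lit 385) (nat_lit 369))))))) (XT.nd (nat_lit 702) (nat_lit 4636) (nat_lit 0) (XT.nd (nat_lit 312) (nat_lit 1748) (nat_lit 0) (XT.nd (nat_lit 156) (nat_lit 0) (nat_lit 76) (XT.nd (nat_lit 78) (nat_lit 0) (nat_lit 76) (XT.lf (nat_lit 1900) (nat_lit 721126611) (nat_lit 76) (nat_lit 1541640336) (nat_lit 0) (nat_lit 1541640336) (nat_lit 530) (nat_lit 1) (nat_lit 506) (nat_lit 1) (nat_lit 505) (nat_lit 1) (nat_lit 387) (nat_lit 385) (nat_lit 368)) (XT.lf (nat_lit 1900) (nat_lit 251193898) (nat_lit 0) (nat_lit 3266767367) (nat_lit 1824) (nat_lit 251193898) (nat_lit 531) (nat_lit 1) (nat_lit 506) (nat_lit 1) (nat_lit 530) (nat_lit 1) (nat_lit 388) (nat_lit 385) (nat_lit 367))) (XT.nd (nat_lit 78) (nat_lit 0) (nat_lit 76) (XT.lf (nat_lit 1900) (nat_lit 266446088) (nat_lit 76) (nat_lit 1733863382) (nat_lit 0) (nat_lit 1733863382) (nat_lit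 531) (nat_lit 1) (nat_lit 507) (nat_lit 1) (nat_lit 506) (nat_lit 1) (nat_lit 389) (nat_lit 385) (nat_lit 366)) (XT.lf (nat_lit 1900) (nat_lit 16683072) (nat_lit 0) (nat_lit 3666475726) (nat_lit 1824) (nat_lit 16683072) (nat_lit 532) (nat_lit 1) (nat_lit 507) (nat_lit 1) (nat_lit 531) (nat_lit 1) (nat_lit 390) (nat_lit 385) (nat_lit 365)))) (XT.nd (nat_lit 156) (nat_lit 0) (nat_lit 76) (XT.nd (nat_lit 78) (nat_lit 0) (nat_lit 0) (XT.lf (nat_lit 1976) (nat_lit 1724646573) (nat_lit 0) (nat_lit 216389453) (nat_lit 1900) (nat_lit 1724646573) (nat_lit 508) (nat_lit 1) (nat_lit 482) (nat_lit 1) (nat_lit 507) (nat_lit 1) (nat_lit 391) (nat_lit 385) (nat_lit 364)) (XT.lf (nat_lit 1976) (nat_lit 3169728308) (nat_lit 76) (nat_lit 231214186) (nat_lit 0) (nat_lit 231214186) (nat_lit 508) (nat_lit 1) (nat_lit 483) (nat_lit 1) (nat_lit 482) (nat_lit 1) (nat_lit 392) (nat_lit 385) (nat_lit 363))) (XT.nd (nat_lit 78) (nat_lit 0) (nat_lit 0) (XT.lf (nat_lit 1976) (nat_lit 1437326777)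 (nat_lit 0) (nat_lit 724222980) (nat_lit 1900) (nat_lit 1437326777) (nat_lit 509) (nat_lit 1) (nat_lit 483) (nat_lit 1) (nat_lit 508) (nat_lit 1) (nat_lit 393) (nat_lit 385) (nat_lit 362)) (XT.nd (nat_lit 78) (nat_lit 0) (nat_lit 76) (XT.lf (nat_lit 1976) (nat_lit 2580599955) (nat_lit 76) (nat_lit 492777779) (nat_lit 0) (nat_lit 492777779) (nat_lit 509) (nat_lit 1) (nat_lit 484) (nat_lit 1) (nat_lit 483) (nat_lit 1) (nat_lit 394) (nat_lit 385) (nat_lit 361)) (XT.lf (nat_lit 76) (nat_lit 1137611024) (nat_lit 0) (nat_lit 1258518937) (nat_lit 1900) (nat_lit 1137611024) (nat_lit 485) (nat_lit 1) (nat_lit 484) (nat_lit 1) (nat_lit 509) (nat_lit 1) (nat_lit 395) (nat_lit 385) (nat_lit 360)))))) (XT.nd (nat_lit 312) (nat_lit 2736) (nat_lit 0) (XT.nd (nat_lit 156) (nat_lit 912) (nat_lit 0) (XT.nd (nat_lit 78) (nat_lit 0) (nat_lit 0) (XT.lf (nat_lit 1216) (nat_lit 1967552212) (nat_lit 0) (nat_lit 767123737) (nat_lit 1140) (nat_lit 767123737) (nat_lit 485) (nat_lit 1)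 (nat_lit 469) (nat_lit 1) (nat_lit 484) (nat_lit 1) (nat_lit 396) (nat_lit 385) (nat_lit 359)) (XT.lf (nat_lit 76) (nat_lit 826442485) (nat_lit 0) (nat_lit 1817344224) (nat_lit 1216) (nat_lit 826442485) (nat_lit 470) (nat_lit 1) (nat_lit 469) (nat_lit 1) (nat_lit 485) (nat_lit 1) (nat_lit 397) (nat_lit 385) (nat_lit 358))) (XT.nd (nat_lit 78) (nat_lit 0) (nat_lit 0) (XT.lf (nat_lit 988) (nat_lit 1332431464) (nat_lit 0) (nat_lit 1053305916) (nat_lit 912) (nat_lit 1053305916) (nat_lit 470) (nat_lit 1) (nat_lit 457) (nat_lit 1) (nat_lit 469) (nat_lit 1) (nat_lit 398) (nat_lit 385) (nat_lit 357)) (XT.lf (nat_lit 76) (nat_lit 504718655) (nat_lit 0) (nat_lit 2398858557) (nat_lit 988) (nat_lit 504718655) (nat_lit 458) (nat_lit 1) (nat_lit 457) (nat_lit 1) (nat_lit 470) (nat_lit 1) (nat_lit 399) (nat_lit 385) (nat_lit 356)))) (XT.nd (nat_lit 156) (nat_lit 1824) (nat_lit 0) (XT.nd (nat_lit 78) (nat_lit 0) (nat_lit 0) (XT.lf (nat_lit 988) (nat_lit 676994410) (nat_lit 0)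 (nat_lit 1350423733) (nat_lit 912) (nat_lit 1350423733) (nat_lit 458) (nat_lit 1) (nat_lit 445) (nat_lit 1) (nat_lit 457) (nat_lit 1) (nat_lit 400) (nat_lit 385) (nat_lit 355)) (XT.lf (nat_lit 76) (nat_lit 173293296) (nat_lit 0) (nat_lit 3001310522) (nat_lit 988) (nat_lit 173293296) (nat_lit 446) (nat_lit 1) (nat_lit 445) (nat_lit 1) (nat_lit 458) (nat_lit 1) (nat_lit 401) (nat_lit 385) (nat_lit 354))) (XT.nd (nat_lit 78) (nat_lit 988) (nat_lit 0) (XT.lf (nat_lit 912) (nat_lit 2911894) (nat_lit 0) (nat_lit 1657620221) (nat_lit 836) (nat_lit 1657620221) (nat_lit 446) (nat_lit 1) (nat_lit 434) (nat_lit 1) (nat_lit 445) (nat_lit 1) (nat_lit 402) (nat_lit 385) (nat_lit 353)) (XT.nd (nat_lit 78) (nat_lit 0) (nat_lit 0) (XT.lf (nat_lit 988) (nat_lit 2957057657) (nat_lit 0) (nat_lit 165922856) (nat_lit 912) (nat_lit 165922856) (nat_lit 434) (nat_lit 1) (nat_lit 421) (nat_lit 1) (nat_lit 433) (nat_lit 1) (nat_lit 403) (nat_lit 385) (nat_lit 352)) (XT.lf (nat_lit 76)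 (nat_lit 1290321186) (nat_lit 0) (nat_lit 679201185) (nat_lit 988) (nat_lit 1290321186) (nat_lit 422) (nat_lit 1) (nat_lit 421) (nat_lit 1) (nat_lit 434) (nat_lit 1) (nat_lit 404) (nat_lit 385) (nat_lit 351))))))))
noncomputable def ec25 : XT := (XT.nd (nat_lit 1404) (nat_lit 1900) (nat_lit 0) (XT.nd (nat_lit 702) (nat_lit 3572) (nat_lit 0) (XT.nd (nat_lit 312) (nat_lit 2356) (nat_lit 0) (XT.nd (nat_lit 156) (nat_lit 836) (nat_lit 0) (XT.nd (nat_lit 78) (nat_lit 0) (nat_lit 0) (XT.lf (nat_lit 912) (nat_lit 2207139349) (nat_lit 0) (nat_lit 512063289) (nat_lit 836) (nat_lit 512063289) (nat_lit 422) (nat_lit 1) (nat_lit 410) (nat_lit 1) (nat_lit 421) (nat_lit 1) (nat_lit 405) (nat_lit 385) (nat_lit 350)) (XT.lf (nat_lit 76) (nat_lit 913171549) (nat_lit 0) (nat_lit 1376618941) (nat_lit 912) (nat_lit 913171549) (nat_lit 411) (nat_lit 1) (nat_lit 410) (nat_lit 1) (nat_lit 422) (nat_lit 1) (nat_lit 406) (nat_lit 385) (nat_lit 349))) (XT.nd (nat_lit 78) (nat_lit 0) (nat_lit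 0) (XT.lf (nat_lit 912) (nat_lit 1443956738) (nat_lit 0) (nat_lit 865539405) (nat_lit 836) (nat_lit 865539405) (nat_lit 411) (nat_lit 1) (nat_lit 399) (nat_lit 1) (nat_lit 410) (nat_lit 1) (nat_lit 407) (nat_lit 385) (nat_lit 348)) (XT.lf (nat_lit 76) (nat_lit 529752761) (nat_lit 0) (nat_lit 2087963610) (nat_lit 912) (nat_lit 529752761) (nat_lit 400) (nat_lit 1) (nat_lit 399) (nat_lit 1) (nat_lit 411) (nat_lit 1) (nat_lit 408) (nat_lit 385) (nat_lit 347)))) (XT.nd (nat_lit 156) (nat_lit 1596) (nat_lit 0) (XT.nd (nat_lit 78) (nat_lit 0) (nat_lit 0) (XT.lf (nat_lit 836) (nat_lit 668855962) (nat_lit 0) (nat_lit 1225658963) (nat_lit 760) (nat_lit 1225658963) (nat_lit 400) (nat_lit 1) (nat_lit 389) (nat_lit 1) (nat_lit 399) (nat_lit 1) (nat_lit 409) (nat_lit 385) (nat_lit 346)) (XT.lf (nat_lit 76) (nat_lit 140718343) (nat_lit 0) (nat_lit 2811890306) (nat_lit 836) (nat_lit 140718343) (nat_lit 390) (nat_lit 1) (nat_lit 389) (nat_lit 1) (nat_lit 400) (nat_lit 1) (nat_lit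 410) (nat_lit 385) (nat_lit 345))) (XT.nd (nat_lit 78) (nat_lit 760) (nat_lit 0) (XT.lf (nat_lit 76) (nat_lit 1475638081) (nat_lit 0) (nat_lit 115352435) (nat_lit 836) (nat_lit 1475638081) (nat_lit 379) (nat_lit 1) (nat_lit 378) (nat_lit 1) (nat_lit 389) (nat_lit 1) (nat_lit 411) (nat_lit 385) (nat_lit 344)) (XT.nd (nat_lit 78) (nat_lit 0) (nat_lit 0) (XT.lf (nat_lit 836) (nat_lit 2537076779) (nat_lit 0) (nat_lit 251645072) (nat_lit 760) (nat_lit 251645072) (nat_lit 379) (nat_lit 1) (nat_lit 368) (nat_lit 1) (nat_lit 378) (nat_lit 1) (nat_lit 412) (nat_lit 385) (nat_lit 343)) (XT.lf (nat_lit 76) (nat_lit 1057098558) (nat_lit 0) (nat_lit 900093617) (nat_lit 836) (nat_lit 1057098558) (nat_lit 369) (nat_lit 1) (nat_lit 368) (nat_lit 1) (nat_lit 379) (nat_lit 1) (nat_lit 413) (nat_lit 385) (nat_lit 342)))))) (XT.nd (nat_lit 312) (nat_lit 2128) (nat_lit 0) (XT.nd (nat_lit 156) (nat_lit 684) (nat_lit 0) (XT.nd (nat_lit 78) (nat_lit 0) (nat_lit 0) (XT.lf (nat_lit 836)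 (nat_lit 1693687546) (nat_lit 0) (nat_lit 647461094) (nat_lit 760) (nat_lit 647461094) (nat_lit 369) (nat_lit 1) (nat_lit 358) (nat_lit 1) (nat_lit 368) (nat_lit 1) (nat_lit 414) (nat_lit 385) (nat_lit 341)) (XT.lf (nat_lit 76) (nat_lit 635103393) (nat_lit 0) (nat_lit 1693005564) (nat_lit 836) (nat_lit 635103393) (nat_lit 359) (nat_lit 1) (nat_lit 358) (nat_lit 1) (nat_lit 369) (nat_lit 1) (nat_lit 415) (nat_lit 385) (nat_lit 340))) (XT.nd (nat_lit 78) (nat_lit 0) (nat_lit 0) (XT.lf (nat_lit 760) (nat_lit 843891376) (nat_lit 0) (nat_lit 1047101591) (nat_lit 684) (nat_lit 1047101591) (nat_lit 359) (nat_lit 1) (nat_lit 349) (nat_lit 1) (nat_lit 358) (nat_lit 1) (nat_lit 416) (nat_lit 385) (nat_lit 339)) (XT.lf (nat_lit 76) (nat_lit 210173203) (nat_lit 0) (nat_lit 2493013284) (nat_lit 760) (nat_lit 210173203) (nat_lit 350) (nat_lit 1) (nat_lit 349) (nat_lit 1) (nat_lit 359) (nat_lit 1) (nat_lit 417) (nat_lit 385) (nat_lit 338)))) (XT.nd (nat_lit 156) (nat_lit 684)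 (nat_lit 0) (XT.nd (nat_lit 78) (nat_lit 684) (nat_lit 0) (XT.lf (nat_lit 76) (nat_lit 1438819867) (nat_lit 0) (nat_lit 11147023) (nat_lit 760) (nat_lit 1438819867) (nat_lit 340) (nat_lit 1) (nat_lit 339) (nat_lit 1) (nat_lit 349) (nat_lit 1) (nat_lit 418) (nat_lit 385) (nat_lit 337)) (XT.lf (nat_lit 760) (nat_lit 2433046339) (nat_lit 0) (nat_lit 215770241) (nat_lit 684) (nat_lit 215770241) (nat_lit 340) (nat_lit 1) (nat_lit 330) (nat_lit 1) (nat_lit 339) (nat_lit 1) (nat_lit 419) (nat_lit 385) (nat_lit 336))) (XT.nd (nat_lit 78) (nat_lit 684) (nat_lit 0) (XT.lf (nat_lit 76) (nat_lit 990528786) (nat_lit 0) (nat_lit 859487885) (nat_lit 760) (nat_lit 990528786) (nat_lit 331) (nat_lit 1) (nat_lit 330) (nat_lit 1) (nat_lit 340) (nat_lit 1) (nat_lit 420) (nat_lit 385) (nat_lit 335)) (XT.nd (nat_lit 78) (nat_lit 0) (nat_lit 0) (XT.lf (nat_lit 760) (nat_lit 1532276805) (nat_lit 0) (nat_lit 642293907) (nat_lit 684) (nat_lit 642293907) (nat_lit 331) (nat_lit 1) (nat_lit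 321) (nat_lit 1) (nat_lit 330) (nat_lit 1) (nat_lit 421) (nat_lit 385) (nat_lit 334)) (XT.lf (nat_lit 76) (nat_lit 541074066) (nat_lit 0) (nat_lit 1711301008) (nat_lit 760) (nat_lit 541074066) (nat_lit 322) (nat_lit 1) (nat_lit 321) (nat_lit 1) (nat_lit 331) (nat_lit 1) (nat_lit 422) (nat_lit 385) (nat_lit 333))))))) (XT.nd (nat_lit 55458) (nat_lit 0) (nat_lit 15428) (XT.nd (nat_lit 55068) (nat_lit 0) (nat_lit 15276) (XT.nd (nat_lit 156) (nat_lit 1292) (nat_lit 0) (XT.nd (nat_lit 78) (nat_lit 0) (nat_lit 0) (XT.lf (nat_lit 684) (nat_lit 629586952) (nat_lit 0) (nat_lit 1070342539) (nat_lit 608) (nat_lit 1070342539) (nat_lit 322) (nat_lit 1) (nat_lit 313) (nat_lit 1) (nat_lit 321) (nat_lit 1) (nat_lit 423) (nat_lit 385) (nat_lit 332)) (XT.lf (nat_lit 76) (nat_lit 90865035) (nat_lit 0) (nat_lit 2565737551) (nat_lit 684) (nat_lit 90865035) (nat_lit 314) (nat_lit 1) (nat_lit 313) (nat_lit 1) (nat_lit 322) (nat_lit 1) (nat_lit 424) (nat_lit 385) (nat_lit 331))) (XT.nd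 (nat_lit 78) (nat_lit 608) (nat_lit 0) (XT.lf (nat_lit 76) (nat_lit 1227057564) (nat_lit 0) (nat_lit 270628642) (nat_lit 684) (nat_lit 1227057564) (nat_lit 305) (nat_lit 1) (nat_lit 304) (nat_lit 1) (nat_lit 313) (nat_lit 1) (nat_lit 425) (nat_lit 385) (nat_lit 330)) (XT.lf (nat_lit 684) (nat_lit 1987693181) (nat_lit 0) (nat_lit 357345484) (nat_lit 608) (nat_lit 357345484) (nat_lit 305) (nat_lit 1) (nat_lit 296) (nat_lit 1) (nat_lit 304) (nat_lit 1) (nat_lit 426) (nat_lit 385) (nat_lit 329)))) (XT.nd (nat_lit 156) (nat_lit 0) (nat_lit 76) (XT.nd (nat_lit 78) (nat_lit 0) (nat_lit 0) (XT.lf (nat_lit 1900) (nat_lit 759602500) (nat_lit 0) (nat_lit 765954544) (nat_lit 1900) (nat_lit 759602500) (nat_lit 522) (nat_lit 1) (nat_lit 497) (nat_lit 0) (nat_lit 522) (nat_lit 0) (nat_lit 368) (nat_lit 386) (nat_lit 386)) (XT.lf (nat_lit 1900) (nat_lit 3003582495) (nat_lit 76) (nat_lit 760915369) (nat_lit 0) (nat_lit 760915369) (nat_lit 522) (nat_lit 1) (nat_lit 498) (nat_lit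 1) (nat_lit 497) (nat_lit 0) (nat_lit 369) (nat_lit 386) (nat_lit 385))) (XT.nd (nat_lit 78) (nat_lit 0) (nat_lit 0) (XT.lf (nat_lit 1900) (nat_lit 1474773302) (nat_lit 0) (nat_lit 1531451254) (nat_lit 1824) (nat_lit 1474773302) (nat_lit 523) (nat_lit 1) (nat_lit 498) (nat_lit 1) (nat_lit 522) (nat_lit 1) (nat_lit 370) (nat_lit 386) (nat_lit 384)) (XT.nd (nat_lit 78) (nat_lit 0) (nat_lit 76) (XT.lf (nat_lit 1900) (nat_lit 2886494904) (nat_lit 76) (nat_lit 775380457) (nat_lit 0) (nat_lit 775380457) (nat_lit 523) (nat_lit 1) (nat_lit 499) (nat_lit 1) (nat_lit 498) (nat_lit 1) (nat_lit 371) (nat_lit 386) (nat_lit 383)) (XT.lf (nat_lit 1900) (nat_lit 1402781826) (nat_lit 0) (nat_lit 1588432992) (nat_lit 1824) (nat_lit 1402781826) (nat_lit 524) (nat_lit 1) (nat_lit 499) (nat_lit 1) (nat_lit 523) (nat_lit 1) (nat_lit 372) (nat_lit 386) (nat_lit 382)))))) (XT.nd (nat_lit 312) (nat_lit 0) (nat_lit 152) (XT.nd (nat_lit 156) (nat_lit 0) (nat_lit 76) (XT.nd (nat_lit 78)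 (nat_lit 0) (nat_lit 76) (XT.lf (nat_lit 1900) (nat_lit 2715769069) (nat_lit 76) (nat_lit 817805856) (nat_lit 0) (nat_lit 817805856) (nat_lit 524) (nat_lit 1) (nat_lit 500) (nat_lit 1) (nat_lit 499) (nat_lit 1) (nat_lit 373) (nat_lit 386) (nat_lit 381)) (XT.lf (nat_lit 1900) (nat_lit 1304874969) (nat_lit 0) (nat_lit 1699497934) (nat_lit 1824) (nat_lit 1304874969) (nat_lit 525) (nat_lit 1) (nat_lit 500) (nat_lit 1) (nat_lit 524) (nat_lit 1) (nat_lit 374) (nat_lit 386) (nat_lit 380))) (XT.nd (nat_lit 78) (nat_lit 0) (nat_lit 76) (XT.lf (nat_lit 1900) (nat_lit 2494628708) (nat_lit 76) (nat_lit 886546579) (nat_lit 0) (nat_lit 886546579) (nat_lit 525) (nat_lit 1) (nat_lit 501) (nat_lit 1) (nat_lit 500) (nat_lit 1) (nat_lit 375) (nat_lit 386) (nat_lit 379)) (XT.lf (nat_lit 1900) (nat_lit 1182622018) (nat_lit 0) (nat_lit 1861442124) (nat_lit 1824) (nat_lit 1182622018) (nat_lit 526) (nat_lit 1) (nat_lit 501) (nat_lit 1) (nat_lit 525) (nat_lit 1) (nat_lit 376) (nat_lit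 386) (nat_lit 378)))) (XT.nd (nat_lit 156) (nat_lit 0) (nat_lit 76) (XT.nd (nat_lit 78) (nat_lit 0) (nat_lit 76) (XT.lf (nat_lit 1900) (nat_lit 2226149988) (nat_lit 76) (nat_lit 980032481) (nat_lit 0) (nat_lit 980032481) (nat_lit 526) (nat_lit 1) (nat_lit 502) (nat_lit 1) (nat_lit 501) (nat_lit 1) (nat_lit 377) (nat_lit 386) (nat_lit 377)) (XT.lf (nat_lit 1900) (nat_lit 1037520280) (nat_lit 0) (nat_lit 2071207662) (nat_lit 1824) (nat_lit 1037520280) (nat_lit 527) (nat_lit 1) (nat_lit 502) (nat_lit 1) (nat_lit 526) (nat_lit 1) (nat_lit 378) (nat_lit 386) (nat_lit 376))) (XT.nd (nat_lit 78) (nat_lit 0) (nat_lit 76) (XT.lf (nat_lit 1900) (nat_lit 1913267695) (nat_lit 76) (nat_lit 1096765138) (nat_lit 0) (nat_lit 1096765138) (nat_lit 527) (nat_lit 1) (nat_lit 503) (nat_lit 1) (nat_lit 502) (nat_lit 1) (nat_lit 379) (nat_lit 386) (nat_lit 375)) (XT.nd (nat_lit 78) (nat_lit 0) (nat_lit 0) (XT.lf (nat_lit 1900) (nat_lit 870998100) (nat_lit 0) (nat_lit 2325876610) (nat_lit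 1824) (nat_lit 870998100) (nat_lit 528) (nat_lit 1) (nat_lit 503) (nat_lit 1) (nat_lit 527) (nat_lit 1) (nat_lit 380) (nat_lit 386) (nat_lit 374)) (XT.lf (nat_lit 1900) (nat_lit 1558781151) (nat_lit 76) (nat_lit 1235314850) (nat_lit 0) (nat_lit 1235314850) (nat_lit 528) (nat_lit 1) (nat_lit 504) (nat_lit 1) (nat_lit 503) (nat_lit 1) (nat_lit 381) (nat_lit 386) (nat_lit 373))))))))
noncomputable def ec26 : XT := (XT.nd (nat_lit 1404) (nat_lit 8740) (nat_lit 0) (XT.nd (nat_lit 702) (nat_lit 2812) (nat_lit 0) (XT.nd (nat_lit 312) (nat_lit 1672) (nat_lit 0) (XT.nd (nat_lit 156) (nat_lit 0) (nat_lit 76) (XT.nd (nat_lit 78) (nat_lit 0) (nat_lit 0) (XT.lf (nat_lit 1900) (nat_lit 684417749) (nat_lit 0) (nat_lit 2622665138) (nat_lit 1824) (nat_lit 684417749) (nat_lit 529) (nat_lit 1) (nat_lit 504) (nat_lit 1) (nat_lit 528) (nat_lit 1) (nat_lit 382) (nat_lit 386) (nat_lit 372)) (XT.lf (nat_lit 1900) (nat_lit 1165359896) (nat_lit 76) (nat_lit 1394317771) (nat_lit 0) (nat_lit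 1394317771) (nat_lit 529) (nat_lit 1) (nat_lit 505) (nat_lit 1) (nat_lit 504) (nat_lit 1) (nat_lit 383) (nat_lit 386) (nat_lit 371))) (XT.nd (nat_lit 78) (nat_lit 0) (nat_lit 0) (XT.lf (nat_lit 1900) (nat_lit 479078197) (nat_lit 0) (nat_lit 2958917916) (nat_lit 1824) (nat_lit 479078197) (nat_lit 530) (nat_lit 1) (nat_lit 505) (nat_lit 1) (nat_lit 529) (nat_lit 1) (nat_lit 384) (nat_lit 386) (nat_lit 370)) (XT.lf (nat_lit 1900) (nat_lit 735549143) (nat_lit 76) (nat_lit 1572473143) (nat_lit 0) (nat_lit 1572473143) (nat_lit 530) (nat_lit 1) (nat_lit 506) (nat_lit 1) (nat_lit 505) (nat_lit 1) (nat_lit 385) (nat_lit 386) (nat_lit 369)))) (XT.nd (nat_lit 156) (nat_lit 1824) (nat_lit 0) (XT.nd (nat_lit 78) (nat_lit 0) (nat_lit 0) (XT.lf (nat_lit 1900) (nat_lit 256217776) (nat_lit 0) (nat_lit 3332102715) (nat_lit 1824) (nat_lit 256217776) (nat_lit 531) (nat_lit 1) (nat_lit 506) (nat_lit 1) (nat_lit 530) (nat_lit 1) (nat_lit 386) (nat_lit 386) (nat_lit 368)) (XT.lf (nat_lit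 1900) (nat_lit 271775010) (nat_lit 76) (nat_lit 1768540649) (nat_lit 0) (nat_lit 1768540649) (nat_lit 531) (nat_lit 1) (nat_lit 507) (nat_lit 1) (nat_lit 506) (nat_lit 1) (nat_lit 387) (nat_lit 386) (nat_lit 367))) (XT.nd (nat_lit 78) (nat_lit 1900) (nat_lit 0) (XT.lf (nat_lit 1900) (nat_lit 17016733) (nat_lit 0) (nat_lit 3739805240) (nat_lit 1824) (nat_lit 17016733) (nat_lit 532) (nat_lit 1) (nat_lit 507) (nat_lit 1) (nat_lit 531) (nat_lit 1) (nat_lit 388) (nat_lit 386) (nat_lit 366)) (XT.nd (nat_lit 78) (nat_lit 0) (nat_lit 0) (XT.lf (nat_lit 1976) (nat_lit 1759139504) (nat_lit 0) (nat_lit 220717242) (nat_lit 1900) (nat_lit 1759139504) (nat_lit 508) (nat_lit 1) (nat_lit 482) (nat_lit 1) (nat_lit 507) (nat_lit 1) (nat_lit 389) (nat_lit 386) (nat_lit 365)) (XT.lf (nat_lit 1976) (nat_lit 3233122874) (nat_lit 76) (nat_lit 235838470) (nat_lit 0) (nat_lit 235838470) (nat_lit 508) (nat_lit 1) (nat_lit 483) (nat_lit 1) (nat_lit 482) (nat_lit 1) (nat_lit 390) (nat_lit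 386) (nat_lit 364)))))) (XT.nd (nat_lit 312) (nat_lit 1824) (nat_lit 0) (XT.nd (nat_lit 156) (nat_lit 1064) (nat_lit 0) (XT.nd (nat_lit 78) (nat_lit 0) (nat_lit 0) (XT.lf (nat_lit 1976) (nat_lit 1466073312) (nat_lit 0) (nat_lit 738707439) (nat_lit 1900) (nat_lit 1466073312) (nat_lit 509) (nat_lit 1) (nat_lit 483) (nat_lit 1) (nat_lit 508) (nat_lit 1) (nat_lit 391) (nat_lit 386) (nat_lit 363)) (XT.lf (nat_lit 1976) (nat_lit 2632211955) (nat_lit 76) (nat_lit 502633335) (nat_lit 0) (nat_lit 502633335) (nat_lit 509) (nat_lit 1) (nat_lit 484) (nat_lit 1) (nat_lit 483) (nat_lit 1) (nat_lit 392) (nat_lit 386) (nat_lit 362))) (XT.nd (nat_lit 78) (nat_lit 1140) (nat_lit 0) (XT.lf (nat_lit 76) (nat_lit 1160363244) (nat_lit 0) (nat_lit 1283689316) (nat_lit 1900) (nat_lit 1160363244) (nat_lit 485) (nat_lit 1) (nat_lit 484) (nat_lit 1) (nat_lit 509) (nat_lit 1) (nat_lit 393) (nat_lit 386) (nat_lit 361)) (XT.lf (nat_lit 1216) (nat_lit 2006903256) (nat_lit 0) (nat_lit 782466212)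 (nat_lit 1140) (nat_lit 782466212) (nat_lit 485) (nat_lit 1) (nat_lit 469) (nat_lit 1) (nat_lit 484) (nat_lit 1) (nat_lit 394) (nat_lit 386) (nat_lit 360)))) (XT.nd (nat_lit 156) (nat_lit 912) (nat_lit 0) (XT.nd (nat_lit 78) (nat_lit 912) (nat_lit 0) (XT.lf (nat_lit 76) (nat_lit 842971335) (nat_lit 0) (nat_lit 1853691108) (nat_lit 1216) (nat_lit 842971335) (nat_lit 470) (nat_lit 1) (nat_lit 469) (nat_lit 1) (nat_lit 485) (nat_lit 1) (nat_lit 395) (nat_lit 386) (nat_lit 359)) (XT.lf (nat_lit 988) (nat_lit 1359080093) (nat_lit 0) (nat_lit 1074372034) (nat_lit 912) (nat_lit 1074372034) (nat_lit 470) (nat_lit 1) (nat_lit 457) (nat_lit 1) (nat_lit 469) (nat_lit 1) (nat_lit 396) (nat_lit 386) (nat_lit 358))) (XT.nd (nat_lit 78) (nat_lit 912) (nat_lit 0) (XT.lf (nat_lit 76) (nat_lit 514813028) (nat_lit 0) (nat_lit 2446835728) (nat_lit 988) (nat_lit 514813028) (nat_lit 458) (nat_lit 1) (nat_lit 457) (nat_lit 1) (nat_lit 470) (nat_lit 1) (nat_lit 397) (nat_lit 386) (nat_lit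 357)) (XT.nd (nat_lit 78) (nat_lit 0) (nat_lit 0) (XT.lf (nat_lit 988) (nat_lit 690534298) (nat_lit 0) (nat_lit 1377432208) (nat_lit 912) (nat_lit 1377432208) (nat_lit 458) (nat_lit 1) (nat_lit 445) (nat_lit 1) (nat_lit 457) (nat_lit 1) (nat_lit 398) (nat_lit 386) (nat_lit 356)) (XT.lf (nat_lit 76) (nat_lit 176759162) (nat_lit 0) (nat_lit 3061336733) (nat_lit 988) (nat_lit 176759162) (nat_lit 446) (nat_lit 1) (nat_lit 445) (nat_lit 1) (nat_lit 458) (nat_lit 1) (nat_lit 399) (nat_lit 386) (nat_lit 355))))))) (XT.nd (nat_lit 702) (nat_lit 4484) (nat_lit 0) (XT.nd (nat_lit 312) (nat_lit 1596) (nat_lit 0) (XT.nd (nat_lit 156) (nat_lit 836) (nat_lit 0) (XT.nd (nat_lit 78) (nat_lit 988) (nat_lit 0) (XT.lf (nat_lit 912) (nat_lit 2970132) (nat_lit 0) (nat_lit 1690772626) (nat_lit 836) (nat_lit 1690772626) (nat_lit 446) (nat_lit 1) (nat_lit 434) (nat_lit 1) (nat_lit 445) (nat_lit 1) (nat_lit 400) (nat_lit 386) (nat_lit 354)) (XT.lf (nat_lit 988) (nat_lit 3016198810) (nat_lit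 0) (nat_lit 169241313) (nat_lit 912) (nat_lit 169241313) (nat_lit 434) (nat_lit 1) (nat_lit 421) (nat_lit 1) (nat_lit 433) (nat_lit 1) (nat_lit 401) (nat_lit 386) (nat_lit 353))) (XT.nd (nat_lit 78) (nat_lit 836) (nat_lit 0) (XT.lf (nat_lit 76) (nat_lit 1316127609) (nat_lit 0) (nat_lit 692785209) (nat_lit 988) (nat_lit 1316127609) (nat_lit 422) (nat_lit 1) (nat_lit 421) (nat_lit 1) (nat_lit 434) (nat_lit 1) (nat_lit 402) (nat_lit 386) (nat_lit 352)) (XT.lf (nat_lit 912) (nat_lit 2251282136) (nat_lit 0) (nat_lit 522304555) (nat_lit 836) (nat_lit 522304555) (nat_lit 422) (nat_lit 1) (nat_lit 410) (nat_lit 1) (nat_lit 421) (nat_lit 1) (nat_lit 403) (nat_lit 386) (nat_lit 351)))) (XT.nd (nat_lit 156) (nat_lit 760) (nat_lit 0) (XT.nd (nat_lit 78) (nat_lit 836) (nat_lit 0) (XT.lf (nat_lit 76) (nat_lit 931434980) (nat_lit 0) (nat_lit 1404151320) (nat_lit 912) (nat_lit 931434980) (nat_lit 411) (nat_lit 1) (nat_lit 410) (nat_lit 1) (nat_lit 422) (nat_lit 1) (nat_lit 404)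 (nat_lit 386) (nat_lit 350)) (XT.lf (nat_lit 912) (nat_lit 1472835873) (nat_lit 0) (nat_lit 882850193) (nat_lit 836) (nat_lit 882850193) (nat_lit 411) (nat_lit 1) (nat_lit 399) (nat_lit 1) (nat_lit 410) (nat_lit 1) (nat_lit 405) (nat_lit 386) (nat_lit 349))) (XT.nd (nat_lit 78) (nat_lit 760) (nat_lit 0) (XT.lf (nat_lit 76) (nat_lit 540347816) (nat_lit 0) (nat_lit 2129722883) (nat_lit 912) (nat_lit 540347816) (nat_lit 400) (nat_lit 1) (nat_lit 399) (nat_lit 1) (nat_lit 411) (nat_lit 1) (nat_lit 406) (nat_lit 386) (nat_lit 348)) (XT.nd (nat_lit 78) (nat_lit 0) (nat_lit 0) (XT.lf (nat_lit 836) (nat_lit 682233081) (nat_lit 0) (nat_lit 1250172143) (nat_lit 760) (nat_lit 1250172143) (nat_lit 400) (nat_lit 1) (nat_lit 389) (nat_lit 1) (nat_lit 399) (nat_lit 1) (nat_lit 407) (nat_lit 386) (nat_lit 347)) (XT.lf (nat_lit 76) (nat_lit 143532710) (nat_lit 0) (nat_lit 2868128112) (nat_lit 836) (nat_lit 143532710) (nat_lit 390) (nat_lit 1) (nat_lit 389) (nat_lit 1) (nat_lit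 400) (nat_lit 1) (nat_lit 408) (nat_lit 386) (nat_lit 346)))))) (XT.nd (nat_lit 312) (nat_lit 2128) (nat_lit 0) (XT.nd (nat_lit 156) (nat_lit 760) (nat_lit 0) (XT.nd (nat_lit 78) (nat_lit 760) (nat_lit 0) (XT.lf (nat_lit 76) (nat_lit 1505150843) (nat_lit 0) (nat_lit 117659484) (nat_lit 836) (nat_lit 1505150843) (nat_lit 379) (nat_lit 1) (nat_lit 378) (nat_lit 1) (nat_lit 389) (nat_lit 1) (nat_lit 409) (nat_lit 386) (nat_lit 345)) (XT.lf (nat_lit 836) (nat_lit 2587818314) (nat_lit 0) (nat_lit 256677973) (nat_lit 760) (nat_lit 256677973) (nat_lit 379) (nat_lit 1) (nat_lit 368) (nat_lit 1) (nat_lit 378) (nat_lit 1) (nat_lit 410) (nat_lit 386) (nat_lit 344))) (XT.nd (nat_lit 78) (nat_lit 760) (nat_lit 0) (XT.lf (nat_lit 76) (nat_lit 1078240530) (nat_lit 0) (nat_lit 918095490) (nat_lit 836) (nat_lit 1078240530) (nat_lit 369) (nat_lit 1) (nat_lit 368) (nat_lit 1) (nat_lit 379) (nat_lit 1) (nat_lit 411) (nat_lit 386) (nat_lit 343)) (XT.lf (nat_lit 836) (nat_lit 1727561296)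 (nat_lit 0) (nat_lit 660410315) (nat_lit 760) (nat_lit 660410315) (nat_lit 369) (nat_lit 1) (nat_lit 358) (nat_lit 1) (nat_lit 368) (nat_lit 1) (nat_lit 412) (nat_lit 386) (nat_lit 342)))) (XT.nd (nat_lit 156) (nat_lit 1444) (nat_lit 0) (XT.nd (nat_lit 78) (nat_lit 684) (nat_lit 0) (XT.lf (nat_lit 76) (nat_lit 647805460) (nat_lit 0) (nat_lit 1726865675) (nat_lit 836) (nat_lit 647805460) (nat_lit 359) (nat_lit 1) (nat_lit 358) (nat_lit 1) (nat_lit 369) (nat_lit 1) (nat_lit 413) (nat_lit 386) (nat_lit 341)) (XT.lf (nat_lit 760) (nat_lit 860769203) (nat_lit 0) (nat_lit 1068043623) (nat_lit 684) (nat_lit 1068043623) (nat_lit 359) (nat_lit 1) (nat_lit 349) (nat_lit 1) (nat_lit 358) (nat_lit 1) (nat_lit 414) (nat_lit 386) (nat_lit 340))) (XT.nd (nat_lit 78) (nat_lit 1444) (nat_lit 0) (XT.lf (nat_lit 76) (nat_lit 214376667) (nat_lit 0) (nat_lit 2542873549) (nat_lit 760) (nat_lit 214376667) (nat_lit 350) (nat_lit 1) (nat_lit 349) (nat_lit 1) (nat_lit 359) (nat_lit 1)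 (nat_lit 415) (nat_lit 386) (nat_lit 339)) (XT.nd (nat_lit 78) (nat_lit 684) (nat_lit 0) (XT.lf (nat_lit 76) (nat_lit 1467596264) (nat_lit 0) (nat_lit 11369964) (nat_lit 760) (nat_lit 1467596264) (nat_lit 340) (nat_lit 1) (nat_lit 339) (nat_lit 1) (nat_lit 349) (nat_lit 1) (nat_lit 416) (nat_lit 386) (nat_lit 338)) (XT.lf (nat_lit 760) (nat_lit 2481707266) (nat_lit 0) (nat_lit 220085646) (nat_lit 684) (nat_lit 220085646) (nat_lit 340) (nat_lit 1) (nat_lit 330) (nat_lit 1) (nat_lit 339) (nat_lit 1) (nat_lit 417) (nat_lit 386) (nat_lit 337))))))))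
noncomputable def ec27 : XT := (XT.nd (nat_lit 56082) (nat_lit 0) (nat_lit 13148) (XT.nd (nat_lit 55380) (nat_lit 0) (nat_lit 15276) (XT.nd (nat_lit 312) (nat_lit 1292) (nat_lit 0) (XT.nd (nat_lit 156) (nat_lit 608) (nat_lit 0) (XT.nd (nat_lit 78) (nat_lit 684) (nat_lit 0) (XT.lf (nat_lit 76) (nat_lit 1010339362) (nat_lit 0) (nat_lit 876677643) (nat_lit 760) (nat_lit 1010339362) (nat_lit 331) (nat_lit 1) (nat_lit 330) (nat_lit 1) (nat_lit 340) (nat_lit 1) (nat_lit 418) (nat_lit 386) (nat_lit 336)) (XT.lf (nat_lit 760) (nat_lit 1562922341) (nat_lit 0) (nat_lit 655139785) (nat_lit 684) (nat_lit 655139785) (nat_lit 331) (nat_lit 1) (nat_lit 321) (nat_lit 1) (nat_lit 330) (nat_lit 1) (nat_lit 419) (nat_lit 386) (nat_lit 335))) (XT.nd (nat_lit 78) (nat_lit 608) (nat_lit 0) (XT.lf (nat_lit 76) (nat_lit 551895547) (nat_lit 0) (nat_lit 1745527028) (nat_lit 760) (nat_lit 551895547) (nat_lit 322) (nat_lit 1) (nat_lit 321) (nat_lit 1) (nat_lit 331) (nat_lit 1) (nat_lit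 420) (nat_lit 386) (nat_lit 334)) (XT.lf (nat_lit 684) (nat_lit 642178691) (nat_lit 0) (nat_lit 1091749390) (nat_lit 608) (nat_lit 1091749390) (nat_lit 322) (nat_lit 1) (nat_lit 313) (nat_lit 1) (nat_lit 321) (nat_lit 1) (nat_lit 421) (nat_lit 386) (nat_lit 333)))) (XT.nd (nat_lit 156) (nat_lit 608) (nat_lit 0) (XT.nd (nat_lit 78) (nat_lit 684) (nat_lit 0) (XT.lf (nat_lit 76) (nat_lit 92682336) (nat_lit 0) (nat_lit 2617052302) (nat_lit 684) (nat_lit 92682336) (nat_lit 314) (nat_lit 1) (nat_lit 313) (nat_lit 1) (nat_lit 322) (nat_lit 1) (nat_lit 422) (nat_lit 386) (nat_lit 332)) (XT.lf (nat_lit 76) (nat_lit 1251598716) (nat_lit 0) (nat_lit 276041215) (nat_lit 684) (nat_lit 1251598716) (nat_lit 305) (nat_lit 1) (nat_lit 304) (nat_lit 1) (nat_lit 313) (nat_lit 1) (nat_lit 423) (nat_lit 386) (nat_lit 331))) (XT.nd (nat_lit 78) (nat_lit 0) (nat_lit 0) (XT.lf (nat_lit 684) (nat_lit 2027447044) (nat_lit 0) (nat_lit 364492394) (nat_lit 608) (nat_lit 364492394) (nat_lit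 305) (nat_lit 1) (nat_lit 296) (nat_lit 1) (nat_lit 304) (nat_lit 1) (nat_lit 424) (nat_lit 386) (nat_lit 330)) (XT.nd (nat_lit 54756) (nat_lit 0) (nat_lit 15276) (XT.lf (nat_lit 76) (nat_lit 773799147) (nat_lit 0) (nat_lit 1186210646) (nat_lit 684) (nat_lit 773799147) (nat_lit 297) (nat_lit 1) (nat_lit 296) (nat_lit 1) (nat_lit 305) (nat_lit 1) (nat_lit 425) (nat_lit 386) (nat_lit 329)) (XT.lf (nat_lit 1900) (nat_lit 774794550) (nat_lit 0) (nat_lit 781273635) (nat_lit 1900) (nat_lit 774794550) (nat_lit 522) (nat_lit 1) (nat_lit 497) (nat_lit 0) (nat_lit 522) (nat_lit 0) (nat_lit 366) (nat_lit 387) (nat_lit 387)))))) (XT.nd (nat_lit 312) (nat_lit 0) (nat_lit 152) (XT.nd (nat_lit 156) (nat_lit 0) (nat_lit 76) (XT.nd (nat_lit 78) (nat_lit 0) (nat_lit 76) (XT.lf (nat_lit 1900) (nat_lit 3063654145) (nat_lit 76) (nat_lit 776133677) (nat_lit 0) (nat_lit 776133677) (nat_lit 522) (nat_lit 1) (nat_lit 498) (nat_lit 1) (nat_lit 497) (nat_lit 0) (nat_lit 367) (nat_lit 387)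 (nat_lit 386)) (XT.lf (nat_lit 1900) (nat_lit 1504268768) (nat_lit 0) (nat_lit 1562080280) (nat_lit 1824) (nat_lit 1504268768) (nat_lit 523) (nat_lit 1) (nat_lit 498) (nat_lit 1) (nat_lit 522) (nat_lit 1) (nat_lit 368) (nat_lit 387) (nat_lit 385))) (XT.nd (nat_lit 78) (nat_lit 0) (nat_lit 76) (XT.lf (nat_lit 1900) (nat_lit 2944224803) (nat_lit 76) (nat_lit 790888066) (nat_lit 0) (nat_lit 790888066) (nat_lit 523) (nat_lit 1) (nat_lit 499) (nat_lit 1) (nat_lit 498) (nat_lit 1) (nat_lit 369) (nat_lit 387) (nat_lit 384)) (XT.lf (nat_lit 1900) (nat_lit 1430837462) (nat_lit 0) (nat_lit 1620201652) (nat_lit 1824) (nat_lit 1430837462) (nat_lit 524) (nat_lit 1) (nat_lit 499) (nat_lit 1) (nat_lit 523) (nat_lit 1) (nat_lit 370) (nat_lit 387) (nat_lit 383)))) (XT.nd (nat_lit 156) (nat_lit 0) (nat_lit 76) (XT.nd (nat_lit 78) (nat_lit 0) (nat_lit 76) (XT.lf (nat_lit 1900) (nat_lit 2770084450) (nat_lit 76) (nat_lit 834161973) (nat_lit 0) (nat_lit 834161973) (nat_lit 524) (nat_lit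 1) (nat_lit 500) (nat_lit 1) (nat_lit 499) (nat_lit 1) (nat_lit 371) (nat_lit 387) (nat_lit 382)) (XT.lf (nat_lit 1900) (nat_lit 1330972469) (nat_lit 0) (nat_lit 1733487893) (nat_lit 1824) (nat_lit 1330972469) (nat_lit 525) (nat_lit 1) (nat_lit 500) (nat_lit 1) (nat_lit 524) (nat_lit 1) (nat_lit 372) (nat_lit 387) (nat_lit 381))) (XT.nd (nat_lit 78) (nat_lit 0) (nat_lit 76) (XT.lf (nat_lit 1900) (nat_lit 2544521282) (nat_lit 76) (nat_lit 904277511) (nat_lit 0) (nat_lit 904277511) (nat_lit 525) (nat_lit 1) (nat_lit 501) (nat_lit 1) (nat_lit 500) (nat_lit 1) (nat_lit 373) (nat_lit 387) (nat_lit 380)) (XT.nd (nat_lit 78) (nat_lit 0) (nat_lit 0) (XT.lf (nat_lit 1900) (nat_lit 1206274458) (nat_lit 0) (nat_lit 1898670967) (nat_lit 1824) (nat_lit 1206274458) (nat_lit 526) (nat_lit 1) (nat_lit 501) (nat_lit 1) (nat_lit 525) (nat_lit 1) (nat_lit 374) (nat_lit 387) (nat_lit 379)) (XT.lf (nat_lit 1900) (nat_lit 2270672988) (nat_lit 76) (nat_lit 999633131) (nat_lit 0) (nat_lit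 999633131) (nat_lit 526) (nat_lit 1) (nat_lit 502) (nat_lit 1) (nat_lit 501) (nat_lit 1) (nat_lit 375) (nat_lit 387) (nat_lit 378))))))) (XT.nd (nat_lit 702) (nat_lit 2508) (nat_lit 0) (XT.nd (nat_lit 312) (nat_lit 0) (nat_lit 152) (XT.nd (nat_lit 156) (nat_lit 0) (nat_lit 76) (XT.nd (nat_lit 78) (nat_lit 0) (nat_lit 0) (XT.lf (nat_lit 1900) (nat_lit 1058270685) (nat_lit 0) (nat_lit 2112631816) (nat_lit 1824) (nat_lit 1058270685) (nat_lit 527) (nat_lit 1) (nat_lit 502) (nat_lit 1) (nat_lit 526) (nat_lit 1) (nat_lit 376) (nat_lit 387) (nat_lit 377)) (XT.lf (nat_lit 1900) (nat_lit 1951533049) (nat_lit 76) (nat_lit 1118700440) (nat_lit 0) (nat_lit 1118700440) (nat_lit 527) (nat_lit 1) (nat_lit 503) (nat_lit 1) (nat_lit 502) (nat_lit 1) (nat_lit 377) (nat_lit 387) (nat_lit 376))) (XT.nd (nat_lit 78) (nat_lit 0) (nat_lit 0) (XT.lf (nat_lit 1900) (nat_lit 888418062) (nat_lit 0) (nat_lit 2372394142) (nat_lit 1824) (nat_lit 888418062) (nat_lit 528) (nat_lit 1) (nat_lit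 503) (nat_lit 1) (nat_lit 527) (nat_lit 1) (nat_lit 378) (nat_lit 387) (nat_lit 375)) (XT.lf (nat_lit 1900) (nat_lit 1589956774) (nat_lit 76) (nat_lit 1260021147) (nat_lit 0) (nat_lit 1260021147) (nat_lit 528) (nat_lit 1) (nat_lit 504) (nat_lit 1) (nat_lit 503) (nat_lit 1) (nat_lit 379) (nat_lit 387) (nat_lit 374)))) (XT.nd (nat_lit 156) (nat_lit 0) (nat_lit 76) (XT.nd (nat_lit 78) (nat_lit 0) (nat_lit 0) (XT.lf (nat_lit 1900) (nat_lit 698106104) (nat_lit 0) (nat_lit 2675118441) (nat_lit 1824) (nat_lit 698106104) (nat_lit 529) (nat_lit 1) (nat_lit 504) (nat_lit 1) (nat_lit 528) (nat_lit 1) (nat_lit 380) (nat_lit 387) (nat_lit 373)) (XT.lf (nat_lit 1900) (nat_lit 1188667094) (nat_lit 76) (nat_lit 1422204127) (nat_lit 0) (nat_lit 1422204127) (nat_lit 529) (nat_lit 1) (nat_lit 505) (nat_lit 1) (nat_lit 504) (nat_lit 1) (nat_lit 381) (nat_lit 387) (nat_lit 372))) (XT.nd (nat_lit 78) (nat_lit 0) (nat_lit 0) (XT.lf (nat_lit 1900) (nat_lit 488659761) (nat_lit 0) (nat_lit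 3018096274) (nat_lit 1824) (nat_lit 488659761) (nat_lit 530) (nat_lit 1) (nat_lit 505) (nat_lit 1) (nat_lit 529) (nat_lit 1) (nat_lit 382) (nat_lit 387) (nat_lit 371)) (XT.nd (nat_lit 78) (nat_lit 0) (nat_lit 76) (XT.lf (nat_lit 1900) (nat_lit 750260126) (nat_lit 76) (nat_lit 1603922606) (nat_lit 0) (nat_lit 1603922606) (nat_lit 530) (nat_lit 1) (nat_lit 506) (nat_lit 1) (nat_lit 505) (nat_lit 1) (nat_lit 383) (nat_lit 387) (nat_lit 370)) (XT.lf (nat_lit 1900) (nat_lit 261342131) (nat_lit 0) (nat_lit 3398744769) (nat_lit 1824) (nat_lit 261342131) (nat_lit 531) (nat_lit 1) (nat_lit 506) (nat_lit 1) (nat_lit 530) (nat_lit 1) (nat_lit 384) (nat_lit 387) (nat_lit 369)))))) (XT.nd (nat_lit 312) (nat_lit 988) (nat_lit 0) (XT.nd (nat_lit 156) (nat_lit 1824) (nat_lit 0) (XT.nd (nat_lit 78) (nat_lit 0) (nat_lit 76) (XT.lf (nat_lit 1900) (nat_lit 277210510) (nat_lit 76) (nat_lit 1803911462) (nat_lit 0) (nat_lit 1803911462) (nat_lit 531) (nat_lit 1) (nat_lit 507) (nat_lit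 1) (nat_lit 506) (nat_lit 1) (nat_lit 385) (nat_lit 387) (nat_lit 368)) (XT.lf (nat_lit 1900) (nat_lit 17357068) (nat_lit 0) (nat_lit 3814601345) (nat_lit 1824) (nat_lit 17357068) (nat_lit 532) (nat_lit 1) (nat_lit 507) (nat_lit 1) (nat_lit 531) (nat_lit 1) (nat_lit 386) (nat_lit 387) (nat_lit 367))) (XT.nd (nat_lit 78) (nat_lit 0) (nat_lit 0) (XT.lf (nat_lit 1976) (nat_lit 1794322295) (nat_lit 0) (nat_lit 225131587) (nat_lit 1900) (nat_lit 1794322295) (nat_lit 508) (nat_lit 1) (nat_lit 482) (nat_lit 1) (nat_lit 507) (nat_lit 1) (nat_lit 387) (nat_lit 387) (nat_lit 366)) (XT.lf (nat_lit 1976) (nat_lit 3297785331) (nat_lit 76) (nat_lit 240555240) (nat_lit 0) (nat_lit 240555240) (nat_lit 508) (nat_lit 1) (nat_lit 483) (nat_lit 1) (nat_lit 482) (nat_lit 1) (nat_lit 388) (nat_lit 387) (nat_lit 365)))) (XT.nd (nat_lit 156) (nat_lit 1064) (nat_lit 0) (XT.nd (nat_lit 78) (nat_lit 0) (nat_lit 0) (XT.lf (nat_lit 1976) (nat_lit 1495394779) (nat_lit 0) (nat_lit 753481588)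 (nat_lit 1900) (nat_lit 1495394779) (nat_lit 509) (nat_lit 1) (nat_lit 483) (nat_lit 1) (nat_lit 508) (nat_lit 1) (nat_lit 389) (nat_lit 387) (nat_lit 364)) (XT.lf (nat_lit 1976) (nat_lit 2684856194) (nat_lit 76) (nat_lit 512686002) (nat_lit 0) (nat_lit 512686002) (nat_lit 509) (nat_lit 1) (nat_lit 484) (nat_lit 1) (nat_lit 483) (nat_lit 1) (nat_lit 390) (nat_lit 387) (nat_lit 363))) (XT.nd (nat_lit 78) (nat_lit 1140) (nat_lit 0) (XT.lf (nat_lit 76) (nat_lit 1183570509) (nat_lit 0) (nat_lit 1309363102) (nat_lit 1900) (nat_lit 1183570509) (nat_lit 485) (nat_lit 1) (nat_lit 484) (nat_lit 1) (nat_lit 509) (nat_lit 1) (nat_lit 391) (nat_lit 387) (nat_lit 362)) (XT.nd (nat_lit 78) (nat_lit 0) (nat_lit 0) (XT.lf (nat_lit 1216) (nat_lit 2047041321) (nat_lit 0) (nat_lit 798115536) (nat_lit 1140) (nat_lit 798115536) (nat_lit 485) (nat_lit 1) (nat_lit 469) (nat_lit 1) (nat_lit 484) (nat_lit 1) (nat_lit 392) (nat_lit 387) (nat_lit 361)) (XT.lf (nat_lit 76) (nat_lit 859830762)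 (nat_lit 0) (nat_lit 1890764930) (nat_lit 1216) (nat_lit 859830762) (nat_lit 470) (nat_lit 1) (nat_lit 469) (nat_lit 1) (nat_lit 485) (nat_lit 1) (nat_lit 393) (nat_lit 387) (nat_lit 360))))))))
noncomputable def ec28 : XT := (XT.nd (nat_lit 1404) (nat_lit 5320) (nat_lit 0) (XT.nd (nat_lit 702) (nat_lit 3952) (nat_lit 0) (XT.nd (nat_lit 312) (nat_lit 2660) (nat_lit 0) (XT.nd (nat_lit 156) (nat_lit 912) (nat_lit 0) (XT.nd (nat_lit 78) (nat_lit 0) (nat_lit 0) (XT.lf (nat_lit 988) (nat_lit 1386261695) (nat_lit 0) (nat_lit 1095859475) (nat_lit 912) (nat_lit 1095859475) (nat_lit 470) (nat_lit 1) (nat_lit 457) (nat_lit 1) (nat_lit 469) (nat_lit 1) (nat_lit 394) (nat_lit 387) (nat_lit 359)) (XT.lf (nat_lit 76) (nat_lit 525109288) (nat_lit 0) (nat_lit 2495772442) (nat_lit 988) (nat_lit 525109288) (nat_lit 458) (nat_lit 1) (nat_lit 457) (nat_lit 1) (nat_lit 470) (nat_lit 1) (nat_lit 395) (nat_lit 387) (nat_lit 358))) (XT.nd (nat_lit 78) (nat_lit 0) (nat_lit 0) (XT.lf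 (nat_lit 988) (nat_lit 704344984) (nat_lit 0) (nat_lit 1404980852) (nat_lit 912) (nat_lit 1404980852) (nat_lit 458) (nat_lit 1) (nat_lit 445) (nat_lit 1) (nat_lit 457) (nat_lit 1) (nat_lit 396) (nat_lit 387) (nat_lit 357)) (XT.lf (nat_lit 76) (nat_lit 180294345) (nat_lit 0) (nat_lit 3122563467) (nat_lit 988) (nat_lit 180294345) (nat_lit 446) (nat_lit 1) (nat_lit 445) (nat_lit 1) (nat_lit 458) (nat_lit 1) (nat_lit 397) (nat_lit 387) (nat_lit 356)))) (XT.nd (nat_lit 156) (nat_lit 836) (nat_lit 0) (XT.nd (nat_lit 78) (nat_lit 988) (nat_lit 0) (XT.lf (nat_lit 912) (nat_lit 3029535) (nat_lit 0) (nat_lit 1724588078) (nat_lit 836) (nat_lit 1724588078) (nat_lit 446) (nat_lit 1) (nat_lit 434) (nat_lit 1) (nat_lit 445) (nat_lit 1) (nat_lit 398) (nat_lit 387) (nat_lit 355)) (XT.lf (nat_lit 988) (nat_lit 3076522786) (nat_lit 0) (nat_lit 172626140) (nat_lit 912) (nat_lit 172626140) (nat_lit 434) (nat_lit 1) (nat_lit 421) (nat_lit 1) (nat_lit 433) (nat_lit 1) (nat_lit 399)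 (nat_lit 387) (nat_lit 354))) (XT.nd (nat_lit 78) (nat_lit 836) (nat_lit 0) (XT.lf (nat_lit 76) (nat_lit 1342450161) (nat_lit 0) (nat_lit 706640913) (nat_lit 988) (nat_lit 1342450161) (nat_lit 422) (nat_lit 1) (nat_lit 421) (nat_lit 1) (nat_lit 434) (nat_lit 1) (nat_lit 400) (nat_lit 387) (nat_lit 353)) (XT.nd (nat_lit 78) (nat_lit 0) (nat_lit 0) (XT.lf (nat_lit 912) (nat_lit 2296307779) (nat_lit 0) (nat_lit 532750646) (nat_lit 836) (nat_lit 532750646) (nat_lit 422) (nat_lit 1) (nat_lit 410) (nat_lit 1) (nat_lit 421) (nat_lit 1) (nat_lit 401) (nat_lit 387) (nat_lit 352)) (XT.lf (nat_lit 76) (nat_lit 950063680) (nat_lit 0) (nat_lit 1432234346) (nat_lit 912) (nat_lit 950063680) (nat_lit 411) (nat_lit 1) (nat_lit 410) (nat_lit 1) (nat_lit 422) (nat_lit 1) (nat_lit 402) (nat_lit 387) (nat_lit 351)))))) (XT.nd (nat_lit 312) (nat_lit 2356) (nat_lit 0) (XT.nd (nat_lit 156) (nat_lit 760) (nat_lit 0) (XT.nd (nat_lit 78) (nat_lit 0) (nat_lit 0) (XT.lf (nat_lit 912) (nat_lit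 1502292590) (nat_lit 0) (nat_lit 900507197) (nat_lit 836) (nat_lit 900507197) (nat_lit 411) (nat_lit 1) (nat_lit 399) (nat_lit 1) (nat_lit 410) (nat_lit 1) (nat_lit 403) (nat_lit 387) (nat_lit 350)) (XT.lf (nat_lit 76) (nat_lit 551154772) (nat_lit 0) (nat_lit 2172317340) (nat_lit 912) (nat_lit 551154772) (nat_lit 400) (nat_lit 1) (nat_lit 399) (nat_lit 1) (nat_lit 411) (nat_lit 1) (nat_lit 404) (nat_lit 387) (nat_lit 349))) (XT.nd (nat_lit 78) (nat_lit 0) (nat_lit 0) (XT.lf (nat_lit 836) (nat_lit 695877743) (nat_lit 0) (nat_lit 1275175585) (nat_lit 760) (nat_lit 1275175585) (nat_lit 400) (nat_lit 1) (nat_lit 389) (nat_lit 1) (nat_lit 399) (nat_lit 1) (nat_lit 405) (nat_lit 387) (nat_lit 348)) (XT.lf (nat_lit 76) (nat_lit 146403364) (nat_lit 0) (nat_lit 2925490674) (nat_lit 836) (nat_lit 146403364) (nat_lit 390) (nat_lit 1) (nat_lit 389) (nat_lit 1) (nat_lit 400) (nat_lit 1) (nat_lit 406) (nat_lit 387) (nat_lit 347)))) (XT.nd (nat_lit 156) (nat_lit 760) (nat_lit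 0) (XT.nd (nat_lit 78) (nat_lit 760) (nat_lit 0) (XT.lf (nat_lit 76) (nat_lit 1535253860) (nat_lit 0) (nat_lit 120012673) (nat_lit 836) (nat_lit 1535253860) (nat_lit 379) (nat_lit 1) (nat_lit 378) (nat_lit 1) (nat_lit 389) (nat_lit 1) (nat_lit 407) (nat_lit 387) (nat_lit 346)) (XT.lf (nat_lit 836) (nat_lit 2639574680) (nat_lit 0) (nat_lit 261811533) (nat_lit 760) (nat_lit 261811533) (nat_lit 379) (nat_lit 1) (nat_lit 368) (nat_lit 1) (nat_lit 378) (nat_lit 1) (nat_lit 408) (nat_lit 387) (nat_lit 345))) (XT.nd (nat_lit 78) (nat_lit 760) (nat_lit 0) (XT.lf (nat_lit 76) (nat_lit 1099805340) (nat_lit 0) (nat_lit 936457400) (nat_lit 836) (nat_lit 1099805340) (nat_lit 369) (nat_lit 1) (nat_lit 368) (nat_lit 1) (nat_lit 379) (nat_lit 1) (nat_lit 409) (nat_lit 387) (nat_lit 344)) (XT.nd (nat_lit 78) (nat_lit 0) (nat_lit 0) (XT.lf (nat_lit 836) (nat_lit 1762112522) (nat_lit 0) (nat_lit 673618522) (nat_lit 760) (nat_lit 673618522) (nat_lit 369) (nat_lit 1) (nat_lit 358)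 (nat_lit 1) (nat_lit 368) (nat_lit 1) (nat_lit 410) (nat_lit 387) (nat_lit 343)) (XT.lf (nat_lit 76) (nat_lit 660761570) (nat_lit 0) (nat_lit 1761402989) (nat_lit 836) (nat_lit 660761570) (nat_lit 359) (nat_lit 1) (nat_lit 358) (nat_lit 1) (nat_lit 369) (nat_lit 1) (nat_lit 411) (nat_lit 387) (nat_lit 342))))))) (XT.nd (nat_lit 702) (nat_lit 1900) (nat_lit 0) (XT.nd (nat_lit 312) (nat_lit 1292) (nat_lit 0) (XT.nd (nat_lit 156) (nat_lit 1444) (nat_lit 0) (XT.nd (nat_lit 78) (nat_lit 0) (nat_lit 0) (XT.lf (nat_lit 760) (nat_lit 877984587) (nat_lit 0) (nat_lit 1089404495) (nat_lit 684) (nat_lit 1089404495) (nat_lit 359) (nat_lit 1) (nat_lit 349) (nat_lit 1) (nat_lit 358) (nat_lit 1) (nat_lit 412) (nat_lit 387) (nat_lit 341)) (XT.lf (nat_lit 76) (nat_lit 218664201) (nat_lit 0) (nat_lit 2593731020) (nat_lit 760) (nat_lit 218664201) (nat_lit 350) (nat_lit 1) (nat_lit 349) (nat_lit 1) (nat_lit 359) (nat_lit 1) (nat_lit 413) (nat_lit 387) (nat_lit 340))) (XT.nd (nat_lit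 78) (nat_lit 684) (nat_lit 0) (XT.lf (nat_lit 76) (nat_lit 1496948189) (nat_lit 0) (nat_lit 11597363) (nat_lit 760) (nat_lit 1496948189) (nat_lit 340) (nat_lit 1) (nat_lit 339) (nat_lit 1) (nat_lit 349) (nat_lit 1) (nat_lit 414) (nat_lit 387) (nat_lit 339)) (XT.lf (nat_lit 760) (nat_lit 2531341411) (nat_lit 0) (nat_lit 224487359) (nat_lit 684) (nat_lit 224487359) (nat_lit 340) (nat_lit 1) (nat_lit 330) (nat_lit 1) (nat_lit 339) (nat_lit 1) (nat_lit 415) (nat_lit 387) (nat_lit 338)))) (XT.nd (nat_lit 156) (nat_lit 608) (nat_lit 0) (XT.nd (nat_lit 78) (nat_lit 684) (nat_lit 0) (XT.lf (nat_lit 76) (nat_lit 1030546149) (nat_lit 0) (nat_lit 894211196) (nat_lit 760) (nat_lit 1030546149) (nat_lit 331) (nat_lit 1) (nat_lit 330) (nat_lit 1) (nat_lit 340) (nat_lit 1) (nat_lit 416) (nat_lit 387) (nat_lit 337)) (XT.lf (nat_lit 760) (nat_lit 1594180788) (nat_lit 0) (nat_lit 668242581) (nat_lit 684) (nat_lit 668242581) (nat_lit 331) (nat_lit 1) (nat_lit 321) (nat_lit 1) (nat_lit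 330) (nat_lit 1) (nat_lit 417) (nat_lit 387) (nat_lit 336))) (XT.nd (nat_lit 78) (nat_lit 608) (nat_lit 0) (XT.lf (nat_lit 76) (nat_lit 562933458) (nat_lit 0) (nat_lit 1780437569) (nat_lit 760) (nat_lit 562933458) (nat_lit 322) (nat_lit 1) (nat_lit 321) (nat_lit 1) (nat_lit 331) (nat_lit 1) (nat_lit 418) (nat_lit 387) (nat_lit 335)) (XT.nd (nat_lit 78) (nat_lit 0) (nat_lit 0) (XT.lf (nat_lit 684) (nat_lit 655022265) (nat_lit 0) (nat_lit 1113584378) (nat_lit 608) (nat_lit 1113584378) (nat_lit 322) (nat_lit 1) (nat_lit 313) (nat_lit 1) (nat_lit 321) (nat_lit 1) (nat_lit 419) (nat_lit 387) (nat_lit 334)) (XT.lf (nat_lit 76) (nat_lit 94535983) (nat_lit 0) (nat_lit 2669393348) (nat_lit 684) (nat_lit 94535983) (nat_lit 314) (nat_lit 1) (nat_lit 313) (nat_lit 1) (nat_lit 322) (nat_lit 1) (nat_lit 420) (nat_lit 387) (nat_lit 333)))))) (XT.nd (nat_lit 312) (nat_lit 0) (nat_lit 0) (XT.nd (nat_lit 156) (nat_lit 608) (nat_lit 0) (XT.nd (nat_lit 78) (nat_lit 608) (nat_lit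 0) (XT.lf (nat_lit 76) (nat_lit 1276630690) (nat_lit 0) (nat_lit 281562039) (nat_lit 684) (nat_lit 1276630690) (nat_lit 305) (nat_lit 1) (nat_lit 304) (nat_lit 1) (nat_lit 313) (nat_lit 1) (nat_lit 421) (nat_lit 387) (nat_lit 332)) (XT.lf (nat_lit 684) (nat_lit 2067995985) (nat_lit 0) (nat_lit 371782242) (nat_lit 608) (nat_lit 371782242) (nat_lit 305) (nat_lit 1) (nat_lit 296) (nat_lit 1) (nat_lit 304) (nat_lit 1) (nat_lit 422) (nat_lit 387) (nat_lit 331))) (XT.nd (nat_lit 78) (nat_lit 608) (nat_lit 0) (XT.lf (nat_lit 76) (nat_lit 789275130) (nat_lit 0) (nat_lit 1209934858) (nat_lit 684) (nat_lit 789275130) (nat_lit 297) (nat_lit 1) (nat_lit 296) (nat_lit 1) (nat_lit 305) (nat_lit 1) (nat_lit 423) (nat_lit 387) (nat_lit 330)) (XT.lf (nat_lit 684) (nat_lit 1090741412) (nat_lit 0) (nat_lit 837482366) (nat_lit 608) (nat_lit 837482366) (nat_lit 297) (nat_lit 1) (nat_lit 288) (nat_lit 1) (nat_lit 296) (nat_lit 1) (nat_lit 424) (nat_lit 387) (nat_lit 329)))) (XT.nd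 (nat_lit 54678) (nat_lit 0) (nat_lit 15884) (XT.nd (nat_lit 54600) (nat_lit 0) (nat_lit 15884) (XT.lf (nat_lit 76) (nat_lit 302636995) (nat_lit 0) (nat_lit 2137958192) (nat_lit 684) (nat_lit 302636995) (nat_lit 289) (nat_lit 1) (nat_lit 288) (nat_lit 1) (nat_lit 297) (nat_lit 1) (nat_lit 425) (nat_lit 387) (nat_lit 328)) (XT.lf (nat_lit 1900) (nat_lit 790290442) (nat_lit 0) (nat_lit 796899108) (nat_lit 1900) (nat_lit 790290442) (nat_lit 522) (nat_lit 1) (nat_lit 497) (nat_lit 0) (nat_lit 522) (nat_lit 0) (nat_lit 364) (nat_lit 388) (nat_lit 388))) (XT.nd (nat_lit 78) (nat_lit 0) (nat_lit 76) (XT.lf (nat_lit 1900) (nat_lit 3124927228) (nat_lit 76) (nat_lit 791656350) (nat_lit 0) (nat_lit 791656350) (nat_lit 522) (nat_lit 1) (nat_lit 498) (nat_lit 1) (nat_lit 497) (nat_lit 0) (nat_lit 365) (nat_lit 388) (nat_lit 387)) (XT.nd (nat_lit 78) (nat_lit 0) (nat_lit 0) (XT.lf (nat_lit 1900) (nat_lit 1534354144) (nat_lit 0) (nat_lit 1593321885) (nat_lit 1824) (nat_lit 1534354144)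 (nat_lit 523) (nat_lit 1) (nat_lit 498) (nat_lit 1) (nat_lit 522) (nat_lit 1) (nat_lit 366) (nat_lit 388) (nat_lit 386)) (XT.lf (nat_lit 1900) (nat_lit 3003109299) (nat_lit 76) (nat_lit 806705827) (nat_lit 0) (nat_lit 806705827) (nat_lit 523) (nat_lit 1) (nat_lit 499) (nat_lit 1) (nat_lit 498) (nat_lit 1) (nat_lit 367) (nat_lit 388) (nat_lit 385))))))))
noncomputable def ec29 : XT := (XT.nd (nat_lit 1404) (nat_lit 7068) (nat_lit 0) (XT.nd (nat_lit 702) (nat_lit 1292) (nat_lit 0) (XT.nd (nat_lit 312) (nat_lit 0) (nat_lit 152) (XT.nd (nat_lit 156) (nat_lit 0) (nat_lit 76) (XT.nd (nat_lit 78) (nat_lit 0) (nat_lit 0) (XT.lf (nat_lit 1900) (nat_lit 1459454211) (nat_lit 0) (nat_lit 1652605685) (nat_lit 1824) (nat_lit 1459454211) (nat_lit 524) (nat_lit 1) (nat_lit 499) (nat_lit 1) (nat_lit 523) (nat_lit 1) (nat_lit 368) (nat_lit 388) (nat_lit 384)) (XT.lf (nat_lit 1900) (nat_lit 2825486139) (nat_lit 76) (nat_lit 850845213) (nat_lit 0) (nat_lit 850845213) (nat_lit 524)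 (nat_lit 1) (nat_lit 500) (nat_lit 1) (nat_lit 499) (nat_lit 1) (nat_lit 369) (nat_lit 388) (nat_lit 383))) (XT.nd (nat_lit 78) (nat_lit 0) (nat_lit 0) (XT.lf (nat_lit 1900) (nat_lit 1357591918) (nat_lit 0) (nat_lit 1768157651) (nat_lit 1824) (nat_lit 1357591918) (nat_lit 525) (nat_lit 1) (nat_lit 500) (nat_lit 1) (nat_lit 524) (nat_lit 1) (nat_lit 370) (nat_lit 388) (nat_lit 382)) (XT.lf (nat_lit 1900) (nat_lit 2595411707) (nat_lit 76) (nat_lit 922363061) (nat_lit 0) (nat_lit 922363061) (nat_lit 525) (nat_lit 1) (nat_lit 501) (nat_lit 1) (nat_lit 500) (nat_lit 1) (nat_lit 371) (nat_lit 388) (nat_lit 381)))) (XT.nd (nat_lit 156) (nat_lit 0) (nat_lit 76) (XT.nd (nat_lit 78) (nat_lit 0) (nat_lit 0) (XT.lf (nat_lit 1900) (nat_lit 1230399947) (nat_lit 0) (nat_lit 1936644386) (nat_lit 1824) (nat_lit 1230399947) (nat_lit 526) (nat_lit 1) (nat_lit 501) (nat_lit 1) (nat_lit 525) (nat_lit 1) (nat_lit 372) (nat_lit 388) (nat_lit 380)) (XT.lf (nat_lit 1900) (nat_lit 2316086448)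 (nat_lit 76) (nat_lit 1019625793) (nat_lit 0) (nat_lit 1019625793) (nat_lit 526) (nat_lit 1) (nat_lit 502) (nat_lit 1) (nat_lit 501) (nat_lit 1) (nat_lit 373) (nat_lit 388) (nat_lit 379))) (XT.nd (nat_lit 78) (nat_lit 0) (nat_lit 0) (XT.lf (nat_lit 1900) (nat_lit 1079436099) (nat_lit 0) (nat_lit 2154884452) (nat_lit 1824) (nat_lit 1079436099) (nat_lit 527) (nat_lit 1) (nat_lit 502) (nat_lit 1) (nat_lit 526) (nat_lit 1) (nat_lit 374) (nat_lit 388) (nat_lit 378)) (XT.nd (nat_lit 78) (nat_lit 0) (nat_lit 76) (XT.lf (nat_lit 1900) (nat_lit 1990563710) (nat_lit 76) (nat_lit 1141074449) (nat_lit 0) (nat_lit 1141074449) (nat_lit 527) (nat_lit 1) (nat_lit 503) (nat_lit 1) (nat_lit 502) (nat_lit 1) (nat_lit 375) (nat_lit 388) (nat_lit 377)) (XT.lf (nat_lit 1900) (nat_lit 906186423) (nat_lit 0) (nat_lit 2419842025) (nat_lit 1824) (nat_lit 906186423) (nat_lit 528) (nat_lit 1) (nat_lit 503) (nat_lit 1) (nat_lit 527) (nat_lit 1) (nat_lit 376) (nat_lit 388) (nat_lit 376))))))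 (XT.nd (nat_lit 312) (nat_lit 1596) (nat_lit 0) (XT.nd (nat_lit 156) (nat_lit 0) (nat_lit 76) (XT.nd (nat_lit 78) (nat_lit 0) (nat_lit 76) (XT.lf (nat_lit 1900) (nat_lit 1621755909) (nat_lit 76) (nat_lit 1285221570) (nat_lit 0) (nat_lit 1285221570) (nat_lit 528) (nat_lit 1) (nat_lit 504) (nat_lit 1) (nat_lit 503) (nat_lit 1) (nat_lit 377) (nat_lit 388) (nat_lit 375)) (XT.lf (nat_lit 1900) (nat_lit 712068226) (nat_lit 0) (nat_lit 2728620810) (nat_lit 1824) (nat_lit 712068226) (nat_lit 529) (nat_lit 1) (nat_lit 504) (nat_lit 1) (nat_lit 528) (nat_lit 1) (nat_lit 378) (nat_lit 388) (nat_lit 374))) (XT.nd (nat_lit 78) (nat_lit 0) (nat_lit 76) (XT.lf (nat_lit 1900) (nat_lit 1212440436) (nat_lit 76) (nat_lit 1450648209) (nat_lit 0) (nat_lit 1450648209) (nat_lit 529) (nat_lit 1) (nat_lit 505) (nat_lit 1) (nat_lit 504) (nat_lit 1) (nat_lit 379) (nat_lit 388) (nat_lit 373)) (XT.lf (nat_lit 1900) (nat_lit 498432956) (nat_lit 0) (nat_lit 3078458200) (nat_lit 1824) (nat_lit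 498432956) (nat_lit 530) (nat_lit 1) (nat_lit 505) (nat_lit 1) (nat_lit 529) (nat_lit 1) (nat_lit 380) (nat_lit 388) (nat_lit 372)))) (XT.nd (nat_lit 156) (nat_lit 1748) (nat_lit 0) (XT.nd (nat_lit 78) (nat_lit 0) (nat_lit 76) (XT.lf (nat_lit 1900) (nat_lit 765265328) (nat_lit 76) (nat_lit 1636001058) (nat_lit 0) (nat_lit 1636001058) (nat_lit 530) (nat_lit 1) (nat_lit 506) (nat_lit 1) (nat_lit 505) (nat_lit 1) (nat_lit 381) (nat_lit 388) (nat_lit 371)) (XT.lf (nat_lit 1900) (nat_lit 266568974) (nat_lit 0) (nat_lit 3466719664) (nat_lit 1824) (nat_lit 266568974) (nat_lit 531) (nat_lit 1) (nat_lit 506) (nat_lit 1) (nat_lit 530) (nat_lit 1) (nat_lit 382) (nat_lit 388) (nat_lit 370))) (XT.nd (nat_lit 78) (nat_lit 1824) (nat_lit 0) (XT.lf (nat_lit 1900) (nat_lit 282754720) (nat_lit 76) (nat_lit 1839989692) (nat_lit 0) (nat_lit 1839989692) (nat_lit 531) (nat_lit 1) (nat_lit 507) (nat_lit 1) (nat_lit 506) (nat_lit 1) (nat_lit 383) (nat_lit 388) (nat_lit 369)) (XT.nd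 (nat_lit 78) (nat_lit 1900) (nat_lit 0) (XT.lf (nat_lit 1900) (nat_lit 17704209) (nat_lit 0) (nat_lit 3890893372) (nat_lit 1824) (nat_lit 17704209) (nat_lit 532) (nat_lit 1) (nat_lit 507) (nat_lit 1) (nat_lit 531) (nat_lit 1) (nat_lit 384) (nat_lit 388) (nat_lit 368)) (XT.lf (nat_lit 1976) (nat_lit 1830208740) (nat_lit 0) (nat_lit 229634219) (nat_lit 1900) (nat_lit 1830208740) (nat_lit 508) (nat_lit 1) (nat_lit 482) (nat_lit 1) (nat_lit 507) (nat_lit 1) (nat_lit 385) (nat_lit 388) (nat_lit 367))))))) (XT.nd (nat_lit 702) (nat_lit 4256) (nat_lit 0) (XT.nd (nat_lit 312) (nat_lit 2812) (nat_lit 0) (XT.nd (nat_lit 156) (nat_lit 0) (nat_lit 76) (XT.nd (nat_lit 78) (nat_lit 0) (nat_lit 76) (XT.lf (nat_lit 1976) (nat_lit 3363741038) (nat_lit 76) (nat_lit 245366344) (nat_lit 0) (nat_lit 245366344) (nat_lit 508) (nat_lit 1) (nat_lit 483) (nat_lit 1) (nat_lit 482) (nat_lit 1) (nat_lit 386) (nat_lit 388) (nat_lit 366)) (XT.lf (nat_lit 1976) (nat_lit 1525302674) (nat_lit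 0) (nat_lit 768551220) (nat_lit 1900) (nat_lit 1525302674) (nat_lit 509) (nat_lit 1) (nat_lit 483) (nat_lit 1) (nat_lit 508) (nat_lit 1) (nat_lit 387) (nat_lit 388) (nat_lit 365))) (XT.nd (nat_lit 78) (nat_lit 0) (nat_lit 76) (XT.lf (nat_lit 1976) (nat_lit 2738553318) (nat_lit 76) (nat_lit 522939722) (nat_lit 0) (nat_lit 522939722) (nat_lit 509) (nat_lit 1) (nat_lit 484) (nat_lit 1) (nat_lit 483) (nat_lit 1) (nat_lit 388) (nat_lit 388) (nat_lit 364)) (XT.lf (nat_lit 76) (nat_lit 1207241919) (nat_lit 0) (nat_lit 1335550364) (nat_lit 1900) (nat_lit 1207241919) (nat_lit 485) (nat_lit 1) (nat_lit 484) (nat_lit 1) (nat_lit 509) (nat_lit 1) (nat_lit 389) (nat_lit 388) (nat_lit 363)))) (XT.nd (nat_lit 156) (nat_lit 1824) (nat_lit 0) (XT.nd (nat_lit 78) (nat_lit 0) (nat_lit 0) (XT.lf (nat_lit 1216) (nat_lit 2087982148) (nat_lit 0) (nat_lit 814077847) (nat_lit 1140) (nat_lit 814077847) (nat_lit 485) (nat_lit 1) (nat_lit 469) (nat_lit 1) (nat_lit 484) (nat_lit 1) (nat_lit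 390) (nat_lit 388) (nat_lit 362)) (XT.lf (nat_lit 76) (nat_lit 877027377) (nat_lit 0) (nat_lit 1928580229) (nat_lit 1216) (nat_lit 877027377) (nat_lit 470) (nat_lit 1) (nat_lit 469) (nat_lit 1) (nat_lit 485) (nat_lit 1) (nat_lit 391) (nat_lit 388) (nat_lit 361))) (XT.nd (nat_lit 78) (nat_lit 912) (nat_lit 0) (XT.lf (nat_lit 988) (nat_lit 1413986929) (nat_lit 0) (nat_lit 1117776665) (nat_lit 912) (nat_lit 1117776665) (nat_lit 470) (nat_lit 1) (nat_lit 457) (nat_lit 1) (nat_lit 469) (nat_lit 1) (nat_lit 392) (nat_lit 388) (nat_lit 360)) (XT.nd (nat_lit 78) (nat_lit 912) (nat_lit 0) (XT.lf (nat_lit 76) (nat_lit 535611474) (nat_lit 0) (nat_lit 2545687891) (nat_lit 988) (nat_lit 535611474) (nat_lit 458) (nat_lit 1) (nat_lit 457) (nat_lit 1) (nat_lit 470) (nat_lit 1) (nat_lit 393) (nat_lit 388) (nat_lit 359)) (XT.lf (nat_lit 988) (nat_lit 718431884) (nat_lit 0) (nat_lit 1433080469) (nat_lit 912) (nat_lit 1433080469) (nat_lit 458) (nat_lit 1) (nat_lit 445) (nat_lit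 1) (nat_lit 457) (nat_lit 1) (nat_lit 394) (nat_lit 388) (nat_lit 358)))))) (XT.nd (nat_lit 312) (nat_lit 2432) (nat_lit 0) (XT.nd (nat_lit 156) (nat_lit 988) (nat_lit 0) (XT.nd (nat_lit 78) (nat_lit 836) (nat_lit 0) (XT.lf (nat_lit 76) (nat_lit 183900232) (nat_lit 0) (nat_lit 3185014737) (nat_lit 988) (nat_lit 183900232) (nat_lit 446) (nat_lit 1) (nat_lit 445) (nat_lit 1) (nat_lit 458) (nat_lit 1) (nat_lit 395) (nat_lit 388) (nat_lit 357)) (XT.lf (nat_lit 912) (nat_lit 3090126) (nat_lit 0) (nat_lit 1759079840) (nat_lit 836) (nat_lit 1759079840) (nat_lit 446) (nat_lit 1) (nat_lit 434) (nat_lit 1) (nat_lit 445) (nat_lit 1) (nat_lit 396) (nat_lit 388) (nat_lit 356))) (XT.nd (nat_lit 78) (nat_lit 0) (nat_lit 0) (XT.lf (nat_lit 988) (nat_lit 3138053242) (nat_lit 0) (nat_lit 176078662) (nat_lit 912) (nat_lit 176078662) (nat_lit 434) (nat_lit 1) (nat_lit 421) (nat_lit 1) (nat_lit 433) (nat_lit 1) (nat_lit 397) (nat_lit 388) (nat_lit 355)) (XT.lf (nat_lit 76) (nat_lit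 1369299165) (nat_lit 0) (nat_lit 720773731) (nat_lit 988) (nat_lit 1369299165) (nat_lit 422) (nat_lit 1) (nat_lit 421) (nat_lit 1) (nat_lit 434) (nat_lit 1) (nat_lit 398) (nat_lit 388) (nat_lit 354)))) (XT.nd (nat_lit 156) (nat_lit 1596) (nat_lit 0) (XT.nd (nat_lit 78) (nat_lit 0) (nat_lit 0) (XT.lf (nat_lit 912) (nat_lit 2342233935) (nat_lit 0) (nat_lit 543405659) (nat_lit 836) (nat_lit 543405659) (nat_lit 422) (nat_lit 1) (nat_lit 410) (nat_lit 1) (nat_lit 421) (nat_lit 1) (nat_lit 399) (nat_lit 388) (nat_lit 353)) (XT.lf (nat_lit 76) (nat_lit 969064953) (nat_lit 0) (nat_lit 1460879033) (nat_lit 912) (nat_lit 969064953) (nat_lit 411) (nat_lit 1) (nat_lit 410) (nat_lit 1) (nat_lit 422) (nat_lit 1) (nat_lit 400) (nat_lit 388) (nat_lit 352))) (XT.nd (nat_lit 78) (nat_lit 760) (nat_lit 0) (XT.lf (nat_lit 912) (nat_lit 1532338442) (nat_lit 0) (nat_lit 918517341) (nat_lit 836) (nat_lit 918517341) (nat_lit 411) (nat_lit 1) (nat_lit 399) (nat_lit 1) (nat_lit 410) (nat_lit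 1) (nat_lit 401) (nat_lit 388) (nat_lit 351)) (XT.nd (nat_lit 78) (nat_lit 760) (nat_lit 0) (XT.lf (nat_lit 76) (nat_lit 562177868) (nat_lit 0) (nat_lit 2215763687) (nat_lit 912) (nat_lit 562177868) (nat_lit 400) (nat_lit 1) (nat_lit 399) (nat_lit 1) (nat_lit 411) (nat_lit 1) (nat_lit 402) (nat_lit 388) (nat_lit 350)) (XT.lf (nat_lit 836) (nat_lit 709795297) (nat_lit 0) (nat_lit 1300679097) (nat_lit 760) (nat_lit 1300679097) (nat_lit 400) (nat_lit 1) (nat_lit 389) (nat_lit 1) (nat_lit 399) (nat_lit 1) (nat_lit 403) (nat_lit 388) (nat_lit 349))))))))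
noncomputable def ec30 : XT := (XT.nd (nat_lit 1404) (nat_lit 1824) (nat_lit 0) (XT.nd (nat_lit 702) (nat_lit 3268) (nat_lit 0) (XT.nd (nat_lit 312) (nat_lit 2204) (nat_lit 0) (XT.nd (nat_lit 156) (nat_lit 760) (nat_lit 0) (XT.nd (nat_lit 78) (nat_lit 836) (nat_lit 0) (XT.lf (nat_lit 76) (nat_lit 149331432) (nat_lit 0) (nat_lit 2984000488) (nat_lit 836) (nat_lit 149331432) (nat_lit 390) (nat_lit 1) (nat_lit 389) (nat_lit 1) (nat_lit 400) (nat_lit 1) (nat_lit 404) (nat_lit 388) (nat_lit 348)) (XT.lf (nat_lit 76) (nat_lit 1565958937) (nat_lit 0) (nat_lit 122412927) (nat_lit 836) (nat_lit 1565958937) (nat_lit 379) (nat_lit 1) (nat_lit 378) (nat_lit 1) (nat_lit 389) (nat_lit 1) (nat_lit 405) (nat_lit 388) (nat_lit 347))) (XT.nd (nat_lit 78) (nat_lit 0) (nat_lit 0) (XT.lf (nat_lit 836) (nat_lit 2692366174) (nat_lit 0) (nat_lit 267047764) (nat_lit 760) (nat_lit 267047764) (nat_lit 379) (nat_lit 1) (nat_lit 368) (nat_lit 1) (nat_lit 378) (nat_lit 1) (nat_lit 406) (nat_lit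 388) (nat_lit 346)) (XT.lf (nat_lit 76) (nat_lit 1121801447) (nat_lit 0) (nat_lit 955186548) (nat_lit 836) (nat_lit 1121801447) (nat_lit 369) (nat_lit 1) (nat_lit 368) (nat_lit 1) (nat_lit 379) (nat_lit 1) (nat_lit 407) (nat_lit 388) (nat_lit 345)))) (XT.nd (nat_lit 156) (nat_lit 1444) (nat_lit 0) (XT.nd (nat_lit 78) (nat_lit 0) (nat_lit 0) (XT.lf (nat_lit 836) (nat_lit 1797354773) (nat_lit 0) (nat_lit 687090892) (nat_lit 760) (nat_lit 687090892) (nat_lit 369) (nat_lit 1) (nat_lit 358) (nat_lit 1) (nat_lit 368) (nat_lit 1) (nat_lit 408) (nat_lit 388) (nat_lit 344)) (XT.lf (nat_lit 76) (nat_lit 673976801) (nat_lit 0) (nat_lit 1796631049) (nat_lit 836) (nat_lit 673976801) (nat_lit 359) (nat_lit 1) (nat_lit 358) (nat_lit 1) (nat_lit 369) (nat_lit 1) (nat_lit 409) (nat_lit 388) (nat_lit 343))) (XT.nd (nat_lit 78) (nat_lit 760) (nat_lit 0) (XT.lf (nat_lit 760) (nat_lit 895544279) (nat_lit 0) (nat_lit 1111192585) (nat_lit 684) (nat_lit 1111192585) (nat_lit 359) (nat_lit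 1) (nat_lit 349) (nat_lit 1) (nat_lit 358) (nat_lit 1) (nat_lit 410) (nat_lit 388) (nat_lit 342)) (XT.nd (nat_lit 78) (nat_lit 760) (nat_lit 0) (XT.lf (nat_lit 76) (nat_lit 223037485) (nat_lit 0) (nat_lit 2645605641) (nat_lit 760) (nat_lit 223037485) (nat_lit 350) (nat_lit 1) (nat_lit 349) (nat_lit 1) (nat_lit 359) (nat_lit 1) (nat_lit 411) (nat_lit 388) (nat_lit 341)) (XT.lf (nat_lit 76) (nat_lit 1526887153) (nat_lit 0) (nat_lit 11829310) (nat_lit 760) (nat_lit 1526887153) (nat_lit 340) (nat_lit 1) (nat_lit 339) (nat_lit 1) (nat_lit 349) (nat_lit 1) (nat_lit 412) (nat_lit 388) (nat_lit 340)))))) (XT.nd (nat_lit 312) (nat_lit 1900) (nat_lit 0) (XT.nd (nat_lit 156) (nat_lit 684) (nat_lit 0) (XT.nd (nat_lit 78) (nat_lit 0) (nat_lit 0) (XT.lf (nat_lit 760) (nat_lit 2581968240) (nat_lit 0) (nat_lit 228977106) (nat_lit 684) (nat_lit 228977106) (nat_lit 340) (nat_lit 1) (nat_lit 330) (nat_lit 1) (nat_lit 339) (nat_lit 1) (nat_lit 413) (nat_lit 388) (nat_lit 339)) (XT.lf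 (nat_lit 76) (nat_lit 1051157072) (nat_lit 0) (nat_lit 912095420) (nat_lit 760) (nat_lit 1051157072) (nat_lit 331) (nat_lit 1) (nat_lit 330) (nat_lit 1) (nat_lit 340) (nat_lit 1) (nat_lit 414) (nat_lit 388) (nat_lit 338))) (XT.nd (nat_lit 78) (nat_lit 0) (nat_lit 0) (XT.lf (nat_lit 760) (nat_lit 1626064404) (nat_lit 0) (nat_lit 681607432) (nat_lit 684) (nat_lit 681607432) (nat_lit 331) (nat_lit 1) (nat_lit 321) (nat_lit 1) (nat_lit 330) (nat_lit 1) (nat_lit 415) (nat_lit 388) (nat_lit 337)) (XT.lf (nat_lit 76) (nat_lit 574192127) (nat_lit 0) (nat_lit 1816046320) (nat_lit 760) (nat_lit 574192127) (nat_lit 322) (nat_lit 1) (nat_lit 321) (nat_lit 1) (nat_lit 331) (nat_lit 1) (nat_lit 416) (nat_lit 388) (nat_lit 336)))) (XT.nd (nat_lit 156) (nat_lit 1292) (nat_lit 0) (XT.nd (nat_lit 78) (nat_lit 0) (nat_lit 0) (XT.lf (nat_lit 684) (nat_lit 668122710) (nat_lit 0) (nat_lit 1135856066) (nat_lit 608) (nat_lit 1135856066) (nat_lit 322) (nat_lit 1) (nat_lit 313) (nat_lit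 1) (nat_lit 321) (nat_lit 1) (nat_lit 417) (nat_lit 388) (nat_lit 335)) (XT.lf (nat_lit 76) (nat_lit 96426702) (nat_lit 0) (nat_lit 2722781215) (nat_lit 684) (nat_lit 96426702) (nat_lit 314) (nat_lit 1) (nat_lit 313) (nat_lit 1) (nat_lit 322) (nat_lit 1) (nat_lit 418) (nat_lit 388) (nat_lit 334))) (XT.nd (nat_lit 78) (nat_lit 608) (nat_lit 0) (XT.lf (nat_lit 76) (nat_lit 1302163304) (nat_lit 0) (nat_lit 287193280) (nat_lit 684) (nat_lit 1302163304) (nat_lit 305) (nat_lit 1) (nat_lit 304) (nat_lit 1) (nat_lit 313) (nat_lit 1) (nat_lit 419) (nat_lit 388) (nat_lit 333)) (XT.nd (nat_lit 78) (nat_lit 0) (nat_lit 0) (XT.lf (nat_lit 684) (nat_lit 2109355905) (nat_lit 0) (nat_lit 379217887) (nat_lit 608) (nat_lit 379217887) (nat_lit 305) (nat_lit 1) (nat_lit 296) (nat_lit 1) (nat_lit 304) (nat_lit 1) (nat_lit 420) (nat_lit 388) (nat_lit 332)) (XT.lf (nat_lit 76) (nat_lit 805060632) (nat_lit 0) (nat_lit 1234133556) (nat_lit 684) (nat_lit 805060632) (nat_lit 297) (nat_lit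 1) (nat_lit 296) (nat_lit 1) (nat_lit 305) (nat_lit 1) (nat_lit 421) (nat_lit 388) (nat_lit 331))))))) (XT.nd (nat_lit 55068) (nat_lit 0) (nat_lit 17252) (XT.nd (nat_lit 54678) (nat_lit 0) (nat_lit 17100) (XT.nd (nat_lit 156) (nat_lit 1216) (nat_lit 0) (XT.nd (nat_lit 78) (nat_lit 0) (nat_lit 0) (XT.lf (nat_lit 684) (nat_lit 1112556241) (nat_lit 0) (nat_lit 854232014) (nat_lit 608) (nat_lit 854232014) (nat_lit 297) (nat_lit 1) (nat_lit 288) (nat_lit 1) (nat_lit 296) (nat_lit 1) (nat_lit 422) (nat_lit 388) (nat_lit 330)) (XT.lf (nat_lit 76) (nat_lit 308689735) (nat_lit 0) (nat_lit 2180717356) (nat_lit 684) (nat_lit 308689735) (nat_lit 289) (nat_lit 1) (nat_lit 288) (nat_lit 1) (nat_lit 297) (nat_lit 1) (nat_lit 423) (nat_lit 388) (nat_lit 329))) (XT.nd (nat_lit 78) (nat_lit 684) (nat_lit 0) (XT.lf (nat_lit 608) (nat_lit 117565224) (nat_lit 0) (nat_lit 1328888164) (nat_lit 532) (nat_lit 1328888164) (nat_lit 289) (nat_lit 1) (nat_lit 281) (nat_lit 1) (nat_lit 288)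 (nat_lit 1) (nat_lit 424) (nat_lit 388) (nat_lit 328)) (XT.lf (nat_lit 684) (nat_lit 2382148065) (nat_lit 0) (nat_lit 185385938) (nat_lit 608) (nat_lit 185385938) (nat_lit 281) (nat_lit 1) (nat_lit 272) (nat_lit 1) (nat_lit 280) (nat_lit 1) (nat_lit 425) (nat_lit 388) (nat_lit 327)))) (XT.nd (nat_lit 156) (nat_lit 0) (nat_lit 76) (XT.nd (nat_lit 78) (nat_lit 0) (nat_lit 0) (XT.lf (nat_lit 1900) (nat_lit 806096250) (nat_lit 0) (nat_lit 812837090) (nat_lit 1900) (nat_lit 806096250) (nat_lit 522) (nat_lit 1) (nat_lit 497) (nat_lit 0) (nat_lit 522) (nat_lit 0) (nat_lit 362) (nat_lit 389) (nat_lit 389)) (XT.lf (nat_lit 1900) (nat_lit 3187425773) (nat_lit 76) (nat_lit 807489477) (nat_lit 0) (nat_lit 807489477) (nat_lit 522) (nat_lit 1) (nat_lit 498) (nat_lit 1) (nat_lit 497) (nat_lit 0) (nat_lit 363) (nat_lit 389) (nat_lit 388))) (XT.nd (nat_lit 78) (nat_lit 0) (nat_lit 0) (XT.lf (nat_lit 1900) (nat_lit 1565041227) (nat_lit 0) (nat_lit 1625188323) (nat_lit 1824) (nat_lit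 1565041227) (nat_lit 523) (nat_lit 1) (nat_lit 498) (nat_lit 1) (nat_lit 522) (nat_lit 1) (nat_lit 364) (nat_lit 389) (nat_lit 387)) (XT.nd (nat_lit 78) (nat_lit 0) (nat_lit 76) (XT.lf (nat_lit 1900) (nat_lit 3063171485) (nat_lit 76) (nat_lit 822839944) (nat_lit 0) (nat_lit 822839944) (nat_lit 523) (nat_lit 1) (nat_lit 499) (nat_lit 1) (nat_lit 498) (nat_lit 1) (nat_lit 365) (nat_lit 389) (nat_lit 386)) (XT.lf (nat_lit 1900) (nat_lit 1488643296) (nat_lit 0) (nat_lit 1685657798) (nat_lit 1824) (nat_lit 1488643296) (nat_lit 524) (nat_lit 1) (nat_lit 499) (nat_lit 1) (nat_lit 523) (nat_lit 1) (nat_lit 366) (nat_lit 389) (nat_lit 385)))))) (XT.nd (nat_lit 312) (nat_lit 0) (nat_lit 152) (XT.nd (nat_lit 156) (nat_lit 0) (nat_lit 76) (XT.nd (nat_lit 78) (nat_lit 0) (nat_lit 76) (XT.lf (nat_lit 1900) (nat_lit 2881995862) (nat_lit 76) (nat_lit 867862117) (nat_lit 0) (nat_lit 867862117) (nat_lit 524) (nat_lit 1) (nat_lit 500) (nat_lit 1) (nat_lit 499) (nat_lit 1) (nat_lit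 367) (nat_lit 389) (nat_lit 384)) (XT.lf (nat_lit 1900) (nat_lit 1384743756) (nat_lit 0) (nat_lit 1803520804) (nat_lit 1824) (nat_lit 1384743756) (nat_lit 525) (nat_lit 1) (nat_lit 500) (nat_lit 1) (nat_lit 524) (nat_lit 1) (nat_lit 368) (nat_lit 389) (nat_lit 383))) (XT.nd (nat_lit 78) (nat_lit 0) (nat_lit 76) (XT.lf (nat_lit 1900) (nat_lit 2647319942) (nat_lit 76) (nat_lit 940810322) (nat_lit 0) (nat_lit 940810322) (nat_lit 525) (nat_lit 1) (nat_lit 501) (nat_lit 1) (nat_lit 500) (nat_lit 1) (nat_lit 369) (nat_lit 389) (nat_lit 382)) (XT.lf (nat_lit 1900) (nat_lit 1255007946) (nat_lit 0) (nat_lit 1975377274) (nat_lit 1824) (nat_lit 1255007946) (nat_lit 526) (nat_lit 1) (nat_lit 501) (nat_lit 1) (nat_lit 525) (nat_lit 1) (nat_lit 370) (nat_lit 389) (nat_lit 381)))) (XT.nd (nat_lit 156) (nat_lit 0) (nat_lit 76) (XT.nd (nat_lit 78) (nat_lit 0) (nat_lit 76) (XT.lf (nat_lit 1900) (nat_lit 2362408177) (nat_lit 76) (nat_lit 1040018309) (nat_lit 0) (nat_lit 1040018309)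 (nat_lit 526) (nat_lit 1) (nat_lit 502) (nat_lit 1) (nat_lit 501) (nat_lit 1) (nat_lit 371) (nat_lit 389) (nat_lit 380)) (XT.lf (nat_lit 1900) (nat_lit 1101024821) (nat_lit 0) (nat_lit 2197982141) (nat_lit 1824) (nat_lit 1101024821) (nat_lit 527) (nat_lit 1) (nat_lit 502) (nat_lit 1) (nat_lit 526) (nat_lit 1) (nat_lit 372) (nat_lit 389) (nat_lit 379))) (XT.nd (nat_lit 78) (nat_lit 0) (nat_lit 76) (XT.lf (nat_lit 1900) (nat_lit 2030374984) (nat_lit 76) (nat_lit 1163895938) (nat_lit 0) (nat_lit 1163895938) (nat_lit 527) (nat_lit 1) (nat_lit 503) (nat_lit 1) (nat_lit 502) (nat_lit 1) (nat_lit 373) (nat_lit 389) (nat_lit 378)) (XT.nd (nat_lit 78) (nat_lit 0) (nat_lit 0) (XT.lf (nat_lit 1900) (nat_lit 924310152) (nat_lit 0) (nat_lit 2468238865) (nat_lit 1824) (nat_lit 924310152) (nat_lit 528) (nat_lit 1) (nat_lit 503) (nat_lit 1) (nat_lit 527) (nat_lit 1) (nat_lit 374) (nat_lit 389) (nat_lit 377)) (XT.lf (nat_lit 1900) (nat_lit 1654191028) (nat_lit 76) (nat_lit 1310926002)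 (nat_lit 0) (nat_lit 1310926002) (nat_lit 528) (nat_lit 1) (nat_lit 504) (nat_lit 1) (nat_lit 503) (nat_lit 1) (nat_lit 375) (nat_lit 389) (nat_lit 376))))))))
noncomputable def ec31 : XT := (XT.nd (nat_lit 1404) (nat_lit 8740) (nat_lit 0) (XT.nd (nat_lit 702) (nat_lit 2812) (nat_lit 0) (XT.nd (nat_lit 312) (nat_lit 1672) (nat_lit 0) (XT.nd (nat_lit 156) (nat_lit 0) (nat_lit 76) (XT.nd (nat_lit 78) (nat_lit 0) (nat_lit 0) (XT.lf (nat_lit 1900) (nat_lit 726309591) (nat_lit 0) (nat_lit 2783193226) (nat_lit 1824) (nat_lit 726309591) (nat_lit 529) (nat_lit 1) (nat_lit 504) (nat_lit 1) (nat_lit 528) (nat_lit 1) (nat_lit 376) (nat_lit 389) (nat_lit 375)) (XT.lf (nat_lit 1900) (nat_lit 1236689244) (nat_lit 76) (nat_lit 1479661174) (nat_lit 0) (nat_lit 1479661174) (nat_lit 529) (nat_lit 1) (nat_lit 505) (nat_lit 1) (nat_lit 504) (nat_lit 1) (nat_lit 377) (nat_lit 389) (nat_lit 374))) (XT.nd (nat_lit 78) (nat_lit 0) (nat_lit 0) (XT.lf (nat_lit 1900) (nat_lit 508401616)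 (nat_lit 0) (nat_lit 3140027364) (nat_lit 1824) (nat_lit 508401616) (nat_lit 530) (nat_lit 1) (nat_lit 505) (nat_lit 1) (nat_lit 529) (nat_lit 1) (nat_lit 378) (nat_lit 389) (nat_lit 373)) (XT.lf (nat_lit 1900) (nat_lit 780570635) (nat_lit 76) (nat_lit 1668721079) (nat_lit 0) (nat_lit 1668721079) (nat_lit 530) (nat_lit 1) (nat_lit 506) (nat_lit 1) (nat_lit 505) (nat_lit 1) (nat_lit 379) (nat_lit 389) (nat_lit 372)))) (XT.nd (nat_lit 156) (nat_lit 1824) (nat_lit 0) (XT.nd (nat_lit 78) (nat_lit 0) (nat_lit 0) (XT.lf (nat_lit 1900) (nat_lit 271900354) (nat_lit 0) (nat_lit 3536054058) (nat_lit 1824) (nat_lit 271900354) (nat_lit 531) (nat_lit 1) (nat_lit 506) (nat_lit 1) (nat_lit 530) (nat_lit 1) (nat_lit 380) (nat_lit 389) (nat_lit 371)) (XT.lf (nat_lit 1900) (nat_lit 288409815) (nat_lit 76) (nat_lit 1876789486) (nat_lit 0) (nat_lit 1876789486) (nat_lit 531) (nat_lit 1) (nat_lit 507) (nat_lit 1) (nat_lit 506) (nat_lit 1) (nat_lit 381) (nat_lit 389) (nat_lit 370)))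 (XT.nd (nat_lit 78) (nat_lit 1900) (nat_lit 0) (XT.lf (nat_lit 1900) (nat_lit 18058293) (nat_lit 0) (nat_lit 3968711239) (nat_lit 1824) (nat_lit 18058293) (nat_lit 532) (nat_lit 1) (nat_lit 507) (nat_lit 1) (nat_lit 531) (nat_lit 1) (nat_lit 382) (nat_lit 389) (nat_lit 369)) (XT.nd (nat_lit 78) (nat_lit 0) (nat_lit 0) (XT.lf (nat_lit 1976) (nat_lit 1866812915) (nat_lit 0) (nat_lit 234226903) (nat_lit 1900) (nat_lit 1866812915) (nat_lit 508) (nat_lit 1) (nat_lit 482) (nat_lit 1) (nat_lit 507) (nat_lit 1) (nat_lit 383) (nat_lit 389) (nat_lit 368)) (XT.lf (nat_lit 1976) (nat_lit 3431015859) (nat_lit 76) (nat_lit 250273671) (nat_lit 0) (nat_lit 250273671) (nat_lit 508) (nat_lit 1) (nat_lit 483) (nat_lit 1) (nat_lit 482) (nat_lit 1) (nat_lit 384) (nat_lit 389) (nat_lit 367)))))) (XT.nd (nat_lit 312) (nat_lit 1824) (nat_lit 0) (XT.nd (nat_lit 156) (nat_lit 1064) (nat_lit 0) (XT.nd (nat_lit 78) (nat_lit 0) (nat_lit 0) (XT.lf (nat_lit 1976) (nat_lit 1555808728) (nat_lit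 0) (nat_lit 783922244) (nat_lit 1900) (nat_lit 1555808728) (nat_lit 509) (nat_lit 1) (nat_lit 483) (nat_lit 1) (nat_lit 508) (nat_lit 1) (nat_lit 385) (nat_lit 389) (nat_lit 366)) (XT.lf (nat_lit 1976) (nat_lit 2793324384) (nat_lit 76) (nat_lit 533398516) (nat_lit 0) (nat_lit 533398516) (nat_lit 509) (nat_lit 1) (nat_lit 484) (nat_lit 1) (nat_lit 483) (nat_lit 1) (nat_lit 386) (nat_lit 389) (nat_lit 365))) (XT.nd (nat_lit 78) (nat_lit 1140) (nat_lit 0) (XT.lf (nat_lit 76) (nat_lit 1231386757) (nat_lit 0) (nat_lit 1362261372) (nat_lit 1900) (nat_lit 1231386757) (nat_lit 485) (nat_lit 1) (nat_lit 484) (nat_lit 1) (nat_lit 509) (nat_lit 1) (nat_lit 387) (nat_lit 389) (nat_lit 364)) (XT.lf (nat_lit 1216) (nat_lit 2129741791) (nat_lit 0) (nat_lit 830359404) (nat_lit 1140) (nat_lit 830359404) (nat_lit 485) (nat_lit 1) (nat_lit 469) (nat_lit 1) (nat_lit 484) (nat_lit 1) (nat_lit 388) (nat_lit 389) (nat_lit 363)))) (XT.nd (nat_lit 156) (nat_lit 912) (nat_lit 0) (XT.nd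 (nat_lit 78) (nat_lit 912) (nat_lit 0) (XT.lf (nat_lit 76) (nat_lit 894567925) (nat_lit 0) (nat_lit 1967151834) (nat_lit 1216) (nat_lit 894567925) (nat_lit 470) (nat_lit 1) (nat_lit 469) (nat_lit 1) (nat_lit 485) (nat_lit 1) (nat_lit 389) (nat_lit 389) (nat_lit 362)) (XT.lf (nat_lit 988) (nat_lit 1442266668) (nat_lit 0) (nat_lit 1140132198) (nat_lit 912) (nat_lit 1140132198) (nat_lit 470) (nat_lit 1) (nat_lit 457) (nat_lit 1) (nat_lit 469) (nat_lit 1) (nat_lit 390) (nat_lit 389) (nat_lit 361))) (XT.nd (nat_lit 78) (nat_lit 912) (nat_lit 0) (XT.lf (nat_lit 76) (nat_lit 546323704) (nat_lit 0) (nat_lit 2596601649) (nat_lit 988) (nat_lit 546323704) (nat_lit 458) (nat_lit 1) (nat_lit 457) (nat_lit 1) (nat_lit 470) (nat_lit 1) (nat_lit 391) (nat_lit 389) (nat_lit 360)) (XT.nd (nat_lit 78) (nat_lit 0) (nat_lit 0) (XT.lf (nat_lit 988) (nat_lit 732800522) (nat_lit 0) (nat_lit 1461742078) (nat_lit 912) (nat_lit 1461742078) (nat_lit 458) (nat_lit 1) (nat_lit 445) (nat_lit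 1) (nat_lit 457) (nat_lit 1) (nat_lit 392) (nat_lit 389) (nat_lit 359)) (XT.lf (nat_lit 76) (nat_lit 187578236) (nat_lit 0) (nat_lit 3248715032) (nat_lit 988) (nat_lit 187578236) (nat_lit 446) (nat_lit 1) (nat_lit 445) (nat_lit 1) (nat_lit 458) (nat_lit 1) (nat_lit 393) (nat_lit 389) (nat_lit 358))))))) (XT.nd (nat_lit 702) (nat_lit 4484) (nat_lit 0) (XT.nd (nat_lit 312) (nat_lit 1596) (nat_lit 0) (XT.nd (nat_lit 156) (nat_lit 836) (nat_lit 0) (XT.nd (nat_lit 78) (nat_lit 988) (nat_lit 0) (XT.lf (nat_lit 912) (nat_lit 3151928) (nat_lit 0) (nat_lit 1794261437) (nat_lit 836) (nat_lit 1794261437) (nat_lit 446) (nat_lit 1) (nat_lit 434) (nat_lit 1) (nat_lit 445) (nat_lit 1) (nat_lit 394) (nat_lit 389) (nat_lit 357)) (XT.lf (nat_lit 988) (nat_lit 3200814307) (nat_lit 0) (nat_lit 179600236) (nat_lit 912) (nat_lit 179600236) (nat_lit 434) (nat_lit 1) (nat_lit 421) (nat_lit 1) (nat_lit 433) (nat_lit 1) (nat_lit 395) (nat_lit 389) (nat_lit 356))) (XT.nd (nat_lit 78) (nat_lit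 836) (nat_lit 0) (XT.lf (nat_lit 76) (nat_lit 1396685148) (nat_lit 0) (nat_lit 735189206) (nat_lit 988) (nat_lit 1396685148) (nat_lit 422) (nat_lit 1) (nat_lit 421) (nat_lit 1) (nat_lit 434) (nat_lit 1) (nat_lit 396) (nat_lit 389) (nat_lit 355)) (XT.lf (nat_lit 912) (nat_lit 2389078613) (nat_lit 0) (nat_lit 554273772) (nat_lit 836) (nat_lit 554273772) (nat_lit 422) (nat_lit 1) (nat_lit 410) (nat_lit 1) (nat_lit 421) (nat_lit 1) (nat_lit 397) (nat_lit 389) (nat_lit 354)))) (XT.nd (nat_lit 156) (nat_lit 760) (nat_lit 0) (XT.nd (nat_lit 78) (nat_lit 836) (nat_lit 0) (XT.lf (nat_lit 76) (nat_lit 988446253) (nat_lit 0) (nat_lit 1490096614) (nat_lit 912) (nat_lit 988446253) (nat_lit 411) (nat_lit 1) (nat_lit 410) (nat_lit 1) (nat_lit 422) (nat_lit 1) (nat_lit 398) (nat_lit 389) (nat_lit 353)) (XT.lf (nat_lit 912) (nat_lit 1562985211) (nat_lit 0) (nat_lit 936887687) (nat_lit 836) (nat_lit 936887687) (nat_lit 411) (nat_lit 1) (nat_lit 399) (nat_lit 1) (nat_lit 410) (nat_lit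 1) (nat_lit 399) (nat_lit 389) (nat_lit 352))) (XT.nd (nat_lit 78) (nat_lit 760) (nat_lit 0) (XT.lf (nat_lit 76) (nat_lit 573421425) (nat_lit 0) (nat_lit 2260078961) (nat_lit 912) (nat_lit 573421425) (nat_lit 400) (nat_lit 1) (nat_lit 399) (nat_lit 1) (nat_lit 411) (nat_lit 1) (nat_lit 400) (nat_lit 389) (nat_lit 351)) (XT.nd (nat_lit 78) (nat_lit 0) (nat_lit 0) (XT.lf (nat_lit 836) (nat_lit 723991203) (nat_lit 0) (nat_lit 1326692679) (nat_lit 760) (nat_lit 1326692679) (nat_lit 400) (nat_lit 1) (nat_lit 389) (nat_lit 1) (nat_lit 399) (nat_lit 1) (nat_lit 401) (nat_lit 389) (nat_lit 350)) (XT.lf (nat_lit 76) (nat_lit 152318060) (nat_lit 0) (nat_lit 3043680497) (nat_lit 836) (nat_lit 152318060) (nat_lit 390) (nat_lit 1) (nat_lit 389) (nat_lit 1) (nat_lit 400) (nat_lit 1) (nat_lit 402) (nat_lit 389) (nat_lit 349)))))) (XT.nd (nat_lit 390) (nat_lit 2128) (nat_lit 0) (XT.nd (nat_lit 156) (nat_lit 760) (nat_lit 0) (XT.nd (nat_lit 78) (nat_lit 760) (nat_lit 0) (XT.lf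 (nat_lit 76) (nat_lit 1597278116) (nat_lit 0) (nat_lit 124861185) (nat_lit 836) (nat_lit 1597278116) (nat_lit 379) (nat_lit 1) (nat_lit 378) (nat_lit 1) (nat_lit 389) (nat_lit 1) (nat_lit 403) (nat_lit 389) (nat_lit 348)) (XT.lf (nat_lit 836) (nat_lit 2746213497) (nat_lit 0) (nat_lit 272388719) (nat_lit 760) (nat_lit 272388719) (nat_lit 379) (nat_lit 1) (nat_lit 368) (nat_lit 1) (nat_lit 378) (nat_lit 1) (nat_lit 404) (nat_lit 389) (nat_lit 347))) (XT.nd (nat_lit 78) (nat_lit 760) (nat_lit 0) (XT.lf (nat_lit 76) (nat_lit 1144237476) (nat_lit 0) (nat_lit 974290279) (nat_lit 836) (nat_lit 1144237476) (nat_lit 369) (nat_lit 1) (nat_lit 368) (nat_lit 1) (nat_lit 379) (nat_lit 1) (nat_lit 405) (nat_lit 389) (nat_lit 346)) (XT.nd (nat_lit 78) (nat_lit 0) (nat_lit 0) (XT.lf (nat_lit 836) (nat_lit 1833301868) (nat_lit 0) (nat_lit 700832710) (nat_lit 760) (nat_lit 700832710) (nat_lit 369) (nat_lit 1) (nat_lit 358) (nat_lit 1) (nat_lit 368) (nat_lit 1) (nat_lit 406) (nat_lit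 389) (nat_lit 345)) (XT.lf (nat_lit 76) (nat_lit 687456337) (nat_lit 0) (nat_lit 1832563670) (nat_lit 836) (nat_lit 687456337) (nat_lit 359) (nat_lit 1) (nat_lit 358) (nat_lit 1) (nat_lit 369) (nat_lit 1) (nat_lit 407) (nat_lit 389) (nat_lit 344))))) (XT.nd (nat_lit 156) (nat_lit 1444) (nat_lit 0) (XT.nd (nat_lit 78) (nat_lit 0) (nat_lit 0) (XT.lf (nat_lit 760) (nat_lit 913455165) (nat_lit 0) (nat_lit 1133416437) (nat_lit 684) (nat_lit 1133416437) (nat_lit 359) (nat_lit 1) (nat_lit 349) (nat_lit 1) (nat_lit 358) (nat_lit 1) (nat_lit 408) (nat_lit 389) (nat_lit 343)) (XT.lf (nat_lit 76) (nat_lit 227498234) (nat_lit 0) (nat_lit 2698517754) (nat_lit 760) (nat_lit 227498234) (nat_lit 350) (nat_lit 1) (nat_lit 349) (nat_lit 1) (nat_lit 359) (nat_lit 1) (nat_lit 409) (nat_lit 389) (nat_lit 342))) (XT.nd (nat_lit 78) (nat_lit 684) (nat_lit 0) (XT.lf (nat_lit 76) (nat_lit 1557424896) (nat_lit 0) (nat_lit 12065896) (nat_lit 760) (nat_lit 1557424896) (nat_lit 340) (nat_lit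 1) (nat_lit 339) (nat_lit 1) (nat_lit 349) (nat_lit 1) (nat_lit 410) (nat_lit 389) (nat_lit 341)) (XT.nd (nat_lit 78) (nat_lit 0) (nat_lit 0) (XT.lf (nat_lit 760) (nat_lit 2633607605) (nat_lit 0) (nat_lit 233556649) (nat_lit 684) (nat_lit 233556649) (nat_lit 340) (nat_lit 1) (nat_lit 330) (nat_lit 1) (nat_lit 339) (nat_lit 1) (nat_lit 411) (nat_lit 389) (nat_lit 340)) (XT.lf (nat_lit 76) (nat_lit 1072180213) (nat_lit 0) (nat_lit 930337328) (nat_lit 760) (nat_lit 1072180213) (nat_lit 331) (nat_lit 1) (nat_lit 330) (nat_lit 1) (nat_lit 340) (nat_lit 1) (nat_lit 412) (nat_lit 389) (nat_lit 339))))))))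
noncomputable def ec32 : XT := (XT.nd (nat_lit 55692) (nat_lit 0) (nat_lit 15960) (XT.nd (nat_lit 702) (nat_lit 1216) (nat_lit 0) (XT.nd (nat_lit 312) (nat_lit 1900) (nat_lit 0) (XT.nd (nat_lit 156) (nat_lit 608) (nat_lit 0) (XT.nd (nat_lit 78) (nat_lit 0) (nat_lit 0) (XT.lf (nat_lit 760) (nat_lit 1658585692) (nat_lit 0) (nat_lit 695239581) (nat_lit 684) (nat_lit 695239581) (nat_lit 331) (nat_lit 1) (nat_lit 321) (nat_lit 1) (nat_lit 330) (nat_lit 1) (nat_lit 413) (nat_lit 389) (nat_lit 338)) (XT.lf (nat_lit 76) (nat_lit 585675970) (nat_lit 0) (nat_lit 1852367246) (nat_lit 760) (nat_lit 585675970) (nat_lit 322) (nat_lit 1) (nat_lit 321) (nat_lit 1) (nat_lit 331) (nat_lit 1) (nat_lit 414) (nat_lit 389) (nat_lit 337))) (XT.nd (nat_lit 78) (nat_lit 0) (nat_lit 0) (XT.lf (nat_lit 684) (nat_lit 681485164) (nat_lit 0) (nat_lit 1158573187) (nat_lit 608) (nat_lit 1158573187) (nat_lit 322) (nat_lit 1) (nat_lit 313) (nat_lit 1) (nat_lit 321) (nat_lit 1) (nat_lit 415) (nat_lit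 389) (nat_lit 336)) (XT.lf (nat_lit 76) (nat_lit 98355236) (nat_lit 0) (nat_lit 2777236840) (nat_lit 684) (nat_lit 98355236) (nat_lit 314) (nat_lit 1) (nat_lit 313) (nat_lit 1) (nat_lit 322) (nat_lit 1) (nat_lit 416) (nat_lit 389) (nat_lit 335)))) (XT.nd (nat_lit 156) (nat_lit 608) (nat_lit 0) (XT.nd (nat_lit 78) (nat_lit 608) (nat_lit 0) (XT.lf (nat_lit 76) (nat_lit 1328206570) (nat_lit 0) (nat_lit 292937146) (nat_lit 684) (nat_lit 1328206570) (nat_lit 305) (nat_lit 1) (nat_lit 304) (nat_lit 1) (nat_lit 313) (nat_lit 1) (nat_lit 417) (nat_lit 389) (nat_lit 334)) (XT.lf (nat_lit 684) (nat_lit 2151543023) (nat_lit 0) (nat_lit 386802244) (nat_lit 608) (nat_lit 386802244) (nat_lit 305) (nat_lit 1) (nat_lit 296) (nat_lit 1) (nat_lit 304) (nat_lit 1) (nat_lit 418) (nat_lit 389) (nat_lit 333))) (XT.nd (nat_lit 78) (nat_lit 608) (nat_lit 0) (XT.lf (nat_lit 76) (nat_lit 821161845) (nat_lit 0) (nat_lit 1258816227) (nat_lit 684) (nat_lit 821161845) (nat_lit 297) (nat_lit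 1) (nat_lit 296) (nat_lit 1) (nat_lit 305) (nat_lit 1) (nat_lit 419) (nat_lit 389) (nat_lit 332)) (XT.nd (nat_lit 78) (nat_lit 0) (nat_lit 0) (XT.lf (nat_lit 684) (nat_lit 1134807365) (nat_lit 0) (nat_lit 871316654) (nat_lit 608) (nat_lit 871316654) (nat_lit 297) (nat_lit 1) (nat_lit 288) (nat_lit 1) (nat_lit 296) (nat_lit 1) (nat_lit 420) (nat_lit 389) (nat_lit 331)) (XT.lf (nat_lit 76) (nat_lit 314863530) (nat_lit 0) (nat_lit 2224331703) (nat_lit 684) (nat_lit 314863530) (nat_lit 289) (nat_lit 1) (nat_lit 288) (nat_lit 1) (nat_lit 297) (nat_lit 1) (nat_lit 421) (nat_lit 389) (nat_lit 330)))))) (XT.nd (nat_lit 54600) (nat_lit 0) (nat_lit 17100) (XT.nd (nat_lit 156) (nat_lit 0) (nat_lit 0) (XT.nd (nat_lit 78) (nat_lit 684) (nat_lit 0) (XT.lf (nat_lit 608) (nat_lit 119916529) (nat_lit 0) (nat_lit 1355465928) (nat_lit 532) (nat_lit 1355465928) (nat_lit 289) (nat_lit 1) (nat_lit 281) (nat_lit 1) (nat_lit 288) (nat_lit 1) (nat_lit 422) (nat_lit 389) (nat_lit 329))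 (XT.lf (nat_lit 684) (nat_lit 2429791026) (nat_lit 0) (nat_lit 189093657) (nat_lit 608) (nat_lit 189093657) (nat_lit 281) (nat_lit 1) (nat_lit 272) (nat_lit 1) (nat_lit 280) (nat_lit 1) (nat_lit 423) (nat_lit 389) (nat_lit 328))) (XT.nd (nat_lit 54366) (nat_lit 0) (nat_lit 17100) (XT.lf (nat_lit 76) (nat_lit 952233802) (nat_lit 0) (nat_lit 880758341) (nat_lit 684) (nat_lit 952233802) (nat_lit 273) (nat_lit 1) (nat_lit 272) (nat_lit 1) (nat_lit 281) (nat_lit 1) (nat_lit 424) (nat_lit 389) (nat_lit 327)) (XT.lf (nat_lit 1900) (nat_lit 822218175) (nat_lit 0) (nat_lit 829093832) (nat_lit 1900) (nat_lit 822218175) (nat_lit 522) (nat_lit 1) (nat_lit 497) (nat_lit 0) (nat_lit 522) (nat_lit 0) (nat_lit 360) (nat_lit 390) (nat_lit 390)))) (XT.nd (nat_lit 156) (nat_lit 0) (nat_lit 76) (XT.nd (nat_lit 78) (nat_lit 0) (nat_lit 76) (XT.lf (nat_lit 1900) (nat_lit 3251174288) (nat_lit 76) (nat_lit 823639267) (nat_lit 0) (nat_lit 823639267) (nat_lit 522) (nat_lit 1) (nat_lit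 498) (nat_lit 1) (nat_lit 497) (nat_lit 0) (nat_lit 361) (nat_lit 390) (nat_lit 389)) (XT.lf (nat_lit 1900) (nat_lit 1596342051) (nat_lit 0) (nat_lit 1657692089) (nat_lit 1824) (nat_lit 1596342051) (nat_lit 523) (nat_lit 1) (nat_lit 498) (nat_lit 1) (nat_lit 522) (nat_lit 1) (nat_lit 362) (nat_lit 390) (nat_lit 388))) (XT.nd (nat_lit 78) (nat_lit 0) (nat_lit 76) (XT.lf (nat_lit 1900) (nat_lit 3124434914) (nat_lit 76) (nat_lit 839296743) (nat_lit 0) (nat_lit 839296743) (nat_lit 523) (nat_lit 1) (nat_lit 499) (nat_lit 1) (nat_lit 498) (nat_lit 1) (nat_lit 363) (nat_lit 390) (nat_lit 387)) (XT.nd (nat_lit 78) (nat_lit 0) (nat_lit 0) (XT.lf (nat_lit 1900) (nat_lit 1518416161) (nat_lit 0) (nat_lit 1719370954) (nat_lit 1824) (nat_lit 1518416161) (nat_lit 524) (nat_lit 1) (nat_lit 499) (nat_lit 1) (nat_lit 523) (nat_lit 1) (nat_lit 364) (nat_lit 390) (nat_lit 386)) (XT.lf (nat_lit 1900) (nat_lit 2939635779) (nat_lit 76) (nat_lit 885219359) (nat_lit 0) (nat_lit 885219359)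 (nat_lit 524) (nat_lit 1) (nat_lit 500) (nat_lit 1) (nat_lit 499) (nat_lit 1) (nat_lit 365) (nat_lit 390) (nat_lit 385))))))) (XT.nd (nat_lit 702) (nat_lit 1368) (nat_lit 0) (XT.nd (nat_lit 312) (nat_lit 0) (nat_lit 152) (XT.nd (nat_lit 156) (nat_lit 0) (nat_lit 76) (XT.nd (nat_lit 78) (nat_lit 0) (nat_lit 0) (XT.lf (nat_lit 1900) (nat_lit 1412438631) (nat_lit 0) (nat_lit 1839591220) (nat_lit 1824) (nat_lit 1412438631) (nat_lit 525) (nat_lit 1) (nat_lit 500) (nat_lit 1) (nat_lit 524) (nat_lit 1) (nat_lit 366) (nat_lit 390) (nat_lit 384)) (XT.lf (nat_lit 1900) (nat_lit 2700266340) (nat_lit 76) (nat_lit 959626529) (nat_lit 0) (nat_lit 959626529) (nat_lit 525) (nat_lit 1) (nat_lit 501) (nat_lit 1) (nat_lit 500) (nat_lit 1) (nat_lit 367) (nat_lit 390) (nat_lit 383))) (XT.nd (nat_lit 78) (nat_lit 0) (nat_lit 0) (XT.lf (nat_lit 1900) (nat_lit 1280108105) (nat_lit 0) (nat_lit 2014884819) (nat_lit 1824) (nat_lit 1280108105) (nat_lit 526) (nat_lit 1) (nat_lit 501) (nat_lit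 1) (nat_lit 525) (nat_lit 1) (nat_lit 368) (nat_lit 390) (nat_lit 382)) (XT.lf (nat_lit 1900) (nat_lit 2409656340) (nat_lit 76) (nat_lit 1060818675) (nat_lit 0) (nat_lit 1060818675) (nat_lit 526) (nat_lit 1) (nat_lit 502) (nat_lit 1) (nat_lit 501) (nat_lit 1) (nat_lit 369) (nat_lit 390) (nat_lit 381)))) (XT.nd (nat_lit 156) (nat_lit 0) (nat_lit 76) (XT.nd (nat_lit 78) (nat_lit 0) (nat_lit 0) (XT.lf (nat_lit 1900) (nat_lit 1123045317) (nat_lit 0) (nat_lit 2241941784) (nat_lit 1824) (nat_lit 1123045317) (nat_lit 527) (nat_lit 1) (nat_lit 502) (nat_lit 1) (nat_lit 526) (nat_lit 1) (nat_lit 370) (nat_lit 390) (nat_lit 380)) (XT.lf (nat_lit 1900) (nat_lit 2070982484) (nat_lit 76) (nat_lit 1187173857) (nat_lit 0) (nat_lit 1187173857) (nat_lit 527) (nat_lit 1) (nat_lit 503) (nat_lit 1) (nat_lit 502) (nat_lit 1) (nat_lit 371) (nat_lit 390) (nat_lit 379))) (XT.nd (nat_lit 78) (nat_lit 0) (nat_lit 0) (XT.lf (nat_lit 1900) (nat_lit 942796355) (nat_lit 0) (nat_lit 2517603642)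 (nat_lit 1824) (nat_lit 942796355) (nat_lit 528) (nat_lit 1) (nat_lit 503) (nat_lit 1) (nat_lit 527) (nat_lit 1) (nat_lit 372) (nat_lit 390) (nat_lit 378)) (XT.nd (nat_lit 78) (nat_lit 0) (nat_lit 76) (XT.lf (nat_lit 1900) (nat_lit 1687274848) (nat_lit 76) (nat_lit 1337144522) (nat_lit 0) (nat_lit 1337144522) (nat_lit 528) (nat_lit 1) (nat_lit 504) (nat_lit 1) (nat_lit 503) (nat_lit 1) (nat_lit 373) (nat_lit 390) (nat_lit 377)) (XT.lf (nat_lit 1900) (nat_lit 740835783) (nat_lit 0) (nat_lit 2838857091) (nat_lit 1824) (nat_lit 740835783) (nat_lit 529) (nat_lit 1) (nat_lit 504) (nat_lit 1) (nat_lit 528) (nat_lit 1) (nat_lit 374) (nat_lit 390) (nat_lit 376)))))) (XT.nd (nat_lit 312) (nat_lit 1672) (nat_lit 0) (XT.nd (nat_lit 156) (nat_lit 0) (nat_lit 76) (XT.nd (nat_lit 78) (nat_lit 0) (nat_lit 76) (XT.lf (nat_lit 1900) (nat_lit 1261423029) (nat_lit 76) (nat_lit 1509254397) (nat_lit 0) (nat_lit 1509254397) (nat_lit 529) (nat_lit 1) (nat_lit 505) (nat_lit 1) (nat_lit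 504) (nat_lit 1) (nat_lit 375) (nat_lit 390) (nat_lit 375)) (XT.lf (nat_lit 1900) (nat_lit 518569648) (nat_lit 0) (nat_lit 3202827911) (nat_lit 1824) (nat_lit 518569648) (nat_lit 530) (nat_lit 1) (nat_lit 505) (nat_lit 1) (nat_lit 529) (nat_lit 1) (nat_lit 376) (nat_lit 390) (nat_lit 374))) (XT.nd (nat_lit 78) (nat_lit 0) (nat_lit 76) (XT.lf (nat_lit 1900) (nat_lit 796182048) (nat_lit 76) (nat_lit 1702095501) (nat_lit 0) (nat_lit 1702095501) (nat_lit 530) (nat_lit 1) (nat_lit 506) (nat_lit 1) (nat_lit 505) (nat_lit 1) (nat_lit 377) (nat_lit 390) (nat_lit 373)) (XT.lf (nat_lit 1900) (nat_lit 277338361) (nat_lit 0) (nat_lit 3606775139) (nat_lit 1824) (nat_lit 277338361) (nat_lit 531) (nat_lit 1) (nat_lit 506) (nat_lit 1) (nat_lit 530) (nat_lit 1) (nat_lit 378) (nat_lit 390) (nat_lit 372)))) (XT.nd (nat_lit 156) (nat_lit 1824) (nat_lit 0) (XT.nd (nat_lit 78) (nat_lit 0) (nat_lit 76) (XT.lf (nat_lit 1900) (nat_lit 294178011) (nat_lit 76) (nat_lit 1914325275) (nat_lit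 0) (nat_lit 1914325275) (nat_lit 531) (nat_lit 1) (nat_lit 507) (nat_lit 1) (nat_lit 506) (nat_lit 1) (nat_lit 379) (nat_lit 390) (nat_lit 371)) (XT.lf (nat_lit 1900) (nat_lit 18419459) (nat_lit 0) (nat_lit 4048085464) (nat_lit 1824) (nat_lit 18419459) (nat_lit 532) (nat_lit 1) (nat_lit 507) (nat_lit 1) (nat_lit 531) (nat_lit 1) (nat_lit 380) (nat_lit 390) (nat_lit 370))) (XT.nd (nat_lit 78) (nat_lit 0) (nat_lit 0) (XT.lf (nat_lit 1976) (nat_lit 1904149174) (nat_lit 0) (nat_lit 238911441) (nat_lit 1900) (nat_lit 1904149174) (nat_lit 508) (nat_lit 1) (nat_lit 482) (nat_lit 1) (nat_lit 507) (nat_lit 1) (nat_lit 381) (nat_lit 390) (nat_lit 369)) (XT.nd (nat_lit 78) (nat_lit 0) (nat_lit 76) (XT.lf (nat_lit 1976) (nat_lit 3499636176) (nat_lit 76) (nat_lit 255279145) (nat_lit 0) (nat_lit 255279145) (nat_lit 508) (nat_lit 1) (nat_lit 483) (nat_lit 1) (nat_lit 482) (nat_lit 1) (nat_lit 382) (nat_lit 390) (nat_lit 368)) (XT.lf (nat_lit 1976) (nat_lit 1586924902) (nat_lit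 0) (nat_lit 799600689) (nat_lit 1900) (nat_lit 1586924902) (nat_lit 509) (nat_lit 1) (nat_lit 483) (nat_lit 1) (nat_lit 508) (nat_lit 1) (nat_lit 383) (nat_lit 390) (nat_lit 367))))))))
noncomputable def ec33 : XT := (XT.nd (nat_lit 1404) (nat_lit 6840) (nat_lit 0) (XT.nd (nat_lit 702) (nat_lit 4256) (nat_lit 0) (XT.nd (nat_lit 312) (nat_lit 2660) (nat_lit 0) (XT.nd (nat_lit 156) (nat_lit 1064) (nat_lit 0) (XT.nd (nat_lit 78) (nat_lit 0) (nat_lit 76) (XT.lf (nat_lit 1976) (nat_lit 2849190872) (nat_lit 76) (nat_lit 544066487) (nat_lit 0) (nat_lit 544066487) (nat_lit 509) (nat_lit 1) (nat_lit 484) (nat_lit 1) (nat_lit 483) (nat_lit 1) (nat_lit 384) (nat_lit 390) (nat_lit 366)) (XT.lf (nat_lit 76) (nat_lit 1256014493) (nat_lit 0) (nat_lit 1389506599) (nat_lit 1900) (nat_lit 1256014493) (nat_lit 485) (nat_lit 1) (nat_lit 484) (nat_lit 1) (nat_lit 509) (nat_lit 1) (nat_lit 385) (nat_lit 390) (nat_lit 365))) (XT.nd (nat_lit 78) (nat_lit 0) (nat_lit 0) (XT.lf (nat_lit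 1216) (nat_lit 2172336627) (nat_lit 0) (nat_lit 846966592) (nat_lit 1140) (nat_lit 846966592) (nat_lit 485) (nat_lit 1) (nat_lit 469) (nat_lit 1) (nat_lit 484) (nat_lit 1) (nat_lit 386) (nat_lit 390) (nat_lit 364)) (XT.lf (nat_lit 76) (nat_lit 912459283) (nat_lit 0) (nat_lit 2006494870) (nat_lit 1216) (nat_lit 912459283) (nat_lit 470) (nat_lit 1) (nat_lit 469) (nat_lit 1) (nat_lit 485) (nat_lit 1) (nat_lit 387) (nat_lit 390) (nat_lit 363)))) (XT.nd (nat_lit 156) (nat_lit 1748) (nat_lit 0) (XT.nd (nat_lit 78) (nat_lit 0) (nat_lit 0) (XT.lf (nat_lit 988) (nat_lit 1471112001) (nat_lit 0) (nat_lit 1162934842) (nat_lit 912) (nat_lit 1162934842) (nat_lit 470) (nat_lit 1) (nat_lit 457) (nat_lit 1) (nat_lit 469) (nat_lit 1) (nat_lit 388) (nat_lit 390) (nat_lit 362)) (XT.lf (nat_lit 76) (nat_lit 557250178) (nat_lit 0) (nat_lit 2648533682) (nat_lit 988) (nat_lit 557250178) (nat_lit 458) (nat_lit 1) (nat_lit 457) (nat_lit 1) (nat_lit 470) (nat_lit 1) (nat_lit 389) (nat_lit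 390) (nat_lit 361))) (XT.nd (nat_lit 78) (nat_lit 836) (nat_lit 0) (XT.lf (nat_lit 988) (nat_lit 747456532) (nat_lit 0) (nat_lit 1490976920) (nat_lit 912) (nat_lit 1490976920) (nat_lit 458) (nat_lit 1) (nat_lit 445) (nat_lit 1) (nat_lit 457) (nat_lit 1) (nat_lit 390) (nat_lit 390) (nat_lit 360)) (XT.nd (nat_lit 78) (nat_lit 836) (nat_lit 0) (XT.lf (nat_lit 76) (nat_lit 191329801) (nat_lit 0) (nat_lit 3313689332) (nat_lit 988) (nat_lit 191329801) (nat_lit 446) (nat_lit 1) (nat_lit 445) (nat_lit 1) (nat_lit 458) (nat_lit 1) (nat_lit 391) (nat_lit 390) (nat_lit 359)) (XT.lf (nat_lit 912) (nat_lit 3214967) (nat_lit 0) (nat_lit 1830146666) (nat_lit 836) (nat_lit 1830146666) (nat_lit 446) (nat_lit 1) (nat_lit 434) (nat_lit 1) (nat_lit 445) (nat_lit 1) (nat_lit 392) (nat_lit 390) (nat_lit 358)))))) (XT.nd (nat_lit 312) (nat_lit 2432) (nat_lit 0) (XT.nd (nat_lit 156) (nat_lit 836) (nat_lit 0) (XT.nd (nat_lit 78) (nat_lit 0) (nat_lit 0) (XT.lf (nat_lit 988) (nat_lit 3264830593)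 (nat_lit 0) (nat_lit 183192240) (nat_lit 912) (nat_lit 183192240) (nat_lit 434) (nat_lit 1) (nat_lit 421) (nat_lit 1) (nat_lit 433) (nat_lit 1) (nat_lit 393) (nat_lit 390) (nat_lit 357)) (XT.lf (nat_lit 76) (nat_lit 1424618851) (nat_lit 0) (nat_lit 749892990) (nat_lit 988) (nat_lit 1424618851) (nat_lit 422) (nat_lit 1) (nat_lit 421) (nat_lit 1) (nat_lit 434) (nat_lit 1) (nat_lit 394) (nat_lit 390) (nat_lit 356))) (XT.nd (nat_lit 78) (nat_lit 0) (nat_lit 0) (XT.lf (nat_lit 912) (nat_lit 2436860186) (nat_lit 0) (nat_lit 565359247) (nat_lit 836) (nat_lit 565359247) (nat_lit 422) (nat_lit 1) (nat_lit 410) (nat_lit 1) (nat_lit 421) (nat_lit 1) (nat_lit 395) (nat_lit 390) (nat_lit 355)) (XT.lf (nat_lit 76) (nat_lit 1008215178) (nat_lit 0) (nat_lit 1519898546) (nat_lit 912) (nat_lit 1008215178) (nat_lit 411) (nat_lit 1) (nat_lit 410) (nat_lit 1) (nat_lit 422) (nat_lit 1) (nat_lit 396) (nat_lit 390) (nat_lit 354)))) (XT.nd (nat_lit 156) (nat_lit 1596) (nat_lit 0) (XT.nd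 (nat_lit 78) (nat_lit 0) (nat_lit 0) (XT.lf (nat_lit 912) (nat_lit 1594244915) (nat_lit 0) (nat_lit 955625441) (nat_lit 836) (nat_lit 955625441) (nat_lit 411) (nat_lit 1) (nat_lit 399) (nat_lit 1) (nat_lit 410) (nat_lit 1) (nat_lit 397) (nat_lit 390) (nat_lit 353)) (XT.lf (nat_lit 76) (nat_lit 584889853) (nat_lit 0) (nat_lit 2305280540) (nat_lit 912) (nat_lit 584889853) (nat_lit 400) (nat_lit 1) (nat_lit 399) (nat_lit 1) (nat_lit 411) (nat_lit 1) (nat_lit 398) (nat_lit 390) (nat_lit 352))) (XT.nd (nat_lit 78) (nat_lit 836) (nat_lit 0) (XT.lf (nat_lit 836) (nat_lit 738471027) (nat_lit 0) (nat_lit 1353226533) (nat_lit 760) (nat_lit 1353226533) (nat_lit 400) (nat_lit 1) (nat_lit 389) (nat_lit 1) (nat_lit 399) (nat_lit 1) (nat_lit 399) (nat_lit 390) (nat_lit 351)) (XT.nd (nat_lit 78) (nat_lit 836) (nat_lit 0) (XT.lf (nat_lit 76) (nat_lit 155364422) (nat_lit 0) (nat_lit 3104554107) (nat_lit 836) (nat_lit 155364422) (nat_lit 390) (nat_lit 1) (nat_lit 389) (nat_lit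 1) (nat_lit 400) (nat_lit 1) (nat_lit 400) (nat_lit 390) (nat_lit 350)) (XT.lf (nat_lit 76) (nat_lit 1629223678) (nat_lit 0) (nat_lit 127358409) (nat_lit 836) (nat_lit 1629223678) (nat_lit 379) (nat_lit 1) (nat_lit 378) (nat_lit 1) (nat_lit 389) (nat_lit 1) (nat_lit 401) (nat_lit 390) (nat_lit 349))))))) (XT.nd (nat_lit 702) (nat_lit 3192) (nat_lit 0) (XT.nd (nat_lit 312) (nat_lit 2128) (nat_lit 0) (XT.nd (nat_lit 156) (nat_lit 760) (nat_lit 0) (XT.nd (nat_lit 78) (nat_lit 0) (nat_lit 0) (XT.lf (nat_lit 836) (nat_lit 2801137767) (nat_lit 0) (nat_lit 277836493) (nat_lit 760) (nat_lit 277836493) (nat_lit 379) (nat_lit 1) (nat_lit 368) (nat_lit 1) (nat_lit 378) (nat_lit 1) (nat_lit 402) (nat_lit 390) (nat_lit 348)) (XT.lf (nat_lit 76) (nat_lit 1167122225) (nat_lit 0) (nat_lit 993776084) (nat_lit 836) (nat_lit 1167122225) (nat_lit 369) (nat_lit 1) (nat_lit 368) (nat_lit 1) (nat_lit 379) (nat_lit 1) (nat_lit 403) (nat_lit 390) (nat_lit 347))) (XT.nd (nat_lit 78) (nat_lit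 0) (nat_lit 0) (XT.lf (nat_lit 836) (nat_lit 1869967906) (nat_lit 0) (nat_lit 714849364) (nat_lit 760) (nat_lit 714849364) (nat_lit 369) (nat_lit 1) (nat_lit 358) (nat_lit 1) (nat_lit 368) (nat_lit 1) (nat_lit 404) (nat_lit 390) (nat_lit 346)) (XT.lf (nat_lit 76) (nat_lit 701205464) (nat_lit 0) (nat_lit 1869214943) (nat_lit 836) (nat_lit 701205464) (nat_lit 359) (nat_lit 1) (nat_lit 358) (nat_lit 1) (nat_lit 369) (nat_lit 1) (nat_lit 405) (nat_lit 390) (nat_lit 345)))) (XT.nd (nat_lit 156) (nat_lit 1444) (nat_lit 0) (XT.nd (nat_lit 78) (nat_lit 0) (nat_lit 0) (XT.lf (nat_lit 760) (nat_lit 931724268) (nat_lit 0) (nat_lit 1156084766) (nat_lit 684) (nat_lit 1156084766) (nat_lit 359) (nat_lit 1) (nat_lit 349) (nat_lit 1) (nat_lit 358) (nat_lit 1) (nat_lit 406) (nat_lit 390) (nat_lit 344)) (XT.lf (nat_lit 76) (nat_lit 232048199) (nat_lit 0) (nat_lit 2752488109) (nat_lit 760) (nat_lit 232048199) (nat_lit 350) (nat_lit 1) (nat_lit 349) (nat_lit 1) (nat_lit 359) (nat_lit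 1) (nat_lit 407) (nat_lit 390) (nat_lit 343))) (XT.nd (nat_lit 78) (nat_lit 684) (nat_lit 0) (XT.lf (nat_lit 76) (nat_lit 1588573394) (nat_lit 0) (nat_lit 12307214) (nat_lit 760) (nat_lit 1588573394) (nat_lit 340) (nat_lit 1) (nat_lit 339) (nat_lit 1) (nat_lit 349) (nat_lit 1) (nat_lit 408) (nat_lit 390) (nat_lit 342)) (XT.nd (nat_lit 78) (nat_lit 0) (nat_lit 0) (XT.lf (nat_lit 760) (nat_lit 2686279757) (nat_lit 0) (nat_lit 238227782) (nat_lit 684) (nat_lit 238227782) (nat_lit 340) (nat_lit 1) (nat_lit 330) (nat_lit 1) (nat_lit 339) (nat_lit 1) (nat_lit 409) (nat_lit 390) (nat_lit 341)) (XT.lf (nat_lit 76) (nat_lit 1093623818) (nat_lit 0) (nat_lit 948944075) (nat_lit 760) (nat_lit 1093623818) (nat_lit 331) (nat_lit 1) (nat_lit 330) (nat_lit 1) (nat_lit 340) (nat_lit 1) (nat_lit 410) (nat_lit 390) (nat_lit 340)))))) (XT.nd (nat_lit 312) (nat_lit 1900) (nat_lit 0) (XT.nd (nat_lit 156) (nat_lit 608) (nat_lit 0) (XT.nd (nat_lit 78) (nat_lit 0) (nat_lit 0) (XT.lf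 (nat_lit 760) (nat_lit 1691757406) (nat_lit 0) (nat_lit 709144373) (nat_lit 684) (nat_lit 709144373) (nat_lit 331) (nat_lit 1) (nat_lit 321) (nat_lit 1) (nat_lit 330) (nat_lit 1) (nat_lit 411) (nat_lit 390) (nat_lit 339)) (XT.lf (nat_lit 76) (nat_lit 597389489) (nat_lit 0) (nat_lit 1889414591) (nat_lit 760) (nat_lit 597389489) (nat_lit 322) (nat_lit 1) (nat_lit 321) (nat_lit 1) (nat_lit 331) (nat_lit 1) (nat_lit 412) (nat_lit 390) (nat_lit 338))) (XT.nd (nat_lit 78) (nat_lit 0) (nat_lit 0) (XT.lf (nat_lit 684) (nat_lit 695114868) (nat_lit 0) (nat_lit 1181744651) (nat_lit 608) (nat_lit 1181744651) (nat_lit 322) (nat_lit 1) (nat_lit 313) (nat_lit 1) (nat_lit 321) (nat_lit 1) (nat_lit 413) (nat_lit 390) (nat_lit 337)) (XT.lf (nat_lit 76) (nat_lit 100322341) (nat_lit 0) (nat_lit 2832781577) (nat_lit 684) (nat_lit 100322341) (nat_lit 314) (nat_lit 1) (nat_lit 313) (nat_lit 1) (nat_lit 322) (nat_lit 1) (nat_lit 414) (nat_lit 390) (nat_lit 336)))) (XT.nd (nat_lit 156)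 (nat_lit 608) (nat_lit 0) (XT.nd (nat_lit 78) (nat_lit 608) (nat_lit 0) (XT.lf (nat_lit 76) (nat_lit 1354770701) (nat_lit 0) (nat_lit 298795889) (nat_lit 684) (nat_lit 1354770701) (nat_lit 305) (nat_lit 1) (nat_lit 304) (nat_lit 1) (nat_lit 313) (nat_lit 1) (nat_lit 415) (nat_lit 390) (nat_lit 335)) (XT.lf (nat_lit 684) (nat_lit 2194573884) (nat_lit 0) (nat_lit 394538289) (nat_lit 608) (nat_lit 394538289) (nat_lit 305) (nat_lit 1) (nat_lit 296) (nat_lit 1) (nat_lit 304) (nat_lit 1) (nat_lit 416) (nat_lit 390) (nat_lit 334))) (XT.nd (nat_lit 78) (nat_lit 608) (nat_lit 0) (XT.lf (nat_lit 76) (nat_lit 837585082) (nat_lit 0) (nat_lit 1283992551) (nat_lit 684) (nat_lit 837585082) (nat_lit 297) (nat_lit 1) (nat_lit 296) (nat_lit 1) (nat_lit 305) (nat_lit 1) (nat_lit 417) (nat_lit 390) (nat_lit 333)) (XT.nd (nat_lit 78) (nat_lit 0) (nat_lit 0) (XT.lf (nat_lit 684) (nat_lit 1157503513) (nat_lit 0) (nat_lit 888742987) (nat_lit 608) (nat_lit 888742987) (nat_lit 297) (nat_lit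 1) (nat_lit 288) (nat_lit 1) (nat_lit 296) (nat_lit 1) (nat_lit 418) (nat_lit 390) (nat_lit 332)) (XT.lf (nat_lit 76) (nat_lit 321160800) (nat_lit 0) (nat_lit 2268818337) (nat_lit 684) (nat_lit 321160800) (nat_lit 289) (nat_lit 1) (nat_lit 288) (nat_lit 1) (nat_lit 297) (nat_lit 1) (nat_lit 419) (nat_lit 390) (nat_lit 331))))))))
noncomputable def ec34 : XT := (XT.nd (nat_lit 55536) (nat_lit 0) (nat_lit 13680) (XT.nd (nat_lit 54834) (nat_lit 0) (nat_lit 17784) (XT.nd (nat_lit 312) (nat_lit 0) (nat_lit 0) (XT.nd (nat_lit 156) (nat_lit 532) (nat_lit 0) (XT.nd (nat_lit 78) (nat_lit 684) (nat_lit 0) (XT.lf (nat_lit 608) (nat_lit 122314859) (nat_lit 0) (nat_lit 1382575246) (nat_lit 532) (nat_lit 1382575246) (nat_lit 289) (nat_lit 1) (nat_lit 281) (nat_lit 1) (nat_lit 288) (nat_lit 1) (nat_lit 420) (nat_lit 390) (nat_lit 330)) (XT.lf (nat_lit 684) (nat_lit 2478386847) (nat_lit 0) (nat_lit 192875530) (nat_lit 608) (nat_lit 192875530) (nat_lit 281) (nat_lit 1) (nat_lit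 272) (nat_lit 1) (nat_lit 280) (nat_lit 1) (nat_lit 421) (nat_lit 390) (nat_lit 329))) (XT.nd (nat_lit 78) (nat_lit 532) (nat_lit 0) (XT.lf (nat_lit 76) (nat_lit 971278478) (nat_lit 0) (nat_lit 898373508) (nat_lit 684) (nat_lit 971278478) (nat_lit 273) (nat_lit 1) (nat_lit 272) (nat_lit 1) (nat_lit 281) (nat_lit 1) (nat_lit 422) (nat_lit 390) (nat_lit 328)) (XT.lf (nat_lit 608) (nat_lit 1411323181) (nat_lit 0) (nat_lit 703369499) (nat_lit 532) (nat_lit 703369499) (nat_lit 273) (nat_lit 1) (nat_lit 265) (nat_lit 1) (nat_lit 272) (nat_lit 1) (nat_lit 423) (nat_lit 390) (nat_lit 327)))) (XT.nd (nat_lit 54288) (nat_lit 0) (nat_lit 17632) (XT.nd (nat_lit 54210) (nat_lit 0) (nat_lit 17632) (XT.lf (nat_lit 76) (nat_lit 440579622) (nat_lit 0) (nat_lit 1914299784) (nat_lit 608) (nat_lit 440579622) (nat_lit 266) (nat_lit 1) (nat_lit 265) (nat_lit 1) (nat_lit 273) (nat_lit 1) (nat_lit 424) (nat_lit 390) (nat_lit 326)) (XT.lf (nat_lit 1900) (nat_lit 838662539) (nat_lit 0)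 (nat_lit 845675708) (nat_lit 1900) (nat_lit 838662539) (nat_lit 522) (nat_lit 1) (nat_lit 497) (nat_lit 0) (nat_lit 522) (nat_lit 0) (nat_lit 358) (nat_lit 391) (nat_lit 391))) (XT.nd (nat_lit 78) (nat_lit 0) (nat_lit 76) (XT.lf (nat_lit 1900) (nat_lit 3316197774) (nat_lit 76) (nat_lit 840112052) (nat_lit 0) (nat_lit 840112052) (nat_lit 522) (nat_lit 1) (nat_lit 498) (nat_lit 1) (nat_lit 497) (nat_lit 0) (nat_lit 359) (nat_lit 391) (nat_lit 390)) (XT.nd (nat_lit 78) (nat_lit 0) (nat_lit 0) (XT.lf (nat_lit 1900) (nat_lit 1628268892) (nat_lit 0) (nat_lit 1690845931) (nat_lit 1824) (nat_lit 1628268892) (nat_lit 523) (nat_lit 1) (nat_lit 498) (nat_lit 1) (nat_lit 522) (nat_lit 1) (nat_lit 360) (nat_lit 391) (nat_lit 389)) (XT.lf (nat_lit 1900) (nat_lit 3186923613) (nat_lit 76) (nat_lit 856082677) (nat_lit 0) (nat_lit 856082677) (nat_lit 523) (nat_lit 1) (nat_lit 499) (nat_lit 1) (nat_lit 498) (nat_lit 1) (nat_lit 361) (nat_lit 391) (nat_lit 388)))))) (XT.nd (nat_lit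 312) (nat_lit 0) (nat_lit 152) (XT.nd (nat_lit 156) (nat_lit 0) (nat_lit 76) (XT.nd (nat_lit 78) (nat_lit 0) (nat_lit 0) (XT.lf (nat_lit 1900) (nat_lit 1548784485) (nat_lit 0) (nat_lit 1753758373) (nat_lit 1824) (nat_lit 1548784485) (nat_lit 524) (nat_lit 1) (nat_lit 499) (nat_lit 1) (nat_lit 523) (nat_lit 1) (nat_lit 362) (nat_lit 391) (nat_lit 387)) (XT.lf (nat_lit 1900) (nat_lit 2998428495) (nat_lit 76) (nat_lit 902923746) (nat_lit 0) (nat_lit 902923746) (nat_lit 524) (nat_lit 1) (nat_lit 500) (nat_lit 1) (nat_lit 499) (nat_lit 1) (nat_lit 363) (nat_lit 391) (nat_lit 386))) (XT.nd (nat_lit 78) (nat_lit 0) (nat_lit 0) (XT.lf (nat_lit 1900) (nat_lit 1440687404) (nat_lit 0) (nat_lit 1876383044) (nat_lit 1824) (nat_lit 1440687404) (nat_lit 525) (nat_lit 1) (nat_lit 500) (nat_lit 1) (nat_lit 524) (nat_lit 1) (nat_lit 364) (nat_lit 391) (nat_lit 385)) (XT.lf (nat_lit 1900) (nat_lit 2754271667) (nat_lit 76) (nat_lit 978819059) (nat_lit 0) (nat_lit 978819059) (nat_lit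 525) (nat_lit 1) (nat_lit 501) (nat_lit 1) (nat_lit 500) (nat_lit 1) (nat_lit 365) (nat_lit 391) (nat_lit 384)))) (XT.nd (nat_lit 156) (nat_lit 0) (nat_lit 76) (XT.nd (nat_lit 78) (nat_lit 0) (nat_lit 0) (XT.lf (nat_lit 1900) (nat_lit 1305710267) (nat_lit 0) (nat_lit 2055182516) (nat_lit 1824) (nat_lit 1305710267) (nat_lit 526) (nat_lit 1) (nat_lit 501) (nat_lit 1) (nat_lit 525) (nat_lit 1) (nat_lit 366) (nat_lit 391) (nat_lit 383)) (XT.lf (nat_lit 1900) (nat_lit 2457849467) (nat_lit 76) (nat_lit 1082035049) (nat_lit 0) (nat_lit 1082035049) (nat_lit 526) (nat_lit 1) (nat_lit 502) (nat_lit 1) (nat_lit 501) (nat_lit 1) (nat_lit 367) (nat_lit 391) (nat_lit 382))) (XT.nd (nat_lit 78) (nat_lit 0) (nat_lit 0) (XT.lf (nat_lit 1900) (nat_lit 1145506224) (nat_lit 0) (nat_lit 2286780619) (nat_lit 1824) (nat_lit 1145506224) (nat_lit 527) (nat_lit 1) (nat_lit 502) (nat_lit 1) (nat_lit 526) (nat_lit 1) (nat_lit 368) (nat_lit 391) (nat_lit 381)) (XT.nd (nat_lit 78) (nat_lit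 0) (nat_lit 76) (XT.lf (nat_lit 1900) (nat_lit 2112402134) (nat_lit 76) (nat_lit 1210917334) (nat_lit 0) (nat_lit 1210917334) (nat_lit 527) (nat_lit 1) (nat_lit 503) (nat_lit 1) (nat_lit 502) (nat_lit 1) (nat_lit 369) (nat_lit 391) (nat_lit 380)) (XT.lf (nat_lit 1900) (nat_lit 961652282) (nat_lit 0) (nat_lit 2567955715) (nat_lit 1824) (nat_lit 961652282) (nat_lit 528) (nat_lit 1) (nat_lit 503) (nat_lit 1) (nat_lit 527) (nat_lit 1) (nat_lit 370) (nat_lit 391) (nat_lit 379))))))) (XT.nd (nat_lit 702) (nat_lit 2812) (nat_lit 0) (XT.nd (nat_lit 312) (nat_lit 1596) (nat_lit 0) (XT.nd (nat_lit 156) (nat_lit 0) (nat_lit 76) (XT.nd (nat_lit 78) (nat_lit 0) (nat_lit 76) (XT.lf (nat_lit 1900) (nat_lit 1721020345) (nat_lit 76) (nat_lit 1363887412) (nat_lit 0) (nat_lit 1363887412) (nat_lit 528) (nat_lit 1) (nat_lit 504) (nat_lit 1) (nat_lit 503) (nat_lit 1) (nat_lit 371) (nat_lit 391) (nat_lit 378)) (XT.lf (nat_lit 1900) (nat_lit 755652498) (nat_lit 0) (nat_lit 2895634233)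 (nat_lit 1824) (nat_lit 755652498) (nat_lit 529) (nat_lit 1) (nat_lit 504) (nat_lit 1) (nat_lit 528) (nat_lit 1) (nat_lit 372) (nat_lit 391) (nat_lit 377))) (XT.nd (nat_lit 78) (nat_lit 0) (nat_lit 76) (XT.lf (nat_lit 1900) (nat_lit 1286651490) (nat_lit 76) (nat_lit 1539439485) (nat_lit 0) (nat_lit 1539439485) (nat_lit 529) (nat_lit 1) (nat_lit 505) (nat_lit 1) (nat_lit 504) (nat_lit 1) (nat_lit 373) (nat_lit 391) (nat_lit 376)) (XT.lf (nat_lit 1900) (nat_lit 528941041) (nat_lit 0) (nat_lit 3266884469) (nat_lit 1824) (nat_lit 528941041) (nat_lit 530) (nat_lit 1) (nat_lit 505) (nat_lit 1) (nat_lit 529) (nat_lit 1) (nat_lit 374) (nat_lit 391) (nat_lit 375)))) (XT.nd (nat_lit 156) (nat_lit 1748) (nat_lit 0) (XT.nd (nat_lit 78) (nat_lit 0) (nat_lit 76) (XT.lf (nat_lit 1900) (nat_lit 812105688) (nat_lit 76) (nat_lit 1736137411) (nat_lit 0) (nat_lit 1736137411) (nat_lit 530) (nat_lit 1) (nat_lit 506) (nat_lit 1) (nat_lit 505) (nat_lit 1) (nat_lit 375) (nat_lit 391)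 (nat_lit 374)) (XT.lf (nat_lit 1900) (nat_lit 282885128) (nat_lit 0) (nat_lit 3678910641) (nat_lit 1824) (nat_lit 282885128) (nat_lit 531) (nat_lit 1) (nat_lit 506) (nat_lit 1) (nat_lit 530) (nat_lit 1) (nat_lit 376) (nat_lit 391) (nat_lit 373))) (XT.nd (nat_lit 78) (nat_lit 1824) (nat_lit 0) (XT.lf (nat_lit 1900) (nat_lit 300061571) (nat_lit 76) (nat_lit 1952611781) (nat_lit 0) (nat_lit 1952611781) (nat_lit 531) (nat_lit 1) (nat_lit 507) (nat_lit 1) (nat_lit 506) (nat_lit 1) (nat_lit 377) (nat_lit 391) (nat_lit 372)) (XT.nd (nat_lit 78) (nat_lit 1900) (nat_lit 0) (XT.lf (nat_lit 1900) (nat_lit 18787848) (nat_lit 0) (nat_lit 4129047173) (nat_lit 1824) (nat_lit 18787848) (nat_lit 532) (nat_lit 1) (nat_lit 507) (nat_lit 1) (nat_lit 531) (nat_lit 1) (nat_lit 378) (nat_lit 391) (nat_lit 371)) (XT.lf (nat_lit 1976) (nat_lit 1942232157) (nat_lit 0) (nat_lit 243689670) (nat_lit 1900) (nat_lit 1942232157) (nat_lit 508) (nat_lit 1) (nat_lit 482) (nat_lit 1) (nat_lit 507)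 (nat_lit 1) (nat_lit 379) (nat_lit 391) (nat_lit 370)))))) (XT.nd (nat_lit 312) (nat_lit 2812) (nat_lit 0) (XT.nd (nat_lit 156) (nat_lit 0) (nat_lit 76) (XT.nd (nat_lit 78) (nat_lit 0) (nat_lit 76) (XT.lf (nat_lit 1976) (nat_lit 3569628899) (nat_lit 76) (nat_lit 260384728) (nat_lit 0) (nat_lit 260384728) (nat_lit 508) (nat_lit 1) (nat_lit 483) (nat_lit 1) (nat_lit 482) (nat_lit 1) (nat_lit 380) (nat_lit 391) (nat_lit 369)) (XT.lf (nat_lit 1976) (nat_lit 1618663400) (nat_lit 0) (nat_lit 815592703) (nat_lit 1900) (nat_lit 1618663400) (nat_lit 509) (nat_lit 1) (nat_lit 483) (nat_lit 1) (nat_lit 508) (nat_lit 1) (nat_lit 381) (nat_lit 391) (nat_lit 368))) (XT.nd (nat_lit 78) (nat_lit 0) (nat_lit 76) (XT.lf (nat_lit 1976) (nat_lit 2906174689) (nat_lit 76) (nat_lit 554947816) (nat_lit 0) (nat_lit 554947816) (nat_lit 509) (nat_lit 1) (nat_lit 484) (nat_lit 1) (nat_lit 483) (nat_lit 1) (nat_lit 382) (nat_lit 391) (nat_lit 367)) (XT.lf (nat_lit 76) (nat_lit 1281134783)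 (nat_lit 0) (nat_lit 1417296731) (nat_lit 1900) (nat_lit 1281134783) (nat_lit 485) (nat_lit 1) (nat_lit 484) (nat_lit 1) (nat_lit 509) (nat_lit 1) (nat_lit 383) (nat_lit 391) (nat_lit 366)))) (XT.nd (nat_lit 156) (nat_lit 1824) (nat_lit 0) (XT.nd (nat_lit 78) (nat_lit 0) (nat_lit 0) (XT.lf (nat_lit 1216) (nat_lit 2215783359) (nat_lit 0) (nat_lit 863905924) (nat_lit 1140) (nat_lit 863905924) (nat_lit 485) (nat_lit 1) (nat_lit 469) (nat_lit 1) (nat_lit 484) (nat_lit 1) (nat_lit 384) (nat_lit 391) (nat_lit 365)) (XT.lf (nat_lit 76) (nat_lit 930708469) (nat_lit 0) (nat_lit 2046624768) (nat_lit 1216) (nat_lit 930708469) (nat_lit 470) (nat_lit 1) (nat_lit 469) (nat_lit 1) (nat_lit 485) (nat_lit 1) (nat_lit 385) (nat_lit 391) (nat_lit 364))) (XT.nd (nat_lit 78) (nat_lit 912) (nat_lit 0) (XT.lf (nat_lit 988) (nat_lit 1500534241) (nat_lit 0) (nat_lit 1186193539) (nat_lit 912) (nat_lit 1186193539) (nat_lit 470) (nat_lit 1) (nat_lit 457) (nat_lit 1) (nat_lit 469) (nat_lit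 1) (nat_lit 386) (nat_lit 391) (nat_lit 363)) (XT.nd (nat_lit 78) (nat_lit 912) (nat_lit 0) (XT.lf (nat_lit 76) (nat_lit 568395181) (nat_lit 0) (nat_lit 2701504356) (nat_lit 988) (nat_lit 568395181) (nat_lit 458) (nat_lit 1) (nat_lit 457) (nat_lit 1) (nat_lit 470) (nat_lit 1) (nat_lit 387) (nat_lit 391) (nat_lit 362)) (XT.lf (nat_lit 988) (nat_lit 762405663) (nat_lit 0) (nat_lit 1520796458) (nat_lit 912) (nat_lit 1520796458) (nat_lit 458) (nat_lit 1) (nat_lit 445) (nat_lit 1) (nat_lit 457) (nat_lit 1) (nat_lit 388) (nat_lit 391) (nat_lit 361))))))))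
noncomputable def ec35 : XT := (XT.nd (nat_lit 1404) (nat_lit 6764) (nat_lit 0) (XT.nd (nat_lit 702) (nat_lit 3800) (nat_lit 0) (XT.nd (nat_lit 312) (nat_lit 2432) (nat_lit 0) (XT.nd (nat_lit 156) (nat_lit 988) (nat_lit 0) (XT.nd (nat_lit 78) (nat_lit 836) (nat_lit 0) (XT.lf (nat_lit 76) (nat_lit 195156397) (nat_lit 0) (nat_lit 3379963119) (nat_lit 988) (nat_lit 195156397) (nat_lit 446) (nat_lit 1) (nat_lit 445) (nat_lit 1) (nat_lit 458) (nat_lit 1) (nat_lit 389) (nat_lit 391) (nat_lit 360)) (XT.lf (nat_lit 912) (nat_lit 3279266) (nat_lit 0) (nat_lit 1866749599) (nat_lit 836) (nat_lit 1866749599) (nat_lit 446) (nat_lit 1) (nat_lit 434) (nat_lit 1) (nat_lit 445) (nat_lit 1) (nat_lit 390) (nat_lit 391) (nat_lit 359))) (XT.nd (nat_lit 78) (nat_lit 0) (nat_lit 0) (XT.lf (nat_lit 988) (nat_lit 3330127205) (nat_lit 0) (nat_lit 186856085) (nat_lit 912) (nat_lit 186856085) (nat_lit 434) (nat_lit 1) (nat_lit 421) (nat_lit 1) (nat_lit 433) (nat_lit 1) (nat_lit 391) (nat_lit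 391) (nat_lit 358)) (XT.lf (nat_lit 76) (nat_lit 1453111228) (nat_lit 0) (nat_lit 764890850) (nat_lit 988) (nat_lit 1453111228) (nat_lit 422) (nat_lit 1) (nat_lit 421) (nat_lit 1) (nat_lit 434) (nat_lit 1) (nat_lit 392) (nat_lit 391) (nat_lit 357)))) (XT.nd (nat_lit 156) (nat_lit 1596) (nat_lit 0) (XT.nd (nat_lit 78) (nat_lit 0) (nat_lit 0) (XT.lf (nat_lit 912) (nat_lit 2485597389) (nat_lit 0) (nat_lit 576666432) (nat_lit 836) (nat_lit 576666432) (nat_lit 422) (nat_lit 1) (nat_lit 410) (nat_lit 1) (nat_lit 421) (nat_lit 1) (nat_lit 393) (nat_lit 391) (nat_lit 356)) (XT.lf (nat_lit 76) (nat_lit 1028379481) (nat_lit 0) (nat_lit 1550296517) (nat_lit 912) (nat_lit 1028379481) (nat_lit 411) (nat_lit 1) (nat_lit 410) (nat_lit 1) (nat_lit 422) (nat_lit 1) (nat_lit 394) (nat_lit 391) (nat_lit 355))) (XT.nd (nat_lit 78) (nat_lit 760) (nat_lit 0) (XT.lf (nat_lit 912) (nat_lit 1626129814) (nat_lit 0) (nat_lit 974737950) (nat_lit 836) (nat_lit 974737950) (nat_lit 411) (nat_lit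 1) (nat_lit 399) (nat_lit 1) (nat_lit 410) (nat_lit 1) (nat_lit 395) (nat_lit 391) (nat_lit 354)) (XT.nd (nat_lit 78) (nat_lit 760) (nat_lit 0) (XT.lf (nat_lit 76) (nat_lit 596587651) (nat_lit 0) (nat_lit 2351386151) (nat_lit 912) (nat_lit 596587651) (nat_lit 400) (nat_lit 1) (nat_lit 399) (nat_lit 1) (nat_lit 411) (nat_lit 1) (nat_lit 396) (nat_lit 391) (nat_lit 353)) (XT.lf (nat_lit 836) (nat_lit 753240448) (nat_lit 0) (nat_lit 1380291063) (nat_lit 760) (nat_lit 1380291063) (nat_lit 400) (nat_lit 1) (nat_lit 389) (nat_lit 1) (nat_lit 399) (nat_lit 1) (nat_lit 397) (nat_lit 391) (nat_lit 352)))))) (XT.nd (nat_lit 312) (nat_lit 2204) (nat_lit 0) (XT.nd (nat_lit 156) (nat_lit 760) (nat_lit 0) (XT.nd (nat_lit 78) (nat_lit 836) (nat_lit 0) (XT.lf (nat_lit 76) (nat_lit 158471710) (nat_lit 0) (nat_lit 3166645190) (nat_lit 836) (nat_lit 158471710) (nat_lit 390) (nat_lit 1) (nat_lit 389) (nat_lit 1) (nat_lit 400) (nat_lit 1) (nat_lit 398) (nat_lit 391) (nat_lit 351))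 (XT.lf (nat_lit 76) (nat_lit 1661808152) (nat_lit 0) (nat_lit 129905577) (nat_lit 836) (nat_lit 1661808152) (nat_lit 379) (nat_lit 1) (nat_lit 378) (nat_lit 1) (nat_lit 389) (nat_lit 1) (nat_lit 399) (nat_lit 391) (nat_lit 350))) (XT.nd (nat_lit 78) (nat_lit 0) (nat_lit 0) (XT.lf (nat_lit 836) (nat_lit 2857160523) (nat_lit 0) (nat_lit 283393223) (nat_lit 760) (nat_lit 283393223) (nat_lit 379) (nat_lit 1) (nat_lit 368) (nat_lit 1) (nat_lit 378) (nat_lit 1) (nat_lit 400) (nat_lit 391) (nat_lit 349)) (XT.lf (nat_lit 76) (nat_lit 1190464670) (nat_lit 0) (nat_lit 1013651606) (nat_lit 836) (nat_lit 1190464670) (nat_lit 369) (nat_lit 1) (nat_lit 368) (nat_lit 1) (nat_lit 379) (nat_lit 1) (nat_lit 401) (nat_lit 391) (nat_lit 348)))) (XT.nd (nat_lit 156) (nat_lit 1444) (nat_lit 0) (XT.nd (nat_lit 78) (nat_lit 0) (nat_lit 0) (XT.lf (nat_lit 836) (nat_lit 1907367264) (nat_lit 0) (nat_lit 729146352) (nat_lit 760) (nat_lit 729146352) (nat_lit 369) (nat_lit 1) (nat_lit 358)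 (nat_lit 1) (nat_lit 368) (nat_lit 1) (nat_lit 402) (nat_lit 391) (nat_lit 347)) (XT.lf (nat_lit 76) (nat_lit 715229573) (nat_lit 0) (nat_lit 1906599242) (nat_lit 836) (nat_lit 715229573) (nat_lit 359) (nat_lit 1) (nat_lit 358) (nat_lit 1) (nat_lit 369) (nat_lit 1) (nat_lit 403) (nat_lit 391) (nat_lit 346))) (XT.nd (nat_lit 78) (nat_lit 760) (nat_lit 0) (XT.lf (nat_lit 760) (nat_lit 950358753) (nat_lit 0) (nat_lit 1179206461) (nat_lit 684) (nat_lit 1179206461) (nat_lit 359) (nat_lit 1) (nat_lit 349) (nat_lit 1) (nat_lit 358) (nat_lit 1) (nat_lit 404) (nat_lit 391) (nat_lit 345)) (XT.nd (nat_lit 78) (nat_lit 760) (nat_lit 0) (XT.lf (nat_lit 76) (nat_lit 236689163) (nat_lit 0) (nat_lit 2807537871) (nat_lit 760) (nat_lit 236689163) (nat_lit 350) (nat_lit 1) (nat_lit 349) (nat_lit 1) (nat_lit 359) (nat_lit 1) (nat_lit 405) (nat_lit 391) (nat_lit 344)) (XT.lf (nat_lit 76) (nat_lit 1620344862) (nat_lit 0) (nat_lit 12553359) (nat_lit 760) (nat_lit 1620344862) (nat_lit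 340) (nat_lit 1) (nat_lit 339) (nat_lit 1) (nat_lit 349) (nat_lit 1) (nat_lit 406) (nat_lit 391) (nat_lit 343))))))) (XT.nd (nat_lit 702) (nat_lit 3496) (nat_lit 0) (XT.nd (nat_lit 312) (nat_lit 1900) (nat_lit 0) (XT.nd (nat_lit 156) (nat_lit 684) (nat_lit 0) (XT.nd (nat_lit 78) (nat_lit 0) (nat_lit 0) (XT.lf (nat_lit 760) (nat_lit 2740005352) (nat_lit 0) (nat_lit 242992337) (nat_lit 684) (nat_lit 242992337) (nat_lit 340) (nat_lit 1) (nat_lit 330) (nat_lit 1) (nat_lit 339) (nat_lit 1) (nat_lit 407) (nat_lit 391) (nat_lit 342)) (XT.lf (nat_lit 76) (nat_lit 1115496294) (nat_lit 0) (nat_lit 967922956) (nat_lit 760) (nat_lit 1115496294) (nat_lit 331) (nat_lit 1) (nat_lit 330) (nat_lit 1) (nat_lit 340) (nat_lit 1) (nat_lit 408) (nat_lit 391) (nat_lit 341))) (XT.nd (nat_lit 78) (nat_lit 0) (nat_lit 0) (XT.lf (nat_lit 760) (nat_lit 1725592554) (nat_lit 0) (nat_lit 723327260) (nat_lit 684) (nat_lit 723327260) (nat_lit 331) (nat_lit 1) (nat_lit 321) (nat_lit 1) (nat_lit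 330) (nat_lit 1) (nat_lit 409) (nat_lit 391) (nat_lit 340)) (XT.lf (nat_lit 76) (nat_lit 609337279) (nat_lit 0) (nat_lit 1927202883) (nat_lit 760) (nat_lit 609337279) (nat_lit 322) (nat_lit 1) (nat_lit 321) (nat_lit 1) (nat_lit 331) (nat_lit 1) (nat_lit 410) (nat_lit 391) (nat_lit 339)))) (XT.nd (nat_lit 156) (nat_lit 1292) (nat_lit 0) (XT.nd (nat_lit 78) (nat_lit 0) (nat_lit 0) (XT.lf (nat_lit 684) (nat_lit 709017165) (nat_lit 0) (nat_lit 1205379544) (nat_lit 608) (nat_lit 1205379544) (nat_lit 322) (nat_lit 1) (nat_lit 313) (nat_lit 1) (nat_lit 321) (nat_lit 1) (nat_lit 411) (nat_lit 391) (nat_lit 338)) (XT.lf (nat_lit 76) (nat_lit 102328788) (nat_lit 0) (nat_lit 2889437208) (nat_lit 684) (nat_lit 102328788) (nat_lit 314) (nat_lit 1) (nat_lit 313) (nat_lit 1) (nat_lit 322) (nat_lit 1) (nat_lit 412) (nat_lit 391) (nat_lit 337))) (XT.nd (nat_lit 78) (nat_lit 608) (nat_lit 0) (XT.lf (nat_lit 76) (nat_lit 1381866115) (nat_lit 0) (nat_lit 304771807) (nat_lit 684)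 (nat_lit 1381866115) (nat_lit 305) (nat_lit 1) (nat_lit 304) (nat_lit 1) (nat_lit 313) (nat_lit 1) (nat_lit 413) (nat_lit 391) (nat_lit 336)) (XT.nd (nat_lit 78) (nat_lit 0) (nat_lit 0) (XT.lf (nat_lit 684) (nat_lit 2238465361) (nat_lit 0) (nat_lit 402429055) (nat_lit 608) (nat_lit 402429055) (nat_lit 305) (nat_lit 1) (nat_lit 296) (nat_lit 1) (nat_lit 304) (nat_lit 1) (nat_lit 414) (nat_lit 391) (nat_lit 335)) (XT.lf (nat_lit 76) (nat_lit 854336784) (nat_lit 0) (nat_lit 1309672402) (nat_lit 684) (nat_lit 854336784) (nat_lit 297) (nat_lit 1) (nat_lit 296) (nat_lit 1) (nat_lit 305) (nat_lit 1) (nat_lit 415) (nat_lit 391) (nat_lit 334)))))) (XT.nd (nat_lit 312) (nat_lit 1672) (nat_lit 0) (XT.nd (nat_lit 156) (nat_lit 1216) (nat_lit 0) (XT.nd (nat_lit 78) (nat_lit 0) (nat_lit 0) (XT.lf (nat_lit 684) (nat_lit 1180653583) (nat_lit 0) (nat_lit 906517847) (nat_lit 608) (nat_lit 906517847) (nat_lit 297) (nat_lit 1) (nat_lit 288) (nat_lit 1) (nat_lit 296) (nat_lit 1)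 (nat_lit 416) (nat_lit 391) (nat_lit 333)) (XT.lf (nat_lit 76) (nat_lit 327584016) (nat_lit 0) (nat_lit 2314194704) (nat_lit 684) (nat_lit 327584016) (nat_lit 289) (nat_lit 1) (nat_lit 288) (nat_lit 1) (nat_lit 297) (nat_lit 1) (nat_lit 417) (nat_lit 391) (nat_lit 332))) (XT.nd (nat_lit 78) (nat_lit 684) (nat_lit 0) (XT.lf (nat_lit 608) (nat_lit 124761157) (nat_lit 0) (nat_lit 1410226751) (nat_lit 532) (nat_lit 1410226751) (nat_lit 289) (nat_lit 1) (nat_lit 281) (nat_lit 1) (nat_lit 288) (nat_lit 1) (nat_lit 418) (nat_lit 391) (nat_lit 331)) (XT.lf (nat_lit 684) (nat_lit 2527954584) (nat_lit 0) (nat_lit 196733040) (nat_lit 608) (nat_lit 196733040) (nat_lit 281) (nat_lit 1) (nat_lit 272) (nat_lit 1) (nat_lit 280) (nat_lit 1) (nat_lit 419) (nat_lit 391) (nat_lit 330)))) (XT.nd (nat_lit 156) (nat_lit 1140) (nat_lit 0) (XT.nd (nat_lit 78) (nat_lit 532) (nat_lit 0) (XT.lf (nat_lit 76) (nat_lit 990704047) (nat_lit 0) (nat_lit 916340978) (nat_lit 684) (nat_lit 990704047)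 (nat_lit 273) (nat_lit 1) (nat_lit 272) (nat_lit 1) (nat_lit 281) (nat_lit 1) (nat_lit 420) (nat_lit 391) (nat_lit 329)) (XT.lf (nat_lit 608) (nat_lit 1439549645) (nat_lit 0) (nat_lit 717436889) (nat_lit 532) (nat_lit 717436889) (nat_lit 273) (nat_lit 1) (nat_lit 265) (nat_lit 1) (nat_lit 272) (nat_lit 1) (nat_lit 421) (nat_lit 391) (nat_lit 328))) (XT.nd (nat_lit 78) (nat_lit 1140) (nat_lit 0) (XT.lf (nat_lit 76) (nat_lit 449391214) (nat_lit 0) (nat_lit 1952585780) (nat_lit 608) (nat_lit 449391214) (nat_lit 266) (nat_lit 1) (nat_lit 265) (nat_lit 1) (nat_lit 273) (nat_lit 1) (nat_lit 422) (nat_lit 391) (nat_lit 327)) (XT.nd (nat_lit 78) (nat_lit 608) (nat_lit 0) (XT.lf (nat_lit 608) (nat_lit 355772533) (nat_lit 0) (nat_lit 1236370322) (nat_lit 532) (nat_lit 1236370322) (nat_lit 266) (nat_lit 1) (nat_lit 258) (nat_lit 1) (nat_lit 265) (nat_lit 1) (nat_lit 423) (nat_lit 391) (nat_lit 326)) (XT.lf (nat_lit 608) (nat_lit 2628244513) (nat_lit 0) (nat_lit 88884470)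 (nat_lit 532) (nat_lit 88884470) (nat_lit 258) (nat_lit 1) (nat_lit 250) (nat_lit 1) (nat_lit 257) (nat_lit 1) (nat_lit 424) (nat_lit 391) (nat_lit 325))))))))
noncomputable def ec36 : XT := (XT.nd (nat_lit 1404) (nat_lit 6612) (nat_lit 0) (XT.nd (nat_lit 702) (nat_lit 0) (nat_lit 304) (XT.nd (nat_lit 312) (nat_lit 0) (nat_lit 152) (XT.nd (nat_lit 156) (nat_lit 0) (nat_lit 76) (XT.nd (nat_lit 78) (nat_lit 0) (nat_lit 0) (XT.lf (nat_lit 1900) (nat_lit 855435790) (nat_lit 0) (nat_lit 862589222) (nat_lit 1900) (nat_lit 855435790) (nat_lit 522) (nat_lit 1) (nat_lit 497) (nat_lit 0) (nat_lit 522) (nat_lit 0) (nat_lit 356) (nat_lit 392) (nat_lit 392)) (XT.lf (nat_lit 1900) (nat_lit 3382521730) (nat_lit 76) (nat_lit 856914293) (nat_lit 0) (nat_lit 856914293) (nat_lit 522) (nat_lit 1) (nat_lit 498) (nat_lit 1) (nat_lit 497) (nat_lit 0) (nat_lit 357) (nat_lit 392) (nat_lit 391))) (XT.nd (nat_lit 78) (nat_lit 0) (nat_lit 0) (XT.lf (nat_lit 1900) (nat_lit 1660834270) (nat_lit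 0) (nat_lit 1724662850) (nat_lit 1824) (nat_lit 1660834270) (nat_lit 523) (nat_lit 1) (nat_lit 498) (nat_lit 1) (nat_lit 522) (nat_lit 1) (nat_lit 358) (nat_lit 392) (nat_lit 390)) (XT.lf (nat_lit 1900) (nat_lit 3250662085) (nat_lit 76) (nat_lit 873204331) (nat_lit 0) (nat_lit 873204331) (nat_lit 523) (nat_lit 1) (nat_lit 499) (nat_lit 1) (nat_lit 498) (nat_lit 1) (nat_lit 359) (nat_lit 392) (nat_lit 389)))) (XT.nd (nat_lit 156) (nat_lit 0) (nat_lit 76) (XT.nd (nat_lit 78) (nat_lit 0) (nat_lit 0) (XT.lf (nat_lit 1900) (nat_lit 1579760174) (nat_lit 0) (nat_lit 1788833541) (nat_lit 1824) (nat_lit 1579760174) (nat_lit 524) (nat_lit 1) (nat_lit 499) (nat_lit 1) (nat_lit 523) (nat_lit 1) (nat_lit 360) (nat_lit 392) (nat_lit 388)) (XT.lf (nat_lit 1900) (nat_lit 3058397065) (nat_lit 76) (nat_lit 920982221) (nat_lit 0) (nat_lit 920982221) (nat_lit 524) (nat_lit 1) (nat_lit 500) (nat_lit 1) (nat_lit 499) (nat_lit 1) (nat_lit 361) (nat_lit 392) (nat_lit 387))) (XT.nd (nat_lit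 78) (nat_lit 0) (nat_lit 0) (XT.lf (nat_lit 1900) (nat_lit 1469501152) (nat_lit 0) (nat_lit 1913910705) (nat_lit 1824) (nat_lit 1469501152) (nat_lit 525) (nat_lit 1) (nat_lit 500) (nat_lit 1) (nat_lit 524) (nat_lit 1) (nat_lit 362) (nat_lit 392) (nat_lit 386)) (XT.nd (nat_lit 78) (nat_lit 0) (nat_lit 76) (XT.lf (nat_lit 1900) (nat_lit 2809357101) (nat_lit 76) (nat_lit 998395441) (nat_lit 0) (nat_lit 998395441) (nat_lit 525) (nat_lit 1) (nat_lit 501) (nat_lit 1) (nat_lit 500) (nat_lit 1) (nat_lit 363) (nat_lit 392) (nat_lit 385)) (XT.lf (nat_lit 1900) (nat_lit 1331824472) (nat_lit 0) (nat_lit 2096286166) (nat_lit 1824) (nat_lit 1331824472) (nat_lit 526) (nat_lit 1) (nat_lit 501) (nat_lit 1) (nat_lit 525) (nat_lit 1) (nat_lit 364) (nat_lit 392) (nat_lit 384)))))) (XT.nd (nat_lit 312) (nat_lit 0) (nat_lit 152) (XT.nd (nat_lit 156) (nat_lit 0) (nat_lit 76) (XT.nd (nat_lit 78) (nat_lit 0) (nat_lit 76) (XT.lf (nat_lit 1900) (nat_lit 2507006456) (nat_lit 76) (nat_lit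 1103675750) (nat_lit 0) (nat_lit 1103675750) (nat_lit 526) (nat_lit 1) (nat_lit 502) (nat_lit 1) (nat_lit 501) (nat_lit 1) (nat_lit 365) (nat_lit 392) (nat_lit 383)) (XT.lf (nat_lit 1900) (nat_lit 1168416348) (nat_lit 0) (nat_lit 2332516232) (nat_lit 1824) (nat_lit 1168416348) (nat_lit 527) (nat_lit 1) (nat_lit 502) (nat_lit 1) (nat_lit 526) (nat_lit 1) (nat_lit 366) (nat_lit 392) (nat_lit 382))) (XT.nd (nat_lit 78) (nat_lit 0) (nat_lit 76) (XT.lf (nat_lit 1900) (nat_lit 2154650176) (nat_lit 76) (nat_lit 1235135681) (nat_lit 0) (nat_lit 1235135681) (nat_lit 527) (nat_lit 1) (nat_lit 503) (nat_lit 1) (nat_lit 502) (nat_lit 1) (nat_lit 367) (nat_lit 392) (nat_lit 381)) (XT.lf (nat_lit 1900) (nat_lit 980885328) (nat_lit 0) (nat_lit 2619314830) (nat_lit 1824) (nat_lit 980885328) (nat_lit 528) (nat_lit 1) (nat_lit 503) (nat_lit 1) (nat_lit 527) (nat_lit 1) (nat_lit 368) (nat_lit 392) (nat_lit 380)))) (XT.nd (nat_lit 156) (nat_lit 0) (nat_lit 76) (XT.nd (nat_lit 78)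 (nat_lit 0) (nat_lit 76) (XT.lf (nat_lit 1900) (nat_lit 1755440752) (nat_lit 76) (nat_lit 1391165161) (nat_lit 0) (nat_lit 1391165161) (nat_lit 528) (nat_lit 1) (nat_lit 504) (nat_lit 1) (nat_lit 503) (nat_lit 1) (nat_lit 369) (nat_lit 392) (nat_lit 379)) (XT.lf (nat_lit 1900) (nat_lit 770765548) (nat_lit 0) (nat_lit 2953546917) (nat_lit 1824) (nat_lit 770765548) (nat_lit 529) (nat_lit 1) (nat_lit 504) (nat_lit 1) (nat_lit 528) (nat_lit 1) (nat_lit 370) (nat_lit 392) (nat_lit 378))) (XT.nd (nat_lit 78) (nat_lit 0) (nat_lit 76) (XT.lf (nat_lit 1900) (nat_lit 1312384520) (nat_lit 76) (nat_lit 1570228275) (nat_lit 0) (nat_lit 1570228275) (nat_lit 529) (nat_lit 1) (nat_lit 505) (nat_lit 1) (nat_lit 504) (nat_lit 1) (nat_lit 371) (nat_lit 392) (nat_lit 377)) (XT.nd (nat_lit 78) (nat_lit 0) (nat_lit 0) (XT.lf (nat_lit 1900) (nat_lit 539519862) (nat_lit 0) (nat_lit 3332222159) (nat_lit 1824) (nat_lit 539519862) (nat_lit 530) (nat_lit 1) (nat_lit 505) (nat_lit 1) (nat_lit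 529) (nat_lit 1) (nat_lit 372) (nat_lit 392) (nat_lit 376)) (XT.lf (nat_lit 1900) (nat_lit 828347802) (nat_lit 76) (nat_lit 1770860159) (nat_lit 0) (nat_lit 1770860159) (nat_lit 530) (nat_lit 1) (nat_lit 506) (nat_lit 1) (nat_lit 505) (nat_lit 1) (nat_lit 373) (nat_lit 392) (nat_lit 375))))))) (XT.nd (nat_lit 702) (nat_lit 4484) (nat_lit 0) (XT.nd (nat_lit 312) (nat_lit 988) (nat_lit 0) (XT.nd (nat_lit 156) (nat_lit 1824) (nat_lit 0) (XT.nd (nat_lit 78) (nat_lit 0) (nat_lit 0) (XT.lf (nat_lit 1900) (nat_lit 288542830) (nat_lit 0) (nat_lit 3752488854) (nat_lit 1824) (nat_lit 288542830) (nat_lit 531) (nat_lit 1) (nat_lit 506) (nat_lit 1) (nat_lit 530) (nat_lit 1) (nat_lit 374) (nat_lit 392) (nat_lit 374)) (XT.lf (nat_lit 1900) (nat_lit 306062803) (nat_lit 76) (nat_lit 1991664016) (nat_lit 0) (nat_lit 1991664016) (nat_lit 531) (nat_lit 1) (nat_lit 507) (nat_lit 1) (nat_lit 506) (nat_lit 1) (nat_lit 375) (nat_lit 392) (nat_lit 373))) (XT.nd (nat_lit 78) (nat_lit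 1900) (nat_lit 0) (XT.lf (nat_lit 1900) (nat_lit 19163605) (nat_lit 0) (nat_lit 4211628117) (nat_lit 1824) (nat_lit 19163605) (nat_lit 532) (nat_lit 1) (nat_lit 507) (nat_lit 1) (nat_lit 531) (nat_lit 1) (nat_lit 376) (nat_lit 392) (nat_lit 372)) (XT.lf (nat_lit 1976) (nat_lit 1981076800) (nat_lit 0) (nat_lit 248563463) (nat_lit 1900) (nat_lit 1981076800) (nat_lit 508) (nat_lit 1) (nat_lit 482) (nat_lit 1) (nat_lit 507) (nat_lit 1) (nat_lit 377) (nat_lit 392) (nat_lit 371)))) (XT.nd (nat_lit 156) (nat_lit 988) (nat_lit 0) (XT.nd (nat_lit 78) (nat_lit 0) (nat_lit 76) (XT.lf (nat_lit 1976) (nat_lit 3641021477) (nat_lit 76) (nat_lit 265592422) (nat_lit 0) (nat_lit 265592422) (nat_lit 508) (nat_lit 1) (nat_lit 483) (nat_lit 1) (nat_lit 482) (nat_lit 1) (nat_lit 378) (nat_lit 392) (nat_lit 370)) (XT.lf (nat_lit 1976) (nat_lit 1651036668) (nat_lit 0) (nat_lit 831904557) (nat_lit 1900) (nat_lit 1651036668) (nat_lit 509) (nat_lit 1) (nat_lit 483) (nat_lit 1) (nat_lit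 508) (nat_lit 1) (nat_lit 379) (nat_lit 392) (nat_lit 369))) (XT.nd (nat_lit 78) (nat_lit 1064) (nat_lit 0) (XT.lf (nat_lit 1976) (nat_lit 2964298183) (nat_lit 76) (nat_lit 566046773) (nat_lit 0) (nat_lit 566046773) (nat_lit 509) (nat_lit 1) (nat_lit 484) (nat_lit 1) (nat_lit 483) (nat_lit 1) (nat_lit 380) (nat_lit 392) (nat_lit 368)) (XT.nd (nat_lit 78) (nat_lit 1140) (nat_lit 0) (XT.lf (nat_lit 76) (nat_lit 1306757478) (nat_lit 0) (nat_lit 1445642666) (nat_lit 1900) (nat_lit 1306757478) (nat_lit 485) (nat_lit 1) (nat_lit 484) (nat_lit 1) (nat_lit 509) (nat_lit 1) (nat_lit 381) (nat_lit 392) (nat_lit 367)) (XT.lf (nat_lit 1216) (nat_lit 2260099026) (nat_lit 0) (nat_lit 881184042) (nat_lit 1140) (nat_lit 881184042) (nat_lit 485) (nat_lit 1) (nat_lit 469) (nat_lit 1) (nat_lit 484) (nat_lit 1) (nat_lit 382) (nat_lit 392) (nat_lit 366)))))) (XT.nd (nat_lit 312) (nat_lit 2660) (nat_lit 0) (XT.nd (nat_lit 156) (nat_lit 912) (nat_lit 0) (XT.nd (nat_lit 78) (nat_lit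 912) (nat_lit 0) (XT.lf (nat_lit 76) (nat_lit 949322638) (nat_lit 0) (nat_lit 2087557263) (nat_lit 1216) (nat_lit 949322638) (nat_lit 470) (nat_lit 1) (nat_lit 469) (nat_lit 1) (nat_lit 485) (nat_lit 1) (nat_lit 383) (nat_lit 392) (nat_lit 365)) (XT.lf (nat_lit 988) (nat_lit 1530544926) (nat_lit 0) (nat_lit 1209917410) (nat_lit 912) (nat_lit 1209917410) (nat_lit 470) (nat_lit 1) (nat_lit 457) (nat_lit 1) (nat_lit 469) (nat_lit 1) (nat_lit 384) (nat_lit 392) (nat_lit 364))) (XT.nd (nat_lit 78) (nat_lit 912) (nat_lit 0) (XT.lf (nat_lit 76) (nat_lit 579763085) (nat_lit 0) (nat_lit 2755534443) (nat_lit 988) (nat_lit 579763085) (nat_lit 458) (nat_lit 1) (nat_lit 457) (nat_lit 1) (nat_lit 470) (nat_lit 1) (nat_lit 385) (nat_lit 392) (nat_lit 363)) (XT.lf (nat_lit 988) (nat_lit 777653776) (nat_lit 0) (nat_lit 1551212388) (nat_lit 912) (nat_lit 1551212388) (nat_lit 458) (nat_lit 1) (nat_lit 445) (nat_lit 1) (nat_lit 457) (nat_lit 1) (nat_lit 386) (nat_lit 392) (nat_lit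 362)))) (XT.nd (nat_lit 156) (nat_lit 1824) (nat_lit 0) (XT.nd (nat_lit 78) (nat_lit 836) (nat_lit 0) (XT.lf (nat_lit 76) (nat_lit 199059525) (nat_lit 0) (nat_lit 3447562381) (nat_lit 988) (nat_lit 199059525) (nat_lit 446) (nat_lit 1) (nat_lit 445) (nat_lit 1) (nat_lit 458) (nat_lit 1) (nat_lit 387) (nat_lit 392) (nat_lit 361)) (XT.lf (nat_lit 912) (nat_lit 3344851) (nat_lit 0) (nat_lit 1904084591) (nat_lit 836) (nat_lit 1904084591) (nat_lit 446) (nat_lit 1) (nat_lit 434) (nat_lit 1) (nat_lit 445) (nat_lit 1) (nat_lit 388) (nat_lit 392) (nat_lit 360))) (XT.nd (nat_lit 78) (nat_lit 836) (nat_lit 0) (XT.lf (nat_lit 988) (nat_lit 3396729749) (nat_lit 0) (nat_lit 190593207) (nat_lit 912) (nat_lit 190593207) (nat_lit 434) (nat_lit 1) (nat_lit 421) (nat_lit 1) (nat_lit 433) (nat_lit 1) (nat_lit 389) (nat_lit 392) (nat_lit 359)) (XT.nd (nat_lit 78) (nat_lit 836) (nat_lit 0) (XT.lf (nat_lit 76) (nat_lit 1482173453) (nat_lit 0) (nat_lit 780188667) (nat_lit 988) (nat_lit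 1482173453) (nat_lit 422) (nat_lit 1) (nat_lit 421) (nat_lit 1) (nat_lit 434) (nat_lit 1) (nat_lit 390) (nat_lit 392) (nat_lit 358)) (XT.lf (nat_lit 912) (nat_lit 2535309337) (nat_lit 0) (nat_lit 588199761) (nat_lit 836) (nat_lit 588199761) (nat_lit 422) (nat_lit 1) (nat_lit 410) (nat_lit 1) (nat_lit 421) (nat_lit 1) (nat_lit 391) (nat_lit 392) (nat_lit 357))))))))
noncomputable def ec37 : XT := (XT.nd (nat_lit 1404) (nat_lit 4788) (nat_lit 0) (XT.nd (nat_lit 702) (nat_lit 3420) (nat_lit 0) (XT.nd (nat_lit 312) (nat_lit 2356) (nat_lit 0) (XT.nd (nat_lit 156) (nat_lit 760) (nat_lit 0) (XT.nd (nat_lit 78) (nat_lit 836) (nat_lit 0) (XT.lf (nat_lit 76) (nat_lit 1048947071) (nat_lit 0) (nat_lit 1581302447) (nat_lit 912) (nat_lit 1048947071) (nat_lit 411) (nat_lit 1) (nat_lit 410) (nat_lit 1) (nat_lit 422) (nat_lit 1) (nat_lit 392) (nat_lit 392) (nat_lit 356)) (XT.lf (nat_lit 912) (nat_lit 1658652410) (nat_lit 0) (nat_lit 994232709) (nat_lit 836) (nat_lit 994232709)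 (nat_lit 411) (nat_lit 1) (nat_lit 399) (nat_lit 1) (nat_lit 410) (nat_lit 1) (nat_lit 393) (nat_lit 392) (nat_lit 355))) (XT.nd (nat_lit 78) (nat_lit 760) (nat_lit 0) (XT.lf (nat_lit 76) (nat_lit 608519404) (nat_lit 0) (nat_lit 2398413874) (nat_lit 912) (nat_lit 608519404) (nat_lit 400) (nat_lit 1) (nat_lit 399) (nat_lit 1) (nat_lit 411) (nat_lit 1) (nat_lit 394) (nat_lit 392) (nat_lit 354)) (XT.lf (nat_lit 836) (nat_lit 768305257) (nat_lit 0) (nat_lit 1407896885) (nat_lit 760) (nat_lit 1407896885) (nat_lit 400) (nat_lit 1) (nat_lit 389) (nat_lit 1) (nat_lit 399) (nat_lit 1) (nat_lit 395) (nat_lit 392) (nat_lit 353)))) (XT.nd (nat_lit 156) (nat_lit 1520) (nat_lit 0) (XT.nd (nat_lit 78) (nat_lit 836) (nat_lit 0) (XT.lf (nat_lit 76) (nat_lit 161641144) (nat_lit 0) (nat_lit 3229978093) (nat_lit 836) (nat_lit 161641144) (nat_lit 390) (nat_lit 1) (nat_lit 389) (nat_lit 1) (nat_lit 400) (nat_lit 1) (nat_lit 396) (nat_lit 392) (nat_lit 352)) (XT.lf (nat_lit 76) (nat_lit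 1695044315) (nat_lit 0) (nat_lit 132503689) (nat_lit 836) (nat_lit 1695044315) (nat_lit 379) (nat_lit 1) (nat_lit 378) (nat_lit 1) (nat_lit 389) (nat_lit 1) (nat_lit 397) (nat_lit 392) (nat_lit 351))) (XT.nd (nat_lit 78) (nat_lit 760) (nat_lit 0) (XT.lf (nat_lit 836) (nat_lit 2914303733) (nat_lit 0) (nat_lit 289061088) (nat_lit 760) (nat_lit 289061088) (nat_lit 379) (nat_lit 1) (nat_lit 368) (nat_lit 1) (nat_lit 378) (nat_lit 1) (nat_lit 398) (nat_lit 392) (nat_lit 350)) (XT.nd (nat_lit 78) (nat_lit 760) (nat_lit 0) (XT.lf (nat_lit 76) (nat_lit 1214273963) (nat_lit 0) (nat_lit 1033924638) (nat_lit 836) (nat_lit 1214273963) (nat_lit 369) (nat_lit 1) (nat_lit 368) (nat_lit 1) (nat_lit 379) (nat_lit 1) (nat_lit 399) (nat_lit 392) (nat_lit 349)) (XT.lf (nat_lit 836) (nat_lit 1945514609) (nat_lit 0) (nat_lit 743729279) (nat_lit 760) (nat_lit 743729279) (nat_lit 369) (nat_lit 1) (nat_lit 358) (nat_lit 1) (nat_lit 368) (nat_lit 1) (nat_lit 400) (nat_lit 392) (nat_lit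 348)))))) (XT.nd (nat_lit 312) (nat_lit 1976) (nat_lit 0) (XT.nd (nat_lit 156) (nat_lit 760) (nat_lit 0) (XT.nd (nat_lit 78) (nat_lit 684) (nat_lit 0) (XT.lf (nat_lit 76) (nat_lit 729534165) (nat_lit 0) (nat_lit 1944731227) (nat_lit 836) (nat_lit 729534165) (nat_lit 359) (nat_lit 1) (nat_lit 358) (nat_lit 1) (nat_lit 369) (nat_lit 1) (nat_lit 401) (nat_lit 392) (nat_lit 347)) (XT.lf (nat_lit 760) (nat_lit 969365928) (nat_lit 0) (nat_lit 1202790590) (nat_lit 684) (nat_lit 1202790590) (nat_lit 359) (nat_lit 1) (nat_lit 349) (nat_lit 1) (nat_lit 358) (nat_lit 1) (nat_lit 402) (nat_lit 392) (nat_lit 346))) (XT.nd (nat_lit 78) (nat_lit 760) (nat_lit 0) (XT.lf (nat_lit 76) (nat_lit 241422946) (nat_lit 0) (nat_lit 2863688628) (nat_lit 760) (nat_lit 241422946) (nat_lit 350) (nat_lit 1) (nat_lit 349) (nat_lit 1) (nat_lit 359) (nat_lit 1) (nat_lit 403) (nat_lit 392) (nat_lit 345)) (XT.lf (nat_lit 76) (nat_lit 1652751759) (nat_lit 0) (nat_lit 12804426) (nat_lit 760) (nat_lit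 1652751759) (nat_lit 340) (nat_lit 1) (nat_lit 339) (nat_lit 1) (nat_lit 349) (nat_lit 1) (nat_lit 404) (nat_lit 392) (nat_lit 344)))) (XT.nd (nat_lit 156) (nat_lit 1292) (nat_lit 0) (XT.nd (nat_lit 78) (nat_lit 0) (nat_lit 0) (XT.lf (nat_lit 760) (nat_lit 2794805459) (nat_lit 0) (nat_lit 247852184) (nat_lit 684) (nat_lit 247852184) (nat_lit 340) (nat_lit 1) (nat_lit 330) (nat_lit 1) (nat_lit 339) (nat_lit 1) (nat_lit 405) (nat_lit 392) (nat_lit 343)) (XT.lf (nat_lit 76) (nat_lit 1137806220) (nat_lit 0) (nat_lit 987281416) (nat_lit 760) (nat_lit 1137806220) (nat_lit 331) (nat_lit 1) (nat_lit 330) (nat_lit 1) (nat_lit 340) (nat_lit 1) (nat_lit 406) (nat_lit 392) (nat_lit 342))) (XT.nd (nat_lit 78) (nat_lit 608) (nat_lit 0) (XT.lf (nat_lit 760) (nat_lit 1760104405) (nat_lit 0) (nat_lit 737793805) (nat_lit 684) (nat_lit 737793805) (nat_lit 331) (nat_lit 1) (nat_lit 321) (nat_lit 1) (nat_lit 330) (nat_lit 1) (nat_lit 407) (nat_lit 392) (nat_lit 341)) (XT.nd (nat_lit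 78) (nat_lit 608) (nat_lit 0) (XT.lf (nat_lit 76) (nat_lit 621524025) (nat_lit 0) (nat_lit 1965746941) (nat_lit 760) (nat_lit 621524025) (nat_lit 322) (nat_lit 1) (nat_lit 321) (nat_lit 1) (nat_lit 331) (nat_lit 1) (nat_lit 408) (nat_lit 392) (nat_lit 340)) (XT.lf (nat_lit 684) (nat_lit 723197508) (nat_lit 0) (nat_lit 1229487135) (nat_lit 608) (nat_lit 1229487135) (nat_lit 322) (nat_lit 1) (nat_lit 313) (nat_lit 1) (nat_lit 321) (nat_lit 1) (nat_lit 409) (nat_lit 392) (nat_lit 339))))))) (XT.nd (nat_lit 702) (nat_lit 1672) (nat_lit 0) (XT.nd (nat_lit 312) (nat_lit 1824) (nat_lit 0) (XT.nd (nat_lit 156) (nat_lit 608) (nat_lit 0) (XT.nd (nat_lit 78) (nat_lit 684) (nat_lit 0) (XT.lf (nat_lit 76) (nat_lit 104375364) (nat_lit 0) (nat_lit 2947225952) (nat_lit 684) (nat_lit 104375364) (nat_lit 314) (nat_lit 1) (nat_lit 313) (nat_lit 1) (nat_lit 322) (nat_lit 1) (nat_lit 410) (nat_lit 392) (nat_lit 338)) (XT.lf (nat_lit 76) (nat_lit 1409503438) (nat_lit 0) (nat_lit 310867243)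 (nat_lit 684) (nat_lit 1409503438) (nat_lit 305) (nat_lit 1) (nat_lit 304) (nat_lit 1) (nat_lit 313) (nat_lit 1) (nat_lit 411) (nat_lit 392) (nat_lit 337))) (XT.nd (nat_lit 78) (nat_lit 0) (nat_lit 0) (XT.lf (nat_lit 684) (nat_lit 2283234668) (nat_lit 0) (nat_lit 410477636) (nat_lit 608) (nat_lit 410477636) (nat_lit 305) (nat_lit 1) (nat_lit 296) (nat_lit 1) (nat_lit 304) (nat_lit 1) (nat_lit 412) (nat_lit 392) (nat_lit 336)) (XT.lf (nat_lit 76) (nat_lit 871423519) (nat_lit 0) (nat_lit 1335865850) (nat_lit 684) (nat_lit 871423519) (nat_lit 297) (nat_lit 1) (nat_lit 296) (nat_lit 1) (nat_lit 305) (nat_lit 1) (nat_lit 413) (nat_lit 392) (nat_lit 335)))) (XT.nd (nat_lit 156) (nat_lit 1216) (nat_lit 0) (XT.nd (nat_lit 78) (nat_lit 0) (nat_lit 0) (XT.lf (nat_lit 684) (nat_lit 1204266655) (nat_lit 0) (nat_lit 924648204) (nat_lit 608) (nat_lit 924648204) (nat_lit 297) (nat_lit 1) (nat_lit 288) (nat_lit 1) (nat_lit 296) (nat_lit 1) (nat_lit 414) (nat_lit 392) (nat_lit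 334)) (XT.lf (nat_lit 76) (nat_lit 334135697) (nat_lit 0) (nat_lit 2360478598) (nat_lit 684) (nat_lit 334135697) (nat_lit 289) (nat_lit 1) (nat_lit 288) (nat_lit 1) (nat_lit 297) (nat_lit 1) (nat_lit 415) (nat_lit 392) (nat_lit 333))) (XT.nd (nat_lit 78) (nat_lit 684) (nat_lit 0) (XT.lf (nat_lit 608) (nat_lit 127256380) (nat_lit 0) (nat_lit 1438431286) (nat_lit 532) (nat_lit 1438431286) (nat_lit 289) (nat_lit 1) (nat_lit 281) (nat_lit 1) (nat_lit 288) (nat_lit 1) (nat_lit 416) (nat_lit 392) (nat_lit 332)) (XT.nd (nat_lit 78) (nat_lit 0) (nat_lit 0) (XT.lf (nat_lit 684) (nat_lit 2578513675) (nat_lit 0) (nat_lit 200667701) (nat_lit 608) (nat_lit 200667701) (nat_lit 281) (nat_lit 1) (nat_lit 272) (nat_lit 1) (nat_lit 280) (nat_lit 1) (nat_lit 417) (nat_lit 392) (nat_lit 331)) (XT.lf (nat_lit 76) (nat_lit 1010518128) (nat_lit 0) (nat_lit 934667798) (nat_lit 684) (nat_lit 1010518128) (nat_lit 273) (nat_lit 1) (nat_lit 272) (nat_lit 1) (nat_lit 281) (nat_lit 1) (nat_lit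 418) (nat_lit 392) (nat_lit 330)))))) (XT.nd (nat_lit 312) (nat_lit 0) (nat_lit 0) (XT.nd (nat_lit 156) (nat_lit 1140) (nat_lit 0) (XT.nd (nat_lit 78) (nat_lit 0) (nat_lit 0) (XT.lf (nat_lit 608) (nat_lit 1468340638) (nat_lit 0) (nat_lit 731785627) (nat_lit 532) (nat_lit 731785627) (nat_lit 273) (nat_lit 1) (nat_lit 265) (nat_lit 1) (nat_lit 272) (nat_lit 1) (nat_lit 419) (nat_lit 392) (nat_lit 329)) (XT.lf (nat_lit 76) (nat_lit 458379039) (nat_lit 0) (nat_lit 1991637496) (nat_lit 608) (nat_lit 458379039) (nat_lit 266) (nat_lit 1) (nat_lit 265) (nat_lit 1) (nat_lit 273) (nat_lit 1) (nat_lit 420) (nat_lit 392) (nat_lit 328))) (XT.nd (nat_lit 78) (nat_lit 608) (nat_lit 0) (XT.lf (nat_lit 608) (nat_lit 362887984) (nat_lit 0) (nat_lit 1261097728) (nat_lit 532) (nat_lit 1261097728) (nat_lit 266) (nat_lit 1) (nat_lit 258) (nat_lit 1) (nat_lit 265) (nat_lit 1) (nat_lit 421) (nat_lit 392) (nat_lit 327)) (XT.lf (nat_lit 608) (nat_lit 2680809403) (nat_lit 0) (nat_lit 90662160)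 (nat_lit 532) (nat_lit 90662160) (nat_lit 258) (nat_lit 1) (nat_lit 250) (nat_lit 1) (nat_lit 257) (nat_lit 1) (nat_lit 422) (nat_lit 392) (nat_lit 326)))) (XT.nd (nat_lit 54054) (nat_lit 0) (nat_lit 18772) (XT.nd (nat_lit 53976) (nat_lit 0) (nat_lit 18772) (XT.lf (nat_lit 76) (nat_lit 1055817162) (nat_lit 0) (nat_lit 727605367) (nat_lit 608) (nat_lit 1055817162) (nat_lit 251) (nat_lit 1) (nat_lit 250) (nat_lit 1) (nat_lit 258) (nat_lit 1) (nat_lit 423) (nat_lit 392) (nat_lit 325)) (XT.lf (nat_lit 1900) (nat_lit 872544505) (nat_lit 0) (nat_lit 879841007) (nat_lit 1900) (nat_lit 872544505) (nat_lit 522) (nat_lit 1) (nat_lit 497) (nat_lit 0) (nat_lit 522) (nat_lit 0) (nat_lit 354) (nat_lit 393) (nat_lit 393))) (XT.nd (nat_lit 78) (nat_lit 0) (nat_lit 76) (XT.lf (nat_lit 1900) (nat_lit 3450172164) (nat_lit 76) (nat_lit 874052579) (nat_lit 0) (nat_lit 874052579) (nat_lit 522) (nat_lit 1) (nat_lit 498) (nat_lit 1) (nat_lit 497) (nat_lit 0) (nat_lit 355) (nat_lit 393)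 (nat_lit 392)) (XT.nd (nat_lit 78) (nat_lit 0) (nat_lit 0) (XT.lf (nat_lit 1900) (nat_lit 1694050955) (nat_lit 0) (nat_lit 1759156107) (nat_lit 1824) (nat_lit 1694050955) (nat_lit 523) (nat_lit 1) (nat_lit 498) (nat_lit 1) (nat_lit 522) (nat_lit 1) (nat_lit 356) (nat_lit 393) (nat_lit 391)) (XT.lf (nat_lit 1900) (nat_lit 3315675327) (nat_lit 76) (nat_lit 890668418) (nat_lit 0) (nat_lit 890668418) (nat_lit 523) (nat_lit 1) (nat_lit 499) (nat_lit 1) (nat_lit 498) (nat_lit 1) (nat_lit 357) (nat_lit 393) (nat_lit 390))))))))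
noncomputable def ec38 : XT := (XT.nd (nat_lit 1404) (nat_lit 7068) (nat_lit 0) (XT.nd (nat_lit 702) (nat_lit 1292) (nat_lit 0) (XT.nd (nat_lit 312) (nat_lit 0) (nat_lit 152) (XT.nd (nat_lit 156) (nat_lit 0) (nat_lit 76) (XT.nd (nat_lit 78) (nat_lit 0) (nat_lit 0) (XT.lf (nat_lit 1900) (nat_lit 1611355378) (nat_lit 0) (nat_lit 1824610212) (nat_lit 1824) (nat_lit 1611355378) (nat_lit 524) (nat_lit 1) (nat_lit 499) (nat_lit 1) (nat_lit 523) (nat_lit 1) (nat_lit 358) (nat_lit 393) (nat_lit 389)) (XT.lf (nat_lit 1900) (nat_lit 3119565006) (nat_lit 76) (nat_lit 939401866) (nat_lit 0) (nat_lit 939401866) (nat_lit 524) (nat_lit 1) (nat_lit 500) (nat_lit 1) (nat_lit 499) (nat_lit 1) (nat_lit 359) (nat_lit 393) (nat_lit 388))) (XT.nd (nat_lit 78) (nat_lit 0) (nat_lit 0) (XT.lf (nat_lit 1900) (nat_lit 1498891175) (nat_lit 0) (nat_lit 1952188919) (nat_lit 1824) (nat_lit 1498891175) (nat_lit 525) (nat_lit 1) (nat_lit 500) (nat_lit 1) (nat_lit 524) (nat_lit 1) (nat_lit 360)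 (nat_lit 393) (nat_lit 387)) (XT.lf (nat_lit 1900) (nat_lit 2865544243) (nat_lit 76) (nat_lit 1018363349) (nat_lit 0) (nat_lit 1018363349) (nat_lit 525) (nat_lit 1) (nat_lit 501) (nat_lit 1) (nat_lit 500) (nat_lit 1) (nat_lit 361) (nat_lit 393) (nat_lit 386)))) (XT.nd (nat_lit 156) (nat_lit 0) (nat_lit 76) (XT.nd (nat_lit 78) (nat_lit 0) (nat_lit 0) (XT.lf (nat_lit 1900) (nat_lit 1358460962) (nat_lit 0) (nat_lit 2138211889) (nat_lit 1824) (nat_lit 1358460962) (nat_lit 526) (nat_lit 1) (nat_lit 501) (nat_lit 1) (nat_lit 525) (nat_lit 1) (nat_lit 362) (nat_lit 393) (nat_lit 385)) (XT.lf (nat_lit 1900) (nat_lit 2557146586) (nat_lit 76) (nat_lit 1125749265) (nat_lit 0) (nat_lit 1125749265) (nat_lit 526) (nat_lit 1) (nat_lit 502) (nat_lit 1) (nat_lit 501) (nat_lit 1) (nat_lit 363) (nat_lit 393) (nat_lit 384))) (XT.nd (nat_lit 78) (nat_lit 0) (nat_lit 0) (XT.lf (nat_lit 1900) (nat_lit 1191784675) (nat_lit 0) (nat_lit 2379166556) (nat_lit 1824) (nat_lit 1191784675)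 (nat_lit 527) (nat_lit 1) (nat_lit 502) (nat_lit 1) (nat_lit 526) (nat_lit 1) (nat_lit 364) (nat_lit 393) (nat_lit 383)) (XT.nd (nat_lit 78) (nat_lit 0) (nat_lit 76) (XT.lf (nat_lit 1900) (nat_lit 2197743180) (nat_lit 76) (nat_lit 1259838394) (nat_lit 0) (nat_lit 1259838394) (nat_lit 527) (nat_lit 1) (nat_lit 503) (nat_lit 1) (nat_lit 502) (nat_lit 1) (nat_lit 365) (nat_lit 393) (nat_lit 382)) (XT.lf (nat_lit 1900) (nat_lit 1000503034) (nat_lit 0) (nat_lit 2671701126) (nat_lit 1824) (nat_lit 1000503034) (nat_lit 528) (nat_lit 1) (nat_lit 503) (nat_lit 1) (nat_lit 527) (nat_lit 1) (nat_lit 366) (nat_lit 393) (nat_lit 381)))))) (XT.nd (nat_lit 312) (nat_lit 1596) (nat_lit 0) (XT.nd (nat_lit 156) (nat_lit 0) (nat_lit 76) (XT.nd (nat_lit 78) (nat_lit 0) (nat_lit 76) (XT.lf (nat_lit 1900) (nat_lit 1790549567) (nat_lit 76) (nat_lit 1418988464) (nat_lit 0) (nat_lit 1418988464) (nat_lit 528) (nat_lit 1) (nat_lit 504) (nat_lit 1) (nat_lit 503) (nat_lit 1) (nat_lit 367)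 (nat_lit 393) (nat_lit 380)) (XT.lf (nat_lit 1900) (nat_lit 786180859) (nat_lit 0) (nat_lit 3012617856) (nat_lit 1824) (nat_lit 786180859) (nat_lit 529) (nat_lit 1) (nat_lit 504) (nat_lit 1) (nat_lit 528) (nat_lit 1) (nat_lit 368) (nat_lit 393) (nat_lit 379))) (XT.nd (nat_lit 78) (nat_lit 0) (nat_lit 76) (XT.lf (nat_lit 1900) (nat_lit 1338632210) (nat_lit 76) (nat_lit 1601632840) (nat_lit 0) (nat_lit 1601632840) (nat_lit 529) (nat_lit 1) (nat_lit 505) (nat_lit 1) (nat_lit 504) (nat_lit 1) (nat_lit 369) (nat_lit 393) (nat_lit 378)) (XT.lf (nat_lit 1900) (nat_lit 550310259) (nat_lit 0) (nat_lit 3398866602) (nat_lit 1824) (nat_lit 550310259) (nat_lit 530) (nat_lit 1) (nat_lit 505) (nat_lit 1) (nat_lit 529) (nat_lit 1) (nat_lit 370) (nat_lit 393) (nat_lit 377)))) (XT.nd (nat_lit 156) (nat_lit 1748) (nat_lit 0) (XT.nd (nat_lit 78) (nat_lit 0) (nat_lit 76) (XT.lf (nat_lit 1900) (nat_lit 844914758) (nat_lit 76) (nat_lit 1806277362) (nat_lit 0) (nat_lit 1806277362) (nat_lit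 530) (nat_lit 1) (nat_lit 506) (nat_lit 1) (nat_lit 505) (nat_lit 1) (nat_lit 371) (nat_lit 393) (nat_lit 376)) (XT.lf (nat_lit 1900) (nat_lit 294313687) (nat_lit 0) (nat_lit 3827538631) (nat_lit 1824) (nat_lit 294313687) (nat_lit 531) (nat_lit 1) (nat_lit 506) (nat_lit 1) (nat_lit 530) (nat_lit 1) (nat_lit 372) (nat_lit 393) (nat_lit 375))) (XT.nd (nat_lit 78) (nat_lit 1824) (nat_lit 0) (XT.lf (nat_lit 1900) (nat_lit 312184059) (nat_lit 76) (nat_lit 2031497297) (nat_lit 0) (nat_lit 2031497297) (nat_lit 531) (nat_lit 1) (nat_lit 507) (nat_lit 1) (nat_lit 506) (nat_lit 1) (nat_lit 373) (nat_lit 393) (nat_lit 374)) (XT.nd (nat_lit 78) (nat_lit 1900) (nat_lit 0) (XT.lf (nat_lit 1900) (nat_lit 19546878) (nat_lit 0) (nat_lit 4295860679) (nat_lit 1824) (nat_lit 19546878) (nat_lit 532) (nat_lit 1) (nat_lit 507) (nat_lit 1) (nat_lit 531) (nat_lit 1) (nat_lit 374) (nat_lit 393) (nat_lit 373)) (XT.lf (nat_lit 1976) (nat_lit 2020698336) (nat_lit 0) (nat_lit 253534733) (nat_lit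 1900) (nat_lit 2020698336) (nat_lit 508) (nat_lit 1) (nat_lit 482) (nat_lit 1) (nat_lit 507) (nat_lit 1) (nat_lit 375) (nat_lit 393) (nat_lit 372))))))) (XT.nd (nat_lit 702) (nat_lit 4256) (nat_lit 0) (XT.nd (nat_lit 312) (nat_lit 2812) (nat_lit 0) (XT.nd (nat_lit 156) (nat_lit 0) (nat_lit 76) (XT.nd (nat_lit 78) (nat_lit 0) (nat_lit 76) (XT.lf (nat_lit 1976) (nat_lit 3713841907) (nat_lit 76) (nat_lit 270904271) (nat_lit 0) (nat_lit 270904271) (nat_lit 508) (nat_lit 1) (nat_lit 483) (nat_lit 1) (nat_lit 482) (nat_lit 1) (nat_lit 376) (nat_lit 393) (nat_lit 371)) (XT.lf (nat_lit 1976) (nat_lit 1684057402) (nat_lit 0) (nat_lit 848542648) (nat_lit 1900) (nat_lit 1684057402) (nat_lit 509) (nat_lit 1) (nat_lit 483) (nat_lit 1) (nat_lit 508) (nat_lit 1) (nat_lit 377) (nat_lit 393) (nat_lit 370))) (XT.nd (nat_lit 78) (nat_lit 0) (nat_lit 76) (XT.lf (nat_lit 1976) (nat_lit 3023584147) (nat_lit 76) (nat_lit 577367708) (nat_lit 0) (nat_lit 577367708) (nat_lit 509) (nat_lit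 1) (nat_lit 484) (nat_lit 1) (nat_lit 483) (nat_lit 1) (nat_lit 378) (nat_lit 393) (nat_lit 369)) (XT.lf (nat_lit 76) (nat_lit 1332892628) (nat_lit 0) (nat_lit 1474555519) (nat_lit 1900) (nat_lit 1332892628) (nat_lit 485) (nat_lit 1) (nat_lit 484) (nat_lit 1) (nat_lit 509) (nat_lit 1) (nat_lit 379) (nat_lit 393) (nat_lit 368)))) (XT.nd (nat_lit 156) (nat_lit 1824) (nat_lit 0) (XT.nd (nat_lit 78) (nat_lit 0) (nat_lit 0) (XT.lf (nat_lit 1216) (nat_lit 2305301007) (nat_lit 0) (nat_lit 898807723) (nat_lit 1140) (nat_lit 898807723) (nat_lit 485) (nat_lit 1) (nat_lit 469) (nat_lit 1) (nat_lit 484) (nat_lit 1) (nat_lit 380) (nat_lit 393) (nat_lit 367)) (XT.lf (nat_lit 76) (nat_lit 968309091) (nat_lit 0) (nat_lit 2129308408) (nat_lit 1216) (nat_lit 968309091) (nat_lit 470) (nat_lit 1) (nat_lit 469) (nat_lit 1) (nat_lit 485) (nat_lit 1) (nat_lit 381) (nat_lit 393) (nat_lit 366))) (XT.nd (nat_lit 78) (nat_lit 912) (nat_lit 0) (XT.lf (nat_lit 988) (nat_lit 1561155825) (nat_lit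 0) (nat_lit 1234115758) (nat_lit 912) (nat_lit 1234115758) (nat_lit 470) (nat_lit 1) (nat_lit 457) (nat_lit 1) (nat_lit 469) (nat_lit 1) (nat_lit 382) (nat_lit 393) (nat_lit 365)) (XT.nd (nat_lit 78) (nat_lit 912) (nat_lit 0) (XT.lf (nat_lit 76) (nat_lit 591358347) (nat_lit 0) (nat_lit 2810645132) (nat_lit 988) (nat_lit 591358347) (nat_lit 458) (nat_lit 1) (nat_lit 457) (nat_lit 1) (nat_lit 470) (nat_lit 1) (nat_lit 383) (nat_lit 393) (nat_lit 364)) (XT.lf (nat_lit 988) (nat_lit 793206852) (nat_lit 0) (nat_lit 1582236635) (nat_lit 912) (nat_lit 1582236635) (nat_lit 458) (nat_lit 1) (nat_lit 445) (nat_lit 1) (nat_lit 457) (nat_lit 1) (nat_lit 384) (nat_lit 393) (nat_lit 363)))))) (XT.nd (nat_lit 312) (nat_lit 2432) (nat_lit 0) (XT.nd (nat_lit 156) (nat_lit 988) (nat_lit 0) (XT.nd (nat_lit 78) (nat_lit 836) (nat_lit 0) (XT.lf (nat_lit 76) (nat_lit 203040716) (nat_lit 0) (nat_lit 3516513629) (nat_lit 988) (nat_lit 203040716) (nat_lit 446) (nat_lit 1) (nat_lit 445)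 (nat_lit 1) (nat_lit 458) (nat_lit 1) (nat_lit 385) (nat_lit 393) (nat_lit 362)) (XT.lf (nat_lit 912) (nat_lit 3411748) (nat_lit 0) (nat_lit 1942166283) (nat_lit 836) (nat_lit 1942166283) (nat_lit 446) (nat_lit 1) (nat_lit 434) (nat_lit 1) (nat_lit 445) (nat_lit 1) (nat_lit 386) (nat_lit 393) (nat_lit 361))) (XT.nd (nat_lit 78) (nat_lit 0) (nat_lit 0) (XT.lf (nat_lit 988) (nat_lit 3464664344) (nat_lit 0) (nat_lit 194405071) (nat_lit 912) (nat_lit 194405071) (nat_lit 434) (nat_lit 1) (nat_lit 421) (nat_lit 1) (nat_lit 433) (nat_lit 1) (nat_lit 387) (nat_lit 393) (nat_lit 360)) (XT.lf (nat_lit 76) (nat_lit 1511816922) (nat_lit 0) (nat_lit 795792440) (nat_lit 988) (nat_lit 1511816922) (nat_lit 422) (nat_lit 1) (nat_lit 421) (nat_lit 1) (nat_lit 434) (nat_lit 1) (nat_lit 388) (nat_lit 393) (nat_lit 359)))) (XT.nd (nat_lit 156) (nat_lit 1596) (nat_lit 0) (XT.nd (nat_lit 78) (nat_lit 0) (nat_lit 0) (XT.lf (nat_lit 912) (nat_lit 2586015524) (nat_lit 0) (nat_lit 599963756)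 (nat_lit 836) (nat_lit 599963756) (nat_lit 422) (nat_lit 1) (nat_lit 410) (nat_lit 1) (nat_lit 421) (nat_lit 1) (nat_lit 389) (nat_lit 393) (nat_lit 358)) (XT.lf (nat_lit 76) (nat_lit 1069926012) (nat_lit 0) (nat_lit 1612928496) (nat_lit 912) (nat_lit 1069926012) (nat_lit 411) (nat_lit 1) (nat_lit 410) (nat_lit 1) (nat_lit 422) (nat_lit 1) (nat_lit 390) (nat_lit 393) (nat_lit 357))) (XT.nd (nat_lit 78) (nat_lit 760) (nat_lit 0) (XT.lf (nat_lit 912) (nat_lit 1691825458) (nat_lit 0) (nat_lit 1014117363) (nat_lit 836) (nat_lit 1014117363) (nat_lit 411) (nat_lit 1) (nat_lit 399) (nat_lit 1) (nat_lit 410) (nat_lit 1) (nat_lit 391) (nat_lit 393) (nat_lit 356)) (XT.nd (nat_lit 78) (nat_lit 760) (nat_lit 0) (XT.lf (nat_lit 76) (nat_lit 620689792) (nat_lit 0) (nat_lit 2446382151) (nat_lit 912) (nat_lit 620689792) (nat_lit 400) (nat_lit 1) (nat_lit 399) (nat_lit 1) (nat_lit 411) (nat_lit 1) (nat_lit 392) (nat_lit 393) (nat_lit 355)) (XT.lf (nat_lit 836) (nat_lit 783671362)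 (nat_lit 0) (nat_lit 1436054822) (nat_lit 760) (nat_lit 1436054822) (nat_lit 400) (nat_lit 1) (nat_lit 389) (nat_lit 1) (nat_lit 399) (nat_lit 1) (nat_lit 393) (nat_lit 393) (nat_lit 354))))))))
noncomputable def ec39 : XT := (XT.nd (nat_lit 1404) (nat_lit 4028) (nat_lit 0) (XT.nd (nat_lit 702) (nat_lit 3268) (nat_lit 0) (XT.nd (nat_lit 312) (nat_lit 2204) (nat_lit 0) (XT.nd (nat_lit 156) (nat_lit 760) (nat_lit 0) (XT.nd (nat_lit 78) (nat_lit 836) (nat_lit 0) (XT.lf (nat_lit 76) (nat_lit 164873967) (nat_lit 0) (nat_lit 3294577655) (nat_lit 836) (nat_lit 164873967) (nat_lit 390) (nat_lit 1) (nat_lit 389) (nat_lit 1) (nat_lit 400) (nat_lit 1) (nat_lit 394) (nat_lit 393) (nat_lit 353)) (XT.lf (nat_lit 76) (nat_lit 1728945201) (nat_lit 0) (nat_lit 135153763) (nat_lit 836) (nat_lit 1728945201) (nat_lit 379) (nat_lit 1) (nat_lit 378) (nat_lit 1) (nat_lit 389) (nat_lit 1) (nat_lit 395) (nat_lit 393) (nat_lit 352))) (XT.nd (nat_lit 78) (nat_lit 0) (nat_lit 0) (XT.lf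 (nat_lit 836) (nat_lit 2972589808) (nat_lit 0) (nat_lit 294842309) (nat_lit 760) (nat_lit 294842309) (nat_lit 379) (nat_lit 1) (nat_lit 368) (nat_lit 1) (nat_lit 378) (nat_lit 1) (nat_lit 396) (nat_lit 393) (nat_lit 351)) (XT.lf (nat_lit 76) (nat_lit 1238559443) (nat_lit 0) (nat_lit 1054603131) (nat_lit 836) (nat_lit 1238559443) (nat_lit 369) (nat_lit 1) (nat_lit 368) (nat_lit 1) (nat_lit 379) (nat_lit 1) (nat_lit 397) (nat_lit 393) (nat_lit 350)))) (XT.nd (nat_lit 156) (nat_lit 1444) (nat_lit 0) (XT.nd (nat_lit 78) (nat_lit 0) (nat_lit 0) (XT.lf (nat_lit 836) (nat_lit 1984424901) (nat_lit 0) (nat_lit 758603864) (nat_lit 760) (nat_lit 758603864) (nat_lit 369) (nat_lit 1) (nat_lit 358) (nat_lit 1) (nat_lit 368) (nat_lit 1) (nat_lit 398) (nat_lit 393) (nat_lit 349)) (XT.lf (nat_lit 76) (nat_lit 744124848) (nat_lit 0) (nat_lit 1983625851) (nat_lit 836) (nat_lit 744124848) (nat_lit 359) (nat_lit 1) (nat_lit 358) (nat_lit 1) (nat_lit 369) (nat_lit 1) (nat_lit 399)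 (nat_lit 393) (nat_lit 348))) (XT.nd (nat_lit 78) (nat_lit 760) (nat_lit 0) (XT.lf (nat_lit 760) (nat_lit 988753247) (nat_lit 0) (nat_lit 1226846402) (nat_lit 684) (nat_lit 1226846402) (nat_lit 359) (nat_lit 1) (nat_lit 349) (nat_lit 1) (nat_lit 358) (nat_lit 1) (nat_lit 400) (nat_lit 393) (nat_lit 347)) (XT.nd (nat_lit 78) (nat_lit 760) (nat_lit 0) (XT.lf (nat_lit 76) (nat_lit 246251405) (nat_lit 0) (nat_lit 2920962401) (nat_lit 760) (nat_lit 246251405) (nat_lit 350) (nat_lit 1) (nat_lit 349) (nat_lit 1) (nat_lit 359) (nat_lit 1) (nat_lit 401) (nat_lit 393) (nat_lit 346)) (XT.lf (nat_lit 76) (nat_lit 1685806795) (nat_lit 0) (nat_lit 13060514) (nat_lit 760) (nat_lit 1685806795) (nat_lit 340) (nat_lit 1) (nat_lit 339) (nat_lit 1) (nat_lit 349) (nat_lit 1) (nat_lit 402) (nat_lit 393) (nat_lit 345)))))) (XT.nd (nat_lit 312) (nat_lit 1900) (nat_lit 0) (XT.nd (nat_lit 156) (nat_lit 684) (nat_lit 0) (XT.nd (nat_lit 78) (nat_lit 0) (nat_lit 0) (XT.lf (nat_lit 760) (nat_lit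 2850701568) (nat_lit 0) (nat_lit 252809228) (nat_lit 684) (nat_lit 252809228) (nat_lit 340) (nat_lit 1) (nat_lit 330) (nat_lit 1) (nat_lit 339) (nat_lit 1) (nat_lit 403) (nat_lit 393) (nat_lit 344)) (XT.lf (nat_lit 76) (nat_lit 1160562344) (nat_lit 0) (nat_lit 1007027044) (nat_lit 760) (nat_lit 1160562344) (nat_lit 331) (nat_lit 1) (nat_lit 330) (nat_lit 1) (nat_lit 340) (nat_lit 1) (nat_lit 404) (nat_lit 393) (nat_lit 343))) (XT.nd (nat_lit 78) (nat_lit 0) (nat_lit 0) (XT.lf (nat_lit 760) (nat_lit 1795306493) (nat_lit 0) (nat_lit 752549681) (nat_lit 684) (nat_lit 752549681) (nat_lit 331) (nat_lit 1) (nat_lit 321) (nat_lit 1) (nat_lit 330) (nat_lit 1) (nat_lit 405) (nat_lit 393) (nat_lit 342)) (XT.lf (nat_lit 76) (nat_lit 633954505) (nat_lit 0) (nat_lit 2005061880) (nat_lit 760) (nat_lit 633954505) (nat_lit 322) (nat_lit 1) (nat_lit 321) (nat_lit 1) (nat_lit 331) (nat_lit 1) (nat_lit 406) (nat_lit 393) (nat_lit 341)))) (XT.nd (nat_lit 156) (nat_lit 1292) (nat_lit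 0) (XT.nd (nat_lit 78) (nat_lit 0) (nat_lit 0) (XT.lf (nat_lit 684) (nat_lit 737661459) (nat_lit 0) (nat_lit 1254076877) (nat_lit 608) (nat_lit 1254076877) (nat_lit 322) (nat_lit 1) (nat_lit 313) (nat_lit 1) (nat_lit 321) (nat_lit 1) (nat_lit 407) (nat_lit 393) (nat_lit 340)) (XT.lf (nat_lit 76) (nat_lit 106462871) (nat_lit 0) (nat_lit 3006170471) (nat_lit 684) (nat_lit 106462871) (nat_lit 314) (nat_lit 1) (nat_lit 313) (nat_lit 1) (nat_lit 322) (nat_lit 1) (nat_lit 408) (nat_lit 393) (nat_lit 339))) (XT.nd (nat_lit 78) (nat_lit 608) (nat_lit 0) (XT.lf (nat_lit 76) (nat_lit 1437693506) (nat_lit 0) (nat_lit 317084588) (nat_lit 684) (nat_lit 1437693506) (nat_lit 305) (nat_lit 1) (nat_lit 304) (nat_lit 1) (nat_lit 313) (nat_lit 1) (nat_lit 409) (nat_lit 393) (nat_lit 338)) (XT.nd (nat_lit 78) (nat_lit 0) (nat_lit 0) (XT.lf (nat_lit 684) (nat_lit 2328899362) (nat_lit 0) (nat_lit 418687189) (nat_lit 608) (nat_lit 418687189) (nat_lit 305) (nat_lit 1) (nat_lit 296)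 (nat_lit 1) (nat_lit 304) (nat_lit 1) (nat_lit 410) (nat_lit 393) (nat_lit 337)) (XT.lf (nat_lit 76) (nat_lit 888851990) (nat_lit 0) (nat_lit 1362583167) (nat_lit 684) (nat_lit 888851990) (nat_lit 297) (nat_lit 1) (nat_lit 296) (nat_lit 1) (nat_lit 305) (nat_lit 1) (nat_lit 411) (nat_lit 393) (nat_lit 336))))))) (XT.nd (nat_lit 702) (nat_lit 532) (nat_lit 0) (XT.nd (nat_lit 312) (nat_lit 1672) (nat_lit 0) (XT.nd (nat_lit 156) (nat_lit 1216) (nat_lit 0) (XT.nd (nat_lit 78) (nat_lit 0) (nat_lit 0) (XT.lf (nat_lit 684) (nat_lit 1228351988) (nat_lit 0) (nat_lit 943141168) (nat_lit 608) (nat_lit 943141168) (nat_lit 297) (nat_lit 1) (nat_lit 288) (nat_lit 1) (nat_lit 296) (nat_lit 1) (nat_lit 412) (nat_lit 393) (nat_lit 335)) (XT.lf (nat_lit 76) (nat_lit 340818411) (nat_lit 0) (nat_lit 2407688170) (nat_lit 684) (nat_lit 340818411) (nat_lit 289) (nat_lit 1) (nat_lit 288) (nat_lit 1) (nat_lit 297) (nat_lit 1) (nat_lit 413) (nat_lit 393) (nat_lit 334))) (XT.nd (nat_lit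 78) (nat_lit 684) (nat_lit 0) (XT.lf (nat_lit 608) (nat_lit 129801507) (nat_lit 0) (nat_lit 1467199912) (nat_lit 532) (nat_lit 1467199912) (nat_lit 289) (nat_lit 1) (nat_lit 281) (nat_lit 1) (nat_lit 288) (nat_lit 1) (nat_lit 414) (nat_lit 393) (nat_lit 333)) (XT.lf (nat_lit 684) (nat_lit 2630083949) (nat_lit 0) (nat_lit 204681055) (nat_lit 608) (nat_lit 204681055) (nat_lit 281) (nat_lit 1) (nat_lit 272) (nat_lit 1) (nat_lit 280) (nat_lit 1) (nat_lit 415) (nat_lit 393) (nat_lit 332)))) (XT.nd (nat_lit 156) (nat_lit 1140) (nat_lit 0) (XT.nd (nat_lit 78) (nat_lit 532) (nat_lit 0) (XT.lf (nat_lit 76) (nat_lit 1030728491) (nat_lit 0) (nat_lit 953361154) (nat_lit 684) (nat_lit 1030728491) (nat_lit 273) (nat_lit 1) (nat_lit 272) (nat_lit 1) (nat_lit 281) (nat_lit 1) (nat_lit 416) (nat_lit 393) (nat_lit 331)) (XT.lf (nat_lit 608) (nat_lit 1497707451) (nat_lit 0) (nat_lit 746421339) (nat_lit 532) (nat_lit 746421339) (nat_lit 273) (nat_lit 1) (nat_lit 265) (nat_lit 1)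 (nat_lit 272) (nat_lit 1) (nat_lit 417) (nat_lit 393) (nat_lit 330))) (XT.nd (nat_lit 78) (nat_lit 1140) (nat_lit 0) (XT.lf (nat_lit 76) (nat_lit 467546619) (nat_lit 0) (nat_lit 2031470246) (nat_lit 608) (nat_lit 467546619) (nat_lit 266) (nat_lit 1) (nat_lit 265) (nat_lit 1) (nat_lit 273) (nat_lit 1) (nat_lit 418) (nat_lit 393) (nat_lit 329)) (XT.nd (nat_lit 78) (nat_lit 608) (nat_lit 0) (XT.lf (nat_lit 608) (nat_lit 370145743) (nat_lit 0) (nat_lit 1286319683) (nat_lit 532) (nat_lit 1286319683) (nat_lit 266) (nat_lit 1) (nat_lit 258) (nat_lit 1) (nat_lit 265) (nat_lit 1) (nat_lit 419) (nat_lit 393) (nat_lit 328)) (XT.lf (nat_lit 608) (nat_lit 2734425591) (nat_lit 0) (nat_lit 92475403) (nat_lit 532) (nat_lit 92475403) (nat_lit 258) (nat_lit 1) (nat_lit 250) (nat_lit 1) (nat_lit 257) (nat_lit 1) (nat_lit 420) (nat_lit 393) (nat_lit 327)))))) (XT.nd (nat_lit 54054) (nat_lit 0) (nat_lit 19304) (XT.nd (nat_lit 156) (nat_lit 0) (nat_lit 0) (XT.nd (nat_lit 78) (nat_lit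 532) (nat_lit 0) (XT.lf (nat_lit 76) (nat_lit 1076933505) (nat_lit 0) (nat_lit 742157474) (nat_lit 608) (nat_lit 1076933505) (nat_lit 251) (nat_lit 1) (nat_lit 250) (nat_lit 1) (nat_lit 258) (nat_lit 1) (nat_lit 421) (nat_lit 393) (nat_lit 326)) (XT.lf (nat_lit 608) (nat_lit 1579809315) (nat_lit 0) (nat_lit 646612699) (nat_lit 532) (nat_lit 646612699) (nat_lit 251) (nat_lit 1) (nat_lit 243) (nat_lit 1) (nat_lit 250) (nat_lit 1) (nat_lit 422) (nat_lit 393) (nat_lit 325))) (XT.nd (nat_lit 53820) (nat_lit 0) (nat_lit 19304) (XT.lf (nat_lit 76) (nat_lit 503272670) (nat_lit 0) (nat_lit 1843745240) (nat_lit 608) (nat_lit 503272670) (nat_lit 244) (nat_lit 1) (nat_lit 243) (nat_lit 1) (nat_lit 251) (nat_lit 1) (nat_lit 423) (nat_lit 393) (nat_lit 324)) (XT.lf (nat_lit 1900) (nat_lit 889995396) (nat_lit 0) (nat_lit 897437827) (nat_lit 1900) (nat_lit 889995396) (nat_lit 522) (nat_lit 1) (nat_lit 497) (nat_lit 0) (nat_lit 522) (nat_lit 0) (nat_lit 352) (nat_lit 394) (nat_lit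 394)))) (XT.nd (nat_lit 156) (nat_lit 0) (nat_lit 76) (XT.nd (nat_lit 78) (nat_lit 0) (nat_lit 76) (XT.lf (nat_lit 1900) (nat_lit 3519175607) (nat_lit 76) (nat_lit 891533631) (nat_lit 0) (nat_lit 891533631) (nat_lit 522) (nat_lit 1) (nat_lit 498) (nat_lit 1) (nat_lit 497) (nat_lit 0) (nat_lit 353) (nat_lit 394) (nat_lit 393)) (XT.lf (nat_lit 1900) (nat_lit 1727931974) (nat_lit 0) (nat_lit 1794339229) (nat_lit 1824) (nat_lit 1727931974) (nat_lit 523) (nat_lit 1) (nat_lit 498) (nat_lit 1) (nat_lit 522) (nat_lit 1) (nat_lit 354) (nat_lit 394) (nat_lit 392))) (XT.nd (nat_lit 78) (nat_lit 0) (nat_lit 76) (XT.lf (nat_lit 1900) (nat_lit 3381988833) (nat_lit 76) (nat_lit 908481786) (nat_lit 0) (nat_lit 908481786) (nat_lit 523) (nat_lit 1) (nat_lit 499) (nat_lit 1) (nat_lit 498) (nat_lit 1) (nat_lit 355) (nat_lit 394) (nat_lit 391)) (XT.nd (nat_lit 78) (nat_lit 0) (nat_lit 0) (XT.lf (nat_lit 1900) (nat_lit 1643582485) (nat_lit 0) (nat_lit 1861102416) (nat_lit 1824) (nat_lit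 1643582485) (nat_lit 524) (nat_lit 1) (nat_lit 499) (nat_lit 1) (nat_lit 523) (nat_lit 1) (nat_lit 356) (nat_lit 394) (nat_lit 390)) (XT.lf (nat_lit 1900) (nat_lit 3181956306) (nat_lit 76) (nat_lit 958189903) (nat_lit 0) (nat_lit 958189903) (nat_lit 524) (nat_lit 1) (nat_lit 500) (nat_lit 1) (nat_lit 499) (nat_lit 1) (nat_lit 357) (nat_lit 394) (nat_lit 389))))))))
noncomputable def ec40 : XT := (XT.nd (nat_lit 1404) (nat_lit 7904) (nat_lit 0) (XT.nd (nat_lit 702) (nat_lit 1368) (nat_lit 0) (XT.nd (nat_lit 312) (nat_lit 0) (nat_lit 152) (XT.nd (nat_lit 156) (nat_lit 0) (nat_lit 76) (XT.nd (nat_lit 78) (nat_lit 0) (nat_lit 0) (XT.lf (nat_lit 1900) (nat_lit 1528868999) (nat_lit 0) (nat_lit 1991232698) (nat_lit 1824) (nat_lit 1528868999) (nat_lit 525) (nat_lit 1) (nat_lit 500) (nat_lit 1) (nat_lit 524) (nat_lit 1) (nat_lit 358) (nat_lit 394) (nat_lit 388)) (XT.lf (nat_lit 1900) (nat_lit 2922855128) (nat_lit 76) (nat_lit 1038730616) (nat_lit 0) (nat_lit 1038730616)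 (nat_lit 525) (nat_lit 1) (nat_lit 501) (nat_lit 1) (nat_lit 500) (nat_lit 1) (nat_lit 359) (nat_lit 394) (nat_lit 387))) (XT.nd (nat_lit 78) (nat_lit 0) (nat_lit 0) (XT.lf (nat_lit 1900) (nat_lit 1385630181) (nat_lit 0) (nat_lit 2180976127) (nat_lit 1824) (nat_lit 1385630181) (nat_lit 526) (nat_lit 1) (nat_lit 501) (nat_lit 1) (nat_lit 525) (nat_lit 1) (nat_lit 360) (nat_lit 394) (nat_lit 386)) (XT.lf (nat_lit 1900) (nat_lit 2608289517) (nat_lit 76) (nat_lit 1148264250) (nat_lit 0) (nat_lit 1148264250) (nat_lit 526) (nat_lit 1) (nat_lit 502) (nat_lit 1) (nat_lit 501) (nat_lit 1) (nat_lit 361) (nat_lit 394) (nat_lit 385)))) (XT.nd (nat_lit 156) (nat_lit 0) (nat_lit 76) (XT.nd (nat_lit 78) (nat_lit 0) (nat_lit 0) (XT.lf (nat_lit 1900) (nat_lit 1215620369) (nat_lit 0) (nat_lit 2426749888) (nat_lit 1824) (nat_lit 1215620369) (nat_lit 527) (nat_lit 1) (nat_lit 502) (nat_lit 1) (nat_lit 526) (nat_lit 1) (nat_lit 362) (nat_lit 394) (nat_lit 384)) (XT.lf (nat_lit 1900)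 (nat_lit 2241698044) (nat_lit 76) (nat_lit 1285035162) (nat_lit 0) (nat_lit 1285035162) (nat_lit 527) (nat_lit 1) (nat_lit 503) (nat_lit 1) (nat_lit 502) (nat_lit 1) (nat_lit 363) (nat_lit 394) (nat_lit 383))) (XT.nd (nat_lit 78) (nat_lit 0) (nat_lit 0) (XT.lf (nat_lit 1900) (nat_lit 1020513095) (nat_lit 0) (nat_lit 2725135149) (nat_lit 1824) (nat_lit 1020513095) (nat_lit 528) (nat_lit 1) (nat_lit 503) (nat_lit 1) (nat_lit 527) (nat_lit 1) (nat_lit 364) (nat_lit 394) (nat_lit 382)) (XT.nd (nat_lit 78) (nat_lit 0) (nat_lit 76) (XT.lf (nat_lit 1900) (nat_lit 1826360558) (nat_lit 76) (nat_lit 1447368233) (nat_lit 0) (nat_lit 1447368233) (nat_lit 528) (nat_lit 1) (nat_lit 504) (nat_lit 1) (nat_lit 503) (nat_lit 1) (nat_lit 365) (nat_lit 394) (nat_lit 381)) (XT.lf (nat_lit 1900) (nat_lit 801904477) (nat_lit 0) (nat_lit 3072870213) (nat_lit 1824) (nat_lit 801904477) (nat_lit 529) (nat_lit 1) (nat_lit 504) (nat_lit 1) (nat_lit 528) (nat_lit 1) (nat_lit 366) (nat_lit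 394) (nat_lit 380)))))) (XT.nd (nat_lit 312) (nat_lit 1672) (nat_lit 0) (XT.nd (nat_lit 156) (nat_lit 0) (nat_lit 76) (XT.nd (nat_lit 78) (nat_lit 0) (nat_lit 76) (XT.lf (nat_lit 1900) (nat_lit 1365404854) (nat_lit 76) (nat_lit 1633665497) (nat_lit 0) (nat_lit 1633665497) (nat_lit 529) (nat_lit 1) (nat_lit 505) (nat_lit 1) (nat_lit 504) (nat_lit 1) (nat_lit 367) (nat_lit 394) (nat_lit 379)) (XT.lf (nat_lit 1900) (nat_lit 561316464) (nat_lit 0) (nat_lit 3466843934) (nat_lit 1824) (nat_lit 561316464) (nat_lit 530) (nat_lit 1) (nat_lit 505) (nat_lit 1) (nat_lit 529) (nat_lit 1) (nat_lit 368) (nat_lit 394) (nat_lit 378))) (XT.nd (nat_lit 78) (nat_lit 0) (nat_lit 76) (XT.lf (nat_lit 1900) (nat_lit 861813053) (nat_lit 76) (nat_lit 1842402909) (nat_lit 0) (nat_lit 1842402909) (nat_lit 530) (nat_lit 1) (nat_lit 506) (nat_lit 1) (nat_lit 505) (nat_lit 1) (nat_lit 369) (nat_lit 394) (nat_lit 377)) (XT.lf (nat_lit 1900) (nat_lit 300199961) (nat_lit 0) (nat_lit 3904089404)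 (nat_lit 1824) (nat_lit 300199961) (nat_lit 531) (nat_lit 1) (nat_lit 506) (nat_lit 1) (nat_lit 530) (nat_lit 1) (nat_lit 370) (nat_lit 394) (nat_lit 376)))) (XT.nd (nat_lit 156) (nat_lit 1824) (nat_lit 0) (XT.nd (nat_lit 78) (nat_lit 0) (nat_lit 76) (XT.lf (nat_lit 1900) (nat_lit 318427740) (nat_lit 76) (nat_lit 2072127243) (nat_lit 0) (nat_lit 2072127243) (nat_lit 531) (nat_lit 1) (nat_lit 507) (nat_lit 1) (nat_lit 506) (nat_lit 1) (nat_lit 371) (nat_lit 394) (nat_lit 375)) (XT.lf (nat_lit 1900) (nat_lit 19937815) (nat_lit 0) (nat_lit 4381777893) (nat_lit 1824) (nat_lit 19937815) (nat_lit 532) (nat_lit 1) (nat_lit 507) (nat_lit 1) (nat_lit 531) (nat_lit 1) (nat_lit 372) (nat_lit 394) (nat_lit 374))) (XT.nd (nat_lit 78) (nat_lit 0) (nat_lit 0) (XT.lf (nat_lit 1976) (nat_lit 2061112303) (nat_lit 0) (nat_lit 258605427) (nat_lit 1900) (nat_lit 2061112303) (nat_lit 508) (nat_lit 1) (nat_lit 482) (nat_lit 1) (nat_lit 507) (nat_lit 1) (nat_lit 373) (nat_lit 394) (nat_lit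 373)) (XT.nd (nat_lit 78) (nat_lit 0) (nat_lit 76) (XT.lf (nat_lit 1976) (nat_lit 3788118745) (nat_lit 76) (nat_lit 276322356) (nat_lit 0) (nat_lit 276322356) (nat_lit 508) (nat_lit 1) (nat_lit 483) (nat_lit 1) (nat_lit 482) (nat_lit 1) (nat_lit 374) (nat_lit 394) (nat_lit 372)) (XT.lf (nat_lit 1976) (nat_lit 1717738550) (nat_lit 0) (nat_lit 865513501) (nat_lit 1900) (nat_lit 1717738550) (nat_lit 509) (nat_lit 1) (nat_lit 483) (nat_lit 1) (nat_lit 508) (nat_lit 1) (nat_lit 375) (nat_lit 394) (nat_lit 371))))))) (XT.nd (nat_lit 702) (nat_lit 4256) (nat_lit 0) (XT.nd (nat_lit 312) (nat_lit 2660) (nat_lit 0) (XT.nd (nat_lit 156) (nat_lit 1064) (nat_lit 0) (XT.nd (nat_lit 78) (nat_lit 0) (nat_lit 76) (XT.lf (nat_lit 1976) (nat_lit 3084055829) (nat_lit 76) (nat_lit 588915062) (nat_lit 0) (nat_lit 588915062) (nat_lit 509) (nat_lit 1) (nat_lit 484) (nat_lit 1) (nat_lit 483) (nat_lit 1) (nat_lit 376) (nat_lit 394) (nat_lit 370)) (XT.lf (nat_lit 76) (nat_lit 1359550480)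 (nat_lit 0) (nat_lit 1504046630) (nat_lit 1900) (nat_lit 1359550480) (nat_lit 485) (nat_lit 1) (nat_lit 484) (nat_lit 1) (nat_lit 509) (nat_lit 1) (nat_lit 377) (nat_lit 394) (nat_lit 369))) (XT.nd (nat_lit 78) (nat_lit 0) (nat_lit 0) (XT.lf (nat_lit 1216) (nat_lit 2351407027) (nat_lit 0) (nat_lit 916783877) (nat_lit 1140) (nat_lit 916783877) (nat_lit 485) (nat_lit 1) (nat_lit 469) (nat_lit 1) (nat_lit 484) (nat_lit 1) (nat_lit 378) (nat_lit 394) (nat_lit 368)) (XT.lf (nat_lit 76) (nat_lit 987675273) (nat_lit 0) (nat_lit 2171894576) (nat_lit 1216) (nat_lit 987675273) (nat_lit 470) (nat_lit 1) (nat_lit 469) (nat_lit 1) (nat_lit 485) (nat_lit 1) (nat_lit 379) (nat_lit 394) (nat_lit 367)))) (XT.nd (nat_lit 156) (nat_lit 1748) (nat_lit 0) (XT.nd (nat_lit 78) (nat_lit 0) (nat_lit 0) (XT.lf (nat_lit 988) (nat_lit 1592378941) (nat_lit 0) (nat_lit 1258798073) (nat_lit 912) (nat_lit 1258798073) (nat_lit 470) (nat_lit 1) (nat_lit 457) (nat_lit 1) (nat_lit 469) (nat_lit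 1) (nat_lit 380) (nat_lit 394) (nat_lit 366)) (XT.lf (nat_lit 76) (nat_lit 603185514) (nat_lit 0) (nat_lit 2866858034) (nat_lit 988) (nat_lit 603185514) (nat_lit 458) (nat_lit 1) (nat_lit 457) (nat_lit 1) (nat_lit 470) (nat_lit 1) (nat_lit 381) (nat_lit 394) (nat_lit 365))) (XT.nd (nat_lit 78) (nat_lit 836) (nat_lit 0) (XT.lf (nat_lit 988) (nat_lit 809070989) (nat_lit 0) (nat_lit 1613881368) (nat_lit 912) (nat_lit 1613881368) (nat_lit 458) (nat_lit 1) (nat_lit 445) (nat_lit 1) (nat_lit 457) (nat_lit 1) (nat_lit 382) (nat_lit 394) (nat_lit 364)) (XT.nd (nat_lit 78) (nat_lit 836) (nat_lit 0) (XT.lf (nat_lit 76) (nat_lit 207101530) (nat_lit 0) (nat_lit 3586843901) (nat_lit 988) (nat_lit 207101530) (nat_lit 446) (nat_lit 1) (nat_lit 445) (nat_lit 1) (nat_lit 458) (nat_lit 1) (nat_lit 383) (nat_lit 394) (nat_lit 363)) (XT.lf (nat_lit 912) (nat_lit 3479983) (nat_lit 0) (nat_lit 1981009608) (nat_lit 836) (nat_lit 1981009608) (nat_lit 446) (nat_lit 1) (nat_lit 434) (nat_lit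 1) (nat_lit 445) (nat_lit 1) (nat_lit 384) (nat_lit 394) (nat_lit 362)))))) (XT.nd (nat_lit 312) (nat_lit 2432) (nat_lit 0) (XT.nd (nat_lit 156) (nat_lit 836) (nat_lit 0) (XT.nd (nat_lit 78) (nat_lit 0) (nat_lit 0) (XT.lf (nat_lit 988) (nat_lit 3533957631) (nat_lit 0) (nat_lit 198293173) (nat_lit 912) (nat_lit 198293173) (nat_lit 434) (nat_lit 1) (nat_lit 421) (nat_lit 1) (nat_lit 433) (nat_lit 1) (nat_lit 385) (nat_lit 394) (nat_lit 361)) (XT.lf (nat_lit 76) (nat_lit 1542053260) (nat_lit 0) (nat_lit 811708289) (nat_lit 988) (nat_lit 1542053260) (nat_lit 422) (nat_lit 1) (nat_lit 421) (nat_lit 1) (nat_lit 434) (nat_lit 1) (nat_lit 386) (nat_lit 394) (nat_lit 360))) (XT.nd (nat_lit 78) (nat_lit 0) (nat_lit 0) (XT.lf (nat_lit 912) (nat_lit 2637735834) (nat_lit 0) (nat_lit 611963031) (nat_lit 836) (nat_lit 611963031) (nat_lit 422) (nat_lit 1) (nat_lit 410) (nat_lit 1) (nat_lit 421) (nat_lit 1) (nat_lit 387) (nat_lit 394) (nat_lit 359)) (XT.lf (nat_lit 76) (nat_lit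 1091324532) (nat_lit 0) (nat_lit 1645187066) (nat_lit 912) (nat_lit 1091324532) (nat_lit 411) (nat_lit 1) (nat_lit 410) (nat_lit 1) (nat_lit 422) (nat_lit 1) (nat_lit 388) (nat_lit 394) (nat_lit 358)))) (XT.nd (nat_lit 156) (nat_lit 1596) (nat_lit 0) (XT.nd (nat_lit 78) (nat_lit 0) (nat_lit 0) (XT.lf (nat_lit 912) (nat_lit 1725661967) (nat_lit 0) (nat_lit 1034399711) (nat_lit 836) (nat_lit 1034399711) (nat_lit 411) (nat_lit 1) (nat_lit 399) (nat_lit 1) (nat_lit 410) (nat_lit 1) (nat_lit 389) (nat_lit 394) (nat_lit 357)) (XT.lf (nat_lit 76) (nat_lit 633103587) (nat_lit 0) (nat_lit 2495309794) (nat_lit 912) (nat_lit 633103587) (nat_lit 400) (nat_lit 1) (nat_lit 399) (nat_lit 1) (nat_lit 411) (nat_lit 1) (nat_lit 390) (nat_lit 394) (nat_lit 356))) (XT.nd (nat_lit 78) (nat_lit 836) (nat_lit 0) (XT.lf (nat_lit 836) (nat_lit 799344789) (nat_lit 0) (nat_lit 1464775919) (nat_lit 760) (nat_lit 1464775919) (nat_lit 400) (nat_lit 1) (nat_lit 389) (nat_lit 1) (nat_lit 399)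 (nat_lit 1) (nat_lit 391) (nat_lit 394) (nat_lit 355)) (XT.nd (nat_lit 78) (nat_lit 836) (nat_lit 0) (XT.lf (nat_lit 76) (nat_lit 168171447) (nat_lit 0) (nat_lit 3360469208) (nat_lit 836) (nat_lit 168171447) (nat_lit 390) (nat_lit 1) (nat_lit 389) (nat_lit 1) (nat_lit 400) (nat_lit 1) (nat_lit 392) (nat_lit 394) (nat_lit 354)) (XT.lf (nat_lit 76) (nat_lit 1763524105) (nat_lit 0) (nat_lit 137856838) (nat_lit 836) (nat_lit 1763524105) (nat_lit 379) (nat_lit 1) (nat_lit 378) (nat_lit 1) (nat_lit 389) (nat_lit 1) (nat_lit 393) (nat_lit 394) (nat_lit 353))))))))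
noncomputable def ec41 : XT := (XT.nd (nat_lit 1404) (nat_lit 3876) (nat_lit 0) (XT.nd (nat_lit 702) (nat_lit 3192) (nat_lit 0) (XT.nd (nat_lit 312) (nat_lit 2128) (nat_lit 0) (XT.nd (nat_lit 156) (nat_lit 760) (nat_lit 0) (XT.nd (nat_lit 78) (nat_lit 0) (nat_lit 0) (XT.lf (nat_lit 836) (nat_lit 3032041604) (nat_lit 0) (nat_lit 300739156) (nat_lit 760) (nat_lit 300739156) (nat_lit 379) (nat_lit 1) (nat_lit 368) (nat_lit 1) (nat_lit 378) (nat_lit 1) (nat_lit 394) (nat_lit 394) (nat_lit 352)) (XT.lf (nat_lit 76) (nat_lit 1263330632) (nat_lit 0) (nat_lit 1075695193) (nat_lit 836) (nat_lit 1263330632) (nat_lit 369) (nat_lit 1) (nat_lit 368) (nat_lit 1) (nat_lit 379) (nat_lit 1) (nat_lit 395) (nat_lit 394) (nat_lit 351))) (XT.nd (nat_lit 78) (nat_lit 0) (nat_lit 0) (XT.lf (nat_lit 836) (nat_lit 2024113399) (nat_lit 0) (nat_lit 773775941) (nat_lit 760) (nat_lit 773775941) (nat_lit 369) (nat_lit 1) (nat_lit 358) (nat_lit 1) (nat_lit 368) (nat_lit 1) (nat_lit 396) (nat_lit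 394) (nat_lit 350)) (XT.lf (nat_lit 76) (nat_lit 759007345) (nat_lit 0) (nat_lit 2023298368) (nat_lit 836) (nat_lit 759007345) (nat_lit 359) (nat_lit 1) (nat_lit 358) (nat_lit 1) (nat_lit 369) (nat_lit 1) (nat_lit 397) (nat_lit 394) (nat_lit 349)))) (XT.nd (nat_lit 156) (nat_lit 1444) (nat_lit 0) (XT.nd (nat_lit 78) (nat_lit 0) (nat_lit 0) (XT.lf (nat_lit 760) (nat_lit 1008528312) (nat_lit 0) (nat_lit 1251383330) (nat_lit 684) (nat_lit 1251383330) (nat_lit 359) (nat_lit 1) (nat_lit 349) (nat_lit 1) (nat_lit 358) (nat_lit 1) (nat_lit 398) (nat_lit 394) (nat_lit 348)) (XT.lf (nat_lit 76) (nat_lit 251176433) (nat_lit 0) (nat_lit 2979381649) (nat_lit 760) (nat_lit 251176433) (nat_lit 350) (nat_lit 1) (nat_lit 349) (nat_lit 1) (nat_lit 359) (nat_lit 1) (nat_lit 399) (nat_lit 394) (nat_lit 347))) (XT.nd (nat_lit 78) (nat_lit 684) (nat_lit 0) (XT.lf (nat_lit 76) (nat_lit 1719522930) (nat_lit 0) (nat_lit 13321725) (nat_lit 760) (nat_lit 1719522930) (nat_lit 340) (nat_lit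 1) (nat_lit 339) (nat_lit 1) (nat_lit 349) (nat_lit 1) (nat_lit 400) (nat_lit 394) (nat_lit 346)) (XT.nd (nat_lit 78) (nat_lit 0) (nat_lit 0) (XT.lf (nat_lit 760) (nat_lit 2907715599) (nat_lit 0) (nat_lit 257865412) (nat_lit 684) (nat_lit 257865412) (nat_lit 340) (nat_lit 1) (nat_lit 330) (nat_lit 1) (nat_lit 339) (nat_lit 1) (nat_lit 401) (nat_lit 394) (nat_lit 345)) (XT.lf (nat_lit 76) (nat_lit 1183773591) (nat_lit 0) (nat_lit 1027167585) (nat_lit 760) (nat_lit 1183773591) (nat_lit 331) (nat_lit 1) (nat_lit 330) (nat_lit 1) (nat_lit 340) (nat_lit 1) (nat_lit 402) (nat_lit 394) (nat_lit 344)))))) (XT.nd (nat_lit 312) (nat_lit 1900) (nat_lit 0) (XT.nd (nat_lit 156) (nat_lit 608) (nat_lit 0) (XT.nd (nat_lit 78) (nat_lit 0) (nat_lit 0) (XT.lf (nat_lit 760) (nat_lit 1831212623) (nat_lit 0) (nat_lit 767600675) (nat_lit 684) (nat_lit 767600675) (nat_lit 331) (nat_lit 1) (nat_lit 321) (nat_lit 1) (nat_lit 330) (nat_lit 1) (nat_lit 403) (nat_lit 394) (nat_lit 343))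 (XT.lf (nat_lit 76) (nat_lit 646633595) (nat_lit 0) (nat_lit 2045163117) (nat_lit 760) (nat_lit 646633595) (nat_lit 322) (nat_lit 1) (nat_lit 321) (nat_lit 1) (nat_lit 331) (nat_lit 1) (nat_lit 404) (nat_lit 394) (nat_lit 342))) (XT.nd (nat_lit 78) (nat_lit 0) (nat_lit 0) (XT.lf (nat_lit 684) (nat_lit 752414688) (nat_lit 0) (nat_lit 1279158415) (nat_lit 608) (nat_lit 1279158415) (nat_lit 322) (nat_lit 1) (nat_lit 313) (nat_lit 1) (nat_lit 321) (nat_lit 1) (nat_lit 405) (nat_lit 394) (nat_lit 341)) (XT.lf (nat_lit 76) (nat_lit 108592128) (nat_lit 0) (nat_lit 3066293881) (nat_lit 684) (nat_lit 108592128) (nat_lit 314) (nat_lit 1) (nat_lit 313) (nat_lit 1) (nat_lit 322) (nat_lit 1) (nat_lit 406) (nat_lit 394) (nat_lit 340)))) (XT.nd (nat_lit 156) (nat_lit 608) (nat_lit 0) (XT.nd (nat_lit 78) (nat_lit 608) (nat_lit 0) (XT.lf (nat_lit 76) (nat_lit 1466447377) (nat_lit 0) (nat_lit 323426279) (nat_lit 684) (nat_lit 1466447377) (nat_lit 305) (nat_lit 1) (nat_lit 304)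 (nat_lit 1) (nat_lit 313) (nat_lit 1) (nat_lit 407) (nat_lit 394) (nat_lit 339)) (XT.lf (nat_lit 684) (nat_lit 2375477349) (nat_lit 0) (nat_lit 427060933) (nat_lit 608) (nat_lit 427060933) (nat_lit 305) (nat_lit 1) (nat_lit 296) (nat_lit 1) (nat_lit 304) (nat_lit 1) (nat_lit 408) (nat_lit 394) (nat_lit 338))) (XT.nd (nat_lit 78) (nat_lit 608) (nat_lit 0) (XT.lf (nat_lit 76) (nat_lit 906629030) (nat_lit 0) (nat_lit 1389834831) (nat_lit 684) (nat_lit 906629030) (nat_lit 297) (nat_lit 1) (nat_lit 296) (nat_lit 1) (nat_lit 305) (nat_lit 1) (nat_lit 409) (nat_lit 394) (nat_lit 337)) (XT.nd (nat_lit 78) (nat_lit 0) (nat_lit 0) (XT.lf (nat_lit 684) (nat_lit 1252919028) (nat_lit 0) (nat_lit 962003991) (nat_lit 608) (nat_lit 962003991) (nat_lit 297) (nat_lit 1) (nat_lit 288) (nat_lit 1) (nat_lit 296) (nat_lit 1) (nat_lit 410) (nat_lit 394) (nat_lit 336)) (XT.lf (nat_lit 76) (nat_lit 347634779) (nat_lit 0) (nat_lit 2455841933) (nat_lit 684) (nat_lit 347634779) (nat_lit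 289) (nat_lit 1) (nat_lit 288) (nat_lit 1) (nat_lit 297) (nat_lit 1) (nat_lit 411) (nat_lit 394) (nat_lit 335))))))) (XT.nd (nat_lit 702) (nat_lit 456) (nat_lit 0) (XT.nd (nat_lit 312) (nat_lit 1672) (nat_lit 0) (XT.nd (nat_lit 156) (nat_lit 532) (nat_lit 0) (XT.nd (nat_lit 78) (nat_lit 684) (nat_lit 0) (XT.lf (nat_lit 608) (nat_lit 132397538) (nat_lit 0) (nat_lit 1496543910) (nat_lit 532) (nat_lit 1496543910) (nat_lit 289) (nat_lit 1) (nat_lit 281) (nat_lit 1) (nat_lit 288) (nat_lit 1) (nat_lit 412) (nat_lit 394) (nat_lit 334)) (XT.lf (nat_lit 684) (nat_lit 2682685628) (nat_lit 0) (nat_lit 208774676) (nat_lit 608) (nat_lit 208774676) (nat_lit 281) (nat_lit 1) (nat_lit 272) (nat_lit 1) (nat_lit 280) (nat_lit 1) (nat_lit 413) (nat_lit 394) (nat_lit 333))) (XT.nd (nat_lit 78) (nat_lit 532) (nat_lit 0) (XT.lf (nat_lit 76) (nat_lit 1051343061) (nat_lit 0) (nat_lit 972428377) (nat_lit 684) (nat_lit 1051343061) (nat_lit 273) (nat_lit 1) (nat_lit 272) (nat_lit 1) (nat_lit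 281) (nat_lit 1) (nat_lit 414) (nat_lit 394) (nat_lit 332)) (XT.lf (nat_lit 608) (nat_lit 1527661600) (nat_lit 0) (nat_lit 761349766) (nat_lit 532) (nat_lit 761349766) (nat_lit 273) (nat_lit 1) (nat_lit 265) (nat_lit 1) (nat_lit 272) (nat_lit 1) (nat_lit 415) (nat_lit 394) (nat_lit 331)))) (XT.nd (nat_lit 156) (nat_lit 1140) (nat_lit 0) (XT.nd (nat_lit 78) (nat_lit 532) (nat_lit 0) (XT.lf (nat_lit 76) (nat_lit 476897552) (nat_lit 0) (nat_lit 2072099651) (nat_lit 608) (nat_lit 476897552) (nat_lit 266) (nat_lit 1) (nat_lit 265) (nat_lit 1) (nat_lit 273) (nat_lit 1) (nat_lit 416) (nat_lit 394) (nat_lit 330)) (XT.lf (nat_lit 608) (nat_lit 377548658) (nat_lit 0) (nat_lit 1312046076) (nat_lit 532) (nat_lit 1312046076) (nat_lit 266) (nat_lit 1) (nat_lit 258) (nat_lit 1) (nat_lit 265) (nat_lit 1) (nat_lit 417) (nat_lit 394) (nat_lit 329))) (XT.nd (nat_lit 78) (nat_lit 532) (nat_lit 0) (XT.lf (nat_lit 608) (nat_lit 2789114103) (nat_lit 0) (nat_lit 94324911) (nat_lit 532)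 (nat_lit 94324911) (nat_lit 258) (nat_lit 1) (nat_lit 250) (nat_lit 1) (nat_lit 257) (nat_lit 1) (nat_lit 418) (nat_lit 394) (nat_lit 328)) (XT.nd (nat_lit 78) (nat_lit 532) (nat_lit 0) (XT.lf (nat_lit 76) (nat_lit 1098472175) (nat_lit 0) (nat_lit 757000624) (nat_lit 608) (nat_lit 1098472175) (nat_lit 251) (nat_lit 1) (nat_lit 250) (nat_lit 1) (nat_lit 258) (nat_lit 1) (nat_lit 419) (nat_lit 394) (nat_lit 327)) (XT.lf (nat_lit 608) (nat_lit 1611405502) (nat_lit 0) (nat_lit 659544953) (nat_lit 532) (nat_lit 659544953) (nat_lit 251) (nat_lit 1) (nat_lit 243) (nat_lit 1) (nat_lit 250) (nat_lit 1) (nat_lit 420) (nat_lit 394) (nat_lit 326)))))) (XT.nd (nat_lit 53976) (nat_lit 0) (nat_lit 19836) (XT.nd (nat_lit 53820) (nat_lit 0) (nat_lit 19760) (XT.nd (nat_lit 78) (nat_lit 456) (nat_lit 0) (XT.lf (nat_lit 76) (nat_lit 513338123) (nat_lit 0) (nat_lit 1880620145) (nat_lit 608) (nat_lit 513338123) (nat_lit 244) (nat_lit 1) (nat_lit 243) (nat_lit 1) (nat_lit 251) (nat_lit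 1) (nat_lit 421) (nat_lit 394) (nat_lit 325)) (XT.lf (nat_lit 532) (nat_lit 441039772) (nat_lit 0) (nat_lit 1221634944) (nat_lit 456) (nat_lit 1221634944) (nat_lit 244) (nat_lit 1) (nat_lit 237) (nat_lit 1) (nat_lit 243) (nat_lit 1) (nat_lit 422) (nat_lit 394) (nat_lit 324))) (XT.nd (nat_lit 78) (nat_lit 0) (nat_lit 0) (XT.lf (nat_lit 1900) (nat_lit 907795304) (nat_lit 0) (nat_lit 915386584) (nat_lit 1900) (nat_lit 907795304) (nat_lit 522) (nat_lit 1) (nat_lit 497) (nat_lit 0) (nat_lit 522) (nat_lit 0) (nat_lit 350) (nat_lit 395) (nat_lit 395)) (XT.lf (nat_lit 1900) (nat_lit 3589559120) (nat_lit 76) (nat_lit 909364303) (nat_lit 0) (nat_lit 909364303) (nat_lit 522) (nat_lit 1) (nat_lit 498) (nat_lit 1) (nat_lit 497) (nat_lit 0) (nat_lit 351) (nat_lit 395) (nat_lit 394)))) (XT.nd (nat_lit 156) (nat_lit 0) (nat_lit 76) (XT.nd (nat_lit 78) (nat_lit 0) (nat_lit 0) (XT.lf (nat_lit 1900) (nat_lit 1762490614) (nat_lit 0) (nat_lit 1830226013) (nat_lit 1824) (nat_lit 1762490614)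 (nat_lit 523) (nat_lit 1) (nat_lit 498) (nat_lit 1) (nat_lit 522) (nat_lit 1) (nat_lit 352) (nat_lit 395) (nat_lit 393)) (XT.lf (nat_lit 1900) (nat_lit 3449628610) (nat_lit 76) (nat_lit 926651422) (nat_lit 0) (nat_lit 926651422) (nat_lit 523) (nat_lit 1) (nat_lit 499) (nat_lit 1) (nat_lit 498) (nat_lit 1) (nat_lit 353) (nat_lit 395) (nat_lit 392))) (XT.nd (nat_lit 78) (nat_lit 0) (nat_lit 0) (XT.lf (nat_lit 1900) (nat_lit 1676454135) (nat_lit 0) (nat_lit 1898324464) (nat_lit 1824) (nat_lit 1676454135) (nat_lit 524) (nat_lit 1) (nat_lit 499) (nat_lit 1) (nat_lit 523) (nat_lit 1) (nat_lit 354) (nat_lit 395) (nat_lit 391)) (XT.nd (nat_lit 78) (nat_lit 0) (nat_lit 76) (XT.lf (nat_lit 1900) (nat_lit 3245595432) (nat_lit 76) (nat_lit 977353701) (nat_lit 0) (nat_lit 977353701) (nat_lit 524) (nat_lit 1) (nat_lit 500) (nat_lit 1) (nat_lit 499) (nat_lit 1) (nat_lit 355) (nat_lit 395) (nat_lit 390)) (XT.lf (nat_lit 1900) (nat_lit 1559446379) (nat_lit 0) (nat_lit 2031057352)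 (nat_lit 1824) (nat_lit 1559446379) (nat_lit 525) (nat_lit 1) (nat_lit 500) (nat_lit 1) (nat_lit 524) (nat_lit 1) (nat_lit 356) (nat_lit 395) (nat_lit 389))))))))
noncomputable def ec42 : XT := (XT.nd (nat_lit 1404) (nat_lit 8664) (nat_lit 0) (XT.nd (nat_lit 702) (nat_lit 1368) (nat_lit 0) (XT.nd (nat_lit 312) (nat_lit 0) (nat_lit 152) (XT.nd (nat_lit 156) (nat_lit 0) (nat_lit 76) (XT.nd (nat_lit 78) (nat_lit 0) (nat_lit 76) (XT.lf (nat_lit 1900) (nat_lit 2981312230) (nat_lit 76) (nat_lit 1059505229) (nat_lit 0) (nat_lit 1059505229) (nat_lit 525) (nat_lit 1) (nat_lit 501) (nat_lit 1) (nat_lit 500) (nat_lit 1) (nat_lit 357) (nat_lit 395) (nat_lit 388)) (XT.lf (nat_lit 1900) (nat_lit 1413342785) (nat_lit 0) (nat_lit 2224595650) (nat_lit 1824) (nat_lit 1413342785) (nat_lit 526) (nat_lit 1) (nat_lit 501) (nat_lit 1) (nat_lit 525) (nat_lit 1) (nat_lit 358) (nat_lit 395) (nat_lit 387))) (XT.nd (nat_lit 78) (nat_lit 0) (nat_lit 76) (XT.lf (nat_lit 1900) (nat_lit 2660455308)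 (nat_lit 76) (nat_lit 1171229535) (nat_lit 0) (nat_lit 1171229535) (nat_lit 526) (nat_lit 1) (nat_lit 502) (nat_lit 1) (nat_lit 501) (nat_lit 1) (nat_lit 359) (nat_lit 395) (nat_lit 386)) (XT.lf (nat_lit 1900) (nat_lit 1239932776) (nat_lit 0) (nat_lit 2475284885) (nat_lit 1824) (nat_lit 1239932776) (nat_lit 527) (nat_lit 1) (nat_lit 502) (nat_lit 1) (nat_lit 526) (nat_lit 1) (nat_lit 360) (nat_lit 395) (nat_lit 385)))) (XT.nd (nat_lit 156) (nat_lit 0) (nat_lit 76) (XT.nd (nat_lit 78) (nat_lit 0) (nat_lit 76) (XT.lf (nat_lit 1900) (nat_lit 2286532004) (nat_lit 76) (nat_lit 1310735866) (nat_lit 0) (nat_lit 1310735866) (nat_lit 527) (nat_lit 1) (nat_lit 503) (nat_lit 1) (nat_lit 502) (nat_lit 1) (nat_lit 361) (nat_lit 395) (nat_lit 384)) (XT.lf (nat_lit 1900) (nat_lit 1040923357) (nat_lit 0) (nat_lit 2779637852) (nat_lit 1824) (nat_lit 1040923357) (nat_lit 528) (nat_lit 1) (nat_lit 503) (nat_lit 1) (nat_lit 527) (nat_lit 1) (nat_lit 362) (nat_lit 395) (nat_lit 383)))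 (XT.nd (nat_lit 78) (nat_lit 0) (nat_lit 76) (XT.lf (nat_lit 1900) (nat_lit 1862887770) (nat_lit 76) (nat_lit 1476315598) (nat_lit 0) (nat_lit 1476315598) (nat_lit 528) (nat_lit 1) (nat_lit 504) (nat_lit 1) (nat_lit 503) (nat_lit 1) (nat_lit 363) (nat_lit 395) (nat_lit 382)) (XT.nd (nat_lit 78) (nat_lit 0) (nat_lit 0) (XT.lf (nat_lit 1900) (nat_lit 817942566) (nat_lit 0) (nat_lit 3134327617) (nat_lit 1824) (nat_lit 817942566) (nat_lit 529) (nat_lit 1) (nat_lit 504) (nat_lit 1) (nat_lit 528) (nat_lit 1) (nat_lit 364) (nat_lit 395) (nat_lit 381)) (XT.lf (nat_lit 1900) (nat_lit 1392712951) (nat_lit 76) (nat_lit 1666338807) (nat_lit 0) (nat_lit 1666338807) (nat_lit 529) (nat_lit 1) (nat_lit 505) (nat_lit 1) (nat_lit 504) (nat_lit 1) (nat_lit 365) (nat_lit 395) (nat_lit 380)))))) (XT.nd (nat_lit 312) (nat_lit 1748) (nat_lit 0) (XT.nd (nat_lit 156) (nat_lit 0) (nat_lit 76) (XT.nd (nat_lit 78) (nat_lit 0) (nat_lit 0) (XT.lf (nat_lit 1900) (nat_lit 572542793) (nat_lit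 0) (nat_lit 3536180813) (nat_lit 1824) (nat_lit 572542793) (nat_lit 530) (nat_lit 1) (nat_lit 505) (nat_lit 1) (nat_lit 529) (nat_lit 1) (nat_lit 366) (nat_lit 395) (nat_lit 379)) (XT.lf (nat_lit 1900) (nat_lit 879049315) (nat_lit 76) (nat_lit 1879250968) (nat_lit 0) (nat_lit 1879250968) (nat_lit 530) (nat_lit 1) (nat_lit 506) (nat_lit 1) (nat_lit 505) (nat_lit 1) (nat_lit 367) (nat_lit 395) (nat_lit 378))) (XT.nd (nat_lit 78) (nat_lit 0) (nat_lit 0) (XT.lf (nat_lit 1900) (nat_lit 306203960) (nat_lit 0) (nat_lit 3982171192) (nat_lit 1824) (nat_lit 306203960) (nat_lit 531) (nat_lit 1) (nat_lit 506) (nat_lit 1) (nat_lit 530) (nat_lit 1) (nat_lit 368) (nat_lit 395) (nat_lit 377)) (XT.lf (nat_lit 1900) (nat_lit 324796295) (nat_lit 76) (nat_lit 2113569788) (nat_lit 0) (nat_lit 2113569788) (nat_lit 531) (nat_lit 1) (nat_lit 507) (nat_lit 1) (nat_lit 506) (nat_lit 1) (nat_lit 369) (nat_lit 395) (nat_lit 376)))) (XT.nd (nat_lit 156) (nat_lit 0) (nat_lit 0) (XT.nd (nat_lit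 78) (nat_lit 1900) (nat_lit 0) (XT.lf (nat_lit 1900) (nat_lit 20336571) (nat_lit 0) (nat_lit 4469413451) (nat_lit 1824) (nat_lit 20336571) (nat_lit 532) (nat_lit 1) (nat_lit 507) (nat_lit 1) (nat_lit 531) (nat_lit 1) (nat_lit 370) (nat_lit 395) (nat_lit 375)) (XT.lf (nat_lit 1976) (nat_lit 2102334549) (nat_lit 0) (nat_lit 263777536) (nat_lit 1900) (nat_lit 2102334549) (nat_lit 508) (nat_lit 1) (nat_lit 482) (nat_lit 1) (nat_lit 507) (nat_lit 1) (nat_lit 371) (nat_lit 395) (nat_lit 374))) (XT.nd (nat_lit 78) (nat_lit 0) (nat_lit 76) (XT.lf (nat_lit 1976) (nat_lit 3863881120) (nat_lit 76) (nat_lit 281848803) (nat_lit 0) (nat_lit 281848803) (nat_lit 508) (nat_lit 1) (nat_lit 483) (nat_lit 1) (nat_lit 482) (nat_lit 1) (nat_lit 372) (nat_lit 395) (nat_lit 373)) (XT.nd (nat_lit 78) (nat_lit 0) (nat_lit 0) (XT.lf (nat_lit 1976) (nat_lit 1752093321) (nat_lit 0) (nat_lit 882823771) (nat_lit 1900) (nat_lit 1752093321) (nat_lit 509) (nat_lit 1) (nat_lit 483) (nat_lit 1)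 (nat_lit 508) (nat_lit 1) (nat_lit 373) (nat_lit 395) (nat_lit 372)) (XT.lf (nat_lit 1976) (nat_lit 3145736946) (nat_lit 76) (nat_lit 600693364) (nat_lit 0) (nat_lit 600693364) (nat_lit 509) (nat_lit 1) (nat_lit 484) (nat_lit 1) (nat_lit 483) (nat_lit 1) (nat_lit 374) (nat_lit 395) (nat_lit 371))))))) (XT.nd (nat_lit 702) (nat_lit 4028) (nat_lit 0) (XT.nd (nat_lit 312) (nat_lit 2736) (nat_lit 0) (XT.nd (nat_lit 156) (nat_lit 912) (nat_lit 0) (XT.nd (nat_lit 78) (nat_lit 1140) (nat_lit 0) (XT.lf (nat_lit 76) (nat_lit 1386741490) (nat_lit 0) (nat_lit 1534127562) (nat_lit 1900) (nat_lit 1386741490) (nat_lit 485) (nat_lit 1) (nat_lit 484) (nat_lit 1) (nat_lit 509) (nat_lit 1) (nat_lit 375) (nat_lit 395) (nat_lit 370)) (XT.lf (nat_lit 1216) (nat_lit 2398435168) (nat_lit 0) (nat_lit 935119555) (nat_lit 1140) (nat_lit 935119555) (nat_lit 485) (nat_lit 1) (nat_lit 469) (nat_lit 1) (nat_lit 484) (nat_lit 1) (nat_lit 376) (nat_lit 395) (nat_lit 369))) (XT.nd (nat_lit 78)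 (nat_lit 912) (nat_lit 0) (XT.lf (nat_lit 76) (nat_lit 1007428778) (nat_lit 0) (nat_lit 2215332468) (nat_lit 1216) (nat_lit 1007428778) (nat_lit 470) (nat_lit 1) (nat_lit 469) (nat_lit 1) (nat_lit 485) (nat_lit 1) (nat_lit 377) (nat_lit 395) (nat_lit 368)) (XT.lf (nat_lit 988) (nat_lit 1624226520) (nat_lit 0) (nat_lit 1283974034) (nat_lit 912) (nat_lit 1283974034) (nat_lit 470) (nat_lit 1) (nat_lit 457) (nat_lit 1) (nat_lit 469) (nat_lit 1) (nat_lit 378) (nat_lit 395) (nat_lit 367)))) (XT.nd (nat_lit 156) (nat_lit 1824) (nat_lit 0) (XT.nd (nat_lit 78) (nat_lit 912) (nat_lit 0) (XT.lf (nat_lit 76) (nat_lit 615249224) (nat_lit 0) (nat_lit 2924195195) (nat_lit 988) (nat_lit 615249224) (nat_lit 458) (nat_lit 1) (nat_lit 457) (nat_lit 1) (nat_lit 470) (nat_lit 1) (nat_lit 379) (nat_lit 395) (nat_lit 366)) (XT.lf (nat_lit 988) (nat_lit 825252408) (nat_lit 0) (nat_lit 1646158995) (nat_lit 912) (nat_lit 1646158995) (nat_lit 458) (nat_lit 1) (nat_lit 445) (nat_lit 1)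 (nat_lit 457) (nat_lit 1) (nat_lit 380) (nat_lit 395) (nat_lit 365))) (XT.nd (nat_lit 78) (nat_lit 1824) (nat_lit 0) (XT.lf (nat_lit 76) (nat_lit 211243561) (nat_lit 0) (nat_lit 3658580779) (nat_lit 988) (nat_lit 211243561) (nat_lit 446) (nat_lit 1) (nat_lit 445) (nat_lit 1) (nat_lit 458) (nat_lit 1) (nat_lit 381) (nat_lit 395) (nat_lit 364)) (XT.nd (nat_lit 78) (nat_lit 988) (nat_lit 0) (XT.lf (nat_lit 912) (nat_lit 3549583) (nat_lit 0) (nat_lit 2020629801) (nat_lit 836) (nat_lit 2020629801) (nat_lit 446) (nat_lit 1) (nat_lit 434) (nat_lit 1) (nat_lit 445) (nat_lit 1) (nat_lit 382) (nat_lit 395) (nat_lit 363)) (XT.lf (nat_lit 988) (nat_lit 3604636783) (nat_lit 0) (nat_lit 202259036) (nat_lit 912) (nat_lit 202259036) (nat_lit 434) (nat_lit 1) (nat_lit 421) (nat_lit 1) (nat_lit 433) (nat_lit 1) (nat_lit 383) (nat_lit 395) (nat_lit 362)))))) (XT.nd (nat_lit 312) (nat_lit 2356) (nat_lit 0) (XT.nd (nat_lit 156) (nat_lit 836) (nat_lit 0) (XT.nd (nat_lit 78) (nat_lit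 836) (nat_lit 0) (XT.lf (nat_lit 76) (nat_lit 1572894325) (nat_lit 0) (nat_lit 827942455) (nat_lit 988) (nat_lit 1572894325) (nat_lit 422) (nat_lit 1) (nat_lit 421) (nat_lit 1) (nat_lit 434) (nat_lit 1) (nat_lit 384) (nat_lit 395) (nat_lit 361)) (XT.lf (nat_lit 912) (nat_lit 2690490551) (nat_lit 0) (nat_lit 624202292) (nat_lit 836) (nat_lit 624202292) (nat_lit 422) (nat_lit 1) (nat_lit 410) (nat_lit 1) (nat_lit 421) (nat_lit 1) (nat_lit 385) (nat_lit 395) (nat_lit 360))) (XT.nd (nat_lit 78) (nat_lit 836) (nat_lit 0) (XT.lf (nat_lit 76) (nat_lit 1113151023) (nat_lit 0) (nat_lit 1678090808) (nat_lit 912) (nat_lit 1113151023) (nat_lit 411) (nat_lit 1) (nat_lit 410) (nat_lit 1) (nat_lit 422) (nat_lit 1) (nat_lit 386) (nat_lit 395) (nat_lit 359)) (XT.lf (nat_lit 912) (nat_lit 1760175207) (nat_lit 0) (nat_lit 1055087705) (nat_lit 836) (nat_lit 1055087705) (nat_lit 411) (nat_lit 1) (nat_lit 399) (nat_lit 1) (nat_lit 410) (nat_lit 1) (nat_lit 387) (nat_lit 395) (nat_lit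 358)))) (XT.nd (nat_lit 156) (nat_lit 1596) (nat_lit 0) (XT.nd (nat_lit 78) (nat_lit 760) (nat_lit 0) (XT.lf (nat_lit 76) (nat_lit 645765659) (nat_lit 0) (nat_lit 2545215990) (nat_lit 912) (nat_lit 645765659) (nat_lit 400) (nat_lit 1) (nat_lit 399) (nat_lit 1) (nat_lit 411) (nat_lit 1) (nat_lit 388) (nat_lit 395) (nat_lit 357)) (XT.lf (nat_lit 836) (nat_lit 815331685) (nat_lit 0) (nat_lit 1494071437) (nat_lit 760) (nat_lit 1494071437) (nat_lit 400) (nat_lit 1) (nat_lit 389) (nat_lit 1) (nat_lit 399) (nat_lit 1) (nat_lit 389) (nat_lit 395) (nat_lit 356))) (XT.nd (nat_lit 78) (nat_lit 1596) (nat_lit 0) (XT.lf (nat_lit 76) (nat_lit 171534875) (nat_lit 0) (nat_lit 3427678593) (nat_lit 836) (nat_lit 171534875) (nat_lit 390) (nat_lit 1) (nat_lit 389) (nat_lit 1) (nat_lit 400) (nat_lit 1) (nat_lit 390) (nat_lit 395) (nat_lit 355)) (XT.nd (nat_lit 78) (nat_lit 760) (nat_lit 0) (XT.lf (nat_lit 76) (nat_lit 1798794587) (nat_lit 0) (nat_lit 140613975) (nat_lit 836) (nat_lit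 1798794587) (nat_lit 379) (nat_lit 1) (nat_lit 378) (nat_lit 1) (nat_lit 389) (nat_lit 1) (nat_lit 391) (nat_lit 395) (nat_lit 354)) (XT.lf (nat_lit 836) (nat_lit 3092682436) (nat_lit 0) (nat_lit 306753939) (nat_lit 760) (nat_lit 306753939) (nat_lit 379) (nat_lit 1) (nat_lit 368) (nat_lit 1) (nat_lit 378) (nat_lit 1) (nat_lit 392) (nat_lit 395) (nat_lit 353))))))))
noncomputable def ec43 : XT := (XT.nd (nat_lit 1404) (nat_lit 3952) (nat_lit 0) (XT.nd (nat_lit 702) (nat_lit 3040) (nat_lit 0) (XT.nd (nat_lit 312) (nat_lit 2128) (nat_lit 0) (XT.nd (nat_lit 156) (nat_lit 684) (nat_lit 0) (XT.nd (nat_lit 78) (nat_lit 760) (nat_lit 0) (XT.lf (nat_lit 76) (nat_lit 1288597244) (nat_lit 0) (nat_lit 1097209097) (nat_lit 836) (nat_lit 1288597244) (nat_lit 369) (nat_lit 1) (nat_lit 368) (nat_lit 1) (nat_lit 379) (nat_lit 1) (nat_lit 393) (nat_lit 395) (nat_lit 352)) (XT.lf (nat_lit 836) (nat_lit 2064595667) (nat_lit 0) (nat_lit 789251460) (nat_lit 760) (nat_lit 789251460)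 (nat_lit 369) (nat_lit 1) (nat_lit 358) (nat_lit 1) (nat_lit 368) (nat_lit 1) (nat_lit 394) (nat_lit 395) (nat_lit 351))) (XT.nd (nat_lit 78) (nat_lit 684) (nat_lit 0) (XT.lf (nat_lit 76) (nat_lit 774187492) (nat_lit 0) (nat_lit 2063764336) (nat_lit 836) (nat_lit 774187492) (nat_lit 359) (nat_lit 1) (nat_lit 358) (nat_lit 1) (nat_lit 369) (nat_lit 1) (nat_lit 395) (nat_lit 395) (nat_lit 350)) (XT.lf (nat_lit 760) (nat_lit 1028698878) (nat_lit 0) (nat_lit 1276410997) (nat_lit 684) (nat_lit 1276410997) (nat_lit 359) (nat_lit 1) (nat_lit 349) (nat_lit 1) (nat_lit 358) (nat_lit 1) (nat_lit 396) (nat_lit 395) (nat_lit 349)))) (XT.nd (nat_lit 156) (nat_lit 1368) (nat_lit 0) (XT.nd (nat_lit 78) (nat_lit 760) (nat_lit 0) (XT.lf (nat_lit 76) (nat_lit 256199962) (nat_lit 0) (nat_lit 3038969282) (nat_lit 760) (nat_lit 256199962) (nat_lit 350) (nat_lit 1) (nat_lit 349) (nat_lit 1) (nat_lit 359) (nat_lit 1) (nat_lit 397) (nat_lit 395) (nat_lit 348)) (XT.lf (nat_lit 76) (nat_lit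 1753913389) (nat_lit 0) (nat_lit 13588159) (nat_lit 760) (nat_lit 1753913389) (nat_lit 340) (nat_lit 1) (nat_lit 339) (nat_lit 1) (nat_lit 349) (nat_lit 1) (nat_lit 398) (nat_lit 395) (nat_lit 347))) (XT.nd (nat_lit 78) (nat_lit 684) (nat_lit 0) (XT.lf (nat_lit 760) (nat_lit 2965869911) (nat_lit 0) (nat_lit 263022720) (nat_lit 684) (nat_lit 263022720) (nat_lit 340) (nat_lit 1) (nat_lit 330) (nat_lit 1) (nat_lit 339) (nat_lit 1) (nat_lit 399) (nat_lit 395) (nat_lit 346)) (XT.nd (nat_lit 78) (nat_lit 684) (nat_lit 0) (XT.lf (nat_lit 76) (nat_lit 1207449063) (nat_lit 0) (nat_lit 1047710936) (nat_lit 760) (nat_lit 1207449063) (nat_lit 331) (nat_lit 1) (nat_lit 330) (nat_lit 1) (nat_lit 340) (nat_lit 1) (nat_lit 400) (nat_lit 395) (nat_lit 345)) (XT.lf (nat_lit 760) (nat_lit 1867836875) (nat_lit 0) (nat_lit 782952689) (nat_lit 684) (nat_lit 782952689) (nat_lit 331) (nat_lit 1) (nat_lit 321) (nat_lit 1) (nat_lit 330) (nat_lit 1) (nat_lit 401) (nat_lit 395) (nat_lit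 344)))))) (XT.nd (nat_lit 312) (nat_lit 1748) (nat_lit 0) (XT.nd (nat_lit 156) (nat_lit 684) (nat_lit 0) (XT.nd (nat_lit 78) (nat_lit 608) (nat_lit 0) (XT.lf (nat_lit 76) (nat_lit 659566267) (nat_lit 0) (nat_lit 2086066380) (nat_lit 760) (nat_lit 659566267) (nat_lit 322) (nat_lit 1) (nat_lit 321) (nat_lit 1) (nat_lit 331) (nat_lit 1) (nat_lit 402) (nat_lit 395) (nat_lit 343)) (XT.lf (nat_lit 684) (nat_lit 767462982) (nat_lit 0) (nat_lit 1304741583) (nat_lit 608) (nat_lit 1304741583) (nat_lit 322) (nat_lit 1) (nat_lit 313) (nat_lit 1) (nat_lit 321) (nat_lit 1) (nat_lit 403) (nat_lit 395) (nat_lit 342))) (XT.nd (nat_lit 78) (nat_lit 684) (nat_lit 0) (XT.lf (nat_lit 76) (nat_lit 110763971) (nat_lit 0) (nat_lit 3127619758) (nat_lit 684) (nat_lit 110763971) (nat_lit 314) (nat_lit 1) (nat_lit 313) (nat_lit 1) (nat_lit 322) (nat_lit 1) (nat_lit 404) (nat_lit 395) (nat_lit 341)) (XT.lf (nat_lit 76) (nat_lit 1495776324) (nat_lit 0) (nat_lit 329894805) (nat_lit 684) (nat_lit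 1495776324) (nat_lit 305) (nat_lit 1) (nat_lit 304) (nat_lit 1) (nat_lit 313) (nat_lit 1) (nat_lit 405) (nat_lit 395) (nat_lit 340)))) (XT.nd (nat_lit 156) (nat_lit 1140) (nat_lit 0) (XT.nd (nat_lit 78) (nat_lit 0) (nat_lit 0) (XT.lf (nat_lit 684) (nat_lit 2422986896) (nat_lit 0) (nat_lit 435602151) (nat_lit 608) (nat_lit 435602151) (nat_lit 305) (nat_lit 1) (nat_lit 296) (nat_lit 1) (nat_lit 304) (nat_lit 1) (nat_lit 406) (nat_lit 395) (nat_lit 339)) (XT.lf (nat_lit 76) (nat_lit 924761610) (nat_lit 0) (nat_lit 1417631527) (nat_lit 684) (nat_lit 924761610) (nat_lit 297) (nat_lit 1) (nat_lit 296) (nat_lit 1) (nat_lit 305) (nat_lit 1) (nat_lit 407) (nat_lit 395) (nat_lit 338))) (XT.nd (nat_lit 78) (nat_lit 532) (nat_lit 0) (XT.lf (nat_lit 684) (nat_lit 1277977408) (nat_lit 0) (nat_lit 981244071) (nat_lit 608) (nat_lit 981244071) (nat_lit 297) (nat_lit 1) (nat_lit 288) (nat_lit 1) (nat_lit 296) (nat_lit 1) (nat_lit 408) (nat_lit 395) (nat_lit 337)) (XT.nd (nat_lit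 78) (nat_lit 532) (nat_lit 0) (XT.lf (nat_lit 76) (nat_lit 354587474) (nat_lit 0) (nat_lit 2504958772) (nat_lit 684) (nat_lit 354587474) (nat_lit 289) (nat_lit 1) (nat_lit 288) (nat_lit 1) (nat_lit 297) (nat_lit 1) (nat_lit 409) (nat_lit 395) (nat_lit 336)) (XT.lf (nat_lit 608) (nat_lit 135045488) (nat_lit 0) (nat_lit 1526474788) (nat_lit 532) (nat_lit 1526474788) (nat_lit 289) (nat_lit 1) (nat_lit 281) (nat_lit 1) (nat_lit 288) (nat_lit 1) (nat_lit 410) (nat_lit 395) (nat_lit 335))))))) (XT.nd (nat_lit 702) (nat_lit 1064) (nat_lit 0) (XT.nd (nat_lit 312) (nat_lit 1672) (nat_lit 0) (XT.nd (nat_lit 156) (nat_lit 532) (nat_lit 0) (XT.nd (nat_lit 78) (nat_lit 0) (nat_lit 0) (XT.lf (nat_lit 684) (nat_lit 2736339340) (nat_lit 0) (nat_lit 212950170) (nat_lit 608) (nat_lit 212950170) (nat_lit 281) (nat_lit 1) (nat_lit 272) (nat_lit 1) (nat_lit 280) (nat_lit 1) (nat_lit 411) (nat_lit 395) (nat_lit 334)) (XT.lf (nat_lit 76) (nat_lit 1072369922) (nat_lit 0) (nat_lit 991876945)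 (nat_lit 684) (nat_lit 1072369922) (nat_lit 273) (nat_lit 1) (nat_lit 272) (nat_lit 1) (nat_lit 281) (nat_lit 1) (nat_lit 412) (nat_lit 395) (nat_lit 333))) (XT.nd (nat_lit 78) (nat_lit 0) (nat_lit 0) (XT.lf (nat_lit 608) (nat_lit 1558214832) (nat_lit 0) (nat_lit 776576762) (nat_lit 532) (nat_lit 776576762) (nat_lit 273) (nat_lit 1) (nat_lit 265) (nat_lit 1) (nat_lit 272) (nat_lit 1) (nat_lit 413) (nat_lit 395) (nat_lit 332)) (XT.lf (nat_lit 76) (nat_lit 486435503) (nat_lit 0) (nat_lit 2113541644) (nat_lit 608) (nat_lit 486435503) (nat_lit 266) (nat_lit 1) (nat_lit 265) (nat_lit 1) (nat_lit 273) (nat_lit 1) (nat_lit 414) (nat_lit 395) (nat_lit 331)))) (XT.nd (nat_lit 156) (nat_lit 532) (nat_lit 0) (XT.nd (nat_lit 78) (nat_lit 608) (nat_lit 0) (XT.lf (nat_lit 608) (nat_lit 385099631) (nat_lit 0) (nat_lit 1338286998) (nat_lit 532) (nat_lit 1338286998) (nat_lit 266) (nat_lit 1) (nat_lit 258) (nat_lit 1) (nat_lit 265) (nat_lit 1) (nat_lit 415) (nat_lit 395) (nat_lit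 330)) (XT.lf (nat_lit 608) (nat_lit 2844896385) (nat_lit 0) (nat_lit 96211409) (nat_lit 532) (nat_lit 96211409) (nat_lit 258) (nat_lit 1) (nat_lit 250) (nat_lit 1) (nat_lit 257) (nat_lit 1) (nat_lit 416) (nat_lit 395) (nat_lit 329))) (XT.nd (nat_lit 78) (nat_lit 532) (nat_lit 0) (XT.lf (nat_lit 76) (nat_lit 1120441618) (nat_lit 0) (nat_lit 772140636) (nat_lit 608) (nat_lit 1120441618) (nat_lit 251) (nat_lit 1) (nat_lit 250) (nat_lit 1) (nat_lit 258) (nat_lit 1) (nat_lit 417) (nat_lit 395) (nat_lit 328)) (XT.nd (nat_lit 78) (nat_lit 0) (nat_lit 0) (XT.lf (nat_lit 608) (nat_lit 1643633612) (nat_lit 0) (nat_lit 672735852) (nat_lit 532) (nat_lit 672735852) (nat_lit 251) (nat_lit 1) (nat_lit 243) (nat_lit 1) (nat_lit 250) (nat_lit 1) (nat_lit 418) (nat_lit 395) (nat_lit 327)) (XT.lf (nat_lit 76) (nat_lit 523604886) (nat_lit 0) (nat_lit 1918232547) (nat_lit 608) (nat_lit 523604886) (nat_lit 244) (nat_lit 1) (nat_lit 243) (nat_lit 1) (nat_lit 251) (nat_lit 1) (nat_lit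 419) (nat_lit 395) (nat_lit 326)))))) (XT.nd (nat_lit 53820) (nat_lit 0) (nat_lit 20368) (XT.nd (nat_lit 156) (nat_lit 0) (nat_lit 0) (XT.nd (nat_lit 78) (nat_lit 608) (nat_lit 0) (XT.lf (nat_lit 532) (nat_lit 449860567) (nat_lit 0) (nat_lit 1246067643) (nat_lit 456) (nat_lit 1246067643) (nat_lit 244) (nat_lit 1) (nat_lit 237) (nat_lit 1) (nat_lit 243) (nat_lit 1) (nat_lit 420) (nat_lit 395) (nat_lit 325)) (XT.lf (nat_lit 608) (nat_lit 2781072295) (nat_lit 0) (nat_lit 68921127) (nat_lit 532) (nat_lit 68921127) (nat_lit 237) (nat_lit 1) (nat_lit 229) (nat_lit 1) (nat_lit 236) (nat_lit 1) (nat_lit 421) (nat_lit 395) (nat_lit 324))) (XT.nd (nat_lit 53586) (nat_lit 0) (nat_lit 20368) (XT.lf (nat_lit 76) (nat_lit 1084786838) (nat_lit 0) (nat_lit 726293742) (nat_lit 608) (nat_lit 1084786838) (nat_lit 230) (nat_lit 1) (nat_lit 229) (nat_lit 1) (nat_lit 237) (nat_lit 1) (nat_lit 422) (nat_lit 395) (nat_lit 323)) (XT.lf (nat_lit 1900) (nat_lit 925951210) (nat_lit 0) (nat_lit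 933694315) (nat_lit 1900) (nat_lit 925951210) (nat_lit 522) (nat_lit 1) (nat_lit 497) (nat_lit 0) (nat_lit 522) (nat_lit 0) (nat_lit 348) (nat_lit 396) (nat_lit 396)))) (XT.nd (nat_lit 156) (nat_lit 0) (nat_lit 76) (XT.nd (nat_lit 78) (nat_lit 0) (nat_lit 76) (XT.lf (nat_lit 1900) (nat_lit 3661350302) (nat_lit 76) (nat_lit 927551589) (nat_lit 0) (nat_lit 927551589) (nat_lit 522) (nat_lit 1) (nat_lit 498) (nat_lit 1) (nat_lit 497) (nat_lit 0) (nat_lit 349) (nat_lit 396) (nat_lit 395)) (XT.lf (nat_lit 1900) (nat_lit 1797740426) (nat_lit 0) (nat_lit 1866830534) (nat_lit 1824) (nat_lit 1797740426) (nat_lit 523) (nat_lit 1) (nat_lit 498) (nat_lit 1) (nat_lit 522) (nat_lit 1) (nat_lit 350) (nat_lit 396) (nat_lit 394))) (XT.nd (nat_lit 78) (nat_lit 0) (nat_lit 76) (XT.lf (nat_lit 1900) (nat_lit 3518621182) (nat_lit 76) (nat_lit 945184450) (nat_lit 0) (nat_lit 945184450) (nat_lit 523) (nat_lit 1) (nat_lit 499) (nat_lit 1) (nat_lit 498) (nat_lit 1) (nat_lit 351) (nat_lit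 396) (nat_lit 393)) (XT.nd (nat_lit 78) (nat_lit 0) (nat_lit 0) (XT.lf (nat_lit 1900) (nat_lit 1709983218) (nat_lit 0) (nat_lit 1936290954) (nat_lit 1824) (nat_lit 1709983218) (nat_lit 524) (nat_lit 1) (nat_lit 499) (nat_lit 1) (nat_lit 523) (nat_lit 1) (nat_lit 352) (nat_lit 396) (nat_lit 392)) (XT.lf (nat_lit 1900) (nat_lit 3310507341) (nat_lit 76) (nat_lit 996900775) (nat_lit 0) (nat_lit 996900775) (nat_lit 524) (nat_lit 1) (nat_lit 500) (nat_lit 1) (nat_lit 499) (nat_lit 1) (nat_lit 353) (nat_lit 396) (nat_lit 391))))))))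
noncomputable def ec44 : XT := (XT.nd (nat_lit 1404) (nat_lit 7904) (nat_lit 0) (XT.nd (nat_lit 702) (nat_lit 1368) (nat_lit 0) (XT.nd (nat_lit 312) (nat_lit 0) (nat_lit 152) (XT.nd (nat_lit 156) (nat_lit 0) (nat_lit 76) (XT.nd (nat_lit 78) (nat_lit 0) (nat_lit 0) (XT.lf (nat_lit 1900) (nat_lit 1590635306) (nat_lit 0) (nat_lit 2071678499) (nat_lit 1824) (nat_lit 1590635306) (nat_lit 525) (nat_lit 1) (nat_lit 500) (nat_lit 1) (nat_lit 524) (nat_lit 1) (nat_lit 354) (nat_lit 396) (nat_lit 390)) (XT.lf (nat_lit 1900) (nat_lit 3040938475) (nat_lit 76) (nat_lit 1080695333) (nat_lit 0) (nat_lit 1080695333) (nat_lit 525) (nat_lit 1) (nat_lit 501) (nat_lit 1) (nat_lit 500) (nat_lit 1) (nat_lit 355) (nat_lit 396) (nat_lit 389))) (XT.nd (nat_lit 78) (nat_lit 0) (nat_lit 0) (XT.lf (nat_lit 1900) (nat_lit 1441609640) (nat_lit 0) (nat_lit 2269087563) (nat_lit 1824) (nat_lit 1441609640) (nat_lit 526) (nat_lit 1) (nat_lit 501) (nat_lit 1) (nat_lit 525) (nat_lit 1) (nat_lit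 356) (nat_lit 396) (nat_lit 388)) (XT.lf (nat_lit 1900) (nat_lit 2713664414) (nat_lit 76) (nat_lit 1194654126) (nat_lit 0) (nat_lit 1194654126) (nat_lit 526) (nat_lit 1) (nat_lit 502) (nat_lit 1) (nat_lit 501) (nat_lit 1) (nat_lit 357) (nat_lit 396) (nat_lit 387)))) (XT.nd (nat_lit 156) (nat_lit 0) (nat_lit 76) (XT.nd (nat_lit 78) (nat_lit 0) (nat_lit 0) (XT.lf (nat_lit 1900) (nat_lit 1264731432) (nat_lit 0) (nat_lit 2524790583) (nat_lit 1824) (nat_lit 1264731432) (nat_lit 527) (nat_lit 1) (nat_lit 502) (nat_lit 1) (nat_lit 526) (nat_lit 1) (nat_lit 358) (nat_lit 396) (nat_lit 386)) (XT.lf (nat_lit 1900) (nat_lit 2332262645) (nat_lit 76) (nat_lit 1336950583) (nat_lit 0) (nat_lit 1336950583) (nat_lit 527) (nat_lit 1) (nat_lit 503) (nat_lit 1) (nat_lit 502) (nat_lit 1) (nat_lit 359) (nat_lit 396) (nat_lit 385))) (XT.nd (nat_lit 78) (nat_lit 0) (nat_lit 0) (XT.lf (nat_lit 1900) (nat_lit 1061741824) (nat_lit 0) (nat_lit 2835230609) (nat_lit 1824) (nat_lit 1061741824)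 (nat_lit 528) (nat_lit 1) (nat_lit 503) (nat_lit 1) (nat_lit 527) (nat_lit 1) (nat_lit 360) (nat_lit 396) (nat_lit 384)) (XT.nd (nat_lit 78) (nat_lit 0) (nat_lit 76) (XT.lf (nat_lit 1900) (nat_lit 1900145525) (nat_lit 76) (nat_lit 1505841910) (nat_lit 0) (nat_lit 1505841910) (nat_lit 528) (nat_lit 1) (nat_lit 504) (nat_lit 1) (nat_lit 503) (nat_lit 1) (nat_lit 361) (nat_lit 396) (nat_lit 383)) (XT.lf (nat_lit 1900) (nat_lit 834301417) (nat_lit 0) (nat_lit 3197014169) (nat_lit 1824) (nat_lit 834301417) (nat_lit 529) (nat_lit 1) (nat_lit 504) (nat_lit 1) (nat_lit 528) (nat_lit 1) (nat_lit 362) (nat_lit 396) (nat_lit 382)))))) (XT.nd (nat_lit 312) (nat_lit 1672) (nat_lit 0) (XT.nd (nat_lit 156) (nat_lit 0) (nat_lit 76) (XT.nd (nat_lit 78) (nat_lit 0) (nat_lit 76) (XT.lf (nat_lit 1900) (nat_lit 1420567210) (nat_lit 76) (nat_lit 1699665583) (nat_lit 0) (nat_lit 1699665583) (nat_lit 529) (nat_lit 1) (nat_lit 505) (nat_lit 1) (nat_lit 504) (nat_lit 1) (nat_lit 363)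 (nat_lit 396) (nat_lit 381)) (XT.lf (nat_lit 1900) (nat_lit 583993649) (nat_lit 0) (nat_lit 3606904429) (nat_lit 1824) (nat_lit 583993649) (nat_lit 530) (nat_lit 1) (nat_lit 505) (nat_lit 1) (nat_lit 529) (nat_lit 1) (nat_lit 364) (nat_lit 396) (nat_lit 380))) (XT.nd (nat_lit 78) (nat_lit 0) (nat_lit 76) (XT.lf (nat_lit 1900) (nat_lit 896630301) (nat_lit 76) (nat_lit 1916835987) (nat_lit 0) (nat_lit 1916835987) (nat_lit 530) (nat_lit 1) (nat_lit 506) (nat_lit 1) (nat_lit 505) (nat_lit 1) (nat_lit 365) (nat_lit 396) (nat_lit 379)) (XT.lf (nat_lit 1900) (nat_lit 312328039) (nat_lit 0) (nat_lit 4061814616) (nat_lit 1824) (nat_lit 312328039) (nat_lit 531) (nat_lit 1) (nat_lit 506) (nat_lit 1) (nat_lit 530) (nat_lit 1) (nat_lit 366) (nat_lit 396) (nat_lit 378)))) (XT.nd (nat_lit 156) (nat_lit 1824) (nat_lit 0) (XT.nd (nat_lit 78) (nat_lit 0) (nat_lit 76) (XT.lf (nat_lit 1900) (nat_lit 331292220) (nat_lit 76) (nat_lit 2155841183) (nat_lit 0) (nat_lit 2155841183) (nat_lit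 531) (nat_lit 1) (nat_lit 507) (nat_lit 1) (nat_lit 506) (nat_lit 1) (nat_lit 367) (nat_lit 396) (nat_lit 377)) (XT.lf (nat_lit 1900) (nat_lit 20743303) (nat_lit 0) (nat_lit 4558801720) (nat_lit 1824) (nat_lit 20743303) (nat_lit 532) (nat_lit 1) (nat_lit 507) (nat_lit 1) (nat_lit 531) (nat_lit 1) (nat_lit 368) (nat_lit 396) (nat_lit 376))) (XT.nd (nat_lit 78) (nat_lit 0) (nat_lit 0) (XT.lf (nat_lit 1976) (nat_lit 2144381240) (nat_lit 0) (nat_lit 269053087) (nat_lit 1900) (nat_lit 2144381240) (nat_lit 508) (nat_lit 1) (nat_lit 482) (nat_lit 1) (nat_lit 507) (nat_lit 1) (nat_lit 369) (nat_lit 396) (nat_lit 375)) (XT.nd (nat_lit 78) (nat_lit 0) (nat_lit 76) (XT.lf (nat_lit 1976) (nat_lit 3941158742) (nat_lit 76) (nat_lit 287485779) (nat_lit 0) (nat_lit 287485779) (nat_lit 508) (nat_lit 1) (nat_lit 483) (nat_lit 1) (nat_lit 482) (nat_lit 1) (nat_lit 370) (nat_lit 396) (nat_lit 374)) (XT.lf (nat_lit 1976) (nat_lit 1787135187) (nat_lit 0) (nat_lit 900480247) (nat_lit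 1900) (nat_lit 1787135187) (nat_lit 509) (nat_lit 1) (nat_lit 483) (nat_lit 1) (nat_lit 508) (nat_lit 1) (nat_lit 371) (nat_lit 396) (nat_lit 373))))))) (XT.nd (nat_lit 702) (nat_lit 4256) (nat_lit 0) (XT.nd (nat_lit 312) (nat_lit 2660) (nat_lit 0) (XT.nd (nat_lit 156) (nat_lit 1064) (nat_lit 0) (XT.nd (nat_lit 78) (nat_lit 0) (nat_lit 76) (XT.lf (nat_lit 1976) (nat_lit 3208651685) (nat_lit 76) (nat_lit 612707231) (nat_lit 0) (nat_lit 612707231) (nat_lit 509) (nat_lit 1) (nat_lit 484) (nat_lit 1) (nat_lit 483) (nat_lit 1) (nat_lit 372) (nat_lit 396) (nat_lit 372)) (XT.lf (nat_lit 76) (nat_lit 1414476320) (nat_lit 0) (nat_lit 1564810113) (nat_lit 1900) (nat_lit 1414476320) (nat_lit 485) (nat_lit 1) (nat_lit 484) (nat_lit 1) (nat_lit 509) (nat_lit 1) (nat_lit 373) (nat_lit 396) (nat_lit 371))) (XT.nd (nat_lit 78) (nat_lit 0) (nat_lit 0) (XT.lf (nat_lit 1216) (nat_lit 2446403871) (nat_lit 0) (nat_lit 953821946) (nat_lit 1140) (nat_lit 953821946) (nat_lit 485) (nat_lit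 1) (nat_lit 469) (nat_lit 1) (nat_lit 484) (nat_lit 1) (nat_lit 374) (nat_lit 396) (nat_lit 370)) (XT.lf (nat_lit 76) (nat_lit 1027577354) (nat_lit 0) (nat_lit 2259639117) (nat_lit 1216) (nat_lit 1027577354) (nat_lit 470) (nat_lit 1) (nat_lit 469) (nat_lit 1) (nat_lit 485) (nat_lit 1) (nat_lit 375) (nat_lit 396) (nat_lit 369)))) (XT.nd (nat_lit 156) (nat_lit 1748) (nat_lit 0) (XT.nd (nat_lit 78) (nat_lit 0) (nat_lit 0) (XT.lf (nat_lit 988) (nat_lit 1656711050) (nat_lit 0) (nat_lit 1309653515) (nat_lit 912) (nat_lit 1309653515) (nat_lit 470) (nat_lit 1) (nat_lit 457) (nat_lit 1) (nat_lit 469) (nat_lit 1) (nat_lit 376) (nat_lit 396) (nat_lit 368)) (XT.lf (nat_lit 76) (nat_lit 627554208) (nat_lit 0) (nat_lit 2982679099) (nat_lit 988) (nat_lit 627554208) (nat_lit 458) (nat_lit 1) (nat_lit 457) (nat_lit 1) (nat_lit 470) (nat_lit 1) (nat_lit 377) (nat_lit 396) (nat_lit 367))) (XT.nd (nat_lit 78) (nat_lit 836) (nat_lit 0) (XT.lf (nat_lit 988) (nat_lit 841757457) (nat_lit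 0) (nat_lit 1679082175) (nat_lit 912) (nat_lit 1679082175) (nat_lit 458) (nat_lit 1) (nat_lit 445) (nat_lit 1) (nat_lit 457) (nat_lit 1) (nat_lit 378) (nat_lit 396) (nat_lit 366)) (XT.nd (nat_lit 78) (nat_lit 836) (nat_lit 0) (XT.lf (nat_lit 76) (nat_lit 215468432) (nat_lit 0) (nat_lit 3731752395) (nat_lit 988) (nat_lit 215468432) (nat_lit 446) (nat_lit 1) (nat_lit 445) (nat_lit 1) (nat_lit 458) (nat_lit 1) (nat_lit 379) (nat_lit 396) (nat_lit 365)) (XT.lf (nat_lit 912) (nat_lit 3620575) (nat_lit 0) (nat_lit 2061042397) (nat_lit 836) (nat_lit 2061042397) (nat_lit 446) (nat_lit 1) (nat_lit 434) (nat_lit 1) (nat_lit 445) (nat_lit 1) (nat_lit 380) (nat_lit 396) (nat_lit 364)))))) (XT.nd (nat_lit 312) (nat_lit 2432) (nat_lit 0) (XT.nd (nat_lit 156) (nat_lit 836) (nat_lit 0) (XT.nd (nat_lit 78) (nat_lit 0) (nat_lit 0) (XT.lf (nat_lit 988) (nat_lit 3676729519) (nat_lit 0) (nat_lit 206304217) (nat_lit 912) (nat_lit 206304217) (nat_lit 434) (nat_lit 1) (nat_lit 421)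 (nat_lit 1) (nat_lit 433) (nat_lit 1) (nat_lit 381) (nat_lit 396) (nat_lit 363)) (XT.lf (nat_lit 76) (nat_lit 1604352212) (nat_lit 0) (nat_lit 844501304) (nat_lit 988) (nat_lit 1604352212) (nat_lit 422) (nat_lit 1) (nat_lit 421) (nat_lit 1) (nat_lit 434) (nat_lit 1) (nat_lit 382) (nat_lit 396) (nat_lit 362))) (XT.nd (nat_lit 78) (nat_lit 0) (nat_lit 0) (XT.lf (nat_lit 912) (nat_lit 2744300362) (nat_lit 0) (nat_lit 636686338) (nat_lit 836) (nat_lit 636686338) (nat_lit 422) (nat_lit 1) (nat_lit 410) (nat_lit 1) (nat_lit 421) (nat_lit 1) (nat_lit 383) (nat_lit 396) (nat_lit 361)) (XT.lf (nat_lit 76) (nat_lit 1135414044) (nat_lit 0) (nat_lit 1711652624) (nat_lit 912) (nat_lit 1135414044) (nat_lit 411) (nat_lit 1) (nat_lit 410) (nat_lit 1) (nat_lit 422) (nat_lit 1) (nat_lit 384) (nat_lit 396) (nat_lit 360)))) (XT.nd (nat_lit 156) (nat_lit 1596) (nat_lit 0) (XT.nd (nat_lit 78) (nat_lit 0) (nat_lit 0) (XT.lf (nat_lit 912) (nat_lit 1795378711) (nat_lit 0) (nat_lit 1076189459)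 (nat_lit 836) (nat_lit 1076189459) (nat_lit 411) (nat_lit 1) (nat_lit 399) (nat_lit 1) (nat_lit 410) (nat_lit 1) (nat_lit 385) (nat_lit 396) (nat_lit 359)) (XT.lf (nat_lit 76) (nat_lit 658680972) (nat_lit 0) (nat_lit 2596120310) (nat_lit 912) (nat_lit 658680972) (nat_lit 400) (nat_lit 1) (nat_lit 399) (nat_lit 1) (nat_lit 411) (nat_lit 1) (nat_lit 386) (nat_lit 396) (nat_lit 358))) (XT.nd (nat_lit 78) (nat_lit 836) (nat_lit 0) (XT.lf (nat_lit 836) (nat_lit 831638319) (nat_lit 0) (nat_lit 1523952866) (nat_lit 760) (nat_lit 1523952866) (nat_lit 400) (nat_lit 1) (nat_lit 389) (nat_lit 1) (nat_lit 399) (nat_lit 1) (nat_lit 387) (nat_lit 396) (nat_lit 357)) (XT.nd (nat_lit 78) (nat_lit 836) (nat_lit 0) (XT.lf (nat_lit 76) (nat_lit 174965573) (nat_lit 0) (nat_lit 3496232164) (nat_lit 836) (nat_lit 174965573) (nat_lit 390) (nat_lit 1) (nat_lit 389) (nat_lit 1) (nat_lit 400) (nat_lit 1) (nat_lit 388) (nat_lit 396) (nat_lit 356)) (XT.lf (nat_lit 76) (nat_lit 1834770479)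 (nat_lit 0) (nat_lit 143426254) (nat_lit 836) (nat_lit 1834770479) (nat_lit 379) (nat_lit 1) (nat_lit 378) (nat_lit 1) (nat_lit 389) (nat_lit 1) (nat_lit 389) (nat_lit 396) (nat_lit 355))))))))
noncomputable def ec45 : XT := (XT.nd (nat_lit 1404) (nat_lit 5396) (nat_lit 0) (XT.nd (nat_lit 702) (nat_lit 3192) (nat_lit 0) (XT.nd (nat_lit 312) (nat_lit 2128) (nat_lit 0) (XT.nd (nat_lit 156) (nat_lit 760) (nat_lit 0) (XT.nd (nat_lit 78) (nat_lit 0) (nat_lit 0) (XT.lf (nat_lit 836) (nat_lit 3154536085) (nat_lit 0) (nat_lit 312889017) (nat_lit 760) (nat_lit 312889017) (nat_lit 379) (nat_lit 1) (nat_lit 368) (nat_lit 1) (nat_lit 378) (nat_lit 1) (nat_lit 390) (nat_lit 396) (nat_lit 354)) (XT.lf (nat_lit 76) (nat_lit 1314369189) (nat_lit 0) (nat_lit 1119153279) (nat_lit 836) (nat_lit 1314369189) (nat_lit 369) (nat_lit 1) (nat_lit 368) (nat_lit 1) (nat_lit 379) (nat_lit 1) (nat_lit 391) (nat_lit 396) (nat_lit 353))) (XT.nd (nat_lit 78) (nat_lit 0) (nat_lit 0) (XT.lf (nat_lit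 836) (nat_lit 2105887581) (nat_lit 0) (nat_lit 805036489) (nat_lit 760) (nat_lit 805036489) (nat_lit 369) (nat_lit 1) (nat_lit 358) (nat_lit 1) (nat_lit 368) (nat_lit 1) (nat_lit 392) (nat_lit 396) (nat_lit 352)) (XT.lf (nat_lit 76) (nat_lit 789671242) (nat_lit 0) (nat_lit 2105039622) (nat_lit 836) (nat_lit 789671242) (nat_lit 359) (nat_lit 1) (nat_lit 358) (nat_lit 1) (nat_lit 369) (nat_lit 1) (nat_lit 393) (nat_lit 396) (nat_lit 351)))) (XT.nd (nat_lit 156) (nat_lit 1444) (nat_lit 0) (XT.nd (nat_lit 78) (nat_lit 0) (nat_lit 0) (XT.lf (nat_lit 760) (nat_lit 1049272856) (nat_lit 0) (nat_lit 1301939217) (nat_lit 684) (nat_lit 1301939217) (nat_lit 359) (nat_lit 1) (nat_lit 349) (nat_lit 1) (nat_lit 358) (nat_lit 1) (nat_lit 394) (nat_lit 396) (nat_lit 350)) (XT.lf (nat_lit 76) (nat_lit 261323961) (nat_lit 0) (nat_lit 3099748667) (nat_lit 760) (nat_lit 261323961) (nat_lit 350) (nat_lit 1) (nat_lit 349) (nat_lit 1) (nat_lit 359) (nat_lit 1) (nat_lit 395) (nat_lit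 396) (nat_lit 349))) (XT.nd (nat_lit 78) (nat_lit 684) (nat_lit 0) (XT.lf (nat_lit 76) (nat_lit 1788991657) (nat_lit 0) (nat_lit 13859922) (nat_lit 760) (nat_lit 1788991657) (nat_lit 340) (nat_lit 1) (nat_lit 339) (nat_lit 1) (nat_lit 349) (nat_lit 1) (nat_lit 396) (nat_lit 396) (nat_lit 348)) (XT.nd (nat_lit 78) (nat_lit 0) (nat_lit 0) (XT.lf (nat_lit 760) (nat_lit 3025187310) (nat_lit 0) (nat_lit 268283175) (nat_lit 684) (nat_lit 268283175) (nat_lit 340) (nat_lit 1) (nat_lit 330) (nat_lit 1) (nat_lit 339) (nat_lit 1) (nat_lit 397) (nat_lit 396) (nat_lit 347)) (XT.lf (nat_lit 76) (nat_lit 1231598044) (nat_lit 0) (nat_lit 1068665155) (nat_lit 760) (nat_lit 1231598044) (nat_lit 331) (nat_lit 1) (nat_lit 330) (nat_lit 1) (nat_lit 340) (nat_lit 1) (nat_lit 398) (nat_lit 396) (nat_lit 346)))))) (XT.nd (nat_lit 312) (nat_lit 1900) (nat_lit 0) (XT.nd (nat_lit 156) (nat_lit 608) (nat_lit 0) (XT.nd (nat_lit 78) (nat_lit 0) (nat_lit 0) (XT.lf (nat_lit 760) (nat_lit 1905193613)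 (nat_lit 0) (nat_lit 798611742) (nat_lit 684) (nat_lit 798611742) (nat_lit 331) (nat_lit 1) (nat_lit 321) (nat_lit 1) (nat_lit 330) (nat_lit 1) (nat_lit 399) (nat_lit 396) (nat_lit 345)) (XT.lf (nat_lit 76) (nat_lit 672757592) (nat_lit 0) (nat_lit 2127787707) (nat_lit 760) (nat_lit 672757592) (nat_lit 322) (nat_lit 1) (nat_lit 321) (nat_lit 1) (nat_lit 331) (nat_lit 1) (nat_lit 400) (nat_lit 396) (nat_lit 344))) (XT.nd (nat_lit 78) (nat_lit 0) (nat_lit 0) (XT.lf (nat_lit 684) (nat_lit 782812241) (nat_lit 0) (nat_lit 1330836415) (nat_lit 608) (nat_lit 1330836415) (nat_lit 322) (nat_lit 1) (nat_lit 313) (nat_lit 1) (nat_lit 321) (nat_lit 1) (nat_lit 401) (nat_lit 396) (nat_lit 343)) (XT.lf (nat_lit 76) (nat_lit 112979250) (nat_lit 0) (nat_lit 3190172154) (nat_lit 684) (nat_lit 112979250) (nat_lit 314) (nat_lit 1) (nat_lit 313) (nat_lit 1) (nat_lit 322) (nat_lit 1) (nat_lit 402) (nat_lit 396) (nat_lit 342)))) (XT.nd (nat_lit 156) (nat_lit 608) (nat_lit 0) (XT.nd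 (nat_lit 78) (nat_lit 608) (nat_lit 0) (XT.lf (nat_lit 76) (nat_lit 1525691851) (nat_lit 0) (nat_lit 336492701) (nat_lit 684) (nat_lit 1525691851) (nat_lit 305) (nat_lit 1) (nat_lit 304) (nat_lit 1) (nat_lit 313) (nat_lit 1) (nat_lit 403) (nat_lit 396) (nat_lit 341)) (XT.lf (nat_lit 684) (nat_lit 2471446634) (nat_lit 0) (nat_lit 444314194) (nat_lit 608) (nat_lit 444314194) (nat_lit 305) (nat_lit 1) (nat_lit 296) (nat_lit 1) (nat_lit 304) (nat_lit 1) (nat_lit 404) (nat_lit 396) (nat_lit 340))) (XT.nd (nat_lit 78) (nat_lit 608) (nat_lit 0) (XT.lf (nat_lit 76) (nat_lit 943256842) (nat_lit 0) (nat_lit 1445984158) (nat_lit 684) (nat_lit 943256842) (nat_lit 297) (nat_lit 1) (nat_lit 296) (nat_lit 1) (nat_lit 305) (nat_lit 1) (nat_lit 405) (nat_lit 396) (nat_lit 339)) (XT.nd (nat_lit 78) (nat_lit 0) (nat_lit 0) (XT.lf (nat_lit 684) (nat_lit 1303536956) (nat_lit 0) (nat_lit 1000868953) (nat_lit 608) (nat_lit 1000868953) (nat_lit 297) (nat_lit 1) (nat_lit 288) (nat_lit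 1) (nat_lit 296) (nat_lit 1) (nat_lit 406) (nat_lit 396) (nat_lit 338)) (XT.lf (nat_lit 76) (nat_lit 361679224) (nat_lit 0) (nat_lit 2555057947) (nat_lit 684) (nat_lit 361679224) (nat_lit 289) (nat_lit 1) (nat_lit 288) (nat_lit 1) (nat_lit 297) (nat_lit 1) (nat_lit 407) (nat_lit 396) (nat_lit 337))))))) (XT.nd (nat_lit 702) (nat_lit 1976) (nat_lit 0) (XT.nd (nat_lit 312) (nat_lit 1672) (nat_lit 0) (XT.nd (nat_lit 156) (nat_lit 532) (nat_lit 0) (XT.nd (nat_lit 78) (nat_lit 684) (nat_lit 0) (XT.lf (nat_lit 608) (nat_lit 137746398) (nat_lit 0) (nat_lit 1557004284) (nat_lit 532) (nat_lit 1557004284) (nat_lit 289) (nat_lit 1) (nat_lit 281) (nat_lit 1) (nat_lit 288) (nat_lit 1) (nat_lit 408) (nat_lit 396) (nat_lit 336)) (XT.lf (nat_lit 684) (nat_lit 2791066127) (nat_lit 0) (nat_lit 217209173) (nat_lit 608) (nat_lit 217209173) (nat_lit 281) (nat_lit 1) (nat_lit 272) (nat_lit 1) (nat_lit 280) (nat_lit 1) (nat_lit 409) (nat_lit 396) (nat_lit 335))) (XT.nd (nat_lit 78)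 (nat_lit 532) (nat_lit 0) (XT.lf (nat_lit 76) (nat_lit 1093817320) (nat_lit 0) (nat_lit 1011714484) (nat_lit 684) (nat_lit 1093817320) (nat_lit 273) (nat_lit 1) (nat_lit 272) (nat_lit 1) (nat_lit 281) (nat_lit 1) (nat_lit 410) (nat_lit 396) (nat_lit 334)) (XT.lf (nat_lit 608) (nat_lit 1589379128) (nat_lit 0) (nat_lit 792108297) (nat_lit 532) (nat_lit 792108297) (nat_lit 273) (nat_lit 1) (nat_lit 265) (nat_lit 1) (nat_lit 272) (nat_lit 1) (nat_lit 411) (nat_lit 396) (nat_lit 333)))) (XT.nd (nat_lit 156) (nat_lit 1140) (nat_lit 0) (XT.nd (nat_lit 78) (nat_lit 532) (nat_lit 0) (XT.lf (nat_lit 76) (nat_lit 496164213) (nat_lit 0) (nat_lit 2155812477) (nat_lit 608) (nat_lit 496164213) (nat_lit 266) (nat_lit 1) (nat_lit 265) (nat_lit 1) (nat_lit 273) (nat_lit 1) (nat_lit 412) (nat_lit 396) (nat_lit 332)) (XT.lf (nat_lit 608) (nat_lit 392801624) (nat_lit 0) (nat_lit 1365052738) (nat_lit 532) (nat_lit 1365052738) (nat_lit 266) (nat_lit 1) (nat_lit 258) (nat_lit 1) (nat_lit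 265) (nat_lit 1) (nat_lit 413) (nat_lit 396) (nat_lit 331))) (XT.nd (nat_lit 78) (nat_lit 532) (nat_lit 0) (XT.lf (nat_lit 608) (nat_lit 2901794313) (nat_lit 0) (nat_lit 98135637) (nat_lit 532) (nat_lit 98135637) (nat_lit 258) (nat_lit 1) (nat_lit 250) (nat_lit 1) (nat_lit 257) (nat_lit 1) (nat_lit 414) (nat_lit 396) (nat_lit 330)) (XT.nd (nat_lit 78) (nat_lit 532) (nat_lit 0) (XT.lf (nat_lit 76) (nat_lit 1142850451) (nat_lit 0) (nat_lit 787583449) (nat_lit 608) (nat_lit 1142850451) (nat_lit 251) (nat_lit 1) (nat_lit 250) (nat_lit 1) (nat_lit 258) (nat_lit 1) (nat_lit 415) (nat_lit 396) (nat_lit 329)) (XT.lf (nat_lit 608) (nat_lit 1676506284) (nat_lit 0) (nat_lit 686190569) (nat_lit 532) (nat_lit 686190569) (nat_lit 251) (nat_lit 1) (nat_lit 243) (nat_lit 1) (nat_lit 250) (nat_lit 1) (nat_lit 416) (nat_lit 396) (nat_lit 328)))))) (XT.nd (nat_lit 312) (nat_lit 912) (nat_lit 0) (XT.nd (nat_lit 156) (nat_lit 608) (nat_lit 0) (XT.nd (nat_lit 78) (nat_lit 456) (nat_lit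 0) (XT.lf (nat_lit 76) (nat_lit 534076984) (nat_lit 0) (nat_lit 1956597198) (nat_lit 608) (nat_lit 534076984) (nat_lit 244) (nat_lit 1) (nat_lit 243) (nat_lit 1) (nat_lit 251) (nat_lit 1) (nat_lit 417) (nat_lit 396) (nat_lit 327)) (XT.lf (nat_lit 532) (nat_lit 458857778) (nat_lit 0) (nat_lit 1270988996) (nat_lit 456) (nat_lit 1270988996) (nat_lit 244) (nat_lit 1) (nat_lit 237) (nat_lit 1) (nat_lit 243) (nat_lit 1) (nat_lit 418) (nat_lit 396) (nat_lit 326))) (XT.nd (nat_lit 78) (nat_lit 0) (nat_lit 0) (XT.lf (nat_lit 608) (nat_lit 2836693741) (nat_lit 0) (nat_lit 70299549) (nat_lit 532) (nat_lit 70299549) (nat_lit 237) (nat_lit 1) (nat_lit 229) (nat_lit 1) (nat_lit 236) (nat_lit 1) (nat_lit 419) (nat_lit 396) (nat_lit 325)) (XT.lf (nat_lit 76) (nat_lit 1106482574) (nat_lit 0) (nat_lit 740819617) (nat_lit 608) (nat_lit 1106482574) (nat_lit 230) (nat_lit 1) (nat_lit 229) (nat_lit 1) (nat_lit 237) (nat_lit 1) (nat_lit 420) (nat_lit 396) (nat_lit 324)))) (XT.nd (nat_lit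 156) (nat_lit 456) (nat_lit 0) (XT.nd (nat_lit 78) (nat_lit 0) (nat_lit 0) (XT.lf (nat_lit 532) (nat_lit 1596592717) (nat_lit 0) (nat_lit 667024676) (nat_lit 456) (nat_lit 667024676) (nat_lit 230) (nat_lit 1) (nat_lit 223) (nat_lit 1) (nat_lit 229) (nat_lit 1) (nat_lit 421) (nat_lit 396) (nat_lit 323)) (XT.lf (nat_lit 76) (nat_lit 490866278) (nat_lit 0) (nat_lit 1926013271) (nat_lit 532) (nat_lit 490866278) (nat_lit 224) (nat_lit 1) (nat_lit 223) (nat_lit 1) (nat_lit 230) (nat_lit 1) (nat_lit 422) (nat_lit 396) (nat_lit 322))) (XT.nd (nat_lit 53352) (nat_lit 0) (nat_lit 21280) (XT.lf (nat_lit 532) (nat_lit 366257339) (nat_lit 0) (nat_lit 1259396370) (nat_lit 456) (nat_lit 1259396370) (nat_lit 224) (nat_lit 1) (nat_lit 217) (nat_lit 1) (nat_lit 223) (nat_lit 1) (nat_lit 423) (nat_lit 396) (nat_lit 321)) (XT.nd (nat_lit 78) (nat_lit 0) (nat_lit 0) (XT.lf (nat_lit 1900) (nat_lit 944470234) (nat_lit 0) (nat_lit 952368202) (nat_lit 1900) (nat_lit 944470234) (nat_lit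 522) (nat_lit 1) (nat_lit 497) (nat_lit 0) (nat_lit 522) (nat_lit 0) (nat_lit 346) (nat_lit 397) (nat_lit 397)) (XT.lf (nat_lit 1900) (nat_lit 3734577308) (nat_lit 76) (nat_lit 946102621) (nat_lit 0) (nat_lit 946102621) (nat_lit 522) (nat_lit 1) (nat_lit 498) (nat_lit 1) (nat_lit 497) (nat_lit 0) (nat_lit 347) (nat_lit 397) (nat_lit 396))))))))
noncomputable def ec46 : XT := (XT.nd (nat_lit 1404) (nat_lit 7524) (nat_lit 0) (XT.nd (nat_lit 702) (nat_lit 0) (nat_lit 304) (XT.nd (nat_lit 312) (nat_lit 0) (nat_lit 152) (XT.nd (nat_lit 156) (nat_lit 0) (nat_lit 76) (XT.nd (nat_lit 78) (nat_lit 0) (nat_lit 0) (XT.lf (nat_lit 1900) (nat_lit 1833695235) (nat_lit 0) (nat_lit 1904167144) (nat_lit 1824) (nat_lit 1833695235) (nat_lit 523) (nat_lit 1) (nat_lit 498) (nat_lit 1) (nat_lit 522) (nat_lit 1) (nat_lit 348) (nat_lit 397) (nat_lit 395)) (XT.lf (nat_lit 1900) (nat_lit 3588993606) (nat_lit 76) (nat_lit 964088139) (nat_lit 0) (nat_lit 964088139) (nat_lit 523) (nat_lit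 1) (nat_lit 499) (nat_lit 1) (nat_lit 498) (nat_lit 1) (nat_lit 349) (nat_lit 397) (nat_lit 394))) (XT.nd (nat_lit 78) (nat_lit 0) (nat_lit 0) (XT.lf (nat_lit 1900) (nat_lit 1744182882) (nat_lit 0) (nat_lit 1975016773) (nat_lit 1824) (nat_lit 1744182882) (nat_lit 524) (nat_lit 1) (nat_lit 499) (nat_lit 1) (nat_lit 523) (nat_lit 1) (nat_lit 350) (nat_lit 397) (nat_lit 393)) (XT.lf (nat_lit 1900) (nat_lit 3376717488) (nat_lit 76) (nat_lit 1016838791) (nat_lit 0) (nat_lit 1016838791) (nat_lit 524) (nat_lit 1) (nat_lit 500) (nat_lit 1) (nat_lit 499) (nat_lit 1) (nat_lit 351) (nat_lit 397) (nat_lit 392)))) (XT.nd (nat_lit 156) (nat_lit 0) (nat_lit 76) (XT.nd (nat_lit 78) (nat_lit 0) (nat_lit 0) (XT.lf (nat_lit 1900) (nat_lit 1622448012) (nat_lit 0) (nat_lit 2113112069) (nat_lit 1824) (nat_lit 1622448012) (nat_lit 525) (nat_lit 1) (nat_lit 500) (nat_lit 1) (nat_lit 524) (nat_lit 1) (nat_lit 352) (nat_lit 397) (nat_lit 391)) (XT.lf (nat_lit 1900) (nat_lit 3101757244)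 (nat_lit 76) (nat_lit 1102309240) (nat_lit 0) (nat_lit 1102309240) (nat_lit 525) (nat_lit 1) (nat_lit 501) (nat_lit 1) (nat_lit 500) (nat_lit 1) (nat_lit 353) (nat_lit 397) (nat_lit 390))) (XT.nd (nat_lit 78) (nat_lit 0) (nat_lit 0) (XT.lf (nat_lit 1900) (nat_lit 1470441833) (nat_lit 0) (nat_lit 2314469314) (nat_lit 1824) (nat_lit 1470441833) (nat_lit 526) (nat_lit 1) (nat_lit 501) (nat_lit 1) (nat_lit 525) (nat_lit 1) (nat_lit 354) (nat_lit 397) (nat_lit 389)) (XT.nd (nat_lit 78) (nat_lit 0) (nat_lit 76) (XT.lf (nat_lit 1900) (nat_lit 2767937702) (nat_lit 76) (nat_lit 1218547209) (nat_lit 0) (nat_lit 1218547209) (nat_lit 526) (nat_lit 1) (nat_lit 502) (nat_lit 1) (nat_lit 501) (nat_lit 1) (nat_lit 355) (nat_lit 397) (nat_lit 388)) (XT.lf (nat_lit 1900) (nat_lit 1290026060) (nat_lit 0) (nat_lit 2575286395) (nat_lit 1824) (nat_lit 1290026060) (nat_lit 527) (nat_lit 1) (nat_lit 502) (nat_lit 1) (nat_lit 526) (nat_lit 1) (nat_lit 356) (nat_lit 397) (nat_lit 387))))))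 (XT.nd (nat_lit 312) (nat_lit 0) (nat_lit 152) (XT.nd (nat_lit 156) (nat_lit 0) (nat_lit 76) (XT.nd (nat_lit 78) (nat_lit 0) (nat_lit 76) (XT.lf (nat_lit 1900) (nat_lit 2378907897) (nat_lit 76) (nat_lit 1363689595) (nat_lit 0) (nat_lit 1363689595) (nat_lit 527) (nat_lit 1) (nat_lit 503) (nat_lit 1) (nat_lit 502) (nat_lit 1) (nat_lit 357) (nat_lit 397) (nat_lit 386)) (XT.lf (nat_lit 1900) (nat_lit 1082976660) (nat_lit 0) (nat_lit 2891935221) (nat_lit 1824) (nat_lit 1082976660) (nat_lit 528) (nat_lit 1) (nat_lit 503) (nat_lit 1) (nat_lit 527) (nat_lit 1) (nat_lit 358) (nat_lit 397) (nat_lit 385))) (XT.nd (nat_lit 78) (nat_lit 0) (nat_lit 76) (XT.lf (nat_lit 1900) (nat_lit 1938148435) (nat_lit 76) (nat_lit 1535958748) (nat_lit 0) (nat_lit 1535958748) (nat_lit 528) (nat_lit 1) (nat_lit 504) (nat_lit 1) (nat_lit 503) (nat_lit 1) (nat_lit 359) (nat_lit 397) (nat_lit 384)) (XT.lf (nat_lit 1900) (nat_lit 850987446) (nat_lit 0) (nat_lit 3260954453) (nat_lit 1824) (nat_lit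 850987446) (nat_lit 529) (nat_lit 1) (nat_lit 504) (nat_lit 1) (nat_lit 528) (nat_lit 1) (nat_lit 360) (nat_lit 397) (nat_lit 383)))) (XT.nd (nat_lit 156) (nat_lit 0) (nat_lit 76) (XT.nd (nat_lit 78) (nat_lit 0) (nat_lit 76) (XT.lf (nat_lit 1900) (nat_lit 1448978555) (nat_lit 76) (nat_lit 1733658895) (nat_lit 0) (nat_lit 1733658895) (nat_lit 529) (nat_lit 1) (nat_lit 505) (nat_lit 1) (nat_lit 504) (nat_lit 1) (nat_lit 361) (nat_lit 397) (nat_lit 382)) (XT.lf (nat_lit 1900) (nat_lit 595673522) (nat_lit 0) (nat_lit 3679042517) (nat_lit 1824) (nat_lit 595673522) (nat_lit 530) (nat_lit 1) (nat_lit 505) (nat_lit 1) (nat_lit 529) (nat_lit 1) (nat_lit 362) (nat_lit 397) (nat_lit 381))) (XT.nd (nat_lit 78) (nat_lit 0) (nat_lit 76) (XT.lf (nat_lit 1900) (nat_lit 914562907) (nat_lit 76) (nat_lit 1955172707) (nat_lit 0) (nat_lit 1955172707) (nat_lit 530) (nat_lit 1) (nat_lit 506) (nat_lit 1) (nat_lit 505) (nat_lit 1) (nat_lit 363) (nat_lit 397) (nat_lit 380)) (XT.nd (nat_lit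 78) (nat_lit 0) (nat_lit 0) (XT.lf (nat_lit 1900) (nat_lit 318574600) (nat_lit 0) (nat_lit 4143050908) (nat_lit 1824) (nat_lit 318574600) (nat_lit 531) (nat_lit 1) (nat_lit 506) (nat_lit 1) (nat_lit 530) (nat_lit 1) (nat_lit 364) (nat_lit 397) (nat_lit 379)) (XT.lf (nat_lit 1900) (nat_lit 337918065) (nat_lit 76) (nat_lit 2198958007) (nat_lit 0) (nat_lit 2198958007) (nat_lit 531) (nat_lit 1) (nat_lit 507) (nat_lit 1) (nat_lit 506) (nat_lit 1) (nat_lit 365) (nat_lit 397) (nat_lit 378))))))) (XT.nd (nat_lit 702) (nat_lit 4408) (nat_lit 0) (XT.nd (nat_lit 312) (nat_lit 1900) (nat_lit 0) (XT.nd (nat_lit 156) (nat_lit 0) (nat_lit 0) (XT.nd (nat_lit 78) (nat_lit 1900) (nat_lit 0) (XT.lf (nat_lit 1900) (nat_lit 21158169) (nat_lit 0) (nat_lit 4649977754) (nat_lit 1824) (nat_lit 21158169) (nat_lit 532) (nat_lit 1) (nat_lit 507) (nat_lit 1) (nat_lit 531) (nat_lit 1) (nat_lit 366) (nat_lit 397) (nat_lit 377)) (XT.lf (nat_lit 1976) (nat_lit 2187268865) (nat_lit 0) (nat_lit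 274434148) (nat_lit 1900) (nat_lit 2187268865) (nat_lit 508) (nat_lit 1) (nat_lit 482) (nat_lit 1) (nat_lit 507) (nat_lit 1) (nat_lit 367) (nat_lit 397) (nat_lit 376))) (XT.nd (nat_lit 78) (nat_lit 0) (nat_lit 76) (XT.lf (nat_lit 1976) (nat_lit 4019981917) (nat_lit 76) (nat_lit 293235495) (nat_lit 0) (nat_lit 293235495) (nat_lit 508) (nat_lit 1) (nat_lit 483) (nat_lit 1) (nat_lit 482) (nat_lit 1) (nat_lit 368) (nat_lit 397) (nat_lit 375)) (XT.lf (nat_lit 1976) (nat_lit 1822877891) (nat_lit 0) (nat_lit 918489852) (nat_lit 1900) (nat_lit 1822877891) (nat_lit 509) (nat_lit 1) (nat_lit 483) (nat_lit 1) (nat_lit 508) (nat_lit 1) (nat_lit 369) (nat_lit 397) (nat_lit 374)))) (XT.nd (nat_lit 156) (nat_lit 1976) (nat_lit 0) (XT.nd (nat_lit 78) (nat_lit 0) (nat_lit 76) (XT.lf (nat_lit 1976) (nat_lit 3272824719) (nat_lit 76) (nat_lit 624961375) (nat_lit 0) (nat_lit 624961375) (nat_lit 509) (nat_lit 1) (nat_lit 484) (nat_lit 1) (nat_lit 483) (nat_lit 1) (nat_lit 370) (nat_lit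 397) (nat_lit 373)) (XT.lf (nat_lit 76) (nat_lit 1442765846) (nat_lit 0) (nat_lit 1596106316) (nat_lit 1900) (nat_lit 1442765846) (nat_lit 485) (nat_lit 1) (nat_lit 484) (nat_lit 1) (nat_lit 509) (nat_lit 1) (nat_lit 371) (nat_lit 397) (nat_lit 372))) (XT.nd (nat_lit 78) (nat_lit 912) (nat_lit 0) (XT.lf (nat_lit 1216) (nat_lit 2495331948) (nat_lit 0) (nat_lit 972898385) (nat_lit 1140) (nat_lit 972898385) (nat_lit 485) (nat_lit 1) (nat_lit 469) (nat_lit 1) (nat_lit 484) (nat_lit 1) (nat_lit 372) (nat_lit 397) (nat_lit 371)) (XT.nd (nat_lit 78) (nat_lit 912) (nat_lit 0) (XT.lf (nat_lit 76) (nat_lit 1048128901) (nat_lit 0) (nat_lit 2304831900) (nat_lit 1216) (nat_lit 1048128901) (nat_lit 470) (nat_lit 1) (nat_lit 469) (nat_lit 1) (nat_lit 485) (nat_lit 1) (nat_lit 373) (nat_lit 397) (nat_lit 370)) (XT.lf (nat_lit 988) (nat_lit 1689845271) (nat_lit 0) (nat_lit 1335846585) (nat_lit 912) (nat_lit 1335846585) (nat_lit 470) (nat_lit 1) (nat_lit 457) (nat_lit 1) (nat_lit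 469) (nat_lit 1) (nat_lit 374) (nat_lit 397) (nat_lit 369)))))) (XT.nd (nat_lit 312) (nat_lit 2660) (nat_lit 0) (XT.nd (nat_lit 156) (nat_lit 836) (nat_lit 0) (XT.nd (nat_lit 78) (nat_lit 912) (nat_lit 0) (XT.lf (nat_lit 76) (nat_lit 640105292) (nat_lit 0) (nat_lit 3042332681) (nat_lit 988) (nat_lit 640105292) (nat_lit 458) (nat_lit 1) (nat_lit 457) (nat_lit 1) (nat_lit 470) (nat_lit 1) (nat_lit 375) (nat_lit 397) (nat_lit 368)) (XT.lf (nat_lit 988) (nat_lit 858592606) (nat_lit 0) (nat_lit 1712663819) (nat_lit 912) (nat_lit 1712663819) (nat_lit 458) (nat_lit 1) (nat_lit 445) (nat_lit 1) (nat_lit 457) (nat_lit 1) (nat_lit 376) (nat_lit 397) (nat_lit 367))) (XT.nd (nat_lit 78) (nat_lit 836) (nat_lit 0) (XT.lf (nat_lit 76) (nat_lit 219777800) (nat_lit 0) (nat_lit 3806387443) (nat_lit 988) (nat_lit 219777800) (nat_lit 446) (nat_lit 1) (nat_lit 445) (nat_lit 1) (nat_lit 458) (nat_lit 1) (nat_lit 377) (nat_lit 397) (nat_lit 366)) (XT.lf (nat_lit 912) (nat_lit 3692986)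 (nat_lit 0) (nat_lit 2102263244) (nat_lit 836) (nat_lit 2102263244) (nat_lit 446) (nat_lit 1) (nat_lit 434) (nat_lit 1) (nat_lit 445) (nat_lit 1) (nat_lit 378) (nat_lit 397) (nat_lit 365)))) (XT.nd (nat_lit 156) (nat_lit 1672) (nat_lit 0) (XT.nd (nat_lit 78) (nat_lit 0) (nat_lit 0) (XT.lf (nat_lit 988) (nat_lit 3750264109) (nat_lit 0) (nat_lit 210430301) (nat_lit 912) (nat_lit 210430301) (nat_lit 434) (nat_lit 1) (nat_lit 421) (nat_lit 1) (nat_lit 433) (nat_lit 1) (nat_lit 379) (nat_lit 397) (nat_lit 364)) (XT.lf (nat_lit 76) (nat_lit 1636439256) (nat_lit 0) (nat_lit 861391330) (nat_lit 988) (nat_lit 1636439256) (nat_lit 422) (nat_lit 1) (nat_lit 421) (nat_lit 1) (nat_lit 434) (nat_lit 1) (nat_lit 380) (nat_lit 397) (nat_lit 363))) (XT.nd (nat_lit 78) (nat_lit 836) (nat_lit 0) (XT.lf (nat_lit 912) (nat_lit 2799186369) (nat_lit 0) (nat_lit 649420065) (nat_lit 836) (nat_lit 649420065) (nat_lit 422) (nat_lit 1) (nat_lit 410) (nat_lit 1) (nat_lit 421) (nat_lit 1)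 (nat_lit 381) (nat_lit 397) (nat_lit 362)) (XT.nd (nat_lit 78) (nat_lit 836) (nat_lit 0) (XT.lf (nat_lit 76) (nat_lit 1158122324) (nat_lit 0) (nat_lit 1745885676) (nat_lit 912) (nat_lit 1158122324) (nat_lit 411) (nat_lit 1) (nat_lit 410) (nat_lit 1) (nat_lit 422) (nat_lit 1) (nat_lit 382) (nat_lit 397) (nat_lit 361)) (XT.lf (nat_lit 912) (nat_lit 1831286285) (nat_lit 0) (nat_lit 1097713248) (nat_lit 836) (nat_lit 1097713248) (nat_lit 411) (nat_lit 1) (nat_lit 399) (nat_lit 1) (nat_lit 410) (nat_lit 1) (nat_lit 383) (nat_lit 397) (nat_lit 360))))))))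
noncomputable def ec47 : XT := (XT.nd (nat_lit 1404) (nat_lit 6156) (nat_lit 0) (XT.nd (nat_lit 702) (nat_lit 3420) (nat_lit 0) (XT.nd (nat_lit 312) (nat_lit 2204) (nat_lit 0) (XT.nd (nat_lit 156) (nat_lit 836) (nat_lit 0) (XT.nd (nat_lit 78) (nat_lit 760) (nat_lit 0) (XT.lf (nat_lit 76) (nat_lit 671854592) (nat_lit 0) (nat_lit 2648042716) (nat_lit 912) (nat_lit 671854592) (nat_lit 400) (nat_lit 1) (nat_lit 399) (nat_lit 1) (nat_lit 411) (nat_lit 1) (nat_lit 384) (nat_lit 397) (nat_lit 359)) (XT.lf (nat_lit 836) (nat_lit 848271085) (nat_lit 0) (nat_lit 1554431923) (nat_lit 760) (nat_lit 1554431923) (nat_lit 400) (nat_lit 1) (nat_lit 389) (nat_lit 1) (nat_lit 399) (nat_lit 1) (nat_lit 385) (nat_lit 397) (nat_lit 358))) (XT.nd (nat_lit 78) (nat_lit 836) (nat_lit 0) (XT.lf (nat_lit 76) (nat_lit 178464884) (nat_lit 0) (nat_lit 3566156808) (nat_lit 836) (nat_lit 178464884) (nat_lit 390) (nat_lit 1) (nat_lit 389) (nat_lit 1) (nat_lit 400) (nat_lit 1) (nat_lit 386)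 (nat_lit 397) (nat_lit 357)) (XT.lf (nat_lit 76) (nat_lit 1871465889) (nat_lit 0) (nat_lit 146294779) (nat_lit 836) (nat_lit 1871465889) (nat_lit 379) (nat_lit 1) (nat_lit 378) (nat_lit 1) (nat_lit 389) (nat_lit 1) (nat_lit 387) (nat_lit 397) (nat_lit 356)))) (XT.nd (nat_lit 156) (nat_lit 1444) (nat_lit 0) (XT.nd (nat_lit 78) (nat_lit 0) (nat_lit 0) (XT.lf (nat_lit 836) (nat_lit 3217626807) (nat_lit 0) (nat_lit 319146798) (nat_lit 760) (nat_lit 319146798) (nat_lit 379) (nat_lit 1) (nat_lit 368) (nat_lit 1) (nat_lit 378) (nat_lit 1) (nat_lit 388) (nat_lit 397) (nat_lit 355)) (XT.lf (nat_lit 76) (nat_lit 1340656573) (nat_lit 0) (nat_lit 1141536345) (nat_lit 836) (nat_lit 1340656573) (nat_lit 369) (nat_lit 1) (nat_lit 368) (nat_lit 1) (nat_lit 379) (nat_lit 1) (nat_lit 389) (nat_lit 397) (nat_lit 354))) (XT.nd (nat_lit 78) (nat_lit 684) (nat_lit 0) (XT.lf (nat_lit 836) (nat_lit 2148005332) (nat_lit 0) (nat_lit 821137219) (nat_lit 760) (nat_lit 821137219) (nat_lit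 369) (nat_lit 1) (nat_lit 358) (nat_lit 1) (nat_lit 368) (nat_lit 1) (nat_lit 390) (nat_lit 397) (nat_lit 353)) (XT.nd (nat_lit 78) (nat_lit 684) (nat_lit 0) (XT.lf (nat_lit 76) (nat_lit 805464666) (nat_lit 0) (nat_lit 2147140415) (nat_lit 836) (nat_lit 805464666) (nat_lit 359) (nat_lit 1) (nat_lit 358) (nat_lit 1) (nat_lit 369) (nat_lit 1) (nat_lit 391) (nat_lit 397) (nat_lit 352)) (XT.lf (nat_lit 760) (nat_lit 1070258313) (nat_lit 0) (nat_lit 1327978001) (nat_lit 684) (nat_lit 1327978001) (nat_lit 359) (nat_lit 1) (nat_lit 349) (nat_lit 1) (nat_lit 358) (nat_lit 1) (nat_lit 392) (nat_lit 397) (nat_lit 351)))))) (XT.nd (nat_lit 312) (nat_lit 1976) (nat_lit 0) (XT.nd (nat_lit 156) (nat_lit 684) (nat_lit 0) (XT.nd (nat_lit 78) (nat_lit 760) (nat_lit 0) (XT.lf (nat_lit 76) (nat_lit 266550440) (nat_lit 0) (nat_lit 3161743641) (nat_lit 760) (nat_lit 266550440) (nat_lit 350) (nat_lit 1) (nat_lit 349) (nat_lit 1) (nat_lit 359) (nat_lit 1) (nat_lit 393) (nat_lit 397)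 (nat_lit 350)) (XT.lf (nat_lit 76) (nat_lit 1824771490) (nat_lit 0) (nat_lit 14137121) (nat_lit 760) (nat_lit 1824771490) (nat_lit 340) (nat_lit 1) (nat_lit 339) (nat_lit 1) (nat_lit 349) (nat_lit 1) (nat_lit 394) (nat_lit 397) (nat_lit 349))) (XT.nd (nat_lit 78) (nat_lit 0) (nat_lit 0) (XT.lf (nat_lit 760) (nat_lit 3085691056) (nat_lit 0) (nat_lit 273648838) (nat_lit 684) (nat_lit 273648838) (nat_lit 340) (nat_lit 1) (nat_lit 330) (nat_lit 1) (nat_lit 339) (nat_lit 1) (nat_lit 395) (nat_lit 397) (nat_lit 348)) (XT.lf (nat_lit 76) (nat_lit 1256230005) (nat_lit 0) (nat_lit 1090038458) (nat_lit 760) (nat_lit 1256230005) (nat_lit 331) (nat_lit 1) (nat_lit 330) (nat_lit 1) (nat_lit 340) (nat_lit 1) (nat_lit 396) (nat_lit 397) (nat_lit 347)))) (XT.nd (nat_lit 156) (nat_lit 1292) (nat_lit 0) (XT.nd (nat_lit 78) (nat_lit 0) (nat_lit 0) (XT.lf (nat_lit 760) (nat_lit 1943297485) (nat_lit 0) (nat_lit 814583977) (nat_lit 684) (nat_lit 814583977) (nat_lit 331) (nat_lit 1)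 (nat_lit 321) (nat_lit 1) (nat_lit 330) (nat_lit 1) (nat_lit 397) (nat_lit 397) (nat_lit 346)) (XT.lf (nat_lit 76) (nat_lit 686212744) (nat_lit 0) (nat_lit 2170343461) (nat_lit 760) (nat_lit 686212744) (nat_lit 322) (nat_lit 1) (nat_lit 321) (nat_lit 1) (nat_lit 331) (nat_lit 1) (nat_lit 398) (nat_lit 397) (nat_lit 345))) (XT.nd (nat_lit 78) (nat_lit 684) (nat_lit 0) (XT.lf (nat_lit 684) (nat_lit 798468486) (nat_lit 0) (nat_lit 1357453143) (nat_lit 608) (nat_lit 1357453143) (nat_lit 322) (nat_lit 1) (nat_lit 313) (nat_lit 1) (nat_lit 321) (nat_lit 1) (nat_lit 399) (nat_lit 397) (nat_lit 344)) (XT.nd (nat_lit 78) (nat_lit 684) (nat_lit 0) (XT.lf (nat_lit 76) (nat_lit 115238835) (nat_lit 0) (nat_lit 3253975597) (nat_lit 684) (nat_lit 115238835) (nat_lit 314) (nat_lit 1) (nat_lit 313) (nat_lit 1) (nat_lit 322) (nat_lit 1) (nat_lit 400) (nat_lit 397) (nat_lit 343)) (XT.lf (nat_lit 76) (nat_lit 1556205688) (nat_lit 0) (nat_lit 343222555) (nat_lit 684) (nat_lit 1556205688)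 (nat_lit 305) (nat_lit 1) (nat_lit 304) (nat_lit 1) (nat_lit 313) (nat_lit 1) (nat_lit 401) (nat_lit 397) (nat_lit 342))))))) (XT.nd (nat_lit 702) (nat_lit 3192) (nat_lit 0) (XT.nd (nat_lit 312) (nat_lit 1748) (nat_lit 0) (XT.nd (nat_lit 156) (nat_lit 608) (nat_lit 0) (XT.nd (nat_lit 78) (nat_lit 0) (nat_lit 0) (XT.lf (nat_lit 684) (nat_lit 2520875567) (nat_lit 0) (nat_lit 453200478) (nat_lit 608) (nat_lit 453200478) (nat_lit 305) (nat_lit 1) (nat_lit 296) (nat_lit 1) (nat_lit 304) (nat_lit 1) (nat_lit 402) (nat_lit 397) (nat_lit 341)) (XT.lf (nat_lit 76) (nat_lit 962121979) (nat_lit 0) (nat_lit 1474903841) (nat_lit 684) (nat_lit 962121979) (nat_lit 297) (nat_lit 1) (nat_lit 296) (nat_lit 1) (nat_lit 305) (nat_lit 1) (nat_lit 403) (nat_lit 397) (nat_lit 340))) (XT.nd (nat_lit 78) (nat_lit 0) (nat_lit 0) (XT.lf (nat_lit 684) (nat_lit 1329607695) (nat_lit 0) (nat_lit 1020886332) (nat_lit 608) (nat_lit 1020886332) (nat_lit 297) (nat_lit 1) (nat_lit 288) (nat_lit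 1) (nat_lit 296) (nat_lit 1) (nat_lit 404) (nat_lit 397) (nat_lit 339)) (XT.lf (nat_lit 76) (nat_lit 368912808) (nat_lit 0) (nat_lit 2606159106) (nat_lit 684) (nat_lit 368912808) (nat_lit 289) (nat_lit 1) (nat_lit 288) (nat_lit 1) (nat_lit 297) (nat_lit 1) (nat_lit 405) (nat_lit 397) (nat_lit 338)))) (XT.nd (nat_lit 156) (nat_lit 532) (nat_lit 0) (XT.nd (nat_lit 78) (nat_lit 684) (nat_lit 0) (XT.lf (nat_lit 608) (nat_lit 140501326) (nat_lit 0) (nat_lit 1588144370) (nat_lit 532) (nat_lit 1588144370) (nat_lit 289) (nat_lit 1) (nat_lit 281) (nat_lit 1) (nat_lit 288) (nat_lit 1) (nat_lit 406) (nat_lit 397) (nat_lit 337)) (XT.lf (nat_lit 684) (nat_lit 2846887450) (nat_lit 0) (nat_lit 221553357) (nat_lit 608) (nat_lit 221553357) (nat_lit 281) (nat_lit 1) (nat_lit 272) (nat_lit 1) (nat_lit 280) (nat_lit 1) (nat_lit 407) (nat_lit 397) (nat_lit 336))) (XT.nd (nat_lit 78) (nat_lit 532) (nat_lit 0) (XT.lf (nat_lit 76) (nat_lit 1115693667) (nat_lit 0) (nat_lit 1031948773)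 (nat_lit 684) (nat_lit 1115693667) (nat_lit 273) (nat_lit 1) (nat_lit 272) (nat_lit 1) (nat_lit 281) (nat_lit 1) (nat_lit 408) (nat_lit 397) (nat_lit 335)) (XT.nd (nat_lit 78) (nat_lit 0) (nat_lit 0) (XT.lf (nat_lit 608) (nat_lit 1621166711) (nat_lit 0) (nat_lit 807950463) (nat_lit 532) (nat_lit 807950463) (nat_lit 273) (nat_lit 1) (nat_lit 265) (nat_lit 1) (nat_lit 272) (nat_lit 1) (nat_lit 409) (nat_lit 397) (nat_lit 334)) (XT.lf (nat_lit 76) (nat_lit 506087497) (nat_lit 0) (nat_lit 2198928726) (nat_lit 608) (nat_lit 506087497) (nat_lit 266) (nat_lit 1) (nat_lit 265) (nat_lit 1) (nat_lit 273) (nat_lit 1) (nat_lit 410) (nat_lit 397) (nat_lit 333)))))) (XT.nd (nat_lit 390) (nat_lit 1520) (nat_lit 0) (XT.nd (nat_lit 156) (nat_lit 532) (nat_lit 0) (XT.nd (nat_lit 78) (nat_lit 608) (nat_lit 0) (XT.lf (nat_lit 608) (nat_lit 400657657) (nat_lit 0) (nat_lit 1392353792) (nat_lit 532) (nat_lit 1392353792) (nat_lit 266) (nat_lit 1) (nat_lit 258) (nat_lit 1) (nat_lit 265)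 (nat_lit 1) (nat_lit 411) (nat_lit 397) (nat_lit 332)) (XT.lf (nat_lit 608) (nat_lit 2959830199) (nat_lit 0) (nat_lit 100098350) (nat_lit 532) (nat_lit 100098350) (nat_lit 258) (nat_lit 1) (nat_lit 250) (nat_lit 1) (nat_lit 257) (nat_lit 1) (nat_lit 412) (nat_lit 397) (nat_lit 331))) (XT.nd (nat_lit 78) (nat_lit 532) (nat_lit 0) (XT.lf (nat_lit 76) (nat_lit 1165707460) (nat_lit 0) (nat_lit 803335118) (nat_lit 608) (nat_lit 1165707460) (nat_lit 251) (nat_lit 1) (nat_lit 250) (nat_lit 1) (nat_lit 258) (nat_lit 1) (nat_lit 413) (nat_lit 397) (nat_lit 330)) (XT.nd (nat_lit 78) (nat_lit 0) (nat_lit 0) (XT.lf (nat_lit 608) (nat_lit 1710036410) (nat_lit 0) (nat_lit 699914381) (nat_lit 532) (nat_lit 699914381) (nat_lit 251) (nat_lit 1) (nat_lit 243) (nat_lit 1) (nat_lit 250) (nat_lit 1) (nat_lit 414) (nat_lit 397) (nat_lit 329)) (XT.lf (nat_lit 76) (nat_lit 544758523) (nat_lit 0) (nat_lit 1995729142) (nat_lit 608) (nat_lit 544758523) (nat_lit 244) (nat_lit 1) (nat_lit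 243) (nat_lit 1) (nat_lit 251) (nat_lit 1) (nat_lit 415) (nat_lit 397) (nat_lit 328))))) (XT.nd (nat_lit 156) (nat_lit 456) (nat_lit 0) (XT.nd (nat_lit 78) (nat_lit 608) (nat_lit 0) (XT.lf (nat_lit 532) (nat_lit 468034934) (nat_lit 0) (nat_lit 1296408776) (nat_lit 456) (nat_lit 1296408776) (nat_lit 244) (nat_lit 1) (nat_lit 237) (nat_lit 1) (nat_lit 243) (nat_lit 1) (nat_lit 416) (nat_lit 397) (nat_lit 327)) (XT.lf (nat_lit 608) (nat_lit 2893427616) (nat_lit 0) (nat_lit 71705540) (nat_lit 532) (nat_lit 71705540) (nat_lit 237) (nat_lit 1) (nat_lit 229) (nat_lit 1) (nat_lit 236) (nat_lit 1) (nat_lit 417) (nat_lit 397) (nat_lit 326))) (XT.nd (nat_lit 78) (nat_lit 456) (nat_lit 0) (XT.lf (nat_lit 76) (nat_lit 1128612226) (nat_lit 0) (nat_lit 755636009) (nat_lit 608) (nat_lit 1128612226) (nat_lit 230) (nat_lit 1) (nat_lit 229) (nat_lit 1) (nat_lit 237) (nat_lit 1) (nat_lit 418) (nat_lit 397) (nat_lit 325)) (XT.nd (nat_lit 78) (nat_lit 0) (nat_lit 0) (XT.lf (nat_lit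 532) (nat_lit 1628524572) (nat_lit 0) (nat_lit 680365169) (nat_lit 456) (nat_lit 680365169) (nat_lit 230) (nat_lit 1) (nat_lit 223) (nat_lit 1) (nat_lit 229) (nat_lit 1) (nat_lit 419) (nat_lit 397) (nat_lit 324)) (XT.lf (nat_lit 76) (nat_lit 500683604) (nat_lit 0) (nat_lit 1964533537) (nat_lit 532) (nat_lit 500683604) (nat_lit 224) (nat_lit 1) (nat_lit 223) (nat_lit 1) (nat_lit 230) (nat_lit 1) (nat_lit 420) (nat_lit 397) (nat_lit 323))))))))
noncomputable def ec48 : XT := (XT.nd (nat_lit 54522) (nat_lit 0) (nat_lit 17024) (XT.nd (nat_lit 53820) (nat_lit 0) (nat_lit 22040) (XT.nd (nat_lit 53430) (nat_lit 0) (nat_lit 21812) (XT.nd (nat_lit 156) (nat_lit 0) (nat_lit 0) (XT.nd (nat_lit 78) (nat_lit 532) (nat_lit 0) (XT.lf (nat_lit 532) (nat_lit 373582486) (nat_lit 0) (nat_lit 1284584298) (nat_lit 456) (nat_lit 1284584298) (nat_lit 224) (nat_lit 1) (nat_lit 217) (nat_lit 1) (nat_lit 223) (nat_lit 1) (nat_lit 421) (nat_lit 397) (nat_lit 322)) (XT.lf (nat_lit 532)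 (nat_lit 2677184034) (nat_lit 0) (nat_lit 121379556) (nat_lit 456) (nat_lit 121379556) (nat_lit 217) (nat_lit 1) (nat_lit 210) (nat_lit 1) (nat_lit 216) (nat_lit 1) (nat_lit 422) (nat_lit 397) (nat_lit 321))) (XT.nd (nat_lit 53196) (nat_lit 0) (nat_lit 21812) (XT.lf (nat_lit 76) (nat_lit 1018796559) (nat_lit 0) (nat_lit 859594104) (nat_lit 532) (nat_lit 1018796559) (nat_lit 211) (nat_lit 1) (nat_lit 210) (nat_lit 1) (nat_lit 217) (nat_lit 1) (nat_lit 423) (nat_lit 397) (nat_lit 320)) (XT.lf (nat_lit 1900) (nat_lit 963359638) (nat_lit 0) (nat_lit 971415566) (nat_lit 1900) (nat_lit 963359638) (nat_lit 522) (nat_lit 1) (nat_lit 497) (nat_lit 0) (nat_lit 522) (nat_lit 0) (nat_lit 344) (nat_lit 398) (nat_lit 398)))) (XT.nd (nat_lit 156) (nat_lit 0) (nat_lit 76) (XT.nd (nat_lit 78) (nat_lit 0) (nat_lit 76) (XT.lf (nat_lit 1900) (nat_lit 3809268854) (nat_lit 76) (nat_lit 965024674) (nat_lit 0) (nat_lit 965024674) (nat_lit 522) (nat_lit 1) (nat_lit 498) (nat_lit 1) (nat_lit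 497) (nat_lit 0) (nat_lit 345) (nat_lit 398) (nat_lit 397)) (XT.lf (nat_lit 1900) (nat_lit 1870369139) (nat_lit 0) (nat_lit 1942250487) (nat_lit 1824) (nat_lit 1870369139) (nat_lit 523) (nat_lit 1) (nat_lit 498) (nat_lit 1) (nat_lit 522) (nat_lit 1) (nat_lit 346) (nat_lit 398) (nat_lit 396))) (XT.nd (nat_lit 78) (nat_lit 0) (nat_lit 76) (XT.lf (nat_lit 1900) (nat_lit 3660773478) (nat_lit 76) (nat_lit 983369902) (nat_lit 0) (nat_lit 983369902) (nat_lit 523) (nat_lit 1) (nat_lit 499) (nat_lit 1) (nat_lit 498) (nat_lit 1) (nat_lit 347) (nat_lit 398) (nat_lit 395)) (XT.nd (nat_lit 78) (nat_lit 0) (nat_lit 0) (XT.lf (nat_lit 1900) (nat_lit 1779066540) (nat_lit 0) (nat_lit 2014517108) (nat_lit 1824) (nat_lit 1779066540) (nat_lit 524) (nat_lit 1) (nat_lit 499) (nat_lit 1) (nat_lit 523) (nat_lit 1) (nat_lit 348) (nat_lit 398) (nat_lit 394)) (XT.lf (nat_lit 1900) (nat_lit 3444251838) (nat_lit 76) (nat_lit 1037175566) (nat_lit 0) (nat_lit 1037175566) (nat_lit 524) (nat_lit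 1) (nat_lit 500) (nat_lit 1) (nat_lit 499) (nat_lit 1) (nat_lit 349) (nat_lit 398) (nat_lit 393)))))) (XT.nd (nat_lit 312) (nat_lit 0) (nat_lit 152) (XT.nd (nat_lit 156) (nat_lit 0) (nat_lit 76) (XT.nd (nat_lit 78) (nat_lit 0) (nat_lit 0) (XT.lf (nat_lit 1900) (nat_lit 1654896973) (nat_lit 0) (nat_lit 2155374310) (nat_lit 1824) (nat_lit 1654896973) (nat_lit 525) (nat_lit 1) (nat_lit 500) (nat_lit 1) (nat_lit 524) (nat_lit 1) (nat_lit 350) (nat_lit 398) (nat_lit 392)) (XT.lf (nat_lit 1900) (nat_lit 3163792389) (nat_lit 76) (nat_lit 1124355425) (nat_lit 0) (nat_lit 1124355425) (nat_lit 525) (nat_lit 1) (nat_lit 501) (nat_lit 1) (nat_lit 500) (nat_lit 1) (nat_lit 351) (nat_lit 398) (nat_lit 391))) (XT.nd (nat_lit 78) (nat_lit 0) (nat_lit 0) (XT.lf (nat_lit 1900) (nat_lit 1499850670) (nat_lit 0) (nat_lit 2360758700) (nat_lit 1824) (nat_lit 1499850670) (nat_lit 526) (nat_lit 1) (nat_lit 501) (nat_lit 1) (nat_lit 525) (nat_lit 1) (nat_lit 352) (nat_lit 398) (nat_lit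 390)) (XT.lf (nat_lit 1900) (nat_lit 2823296456) (nat_lit 76) (nat_lit 1242918153) (nat_lit 0) (nat_lit 1242918153) (nat_lit 526) (nat_lit 1) (nat_lit 502) (nat_lit 1) (nat_lit 501) (nat_lit 1) (nat_lit 353) (nat_lit 398) (nat_lit 389)))) (XT.nd (nat_lit 156) (nat_lit 0) (nat_lit 76) (XT.nd (nat_lit 78) (nat_lit 0) (nat_lit 0) (XT.lf (nat_lit 1900) (nat_lit 1315826582) (nat_lit 0) (nat_lit 2626792123) (nat_lit 1824) (nat_lit 1315826582) (nat_lit 527) (nat_lit 1) (nat_lit 502) (nat_lit 1) (nat_lit 526) (nat_lit 1) (nat_lit 354) (nat_lit 398) (nat_lit 388)) (XT.lf (nat_lit 1900) (nat_lit 2426486055) (nat_lit 76) (nat_lit 1390963387) (nat_lit 0) (nat_lit 1390963387) (nat_lit 527) (nat_lit 1) (nat_lit 503) (nat_lit 1) (nat_lit 502) (nat_lit 1) (nat_lit 355) (nat_lit 398) (nat_lit 387))) (XT.nd (nat_lit 78) (nat_lit 0) (nat_lit 0) (XT.lf (nat_lit 1900) (nat_lit 1104636194) (nat_lit 0) (nat_lit 2949773925) (nat_lit 1824) (nat_lit 1104636194) (nat_lit 528) (nat_lit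 1) (nat_lit 503) (nat_lit 1) (nat_lit 527) (nat_lit 1) (nat_lit 356) (nat_lit 398) (nat_lit 386)) (XT.nd (nat_lit 78) (nat_lit 0) (nat_lit 76) (XT.lf (nat_lit 1900) (nat_lit 1976911404) (nat_lit 76) (nat_lit 1566677923) (nat_lit 0) (nat_lit 1566677923) (nat_lit 528) (nat_lit 1) (nat_lit 504) (nat_lit 1) (nat_lit 503) (nat_lit 1) (nat_lit 357) (nat_lit 398) (nat_lit 385)) (XT.lf (nat_lit 1900) (nat_lit 868007195) (nat_lit 0) (nat_lit 3326173542) (nat_lit 1824) (nat_lit 868007195) (nat_lit 529) (nat_lit 1) (nat_lit 504) (nat_lit 1) (nat_lit 528) (nat_lit 1) (nat_lit 358) (nat_lit 398) (nat_lit 384))))))) (XT.nd (nat_lit 702) (nat_lit 3648) (nat_lit 0) (XT.nd (nat_lit 312) (nat_lit 1672) (nat_lit 0) (XT.nd (nat_lit 156) (nat_lit 0) (nat_lit 76) (XT.nd (nat_lit 78) (nat_lit 0) (nat_lit 76) (XT.lf (nat_lit 1900) (nat_lit 1477958126) (nat_lit 76) (nat_lit 1768332073) (nat_lit 0) (nat_lit 1768332073) (nat_lit 529) (nat_lit 1) (nat_lit 505) (nat_lit 1) (nat_lit 504)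 (nat_lit 1) (nat_lit 359) (nat_lit 398) (nat_lit 383)) (XT.lf (nat_lit 1900) (nat_lit 607586993) (nat_lit 0) (nat_lit 3752623368) (nat_lit 1824) (nat_lit 607586993) (nat_lit 530) (nat_lit 1) (nat_lit 505) (nat_lit 1) (nat_lit 529) (nat_lit 1) (nat_lit 360) (nat_lit 398) (nat_lit 382))) (XT.nd (nat_lit 78) (nat_lit 0) (nat_lit 76) (XT.lf (nat_lit 1900) (nat_lit 932854165) (nat_lit 76) (nat_lit 1994276161) (nat_lit 0) (nat_lit 1994276161) (nat_lit 530) (nat_lit 1) (nat_lit 506) (nat_lit 1) (nat_lit 505) (nat_lit 1) (nat_lit 361) (nat_lit 398) (nat_lit 381)) (XT.lf (nat_lit 1900) (nat_lit 324946092) (nat_lit 0) (nat_lit 4225911926) (nat_lit 1824) (nat_lit 324946092) (nat_lit 531) (nat_lit 1) (nat_lit 506) (nat_lit 1) (nat_lit 530) (nat_lit 1) (nat_lit 362) (nat_lit 398) (nat_lit 380)))) (XT.nd (nat_lit 156) (nat_lit 1824) (nat_lit 0) (XT.nd (nat_lit 78) (nat_lit 0) (nat_lit 76) (XT.lf (nat_lit 1900) (nat_lit 344676426) (nat_lit 76) (nat_lit 2242937167) (nat_lit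 0) (nat_lit 2242937167) (nat_lit 531) (nat_lit 1) (nat_lit 507) (nat_lit 1) (nat_lit 506) (nat_lit 1) (nat_lit 363) (nat_lit 398) (nat_lit 379)) (XT.lf (nat_lit 1900) (nat_lit 21581332) (nat_lit 0) (nat_lit 4742977309) (nat_lit 1824) (nat_lit 21581332) (nat_lit 532) (nat_lit 1) (nat_lit 507) (nat_lit 1) (nat_lit 531) (nat_lit 1) (nat_lit 364) (nat_lit 398) (nat_lit 378))) (XT.nd (nat_lit 78) (nat_lit 0) (nat_lit 0) (XT.lf (nat_lit 1976) (nat_lit 2231014242) (nat_lit 0) (nat_lit 279922831) (nat_lit 1900) (nat_lit 2231014242) (nat_lit 508) (nat_lit 1) (nat_lit 482) (nat_lit 1) (nat_lit 507) (nat_lit 1) (nat_lit 365) (nat_lit 398) (nat_lit 377)) (XT.nd (nat_lit 78) (nat_lit 0) (nat_lit 76) (XT.lf (nat_lit 1976) (nat_lit 4100381556) (nat_lit 76) (nat_lit 299100205) (nat_lit 0) (nat_lit 299100205) (nat_lit 508) (nat_lit 1) (nat_lit 483) (nat_lit 1) (nat_lit 482) (nat_lit 1) (nat_lit 366) (nat_lit 398) (nat_lit 376)) (XT.lf (nat_lit 1976) (nat_lit 1859335449) (nat_lit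 0) (nat_lit 936859649) (nat_lit 1900) (nat_lit 1859335449) (nat_lit 509) (nat_lit 1) (nat_lit 483) (nat_lit 1) (nat_lit 508) (nat_lit 1) (nat_lit 367) (nat_lit 398) (nat_lit 375)))))) (XT.nd (nat_lit 312) (nat_lit 2660) (nat_lit 0) (XT.nd (nat_lit 156) (nat_lit 1064) (nat_lit 0) (XT.nd (nat_lit 78) (nat_lit 0) (nat_lit 76) (XT.lf (nat_lit 1976) (nat_lit 3338281213) (nat_lit 76) (nat_lit 637460603) (nat_lit 0) (nat_lit 637460603) (nat_lit 509) (nat_lit 1) (nat_lit 484) (nat_lit 1) (nat_lit 483) (nat_lit 1) (nat_lit 368) (nat_lit 398) (nat_lit 374)) (XT.lf (nat_lit 76) (nat_lit 1471621163) (nat_lit 0) (nat_lit 1628028442) (nat_lit 1900) (nat_lit 1471621163) (nat_lit 485) (nat_lit 1) (nat_lit 484) (nat_lit 1) (nat_lit 509) (nat_lit 1) (nat_lit 369) (nat_lit 398) (nat_lit 373))) (XT.nd (nat_lit 78) (nat_lit 0) (nat_lit 0) (XT.lf (nat_lit 1216) (nat_lit 2545238587) (nat_lit 0) (nat_lit 992356353) (nat_lit 1140) (nat_lit 992356353) (nat_lit 485) (nat_lit 1) (nat_lit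 469) (nat_lit 1) (nat_lit 484) (nat_lit 1) (nat_lit 370) (nat_lit 398) (nat_lit 372)) (XT.lf (nat_lit 76) (nat_lit 1069091479) (nat_lit 0) (nat_lit 2350928538) (nat_lit 1216) (nat_lit 1069091479) (nat_lit 470) (nat_lit 1) (nat_lit 469) (nat_lit 1) (nat_lit 485) (nat_lit 1) (nat_lit 371) (nat_lit 398) (nat_lit 371)))) (XT.nd (nat_lit 156) (nat_lit 1748) (nat_lit 0) (XT.nd (nat_lit 78) (nat_lit 0) (nat_lit 0) (XT.lf (nat_lit 988) (nat_lit 1723642177) (nat_lit 0) (nat_lit 1362563517) (nat_lit 912) (nat_lit 1362563517) (nat_lit 470) (nat_lit 1) (nat_lit 457) (nat_lit 1) (nat_lit 469) (nat_lit 1) (nat_lit 372) (nat_lit 398) (nat_lit 370)) (XT.lf (nat_lit 76) (nat_lit 652907398) (nat_lit 0) (nat_lit 3103179335) (nat_lit 988) (nat_lit 652907398) (nat_lit 458) (nat_lit 1) (nat_lit 457) (nat_lit 1) (nat_lit 470) (nat_lit 1) (nat_lit 373) (nat_lit 398) (nat_lit 369))) (XT.nd (nat_lit 78) (nat_lit 836) (nat_lit 0) (XT.lf (nat_lit 988) (nat_lit 875764458) (nat_lit 0) (nat_lit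 1746917095) (nat_lit 912) (nat_lit 1746917095) (nat_lit 458) (nat_lit 1) (nat_lit 445) (nat_lit 1) (nat_lit 457) (nat_lit 1) (nat_lit 374) (nat_lit 398) (nat_lit 368)) (XT.nd (nat_lit 78) (nat_lit 836) (nat_lit 0) (XT.lf (nat_lit 76) (nat_lit 224173356) (nat_lit 0) (nat_lit 3882515192) (nat_lit 988) (nat_lit 224173356) (nat_lit 446) (nat_lit 1) (nat_lit 445) (nat_lit 1) (nat_lit 458) (nat_lit 1) (nat_lit 375) (nat_lit 398) (nat_lit 367)) (XT.lf (nat_lit 912) (nat_lit 3766846) (nat_lit 0) (nat_lit 2144308509) (nat_lit 836) (nat_lit 2144308509) (nat_lit 446) (nat_lit 1) (nat_lit 434) (nat_lit 1) (nat_lit 445) (nat_lit 1) (nat_lit 376) (nat_lit 398) (nat_lit 366))))))))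
noncomputable def ec49 : XT := (XT.nd (nat_lit 1404) (nat_lit 6612) (nat_lit 0) (XT.nd (nat_lit 702) (nat_lit 3648) (nat_lit 0) (XT.nd (nat_lit 312) (nat_lit 2432) (nat_lit 0) (XT.nd (nat_lit 156) (nat_lit 836) (nat_lit 0) (XT.nd (nat_lit 78) (nat_lit 0) (nat_lit 0) (XT.lf (nat_lit 988) (nat_lit 3825269392) (nat_lit 0) (nat_lit 214638907) (nat_lit 912) (nat_lit 214638907) (nat_lit 434) (nat_lit 1) (nat_lit 421) (nat_lit 1) (nat_lit 433) (nat_lit 1) (nat_lit 377) (nat_lit 398) (nat_lit 365)) (XT.lf (nat_lit 76) (nat_lit 1669168041) (nat_lit 0) (nat_lit 878619157) (nat_lit 988) (nat_lit 1669168041) (nat_lit 422) (nat_lit 1) (nat_lit 421) (nat_lit 1) (nat_lit 434) (nat_lit 1) (nat_lit 378) (nat_lit 398) (nat_lit 364))) (XT.nd (nat_lit 78) (nat_lit 0) (nat_lit 0) (XT.lf (nat_lit 912) (nat_lit 2855170097) (nat_lit 0) (nat_lit 662408466) (nat_lit 836) (nat_lit 662408466) (nat_lit 422) (nat_lit 1) (nat_lit 410) (nat_lit 1) (nat_lit 421) (nat_lit 1) (nat_lit 379) (nat_lit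 398) (nat_lit 363)) (XT.lf (nat_lit 76) (nat_lit 1181284771) (nat_lit 0) (nat_lit 1780803390) (nat_lit 912) (nat_lit 1181284771) (nat_lit 411) (nat_lit 1) (nat_lit 410) (nat_lit 1) (nat_lit 422) (nat_lit 1) (nat_lit 380) (nat_lit 398) (nat_lit 362)))) (XT.nd (nat_lit 156) (nat_lit 1596) (nat_lit 0) (XT.nd (nat_lit 78) (nat_lit 0) (nat_lit 0) (XT.lf (nat_lit 912) (nat_lit 1867912011) (nat_lit 0) (nat_lit 1119667513) (nat_lit 836) (nat_lit 1119667513) (nat_lit 411) (nat_lit 1) (nat_lit 399) (nat_lit 1) (nat_lit 410) (nat_lit 1) (nat_lit 381) (nat_lit 398) (nat_lit 361)) (XT.lf (nat_lit 76) (nat_lit 685291684) (nat_lit 0) (nat_lit 2701003571) (nat_lit 912) (nat_lit 685291684) (nat_lit 400) (nat_lit 1) (nat_lit 399) (nat_lit 1) (nat_lit 411) (nat_lit 1) (nat_lit 382) (nat_lit 398) (nat_lit 360))) (XT.nd (nat_lit 78) (nat_lit 836) (nat_lit 0) (XT.lf (nat_lit 836) (nat_lit 865236507) (nat_lit 0) (nat_lit 1585520562) (nat_lit 760) (nat_lit 1585520562) (nat_lit 400)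 (nat_lit 1) (nat_lit 389) (nat_lit 1) (nat_lit 399) (nat_lit 1) (nat_lit 383) (nat_lit 398) (nat_lit 359)) (XT.nd (nat_lit 78) (nat_lit 836) (nat_lit 0) (XT.lf (nat_lit 76) (nat_lit 182034182) (nat_lit 0) (nat_lit 3637479944) (nat_lit 836) (nat_lit 182034182) (nat_lit 390) (nat_lit 1) (nat_lit 389) (nat_lit 1) (nat_lit 400) (nat_lit 1) (nat_lit 384) (nat_lit 398) (nat_lit 358)) (XT.lf (nat_lit 76) (nat_lit 1908895206) (nat_lit 0) (nat_lit 149220675) (nat_lit 836) (nat_lit 1908895206) (nat_lit 379) (nat_lit 1) (nat_lit 378) (nat_lit 1) (nat_lit 389) (nat_lit 1) (nat_lit 385) (nat_lit 398) (nat_lit 357)))))) (XT.nd (nat_lit 312) (nat_lit 2128) (nat_lit 0) (XT.nd (nat_lit 156) (nat_lit 760) (nat_lit 0) (XT.nd (nat_lit 78) (nat_lit 0) (nat_lit 0) (XT.lf (nat_lit 836) (nat_lit 3281979343) (nat_lit 0) (nat_lit 325529734) (nat_lit 760) (nat_lit 325529734) (nat_lit 379) (nat_lit 1) (nat_lit 368) (nat_lit 1) (nat_lit 378) (nat_lit 1) (nat_lit 386) (nat_lit 398) (nat_lit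 356)) (XT.lf (nat_lit 76) (nat_lit 1367469704) (nat_lit 0) (nat_lit 1164367072) (nat_lit 836) (nat_lit 1367469704) (nat_lit 369) (nat_lit 1) (nat_lit 368) (nat_lit 1) (nat_lit 379) (nat_lit 1) (nat_lit 387) (nat_lit 398) (nat_lit 355))) (XT.nd (nat_lit 78) (nat_lit 0) (nat_lit 0) (XT.lf (nat_lit 836) (nat_lit 2190965439) (nat_lit 0) (nat_lit 837559964) (nat_lit 760) (nat_lit 837559964) (nat_lit 369) (nat_lit 1) (nat_lit 358) (nat_lit 1) (nat_lit 368) (nat_lit 1) (nat_lit 388) (nat_lit 398) (nat_lit 354)) (XT.lf (nat_lit 76) (nat_lit 821573960) (nat_lit 0) (nat_lit 2190083223) (nat_lit 836) (nat_lit 821573960) (nat_lit 359) (nat_lit 1) (nat_lit 358) (nat_lit 1) (nat_lit 369) (nat_lit 1) (nat_lit 389) (nat_lit 398) (nat_lit 353)))) (XT.nd (nat_lit 156) (nat_lit 1444) (nat_lit 0) (XT.nd (nat_lit 78) (nat_lit 0) (nat_lit 0) (XT.lf (nat_lit 760) (nat_lit 1091663479) (nat_lit 0) (nat_lit 1354537561) (nat_lit 684) (nat_lit 1354537561) (nat_lit 359) (nat_lit 1) (nat_lit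 349) (nat_lit 1) (nat_lit 358) (nat_lit 1) (nat_lit 390) (nat_lit 398) (nat_lit 352)) (XT.lf (nat_lit 76) (nat_lit 271881449) (nat_lit 0) (nat_lit 3224978514) (nat_lit 760) (nat_lit 271881449) (nat_lit 350) (nat_lit 1) (nat_lit 349) (nat_lit 1) (nat_lit 359) (nat_lit 1) (nat_lit 391) (nat_lit 398) (nat_lit 351))) (XT.nd (nat_lit 78) (nat_lit 684) (nat_lit 0) (XT.lf (nat_lit 76) (nat_lit 1861266920) (nat_lit 0) (nat_lit 14419863) (nat_lit 760) (nat_lit 1861266920) (nat_lit 340) (nat_lit 1) (nat_lit 339) (nat_lit 1) (nat_lit 349) (nat_lit 1) (nat_lit 392) (nat_lit 398) (nat_lit 350)) (XT.nd (nat_lit 78) (nat_lit 0) (nat_lit 0) (XT.lf (nat_lit 760) (nat_lit 3147404877) (nat_lit 0) (nat_lit 279121815) (nat_lit 684) (nat_lit 279121815) (nat_lit 340) (nat_lit 1) (nat_lit 330) (nat_lit 1) (nat_lit 339) (nat_lit 1) (nat_lit 393) (nat_lit 398) (nat_lit 349)) (XT.lf (nat_lit 76) (nat_lit 1281354605) (nat_lit 0) (nat_lit 1111839227) (nat_lit 760) (nat_lit 1281354605) (nat_lit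 331) (nat_lit 1) (nat_lit 330) (nat_lit 1) (nat_lit 340) (nat_lit 1) (nat_lit 394) (nat_lit 398) (nat_lit 348))))))) (XT.nd (nat_lit 702) (nat_lit 3420) (nat_lit 0) (XT.nd (nat_lit 312) (nat_lit 1900) (nat_lit 0) (XT.nd (nat_lit 156) (nat_lit 608) (nat_lit 0) (XT.nd (nat_lit 78) (nat_lit 0) (nat_lit 0) (XT.lf (nat_lit 760) (nat_lit 1982163435) (nat_lit 0) (nat_lit 830875657) (nat_lit 684) (nat_lit 830875657) (nat_lit 331) (nat_lit 1) (nat_lit 321) (nat_lit 1) (nat_lit 330) (nat_lit 1) (nat_lit 395) (nat_lit 398) (nat_lit 347)) (XT.lf (nat_lit 76) (nat_lit 699936999) (nat_lit 0) (nat_lit 2213750331) (nat_lit 760) (nat_lit 699936999) (nat_lit 322) (nat_lit 1) (nat_lit 321) (nat_lit 1) (nat_lit 331) (nat_lit 1) (nat_lit 396) (nat_lit 398) (nat_lit 346))) (XT.nd (nat_lit 78) (nat_lit 0) (nat_lit 0) (XT.lf (nat_lit 684) (nat_lit 814437856) (nat_lit 0) (nat_lit 1384602206) (nat_lit 608) (nat_lit 1384602206) (nat_lit 322) (nat_lit 1) (nat_lit 313) (nat_lit 1) (nat_lit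 321) (nat_lit 1) (nat_lit 397) (nat_lit 398) (nat_lit 345)) (XT.lf (nat_lit 76) (nat_lit 117543612) (nat_lit 0) (nat_lit 3319055109) (nat_lit 684) (nat_lit 117543612) (nat_lit 314) (nat_lit 1) (nat_lit 313) (nat_lit 1) (nat_lit 322) (nat_lit 1) (nat_lit 398) (nat_lit 398) (nat_lit 344)))) (XT.nd (nat_lit 156) (nat_lit 608) (nat_lit 0) (XT.nd (nat_lit 78) (nat_lit 608) (nat_lit 0) (XT.lf (nat_lit 76) (nat_lit 1587329801) (nat_lit 0) (nat_lit 350087006) (nat_lit 684) (nat_lit 1587329801) (nat_lit 305) (nat_lit 1) (nat_lit 304) (nat_lit 1) (nat_lit 313) (nat_lit 1) (nat_lit 399) (nat_lit 398) (nat_lit 343)) (XT.lf (nat_lit 684) (nat_lit 2571293078) (nat_lit 0) (nat_lit 462264488) (nat_lit 608) (nat_lit 462264488) (nat_lit 305) (nat_lit 1) (nat_lit 296) (nat_lit 1) (nat_lit 304) (nat_lit 1) (nat_lit 400) (nat_lit 398) (nat_lit 342))) (XT.nd (nat_lit 78) (nat_lit 608) (nat_lit 0) (XT.lf (nat_lit 76) (nat_lit 981364419) (nat_lit 0) (nat_lit 1504401918) (nat_lit 684)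 (nat_lit 981364419) (nat_lit 297) (nat_lit 1) (nat_lit 296) (nat_lit 1) (nat_lit 305) (nat_lit 1) (nat_lit 401) (nat_lit 398) (nat_lit 341)) (XT.nd (nat_lit 78) (nat_lit 0) (nat_lit 0) (XT.lf (nat_lit 684) (nat_lit 1356199849) (nat_lit 0) (nat_lit 1041304058) (nat_lit 608) (nat_lit 1041304058) (nat_lit 297) (nat_lit 1) (nat_lit 288) (nat_lit 1) (nat_lit 296) (nat_lit 1) (nat_lit 402) (nat_lit 398) (nat_lit 340)) (XT.lf (nat_lit 76) (nat_lit 376291065) (nat_lit 0) (nat_lit 2658282289) (nat_lit 684) (nat_lit 376291065) (nat_lit 289) (nat_lit 1) (nat_lit 288) (nat_lit 1) (nat_lit 297) (nat_lit 1) (nat_lit 403) (nat_lit 398) (nat_lit 339)))))) (XT.nd (nat_lit 312) (nat_lit 1672) (nat_lit 0) (XT.nd (nat_lit 156) (nat_lit 532) (nat_lit 0) (XT.nd (nat_lit 78) (nat_lit 684) (nat_lit 0) (XT.lf (nat_lit 608) (nat_lit 143311353) (nat_lit 0) (nat_lit 1619907257) (nat_lit 532) (nat_lit 1619907257) (nat_lit 289) (nat_lit 1) (nat_lit 281) (nat_lit 1) (nat_lit 288) (nat_lit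 1) (nat_lit 404) (nat_lit 398) (nat_lit 338)) (XT.lf (nat_lit 684) (nat_lit 2903825199) (nat_lit 0) (nat_lit 225984424) (nat_lit 608) (nat_lit 225984424) (nat_lit 281) (nat_lit 1) (nat_lit 272) (nat_lit 1) (nat_lit 280) (nat_lit 1) (nat_lit 405) (nat_lit 398) (nat_lit 337))) (XT.nd (nat_lit 78) (nat_lit 532) (nat_lit 0) (XT.lf (nat_lit 76) (nat_lit 1138007540) (nat_lit 0) (nat_lit 1052587749) (nat_lit 684) (nat_lit 1138007540) (nat_lit 273) (nat_lit 1) (nat_lit 272) (nat_lit 1) (nat_lit 281) (nat_lit 1) (nat_lit 406) (nat_lit 398) (nat_lit 336)) (XT.lf (nat_lit 608) (nat_lit 1653590045) (nat_lit 0) (nat_lit 824109472) (nat_lit 532) (nat_lit 824109472) (nat_lit 273) (nat_lit 1) (nat_lit 265) (nat_lit 1) (nat_lit 272) (nat_lit 1) (nat_lit 407) (nat_lit 398) (nat_lit 335)))) (XT.nd (nat_lit 156) (nat_lit 1140) (nat_lit 0) (XT.nd (nat_lit 78) (nat_lit 532) (nat_lit 0) (XT.lf (nat_lit 76) (nat_lit 516209247) (nat_lit 0) (nat_lit 2242907301) (nat_lit 608) (nat_lit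 516209247) (nat_lit 266) (nat_lit 1) (nat_lit 265) (nat_lit 1) (nat_lit 273) (nat_lit 1) (nat_lit 408) (nat_lit 398) (nat_lit 334)) (XT.lf (nat_lit 608) (nat_lit 408670810) (nat_lit 0) (nat_lit 1420200868) (nat_lit 532) (nat_lit 1420200868) (nat_lit 266) (nat_lit 1) (nat_lit 258) (nat_lit 1) (nat_lit 265) (nat_lit 1) (nat_lit 409) (nat_lit 398) (nat_lit 333))) (XT.nd (nat_lit 78) (nat_lit 532) (nat_lit 0) (XT.lf (nat_lit 608) (nat_lit 3019026803) (nat_lit 0) (nat_lit 102100317) (nat_lit 532) (nat_lit 102100317) (nat_lit 258) (nat_lit 1) (nat_lit 250) (nat_lit 1) (nat_lit 257) (nat_lit 1) (nat_lit 410) (nat_lit 398) (nat_lit 332)) (XT.nd (nat_lit 78) (nat_lit 532) (nat_lit 0) (XT.lf (nat_lit 76) (nat_lit 1189021609) (nat_lit 0) (nat_lit 819401820) (nat_lit 608) (nat_lit 1189021609) (nat_lit 251) (nat_lit 1) (nat_lit 250) (nat_lit 1) (nat_lit 258) (nat_lit 1) (nat_lit 411) (nat_lit 398) (nat_lit 331)) (XT.lf (nat_lit 608) (nat_lit 1744237138) (nat_lit 0) (nat_lit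 713912668) (nat_lit 532) (nat_lit 713912668) (nat_lit 251) (nat_lit 1) (nat_lit 243) (nat_lit 1) (nat_lit 250) (nat_lit 1) (nat_lit 412) (nat_lit 398) (nat_lit 330))))))))
noncomputable def ec50 : XT := (XT.nd (nat_lit 54366) (nat_lit 0) (nat_lit 21128) (XT.nd (nat_lit 702) (nat_lit 456) (nat_lit 0) (XT.nd (nat_lit 312) (nat_lit 1444) (nat_lit 0) (XT.nd (nat_lit 156) (nat_lit 608) (nat_lit 0) (XT.nd (nat_lit 78) (nat_lit 456) (nat_lit 0) (XT.lf (nat_lit 76) (nat_lit 555653694) (nat_lit 0) (nat_lit 2035643725) (nat_lit 608) (nat_lit 555653694) (nat_lit 244) (nat_lit 1) (nat_lit 243) (nat_lit 1) (nat_lit 251) (nat_lit 1) (nat_lit 413) (nat_lit 398) (nat_lit 329)) (XT.lf (nat_lit 532) (nat_lit 477395633) (nat_lit 0) (nat_lit 1322336951) (nat_lit 456) (nat_lit 1322336951) (nat_lit 244) (nat_lit 1) (nat_lit 237) (nat_lit 1) (nat_lit 243) (nat_lit 1) (nat_lit 414) (nat_lit 398) (nat_lit 328))) (XT.nd (nat_lit 78) (nat_lit 0) (nat_lit 0) (XT.lf (nat_lit 608) (nat_lit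 2951296168) (nat_lit 0) (nat_lit 73139651) (nat_lit 532) (nat_lit 73139651) (nat_lit 237) (nat_lit 1) (nat_lit 229) (nat_lit 1) (nat_lit 236) (nat_lit 1) (nat_lit 415) (nat_lit 398) (nat_lit 327)) (XT.lf (nat_lit 76) (nat_lit 1151184471) (nat_lit 0) (nat_lit 770748729) (nat_lit 608) (nat_lit 1151184471) (nat_lit 230) (nat_lit 1) (nat_lit 229) (nat_lit 1) (nat_lit 237) (nat_lit 1) (nat_lit 416) (nat_lit 398) (nat_lit 326)))) (XT.nd (nat_lit 156) (nat_lit 988) (nat_lit 0) (XT.nd (nat_lit 78) (nat_lit 0) (nat_lit 0) (XT.lf (nat_lit 532) (nat_lit 1661095063) (nat_lit 0) (nat_lit 693972473) (nat_lit 456) (nat_lit 693972473) (nat_lit 230) (nat_lit 1) (nat_lit 223) (nat_lit 1) (nat_lit 229) (nat_lit 1) (nat_lit 417) (nat_lit 398) (nat_lit 325)) (XT.lf (nat_lit 76) (nat_lit 510697276) (nat_lit 0) (nat_lit 2003824208) (nat_lit 532) (nat_lit 510697276) (nat_lit 224) (nat_lit 1) (nat_lit 223) (nat_lit 1) (nat_lit 230) (nat_lit 1) (nat_lit 418) (nat_lit 398) (nat_lit 324)))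 (XT.nd (nat_lit 78) (nat_lit 532) (nat_lit 0) (XT.lf (nat_lit 532) (nat_lit 381054135) (nat_lit 0) (nat_lit 1310275984) (nat_lit 456) (nat_lit 1310275984) (nat_lit 224) (nat_lit 1) (nat_lit 217) (nat_lit 1) (nat_lit 223) (nat_lit 1) (nat_lit 419) (nat_lit 398) (nat_lit 323)) (XT.nd (nat_lit 78) (nat_lit 0) (nat_lit 0) (XT.lf (nat_lit 532) (nat_lit 2730727715) (nat_lit 0) (nat_lit 123807147) (nat_lit 456) (nat_lit 123807147) (nat_lit 217) (nat_lit 1) (nat_lit 210) (nat_lit 1) (nat_lit 216) (nat_lit 1) (nat_lit 420) (nat_lit 398) (nat_lit 322)) (XT.lf (nat_lit 76) (nat_lit 1039172490) (nat_lit 0) (nat_lit 876785986) (nat_lit 532) (nat_lit 1039172490) (nat_lit 211) (nat_lit 1) (nat_lit 210) (nat_lit 1) (nat_lit 217) (nat_lit 1) (nat_lit 421) (nat_lit 398) (nat_lit 321)))))) (XT.nd (nat_lit 53274) (nat_lit 0) (nat_lit 22344) (XT.nd (nat_lit 53118) (nat_lit 0) (nat_lit 22268) (XT.nd (nat_lit 78) (nat_lit 0) (nat_lit 0) (XT.lf (nat_lit 532) (nat_lit 1432985738) (nat_lit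 0) (nat_lit 749638101) (nat_lit 456) (nat_lit 749638101) (nat_lit 211) (nat_lit 1) (nat_lit 204) (nat_lit 1) (nat_lit 210) (nat_lit 1) (nat_lit 422) (nat_lit 398) (nat_lit 320)) (XT.lf (nat_lit 76) (nat_lit 395395312) (nat_lit 0) (nat_lit 2118864623) (nat_lit 532) (nat_lit 395395312) (nat_lit 205) (nat_lit 1) (nat_lit 204) (nat_lit 1) (nat_lit 211) (nat_lit 1) (nat_lit 423) (nat_lit 398) (nat_lit 319))) (XT.nd (nat_lit 78) (nat_lit 0) (nat_lit 0) (XT.lf (nat_lit 1900) (nat_lit 982626831) (nat_lit 0) (nat_lit 990843877) (nat_lit 1900) (nat_lit 982626831) (nat_lit 522) (nat_lit 1) (nat_lit 497) (nat_lit 0) (nat_lit 522) (nat_lit 0) (nat_lit 342) (nat_lit 399) (nat_lit 399)) (XT.lf (nat_lit 1900) (nat_lit 3885454231) (nat_lit 76) (nat_lit 984325167) (nat_lit 0) (nat_lit 984325167) (nat_lit 522) (nat_lit 1) (nat_lit 498) (nat_lit 1) (nat_lit 497) (nat_lit 0) (nat_lit 343) (nat_lit 399) (nat_lit 398)))) (XT.nd (nat_lit 156) (nat_lit 0) (nat_lit 76) (XT.nd (nat_lit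 78) (nat_lit 0) (nat_lit 0) (XT.lf (nat_lit 1900) (nat_lit 1907776522) (nat_lit 0) (nat_lit 1981095497) (nat_lit 1824) (nat_lit 1907776522) (nat_lit 523) (nat_lit 1) (nat_lit 498) (nat_lit 1) (nat_lit 522) (nat_lit 1) (nat_lit 344) (nat_lit 399) (nat_lit 397)) (XT.lf (nat_lit 1900) (nat_lit 3733988947) (nat_lit 76) (nat_lit 1003037300) (nat_lit 0) (nat_lit 1003037300) (nat_lit 523) (nat_lit 1) (nat_lit 499) (nat_lit 1) (nat_lit 498) (nat_lit 1) (nat_lit 345) (nat_lit 399) (nat_lit 396))) (XT.nd (nat_lit 78) (nat_lit 0) (nat_lit 0) (XT.lf (nat_lit 1900) (nat_lit 1814647871) (nat_lit 0) (nat_lit 2054807450) (nat_lit 1824) (nat_lit 1814647871) (nat_lit 524) (nat_lit 1) (nat_lit 499) (nat_lit 1) (nat_lit 523) (nat_lit 1) (nat_lit 346) (nat_lit 399) (nat_lit 395)) (XT.nd (nat_lit 78) (nat_lit 0) (nat_lit 76) (XT.lf (nat_lit 1900) (nat_lit 3513136875) (nat_lit 76) (nat_lit 1057919078) (nat_lit 0) (nat_lit 1057919078) (nat_lit 524) (nat_lit 1) (nat_lit 500) (nat_lit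 1) (nat_lit 499) (nat_lit 1) (nat_lit 347) (nat_lit 399) (nat_lit 394)) (XT.lf (nat_lit 1900) (nat_lit 1687994912) (nat_lit 0) (nat_lit 2198481796) (nat_lit 1824) (nat_lit 1687994912) (nat_lit 525) (nat_lit 1) (nat_lit 500) (nat_lit 1) (nat_lit 524) (nat_lit 1) (nat_lit 348) (nat_lit 399) (nat_lit 393))))))) (XT.nd (nat_lit 702) (nat_lit 1368) (nat_lit 0) (XT.nd (nat_lit 312) (nat_lit 0) (nat_lit 152) (XT.nd (nat_lit 156) (nat_lit 0) (nat_lit 76) (XT.nd (nat_lit 78) (nat_lit 0) (nat_lit 76) (XT.lf (nat_lit 1900) (nat_lit 3227068237) (nat_lit 76) (nat_lit 1146842533) (nat_lit 0) (nat_lit 1146842533) (nat_lit 525) (nat_lit 1) (nat_lit 501) (nat_lit 1) (nat_lit 500) (nat_lit 1) (nat_lit 349) (nat_lit 399) (nat_lit 392)) (XT.lf (nat_lit 1900) (nat_lit 1529847683) (nat_lit 0) (nat_lit 2407973874) (nat_lit 1824) (nat_lit 1529847683) (nat_lit 526) (nat_lit 1) (nat_lit 501) (nat_lit 1) (nat_lit 525) (nat_lit 1) (nat_lit 350) (nat_lit 399) (nat_lit 391))) (XT.nd (nat_lit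 78) (nat_lit 0) (nat_lit 76) (XT.lf (nat_lit 1900) (nat_lit 2879762385) (nat_lit 76) (nat_lit 1267776516) (nat_lit 0) (nat_lit 1267776516) (nat_lit 526) (nat_lit 1) (nat_lit 502) (nat_lit 1) (nat_lit 501) (nat_lit 1) (nat_lit 351) (nat_lit 399) (nat_lit 390)) (XT.lf (nat_lit 1900) (nat_lit 1342143113) (nat_lit 0) (nat_lit 2679327965) (nat_lit 1824) (nat_lit 1342143113) (nat_lit 527) (nat_lit 1) (nat_lit 502) (nat_lit 1) (nat_lit 526) (nat_lit 1) (nat_lit 352) (nat_lit 399) (nat_lit 389)))) (XT.nd (nat_lit 156) (nat_lit 0) (nat_lit 76) (XT.nd (nat_lit 78) (nat_lit 0) (nat_lit 76) (XT.lf (nat_lit 1900) (nat_lit 2475015777) (nat_lit 76) (nat_lit 1418782654) (nat_lit 0) (nat_lit 1418782654) (nat_lit 527) (nat_lit 1) (nat_lit 503) (nat_lit 1) (nat_lit 502) (nat_lit 1) (nat_lit 353) (nat_lit 399) (nat_lit 388)) (XT.lf (nat_lit 1900) (nat_lit 1126728918) (nat_lit 0) (nat_lit 3008769404) (nat_lit 1824) (nat_lit 1126728918) (nat_lit 528) (nat_lit 1) (nat_lit 503) (nat_lit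 1) (nat_lit 527) (nat_lit 1) (nat_lit 354) (nat_lit 399) (nat_lit 387))) (XT.nd (nat_lit 78) (nat_lit 0) (nat_lit 76) (XT.lf (nat_lit 1900) (nat_lit 2016449632) (nat_lit 76) (nat_lit 1598011481) (nat_lit 0) (nat_lit 1598011481) (nat_lit 528) (nat_lit 1) (nat_lit 504) (nat_lit 1) (nat_lit 503) (nat_lit 1) (nat_lit 355) (nat_lit 399) (nat_lit 386)) (XT.nd (nat_lit 78) (nat_lit 0) (nat_lit 0) (XT.lf (nat_lit 1900) (nat_lit 885367339) (nat_lit 0) (nat_lit 3392697013) (nat_lit 1824) (nat_lit 885367339) (nat_lit 529) (nat_lit 1) (nat_lit 504) (nat_lit 1) (nat_lit 528) (nat_lit 1) (nat_lit 356) (nat_lit 399) (nat_lit 385)) (XT.lf (nat_lit 1900) (nat_lit 1507517288) (nat_lit 76) (nat_lit 1803698714) (nat_lit 0) (nat_lit 1803698714) (nat_lit 529) (nat_lit 1) (nat_lit 505) (nat_lit 1) (nat_lit 504) (nat_lit 1) (nat_lit 357) (nat_lit 399) (nat_lit 384)))))) (XT.nd (nat_lit 312) (nat_lit 1748) (nat_lit 0) (XT.nd (nat_lit 156) (nat_lit 0) (nat_lit 76) (XT.nd (nat_lit 78)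 (nat_lit 0) (nat_lit 0) (XT.lf (nat_lit 1900) (nat_lit 619738733) (nat_lit 0) (nat_lit 3827675835) (nat_lit 1824) (nat_lit 619738733) (nat_lit 530) (nat_lit 1) (nat_lit 505) (nat_lit 1) (nat_lit 529) (nat_lit 1) (nat_lit 358) (nat_lit 399) (nat_lit 383)) (XT.lf (nat_lit 1900) (nat_lit 951511248) (nat_lit 76) (nat_lit 2034161684) (nat_lit 0) (nat_lit 2034161684) (nat_lit 530) (nat_lit 1) (nat_lit 506) (nat_lit 1) (nat_lit 505) (nat_lit 1) (nat_lit 359) (nat_lit 399) (nat_lit 382))) (XT.nd (nat_lit 78) (nat_lit 0) (nat_lit 0) (XT.lf (nat_lit 1900) (nat_lit 331445014) (nat_lit 0) (nat_lit 4310430165) (nat_lit 1824) (nat_lit 331445014) (nat_lit 531) (nat_lit 1) (nat_lit 506) (nat_lit 1) (nat_lit 530) (nat_lit 1) (nat_lit 360) (nat_lit 399) (nat_lit 381)) (XT.lf (nat_lit 1900) (nat_lit 351569955) (nat_lit 76) (nat_lit 2287795911) (nat_lit 0) (nat_lit 2287795911) (nat_lit 531) (nat_lit 1) (nat_lit 507) (nat_lit 1) (nat_lit 506) (nat_lit 1) (nat_lit 361) (nat_lit 399)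 (nat_lit 380)))) (XT.nd (nat_lit 156) (nat_lit 0) (nat_lit 0) (XT.nd (nat_lit 78) (nat_lit 1900) (nat_lit 0) (XT.lf (nat_lit 1900) (nat_lit 22012959) (nat_lit 0) (nat_lit 4837836855) (nat_lit 1824) (nat_lit 22012959) (nat_lit 532) (nat_lit 1) (nat_lit 507) (nat_lit 1) (nat_lit 531) (nat_lit 1) (nat_lit 362) (nat_lit 399) (nat_lit 379)) (XT.lf (nat_lit 1976) (nat_lit 2275634527) (nat_lit 0) (nat_lit 285521288) (nat_lit 1900) (nat_lit 2275634527) (nat_lit 508) (nat_lit 1) (nat_lit 482) (nat_lit 1) (nat_lit 507) (nat_lit 1) (nat_lit 363) (nat_lit 399) (nat_lit 378))) (XT.nd (nat_lit 78) (nat_lit 0) (nat_lit 76) (XT.lf (nat_lit 1976) (nat_lit 4182389187) (nat_lit 76) (nat_lit 305082209) (nat_lit 0) (nat_lit 305082209) (nat_lit 508) (nat_lit 1) (nat_lit 483) (nat_lit 1) (nat_lit 482) (nat_lit 1) (nat_lit 364) (nat_lit 399) (nat_lit 377)) (XT.nd (nat_lit 78) (nat_lit 0) (nat_lit 0) (XT.lf (nat_lit 1976) (nat_lit 1896522158) (nat_lit 0) (nat_lit 955596842) (nat_lit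 1900) (nat_lit 1896522158) (nat_lit 509) (nat_lit 1) (nat_lit 483) (nat_lit 1) (nat_lit 508) (nat_lit 1) (nat_lit 365) (nat_lit 399) (nat_lit 376)) (XT.lf (nat_lit 1976) (nat_lit 3405046837) (nat_lit 76) (nat_lit 650209815) (nat_lit 0) (nat_lit 650209815) (nat_lit 509) (nat_lit 1) (nat_lit 484) (nat_lit 1) (nat_lit 483) (nat_lit 1) (nat_lit 366) (nat_lit 399) (nat_lit 375))))))))
noncomputable def ec51 : XT := (XT.nd (nat_lit 1404) (nat_lit 6612) (nat_lit 0) (XT.nd (nat_lit 702) (nat_lit 4028) (nat_lit 0) (XT.nd (nat_lit 312) (nat_lit 2736) (nat_lit 0) (XT.nd (nat_lit 156) (nat_lit 912) (nat_lit 0) (XT.nd (nat_lit 78) (nat_lit 1140) (nat_lit 0) (XT.lf (nat_lit 76) (nat_lit 1501053586) (nat_lit 0) (nat_lit 1660589011) (nat_lit 1900) (nat_lit 1501053586) (nat_lit 485) (nat_lit 1) (nat_lit 484) (nat_lit 1) (nat_lit 509) (nat_lit 1) (nat_lit 367) (nat_lit 399) (nat_lit 374)) (XT.lf (nat_lit 1216) (nat_lit 2596143359) (nat_lit 0) (nat_lit 1012203480) (nat_lit 1140)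 (nat_lit 1012203480) (nat_lit 485) (nat_lit 1) (nat_lit 469) (nat_lit 1) (nat_lit 484) (nat_lit 1) (nat_lit 368) (nat_lit 399) (nat_lit 373))) (XT.nd (nat_lit 78) (nat_lit 912) (nat_lit 0) (XT.lf (nat_lit 76) (nat_lit 1090473308) (nat_lit 0) (nat_lit 2397947108) (nat_lit 1216) (nat_lit 1090473308) (nat_lit 470) (nat_lit 1) (nat_lit 469) (nat_lit 1) (nat_lit 485) (nat_lit 1) (nat_lit 369) (nat_lit 399) (nat_lit 372)) (XT.lf (nat_lit 988) (nat_lit 1758115020) (nat_lit 0) (nat_lit 1389814787) (nat_lit 912) (nat_lit 1389814787) (nat_lit 470) (nat_lit 1) (nat_lit 457) (nat_lit 1) (nat_lit 469) (nat_lit 1) (nat_lit 370) (nat_lit 399) (nat_lit 371)))) (XT.nd (nat_lit 156) (nat_lit 1824) (nat_lit 0) (XT.nd (nat_lit 78) (nat_lit 912) (nat_lit 0) (XT.lf (nat_lit 76) (nat_lit 665965546) (nat_lit 0) (nat_lit 3165242921) (nat_lit 988) (nat_lit 665965546) (nat_lit 458) (nat_lit 1) (nat_lit 457) (nat_lit 1) (nat_lit 470) (nat_lit 1) (nat_lit 371) (nat_lit 399) (nat_lit 370))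 (XT.lf (nat_lit 988) (nat_lit 893279747) (nat_lit 0) (nat_lit 1781855437) (nat_lit 912) (nat_lit 1781855437) (nat_lit 458) (nat_lit 1) (nat_lit 445) (nat_lit 1) (nat_lit 457) (nat_lit 1) (nat_lit 372) (nat_lit 399) (nat_lit 369))) (XT.nd (nat_lit 78) (nat_lit 1824) (nat_lit 0) (XT.lf (nat_lit 76) (nat_lit 228656824) (nat_lit 0) (nat_lit 3960165496) (nat_lit 988) (nat_lit 228656824) (nat_lit 446) (nat_lit 1) (nat_lit 445) (nat_lit 1) (nat_lit 458) (nat_lit 1) (nat_lit 373) (nat_lit 399) (nat_lit 368)) (XT.nd (nat_lit 78) (nat_lit 988) (nat_lit 0) (XT.lf (nat_lit 912) (nat_lit 3842183) (nat_lit 0) (nat_lit 2187194680) (nat_lit 836) (nat_lit 2187194680) (nat_lit 446) (nat_lit 1) (nat_lit 434) (nat_lit 1) (nat_lit 445) (nat_lit 1) (nat_lit 374) (nat_lit 399) (nat_lit 367)) (XT.lf (nat_lit 988) (nat_lit 3901774779) (nat_lit 0) (nat_lit 218931685) (nat_lit 912) (nat_lit 218931685) (nat_lit 434) (nat_lit 1) (nat_lit 421) (nat_lit 1) (nat_lit 433) (nat_lit 1) (nat_lit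 375) (nat_lit 399) (nat_lit 366)))))) (XT.nd (nat_lit 312) (nat_lit 2356) (nat_lit 0) (XT.nd (nat_lit 156) (nat_lit 836) (nat_lit 0) (XT.nd (nat_lit 78) (nat_lit 836) (nat_lit 0) (XT.lf (nat_lit 76) (nat_lit 1702551402) (nat_lit 0) (nat_lit 896191540) (nat_lit 988) (nat_lit 1702551402) (nat_lit 422) (nat_lit 1) (nat_lit 421) (nat_lit 1) (nat_lit 434) (nat_lit 1) (nat_lit 376) (nat_lit 399) (nat_lit 365)) (XT.lf (nat_lit 912) (nat_lit 2912273499) (nat_lit 0) (nat_lit 675656635) (nat_lit 836) (nat_lit 675656635) (nat_lit 422) (nat_lit 1) (nat_lit 410) (nat_lit 1) (nat_lit 421) (nat_lit 1) (nat_lit 377) (nat_lit 399) (nat_lit 364))) (XT.nd (nat_lit 78) (nat_lit 836) (nat_lit 0) (XT.lf (nat_lit 76) (nat_lit 1204910466) (nat_lit 0) (nat_lit 1816419458) (nat_lit 912) (nat_lit 1204910466) (nat_lit 411) (nat_lit 1) (nat_lit 410) (nat_lit 1) (nat_lit 422) (nat_lit 1) (nat_lit 378) (nat_lit 399) (nat_lit 363)) (XT.lf (nat_lit 912) (nat_lit 1905270251) (nat_lit 0) (nat_lit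 1142060863) (nat_lit 836) (nat_lit 1142060863) (nat_lit 411) (nat_lit 1) (nat_lit 399) (nat_lit 1) (nat_lit 410) (nat_lit 1) (nat_lit 379) (nat_lit 399) (nat_lit 362)))) (XT.nd (nat_lit 156) (nat_lit 1596) (nat_lit 0) (XT.nd (nat_lit 78) (nat_lit 760) (nat_lit 0) (XT.lf (nat_lit 76) (nat_lit 698997517) (nat_lit 0) (nat_lit 2755023642) (nat_lit 912) (nat_lit 698997517) (nat_lit 400) (nat_lit 1) (nat_lit 399) (nat_lit 1) (nat_lit 411) (nat_lit 1) (nat_lit 380) (nat_lit 399) (nat_lit 361)) (XT.lf (nat_lit 836) (nat_lit 882541237) (nat_lit 0) (nat_lit 1617230973) (nat_lit 760) (nat_lit 1617230973) (nat_lit 400) (nat_lit 1) (nat_lit 389) (nat_lit 1) (nat_lit 399) (nat_lit 1) (nat_lit 381) (nat_lit 399) (nat_lit 360))) (XT.nd (nat_lit 78) (nat_lit 1596) (nat_lit 0) (XT.lf (nat_lit 76) (nat_lit 185674866) (nat_lit 0) (nat_lit 3710229543) (nat_lit 836) (nat_lit 185674866) (nat_lit 390) (nat_lit 1) (nat_lit 389) (nat_lit 1) (nat_lit 400) (nat_lit 1) (nat_lit 382) (nat_lit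 399) (nat_lit 359)) (XT.nd (nat_lit 78) (nat_lit 760) (nat_lit 0) (XT.lf (nat_lit 76) (nat_lit 1947073111) (nat_lit 0) (nat_lit 152205088) (nat_lit 836) (nat_lit 1947073111) (nat_lit 379) (nat_lit 1) (nat_lit 378) (nat_lit 1) (nat_lit 389) (nat_lit 1) (nat_lit 383) (nat_lit 399) (nat_lit 358)) (XT.lf (nat_lit 836) (nat_lit 3347618930) (nat_lit 0) (nat_lit 332040328) (nat_lit 760) (nat_lit 332040328) (nat_lit 379) (nat_lit 1) (nat_lit 368) (nat_lit 1) (nat_lit 378) (nat_lit 1) (nat_lit 384) (nat_lit 399) (nat_lit 357))))))) (XT.nd (nat_lit 702) (nat_lit 3040) (nat_lit 0) (XT.nd (nat_lit 312) (nat_lit 2128) (nat_lit 0) (XT.nd (nat_lit 156) (nat_lit 684) (nat_lit 0) (XT.nd (nat_lit 78) (nat_lit 760) (nat_lit 0) (XT.lf (nat_lit 76) (nat_lit 1394819098) (nat_lit 0) (nat_lit 1187654413) (nat_lit 836) (nat_lit 1394819098) (nat_lit 369) (nat_lit 1) (nat_lit 368) (nat_lit 1) (nat_lit 379) (nat_lit 1) (nat_lit 385) (nat_lit 399) (nat_lit 356)) (XT.lf (nat_lit 836) (nat_lit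 2234784748) (nat_lit 0) (nat_lit 854311163) (nat_lit 760) (nat_lit 854311163) (nat_lit 369) (nat_lit 1) (nat_lit 358) (nat_lit 1) (nat_lit 368) (nat_lit 1) (nat_lit 386) (nat_lit 399) (nat_lit 355))) (XT.nd (nat_lit 78) (nat_lit 684) (nat_lit 0) (XT.lf (nat_lit 76) (nat_lit 838005439) (nat_lit 0) (nat_lit 2233884888) (nat_lit 836) (nat_lit 838005439) (nat_lit 359) (nat_lit 1) (nat_lit 358) (nat_lit 1) (nat_lit 369) (nat_lit 1) (nat_lit 387) (nat_lit 399) (nat_lit 354)) (XT.lf (nat_lit 760) (nat_lit 1113496749) (nat_lit 0) (nat_lit 1381628312) (nat_lit 684) (nat_lit 1381628312) (nat_lit 359) (nat_lit 1) (nat_lit 349) (nat_lit 1) (nat_lit 358) (nat_lit 1) (nat_lit 388) (nat_lit 399) (nat_lit 353)))) (XT.nd (nat_lit 156) (nat_lit 1368) (nat_lit 0) (XT.nd (nat_lit 78) (nat_lit 760) (nat_lit 0) (XT.lf (nat_lit 76) (nat_lit 277319078) (nat_lit 0) (nat_lit 3289478084) (nat_lit 760) (nat_lit 277319078) (nat_lit 350) (nat_lit 1) (nat_lit 349) (nat_lit 1) (nat_lit 359)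 (nat_lit 1) (nat_lit 389) (nat_lit 399) (nat_lit 352)) (XT.lf (nat_lit 76) (nat_lit 1898492258) (nat_lit 0) (nat_lit 14708260) (nat_lit 760) (nat_lit 1898492258) (nat_lit 340) (nat_lit 1) (nat_lit 339) (nat_lit 1) (nat_lit 349) (nat_lit 1) (nat_lit 390) (nat_lit 399) (nat_lit 351))) (XT.nd (nat_lit 78) (nat_lit 684) (nat_lit 0) (XT.lf (nat_lit 760) (nat_lit 3210352974) (nat_lit 0) (nat_lit 284704251) (nat_lit 684) (nat_lit 284704251) (nat_lit 340) (nat_lit 1) (nat_lit 330) (nat_lit 1) (nat_lit 339) (nat_lit 1) (nat_lit 391) (nat_lit 399) (nat_lit 350)) (XT.nd (nat_lit 78) (nat_lit 684) (nat_lit 0) (XT.lf (nat_lit 76) (nat_lit 1306981698) (nat_lit 0) (nat_lit 1134076012) (nat_lit 760) (nat_lit 1306981698) (nat_lit 331) (nat_lit 1) (nat_lit 330) (nat_lit 1) (nat_lit 340) (nat_lit 1) (nat_lit 392) (nat_lit 399) (nat_lit 349)) (XT.lf (nat_lit 760) (nat_lit 2021806704) (nat_lit 0) (nat_lit 847493170) (nat_lit 684) (nat_lit 847493170) (nat_lit 331) (nat_lit 1) (nat_lit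 321) (nat_lit 1) (nat_lit 330) (nat_lit 1) (nat_lit 393) (nat_lit 399) (nat_lit 348)))))) (XT.nd (nat_lit 312) (nat_lit 1748) (nat_lit 0) (XT.nd (nat_lit 156) (nat_lit 684) (nat_lit 0) (XT.nd (nat_lit 78) (nat_lit 608) (nat_lit 0) (XT.lf (nat_lit 76) (nat_lit 713935739) (nat_lit 0) (nat_lit 2258025337) (nat_lit 760) (nat_lit 713935739) (nat_lit 322) (nat_lit 1) (nat_lit 321) (nat_lit 1) (nat_lit 331) (nat_lit 1) (nat_lit 394) (nat_lit 399) (nat_lit 347)) (XT.lf (nat_lit 684) (nat_lit 830726613) (nat_lit 0) (nat_lit 1412294250) (nat_lit 608) (nat_lit 1412294250) (nat_lit 322) (nat_lit 1) (nat_lit 313) (nat_lit 1) (nat_lit 321) (nat_lit 1) (nat_lit 395) (nat_lit 399) (nat_lit 346))) (XT.nd (nat_lit 78) (nat_lit 684) (nat_lit 0) (XT.lf (nat_lit 76) (nat_lit 119894484) (nat_lit 0) (nat_lit 3385436211) (nat_lit 684) (nat_lit 119894484) (nat_lit 314) (nat_lit 1) (nat_lit 313) (nat_lit 1) (nat_lit 322) (nat_lit 1) (nat_lit 396) (nat_lit 399) (nat_lit 345)) (XT.lf (nat_lit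 76) (nat_lit 1619076397) (nat_lit 0) (nat_lit 357088746) (nat_lit 684) (nat_lit 1619076397) (nat_lit 305) (nat_lit 1) (nat_lit 304) (nat_lit 1) (nat_lit 313) (nat_lit 1) (nat_lit 397) (nat_lit 399) (nat_lit 344)))) (XT.nd (nat_lit 156) (nat_lit 1140) (nat_lit 0) (XT.nd (nat_lit 78) (nat_lit 0) (nat_lit 0) (XT.lf (nat_lit 684) (nat_lit 2622718940) (nat_lit 0) (nat_lit 471509778) (nat_lit 608) (nat_lit 471509778) (nat_lit 305) (nat_lit 1) (nat_lit 296) (nat_lit 1) (nat_lit 304) (nat_lit 1) (nat_lit 398) (nat_lit 399) (nat_lit 343)) (XT.lf (nat_lit 76) (nat_lit 1000991707) (nat_lit 0) (nat_lit 1534489956) (nat_lit 684) (nat_lit 1000991707) (nat_lit 297) (nat_lit 1) (nat_lit 296) (nat_lit 1) (nat_lit 305) (nat_lit 1) (nat_lit 399) (nat_lit 399) (nat_lit 342))) (XT.nd (nat_lit 78) (nat_lit 532) (nat_lit 0) (XT.lf (nat_lit 684) (nat_lit 1383323846) (nat_lit 0) (nat_lit 1062130139) (nat_lit 608) (nat_lit 1062130139) (nat_lit 297) (nat_lit 1) (nat_lit 288) (nat_lit 1)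 (nat_lit 296) (nat_lit 1) (nat_lit 400) (nat_lit 399) (nat_lit 341)) (XT.nd (nat_lit 78) (nat_lit 532) (nat_lit 0) (XT.lf (nat_lit 76) (nat_lit 383816886) (nat_lit 0) (nat_lit 2711447934) (nat_lit 684) (nat_lit 383816886) (nat_lit 289) (nat_lit 1) (nat_lit 288) (nat_lit 1) (nat_lit 297) (nat_lit 1) (nat_lit 401) (nat_lit 399) (nat_lit 340)) (XT.lf (nat_lit 608) (nat_lit 146177580) (nat_lit 0) (nat_lit 1652305402) (nat_lit 532) (nat_lit 1652305402) (nat_lit 289) (nat_lit 1) (nat_lit 281) (nat_lit 1) (nat_lit 288) (nat_lit 1) (nat_lit 402) (nat_lit 399) (nat_lit 339))))))))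
noncomputable def ec52 : XT := (XT.nd (nat_lit 1404) (nat_lit 380) (nat_lit 0) (XT.nd (nat_lit 702) (nat_lit 2964) (nat_lit 0) (XT.nd (nat_lit 312) (nat_lit 1672) (nat_lit 0) (XT.nd (nat_lit 156) (nat_lit 532) (nat_lit 0) (XT.nd (nat_lit 78) (nat_lit 0) (nat_lit 0) (XT.lf (nat_lit 684) (nat_lit 2961901703) (nat_lit 0) (nat_lit 230504112) (nat_lit 608) (nat_lit 230504112) (nat_lit 281) (nat_lit 1) (nat_lit 272) (nat_lit 1) (nat_lit 280) (nat_lit 1) (nat_lit 403) (nat_lit 399) (nat_lit 338)) (XT.lf (nat_lit 76) (nat_lit 1160767691) (nat_lit 0) (nat_lit 1073639504) (nat_lit 684) (nat_lit 1160767691) (nat_lit 273) (nat_lit 1) (nat_lit 272) (nat_lit 1) (nat_lit 281) (nat_lit 1) (nat_lit 404) (nat_lit 399) (nat_lit 337))) (XT.nd (nat_lit 78) (nat_lit 0) (nat_lit 0) (XT.lf (nat_lit 608) (nat_lit 1686661846) (nat_lit 0) (nat_lit 840591661) (nat_lit 532) (nat_lit 840591661) (nat_lit 273) (nat_lit 1) (nat_lit 265) (nat_lit 1) (nat_lit 272) (nat_lit 1) (nat_lit 405) (nat_lit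 399) (nat_lit 336)) (XT.lf (nat_lit 76) (nat_lit 526533432) (nat_lit 0) (nat_lit 2287765447) (nat_lit 608) (nat_lit 526533432) (nat_lit 266) (nat_lit 1) (nat_lit 265) (nat_lit 1) (nat_lit 273) (nat_lit 1) (nat_lit 406) (nat_lit 399) (nat_lit 335)))) (XT.nd (nat_lit 156) (nat_lit 532) (nat_lit 0) (XT.nd (nat_lit 78) (nat_lit 608) (nat_lit 0) (XT.lf (nat_lit 608) (nat_lit 416844226) (nat_lit 0) (nat_lit 1448604886) (nat_lit 532) (nat_lit 1448604886) (nat_lit 266) (nat_lit 1) (nat_lit 258) (nat_lit 1) (nat_lit 265) (nat_lit 1) (nat_lit 407) (nat_lit 399) (nat_lit 334)) (XT.lf (nat_lit 608) (nat_lit 3079407339) (nat_lit 0) (nat_lit 104142323) (nat_lit 532) (nat_lit 104142323) (nat_lit 258) (nat_lit 1) (nat_lit 250) (nat_lit 1) (nat_lit 257) (nat_lit 1) (nat_lit 408) (nat_lit 399) (nat_lit 333))) (XT.nd (nat_lit 78) (nat_lit 532) (nat_lit 0) (XT.lf (nat_lit 76) (nat_lit 1212802041) (nat_lit 0) (nat_lit 835789857) (nat_lit 608) (nat_lit 1212802041) (nat_lit 251) (nat_lit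 1) (nat_lit 250) (nat_lit 1) (nat_lit 258) (nat_lit 1) (nat_lit 409) (nat_lit 399) (nat_lit 332)) (XT.nd (nat_lit 78) (nat_lit 0) (nat_lit 0) (XT.lf (nat_lit 608) (nat_lit 1779121881) (nat_lit 0) (nat_lit 728190922) (nat_lit 532) (nat_lit 728190922) (nat_lit 251) (nat_lit 1) (nat_lit 243) (nat_lit 1) (nat_lit 250) (nat_lit 1) (nat_lit 410) (nat_lit 399) (nat_lit 331)) (XT.lf (nat_lit 76) (nat_lit 566766768) (nat_lit 0) (nat_lit 2076356600) (nat_lit 608) (nat_lit 566766768) (nat_lit 244) (nat_lit 1) (nat_lit 243) (nat_lit 1) (nat_lit 251) (nat_lit 1) (nat_lit 411) (nat_lit 399) (nat_lit 330)))))) (XT.nd (nat_lit 312) (nat_lit 1444) (nat_lit 0) (XT.nd (nat_lit 156) (nat_lit 456) (nat_lit 0) (XT.nd (nat_lit 78) (nat_lit 608) (nat_lit 0) (XT.lf (nat_lit 532) (nat_lit 486943545) (nat_lit 0) (nat_lit 1348783690) (nat_lit 456) (nat_lit 1348783690) (nat_lit 244) (nat_lit 1) (nat_lit 237) (nat_lit 1) (nat_lit 243) (nat_lit 1) (nat_lit 412) (nat_lit 399) (nat_lit 329))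 (XT.lf (nat_lit 608) (nat_lit 3010322091) (nat_lit 0) (nat_lit 74602444) (nat_lit 532) (nat_lit 74602444) (nat_lit 237) (nat_lit 1) (nat_lit 229) (nat_lit 1) (nat_lit 236) (nat_lit 1) (nat_lit 413) (nat_lit 399) (nat_lit 328))) (XT.nd (nat_lit 78) (nat_lit 456) (nat_lit 0) (XT.lf (nat_lit 76) (nat_lit 1174208160) (nat_lit 0) (nat_lit 786163704) (nat_lit 608) (nat_lit 1174208160) (nat_lit 230) (nat_lit 1) (nat_lit 229) (nat_lit 1) (nat_lit 237) (nat_lit 1) (nat_lit 414) (nat_lit 399) (nat_lit 327)) (XT.lf (nat_lit 532) (nat_lit 1694316964) (nat_lit 0) (nat_lit 707851922) (nat_lit 456) (nat_lit 707851922) (nat_lit 230) (nat_lit 1) (nat_lit 223) (nat_lit 1) (nat_lit 229) (nat_lit 1) (nat_lit 415) (nat_lit 399) (nat_lit 326)))) (XT.nd (nat_lit 156) (nat_lit 988) (nat_lit 0) (XT.nd (nat_lit 78) (nat_lit 456) (nat_lit 0) (XT.lf (nat_lit 76) (nat_lit 520911222) (nat_lit 0) (nat_lit 2043900692) (nat_lit 532) (nat_lit 520911222) (nat_lit 224) (nat_lit 1) (nat_lit 223)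 (nat_lit 1) (nat_lit 230) (nat_lit 1) (nat_lit 416) (nat_lit 399) (nat_lit 325)) (XT.lf (nat_lit 532) (nat_lit 388675218) (nat_lit 0) (nat_lit 1336481503) (nat_lit 456) (nat_lit 1336481503) (nat_lit 224) (nat_lit 1) (nat_lit 217) (nat_lit 1) (nat_lit 223) (nat_lit 1) (nat_lit 417) (nat_lit 399) (nat_lit 324))) (XT.nd (nat_lit 78) (nat_lit 456) (nat_lit 0) (XT.lf (nat_lit 532) (nat_lit 2785342269) (nat_lit 0) (nat_lit 126283290) (nat_lit 456) (nat_lit 126283290) (nat_lit 217) (nat_lit 1) (nat_lit 210) (nat_lit 1) (nat_lit 216) (nat_lit 1) (nat_lit 418) (nat_lit 399) (nat_lit 323)) (XT.nd (nat_lit 78) (nat_lit 456) (nat_lit 0) (XT.lf (nat_lit 76) (nat_lit 1059955940) (nat_lit 0) (nat_lit 894321706) (nat_lit 532) (nat_lit 1059955940) (nat_lit 211) (nat_lit 1) (nat_lit 210) (nat_lit 1) (nat_lit 217) (nat_lit 1) (nat_lit 419) (nat_lit 399) (nat_lit 322)) (XT.lf (nat_lit 532) (nat_lit 1461645452) (nat_lit 0) (nat_lit 764630863) (nat_lit 456) (nat_lit 764630863) (nat_lit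 211) (nat_lit 1) (nat_lit 204) (nat_lit 1) (nat_lit 210) (nat_lit 1) (nat_lit 420) (nat_lit 399) (nat_lit 321))))))) (XT.nd (nat_lit 53586) (nat_lit 0) (nat_lit 22876) (XT.nd (nat_lit 53196) (nat_lit 0) (nat_lit 22724) (XT.nd (nat_lit 53040) (nat_lit 0) (nat_lit 22648) (XT.nd (nat_lit 78) (nat_lit 380) (nat_lit 0) (XT.lf (nat_lit 76) (nat_lit 403303218) (nat_lit 0) (nat_lit 2161241916) (nat_lit 532) (nat_lit 403303218) (nat_lit 205) (nat_lit 1) (nat_lit 204) (nat_lit 1) (nat_lit 211) (nat_lit 1) (nat_lit 421) (nat_lit 399) (nat_lit 320)) (XT.lf (nat_lit 456) (nat_lit 150192628) (nat_lit 0) (nat_lit 1397385117) (nat_lit 380) (nat_lit 1397385117) (nat_lit 205) (nat_lit 1) (nat_lit 199) (nat_lit 1) (nat_lit 204) (nat_lit 1) (nat_lit 422) (nat_lit 399) (nat_lit 319))) (XT.nd (nat_lit 78) (nat_lit 0) (nat_lit 0) (XT.lf (nat_lit 1900) (nat_lit 1002279368) (nat_lit 0) (nat_lit 1010660754) (nat_lit 1900) (nat_lit 1002279368) (nat_lit 522) (nat_lit 1) (nat_lit 497) (nat_lit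 0) (nat_lit 522) (nat_lit 0) (nat_lit 340) (nat_lit 400) (nat_lit 400)) (XT.lf (nat_lit 1900) (nat_lit 3963163316) (nat_lit 76) (nat_lit 1004011671) (nat_lit 0) (nat_lit 1004011671) (nat_lit 522) (nat_lit 1) (nat_lit 498) (nat_lit 1) (nat_lit 497) (nat_lit 0) (nat_lit 341) (nat_lit 400) (nat_lit 399)))) (XT.nd (nat_lit 156) (nat_lit 0) (nat_lit 76) (XT.nd (nat_lit 78) (nat_lit 0) (nat_lit 0) (XT.lf (nat_lit 1900) (nat_lit 1945932053) (nat_lit 0) (nat_lit 2020717407) (nat_lit 1824) (nat_lit 1945932053) (nat_lit 523) (nat_lit 1) (nat_lit 498) (nat_lit 1) (nat_lit 522) (nat_lit 1) (nat_lit 342) (nat_lit 400) (nat_lit 398)) (XT.lf (nat_lit 1900) (nat_lit 3808668726) (nat_lit 76) (nat_lit 1023098046) (nat_lit 0) (nat_lit 1023098046) (nat_lit 523) (nat_lit 1) (nat_lit 499) (nat_lit 1) (nat_lit 498) (nat_lit 1) (nat_lit 343) (nat_lit 400) (nat_lit 397))) (XT.nd (nat_lit 78) (nat_lit 0) (nat_lit 0) (XT.lf (nat_lit 1900) (nat_lit 1850940828) (nat_lit 0) (nat_lit 2095903599)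 (nat_lit 1824) (nat_lit 1850940828) (nat_lit 524) (nat_lit 1) (nat_lit 499) (nat_lit 1) (nat_lit 523) (nat_lit 1) (nat_lit 344) (nat_lit 400) (nat_lit 396)) (XT.nd (nat_lit 78) (nat_lit 0) (nat_lit 76) (XT.lf (nat_lit 1900) (nat_lit 3583399612) (nat_lit 76) (nat_lit 1079077459) (nat_lit 0) (nat_lit 1079077459) (nat_lit 524) (nat_lit 1) (nat_lit 500) (nat_lit 1) (nat_lit 499) (nat_lit 1) (nat_lit 345) (nat_lit 400) (nat_lit 395)) (XT.lf (nat_lit 1900) (nat_lit 1721754810) (nat_lit 0) (nat_lit 2242451432) (nat_lit 1824) (nat_lit 1721754810) (nat_lit 525) (nat_lit 1) (nat_lit 500) (nat_lit 1) (nat_lit 524) (nat_lit 1) (nat_lit 346) (nat_lit 400) (nat_lit 394)))))) (XT.nd (nat_lit 312) (nat_lit 0) (nat_lit 152) (XT.nd (nat_lit 156) (nat_lit 0) (nat_lit 76) (XT.nd (nat_lit 78) (nat_lit 0) (nat_lit 76) (XT.lf (nat_lit 1900) (nat_lit 3291609602) (nat_lit 76) (nat_lit 1169779384) (nat_lit 0) (nat_lit 1169779384) (nat_lit 525) (nat_lit 1) (nat_lit 501) (nat_lit 1) (nat_lit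 500) (nat_lit 1) (nat_lit 347) (nat_lit 400) (nat_lit 393)) (XT.lf (nat_lit 1900) (nat_lit 1560444637) (nat_lit 0) (nat_lit 2456133352) (nat_lit 1824) (nat_lit 1560444637) (nat_lit 526) (nat_lit 1) (nat_lit 501) (nat_lit 1) (nat_lit 525) (nat_lit 1) (nat_lit 348) (nat_lit 400) (nat_lit 392))) (XT.nd (nat_lit 78) (nat_lit 0) (nat_lit 76) (XT.lf (nat_lit 1900) (nat_lit 2937357633) (nat_lit 76) (nat_lit 1293132046) (nat_lit 0) (nat_lit 1293132046) (nat_lit 526) (nat_lit 1) (nat_lit 502) (nat_lit 1) (nat_lit 501) (nat_lit 1) (nat_lit 349) (nat_lit 400) (nat_lit 391)) (XT.lf (nat_lit 1900) (nat_lit 1368985975) (nat_lit 0) (nat_lit 2732914524) (nat_lit 1824) (nat_lit 1368985975) (nat_lit 527) (nat_lit 1) (nat_lit 502) (nat_lit 1) (nat_lit 526) (nat_lit 1) (nat_lit 350) (nat_lit 400) (nat_lit 390)))) (XT.nd (nat_lit 156) (nat_lit 0) (nat_lit 76) (XT.nd (nat_lit 78) (nat_lit 0) (nat_lit 76) (XT.lf (nat_lit 1900) (nat_lit 2524516092) (nat_lit 76) (nat_lit 1447158307)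 (nat_lit 0) (nat_lit 1447158307) (nat_lit 527) (nat_lit 1) (nat_lit 503) (nat_lit 1) (nat_lit 502) (nat_lit 1) (nat_lit 351) (nat_lit 400) (nat_lit 389)) (XT.lf (nat_lit 1900) (nat_lit 1149263496) (nat_lit 0) (nat_lit 3068944792) (nat_lit 1824) (nat_lit 1149263496) (nat_lit 528) (nat_lit 1) (nat_lit 503) (nat_lit 1) (nat_lit 527) (nat_lit 1) (nat_lit 352) (nat_lit 400) (nat_lit 388))) (XT.nd (nat_lit 78) (nat_lit 0) (nat_lit 76) (XT.lf (nat_lit 1900) (nat_lit 2056778625) (nat_lit 76) (nat_lit 1629971711) (nat_lit 0) (nat_lit 1629971711) (nat_lit 528) (nat_lit 1) (nat_lit 504) (nat_lit 1) (nat_lit 503) (nat_lit 1) (nat_lit 353) (nat_lit 400) (nat_lit 387)) (XT.nd (nat_lit 78) (nat_lit 0) (nat_lit 0) (XT.lf (nat_lit 1900) (nat_lit 903074685) (nat_lit 0) (nat_lit 3460550953) (nat_lit 1824) (nat_lit 903074685) (nat_lit 529) (nat_lit 1) (nat_lit 504) (nat_lit 1) (nat_lit 528) (nat_lit 1) (nat_lit 354) (nat_lit 400) (nat_lit 386)) (XT.lf (nat_lit 1900) (nat_lit 1537667634)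 (nat_lit 76) (nat_lit 1839772688) (nat_lit 0) (nat_lit 1839772688) (nat_lit 529) (nat_lit 1) (nat_lit 505) (nat_lit 1) (nat_lit 504) (nat_lit 1) (nat_lit 355) (nat_lit 400) (nat_lit 385))))))))
noncomputable def ec53 : XT := (XT.nd (nat_lit 1404) (nat_lit 7600) (nat_lit 0) (XT.nd (nat_lit 702) (nat_lit 4636) (nat_lit 0) (XT.nd (nat_lit 312) (nat_lit 1748) (nat_lit 0) (XT.nd (nat_lit 156) (nat_lit 0) (nat_lit 76) (XT.nd (nat_lit 78) (nat_lit 0) (nat_lit 0) (XT.lf (nat_lit 1900) (nat_lit 632133507) (nat_lit 0) (nat_lit 3904229352) (nat_lit 1824) (nat_lit 632133507) (nat_lit 530) (nat_lit 1) (nat_lit 505) (nat_lit 1) (nat_lit 529) (nat_lit 1) (nat_lit 356) (nat_lit 400) (nat_lit 384)) (XT.lf (nat_lit 1900) (nat_lit 970541473) (nat_lit 76) (nat_lit 2074844918) (nat_lit 0) (nat_lit 2074844918) (nat_lit 530) (nat_lit 1) (nat_lit 506) (nat_lit 1) (nat_lit 505) (nat_lit 1) (nat_lit 357) (nat_lit 400) (nat_lit 383))) (XT.nd (nat_lit 78) (nat_lit 0) (nat_lit 0) (XT.lf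 (nat_lit 1900) (nat_lit 338073914) (nat_lit 0) (nat_lit 4396638768) (nat_lit 1824) (nat_lit 338073914) (nat_lit 531) (nat_lit 1) (nat_lit 506) (nat_lit 1) (nat_lit 530) (nat_lit 1) (nat_lit 358) (nat_lit 400) (nat_lit 382)) (XT.lf (nat_lit 1900) (nat_lit 358601354) (nat_lit 76) (nat_lit 2333551829) (nat_lit 0) (nat_lit 2333551829) (nat_lit 531) (nat_lit 1) (nat_lit 507) (nat_lit 1) (nat_lit 506) (nat_lit 1) (nat_lit 359) (nat_lit 400) (nat_lit 381)))) (XT.nd (nat_lit 156) (nat_lit 0) (nat_lit 0) (XT.nd (nat_lit 78) (nat_lit 1900) (nat_lit 0) (XT.lf (nat_lit 1900) (nat_lit 22453218) (nat_lit 0) (nat_lit 4934593592) (nat_lit 1824) (nat_lit 22453218) (nat_lit 532) (nat_lit 1) (nat_lit 507) (nat_lit 1) (nat_lit 531) (nat_lit 1) (nat_lit 360) (nat_lit 400) (nat_lit 380)) (XT.lf (nat_lit 1976) (nat_lit 2321147217) (nat_lit 0) (nat_lit 291231714) (nat_lit 1900) (nat_lit 2321147217) (nat_lit 508) (nat_lit 1) (nat_lit 482) (nat_lit 1) (nat_lit 507) (nat_lit 1) (nat_lit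 361) (nat_lit 400) (nat_lit 379))) (XT.nd (nat_lit 78) (nat_lit 0) (nat_lit 76) (XT.lf (nat_lit 1976) (nat_lit 4266036971) (nat_lit 76) (nat_lit 311183853) (nat_lit 0) (nat_lit 311183853) (nat_lit 508) (nat_lit 1) (nat_lit 483) (nat_lit 1) (nat_lit 482) (nat_lit 1) (nat_lit 362) (nat_lit 400) (nat_lit 378)) (XT.nd (nat_lit 78) (nat_lit 0) (nat_lit 0) (XT.lf (nat_lit 1976) (nat_lit 1934452601) (nat_lit 0) (nat_lit 974708778) (nat_lit 1900) (nat_lit 1934452601) (nat_lit 509) (nat_lit 1) (nat_lit 483) (nat_lit 1) (nat_lit 508) (nat_lit 1) (nat_lit 363) (nat_lit 400) (nat_lit 377)) (XT.lf (nat_lit 1976) (nat_lit 3473147774) (nat_lit 76) (nat_lit 663214011) (nat_lit 0) (nat_lit 663214011) (nat_lit 509) (nat_lit 1) (nat_lit 484) (nat_lit 1) (nat_lit 483) (nat_lit 1) (nat_lit 364) (nat_lit 400) (nat_lit 376)))))) (XT.nd (nat_lit 312) (nat_lit 2736) (nat_lit 0) (XT.nd (nat_lit 156) (nat_lit 912) (nat_lit 0) (XT.nd (nat_lit 78) (nat_lit 1140) (nat_lit 0) (XT.lf (nat_lit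 76) (nat_lit 1531074658) (nat_lit 0) (nat_lit 1693800791) (nat_lit 1900) (nat_lit 1531074658) (nat_lit 485) (nat_lit 1) (nat_lit 484) (nat_lit 1) (nat_lit 509) (nat_lit 1) (nat_lit 365) (nat_lit 400) (nat_lit 375)) (XT.lf (nat_lit 1216) (nat_lit 2648066226) (nat_lit 0) (nat_lit 1032447549) (nat_lit 1140) (nat_lit 1032447549) (nat_lit 485) (nat_lit 1) (nat_lit 469) (nat_lit 1) (nat_lit 484) (nat_lit 1) (nat_lit 366) (nat_lit 400) (nat_lit 374))) (XT.nd (nat_lit 78) (nat_lit 912) (nat_lit 0) (XT.lf (nat_lit 76) (nat_lit 1112282775) (nat_lit 0) (nat_lit 2445906051) (nat_lit 1216) (nat_lit 1112282775) (nat_lit 470) (nat_lit 1) (nat_lit 469) (nat_lit 1) (nat_lit 485) (nat_lit 1) (nat_lit 367) (nat_lit 400) (nat_lit 373)) (XT.lf (nat_lit 988) (nat_lit 1793277321) (nat_lit 0) (nat_lit 1417611083) (nat_lit 912) (nat_lit 1417611083) (nat_lit 470) (nat_lit 1) (nat_lit 457) (nat_lit 1) (nat_lit 469) (nat_lit 1) (nat_lit 368) (nat_lit 400) (nat_lit 372)))) (XT.nd (nat_lit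 156) (nat_lit 1824) (nat_lit 0) (XT.nd (nat_lit 78) (nat_lit 912) (nat_lit 0) (XT.lf (nat_lit 76) (nat_lit 679284857) (nat_lit 0) (nat_lit 3228547780) (nat_lit 988) (nat_lit 679284857) (nat_lit 458) (nat_lit 1) (nat_lit 457) (nat_lit 1) (nat_lit 470) (nat_lit 1) (nat_lit 369) (nat_lit 400) (nat_lit 371)) (XT.lf (nat_lit 988) (nat_lit 911145342) (nat_lit 0) (nat_lit 1817492546) (nat_lit 912) (nat_lit 1817492546) (nat_lit 458) (nat_lit 1) (nat_lit 445) (nat_lit 1) (nat_lit 457) (nat_lit 1) (nat_lit 370) (nat_lit 400) (nat_lit 370))) (XT.nd (nat_lit 78) (nat_lit 1824) (nat_lit 0) (XT.lf (nat_lit 76) (nat_lit 233229960) (nat_lit 0) (nat_lit 4039368806) (nat_lit 988) (nat_lit 233229960) (nat_lit 446) (nat_lit 1) (nat_lit 445) (nat_lit 1) (nat_lit 458) (nat_lit 1) (nat_lit 371) (nat_lit 400) (nat_lit 369)) (XT.nd (nat_lit 78) (nat_lit 988) (nat_lit 0) (XT.lf (nat_lit 912) (nat_lit 3919027) (nat_lit 0) (nat_lit 2230938573) (nat_lit 836) (nat_lit 2230938573) (nat_lit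 446) (nat_lit 1) (nat_lit 434) (nat_lit 1) (nat_lit 445) (nat_lit 1) (nat_lit 372) (nat_lit 400) (nat_lit 368)) (XT.lf (nat_lit 988) (nat_lit 3979810275) (nat_lit 0) (nat_lit 223310319) (nat_lit 912) (nat_lit 223310319) (nat_lit 434) (nat_lit 1) (nat_lit 421) (nat_lit 1) (nat_lit 433) (nat_lit 1) (nat_lit 373) (nat_lit 400) (nat_lit 367))))))) (XT.nd (nat_lit 702) (nat_lit 3572) (nat_lit 0) (XT.nd (nat_lit 312) (nat_lit 2356) (nat_lit 0) (XT.nd (nat_lit 156) (nat_lit 836) (nat_lit 0) (XT.nd (nat_lit 78) (nat_lit 836) (nat_lit 0) (XT.lf (nat_lit 76) (nat_lit 1736602430) (nat_lit 0) (nat_lit 914115371) (nat_lit 988) (nat_lit 1736602430) (nat_lit 422) (nat_lit 1) (nat_lit 421) (nat_lit 1) (nat_lit 434) (nat_lit 1) (nat_lit 374) (nat_lit 400) (nat_lit 366)) (XT.lf (nat_lit 912) (nat_lit 2970518969) (nat_lit 0) (nat_lit 689169768) (nat_lit 836) (nat_lit 689169768) (nat_lit 422) (nat_lit 1) (nat_lit 410) (nat_lit 1) (nat_lit 421) (nat_lit 1) (nat_lit 375) (nat_lit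 400) (nat_lit 365))) (XT.nd (nat_lit 78) (nat_lit 836) (nat_lit 0) (XT.lf (nat_lit 76) (nat_lit 1229008676) (nat_lit 0) (nat_lit 1852747847) (nat_lit 912) (nat_lit 1229008676) (nat_lit 411) (nat_lit 1) (nat_lit 410) (nat_lit 1) (nat_lit 422) (nat_lit 1) (nat_lit 376) (nat_lit 400) (nat_lit 364)) (XT.lf (nat_lit 912) (nat_lit 1943375656) (nat_lit 0) (nat_lit 1164902081) (nat_lit 836) (nat_lit 1164902081) (nat_lit 411) (nat_lit 1) (nat_lit 399) (nat_lit 1) (nat_lit 410) (nat_lit 1) (nat_lit 377) (nat_lit 400) (nat_lit 363)))) (XT.nd (nat_lit 156) (nat_lit 1596) (nat_lit 0) (XT.nd (nat_lit 78) (nat_lit 760) (nat_lit 0) (XT.lf (nat_lit 76) (nat_lit 712977468) (nat_lit 0) (nat_lit 2810124115) (nat_lit 912) (nat_lit 712977468) (nat_lit 400) (nat_lit 1) (nat_lit 399) (nat_lit 1) (nat_lit 411) (nat_lit 1) (nat_lit 378) (nat_lit 400) (nat_lit 362)) (XT.lf (nat_lit 836) (nat_lit 900192062) (nat_lit 0) (nat_lit 1649575592) (nat_lit 760) (nat_lit 1649575592) (nat_lit 400)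 (nat_lit 1) (nat_lit 389) (nat_lit 1) (nat_lit 399) (nat_lit 1) (nat_lit 379) (nat_lit 400) (nat_lit 361))) (XT.nd (nat_lit 78) (nat_lit 1596) (nat_lit 0) (XT.lf (nat_lit 76) (nat_lit 189388363) (nat_lit 0) (nat_lit 3784434134) (nat_lit 836) (nat_lit 189388363) (nat_lit 390) (nat_lit 1) (nat_lit 389) (nat_lit 1) (nat_lit 400) (nat_lit 1) (nat_lit 380) (nat_lit 400) (nat_lit 360)) (XT.nd (nat_lit 78) (nat_lit 760) (nat_lit 0) (XT.lf (nat_lit 76) (nat_lit 1986014573) (nat_lit 0) (nat_lit 155249190) (nat_lit 836) (nat_lit 1986014573) (nat_lit 379) (nat_lit 1) (nat_lit 378) (nat_lit 1) (nat_lit 389) (nat_lit 1) (nat_lit 381) (nat_lit 400) (nat_lit 359)) (XT.lf (nat_lit 836) (nat_lit 3414571308) (nat_lit 0) (nat_lit 338681135) (nat_lit 760) (nat_lit 338681135) (nat_lit 379) (nat_lit 1) (nat_lit 368) (nat_lit 1) (nat_lit 378) (nat_lit 1) (nat_lit 382) (nat_lit 400) (nat_lit 358)))))) (XT.nd (nat_lit 312) (nat_lit 2128) (nat_lit 0) (XT.nd (nat_lit 156) (nat_lit 684)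 (nat_lit 0) (XT.nd (nat_lit 78) (nat_lit 760) (nat_lit 0) (XT.lf (nat_lit 76) (nat_lit 1422715480) (nat_lit 0) (nat_lit 1211407501) (nat_lit 836) (nat_lit 1422715480) (nat_lit 369) (nat_lit 1) (nat_lit 368) (nat_lit 1) (nat_lit 379) (nat_lit 1) (nat_lit 383) (nat_lit 400) (nat_lit 357)) (XT.lf (nat_lit 836) (nat_lit 2279480443) (nat_lit 0) (nat_lit 871397386) (nat_lit 760) (nat_lit 871397386) (nat_lit 369) (nat_lit 1) (nat_lit 358) (nat_lit 1) (nat_lit 368) (nat_lit 1) (nat_lit 384) (nat_lit 400) (nat_lit 356))) (XT.nd (nat_lit 78) (nat_lit 684) (nat_lit 0) (XT.lf (nat_lit 76) (nat_lit 854765548) (nat_lit 0) (nat_lit 2278562585) (nat_lit 836) (nat_lit 854765548) (nat_lit 359) (nat_lit 1) (nat_lit 358) (nat_lit 1) (nat_lit 369) (nat_lit 1) (nat_lit 385) (nat_lit 400) (nat_lit 355)) (XT.lf (nat_lit 760) (nat_lit 1135766684) (nat_lit 0) (nat_lit 1409260879) (nat_lit 684) (nat_lit 1409260879) (nat_lit 359) (nat_lit 1) (nat_lit 349) (nat_lit 1) (nat_lit 358) (nat_lit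 1) (nat_lit 386) (nat_lit 400) (nat_lit 354)))) (XT.nd (nat_lit 156) (nat_lit 1368) (nat_lit 0) (XT.nd (nat_lit 78) (nat_lit 760) (nat_lit 0) (XT.lf (nat_lit 76) (nat_lit 282865460) (nat_lit 0) (nat_lit 3355267646) (nat_lit 760) (nat_lit 282865460) (nat_lit 350) (nat_lit 1) (nat_lit 349) (nat_lit 1) (nat_lit 359) (nat_lit 1) (nat_lit 387) (nat_lit 400) (nat_lit 353)) (XT.lf (nat_lit 76) (nat_lit 1936462103) (nat_lit 0) (nat_lit 15002426) (nat_lit 760) (nat_lit 1936462103) (nat_lit 340) (nat_lit 1) (nat_lit 339) (nat_lit 1) (nat_lit 349) (nat_lit 1) (nat_lit 388) (nat_lit 400) (nat_lit 352))) (XT.nd (nat_lit 78) (nat_lit 684) (nat_lit 0) (XT.lf (nat_lit 760) (nat_lit 3274560034) (nat_lit 0) (nat_lit 290398336) (nat_lit 684) (nat_lit 290398336) (nat_lit 340) (nat_lit 1) (nat_lit 330) (nat_lit 1) (nat_lit 339) (nat_lit 1) (nat_lit 389) (nat_lit 400) (nat_lit 351)) (XT.nd (nat_lit 78) (nat_lit 684) (nat_lit 0) (XT.lf (nat_lit 76) (nat_lit 1333121332) (nat_lit 0)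 (nat_lit 1156757532) (nat_lit 760) (nat_lit 1333121332) (nat_lit 331) (nat_lit 1) (nat_lit 330) (nat_lit 1) (nat_lit 340) (nat_lit 1) (nat_lit 390) (nat_lit 400) (nat_lit 350)) (XT.lf (nat_lit 760) (nat_lit 2062242838) (nat_lit 0) (nat_lit 864443033) (nat_lit 684) (nat_lit 864443033) (nat_lit 331) (nat_lit 1) (nat_lit 321) (nat_lit 1) (nat_lit 330) (nat_lit 1) (nat_lit 391) (nat_lit 400) (nat_lit 349))))))))
noncomputable def ec54 : XT := (XT.nd (nat_lit 1404) (nat_lit 3876) (nat_lit 0) (XT.nd (nat_lit 702) (nat_lit 2888) (nat_lit 0) (XT.nd (nat_lit 312) (nat_lit 1748) (nat_lit 0) (XT.nd (nat_lit 156) (nat_lit 684) (nat_lit 0) (XT.nd (nat_lit 78) (nat_lit 608) (nat_lit 0) (XT.lf (nat_lit 76) (nat_lit 728214454) (nat_lit 0) (nat_lit 2303185844) (nat_lit 760) (nat_lit 728214454) (nat_lit 322) (nat_lit 1) (nat_lit 321) (nat_lit 1) (nat_lit 331) (nat_lit 1) (nat_lit 392) (nat_lit 400) (nat_lit 348)) (XT.lf (nat_lit 684) (nat_lit 847341145) (nat_lit 0) (nat_lit 1440540135)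 (nat_lit 608) (nat_lit 1440540135) (nat_lit 322) (nat_lit 1) (nat_lit 313) (nat_lit 1) (nat_lit 321) (nat_lit 1) (nat_lit 393) (nat_lit 400) (nat_lit 347))) (XT.nd (nat_lit 78) (nat_lit 684) (nat_lit 0) (XT.lf (nat_lit 76) (nat_lit 122292374) (nat_lit 0) (nat_lit 3453144935) (nat_lit 684) (nat_lit 122292374) (nat_lit 314) (nat_lit 1) (nat_lit 313) (nat_lit 1) (nat_lit 322) (nat_lit 1) (nat_lit 394) (nat_lit 400) (nat_lit 346)) (XT.lf (nat_lit 76) (nat_lit 1651457925) (nat_lit 0) (nat_lit 364230521) (nat_lit 684) (nat_lit 1651457925) (nat_lit 305) (nat_lit 1) (nat_lit 304) (nat_lit 1) (nat_lit 313) (nat_lit 1) (nat_lit 395) (nat_lit 400) (nat_lit 345)))) (XT.nd (nat_lit 156) (nat_lit 1140) (nat_lit 0) (XT.nd (nat_lit 78) (nat_lit 0) (nat_lit 0) (XT.lf (nat_lit 684) (nat_lit 2675173318) (nat_lit 0) (nat_lit 480939973) (nat_lit 608) (nat_lit 480939973) (nat_lit 305) (nat_lit 1) (nat_lit 296) (nat_lit 1) (nat_lit 304) (nat_lit 1) (nat_lit 396) (nat_lit 400) (nat_lit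 344)) (XT.lf (nat_lit 76) (nat_lit 1021011541) (nat_lit 0) (nat_lit 1565179755) (nat_lit 684) (nat_lit 1021011541) (nat_lit 297) (nat_lit 1) (nat_lit 296) (nat_lit 1) (nat_lit 305) (nat_lit 1) (nat_lit 397) (nat_lit 400) (nat_lit 343))) (XT.nd (nat_lit 78) (nat_lit 532) (nat_lit 0) (XT.lf (nat_lit 684) (nat_lit 1410990323) (nat_lit 0) (nat_lit 1083372742) (nat_lit 608) (nat_lit 1083372742) (nat_lit 297) (nat_lit 1) (nat_lit 288) (nat_lit 1) (nat_lit 296) (nat_lit 1) (nat_lit 398) (nat_lit 400) (nat_lit 342)) (XT.nd (nat_lit 78) (nat_lit 532) (nat_lit 0) (XT.lf (nat_lit 76) (nat_lit 391493224) (nat_lit 0) (nat_lit 2765676893) (nat_lit 684) (nat_lit 391493224) (nat_lit 289) (nat_lit 1) (nat_lit 288) (nat_lit 1) (nat_lit 297) (nat_lit 1) (nat_lit 399) (nat_lit 400) (nat_lit 341)) (XT.lf (nat_lit 608) (nat_lit 149101131) (nat_lit 0) (nat_lit 1685351510) (nat_lit 532) (nat_lit 1685351510) (nat_lit 289) (nat_lit 1) (nat_lit 281) (nat_lit 1) (nat_lit 288) (nat_lit 1)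 (nat_lit 400) (nat_lit 400) (nat_lit 340)))))) (XT.nd (nat_lit 312) (nat_lit 1672) (nat_lit 0) (XT.nd (nat_lit 156) (nat_lit 532) (nat_lit 0) (XT.nd (nat_lit 78) (nat_lit 0) (nat_lit 0) (XT.lf (nat_lit 684) (nat_lit 3021139737) (nat_lit 0) (nat_lit 235114195) (nat_lit 608) (nat_lit 235114195) (nat_lit 281) (nat_lit 1) (nat_lit 272) (nat_lit 1) (nat_lit 280) (nat_lit 1) (nat_lit 401) (nat_lit 400) (nat_lit 339)) (XT.lf (nat_lit 76) (nat_lit 1183983045) (nat_lit 0) (nat_lit 1095112294) (nat_lit 684) (nat_lit 1183983045) (nat_lit 273) (nat_lit 1) (nat_lit 272) (nat_lit 1) (nat_lit 281) (nat_lit 1) (nat_lit 402) (nat_lit 400) (nat_lit 338))) (XT.nd (nat_lit 78) (nat_lit 0) (nat_lit 0) (XT.lf (nat_lit 608) (nat_lit 1720395083) (nat_lit 0) (nat_lit 857403495) (nat_lit 532) (nat_lit 857403495) (nat_lit 273) (nat_lit 1) (nat_lit 265) (nat_lit 1) (nat_lit 272) (nat_lit 1) (nat_lit 403) (nat_lit 400) (nat_lit 337)) (XT.lf (nat_lit 76) (nat_lit 537064101) (nat_lit 0) (nat_lit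 2333520756) (nat_lit 608) (nat_lit 537064101) (nat_lit 266) (nat_lit 1) (nat_lit 265) (nat_lit 1) (nat_lit 273) (nat_lit 1) (nat_lit 404) (nat_lit 400) (nat_lit 336)))) (XT.nd (nat_lit 156) (nat_lit 532) (nat_lit 0) (XT.nd (nat_lit 78) (nat_lit 608) (nat_lit 0) (XT.lf (nat_lit 608) (nat_lit 425181110) (nat_lit 0) (nat_lit 1477576983) (nat_lit 532) (nat_lit 1477576983) (nat_lit 266) (nat_lit 1) (nat_lit 258) (nat_lit 1) (nat_lit 265) (nat_lit 1) (nat_lit 405) (nat_lit 400) (nat_lit 335)) (XT.lf (nat_lit 608) (nat_lit 3140995486) (nat_lit 0) (nat_lit 106225170) (nat_lit 532) (nat_lit 106225170) (nat_lit 258) (nat_lit 1) (nat_lit 250) (nat_lit 1) (nat_lit 257) (nat_lit 1) (nat_lit 406) (nat_lit 400) (nat_lit 334))) (XT.nd (nat_lit 78) (nat_lit 532) (nat_lit 0) (XT.lf (nat_lit 76) (nat_lit 1237058082) (nat_lit 0) (nat_lit 852505654) (nat_lit 608) (nat_lit 1237058082) (nat_lit 251) (nat_lit 1) (nat_lit 250) (nat_lit 1) (nat_lit 258) (nat_lit 1) (nat_lit 407) (nat_lit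 400) (nat_lit 333)) (XT.nd (nat_lit 78) (nat_lit 0) (nat_lit 0) (XT.lf (nat_lit 608) (nat_lit 1814704318) (nat_lit 0) (nat_lit 742754740) (nat_lit 532) (nat_lit 742754740) (nat_lit 251) (nat_lit 1) (nat_lit 243) (nat_lit 1) (nat_lit 250) (nat_lit 1) (nat_lit 408) (nat_lit 400) (nat_lit 332)) (XT.lf (nat_lit 76) (nat_lit 578102103) (nat_lit 0) (nat_lit 2117883732) (nat_lit 608) (nat_lit 578102103) (nat_lit 244) (nat_lit 1) (nat_lit 243) (nat_lit 1) (nat_lit 251) (nat_lit 1) (nat_lit 409) (nat_lit 400) (nat_lit 331))))))) (XT.nd (nat_lit 702) (nat_lit 912) (nat_lit 0) (XT.nd (nat_lit 312) (nat_lit 1444) (nat_lit 0) (XT.nd (nat_lit 156) (nat_lit 456) (nat_lit 0) (XT.nd (nat_lit 78) (nat_lit 608) (nat_lit 0) (XT.lf (nat_lit 532) (nat_lit 496682416) (nat_lit 0) (nat_lit 1375759364) (nat_lit 456) (nat_lit 1375759364) (nat_lit 244) (nat_lit 1) (nat_lit 237) (nat_lit 1) (nat_lit 243) (nat_lit 1) (nat_lit 410) (nat_lit 400) (nat_lit 330)) (XT.lf (nat_lit 608) (nat_lit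 3070528533) (nat_lit 0) (nat_lit 76094493) (nat_lit 532) (nat_lit 76094493) (nat_lit 237) (nat_lit 1) (nat_lit 229) (nat_lit 1) (nat_lit 236) (nat_lit 1) (nat_lit 411) (nat_lit 400) (nat_lit 329))) (XT.nd (nat_lit 78) (nat_lit 456) (nat_lit 0) (XT.lf (nat_lit 76) (nat_lit 1197692323) (nat_lit 0) (nat_lit 801886978) (nat_lit 608) (nat_lit 1197692323) (nat_lit 230) (nat_lit 1) (nat_lit 229) (nat_lit 1) (nat_lit 237) (nat_lit 1) (nat_lit 412) (nat_lit 400) (nat_lit 328)) (XT.lf (nat_lit 532) (nat_lit 1728203304) (nat_lit 0) (nat_lit 722008961) (nat_lit 456) (nat_lit 722008961) (nat_lit 230) (nat_lit 1) (nat_lit 223) (nat_lit 1) (nat_lit 229) (nat_lit 1) (nat_lit 413) (nat_lit 400) (nat_lit 327)))) (XT.nd (nat_lit 156) (nat_lit 988) (nat_lit 0) (XT.nd (nat_lit 78) (nat_lit 456) (nat_lit 0) (XT.lf (nat_lit 76) (nat_lit 531329446) (nat_lit 0) (nat_lit 2084778706) (nat_lit 532) (nat_lit 531329446) (nat_lit 224) (nat_lit 1) (nat_lit 223) (nat_lit 1) (nat_lit 230) (nat_lit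 1) (nat_lit 414) (nat_lit 400) (nat_lit 326)) (XT.lf (nat_lit 532) (nat_lit 396448723) (nat_lit 0) (nat_lit 1363211133) (nat_lit 456) (nat_lit 1363211133) (nat_lit 224) (nat_lit 1) (nat_lit 217) (nat_lit 1) (nat_lit 223) (nat_lit 1) (nat_lit 415) (nat_lit 400) (nat_lit 325))) (XT.nd (nat_lit 78) (nat_lit 456) (nat_lit 0) (XT.lf (nat_lit 532) (nat_lit 2841049115) (nat_lit 0) (nat_lit 128808955) (nat_lit 456) (nat_lit 128808955) (nat_lit 217) (nat_lit 1) (nat_lit 210) (nat_lit 1) (nat_lit 216) (nat_lit 1) (nat_lit 416) (nat_lit 400) (nat_lit 324)) (XT.nd (nat_lit 78) (nat_lit 456) (nat_lit 0) (XT.lf (nat_lit 76) (nat_lit 1081155059) (nat_lit 0) (nat_lit 912208140) (nat_lit 532) (nat_lit 1081155059) (nat_lit 211) (nat_lit 1) (nat_lit 210) (nat_lit 1) (nat_lit 217) (nat_lit 1) (nat_lit 417) (nat_lit 400) (nat_lit 323)) (XT.lf (nat_lit 532) (nat_lit 1490878361) (nat_lit 0) (nat_lit 779923481) (nat_lit 456) (nat_lit 779923481) (nat_lit 211) (nat_lit 1) (nat_lit 204)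 (nat_lit 1) (nat_lit 210) (nat_lit 1) (nat_lit 418) (nat_lit 400) (nat_lit 322)))))) (XT.nd (nat_lit 53040) (nat_lit 0) (nat_lit 23180) (XT.nd (nat_lit 156) (nat_lit 532) (nat_lit 0) (XT.nd (nat_lit 78) (nat_lit 380) (nat_lit 0) (XT.lf (nat_lit 76) (nat_lit 411369283) (nat_lit 0) (nat_lit 2204466754) (nat_lit 532) (nat_lit 411369283) (nat_lit 205) (nat_lit 1) (nat_lit 204) (nat_lit 1) (nat_lit 211) (nat_lit 1) (nat_lit 419) (nat_lit 400) (nat_lit 321)) (XT.lf (nat_lit 456) (nat_lit 153196480) (nat_lit 0) (nat_lit 1425332820) (nat_lit 380) (nat_lit 1425332820) (nat_lit 205) (nat_lit 1) (nat_lit 199) (nat_lit 1) (nat_lit 204) (nat_lit 1) (nat_lit 420) (nat_lit 400) (nat_lit 320))) (XT.nd (nat_lit 78) (nat_lit 0) (nat_lit 0) (XT.lf (nat_lit 532) (nat_lit 2479910785) (nat_lit 0) (nat_lit 250457280) (nat_lit 456) (nat_lit 250457280) (nat_lit 199) (nat_lit 1) (nat_lit 192) (nat_lit 1) (nat_lit 198) (nat_lit 1) (nat_lit 421) (nat_lit 400) (nat_lit 319)) (XT.lf (nat_lit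 76) (nat_lit 900783713) (nat_lit 0) (nat_lit 1156331316) (nat_lit 532) (nat_lit 900783713) (nat_lit 193) (nat_lit 1) (nat_lit 192) (nat_lit 1) (nat_lit 199) (nat_lit 1) (nat_lit 422) (nat_lit 400) (nat_lit 318)))) (XT.nd (nat_lit 156) (nat_lit 0) (nat_lit 76) (XT.nd (nat_lit 78) (nat_lit 0) (nat_lit 0) (XT.lf (nat_lit 1900) (nat_lit 1022324955) (nat_lit 0) (nat_lit 1030873970) (nat_lit 1900) (nat_lit 1022324955) (nat_lit 522) (nat_lit 1) (nat_lit 497) (nat_lit 0) (nat_lit 522) (nat_lit 0) (nat_lit 338) (nat_lit 401) (nat_lit 401)) (XT.lf (nat_lit 1900) (nat_lit 4042426582) (nat_lit 76) (nat_lit 1024091904) (nat_lit 0) (nat_lit 1024091904) (nat_lit 522) (nat_lit 1) (nat_lit 498) (nat_lit 1) (nat_lit 497) (nat_lit 0) (nat_lit 339) (nat_lit 401) (nat_lit 400))) (XT.nd (nat_lit 78) (nat_lit 0) (nat_lit 0) (XT.lf (nat_lit 1900) (nat_lit 1984850694) (nat_lit 0) (nat_lit 2061131755) (nat_lit 1824) (nat_lit 1984850694) (nat_lit 523) (nat_lit 1) (nat_lit 498) (nat_lit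 1) (nat_lit 522) (nat_lit 1) (nat_lit 340) (nat_lit 401) (nat_lit 399)) (XT.nd (nat_lit 78) (nat_lit 0) (nat_lit 76) (XT.lf (nat_lit 1900) (nat_lit 3884842101) (nat_lit 76) (nat_lit 1043560007) (nat_lit 0) (nat_lit 1043560007) (nat_lit 523) (nat_lit 1) (nat_lit 499) (nat_lit 1) (nat_lit 498) (nat_lit 1) (nat_lit 341) (nat_lit 401) (nat_lit 398)) (XT.lf (nat_lit 1900) (nat_lit 1887959645) (nat_lit 0) (nat_lit 2137821671) (nat_lit 1824) (nat_lit 1887959645) (nat_lit 524) (nat_lit 1) (nat_lit 499) (nat_lit 1) (nat_lit 523) (nat_lit 1) (nat_lit 342) (nat_lit 401) (nat_lit 397))))))))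
noncomputable def ec55 : XT := (XT.nd (nat_lit 1404) (nat_lit 7068) (nat_lit 0) (XT.nd (nat_lit 702) (nat_lit 1292) (nat_lit 0) (XT.nd (nat_lit 312) (nat_lit 0) (nat_lit 152) (XT.nd (nat_lit 156) (nat_lit 0) (nat_lit 76) (XT.nd (nat_lit 78) (nat_lit 0) (nat_lit 76) (XT.lf (nat_lit 1900) (nat_lit 3655067604) (nat_lit 76) (nat_lit 1100659009) (nat_lit 0) (nat_lit 1100659009) (nat_lit 524) (nat_lit 1) (nat_lit 500) (nat_lit 1) (nat_lit 499) (nat_lit 1) (nat_lit 343) (nat_lit 401) (nat_lit 396)) (XT.lf (nat_lit 1900) (nat_lit 1756189907) (nat_lit 0) (nat_lit 2287300461) (nat_lit 1824) (nat_lit 1756189907) (nat_lit 525) (nat_lit 1) (nat_lit 500) (nat_lit 1) (nat_lit 524) (nat_lit 1) (nat_lit 344) (nat_lit 401) (nat_lit 395))) (XT.nd (nat_lit 78) (nat_lit 0) (nat_lit 76) (XT.lf (nat_lit 1900) (nat_lit 3357441794) (nat_lit 76) (nat_lit 1193174972) (nat_lit 0) (nat_lit 1193174972) (nat_lit 525) (nat_lit 1) (nat_lit 501) (nat_lit 1) (nat_lit 500) (nat_lit 1) (nat_lit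 345) (nat_lit 401) (nat_lit 394)) (XT.lf (nat_lit 1900) (nat_lit 1591653530) (nat_lit 0) (nat_lit 2505256019) (nat_lit 1824) (nat_lit 1591653530) (nat_lit 526) (nat_lit 1) (nat_lit 501) (nat_lit 1) (nat_lit 525) (nat_lit 1) (nat_lit 346) (nat_lit 401) (nat_lit 393)))) (XT.nd (nat_lit 156) (nat_lit 0) (nat_lit 76) (XT.nd (nat_lit 78) (nat_lit 0) (nat_lit 76) (XT.lf (nat_lit 1900) (nat_lit 2996104786) (nat_lit 76) (nat_lit 1318994687) (nat_lit 0) (nat_lit 1318994687) (nat_lit 526) (nat_lit 1) (nat_lit 502) (nat_lit 1) (nat_lit 501) (nat_lit 1) (nat_lit 347) (nat_lit 401) (nat_lit 392)) (XT.lf (nat_lit 1900) (nat_lit 1396365695) (nat_lit 0) (nat_lit 2787572815) (nat_lit 1824) (nat_lit 1396365695) (nat_lit 527) (nat_lit 1) (nat_lit 502) (nat_lit 1) (nat_lit 526) (nat_lit 1) (nat_lit 348) (nat_lit 401) (nat_lit 391))) (XT.nd (nat_lit 78) (nat_lit 0) (nat_lit 76) (XT.lf (nat_lit 1900) (nat_lit 2575006414) (nat_lit 76) (nat_lit 1476101474) (nat_lit 0) (nat_lit 1476101474)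 (nat_lit 527) (nat_lit 1) (nat_lit 503) (nat_lit 1) (nat_lit 502) (nat_lit 1) (nat_lit 349) (nat_lit 401) (nat_lit 390)) (XT.nd (nat_lit 78) (nat_lit 0) (nat_lit 0) (XT.lf (nat_lit 1900) (nat_lit 1172248766) (nat_lit 0) (nat_lit 3130323688) (nat_lit 1824) (nat_lit 1172248766) (nat_lit 528) (nat_lit 1) (nat_lit 503) (nat_lit 1) (nat_lit 527) (nat_lit 1) (nat_lit 350) (nat_lit 401) (nat_lit 389)) (XT.lf (nat_lit 1900) (nat_lit 2097914197) (nat_lit 76) (nat_lit 1662571145) (nat_lit 0) (nat_lit 1662571145) (nat_lit 528) (nat_lit 1) (nat_lit 504) (nat_lit 1) (nat_lit 503) (nat_lit 1) (nat_lit 351) (nat_lit 401) (nat_lit 388)))))) (XT.nd (nat_lit 312) (nat_lit 1672) (nat_lit 0) (XT.nd (nat_lit 156) (nat_lit 0) (nat_lit 76) (XT.nd (nat_lit 78) (nat_lit 0) (nat_lit 0) (XT.lf (nat_lit 1900) (nat_lit 921136179) (nat_lit 0) (nat_lit 3529761972) (nat_lit 1824) (nat_lit 921136179) (nat_lit 529) (nat_lit 1) (nat_lit 504) (nat_lit 1) (nat_lit 528) (nat_lit 1) (nat_lit 352)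 (nat_lit 401) (nat_lit 387)) (XT.lf (nat_lit 1900) (nat_lit 1568420987) (nat_lit 76) (nat_lit 1876568142) (nat_lit 0) (nat_lit 1876568142) (nat_lit 529) (nat_lit 1) (nat_lit 505) (nat_lit 1) (nat_lit 504) (nat_lit 1) (nat_lit 353) (nat_lit 401) (nat_lit 386))) (XT.nd (nat_lit 78) (nat_lit 0) (nat_lit 0) (XT.lf (nat_lit 1900) (nat_lit 644776177) (nat_lit 0) (nat_lit 3982313939) (nat_lit 1824) (nat_lit 644776177) (nat_lit 530) (nat_lit 1) (nat_lit 505) (nat_lit 1) (nat_lit 529) (nat_lit 1) (nat_lit 354) (nat_lit 401) (nat_lit 385)) (XT.lf (nat_lit 1900) (nat_lit 989952303) (nat_lit 76) (nat_lit 2116341816) (nat_lit 0) (nat_lit 2116341816) (nat_lit 530) (nat_lit 1) (nat_lit 506) (nat_lit 1) (nat_lit 505) (nat_lit 1) (nat_lit 355) (nat_lit 401) (nat_lit 384)))) (XT.nd (nat_lit 156) (nat_lit 1824) (nat_lit 0) (XT.nd (nat_lit 78) (nat_lit 0) (nat_lit 0) (XT.lf (nat_lit 1900) (nat_lit 344835392) (nat_lit 0) (nat_lit 4484571544) (nat_lit 1824) (nat_lit 344835392) (nat_lit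 531) (nat_lit 1) (nat_lit 506) (nat_lit 1) (nat_lit 530) (nat_lit 1) (nat_lit 356) (nat_lit 401) (nat_lit 383)) (XT.lf (nat_lit 1900) (nat_lit 365773381) (nat_lit 76) (nat_lit 2380222865) (nat_lit 0) (nat_lit 2380222865) (nat_lit 531) (nat_lit 1) (nat_lit 507) (nat_lit 1) (nat_lit 506) (nat_lit 1) (nat_lit 357) (nat_lit 401) (nat_lit 382))) (XT.nd (nat_lit 78) (nat_lit 1900) (nat_lit 0) (XT.lf (nat_lit 1900) (nat_lit 22902283) (nat_lit 0) (nat_lit 5033285464) (nat_lit 1824) (nat_lit 22902283) (nat_lit 532) (nat_lit 1) (nat_lit 507) (nat_lit 1) (nat_lit 531) (nat_lit 1) (nat_lit 358) (nat_lit 401) (nat_lit 381)) (XT.nd (nat_lit 78) (nat_lit 0) (nat_lit 0) (XT.lf (nat_lit 1976) (nat_lit 2367570162) (nat_lit 0) (nat_lit 297056348) (nat_lit 1900) (nat_lit 2367570162) (nat_lit 508) (nat_lit 1) (nat_lit 482) (nat_lit 1) (nat_lit 507) (nat_lit 1) (nat_lit 359) (nat_lit 401) (nat_lit 380)) (XT.lf (nat_lit 1976) (nat_lit 4351357710) (nat_lit 76) (nat_lit 317407530) (nat_lit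 0) (nat_lit 317407530) (nat_lit 508) (nat_lit 1) (nat_lit 483) (nat_lit 1) (nat_lit 482) (nat_lit 1) (nat_lit 360) (nat_lit 401) (nat_lit 379))))))) (XT.nd (nat_lit 702) (nat_lit 4256) (nat_lit 0) (XT.nd (nat_lit 312) (nat_lit 1824) (nat_lit 0) (XT.nd (nat_lit 156) (nat_lit 1064) (nat_lit 0) (XT.nd (nat_lit 78) (nat_lit 0) (nat_lit 0) (XT.lf (nat_lit 1976) (nat_lit 1973141653) (nat_lit 0) (nat_lit 994202954) (nat_lit 1900) (nat_lit 1973141653) (nat_lit 509) (nat_lit 1) (nat_lit 483) (nat_lit 1) (nat_lit 508) (nat_lit 1) (nat_lit 361) (nat_lit 401) (nat_lit 378)) (XT.lf (nat_lit 1976) (nat_lit 3542610730) (nat_lit 76) (nat_lit 676478292) (nat_lit 0) (nat_lit 676478292) (nat_lit 509) (nat_lit 1) (nat_lit 484) (nat_lit 1) (nat_lit 483) (nat_lit 1) (nat_lit 362) (nat_lit 401) (nat_lit 377))) (XT.nd (nat_lit 78) (nat_lit 1140) (nat_lit 0) (XT.lf (nat_lit 76) (nat_lit 1561696151) (nat_lit 0) (nat_lit 1727676807) (nat_lit 1900) (nat_lit 1561696151) (nat_lit 485) (nat_lit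 1) (nat_lit 484) (nat_lit 1) (nat_lit 509) (nat_lit 1) (nat_lit 363) (nat_lit 401) (nat_lit 376)) (XT.lf (nat_lit 1216) (nat_lit 2701027551) (nat_lit 0) (nat_lit 1053096500) (nat_lit 1140) (nat_lit 1053096500) (nat_lit 485) (nat_lit 1) (nat_lit 469) (nat_lit 1) (nat_lit 484) (nat_lit 1) (nat_lit 364) (nat_lit 401) (nat_lit 375)))) (XT.nd (nat_lit 156) (nat_lit 912) (nat_lit 0) (XT.nd (nat_lit 78) (nat_lit 912) (nat_lit 0) (XT.lf (nat_lit 76) (nat_lit 1134528430) (nat_lit 0) (nat_lit 2494824172) (nat_lit 1216) (nat_lit 1134528430) (nat_lit 470) (nat_lit 1) (nat_lit 469) (nat_lit 1) (nat_lit 485) (nat_lit 1) (nat_lit 365) (nat_lit 401) (nat_lit 374)) (XT.lf (nat_lit 988) (nat_lit 1829142867) (nat_lit 0) (nat_lit 1445963305) (nat_lit 912) (nat_lit 1445963305) (nat_lit 470) (nat_lit 1) (nat_lit 457) (nat_lit 1) (nat_lit 469) (nat_lit 1) (nat_lit 366) (nat_lit 401) (nat_lit 373))) (XT.nd (nat_lit 78) (nat_lit 912) (nat_lit 0) (XT.lf (nat_lit 76) (nat_lit 692870554)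 (nat_lit 0) (nat_lit 3293118735) (nat_lit 988) (nat_lit 692870554) (nat_lit 458) (nat_lit 1) (nat_lit 457) (nat_lit 1) (nat_lit 470) (nat_lit 1) (nat_lit 367) (nat_lit 401) (nat_lit 372)) (XT.nd (nat_lit 78) (nat_lit 0) (nat_lit 0) (XT.lf (nat_lit 988) (nat_lit 929368249) (nat_lit 0) (nat_lit 1853842397) (nat_lit 912) (nat_lit 1853842397) (nat_lit 458) (nat_lit 1) (nat_lit 445) (nat_lit 1) (nat_lit 457) (nat_lit 1) (nat_lit 368) (nat_lit 401) (nat_lit 371)) (XT.lf (nat_lit 76) (nat_lit 237894559) (nat_lit 0) (nat_lit 4120156182) (nat_lit 988) (nat_lit 237894559) (nat_lit 446) (nat_lit 1) (nat_lit 445) (nat_lit 1) (nat_lit 458) (nat_lit 1) (nat_lit 369) (nat_lit 401) (nat_lit 370)))))) (XT.nd (nat_lit 312) (nat_lit 1596) (nat_lit 0) (XT.nd (nat_lit 156) (nat_lit 836) (nat_lit 0) (XT.nd (nat_lit 78) (nat_lit 988) (nat_lit 0) (XT.lf (nat_lit 912) (nat_lit 3997407) (nat_lit 0) (nat_lit 2275557345) (nat_lit 836) (nat_lit 2275557345) (nat_lit 446) (nat_lit 1) (nat_lit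 434) (nat_lit 1) (nat_lit 445) (nat_lit 1) (nat_lit 370) (nat_lit 401) (nat_lit 369)) (XT.lf (nat_lit 988) (nat_lit 4059406480) (nat_lit 0) (nat_lit 227776525) (nat_lit 912) (nat_lit 227776525) (nat_lit 434) (nat_lit 1) (nat_lit 421) (nat_lit 1) (nat_lit 433) (nat_lit 1) (nat_lit 371) (nat_lit 401) (nat_lit 368))) (XT.nd (nat_lit 78) (nat_lit 836) (nat_lit 0) (XT.lf (nat_lit 76) (nat_lit 1771334479) (nat_lit 0) (nat_lit 932397678) (nat_lit 988) (nat_lit 1771334479) (nat_lit 422) (nat_lit 1) (nat_lit 421) (nat_lit 1) (nat_lit 434) (nat_lit 1) (nat_lit 372) (nat_lit 401) (nat_lit 367)) (XT.lf (nat_lit 912) (nat_lit 3029929348) (nat_lit 0) (nat_lit 702953163) (nat_lit 836) (nat_lit 702953163) (nat_lit 422) (nat_lit 1) (nat_lit 410) (nat_lit 1) (nat_lit 421) (nat_lit 1) (nat_lit 373) (nat_lit 401) (nat_lit 366)))) (XT.nd (nat_lit 156) (nat_lit 760) (nat_lit 0) (XT.nd (nat_lit 78) (nat_lit 836) (nat_lit 0) (XT.lf (nat_lit 76) (nat_lit 1253588849) (nat_lit 0) (nat_lit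 1889802804) (nat_lit 912) (nat_lit 1253588849) (nat_lit 411) (nat_lit 1) (nat_lit 410) (nat_lit 1) (nat_lit 422) (nat_lit 1) (nat_lit 374) (nat_lit 401) (nat_lit 365)) (XT.lf (nat_lit 912) (nat_lit 1982243169) (nat_lit 0) (nat_lit 1188200122) (nat_lit 836) (nat_lit 1188200122) (nat_lit 411) (nat_lit 1) (nat_lit 399) (nat_lit 1) (nat_lit 410) (nat_lit 1) (nat_lit 375) (nat_lit 401) (nat_lit 364))) (XT.nd (nat_lit 78) (nat_lit 760) (nat_lit 0) (XT.lf (nat_lit 76) (nat_lit 727237017) (nat_lit 0) (nat_lit 2866326597) (nat_lit 912) (nat_lit 727237017) (nat_lit 400) (nat_lit 1) (nat_lit 399) (nat_lit 1) (nat_lit 411) (nat_lit 1) (nat_lit 376) (nat_lit 401) (nat_lit 363)) (XT.nd (nat_lit 78) (nat_lit 0) (nat_lit 0) (XT.lf (nat_lit 836) (nat_lit 918195903) (nat_lit 0) (nat_lit 1682567104) (nat_lit 760) (nat_lit 1682567104) (nat_lit 400) (nat_lit 1) (nat_lit 389) (nat_lit 1) (nat_lit 399) (nat_lit 1) (nat_lit 377) (nat_lit 401) (nat_lit 362)) (XT.lf (nat_lit 76) (nat_lit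 193176130) (nat_lit 0) (nat_lit 3860122816) (nat_lit 836) (nat_lit 193176130) (nat_lit 390) (nat_lit 1) (nat_lit 389) (nat_lit 1) (nat_lit 400) (nat_lit 1) (nat_lit 378) (nat_lit 401) (nat_lit 361))))))))
noncomputable def ec56 : XT := (XT.nd (nat_lit 1404) (nat_lit 5928) (nat_lit 0) (XT.nd (nat_lit 702) (nat_lit 3192) (nat_lit 0) (XT.nd (nat_lit 312) (nat_lit 2128) (nat_lit 0) (XT.nd (nat_lit 156) (nat_lit 760) (nat_lit 0) (XT.nd (nat_lit 78) (nat_lit 760) (nat_lit 0) (XT.lf (nat_lit 76) (nat_lit 2025734864) (nat_lit 0) (nat_lit 158354174) (nat_lit 836) (nat_lit 2025734864) (nat_lit 379) (nat_lit 1) (nat_lit 378) (nat_lit 1) (nat_lit 389) (nat_lit 1) (nat_lit 379) (nat_lit 401) (nat_lit 360)) (XT.lf (nat_lit 836) (nat_lit 3482862734) (nat_lit 0) (nat_lit 345454758) (nat_lit 760) (nat_lit 345454758) (nat_lit 379) (nat_lit 1) (nat_lit 368) (nat_lit 1) (nat_lit 378) (nat_lit 1) (nat_lit 380) (nat_lit 401) (nat_lit 359))) (XT.nd (nat_lit 78) (nat_lit 760) (nat_lit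 0) (XT.lf (nat_lit 76) (nat_lit 1451169790) (nat_lit 0) (nat_lit 1235635651) (nat_lit 836) (nat_lit 1451169790) (nat_lit 369) (nat_lit 1) (nat_lit 368) (nat_lit 1) (nat_lit 379) (nat_lit 1) (nat_lit 381) (nat_lit 401) (nat_lit 358)) (XT.lf (nat_lit 836) (nat_lit 2325070052) (nat_lit 0) (nat_lit 888825334) (nat_lit 760) (nat_lit 888825334) (nat_lit 369) (nat_lit 1) (nat_lit 358) (nat_lit 1) (nat_lit 368) (nat_lit 1) (nat_lit 382) (nat_lit 401) (nat_lit 357)))) (XT.nd (nat_lit 156) (nat_lit 1444) (nat_lit 0) (XT.nd (nat_lit 78) (nat_lit 684) (nat_lit 0) (XT.lf (nat_lit 76) (nat_lit 871860859) (nat_lit 0) (nat_lit 2324133837) (nat_lit 836) (nat_lit 871860859) (nat_lit 359) (nat_lit 1) (nat_lit 358) (nat_lit 1) (nat_lit 369) (nat_lit 1) (nat_lit 383) (nat_lit 401) (nat_lit 356)) (XT.lf (nat_lit 760) (nat_lit 1158482017) (nat_lit 0) (nat_lit 1437446096) (nat_lit 684) (nat_lit 1437446096) (nat_lit 359) (nat_lit 1) (nat_lit 349) (nat_lit 1) (nat_lit 358) (nat_lit 1)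 (nat_lit 384) (nat_lit 401) (nat_lit 355))) (XT.nd (nat_lit 78) (nat_lit 1444) (nat_lit 0) (XT.lf (nat_lit 76) (nat_lit 288522769) (nat_lit 0) (nat_lit 3422372999) (nat_lit 760) (nat_lit 288522769) (nat_lit 350) (nat_lit 1) (nat_lit 349) (nat_lit 1) (nat_lit 359) (nat_lit 1) (nat_lit 385) (nat_lit 401) (nat_lit 354)) (XT.nd (nat_lit 78) (nat_lit 684) (nat_lit 0) (XT.lf (nat_lit 76) (nat_lit 1975191345) (nat_lit 0) (nat_lit 15302474) (nat_lit 760) (nat_lit 1975191345) (nat_lit 340) (nat_lit 1) (nat_lit 339) (nat_lit 1) (nat_lit 349) (nat_lit 1) (nat_lit 386) (nat_lit 401) (nat_lit 353)) (XT.lf (nat_lit 760) (nat_lit 3340051235) (nat_lit 0) (nat_lit 296206303) (nat_lit 684) (nat_lit 296206303) (nat_lit 340) (nat_lit 1) (nat_lit 330) (nat_lit 1) (nat_lit 339) (nat_lit 1) (nat_lit 387) (nat_lit 401) (nat_lit 352)))))) (XT.nd (nat_lit 312) (nat_lit 1900) (nat_lit 0) (XT.nd (nat_lit 156) (nat_lit 608) (nat_lit 0) (XT.nd (nat_lit 78) (nat_lit 684) (nat_lit 0) (XT.lf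 (nat_lit 76) (nat_lit 1359783758) (nat_lit 0) (nat_lit 1179892683) (nat_lit 760) (nat_lit 1359783758) (nat_lit 331) (nat_lit 1) (nat_lit 330) (nat_lit 1) (nat_lit 340) (nat_lit 1) (nat_lit 388) (nat_lit 401) (nat_lit 351)) (XT.lf (nat_lit 760) (nat_lit 2103487694) (nat_lit 0) (nat_lit 881731894) (nat_lit 684) (nat_lit 881731894) (nat_lit 331) (nat_lit 1) (nat_lit 321) (nat_lit 1) (nat_lit 330) (nat_lit 1) (nat_lit 389) (nat_lit 401) (nat_lit 350))) (XT.nd (nat_lit 78) (nat_lit 608) (nat_lit 0) (XT.lf (nat_lit 76) (nat_lit 742778743) (nat_lit 0) (nat_lit 2349249561) (nat_lit 760) (nat_lit 742778743) (nat_lit 322) (nat_lit 1) (nat_lit 321) (nat_lit 1) (nat_lit 331) (nat_lit 1) (nat_lit 390) (nat_lit 401) (nat_lit 349)) (XT.lf (nat_lit 684) (nat_lit 864287968) (nat_lit 0) (nat_lit 1469350938) (nat_lit 608) (nat_lit 1469350938) (nat_lit 322) (nat_lit 1) (nat_lit 313) (nat_lit 1) (nat_lit 321) (nat_lit 1) (nat_lit 391) (nat_lit 401) (nat_lit 348)))) (XT.nd (nat_lit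 156) (nat_lit 1216) (nat_lit 0) (XT.nd (nat_lit 78) (nat_lit 684) (nat_lit 0) (XT.lf (nat_lit 76) (nat_lit 124738221) (nat_lit 0) (nat_lit 3522207834) (nat_lit 684) (nat_lit 124738221) (nat_lit 314) (nat_lit 1) (nat_lit 313) (nat_lit 1) (nat_lit 322) (nat_lit 1) (nat_lit 392) (nat_lit 401) (nat_lit 347)) (XT.lf (nat_lit 76) (nat_lit 1684487084) (nat_lit 0) (nat_lit 371515132) (nat_lit 684) (nat_lit 1684487084) (nat_lit 305) (nat_lit 1) (nat_lit 304) (nat_lit 1) (nat_lit 313) (nat_lit 1) (nat_lit 393) (nat_lit 401) (nat_lit 346))) (XT.nd (nat_lit 78) (nat_lit 608) (nat_lit 0) (XT.lf (nat_lit 684) (nat_lit 2728676785) (nat_lit 0) (nat_lit 490558773) (nat_lit 608) (nat_lit 490558773) (nat_lit 305) (nat_lit 1) (nat_lit 296) (nat_lit 1) (nat_lit 304) (nat_lit 1) (nat_lit 394) (nat_lit 401) (nat_lit 345)) (XT.nd (nat_lit 78) (nat_lit 608) (nat_lit 0) (XT.lf (nat_lit 76) (nat_lit 1041431772) (nat_lit 0) (nat_lit 1596483351) (nat_lit 684) (nat_lit 1041431772) (nat_lit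 297) (nat_lit 1) (nat_lit 296) (nat_lit 1) (nat_lit 305) (nat_lit 1) (nat_lit 395) (nat_lit 401) (nat_lit 344)) (XT.lf (nat_lit 684) (nat_lit 1439210130) (nat_lit 0) (nat_lit 1105040197) (nat_lit 608) (nat_lit 1105040197) (nat_lit 297) (nat_lit 1) (nat_lit 288) (nat_lit 1) (nat_lit 296) (nat_lit 1) (nat_lit 396) (nat_lit 401) (nat_lit 343))))))) (XT.nd (nat_lit 702) (nat_lit 3040) (nat_lit 0) (XT.nd (nat_lit 312) (nat_lit 1672) (nat_lit 0) (XT.nd (nat_lit 156) (nat_lit 684) (nat_lit 0) (XT.nd (nat_lit 78) (nat_lit 532) (nat_lit 0) (XT.lf (nat_lit 76) (nat_lit 399323088) (nat_lit 0) (nat_lit 2820990431) (nat_lit 684) (nat_lit 399323088) (nat_lit 289) (nat_lit 1) (nat_lit 288) (nat_lit 1) (nat_lit 297) (nat_lit 1) (nat_lit 397) (nat_lit 401) (nat_lit 342)) (XT.lf (nat_lit 608) (nat_lit 152083154) (nat_lit 0) (nat_lit 1719058541) (nat_lit 532) (nat_lit 1719058541) (nat_lit 289) (nat_lit 1) (nat_lit 281) (nat_lit 1) (nat_lit 288) (nat_lit 1) (nat_lit 398) (nat_lit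 401) (nat_lit 341))) (XT.nd (nat_lit 78) (nat_lit 0) (nat_lit 0) (XT.lf (nat_lit 684) (nat_lit 3081562532) (nat_lit 0) (nat_lit 239816479) (nat_lit 608) (nat_lit 239816479) (nat_lit 281) (nat_lit 1) (nat_lit 272) (nat_lit 1) (nat_lit 280) (nat_lit 1) (nat_lit 399) (nat_lit 401) (nat_lit 340)) (XT.lf (nat_lit 76) (nat_lit 1207662706) (nat_lit 0) (nat_lit 1117014540) (nat_lit 684) (nat_lit 1207662706) (nat_lit 273) (nat_lit 1) (nat_lit 272) (nat_lit 1) (nat_lit 281) (nat_lit 1) (nat_lit 400) (nat_lit 401) (nat_lit 339)))) (XT.nd (nat_lit 156) (nat_lit 1140) (nat_lit 0) (XT.nd (nat_lit 78) (nat_lit 0) (nat_lit 0) (XT.lf (nat_lit 608) (nat_lit 1754802985) (nat_lit 0) (nat_lit 874551565) (nat_lit 532) (nat_lit 874551565) (nat_lit 273) (nat_lit 1) (nat_lit 265) (nat_lit 1) (nat_lit 272) (nat_lit 1) (nat_lit 401) (nat_lit 401) (nat_lit 338)) (XT.lf (nat_lit 76) (nat_lit 547805383) (nat_lit 0) (nat_lit 2380191171) (nat_lit 608) (nat_lit 547805383) (nat_lit 266) (nat_lit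 1) (nat_lit 265) (nat_lit 1) (nat_lit 273) (nat_lit 1) (nat_lit 402) (nat_lit 401) (nat_lit 337))) (XT.nd (nat_lit 78) (nat_lit 608) (nat_lit 0) (XT.lf (nat_lit 608) (nat_lit 433684733) (nat_lit 0) (nat_lit 1507128523) (nat_lit 532) (nat_lit 1507128523) (nat_lit 266) (nat_lit 1) (nat_lit 258) (nat_lit 1) (nat_lit 265) (nat_lit 1) (nat_lit 403) (nat_lit 401) (nat_lit 336)) (XT.nd (nat_lit 78) (nat_lit 0) (nat_lit 0) (XT.lf (nat_lit 608) (nat_lit 3203815396) (nat_lit 0) (nat_lit 108349673) (nat_lit 532) (nat_lit 108349673) (nat_lit 258) (nat_lit 1) (nat_lit 250) (nat_lit 1) (nat_lit 257) (nat_lit 1) (nat_lit 404) (nat_lit 401) (nat_lit 335)) (XT.lf (nat_lit 76) (nat_lit 1261799244) (nat_lit 0) (nat_lit 869555767) (nat_lit 608) (nat_lit 1261799244) (nat_lit 251) (nat_lit 1) (nat_lit 250) (nat_lit 1) (nat_lit 258) (nat_lit 1) (nat_lit 405) (nat_lit 401) (nat_lit 334)))))) (XT.nd (nat_lit 312) (nat_lit 1444) (nat_lit 0) (XT.nd (nat_lit 156) (nat_lit 1064) (nat_lit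 0) (XT.nd (nat_lit 78) (nat_lit 0) (nat_lit 0) (XT.lf (nat_lit 608) (nat_lit 1850998405) (nat_lit 0) (nat_lit 757609835) (nat_lit 532) (nat_lit 757609835) (nat_lit 251) (nat_lit 1) (nat_lit 243) (nat_lit 1) (nat_lit 250) (nat_lit 1) (nat_lit 406) (nat_lit 401) (nat_lit 333)) (XT.lf (nat_lit 76) (nat_lit 589664145) (nat_lit 0) (nat_lit 2160241406) (nat_lit 608) (nat_lit 589664145) (nat_lit 244) (nat_lit 1) (nat_lit 243) (nat_lit 1) (nat_lit 251) (nat_lit 1) (nat_lit 407) (nat_lit 401) (nat_lit 332))) (XT.nd (nat_lit 78) (nat_lit 608) (nat_lit 0) (XT.lf (nat_lit 532) (nat_lit 506616065) (nat_lit 0) (nat_lit 1403274551) (nat_lit 456) (nat_lit 1403274551) (nat_lit 244) (nat_lit 1) (nat_lit 237) (nat_lit 1) (nat_lit 243) (nat_lit 1) (nat_lit 408) (nat_lit 401) (nat_lit 331)) (XT.lf (nat_lit 608) (nat_lit 3131939104) (nat_lit 0) (nat_lit 77616383) (nat_lit 532) (nat_lit 77616383) (nat_lit 237) (nat_lit 1) (nat_lit 229) (nat_lit 1) (nat_lit 236) (nat_lit 1) (nat_lit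 409) (nat_lit 401) (nat_lit 330)))) (XT.nd (nat_lit 156) (nat_lit 988) (nat_lit 0) (XT.nd (nat_lit 78) (nat_lit 456) (nat_lit 0) (XT.lf (nat_lit 76) (nat_lit 1221646170) (nat_lit 0) (nat_lit 817924717) (nat_lit 608) (nat_lit 1221646170) (nat_lit 230) (nat_lit 1) (nat_lit 229) (nat_lit 1) (nat_lit 237) (nat_lit 1) (nat_lit 410) (nat_lit 401) (nat_lit 329)) (XT.lf (nat_lit 532) (nat_lit 1762767370) (nat_lit 0) (nat_lit 736449140) (nat_lit 456) (nat_lit 736449140) (nat_lit 230) (nat_lit 1) (nat_lit 223) (nat_lit 1) (nat_lit 229) (nat_lit 1) (nat_lit 411) (nat_lit 401) (nat_lit 328))) (XT.nd (nat_lit 78) (nat_lit 988) (nat_lit 0) (XT.lf (nat_lit 76) (nat_lit 541956035) (nat_lit 0) (nat_lit 2126474280) (nat_lit 532) (nat_lit 541956035) (nat_lit 224) (nat_lit 1) (nat_lit 223) (nat_lit 1) (nat_lit 230) (nat_lit 1) (nat_lit 412) (nat_lit 401) (nat_lit 327)) (XT.nd (nat_lit 78) (nat_lit 532) (nat_lit 0) (XT.lf (nat_lit 532) (nat_lit 404377697) (nat_lit 0) (nat_lit 1390475356)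 (nat_lit 456) (nat_lit 1390475356) (nat_lit 224) (nat_lit 1) (nat_lit 217) (nat_lit 1) (nat_lit 223) (nat_lit 1) (nat_lit 413) (nat_lit 401) (nat_lit 326)) (XT.lf (nat_lit 532) (nat_lit 2897870097) (nat_lit 0) (nat_lit 131385134) (nat_lit 456) (nat_lit 131385134) (nat_lit 217) (nat_lit 1) (nat_lit 210) (nat_lit 1) (nat_lit 216) (nat_lit 1) (nat_lit 414) (nat_lit 401) (nat_lit 325))))))))
noncomputable def ec57 : XT := (XT.nd (nat_lit 54054) (nat_lit 0) (nat_lit 20520) (XT.nd (nat_lit 53352) (nat_lit 0) (nat_lit 23636) (XT.nd (nat_lit 312) (nat_lit 912) (nat_lit 0) (XT.nd (nat_lit 156) (nat_lit 380) (nat_lit 0) (XT.nd (nat_lit 78) (nat_lit 456) (nat_lit 0) (XT.lf (nat_lit 76) (nat_lit 1102778160) (nat_lit 0) (nat_lit 930452303) (nat_lit 532) (nat_lit 1102778160) (nat_lit 211) (nat_lit 1) (nat_lit 210) (nat_lit 1) (nat_lit 217) (nat_lit 1) (nat_lit 415) (nat_lit 401) (nat_lit 324)) (XT.lf (nat_lit 532) (nat_lit 1520695929) (nat_lit 0) (nat_lit 795521950) (nat_lit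 456) (nat_lit 795521950) (nat_lit 211) (nat_lit 1) (nat_lit 204) (nat_lit 1) (nat_lit 210) (nat_lit 1) (nat_lit 416) (nat_lit 401) (nat_lit 323))) (XT.nd (nat_lit 78) (nat_lit 380) (nat_lit 0) (XT.lf (nat_lit 76) (nat_lit 419596668) (nat_lit 0) (nat_lit 2248556089) (nat_lit 532) (nat_lit 419596668) (nat_lit 205) (nat_lit 1) (nat_lit 204) (nat_lit 1) (nat_lit 211) (nat_lit 1) (nat_lit 417) (nat_lit 401) (nat_lit 322)) (XT.lf (nat_lit 456) (nat_lit 156260410) (nat_lit 0) (nat_lit 1453839476) (nat_lit 380) (nat_lit 1453839476) (nat_lit 205) (nat_lit 1) (nat_lit 199) (nat_lit 1) (nat_lit 204) (nat_lit 1) (nat_lit 418) (nat_lit 401) (nat_lit 321)))) (XT.nd (nat_lit 156) (nat_lit 380) (nat_lit 0) (XT.nd (nat_lit 78) (nat_lit 0) (nat_lit 0) (XT.lf (nat_lit 532) (nat_lit 2529509000) (nat_lit 0) (nat_lit 255466425) (nat_lit 456) (nat_lit 255466425) (nat_lit 199) (nat_lit 1) (nat_lit 192) (nat_lit 1) (nat_lit 198) (nat_lit 1) (nat_lit 419) (nat_lit 401) (nat_lit 320))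 (XT.lf (nat_lit 76) (nat_lit 918799387) (nat_lit 0) (nat_lit 1179457943) (nat_lit 532) (nat_lit 918799387) (nat_lit 193) (nat_lit 1) (nat_lit 192) (nat_lit 1) (nat_lit 199) (nat_lit 1) (nat_lit 420) (nat_lit 401) (nat_lit 319))) (XT.nd (nat_lit 52728) (nat_lit 0) (nat_lit 23560) (XT.lf (nat_lit 456) (nat_lit 1151495826) (nat_lit 0) (nat_lit 921241071) (nat_lit 380) (nat_lit 921241071) (nat_lit 193) (nat_lit 1) (nat_lit 187) (nat_lit 1) (nat_lit 192) (nat_lit 1) (nat_lit 421) (nat_lit 401) (nat_lit 318)) (XT.nd (nat_lit 78) (nat_lit 0) (nat_lit 0) (XT.lf (nat_lit 1900) (nat_lit 1042771454) (nat_lit 0) (nat_lit 1051491449) (nat_lit 1900) (nat_lit 1042771454) (nat_lit 522) (nat_lit 1) (nat_lit 497) (nat_lit 0) (nat_lit 522) (nat_lit 0) (nat_lit 336) (nat_lit 402) (nat_lit 402)) (XT.lf (nat_lit 1900) (nat_lit 4123275114) (nat_lit 76) (nat_lit 1044573742) (nat_lit 0) (nat_lit 1044573742) (nat_lit 522) (nat_lit 1) (nat_lit 498) (nat_lit 1) (nat_lit 497) (nat_lit 0)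 (nat_lit 337) (nat_lit 402) (nat_lit 401)))))) (XT.nd (nat_lit 312) (nat_lit 0) (nat_lit 152) (XT.nd (nat_lit 156) (nat_lit 0) (nat_lit 76) (XT.nd (nat_lit 78) (nat_lit 0) (nat_lit 0) (XT.lf (nat_lit 1900) (nat_lit 2024547708) (nat_lit 0) (nat_lit 2102354390) (nat_lit 1824) (nat_lit 2024547708) (nat_lit 523) (nat_lit 1) (nat_lit 498) (nat_lit 1) (nat_lit 522) (nat_lit 1) (nat_lit 338) (nat_lit 402) (nat_lit 400)) (XT.lf (nat_lit 1900) (nat_lit 3962538943) (nat_lit 76) (nat_lit 1064431207) (nat_lit 0) (nat_lit 1064431207) (nat_lit 523) (nat_lit 1) (nat_lit 499) (nat_lit 1) (nat_lit 498) (nat_lit 1) (nat_lit 339) (nat_lit 402) (nat_lit 399))) (XT.nd (nat_lit 78) (nat_lit 0) (nat_lit 0) (XT.lf (nat_lit 1900) (nat_lit 1925718838) (nat_lit 0) (nat_lit 2180578105) (nat_lit 1824) (nat_lit 1925718838) (nat_lit 524) (nat_lit 1) (nat_lit 499) (nat_lit 1) (nat_lit 523) (nat_lit 1) (nat_lit 340) (nat_lit 402) (nat_lit 398)) (XT.lf (nat_lit 1900) (nat_lit 3728168956) (nat_lit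 76) (nat_lit 1122672189) (nat_lit 0) (nat_lit 1122672189) (nat_lit 524) (nat_lit 1) (nat_lit 500) (nat_lit 1) (nat_lit 499) (nat_lit 1) (nat_lit 341) (nat_lit 402) (nat_lit 397)))) (XT.nd (nat_lit 156) (nat_lit 0) (nat_lit 76) (XT.nd (nat_lit 78) (nat_lit 0) (nat_lit 0) (XT.lf (nat_lit 1900) (nat_lit 1791313705) (nat_lit 0) (nat_lit 2333046470) (nat_lit 1824) (nat_lit 1791313705) (nat_lit 525) (nat_lit 1) (nat_lit 500) (nat_lit 1) (nat_lit 524) (nat_lit 1) (nat_lit 342) (nat_lit 402) (nat_lit 396)) (XT.lf (nat_lit 1900) (nat_lit 3424590630) (nat_lit 76) (nat_lit 1217038471) (nat_lit 0) (nat_lit 1217038471) (nat_lit 525) (nat_lit 1) (nat_lit 501) (nat_lit 1) (nat_lit 500) (nat_lit 1) (nat_lit 343) (nat_lit 402) (nat_lit 395))) (XT.nd (nat_lit 78) (nat_lit 0) (nat_lit 0) (XT.lf (nat_lit 1900) (nat_lit 1623486600) (nat_lit 0) (nat_lit 2555361139) (nat_lit 1824) (nat_lit 1623486600) (nat_lit 526) (nat_lit 1) (nat_lit 501) (nat_lit 1) (nat_lit 525) (nat_lit 1) (nat_lit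 344) (nat_lit 402) (nat_lit 394)) (XT.nd (nat_lit 78) (nat_lit 0) (nat_lit 76) (XT.lf (nat_lit 1900) (nat_lit 3056026881) (nat_lit 76) (nat_lit 1345374581) (nat_lit 0) (nat_lit 1345374581) (nat_lit 526) (nat_lit 1) (nat_lit 502) (nat_lit 1) (nat_lit 501) (nat_lit 1) (nat_lit 345) (nat_lit 402) (nat_lit 393)) (XT.lf (nat_lit 1900) (nat_lit 1424293009) (nat_lit 0) (nat_lit 2843324271) (nat_lit 1824) (nat_lit 1424293009) (nat_lit 527) (nat_lit 1) (nat_lit 502) (nat_lit 1) (nat_lit 526) (nat_lit 1) (nat_lit 346) (nat_lit 402) (nat_lit 392))))))) (XT.nd (nat_lit 702) (nat_lit 3420) (nat_lit 0) (XT.nd (nat_lit 312) (nat_lit 0) (nat_lit 152) (XT.nd (nat_lit 156) (nat_lit 0) (nat_lit 76) (XT.nd (nat_lit 78) (nat_lit 0) (nat_lit 76) (XT.lf (nat_lit 1900) (nat_lit 2626506542) (nat_lit 76) (nat_lit 1505623503) (nat_lit 0) (nat_lit 1505623503) (nat_lit 527) (nat_lit 1) (nat_lit 503) (nat_lit 1) (nat_lit 502) (nat_lit 1) (nat_lit 347) (nat_lit 402) (nat_lit 391)) (XT.lf (nat_lit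 1900) (nat_lit 1195693741) (nat_lit 0) (nat_lit 3192930162) (nat_lit 1824) (nat_lit 1195693741) (nat_lit 528) (nat_lit 1) (nat_lit 503) (nat_lit 1) (nat_lit 527) (nat_lit 1) (nat_lit 348) (nat_lit 402) (nat_lit 390))) (XT.nd (nat_lit 78) (nat_lit 0) (nat_lit 76) (XT.lf (nat_lit 1900) (nat_lit 2139872481) (nat_lit 76) (nat_lit 1695822568) (nat_lit 0) (nat_lit 1695822568) (nat_lit 528) (nat_lit 1) (nat_lit 504) (nat_lit 1) (nat_lit 503) (nat_lit 1) (nat_lit 349) (nat_lit 402) (nat_lit 389)) (XT.lf (nat_lit 1900) (nat_lit 939558903) (nat_lit 0) (nat_lit 3600357211) (nat_lit 1824) (nat_lit 939558903) (nat_lit 529) (nat_lit 1) (nat_lit 504) (nat_lit 1) (nat_lit 528) (nat_lit 1) (nat_lit 350) (nat_lit 402) (nat_lit 388)))) (XT.nd (nat_lit 156) (nat_lit 0) (nat_lit 76) (XT.nd (nat_lit 78) (nat_lit 0) (nat_lit 76) (XT.lf (nat_lit 1900) (nat_lit 1599789406) (nat_lit 76) (nat_lit 1914099505) (nat_lit 0) (nat_lit 1914099505) (nat_lit 529) (nat_lit 1) (nat_lit 505) (nat_lit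 1) (nat_lit 504) (nat_lit 1) (nat_lit 351) (nat_lit 402) (nat_lit 387)) (XT.lf (nat_lit 1900) (nat_lit 657671701) (nat_lit 0) (nat_lit 4061960218) (nat_lit 1824) (nat_lit 657671701) (nat_lit 530) (nat_lit 1) (nat_lit 505) (nat_lit 1) (nat_lit 529) (nat_lit 1) (nat_lit 352) (nat_lit 402) (nat_lit 386))) (XT.nd (nat_lit 78) (nat_lit 0) (nat_lit 76) (XT.lf (nat_lit 1900) (nat_lit 1009751349) (nat_lit 76) (nat_lit 2158668652) (nat_lit 0) (nat_lit 2158668652) (nat_lit 530) (nat_lit 1) (nat_lit 506) (nat_lit 1) (nat_lit 505) (nat_lit 1) (nat_lit 353) (nat_lit 402) (nat_lit 385)) (XT.nd (nat_lit 78) (nat_lit 0) (nat_lit 0) (XT.lf (nat_lit 1900) (nat_lit 351732100) (nat_lit 0) (nat_lit 4574262975) (nat_lit 1824) (nat_lit 351732100) (nat_lit 531) (nat_lit 1) (nat_lit 506) (nat_lit 1) (nat_lit 530) (nat_lit 1) (nat_lit 354) (nat_lit 402) (nat_lit 384)) (XT.lf (nat_lit 1900) (nat_lit 373088849) (nat_lit 76) (nat_lit 2427827323) (nat_lit 0) (nat_lit 2427827323) (nat_lit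 531) (nat_lit 1) (nat_lit 507) (nat_lit 1) (nat_lit 506) (nat_lit 1) (nat_lit 355) (nat_lit 402) (nat_lit 383)))))) (XT.nd (nat_lit 312) (nat_lit 1900) (nat_lit 0) (XT.nd (nat_lit 156) (nat_lit 0) (nat_lit 0) (XT.nd (nat_lit 78) (nat_lit 1900) (nat_lit 0) (XT.lf (nat_lit 1900) (nat_lit 23360328) (nat_lit 0) (nat_lit 5133951174) (nat_lit 1824) (nat_lit 23360328) (nat_lit 532) (nat_lit 1) (nat_lit 507) (nat_lit 1) (nat_lit 531) (nat_lit 1) (nat_lit 356) (nat_lit 402) (nat_lit 382)) (XT.lf (nat_lit 1976) (nat_lit 2414921565) (nat_lit 0) (nat_lit 302997475) (nat_lit 1900) (nat_lit 2414921565) (nat_lit 508) (nat_lit 1) (nat_lit 482) (nat_lit 1) (nat_lit 507) (nat_lit 1) (nat_lit 357) (nat_lit 402) (nat_lit 381))) (XT.nd (nat_lit 78) (nat_lit 0) (nat_lit 76) (XT.lf (nat_lit 1976) (nat_lit 4438384864) (nat_lit 76) (nat_lit 323755681) (nat_lit 0) (nat_lit 323755681) (nat_lit 508) (nat_lit 1) (nat_lit 483) (nat_lit 1) (nat_lit 482) (nat_lit 1) (nat_lit 358) (nat_lit 402)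 (nat_lit 380)) (XT.lf (nat_lit 1976) (nat_lit 2012604486) (nat_lit 0) (nat_lit 1014087013) (nat_lit 1900) (nat_lit 2012604486) (nat_lit 509) (nat_lit 1) (nat_lit 483) (nat_lit 1) (nat_lit 508) (nat_lit 1) (nat_lit 359) (nat_lit 402) (nat_lit 379)))) (XT.nd (nat_lit 156) (nat_lit 1976) (nat_lit 0) (XT.nd (nat_lit 78) (nat_lit 0) (nat_lit 76) (XT.lf (nat_lit 1976) (nat_lit 3613462944) (nat_lit 76) (nat_lit 690007857) (nat_lit 0) (nat_lit 690007857) (nat_lit 509) (nat_lit 1) (nat_lit 484) (nat_lit 1) (nat_lit 483) (nat_lit 1) (nat_lit 360) (nat_lit 402) (nat_lit 378)) (XT.lf (nat_lit 76) (nat_lit 1592930074) (nat_lit 0) (nat_lit 1762230343) (nat_lit 1900) (nat_lit 1592930074) (nat_lit 485) (nat_lit 1) (nat_lit 484) (nat_lit 1) (nat_lit 509) (nat_lit 1) (nat_lit 361) (nat_lit 402) (nat_lit 377))) (XT.nd (nat_lit 78) (nat_lit 912) (nat_lit 0) (XT.lf (nat_lit 1216) (nat_lit 2755048102) (nat_lit 0) (nat_lit 1074158430) (nat_lit 1140) (nat_lit 1074158430) (nat_lit 485)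 (nat_lit 1) (nat_lit 469) (nat_lit 1) (nat_lit 484) (nat_lit 1) (nat_lit 362) (nat_lit 402) (nat_lit 376)) (XT.nd (nat_lit 78) (nat_lit 912) (nat_lit 0) (XT.lf (nat_lit 76) (nat_lit 1157218999) (nat_lit 0) (nat_lit 2544720655) (nat_lit 1216) (nat_lit 1157218999) (nat_lit 470) (nat_lit 1) (nat_lit 469) (nat_lit 1) (nat_lit 485) (nat_lit 1) (nat_lit 363) (nat_lit 402) (nat_lit 375)) (XT.lf (nat_lit 988) (nat_lit 1865725725) (nat_lit 0) (nat_lit 1474882571) (nat_lit 912) (nat_lit 1474882571) (nat_lit 470) (nat_lit 1) (nat_lit 457) (nat_lit 1) (nat_lit 469) (nat_lit 1) (nat_lit 364) (nat_lit 402) (nat_lit 374))))))))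
noncomputable def ec58 : XT := (XT.nd (nat_lit 1404) (nat_lit 6384) (nat_lit 0) (XT.nd (nat_lit 702) (nat_lit 3800) (nat_lit 0) (XT.nd (nat_lit 312) (nat_lit 2660) (nat_lit 0) (XT.nd (nat_lit 156) (nat_lit 836) (nat_lit 0) (XT.nd (nat_lit 78) (nat_lit 912) (nat_lit 0) (XT.lf (nat_lit 76) (nat_lit 706727966) (nat_lit 0) (nat_lit 3358981110) (nat_lit 988) (nat_lit 706727966) (nat_lit 458) (nat_lit 1) (nat_lit 457) (nat_lit 1) (nat_lit 470) (nat_lit 1) (nat_lit 365) (nat_lit 402) (nat_lit 373)) (XT.lf (nat_lit 988) (nat_lit 947955614) (nat_lit 0) (nat_lit 1890919245) (nat_lit 912) (nat_lit 1890919245) (nat_lit 458) (nat_lit 1) (nat_lit 445) (nat_lit 1) (nat_lit 457) (nat_lit 1) (nat_lit 366) (nat_lit 402) (nat_lit 372))) (XT.nd (nat_lit 78) (nat_lit 836) (nat_lit 0) (XT.lf (nat_lit 76) (nat_lit 242652450) (nat_lit 0) (nat_lit 4202559305) (nat_lit 988) (nat_lit 242652450) (nat_lit 446) (nat_lit 1) (nat_lit 445) (nat_lit 1) (nat_lit 458) (nat_lit 1) (nat_lit 367)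 (nat_lit 402) (nat_lit 371)) (XT.lf (nat_lit 912) (nat_lit 4077355) (nat_lit 0) (nat_lit 2321068492) (nat_lit 836) (nat_lit 2321068492) (nat_lit 446) (nat_lit 1) (nat_lit 434) (nat_lit 1) (nat_lit 445) (nat_lit 1) (nat_lit 368) (nat_lit 402) (nat_lit 370)))) (XT.nd (nat_lit 156) (nat_lit 1672) (nat_lit 0) (XT.nd (nat_lit 78) (nat_lit 0) (nat_lit 0) (XT.lf (nat_lit 988) (nat_lit 4140594610) (nat_lit 0) (nat_lit 232332056) (nat_lit 912) (nat_lit 232332056) (nat_lit 434) (nat_lit 1) (nat_lit 421) (nat_lit 1) (nat_lit 433) (nat_lit 1) (nat_lit 369) (nat_lit 402) (nat_lit 369)) (XT.lf (nat_lit 76) (nat_lit 1806761168) (nat_lit 0) (nat_lit 951045632) (nat_lit 988) (nat_lit 1806761168) (nat_lit 422) (nat_lit 1) (nat_lit 421) (nat_lit 1) (nat_lit 434) (nat_lit 1) (nat_lit 370) (nat_lit 402) (nat_lit 368))) (XT.nd (nat_lit 78) (nat_lit 836) (nat_lit 0) (XT.lf (nat_lit 912) (nat_lit 3090527935) (nat_lit 0) (nat_lit 717012227) (nat_lit 836) (nat_lit 717012227) (nat_lit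 422) (nat_lit 1) (nat_lit 410) (nat_lit 1) (nat_lit 421) (nat_lit 1) (nat_lit 371) (nat_lit 402) (nat_lit 367)) (XT.nd (nat_lit 78) (nat_lit 836) (nat_lit 0) (XT.lf (nat_lit 76) (nat_lit 1278660626) (nat_lit 0) (nat_lit 1927598860) (nat_lit 912) (nat_lit 1278660626) (nat_lit 411) (nat_lit 1) (nat_lit 410) (nat_lit 1) (nat_lit 422) (nat_lit 1) (nat_lit 372) (nat_lit 402) (nat_lit 366)) (XT.lf (nat_lit 912) (nat_lit 2021888032) (nat_lit 0) (nat_lit 1211964125) (nat_lit 836) (nat_lit 1211964125) (nat_lit 411) (nat_lit 1) (nat_lit 399) (nat_lit 1) (nat_lit 410) (nat_lit 1) (nat_lit 373) (nat_lit 402) (nat_lit 365)))))) (XT.nd (nat_lit 312) (nat_lit 2204) (nat_lit 0) (XT.nd (nat_lit 156) (nat_lit 836) (nat_lit 0) (XT.nd (nat_lit 78) (nat_lit 760) (nat_lit 0) (XT.lf (nat_lit 76) (nat_lit 741781757) (nat_lit 0) (nat_lit 2923653129) (nat_lit 912) (nat_lit 741781757) (nat_lit 400) (nat_lit 1) (nat_lit 399) (nat_lit 1) (nat_lit 411) (nat_lit 1) (nat_lit 374) (nat_lit 402)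 (nat_lit 364)) (XT.lf (nat_lit 836) (nat_lit 936559821) (nat_lit 0) (nat_lit 1716218446) (nat_lit 760) (nat_lit 1716218446) (nat_lit 400) (nat_lit 1) (nat_lit 389) (nat_lit 1) (nat_lit 399) (nat_lit 1) (nat_lit 375) (nat_lit 402) (nat_lit 363))) (XT.nd (nat_lit 78) (nat_lit 836) (nat_lit 0) (XT.lf (nat_lit 76) (nat_lit 197039653) (nat_lit 0) (nat_lit 3937325273) (nat_lit 836) (nat_lit 197039653) (nat_lit 390) (nat_lit 1) (nat_lit 389) (nat_lit 1) (nat_lit 400) (nat_lit 1) (nat_lit 376) (nat_lit 402) (nat_lit 362)) (XT.lf (nat_lit 76) (nat_lit 2066249562) (nat_lit 0) (nat_lit 161521257) (nat_lit 836) (nat_lit 2066249562) (nat_lit 379) (nat_lit 1) (nat_lit 378) (nat_lit 1) (nat_lit 389) (nat_lit 1) (nat_lit 377) (nat_lit 402) (nat_lit 361)))) (XT.nd (nat_lit 156) (nat_lit 1444) (nat_lit 0) (XT.nd (nat_lit 78) (nat_lit 0) (nat_lit 0) (XT.lf (nat_lit 836) (nat_lit 3552519989) (nat_lit 0) (nat_lit 352363853) (nat_lit 760) (nat_lit 352363853) (nat_lit 379) (nat_lit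 1) (nat_lit 368) (nat_lit 1) (nat_lit 378) (nat_lit 1) (nat_lit 378) (nat_lit 402) (nat_lit 360)) (XT.lf (nat_lit 76) (nat_lit 1480193186) (nat_lit 0) (nat_lit 1260348364) (nat_lit 836) (nat_lit 1480193186) (nat_lit 369) (nat_lit 1) (nat_lit 368) (nat_lit 1) (nat_lit 379) (nat_lit 1) (nat_lit 379) (nat_lit 402) (nat_lit 359))) (XT.nd (nat_lit 78) (nat_lit 684) (nat_lit 0) (XT.lf (nat_lit 836) (nat_lit 2371571453) (nat_lit 0) (nat_lit 906601841) (nat_lit 760) (nat_lit 906601841) (nat_lit 369) (nat_lit 1) (nat_lit 358) (nat_lit 1) (nat_lit 368) (nat_lit 1) (nat_lit 380) (nat_lit 402) (nat_lit 358)) (XT.nd (nat_lit 78) (nat_lit 684) (nat_lit 0) (XT.lf (nat_lit 76) (nat_lit 889298076) (nat_lit 0) (nat_lit 2370616514) (nat_lit 836) (nat_lit 889298076) (nat_lit 359) (nat_lit 1) (nat_lit 358) (nat_lit 1) (nat_lit 369) (nat_lit 1) (nat_lit 381) (nat_lit 402) (nat_lit 357)) (XT.lf (nat_lit 760) (nat_lit 1181651658) (nat_lit 0) (nat_lit 1466195018) (nat_lit 684) (nat_lit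 1466195018) (nat_lit 359) (nat_lit 1) (nat_lit 349) (nat_lit 1) (nat_lit 358) (nat_lit 1) (nat_lit 382) (nat_lit 402) (nat_lit 356))))))) (XT.nd (nat_lit 702) (nat_lit 2964) (nat_lit 0) (XT.nd (nat_lit 312) (nat_lit 1976) (nat_lit 0) (XT.nd (nat_lit 156) (nat_lit 684) (nat_lit 0) (XT.nd (nat_lit 78) (nat_lit 760) (nat_lit 0) (XT.lf (nat_lit 76) (nat_lit 294293224) (nat_lit 0) (nat_lit 3490820459) (nat_lit 760) (nat_lit 294293224) (nat_lit 350) (nat_lit 1) (nat_lit 349) (nat_lit 1) (nat_lit 359) (nat_lit 1) (nat_lit 383) (nat_lit 402) (nat_lit 355)) (XT.lf (nat_lit 76) (nat_lit 2014695172) (nat_lit 0) (nat_lit 15608524) (nat_lit 760) (nat_lit 2014695172) (nat_lit 340) (nat_lit 1) (nat_lit 339) (nat_lit 1) (nat_lit 349) (nat_lit 1) (nat_lit 384) (nat_lit 402) (nat_lit 354))) (XT.nd (nat_lit 78) (nat_lit 0) (nat_lit 0) (XT.lf (nat_lit 760) (nat_lit 3406852259) (nat_lit 0) (nat_lit 302130429) (nat_lit 684) (nat_lit 302130429) (nat_lit 340) (nat_lit 1) (nat_lit 330)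 (nat_lit 1) (nat_lit 339) (nat_lit 1) (nat_lit 385) (nat_lit 402) (nat_lit 353)) (XT.lf (nat_lit 76) (nat_lit 1386979433) (nat_lit 0) (nat_lit 1203490537) (nat_lit 760) (nat_lit 1386979433) (nat_lit 331) (nat_lit 1) (nat_lit 330) (nat_lit 1) (nat_lit 340) (nat_lit 1) (nat_lit 386) (nat_lit 402) (nat_lit 352)))) (XT.nd (nat_lit 156) (nat_lit 1292) (nat_lit 0) (XT.nd (nat_lit 78) (nat_lit 0) (nat_lit 0) (XT.lf (nat_lit 760) (nat_lit 2145557448) (nat_lit 0) (nat_lit 899366532) (nat_lit 684) (nat_lit 899366532) (nat_lit 331) (nat_lit 1) (nat_lit 321) (nat_lit 1) (nat_lit 330) (nat_lit 1) (nat_lit 387) (nat_lit 402) (nat_lit 351)) (XT.lf (nat_lit 76) (nat_lit 757634318) (nat_lit 0) (nat_lit 2396234552) (nat_lit 760) (nat_lit 757634318) (nat_lit 322) (nat_lit 1) (nat_lit 321) (nat_lit 1) (nat_lit 331) (nat_lit 1) (nat_lit 388) (nat_lit 402) (nat_lit 350))) (XT.nd (nat_lit 78) (nat_lit 684) (nat_lit 0) (XT.lf (nat_lit 684) (nat_lit 881573727) (nat_lit 0) (nat_lit 1498737957)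 (nat_lit 608) (nat_lit 1498737957) (nat_lit 322) (nat_lit 1) (nat_lit 313) (nat_lit 1) (nat_lit 321) (nat_lit 1) (nat_lit 389) (nat_lit 402) (nat_lit 349)) (XT.nd (nat_lit 78) (nat_lit 684) (nat_lit 0) (XT.lf (nat_lit 76) (nat_lit 127232986) (nat_lit 0) (nat_lit 3592651990) (nat_lit 684) (nat_lit 127232986) (nat_lit 314) (nat_lit 1) (nat_lit 313) (nat_lit 1) (nat_lit 322) (nat_lit 1) (nat_lit 390) (nat_lit 402) (nat_lit 348)) (XT.lf (nat_lit 76) (nat_lit 1718176826) (nat_lit 0) (nat_lit 378945434) (nat_lit 684) (nat_lit 1718176826) (nat_lit 305) (nat_lit 1) (nat_lit 304) (nat_lit 1) (nat_lit 313) (nat_lit 1) (nat_lit 391) (nat_lit 402) (nat_lit 347)))))) (XT.nd (nat_lit 312) (nat_lit 1748) (nat_lit 0) (XT.nd (nat_lit 156) (nat_lit 608) (nat_lit 0) (XT.nd (nat_lit 78) (nat_lit 0) (nat_lit 0) (XT.lf (nat_lit 684) (nat_lit 2783250321) (nat_lit 0) (nat_lit 500369948) (nat_lit 608) (nat_lit 500369948) (nat_lit 305) (nat_lit 1) (nat_lit 296) (nat_lit 1) (nat_lit 304)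 (nat_lit 1) (nat_lit 392) (nat_lit 402) (nat_lit 346)) (XT.lf (nat_lit 76) (nat_lit 1062260408) (nat_lit 0) (nat_lit 1628413018) (nat_lit 684) (nat_lit 1062260408) (nat_lit 297) (nat_lit 1) (nat_lit 296) (nat_lit 1) (nat_lit 305) (nat_lit 1) (nat_lit 393) (nat_lit 402) (nat_lit 345))) (XT.nd (nat_lit 78) (nat_lit 0) (nat_lit 0) (XT.lf (nat_lit 684) (nat_lit 1467994332) (nat_lit 0) (nat_lit 1127141001) (nat_lit 608) (nat_lit 1127141001) (nat_lit 297) (nat_lit 1) (nat_lit 288) (nat_lit 1) (nat_lit 296) (nat_lit 1) (nat_lit 394) (nat_lit 402) (nat_lit 344)) (XT.lf (nat_lit 76) (nat_lit 407309550) (nat_lit 0) (nat_lit 2877410240) (nat_lit 684) (nat_lit 407309550) (nat_lit 289) (nat_lit 1) (nat_lit 288) (nat_lit 1) (nat_lit 297) (nat_lit 1) (nat_lit 395) (nat_lit 402) (nat_lit 343)))) (XT.nd (nat_lit 156) (nat_lit 532) (nat_lit 0) (XT.nd (nat_lit 78) (nat_lit 684) (nat_lit 0) (XT.lf (nat_lit 608) (nat_lit 155124817) (nat_lit 0) (nat_lit 1753439711) (nat_lit 532) (nat_lit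 1753439711) (nat_lit 289) (nat_lit 1) (nat_lit 281) (nat_lit 1) (nat_lit 288) (nat_lit 1) (nat_lit 396) (nat_lit 402) (nat_lit 342)) (XT.lf (nat_lit 684) (nat_lit 3143193782) (nat_lit 0) (nat_lit 244612808) (nat_lit 608) (nat_lit 244612808) (nat_lit 281) (nat_lit 1) (nat_lit 272) (nat_lit 1) (nat_lit 280) (nat_lit 1) (nat_lit 397) (nat_lit 402) (nat_lit 341))) (XT.nd (nat_lit 78) (nat_lit 532) (nat_lit 0) (XT.lf (nat_lit 76) (nat_lit 1231815960) (nat_lit 0) (nat_lit 1139354830) (nat_lit 684) (nat_lit 1231815960) (nat_lit 273) (nat_lit 1) (nat_lit 272) (nat_lit 1) (nat_lit 281) (nat_lit 1) (nat_lit 398) (nat_lit 402) (nat_lit 340)) (XT.nd (nat_lit 78) (nat_lit 0) (nat_lit 0) (XT.lf (nat_lit 608) (nat_lit 1789899044) (nat_lit 0) (nat_lit 892042596) (nat_lit 532) (nat_lit 892042596) (nat_lit 273) (nat_lit 1) (nat_lit 265) (nat_lit 1) (nat_lit 272) (nat_lit 1) (nat_lit 399) (nat_lit 402) (nat_lit 339)) (XT.lf (nat_lit 76) (nat_lit 558761490) (nat_lit 0) (nat_lit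 2427794994) (nat_lit 608) (nat_lit 558761490) (nat_lit 266) (nat_lit 1) (nat_lit 265) (nat_lit 1) (nat_lit 273) (nat_lit 1) (nat_lit 400) (nat_lit 402) (nat_lit 338))))))))
noncomputable def ec59 : XT := (XT.nd (nat_lit 1404) (nat_lit 836) (nat_lit 0) (XT.nd (nat_lit 702) (nat_lit 2356) (nat_lit 0) (XT.nd (nat_lit 312) (nat_lit 1520) (nat_lit 0) (XT.nd (nat_lit 156) (nat_lit 532) (nat_lit 0) (XT.nd (nat_lit 78) (nat_lit 608) (nat_lit 0) (XT.lf (nat_lit 608) (nat_lit 442358427) (nat_lit 0) (nat_lit 1537271094) (nat_lit 532) (nat_lit 1537271094) (nat_lit 266) (nat_lit 1) (nat_lit 258) (nat_lit 1) (nat_lit 265) (nat_lit 1) (nat_lit 401) (nat_lit 402) (nat_lit 337)) (XT.lf (nat_lit 608) (nat_lit 3267891704) (nat_lit 0) (nat_lit 110516667) (nat_lit 532) (nat_lit 110516667) (nat_lit 258) (nat_lit 1) (nat_lit 250) (nat_lit 1) (nat_lit 257) (nat_lit 1) (nat_lit 402) (nat_lit 402) (nat_lit 336))) (XT.nd (nat_lit 78) (nat_lit 532) (nat_lit 0) (XT.lf (nat_lit 76) (nat_lit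 1287035229) (nat_lit 0) (nat_lit 886946882) (nat_lit 608) (nat_lit 1287035229) (nat_lit 251) (nat_lit 1) (nat_lit 250) (nat_lit 1) (nat_lit 258) (nat_lit 1) (nat_lit 403) (nat_lit 402) (nat_lit 335)) (XT.lf (nat_lit 608) (nat_lit 1888018373) (nat_lit 0) (nat_lit 772762032) (nat_lit 532) (nat_lit 772762032) (nat_lit 251) (nat_lit 1) (nat_lit 243) (nat_lit 1) (nat_lit 250) (nat_lit 1) (nat_lit 404) (nat_lit 402) (nat_lit 334)))) (XT.nd (nat_lit 156) (nat_lit 1064) (nat_lit 0) (XT.nd (nat_lit 78) (nat_lit 456) (nat_lit 0) (XT.lf (nat_lit 76) (nat_lit 601457428) (nat_lit 0) (nat_lit 2203446235) (nat_lit 608) (nat_lit 601457428) (nat_lit 244) (nat_lit 1) (nat_lit 243) (nat_lit 1) (nat_lit 251) (nat_lit 1) (nat_lit 405) (nat_lit 402) (nat_lit 333)) (XT.lf (nat_lit 532) (nat_lit 516748386) (nat_lit 0) (nat_lit 1431340042) (nat_lit 456) (nat_lit 1431340042) (nat_lit 244) (nat_lit 1) (nat_lit 237) (nat_lit 1) (nat_lit 243) (nat_lit 1) (nat_lit 406) (nat_lit 402) (nat_lit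 332))) (XT.nd (nat_lit 78) (nat_lit 456) (nat_lit 0) (XT.lf (nat_lit 608) (nat_lit 3194577886) (nat_lit 0) (nat_lit 79168711) (nat_lit 532) (nat_lit 79168711) (nat_lit 237) (nat_lit 1) (nat_lit 229) (nat_lit 1) (nat_lit 236) (nat_lit 1) (nat_lit 407) (nat_lit 402) (nat_lit 331)) (XT.nd (nat_lit 78) (nat_lit 456) (nat_lit 0) (XT.lf (nat_lit 76) (nat_lit 1246079093) (nat_lit 0) (nat_lit 834283212) (nat_lit 608) (nat_lit 1246079093) (nat_lit 230) (nat_lit 1) (nat_lit 229) (nat_lit 1) (nat_lit 237) (nat_lit 1) (nat_lit 408) (nat_lit 402) (nat_lit 330)) (XT.lf (nat_lit 532) (nat_lit 1798022717) (nat_lit 0) (nat_lit 751178123) (nat_lit 456) (nat_lit 751178123) (nat_lit 230) (nat_lit 1) (nat_lit 223) (nat_lit 1) (nat_lit 229) (nat_lit 1) (nat_lit 409) (nat_lit 402) (nat_lit 329)))))) (XT.nd (nat_lit 312) (nat_lit 1368) (nat_lit 0) (XT.nd (nat_lit 156) (nat_lit 532) (nat_lit 0) (XT.nd (nat_lit 78) (nat_lit 456) (nat_lit 0) (XT.lf (nat_lit 76) (nat_lit 552795156) (nat_lit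 0) (nat_lit 2169003765) (nat_lit 532) (nat_lit 552795156) (nat_lit 224) (nat_lit 1) (nat_lit 223) (nat_lit 1) (nat_lit 230) (nat_lit 1) (nat_lit 410) (nat_lit 402) (nat_lit 328)) (XT.lf (nat_lit 532) (nat_lit 412465251) (nat_lit 0) (nat_lit 1418284863) (nat_lit 456) (nat_lit 1418284863) (nat_lit 224) (nat_lit 1) (nat_lit 217) (nat_lit 1) (nat_lit 223) (nat_lit 1) (nat_lit 411) (nat_lit 402) (nat_lit 327))) (XT.nd (nat_lit 78) (nat_lit 0) (nat_lit 0) (XT.lf (nat_lit 532) (nat_lit 2955827499) (nat_lit 0) (nat_lit 134012837) (nat_lit 456) (nat_lit 134012837) (nat_lit 217) (nat_lit 1) (nat_lit 210) (nat_lit 1) (nat_lit 216) (nat_lit 1) (nat_lit 412) (nat_lit 402) (nat_lit 326)) (XT.lf (nat_lit 76) (nat_lit 1124833724) (nat_lit 0) (nat_lit 949061349) (nat_lit 532) (nat_lit 1124833724) (nat_lit 211) (nat_lit 1) (nat_lit 210) (nat_lit 1) (nat_lit 217) (nat_lit 1) (nat_lit 413) (nat_lit 402) (nat_lit 325)))) (XT.nd (nat_lit 156) (nat_lit 912) (nat_lit 0) (XT.nd (nat_lit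 78) (nat_lit 0) (nat_lit 0) (XT.lf (nat_lit 532) (nat_lit 1551109847) (nat_lit 0) (nat_lit 811432389) (nat_lit 456) (nat_lit 811432389) (nat_lit 211) (nat_lit 1) (nat_lit 204) (nat_lit 1) (nat_lit 210) (nat_lit 1) (nat_lit 414) (nat_lit 402) (nat_lit 324)) (XT.lf (nat_lit 76) (nat_lit 427988602) (nat_lit 0) (nat_lit 2293527211) (nat_lit 532) (nat_lit 427988602) (nat_lit 205) (nat_lit 1) (nat_lit 204) (nat_lit 1) (nat_lit 211) (nat_lit 1) (nat_lit 415) (nat_lit 402) (nat_lit 323))) (XT.nd (nat_lit 78) (nat_lit 532) (nat_lit 0) (XT.lf (nat_lit 456) (nat_lit 159385618) (nat_lit 0) (nat_lit 1482916266) (nat_lit 380) (nat_lit 1482916266) (nat_lit 205) (nat_lit 1) (nat_lit 199) (nat_lit 1) (nat_lit 204) (nat_lit 1) (nat_lit 416) (nat_lit 402) (nat_lit 322)) (XT.nd (nat_lit 78) (nat_lit 0) (nat_lit 0) (XT.lf (nat_lit 532) (nat_lit 2580099180) (nat_lit 0) (nat_lit 260575754) (nat_lit 456) (nat_lit 260575754) (nat_lit 199) (nat_lit 1) (nat_lit 192) (nat_lit 1) (nat_lit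 198) (nat_lit 1) (nat_lit 417) (nat_lit 402) (nat_lit 321)) (XT.lf (nat_lit 76) (nat_lit 937175375) (nat_lit 0) (nat_lit 1203047102) (nat_lit 532) (nat_lit 937175375) (nat_lit 193) (nat_lit 1) (nat_lit 192) (nat_lit 1) (nat_lit 199) (nat_lit 1) (nat_lit 418) (nat_lit 402) (nat_lit 320))))))) (XT.nd (nat_lit 53196) (nat_lit 0) (nat_lit 24244) (XT.nd (nat_lit 52806) (nat_lit 0) (nat_lit 24016) (XT.nd (nat_lit 156) (nat_lit 456) (nat_lit 0) (XT.nd (nat_lit 78) (nat_lit 0) (nat_lit 0) (XT.lf (nat_lit 456) (nat_lit 1174525742) (nat_lit 0) (nat_lit 939665892) (nat_lit 380) (nat_lit 939665892) (nat_lit 193) (nat_lit 1) (nat_lit 187) (nat_lit 1) (nat_lit 192) (nat_lit 1) (nat_lit 419) (nat_lit 402) (nat_lit 319)) (XT.lf (nat_lit 76) (nat_lit 240322238) (nat_lit 0) (nat_lit 2549981785) (nat_lit 456) (nat_lit 240322238) (nat_lit 188) (nat_lit 1) (nat_lit 187) (nat_lit 1) (nat_lit 193) (nat_lit 1) (nat_lit 420) (nat_lit 402) (nat_lit 318))) (XT.nd (nat_lit 52572) (nat_lit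 0) (nat_lit 24016) (XT.lf (nat_lit 76) (nat_lit 1396962108) (nat_lit 0) (nat_lit 213569247) (nat_lit 456) (nat_lit 1396962108) (nat_lit 182) (nat_lit 1) (nat_lit 181) (nat_lit 1) (nat_lit 187) (nat_lit 1) (nat_lit 421) (nat_lit 402) (nat_lit 317)) (XT.lf (nat_lit 1900) (nat_lit 1063626883) (nat_lit 0) (nat_lit 1072521278) (nat_lit 1900) (nat_lit 1063626883) (nat_lit 522) (nat_lit 1) (nat_lit 497) (nat_lit 0) (nat_lit 522) (nat_lit 0) (nat_lit 334) (nat_lit 403) (nat_lit 403)))) (XT.nd (nat_lit 156) (nat_lit 0) (nat_lit 76) (XT.nd (nat_lit 78) (nat_lit 0) (nat_lit 76) (XT.lf (nat_lit 1900) (nat_lit 4205740616) (nat_lit 76) (nat_lit 1065465217) (nat_lit 0) (nat_lit 1065465217) (nat_lit 522) (nat_lit 1) (nat_lit 498) (nat_lit 1) (nat_lit 497) (nat_lit 0) (nat_lit 335) (nat_lit 403) (nat_lit 402)) (XT.lf (nat_lit 1900) (nat_lit 2065038662) (nat_lit 0) (nat_lit 2144401478) (nat_lit 1824) (nat_lit 2065038662) (nat_lit 523) (nat_lit 1) (nat_lit 498) (nat_lit 1) (nat_lit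 522) (nat_lit 1) (nat_lit 336) (nat_lit 403) (nat_lit 401))) (XT.nd (nat_lit 78) (nat_lit 0) (nat_lit 76) (XT.lf (nat_lit 1900) (nat_lit 4041789722) (nat_lit 76) (nat_lit 1085719831) (nat_lit 0) (nat_lit 1085719831) (nat_lit 523) (nat_lit 1) (nat_lit 499) (nat_lit 1) (nat_lit 498) (nat_lit 1) (nat_lit 337) (nat_lit 403) (nat_lit 400)) (XT.nd (nat_lit 78) (nat_lit 0) (nat_lit 0) (XT.lf (nat_lit 1900) (nat_lit 1964233214) (nat_lit 0) (nat_lit 2224189667) (nat_lit 1824) (nat_lit 1964233214) (nat_lit 524) (nat_lit 1) (nat_lit 499) (nat_lit 1) (nat_lit 523) (nat_lit 1) (nat_lit 338) (nat_lit 403) (nat_lit 399)) (XT.lf (nat_lit 1900) (nat_lit 3802732336) (nat_lit 76) (nat_lit 1145125633) (nat_lit 0) (nat_lit 1145125633) (nat_lit 524) (nat_lit 1) (nat_lit 500) (nat_lit 1) (nat_lit 499) (nat_lit 1) (nat_lit 339) (nat_lit 403) (nat_lit 398)))))) (XT.nd (nat_lit 312) (nat_lit 0) (nat_lit 152) (XT.nd (nat_lit 156) (nat_lit 0) (nat_lit 76) (XT.nd (nat_lit 78) (nat_lit 0)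 (nat_lit 0) (XT.lf (nat_lit 1900) (nat_lit 1827139979) (nat_lit 0) (nat_lit 2379707399) (nat_lit 1824) (nat_lit 1827139979) (nat_lit 525) (nat_lit 1) (nat_lit 500) (nat_lit 1) (nat_lit 524) (nat_lit 1) (nat_lit 340) (nat_lit 403) (nat_lit 397)) (XT.lf (nat_lit 1900) (nat_lit 3493082442) (nat_lit 76) (nat_lit 1241379240) (nat_lit 0) (nat_lit 1241379240) (nat_lit 525) (nat_lit 1) (nat_lit 501) (nat_lit 1) (nat_lit 500) (nat_lit 1) (nat_lit 341) (nat_lit 403) (nat_lit 396))) (XT.nd (nat_lit 78) (nat_lit 0) (nat_lit 0) (XT.lf (nat_lit 1900) (nat_lit 1655956332) (nat_lit 0) (nat_lit 2606468362) (nat_lit 1824) (nat_lit 1655956332) (nat_lit 526) (nat_lit 1) (nat_lit 501) (nat_lit 1) (nat_lit 525) (nat_lit 1) (nat_lit 342) (nat_lit 403) (nat_lit 395)) (XT.lf (nat_lit 1900) (nat_lit 3117147419) (nat_lit 76) (nat_lit 1372282072) (nat_lit 0) (nat_lit 1372282072) (nat_lit 526) (nat_lit 1) (nat_lit 502) (nat_lit 1) (nat_lit 501) (nat_lit 1) (nat_lit 343) (nat_lit 403) (nat_lit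 394)))) (XT.nd (nat_lit 156) (nat_lit 0) (nat_lit 76) (XT.nd (nat_lit 78) (nat_lit 0) (nat_lit 0) (XT.lf (nat_lit 1900) (nat_lit 1452778869) (nat_lit 0) (nat_lit 2900190757) (nat_lit 1824) (nat_lit 1452778869) (nat_lit 527) (nat_lit 1) (nat_lit 502) (nat_lit 1) (nat_lit 526) (nat_lit 1) (nat_lit 344) (nat_lit 403) (nat_lit 393)) (XT.lf (nat_lit 1900) (nat_lit 2679036673) (nat_lit 76) (nat_lit 1535735973) (nat_lit 0) (nat_lit 1535735973) (nat_lit 527) (nat_lit 1) (nat_lit 503) (nat_lit 1) (nat_lit 502) (nat_lit 1) (nat_lit 345) (nat_lit 403) (nat_lit 392))) (XT.nd (nat_lit 78) (nat_lit 0) (nat_lit 0) (XT.lf (nat_lit 1900) (nat_lit 1219607616) (nat_lit 0) (nat_lit 3256788765) (nat_lit 1824) (nat_lit 1219607616) (nat_lit 528) (nat_lit 1) (nat_lit 503) (nat_lit 1) (nat_lit 527) (nat_lit 1) (nat_lit 346) (nat_lit 403) (nat_lit 391)) (XT.nd (nat_lit 78) (nat_lit 0) (nat_lit 76) (XT.lf (nat_lit 1900) (nat_lit 2182669931) (nat_lit 76) (nat_lit 1729739020) (nat_lit 0)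 (nat_lit 1729739020) (nat_lit 528) (nat_lit 1) (nat_lit 504) (nat_lit 1) (nat_lit 503) (nat_lit 1) (nat_lit 347) (nat_lit 403) (nat_lit 390)) (XT.lf (nat_lit 1900) (nat_lit 958350081) (nat_lit 0) (nat_lit 3672364356) (nat_lit 1824) (nat_lit 958350081) (nat_lit 529) (nat_lit 1) (nat_lit 504) (nat_lit 1) (nat_lit 528) (nat_lit 1) (nat_lit 348) (nat_lit 403) (nat_lit 389))))))))
noncomputable def ec60 : XT := (XT.nd (nat_lit 1404) (nat_lit 7904) (nat_lit 0) (XT.nd (nat_lit 702) (nat_lit 3648) (nat_lit 0) (XT.nd (nat_lit 312) (nat_lit 1672) (nat_lit 0) (XT.nd (nat_lit 156) (nat_lit 0) (nat_lit 76) (XT.nd (nat_lit 78) (nat_lit 0) (nat_lit 76) (XT.lf (nat_lit 1900) (nat_lit 1631785195) (nat_lit 76) (nat_lit 1952381495) (nat_lit 0) (nat_lit 1952381495) (nat_lit 529) (nat_lit 1) (nat_lit 505) (nat_lit 1) (nat_lit 504) (nat_lit 1) (nat_lit 349) (nat_lit 403) (nat_lit 388)) (XT.lf (nat_lit 1900) (nat_lit 670825135) (nat_lit 0) (nat_lit 4143199422) (nat_lit 1824) (nat_lit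 670825135) (nat_lit 530) (nat_lit 1) (nat_lit 505) (nat_lit 1) (nat_lit 529) (nat_lit 1) (nat_lit 350) (nat_lit 403) (nat_lit 387))) (XT.nd (nat_lit 78) (nat_lit 0) (nat_lit 76) (XT.lf (nat_lit 1900) (nat_lit 1029946376) (nat_lit 76) (nat_lit 2201842025) (nat_lit 0) (nat_lit 2201842025) (nat_lit 530) (nat_lit 1) (nat_lit 506) (nat_lit 1) (nat_lit 505) (nat_lit 1) (nat_lit 351) (nat_lit 403) (nat_lit 386)) (XT.lf (nat_lit 1900) (nat_lit 358766742) (nat_lit 0) (nat_lit 4665748234) (nat_lit 1824) (nat_lit 358766742) (nat_lit 531) (nat_lit 1) (nat_lit 506) (nat_lit 1) (nat_lit 530) (nat_lit 1) (nat_lit 352) (nat_lit 403) (nat_lit 385)))) (XT.nd (nat_lit 156) (nat_lit 1824) (nat_lit 0) (XT.nd (nat_lit 78) (nat_lit 0) (nat_lit 76) (XT.lf (nat_lit 1900) (nat_lit 380550626) (nat_lit 76) (nat_lit 2476383869) (nat_lit 0) (nat_lit 2476383869) (nat_lit 531) (nat_lit 1) (nat_lit 507) (nat_lit 1) (nat_lit 506) (nat_lit 1) (nat_lit 353) (nat_lit 403) (nat_lit 384)) (XT.lf (nat_lit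 1900) (nat_lit 23827535) (nat_lit 0) (nat_lit 5236630197) (nat_lit 1824) (nat_lit 23827535) (nat_lit 532) (nat_lit 1) (nat_lit 507) (nat_lit 1) (nat_lit 531) (nat_lit 1) (nat_lit 354) (nat_lit 403) (nat_lit 383))) (XT.nd (nat_lit 78) (nat_lit 0) (nat_lit 0) (XT.lf (nat_lit 1976) (nat_lit 2463219996) (nat_lit 0) (nat_lit 309057425) (nat_lit 1900) (nat_lit 2463219996) (nat_lit 508) (nat_lit 1) (nat_lit 482) (nat_lit 1) (nat_lit 507) (nat_lit 1) (nat_lit 355) (nat_lit 403) (nat_lit 382)) (XT.nd (nat_lit 78) (nat_lit 0) (nat_lit 76) (XT.lf (nat_lit 1976) (nat_lit 4527152561) (nat_lit 76) (nat_lit 330230794) (nat_lit 0) (nat_lit 330230794) (nat_lit 508) (nat_lit 1) (nat_lit 483) (nat_lit 1) (nat_lit 482) (nat_lit 1) (nat_lit 356) (nat_lit 403) (nat_lit 381)) (XT.lf (nat_lit 1976) (nat_lit 2052856576) (nat_lit 0) (nat_lit 1034368753) (nat_lit 1900) (nat_lit 2052856576) (nat_lit 509) (nat_lit 1) (nat_lit 483) (nat_lit 1) (nat_lit 508) (nat_lit 1) (nat_lit 357) (nat_lit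 403) (nat_lit 380)))))) (XT.nd (nat_lit 312) (nat_lit 2660) (nat_lit 0) (XT.nd (nat_lit 156) (nat_lit 1064) (nat_lit 0) (XT.nd (nat_lit 78) (nat_lit 0) (nat_lit 76) (XT.lf (nat_lit 1976) (nat_lit 3685732203) (nat_lit 76) (nat_lit 703808015) (nat_lit 0) (nat_lit 703808015) (nat_lit 509) (nat_lit 1) (nat_lit 484) (nat_lit 1) (nat_lit 483) (nat_lit 1) (nat_lit 358) (nat_lit 403) (nat_lit 379)) (XT.lf (nat_lit 76) (nat_lit 1624788676) (nat_lit 0) (nat_lit 1797474950) (nat_lit 1900) (nat_lit 1624788676) (nat_lit 485) (nat_lit 1) (nat_lit 484) (nat_lit 1) (nat_lit 509) (nat_lit 1) (nat_lit 359) (nat_lit 403) (nat_lit 378))) (XT.nd (nat_lit 78) (nat_lit 0) (nat_lit 0) (XT.lf (nat_lit 1216) (nat_lit 2810149064) (nat_lit 0) (nat_lit 1095641599) (nat_lit 1140) (nat_lit 1095641599) (nat_lit 485) (nat_lit 1) (nat_lit 469) (nat_lit 1) (nat_lit 484) (nat_lit 1) (nat_lit 360) (nat_lit 403) (nat_lit 377)) (XT.lf (nat_lit 76) (nat_lit 1180363379) (nat_lit 0) (nat_lit 2595615068)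 (nat_lit 1216) (nat_lit 1180363379) (nat_lit 470) (nat_lit 1) (nat_lit 469) (nat_lit 1) (nat_lit 485) (nat_lit 1) (nat_lit 361) (nat_lit 403) (nat_lit 376)))) (XT.nd (nat_lit 156) (nat_lit 1748) (nat_lit 0) (XT.nd (nat_lit 78) (nat_lit 0) (nat_lit 0) (XT.lf (nat_lit 988) (nat_lit 1903040239) (nat_lit 0) (nat_lit 1504380222) (nat_lit 912) (nat_lit 1504380222) (nat_lit 470) (nat_lit 1) (nat_lit 457) (nat_lit 1) (nat_lit 469) (nat_lit 1) (nat_lit 362) (nat_lit 403) (nat_lit 375)) (XT.lf (nat_lit 76) (nat_lit 720862525) (nat_lit 0) (nat_lit 3426160732) (nat_lit 988) (nat_lit 720862525) (nat_lit 458) (nat_lit 1) (nat_lit 457) (nat_lit 1) (nat_lit 470) (nat_lit 1) (nat_lit 363) (nat_lit 403) (nat_lit 374))) (XT.nd (nat_lit 78) (nat_lit 836) (nat_lit 0) (XT.lf (nat_lit 988) (nat_lit 966914726) (nat_lit 0) (nat_lit 1928737630) (nat_lit 912) (nat_lit 1928737630) (nat_lit 458) (nat_lit 1) (nat_lit 445) (nat_lit 1) (nat_lit 457) (nat_lit 1) (nat_lit 364) (nat_lit 403) (nat_lit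 373)) (XT.nd (nat_lit 78) (nat_lit 836) (nat_lit 0) (XT.lf (nat_lit 76) (nat_lit 247505499) (nat_lit 0) (nat_lit 4286610491) (nat_lit 988) (nat_lit 247505499) (nat_lit 446) (nat_lit 1) (nat_lit 445) (nat_lit 1) (nat_lit 458) (nat_lit 1) (nat_lit 365) (nat_lit 403) (nat_lit 372)) (XT.lf (nat_lit 912) (nat_lit 4158902) (nat_lit 0) (nat_lit 2367489861) (nat_lit 836) (nat_lit 2367489861) (nat_lit 446) (nat_lit 1) (nat_lit 434) (nat_lit 1) (nat_lit 445) (nat_lit 1) (nat_lit 366) (nat_lit 403) (nat_lit 371))))))) (XT.nd (nat_lit 702) (nat_lit 3648) (nat_lit 0) (XT.nd (nat_lit 312) (nat_lit 2432) (nat_lit 0) (XT.nd (nat_lit 156) (nat_lit 836) (nat_lit 0) (XT.nd (nat_lit 78) (nat_lit 0) (nat_lit 0) (XT.lf (nat_lit 988) (nat_lit 4223406502) (nat_lit 0) (nat_lit 236978697) (nat_lit 912) (nat_lit 236978697) (nat_lit 434) (nat_lit 1) (nat_lit 421) (nat_lit 1) (nat_lit 433) (nat_lit 1) (nat_lit 367) (nat_lit 403) (nat_lit 370)) (XT.lf (nat_lit 76) (nat_lit 1842896392) (nat_lit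 0) (nat_lit 970066544) (nat_lit 988) (nat_lit 1842896392) (nat_lit 422) (nat_lit 1) (nat_lit 421) (nat_lit 1) (nat_lit 434) (nat_lit 1) (nat_lit 368) (nat_lit 403) (nat_lit 369))) (XT.nd (nat_lit 78) (nat_lit 0) (nat_lit 0) (XT.lf (nat_lit 912) (nat_lit 3152338494) (nat_lit 0) (nat_lit 731352471) (nat_lit 836) (nat_lit 731352471) (nat_lit 422) (nat_lit 1) (nat_lit 410) (nat_lit 1) (nat_lit 421) (nat_lit 1) (nat_lit 369) (nat_lit 403) (nat_lit 368)) (XT.lf (nat_lit 76) (nat_lit 1304233839) (nat_lit 0) (nat_lit 1966150837) (nat_lit 912) (nat_lit 1304233839) (nat_lit 411) (nat_lit 1) (nat_lit 410) (nat_lit 1) (nat_lit 422) (nat_lit 1) (nat_lit 370) (nat_lit 403) (nat_lit 367)))) (XT.nd (nat_lit 156) (nat_lit 1596) (nat_lit 0) (XT.nd (nat_lit 78) (nat_lit 0) (nat_lit 0) (XT.lf (nat_lit 912) (nat_lit 2062325793) (nat_lit 0) (nat_lit 1236203407) (nat_lit 836) (nat_lit 1236203407) (nat_lit 411) (nat_lit 1) (nat_lit 399) (nat_lit 1) (nat_lit 410) (nat_lit 1) (nat_lit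 371) (nat_lit 403) (nat_lit 366)) (XT.lf (nat_lit 76) (nat_lit 756617393) (nat_lit 0) (nat_lit 2982126192) (nat_lit 912) (nat_lit 756617393) (nat_lit 400) (nat_lit 1) (nat_lit 399) (nat_lit 1) (nat_lit 411) (nat_lit 1) (nat_lit 372) (nat_lit 403) (nat_lit 365))) (XT.nd (nat_lit 78) (nat_lit 836) (nat_lit 0) (XT.lf (nat_lit 836) (nat_lit 955291018) (nat_lit 0) (nat_lit 1750542815) (nat_lit 760) (nat_lit 1750542815) (nat_lit 400) (nat_lit 1) (nat_lit 389) (nat_lit 1) (nat_lit 399) (nat_lit 1) (nat_lit 373) (nat_lit 403) (nat_lit 364)) (XT.nd (nat_lit 78) (nat_lit 836) (nat_lit 0) (XT.lf (nat_lit 76) (nat_lit 200980446) (nat_lit 0) (nat_lit 4016071778) (nat_lit 836) (nat_lit 200980446) (nat_lit 390) (nat_lit 1) (nat_lit 389) (nat_lit 1) (nat_lit 400) (nat_lit 1) (nat_lit 374) (nat_lit 403) (nat_lit 363)) (XT.lf (nat_lit 76) (nat_lit 2107574553) (nat_lit 0) (nat_lit 164751683) (nat_lit 836) (nat_lit 2107574553) (nat_lit 379) (nat_lit 1) (nat_lit 378) (nat_lit 1)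 (nat_lit 389) (nat_lit 1) (nat_lit 375) (nat_lit 403) (nat_lit 362)))))) (XT.nd (nat_lit 312) (nat_lit 2128) (nat_lit 0) (XT.nd (nat_lit 156) (nat_lit 760) (nat_lit 0) (XT.nd (nat_lit 78) (nat_lit 0) (nat_lit 0) (XT.lf (nat_lit 836) (nat_lit 3623570389) (nat_lit 0) (nat_lit 359411130) (nat_lit 760) (nat_lit 359411130) (nat_lit 379) (nat_lit 1) (nat_lit 368) (nat_lit 1) (nat_lit 378) (nat_lit 1) (nat_lit 376) (nat_lit 403) (nat_lit 361)) (XT.lf (nat_lit 76) (nat_lit 1509797050) (nat_lit 0) (nat_lit 1285555332) (nat_lit 836) (nat_lit 1509797050) (nat_lit 369) (nat_lit 1) (nat_lit 368) (nat_lit 1) (nat_lit 379) (nat_lit 1) (nat_lit 377) (nat_lit 403) (nat_lit 360))) (XT.nd (nat_lit 78) (nat_lit 0) (nat_lit 0) (XT.lf (nat_lit 836) (nat_lit 2419002882) (nat_lit 0) (nat_lit 924733877) (nat_lit 760) (nat_lit 924733877) (nat_lit 369) (nat_lit 1) (nat_lit 358) (nat_lit 1) (nat_lit 368) (nat_lit 1) (nat_lit 378) (nat_lit 403) (nat_lit 359)) (XT.lf (nat_lit 76) (nat_lit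 907084037) (nat_lit 0) (nat_lit 2418028844) (nat_lit 836) (nat_lit 907084037) (nat_lit 359) (nat_lit 1) (nat_lit 358) (nat_lit 1) (nat_lit 369) (nat_lit 1) (nat_lit 379) (nat_lit 403) (nat_lit 358)))) (XT.nd (nat_lit 156) (nat_lit 1444) (nat_lit 0) (XT.nd (nat_lit 78) (nat_lit 0) (nat_lit 0) (XT.lf (nat_lit 760) (nat_lit 1205284691) (nat_lit 0) (nat_lit 1495518918) (nat_lit 684) (nat_lit 1495518918) (nat_lit 359) (nat_lit 1) (nat_lit 349) (nat_lit 1) (nat_lit 358) (nat_lit 1) (nat_lit 380) (nat_lit 403) (nat_lit 357)) (XT.lf (nat_lit 76) (nat_lit 300179089) (nat_lit 0) (nat_lit 3560636868) (nat_lit 760) (nat_lit 300179089) (nat_lit 350) (nat_lit 1) (nat_lit 349) (nat_lit 1) (nat_lit 359) (nat_lit 1) (nat_lit 381) (nat_lit 403) (nat_lit 356))) (XT.nd (nat_lit 78) (nat_lit 684) (nat_lit 0) (XT.lf (nat_lit 76) (nat_lit 2054989076) (nat_lit 0) (nat_lit 15920694) (nat_lit 760) (nat_lit 2054989076) (nat_lit 340) (nat_lit 1) (nat_lit 339) (nat_lit 1) (nat_lit 349) (nat_lit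 1) (nat_lit 382) (nat_lit 403) (nat_lit 355)) (XT.nd (nat_lit 78) (nat_lit 0) (nat_lit 0) (XT.lf (nat_lit 760) (nat_lit 3474989305) (nat_lit 0) (nat_lit 308173038) (nat_lit 684) (nat_lit 308173038) (nat_lit 340) (nat_lit 1) (nat_lit 330) (nat_lit 1) (nat_lit 339) (nat_lit 1) (nat_lit 383) (nat_lit 403) (nat_lit 354)) (XT.lf (nat_lit 76) (nat_lit 1414719022) (nat_lit 0) (nat_lit 1227560347) (nat_lit 760) (nat_lit 1414719022) (nat_lit 331) (nat_lit 1) (nat_lit 330) (nat_lit 1) (nat_lit 340) (nat_lit 1) (nat_lit 384) (nat_lit 403) (nat_lit 353))))))))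
noncomputable def ec61 : XT := (XT.nd (nat_lit 1404) (nat_lit 5092) (nat_lit 0) (XT.nd (nat_lit 702) (nat_lit 3420) (nat_lit 0) (XT.nd (nat_lit 312) (nat_lit 1900) (nat_lit 0) (XT.nd (nat_lit 156) (nat_lit 608) (nat_lit 0) (XT.nd (nat_lit 78) (nat_lit 0) (nat_lit 0) (XT.lf (nat_lit 760) (nat_lit 2188468597) (nat_lit 0) (nat_lit 917353863) (nat_lit 684) (nat_lit 917353863) (nat_lit 331) (nat_lit 1) (nat_lit 321) (nat_lit 1) (nat_lit 330) (nat_lit 1) (nat_lit 385) (nat_lit 403) (nat_lit 352)) (XT.lf (nat_lit 76) (nat_lit 772787004) (nat_lit 0) (nat_lit 2444159243) (nat_lit 760) (nat_lit 772787004) (nat_lit 322) (nat_lit 1) (nat_lit 321) (nat_lit 1) (nat_lit 331) (nat_lit 1) (nat_lit 386) (nat_lit 403) (nat_lit 351))) (XT.nd (nat_lit 78) (nat_lit 0) (nat_lit 0) (XT.lf (nat_lit 684) (nat_lit 899205202) (nat_lit 0) (nat_lit 1528712716) (nat_lit 608) (nat_lit 1528712716) (nat_lit 322) (nat_lit 1) (nat_lit 313) (nat_lit 1) (nat_lit 321) (nat_lit 1) (nat_lit 387) (nat_lit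 403) (nat_lit 350)) (XT.lf (nat_lit 76) (nat_lit 129777646) (nat_lit 0) (nat_lit 3664505030) (nat_lit 684) (nat_lit 129777646) (nat_lit 314) (nat_lit 1) (nat_lit 313) (nat_lit 1) (nat_lit 322) (nat_lit 1) (nat_lit 388) (nat_lit 403) (nat_lit 349)))) (XT.nd (nat_lit 156) (nat_lit 608) (nat_lit 0) (XT.nd (nat_lit 78) (nat_lit 608) (nat_lit 0) (XT.lf (nat_lit 76) (nat_lit 1752540362) (nat_lit 0) (nat_lit 386524343) (nat_lit 684) (nat_lit 1752540362) (nat_lit 305) (nat_lit 1) (nat_lit 304) (nat_lit 1) (nat_lit 313) (nat_lit 1) (nat_lit 389) (nat_lit 403) (nat_lit 348)) (XT.lf (nat_lit 684) (nat_lit 2838915327) (nat_lit 0) (nat_lit 510377347) (nat_lit 608) (nat_lit 510377347) (nat_lit 305) (nat_lit 1) (nat_lit 296) (nat_lit 1) (nat_lit 304) (nat_lit 1) (nat_lit 390) (nat_lit 403) (nat_lit 347))) (XT.nd (nat_lit 78) (nat_lit 608) (nat_lit 0) (XT.lf (nat_lit 76) (nat_lit 1083505616) (nat_lit 0) (nat_lit 1660981278) (nat_lit 684) (nat_lit 1083505616) (nat_lit 297) (nat_lit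 1) (nat_lit 296) (nat_lit 1) (nat_lit 305) (nat_lit 1) (nat_lit 391) (nat_lit 403) (nat_lit 346)) (XT.nd (nat_lit 78) (nat_lit 0) (nat_lit 0) (XT.lf (nat_lit 684) (nat_lit 1497354219) (nat_lit 0) (nat_lit 1149683821) (nat_lit 608) (nat_lit 1149683821) (nat_lit 297) (nat_lit 1) (nat_lit 288) (nat_lit 1) (nat_lit 296) (nat_lit 1) (nat_lit 392) (nat_lit 403) (nat_lit 345)) (XT.lf (nat_lit 76) (nat_lit 415455741) (nat_lit 0) (nat_lit 2934958444) (nat_lit 684) (nat_lit 415455741) (nat_lit 289) (nat_lit 1) (nat_lit 288) (nat_lit 1) (nat_lit 297) (nat_lit 1) (nat_lit 393) (nat_lit 403) (nat_lit 344)))))) (XT.nd (nat_lit 312) (nat_lit 1672) (nat_lit 0) (XT.nd (nat_lit 156) (nat_lit 532) (nat_lit 0) (XT.nd (nat_lit 78) (nat_lit 684) (nat_lit 0) (XT.lf (nat_lit 608) (nat_lit 158227313) (nat_lit 0) (nat_lit 1788508506) (nat_lit 532) (nat_lit 1788508506) (nat_lit 289) (nat_lit 1) (nat_lit 281) (nat_lit 1) (nat_lit 288) (nat_lit 1) (nat_lit 394) (nat_lit 403) (nat_lit 343))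 (XT.lf (nat_lit 684) (nat_lit 3206057658) (nat_lit 0) (nat_lit 249505064) (nat_lit 608) (nat_lit 249505064) (nat_lit 281) (nat_lit 1) (nat_lit 272) (nat_lit 1) (nat_lit 280) (nat_lit 1) (nat_lit 395) (nat_lit 403) (nat_lit 342))) (XT.nd (nat_lit 78) (nat_lit 532) (nat_lit 0) (XT.lf (nat_lit 76) (nat_lit 1256452279) (nat_lit 0) (nat_lit 1162141927) (nat_lit 684) (nat_lit 1256452279) (nat_lit 273) (nat_lit 1) (nat_lit 272) (nat_lit 1) (nat_lit 281) (nat_lit 1) (nat_lit 396) (nat_lit 403) (nat_lit 341)) (XT.lf (nat_lit 608) (nat_lit 1825697025) (nat_lit 0) (nat_lit 909883448) (nat_lit 532) (nat_lit 909883448) (nat_lit 273) (nat_lit 1) (nat_lit 265) (nat_lit 1) (nat_lit 272) (nat_lit 1) (nat_lit 397) (nat_lit 403) (nat_lit 340)))) (XT.nd (nat_lit 156) (nat_lit 1140) (nat_lit 0) (XT.nd (nat_lit 78) (nat_lit 532) (nat_lit 0) (XT.lf (nat_lit 76) (nat_lit 569936720) (nat_lit 0) (nat_lit 2476350894) (nat_lit 608) (nat_lit 569936720) (nat_lit 266) (nat_lit 1) (nat_lit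 265) (nat_lit 1) (nat_lit 273) (nat_lit 1) (nat_lit 398) (nat_lit 403) (nat_lit 339)) (XT.lf (nat_lit 608) (nat_lit 451205596) (nat_lit 0) (nat_lit 1568016515) (nat_lit 532) (nat_lit 1568016515) (nat_lit 266) (nat_lit 1) (nat_lit 258) (nat_lit 1) (nat_lit 265) (nat_lit 1) (nat_lit 399) (nat_lit 403) (nat_lit 338))) (XT.nd (nat_lit 78) (nat_lit 532) (nat_lit 0) (XT.lf (nat_lit 608) (nat_lit 3333249538) (nat_lit 0) (nat_lit 112727000) (nat_lit 532) (nat_lit 112727000) (nat_lit 258) (nat_lit 1) (nat_lit 250) (nat_lit 1) (nat_lit 257) (nat_lit 1) (nat_lit 400) (nat_lit 403) (nat_lit 337)) (XT.nd (nat_lit 78) (nat_lit 532) (nat_lit 0) (XT.lf (nat_lit 76) (nat_lit 1312775933) (nat_lit 0) (nat_lit 904685820) (nat_lit 608) (nat_lit 1312775933) (nat_lit 251) (nat_lit 1) (nat_lit 250) (nat_lit 1) (nat_lit 258) (nat_lit 1) (nat_lit 401) (nat_lit 403) (nat_lit 336)) (XT.lf (nat_lit 608) (nat_lit 1925778740) (nat_lit 0) (nat_lit 788217272) (nat_lit 532) (nat_lit 788217272)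 (nat_lit 251) (nat_lit 1) (nat_lit 243) (nat_lit 1) (nat_lit 250) (nat_lit 1) (nat_lit 402) (nat_lit 403) (nat_lit 335))))))) (XT.nd (nat_lit 702) (nat_lit 2584) (nat_lit 0) (XT.nd (nat_lit 312) (nat_lit 1444) (nat_lit 0) (XT.nd (nat_lit 156) (nat_lit 608) (nat_lit 0) (XT.nd (nat_lit 78) (nat_lit 456) (nat_lit 0) (XT.lf (nat_lit 76) (nat_lit 613486577) (nat_lit 0) (nat_lit 2247515159) (nat_lit 608) (nat_lit 613486577) (nat_lit 244) (nat_lit 1) (nat_lit 243) (nat_lit 1) (nat_lit 251) (nat_lit 1) (nat_lit 403) (nat_lit 403) (nat_lit 334)) (XT.lf (nat_lit 532) (nat_lit 527083354) (nat_lit 0) (nat_lit 1459966843) (nat_lit 456) (nat_lit 1459966843) (nat_lit 244) (nat_lit 1) (nat_lit 237) (nat_lit 1) (nat_lit 243) (nat_lit 1) (nat_lit 404) (nat_lit 403) (nat_lit 333))) (XT.nd (nat_lit 78) (nat_lit 0) (nat_lit 0) (XT.lf (nat_lit 608) (nat_lit 3258469444) (nat_lit 0) (nat_lit 80752085) (nat_lit 532) (nat_lit 80752085) (nat_lit 237) (nat_lit 1) (nat_lit 229) (nat_lit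 1) (nat_lit 236) (nat_lit 1) (nat_lit 405) (nat_lit 403) (nat_lit 332)) (XT.lf (nat_lit 76) (nat_lit 1271000675) (nat_lit 0) (nat_lit 850968876) (nat_lit 608) (nat_lit 1271000675) (nat_lit 230) (nat_lit 1) (nat_lit 229) (nat_lit 1) (nat_lit 237) (nat_lit 1) (nat_lit 406) (nat_lit 403) (nat_lit 331)))) (XT.nd (nat_lit 156) (nat_lit 988) (nat_lit 0) (XT.nd (nat_lit 78) (nat_lit 0) (nat_lit 0) (XT.lf (nat_lit 532) (nat_lit 1833983171) (nat_lit 0) (nat_lit 766201685) (nat_lit 456) (nat_lit 766201685) (nat_lit 230) (nat_lit 1) (nat_lit 223) (nat_lit 1) (nat_lit 229) (nat_lit 1) (nat_lit 407) (nat_lit 403) (nat_lit 330)) (XT.lf (nat_lit 76) (nat_lit 563851059) (nat_lit 0) (nat_lit 2212383841) (nat_lit 532) (nat_lit 563851059) (nat_lit 224) (nat_lit 1) (nat_lit 223) (nat_lit 1) (nat_lit 230) (nat_lit 1) (nat_lit 408) (nat_lit 403) (nat_lit 329))) (XT.nd (nat_lit 78) (nat_lit 532) (nat_lit 0) (XT.lf (nat_lit 532) (nat_lit 420714556) (nat_lit 0) (nat_lit 1446650561) (nat_lit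 456) (nat_lit 1446650561) (nat_lit 224) (nat_lit 1) (nat_lit 217) (nat_lit 1) (nat_lit 223) (nat_lit 1) (nat_lit 409) (nat_lit 403) (nat_lit 328)) (XT.nd (nat_lit 78) (nat_lit 0) (nat_lit 0) (XT.lf (nat_lit 532) (nat_lit 3014944049) (nat_lit 0) (nat_lit 136693094) (nat_lit 456) (nat_lit 136693094) (nat_lit 217) (nat_lit 1) (nat_lit 210) (nat_lit 1) (nat_lit 216) (nat_lit 1) (nat_lit 410) (nat_lit 403) (nat_lit 327)) (XT.lf (nat_lit 76) (nat_lit 1147330398) (nat_lit 0) (nat_lit 968042576) (nat_lit 532) (nat_lit 1147330398) (nat_lit 211) (nat_lit 1) (nat_lit 210) (nat_lit 1) (nat_lit 217) (nat_lit 1) (nat_lit 411) (nat_lit 403) (nat_lit 326)))))) (XT.nd (nat_lit 312) (nat_lit 1216) (nat_lit 0) (XT.nd (nat_lit 156) (nat_lit 912) (nat_lit 0) (XT.nd (nat_lit 78) (nat_lit 0) (nat_lit 0) (XT.lf (nat_lit 532) (nat_lit 1582132044) (nat_lit 0) (nat_lit 827661037) (nat_lit 456) (nat_lit 827661037) (nat_lit 211) (nat_lit 1) (nat_lit 204) (nat_lit 1) (nat_lit 210) (nat_lit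 1) (nat_lit 412) (nat_lit 403) (nat_lit 325)) (XT.lf (nat_lit 76) (nat_lit 436548374) (nat_lit 0) (nat_lit 2339397755) (nat_lit 532) (nat_lit 436548374) (nat_lit 205) (nat_lit 1) (nat_lit 204) (nat_lit 1) (nat_lit 211) (nat_lit 1) (nat_lit 413) (nat_lit 403) (nat_lit 324))) (XT.nd (nat_lit 78) (nat_lit 532) (nat_lit 0) (XT.lf (nat_lit 456) (nat_lit 162573330) (nat_lit 0) (nat_lit 1512574591) (nat_lit 380) (nat_lit 1512574591) (nat_lit 205) (nat_lit 1) (nat_lit 199) (nat_lit 1) (nat_lit 204) (nat_lit 1) (nat_lit 414) (nat_lit 403) (nat_lit 323)) (XT.lf (nat_lit 532) (nat_lit 2631701164) (nat_lit 0) (nat_lit 265787269) (nat_lit 456) (nat_lit 265787269) (nat_lit 199) (nat_lit 1) (nat_lit 192) (nat_lit 1) (nat_lit 198) (nat_lit 1) (nat_lit 415) (nat_lit 403) (nat_lit 322)))) (XT.nd (nat_lit 156) (nat_lit 836) (nat_lit 0) (XT.nd (nat_lit 78) (nat_lit 380) (nat_lit 0) (XT.lf (nat_lit 76) (nat_lit 955918883) (nat_lit 0) (nat_lit 1227108044) (nat_lit 532) (nat_lit 955918883)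 (nat_lit 193) (nat_lit 1) (nat_lit 192) (nat_lit 1) (nat_lit 199) (nat_lit 1) (nat_lit 416) (nat_lit 403) (nat_lit 321)) (XT.lf (nat_lit 456) (nat_lit 1198016257) (nat_lit 0) (nat_lit 958459210) (nat_lit 380) (nat_lit 958459210) (nat_lit 193) (nat_lit 1) (nat_lit 187) (nat_lit 1) (nat_lit 192) (nat_lit 1) (nat_lit 417) (nat_lit 403) (nat_lit 320))) (XT.nd (nat_lit 78) (nat_lit 836) (nat_lit 0) (XT.lf (nat_lit 76) (nat_lit 245128683) (nat_lit 0) (nat_lit 2600981420) (nat_lit 456) (nat_lit 245128683) (nat_lit 188) (nat_lit 1) (nat_lit 187) (nat_lit 1) (nat_lit 193) (nat_lit 1) (nat_lit 418) (nat_lit 403) (nat_lit 319)) (XT.nd (nat_lit 78) (nat_lit 380) (nat_lit 0) (XT.lf (nat_lit 76) (nat_lit 1424901350) (nat_lit 0) (nat_lit 217840632) (nat_lit 456) (nat_lit 1424901350) (nat_lit 182) (nat_lit 1) (nat_lit 181) (nat_lit 1) (nat_lit 187) (nat_lit 1) (nat_lit 419) (nat_lit 403) (nat_lit 318)) (XT.lf (nat_lit 456) (nat_lit 2134059907) (nat_lit 0) (nat_lit 455148641)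 (nat_lit 380) (nat_lit 455148641) (nat_lit 182) (nat_lit 1) (nat_lit 176) (nat_lit 1) (nat_lit 181) (nat_lit 1) (nat_lit 420) (nat_lit 403) (nat_lit 317))))))))
noncomputable def ec62 : XT := (XT.nd (nat_lit 1404) (nat_lit 6612) (nat_lit 0) (XT.nd (nat_lit 702) (nat_lit 0) (nat_lit 304) (XT.nd (nat_lit 312) (nat_lit 0) (nat_lit 152) (XT.nd (nat_lit 156) (nat_lit 0) (nat_lit 76) (XT.nd (nat_lit 78) (nat_lit 0) (nat_lit 0) (XT.lf (nat_lit 1900) (nat_lit 1084899421) (nat_lit 0) (nat_lit 1093971703) (nat_lit 1900) (nat_lit 1084899421) (nat_lit 522) (nat_lit 1) (nat_lit 497) (nat_lit 0) (nat_lit 522) (nat_lit 0) (nat_lit 332) (nat_lit 404) (nat_lit 404)) (XT.lf (nat_lit 1900) (nat_lit 4289855429) (nat_lit 76) (nat_lit 1086774521) (nat_lit 0) (nat_lit 1086774521) (nat_lit 522) (nat_lit 1) (nat_lit 498) (nat_lit 1) (nat_lit 497) (nat_lit 0) (nat_lit 333) (nat_lit 404) (nat_lit 403))) (XT.nd (nat_lit 78) (nat_lit 0) (nat_lit 0) (XT.lf (nat_lit 1900) (nat_lit 2106339435)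 (nat_lit 0) (nat_lit 2187289508) (nat_lit 1824) (nat_lit 2106339435) (nat_lit 523) (nat_lit 1) (nat_lit 498) (nat_lit 1) (nat_lit 522) (nat_lit 1) (nat_lit 334) (nat_lit 404) (nat_lit 402)) (XT.lf (nat_lit 1900) (nat_lit 4122625516) (nat_lit 76) (nat_lit 1107434228) (nat_lit 0) (nat_lit 1107434228) (nat_lit 523) (nat_lit 1) (nat_lit 499) (nat_lit 1) (nat_lit 498) (nat_lit 1) (nat_lit 335) (nat_lit 404) (nat_lit 401)))) (XT.nd (nat_lit 156) (nat_lit 0) (nat_lit 76) (XT.nd (nat_lit 78) (nat_lit 0) (nat_lit 0) (XT.lf (nat_lit 1900) (nat_lit 2003517879) (nat_lit 0) (nat_lit 2268673460) (nat_lit 1824) (nat_lit 2003517879) (nat_lit 524) (nat_lit 1) (nat_lit 499) (nat_lit 1) (nat_lit 523) (nat_lit 1) (nat_lit 336) (nat_lit 404) (nat_lit 400)) (XT.lf (nat_lit 1900) (nat_lit 3878786982) (nat_lit 76) (nat_lit 1168028145) (nat_lit 0) (nat_lit 1168028145) (nat_lit 524) (nat_lit 1) (nat_lit 500) (nat_lit 1) (nat_lit 499) (nat_lit 1) (nat_lit 337) (nat_lit 404) (nat_lit 399)))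 (XT.nd (nat_lit 78) (nat_lit 0) (nat_lit 0) (XT.lf (nat_lit 1900) (nat_lit 1863682778) (nat_lit 0) (nat_lit 2427301547) (nat_lit 1824) (nat_lit 1863682778) (nat_lit 525) (nat_lit 1) (nat_lit 500) (nat_lit 1) (nat_lit 524) (nat_lit 1) (nat_lit 338) (nat_lit 404) (nat_lit 398)) (XT.nd (nat_lit 78) (nat_lit 0) (nat_lit 76) (XT.lf (nat_lit 1900) (nat_lit 3562944091) (nat_lit 76) (nat_lit 1266206825) (nat_lit 0) (nat_lit 1266206825) (nat_lit 525) (nat_lit 1) (nat_lit 501) (nat_lit 1) (nat_lit 500) (nat_lit 1) (nat_lit 339) (nat_lit 404) (nat_lit 397)) (XT.lf (nat_lit 1900) (nat_lit 1689075459) (nat_lit 0) (nat_lit 2658597729) (nat_lit 1824) (nat_lit 1689075459) (nat_lit 526) (nat_lit 1) (nat_lit 501) (nat_lit 1) (nat_lit 525) (nat_lit 1) (nat_lit 340) (nat_lit 404) (nat_lit 396)))))) (XT.nd (nat_lit 312) (nat_lit 0) (nat_lit 152) (XT.nd (nat_lit 156) (nat_lit 0) (nat_lit 76) (XT.nd (nat_lit 78) (nat_lit 0) (nat_lit 76) (XT.lf (nat_lit 1900) (nat_lit 3179490367) (nat_lit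 76) (nat_lit 1399727714) (nat_lit 0) (nat_lit 1399727714) (nat_lit 526) (nat_lit 1) (nat_lit 502) (nat_lit 1) (nat_lit 501) (nat_lit 1) (nat_lit 341) (nat_lit 404) (nat_lit 395)) (XT.lf (nat_lit 1900) (nat_lit 1481834446) (nat_lit 0) (nat_lit 2958194572) (nat_lit 1824) (nat_lit 1481834446) (nat_lit 527) (nat_lit 1) (nat_lit 502) (nat_lit 1) (nat_lit 526) (nat_lit 1) (nat_lit 342) (nat_lit 404) (nat_lit 394))) (XT.nd (nat_lit 78) (nat_lit 0) (nat_lit 76) (XT.lf (nat_lit 1900) (nat_lit 2732617407) (nat_lit 76) (nat_lit 1566450693) (nat_lit 0) (nat_lit 1566450693) (nat_lit 527) (nat_lit 1) (nat_lit 503) (nat_lit 1) (nat_lit 502) (nat_lit 1) (nat_lit 343) (nat_lit 404) (nat_lit 393)) (XT.lf (nat_lit 1900) (nat_lit 1243999768) (nat_lit 0) (nat_lit 3321924540) (nat_lit 1824) (nat_lit 1243999768) (nat_lit 528) (nat_lit 1) (nat_lit 503) (nat_lit 1) (nat_lit 527) (nat_lit 1) (nat_lit 344) (nat_lit 404) (nat_lit 392)))) (XT.nd (nat_lit 156) (nat_lit 0) (nat_lit 76) (XT.nd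 (nat_lit 78) (nat_lit 0) (nat_lit 76) (XT.lf (nat_lit 1900) (nat_lit 2226323330) (nat_lit 76) (nat_lit 1764333800) (nat_lit 0) (nat_lit 1764333800) (nat_lit 528) (nat_lit 1) (nat_lit 504) (nat_lit 1) (nat_lit 503) (nat_lit 1) (nat_lit 345) (nat_lit 404) (nat_lit 391)) (XT.lf (nat_lit 1900) (nat_lit 977517082) (nat_lit 0) (nat_lit 3745811643) (nat_lit 1824) (nat_lit 977517082) (nat_lit 529) (nat_lit 1) (nat_lit 504) (nat_lit 1) (nat_lit 528) (nat_lit 1) (nat_lit 346) (nat_lit 404) (nat_lit 390))) (XT.nd (nat_lit 78) (nat_lit 0) (nat_lit 76) (XT.lf (nat_lit 1900) (nat_lit 1664420898) (nat_lit 76) (nat_lit 1991429125) (nat_lit 0) (nat_lit 1991429125) (nat_lit 529) (nat_lit 1) (nat_lit 505) (nat_lit 1) (nat_lit 504) (nat_lit 1) (nat_lit 347) (nat_lit 404) (nat_lit 389)) (XT.nd (nat_lit 78) (nat_lit 0) (nat_lit 0) (XT.lf (nat_lit 1900) (nat_lit 684241638) (nat_lit 0) (nat_lit 4226063410) (nat_lit 1824) (nat_lit 684241638) (nat_lit 530) (nat_lit 1) (nat_lit 505) (nat_lit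 1) (nat_lit 529) (nat_lit 1) (nat_lit 348) (nat_lit 404) (nat_lit 388)) (XT.lf (nat_lit 1900) (nat_lit 1050545303) (nat_lit 76) (nat_lit 2245878866) (nat_lit 0) (nat_lit 2245878866) (nat_lit 530) (nat_lit 1) (nat_lit 506) (nat_lit 1) (nat_lit 505) (nat_lit 1) (nat_lit 349) (nat_lit 404) (nat_lit 387))))))) (XT.nd (nat_lit 702) (nat_lit 4484) (nat_lit 0) (XT.nd (nat_lit 312) (nat_lit 988) (nat_lit 0) (XT.nd (nat_lit 156) (nat_lit 1824) (nat_lit 0) (XT.nd (nat_lit 78) (nat_lit 0) (nat_lit 0) (XT.lf (nat_lit 1900) (nat_lit 365942077) (nat_lit 0) (nat_lit 4759063199) (nat_lit 1824) (nat_lit 365942077) (nat_lit 531) (nat_lit 1) (nat_lit 506) (nat_lit 1) (nat_lit 530) (nat_lit 1) (nat_lit 350) (nat_lit 404) (nat_lit 386)) (XT.lf (nat_lit 1900) (nat_lit 388161638) (nat_lit 76) (nat_lit 2525911547) (nat_lit 0) (nat_lit 2525911547) (nat_lit 531) (nat_lit 1) (nat_lit 507) (nat_lit 1) (nat_lit 506) (nat_lit 1) (nat_lit 351) (nat_lit 404) (nat_lit 385))) (XT.nd (nat_lit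 78) (nat_lit 1900) (nat_lit 0) (XT.lf (nat_lit 1900) (nat_lit 24304085) (nat_lit 0) (nat_lit 5341362801) (nat_lit 1824) (nat_lit 24304085) (nat_lit 532) (nat_lit 1) (nat_lit 507) (nat_lit 1) (nat_lit 531) (nat_lit 1) (nat_lit 352) (nat_lit 404) (nat_lit 384)) (XT.lf (nat_lit 1976) (nat_lit 2512484396) (nat_lit 0) (nat_lit 315238573) (nat_lit 1900) (nat_lit 2512484396) (nat_lit 508) (nat_lit 1) (nat_lit 482) (nat_lit 1) (nat_lit 507) (nat_lit 1) (nat_lit 353) (nat_lit 404) (nat_lit 383)))) (XT.nd (nat_lit 156) (nat_lit 988) (nat_lit 0) (XT.nd (nat_lit 78) (nat_lit 0) (nat_lit 76) (XT.lf (nat_lit 1976) (nat_lit 4617695613) (nat_lit 76) (nat_lit 336835410) (nat_lit 0) (nat_lit 336835410) (nat_lit 508) (nat_lit 1) (nat_lit 483) (nat_lit 1) (nat_lit 482) (nat_lit 1) (nat_lit 354) (nat_lit 404) (nat_lit 382)) (XT.lf (nat_lit 1976) (nat_lit 2093913707) (nat_lit 0) (nat_lit 1055056128) (nat_lit 1900) (nat_lit 2093913707) (nat_lit 509) (nat_lit 1) (nat_lit 483) (nat_lit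 1) (nat_lit 508) (nat_lit 1) (nat_lit 355) (nat_lit 404) (nat_lit 381))) (XT.nd (nat_lit 78) (nat_lit 1064) (nat_lit 0) (XT.lf (nat_lit 1976) (nat_lit 3759446847) (nat_lit 76) (nat_lit 717884175) (nat_lit 0) (nat_lit 717884175) (nat_lit 509) (nat_lit 1) (nat_lit 484) (nat_lit 1) (nat_lit 483) (nat_lit 1) (nat_lit 356) (nat_lit 404) (nat_lit 380)) (XT.nd (nat_lit 78) (nat_lit 1140) (nat_lit 0) (XT.lf (nat_lit 76) (nat_lit 1657284449) (nat_lit 0) (nat_lit 1833424449) (nat_lit 1900) (nat_lit 1657284449) (nat_lit 485) (nat_lit 1) (nat_lit 484) (nat_lit 1) (nat_lit 509) (nat_lit 1) (nat_lit 357) (nat_lit 404) (nat_lit 379)) (XT.lf (nat_lit 1216) (nat_lit 2866352045) (nat_lit 0) (nat_lit 1117554431) (nat_lit 1140) (nat_lit 1117554431) (nat_lit 485) (nat_lit 1) (nat_lit 469) (nat_lit 1) (nat_lit 484) (nat_lit 1) (nat_lit 358) (nat_lit 404) (nat_lit 378)))))) (XT.nd (nat_lit 312) (nat_lit 2660) (nat_lit 0) (XT.nd (nat_lit 156) (nat_lit 912) (nat_lit 0) (XT.nd (nat_lit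 78) (nat_lit 912) (nat_lit 0) (XT.lf (nat_lit 76) (nat_lit 1203970646) (nat_lit 0) (nat_lit 2647527370) (nat_lit 1216) (nat_lit 1203970646) (nat_lit 470) (nat_lit 1) (nat_lit 469) (nat_lit 1) (nat_lit 485) (nat_lit 1) (nat_lit 359) (nat_lit 404) (nat_lit 377)) (XT.lf (nat_lit 988) (nat_lit 1941101044) (nat_lit 0) (nat_lit 1534467827) (nat_lit 912) (nat_lit 1534467827) (nat_lit 470) (nat_lit 1) (nat_lit 457) (nat_lit 1) (nat_lit 469) (nat_lit 1) (nat_lit 360) (nat_lit 404) (nat_lit 376))) (XT.nd (nat_lit 78) (nat_lit 912) (nat_lit 0) (XT.lf (nat_lit 76) (nat_lit 735279775) (nat_lit 0) (nat_lit 3494683947) (nat_lit 988) (nat_lit 735279775) (nat_lit 458) (nat_lit 1) (nat_lit 457) (nat_lit 1) (nat_lit 470) (nat_lit 1) (nat_lit 361) (nat_lit 404) (nat_lit 375)) (XT.lf (nat_lit 988) (nat_lit 986253021) (nat_lit 0) (nat_lit 1967312382) (nat_lit 912) (nat_lit 1967312382) (nat_lit 458) (nat_lit 1) (nat_lit 445) (nat_lit 1) (nat_lit 457) (nat_lit 1) (nat_lit 362) (nat_lit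 404) (nat_lit 374)))) (XT.nd (nat_lit 156) (nat_lit 1824) (nat_lit 0) (XT.nd (nat_lit 78) (nat_lit 836) (nat_lit 0) (XT.lf (nat_lit 76) (nat_lit 252455609) (nat_lit 0) (nat_lit 4372342701) (nat_lit 988) (nat_lit 252455609) (nat_lit 446) (nat_lit 1) (nat_lit 445) (nat_lit 1) (nat_lit 458) (nat_lit 1) (nat_lit 363) (nat_lit 404) (nat_lit 373)) (XT.lf (nat_lit 912) (nat_lit 4242080) (nat_lit 0) (nat_lit 2414839659) (nat_lit 836) (nat_lit 2414839659) (nat_lit 446) (nat_lit 1) (nat_lit 434) (nat_lit 1) (nat_lit 445) (nat_lit 1) (nat_lit 364) (nat_lit 404) (nat_lit 372))) (XT.nd (nat_lit 78) (nat_lit 836) (nat_lit 0) (XT.lf (nat_lit 988) (nat_lit 4307874632) (nat_lit 0) (nat_lit 241718271) (nat_lit 912) (nat_lit 241718271) (nat_lit 434) (nat_lit 1) (nat_lit 421) (nat_lit 1) (nat_lit 433) (nat_lit 1) (nat_lit 365) (nat_lit 404) (nat_lit 371)) (XT.nd (nat_lit 78) (nat_lit 836) (nat_lit 0) (XT.lf (nat_lit 76) (nat_lit 1879754319) (nat_lit 0) (nat_lit 989467875) (nat_lit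 988) (nat_lit 1879754319) (nat_lit 422) (nat_lit 1) (nat_lit 421) (nat_lit 1) (nat_lit 434) (nat_lit 1) (nat_lit 366) (nat_lit 404) (nat_lit 370)) (XT.lf (nat_lit 912) (nat_lit 3215385264) (nat_lit 0) (nat_lit 745979521) (nat_lit 836) (nat_lit 745979521) (nat_lit 422) (nat_lit 1) (nat_lit 410) (nat_lit 1) (nat_lit 421) (nat_lit 1) (nat_lit 367) (nat_lit 404) (nat_lit 369))))))))
noncomputable def ec63 : XT := (XT.nd (nat_lit 1404) (nat_lit 6384) (nat_lit 0) (XT.nd (nat_lit 702) (nat_lit 3420) (nat_lit 0) (XT.nd (nat_lit 312) (nat_lit 2356) (nat_lit 0) (XT.nd (nat_lit 156) (nat_lit 760) (nat_lit 0) (XT.nd (nat_lit 78) (nat_lit 836) (nat_lit 0) (XT.lf (nat_lit 76) (nat_lit 1330318516) (nat_lit 0) (nat_lit 2005473854) (nat_lit 912) (nat_lit 1330318516) (nat_lit 411) (nat_lit 1) (nat_lit 410) (nat_lit 1) (nat_lit 422) (nat_lit 1) (nat_lit 368) (nat_lit 404) (nat_lit 368)) (XT.lf (nat_lit 912) (nat_lit 2103572309) (nat_lit 0) (nat_lit 1260927475) (nat_lit 836) (nat_lit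 1260927475) (nat_lit 411) (nat_lit 1) (nat_lit 399) (nat_lit 1) (nat_lit 410) (nat_lit 1) (nat_lit 369) (nat_lit 404) (nat_lit 367))) (XT.nd (nat_lit 78) (nat_lit 760) (nat_lit 0) (XT.lf (nat_lit 76) (nat_lit 771749741) (nat_lit 0) (nat_lit 3041768716) (nat_lit 912) (nat_lit 771749741) (nat_lit 400) (nat_lit 1) (nat_lit 399) (nat_lit 1) (nat_lit 411) (nat_lit 1) (nat_lit 370) (nat_lit 404) (nat_lit 366)) (XT.lf (nat_lit 836) (nat_lit 974396838) (nat_lit 0) (nat_lit 1785553672) (nat_lit 760) (nat_lit 1785553672) (nat_lit 400) (nat_lit 1) (nat_lit 389) (nat_lit 1) (nat_lit 399) (nat_lit 1) (nat_lit 371) (nat_lit 404) (nat_lit 365)))) (XT.nd (nat_lit 156) (nat_lit 1520) (nat_lit 0) (XT.nd (nat_lit 78) (nat_lit 836) (nat_lit 0) (XT.lf (nat_lit 76) (nat_lit 205000055) (nat_lit 0) (nat_lit 4096393214) (nat_lit 836) (nat_lit 205000055) (nat_lit 390) (nat_lit 1) (nat_lit 389) (nat_lit 1) (nat_lit 400) (nat_lit 1) (nat_lit 372) (nat_lit 404) (nat_lit 364)) (XT.lf (nat_lit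 76) (nat_lit 2149726044) (nat_lit 0) (nat_lit 168046716) (nat_lit 836) (nat_lit 2149726044) (nat_lit 379) (nat_lit 1) (nat_lit 378) (nat_lit 1) (nat_lit 389) (nat_lit 1) (nat_lit 373) (nat_lit 404) (nat_lit 363))) (XT.nd (nat_lit 78) (nat_lit 760) (nat_lit 0) (XT.lf (nat_lit 836) (nat_lit 3696041797) (nat_lit 0) (nat_lit 366599353) (nat_lit 760) (nat_lit 366599353) (nat_lit 379) (nat_lit 1) (nat_lit 368) (nat_lit 1) (nat_lit 378) (nat_lit 1) (nat_lit 374) (nat_lit 404) (nat_lit 362)) (XT.nd (nat_lit 78) (nat_lit 760) (nat_lit 0) (XT.lf (nat_lit 76) (nat_lit 1539992991) (nat_lit 0) (nat_lit 1311266438) (nat_lit 836) (nat_lit 1539992991) (nat_lit 369) (nat_lit 1) (nat_lit 368) (nat_lit 1) (nat_lit 379) (nat_lit 1) (nat_lit 375) (nat_lit 404) (nat_lit 361)) (XT.lf (nat_lit 836) (nat_lit 2467382939) (nat_lit 0) (nat_lit 943228555) (nat_lit 760) (nat_lit 943228555) (nat_lit 369) (nat_lit 1) (nat_lit 358) (nat_lit 1) (nat_lit 368) (nat_lit 1) (nat_lit 376) (nat_lit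 404) (nat_lit 360)))))) (XT.nd (nat_lit 312) (nat_lit 1976) (nat_lit 0) (XT.nd (nat_lit 156) (nat_lit 760) (nat_lit 0) (XT.nd (nat_lit 78) (nat_lit 684) (nat_lit 0) (XT.lf (nat_lit 76) (nat_lit 925225718) (nat_lit 0) (nat_lit 2466389421) (nat_lit 836) (nat_lit 925225718) (nat_lit 359) (nat_lit 1) (nat_lit 358) (nat_lit 1) (nat_lit 369) (nat_lit 1) (nat_lit 377) (nat_lit 404) (nat_lit 359)) (XT.lf (nat_lit 760) (nat_lit 1229390385) (nat_lit 0) (nat_lit 1525429297) (nat_lit 684) (nat_lit 1525429297) (nat_lit 359) (nat_lit 1) (nat_lit 349) (nat_lit 1) (nat_lit 358) (nat_lit 1) (nat_lit 378) (nat_lit 404) (nat_lit 358))) (XT.nd (nat_lit 78) (nat_lit 760) (nat_lit 0) (XT.lf (nat_lit 76) (nat_lit 306182671) (nat_lit 0) (nat_lit 3631849605) (nat_lit 760) (nat_lit 306182671) (nat_lit 350) (nat_lit 1) (nat_lit 349) (nat_lit 1) (nat_lit 359) (nat_lit 1) (nat_lit 379) (nat_lit 404) (nat_lit 357)) (XT.lf (nat_lit 76) (nat_lit 2096088857) (nat_lit 0) (nat_lit 16239108) (nat_lit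 760) (nat_lit 2096088857) (nat_lit 340) (nat_lit 1) (nat_lit 339) (nat_lit 1) (nat_lit 349) (nat_lit 1) (nat_lit 380) (nat_lit 404) (nat_lit 356)))) (XT.nd (nat_lit 156) (nat_lit 1292) (nat_lit 0) (XT.nd (nat_lit 78) (nat_lit 0) (nat_lit 0) (XT.lf (nat_lit 760) (nat_lit 3544489091) (nat_lit 0) (nat_lit 314336499) (nat_lit 684) (nat_lit 314336499) (nat_lit 340) (nat_lit 1) (nat_lit 330) (nat_lit 1) (nat_lit 339) (nat_lit 1) (nat_lit 381) (nat_lit 404) (nat_lit 355)) (XT.lf (nat_lit 76) (nat_lit 1443013402) (nat_lit 0) (nat_lit 1252111554) (nat_lit 760) (nat_lit 1443013402) (nat_lit 331) (nat_lit 1) (nat_lit 330) (nat_lit 1) (nat_lit 340) (nat_lit 1) (nat_lit 382) (nat_lit 404) (nat_lit 354))) (XT.nd (nat_lit 78) (nat_lit 608) (nat_lit 0) (XT.lf (nat_lit 760) (nat_lit 2232237969) (nat_lit 0) (nat_lit 935700940) (nat_lit 684) (nat_lit 935700940) (nat_lit 331) (nat_lit 1) (nat_lit 321) (nat_lit 1) (nat_lit 330) (nat_lit 1) (nat_lit 383) (nat_lit 404) (nat_lit 353))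 (XT.nd (nat_lit 78) (nat_lit 608) (nat_lit 0) (XT.lf (nat_lit 76) (nat_lit 788242744) (nat_lit 0) (nat_lit 2493042428) (nat_lit 760) (nat_lit 788242744) (nat_lit 322) (nat_lit 1) (nat_lit 321) (nat_lit 1) (nat_lit 331) (nat_lit 1) (nat_lit 384) (nat_lit 404) (nat_lit 352)) (XT.lf (nat_lit 684) (nat_lit 917189306) (nat_lit 0) (nat_lit 1559286970) (nat_lit 608) (nat_lit 1559286970) (nat_lit 322) (nat_lit 1) (nat_lit 313) (nat_lit 1) (nat_lit 321) (nat_lit 1) (nat_lit 385) (nat_lit 404) (nat_lit 351))))))) (XT.nd (nat_lit 702) (nat_lit 3268) (nat_lit 0) (XT.nd (nat_lit 312) (nat_lit 1824) (nat_lit 0) (XT.nd (nat_lit 156) (nat_lit 608) (nat_lit 0) (XT.nd (nat_lit 78) (nat_lit 684) (nat_lit 0) (XT.lf (nat_lit 76) (nat_lit 132373199) (nat_lit 0) (nat_lit 3737795131) (nat_lit 684) (nat_lit 132373199) (nat_lit 314) (nat_lit 1) (nat_lit 313) (nat_lit 1) (nat_lit 322) (nat_lit 1) (nat_lit 386) (nat_lit 404) (nat_lit 350)) (XT.lf (nat_lit 76) (nat_lit 1787591169) (nat_lit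 0) (nat_lit 394254830) (nat_lit 684) (nat_lit 1787591169) (nat_lit 305) (nat_lit 1) (nat_lit 304) (nat_lit 1) (nat_lit 313) (nat_lit 1) (nat_lit 387) (nat_lit 404) (nat_lit 349))) (XT.nd (nat_lit 78) (nat_lit 0) (nat_lit 0) (XT.lf (nat_lit 684) (nat_lit 2895693633) (nat_lit 0) (nat_lit 520584894) (nat_lit 608) (nat_lit 520584894) (nat_lit 305) (nat_lit 1) (nat_lit 296) (nat_lit 1) (nat_lit 304) (nat_lit 1) (nat_lit 388) (nat_lit 404) (nat_lit 348)) (XT.lf (nat_lit 76) (nat_lit 1105175728) (nat_lit 0) (nat_lit 1694200904) (nat_lit 684) (nat_lit 1105175728) (nat_lit 297) (nat_lit 1) (nat_lit 296) (nat_lit 1) (nat_lit 305) (nat_lit 1) (nat_lit 389) (nat_lit 404) (nat_lit 347)))) (XT.nd (nat_lit 156) (nat_lit 1216) (nat_lit 0) (XT.nd (nat_lit 78) (nat_lit 0) (nat_lit 0) (XT.lf (nat_lit 684) (nat_lit 1527301303) (nat_lit 0) (nat_lit 1172677497) (nat_lit 608) (nat_lit 1172677497) (nat_lit 297) (nat_lit 1) (nat_lit 288) (nat_lit 1) (nat_lit 296) (nat_lit 1) (nat_lit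 390) (nat_lit 404) (nat_lit 346)) (XT.lf (nat_lit 76) (nat_lit 423764856) (nat_lit 0) (nat_lit 2993657613) (nat_lit 684) (nat_lit 423764856) (nat_lit 289) (nat_lit 1) (nat_lit 288) (nat_lit 1) (nat_lit 297) (nat_lit 1) (nat_lit 391) (nat_lit 404) (nat_lit 345))) (XT.nd (nat_lit 78) (nat_lit 684) (nat_lit 0) (XT.lf (nat_lit 608) (nat_lit 161391860) (nat_lit 0) (nat_lit 1824278676) (nat_lit 532) (nat_lit 1824278676) (nat_lit 289) (nat_lit 1) (nat_lit 281) (nat_lit 1) (nat_lit 288) (nat_lit 1) (nat_lit 392) (nat_lit 404) (nat_lit 344)) (XT.nd (nat_lit 78) (nat_lit 0) (nat_lit 0) (XT.lf (nat_lit 684) (nat_lit 3270178811) (nat_lit 0) (nat_lit 254495166) (nat_lit 608) (nat_lit 254495166) (nat_lit 281) (nat_lit 1) (nat_lit 272) (nat_lit 1) (nat_lit 280) (nat_lit 1) (nat_lit 393) (nat_lit 404) (nat_lit 343)) (XT.lf (nat_lit 76) (nat_lit 1281581324) (nat_lit 0) (nat_lit 1185384766) (nat_lit 684) (nat_lit 1281581324) (nat_lit 273) (nat_lit 1) (nat_lit 272) (nat_lit 1)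 (nat_lit 281) (nat_lit 1) (nat_lit 394) (nat_lit 404) (nat_lit 342)))))) (XT.nd (nat_lit 390) (nat_lit 1596) (nat_lit 0) (XT.nd (nat_lit 156) (nat_lit 1140) (nat_lit 0) (XT.nd (nat_lit 78) (nat_lit 0) (nat_lit 0) (XT.lf (nat_lit 608) (nat_lit 1862210966) (nat_lit 0) (nat_lit 928081117) (nat_lit 532) (nat_lit 928081117) (nat_lit 273) (nat_lit 1) (nat_lit 265) (nat_lit 1) (nat_lit 272) (nat_lit 1) (nat_lit 395) (nat_lit 404) (nat_lit 341)) (XT.lf (nat_lit 76) (nat_lit 581335455) (nat_lit 0) (nat_lit 2525877912) (nat_lit 608) (nat_lit 581335455) (nat_lit 266) (nat_lit 1) (nat_lit 265) (nat_lit 1) (nat_lit 273) (nat_lit 1) (nat_lit 396) (nat_lit 404) (nat_lit 340))) (XT.nd (nat_lit 78) (nat_lit 608) (nat_lit 0) (XT.lf (nat_lit 608) (nat_lit 460229708) (nat_lit 0) (nat_lit 1599376846) (nat_lit 532) (nat_lit 1599376846) (nat_lit 266) (nat_lit 1) (nat_lit 258) (nat_lit 1) (nat_lit 265) (nat_lit 1) (nat_lit 397) (nat_lit 404) (nat_lit 339)) (XT.nd (nat_lit 78) (nat_lit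 0) (nat_lit 0) (XT.lf (nat_lit 608) (nat_lit 3399914529) (nat_lit 0) (nat_lit 114981540) (nat_lit 532) (nat_lit 114981540) (nat_lit 258) (nat_lit 1) (nat_lit 250) (nat_lit 1) (nat_lit 257) (nat_lit 1) (nat_lit 398) (nat_lit 404) (nat_lit 338)) (XT.lf (nat_lit 76) (nat_lit 1339031452) (nat_lit 0) (nat_lit 922779536) (nat_lit 608) (nat_lit 1339031452) (nat_lit 251) (nat_lit 1) (nat_lit 250) (nat_lit 1) (nat_lit 258) (nat_lit 1) (nat_lit 399) (nat_lit 404) (nat_lit 337))))) (XT.nd (nat_lit 156) (nat_lit 1064) (nat_lit 0) (XT.nd (nat_lit 78) (nat_lit 0) (nat_lit 0) (XT.lf (nat_lit 608) (nat_lit 1964294315) (nat_lit 0) (nat_lit 803981618) (nat_lit 532) (nat_lit 803981618) (nat_lit 251) (nat_lit 1) (nat_lit 243) (nat_lit 1) (nat_lit 250) (nat_lit 1) (nat_lit 400) (nat_lit 404) (nat_lit 336)) (XT.lf (nat_lit 76) (nat_lit 625756308) (nat_lit 0) (nat_lit 2292465462) (nat_lit 608) (nat_lit 625756308) (nat_lit 244) (nat_lit 1) (nat_lit 243) (nat_lit 1) (nat_lit 251) (nat_lit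 1) (nat_lit 401) (nat_lit 404) (nat_lit 335))) (XT.nd (nat_lit 78) (nat_lit 608) (nat_lit 0) (XT.lf (nat_lit 532) (nat_lit 537625021) (nat_lit 0) (nat_lit 1489166180) (nat_lit 456) (nat_lit 1489166180) (nat_lit 244) (nat_lit 1) (nat_lit 237) (nat_lit 1) (nat_lit 243) (nat_lit 1) (nat_lit 402) (nat_lit 404) (nat_lit 334)) (XT.nd (nat_lit 78) (nat_lit 0) (nat_lit 0) (XT.lf (nat_lit 608) (nat_lit 3323638833) (nat_lit 0) (nat_lit 82367127) (nat_lit 532) (nat_lit 82367127) (nat_lit 237) (nat_lit 1) (nat_lit 229) (nat_lit 1) (nat_lit 236) (nat_lit 1) (nat_lit 403) (nat_lit 404) (nat_lit 333)) (XT.lf (nat_lit 76) (nat_lit 1296420688) (nat_lit 0) (nat_lit 867988253) (nat_lit 608) (nat_lit 1296420688) (nat_lit 230) (nat_lit 1) (nat_lit 229) (nat_lit 1) (nat_lit 237) (nat_lit 1) (nat_lit 404) (nat_lit 404) (nat_lit 332))))))))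
noncomputable def ec64 : XT := (XT.nd (nat_lit 53742) (nat_lit 0) (nat_lit 24472) (XT.nd (nat_lit 702) (nat_lit 1216) (nat_lit 0) (XT.nd (nat_lit 312) (nat_lit 1368) (nat_lit 0) (XT.nd (nat_lit 156) (nat_lit 988) (nat_lit 0) (XT.nd (nat_lit 78) (nat_lit 0) (nat_lit 0) (XT.lf (nat_lit 532) (nat_lit 1870662835) (nat_lit 0) (nat_lit 781525719) (nat_lit 456) (nat_lit 781525719) (nat_lit 230) (nat_lit 1) (nat_lit 223) (nat_lit 1) (nat_lit 229) (nat_lit 1) (nat_lit 405) (nat_lit 404) (nat_lit 331)) (XT.lf (nat_lit 76) (nat_lit 575128080) (nat_lit 0) (nat_lit 2256631518) (nat_lit 532) (nat_lit 575128080) (nat_lit 224) (nat_lit 1) (nat_lit 223) (nat_lit 1) (nat_lit 230) (nat_lit 1) (nat_lit 406) (nat_lit 404) (nat_lit 330))) (XT.nd (nat_lit 78) (nat_lit 532) (nat_lit 0) (XT.lf (nat_lit 532) (nat_lit 429128847) (nat_lit 0) (nat_lit 1475583572) (nat_lit 456) (nat_lit 1475583572) (nat_lit 224) (nat_lit 1) (nat_lit 217) (nat_lit 1) (nat_lit 223) (nat_lit 1) (nat_lit 407)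 (nat_lit 404) (nat_lit 329)) (XT.lf (nat_lit 532) (nat_lit 3075242930) (nat_lit 0) (nat_lit 139426956) (nat_lit 456) (nat_lit 139426956) (nat_lit 217) (nat_lit 1) (nat_lit 210) (nat_lit 1) (nat_lit 216) (nat_lit 1) (nat_lit 408) (nat_lit 404) (nat_lit 328)))) (XT.nd (nat_lit 156) (nat_lit 912) (nat_lit 0) (XT.nd (nat_lit 78) (nat_lit 456) (nat_lit 0) (XT.lf (nat_lit 76) (nat_lit 1170277006) (nat_lit 0) (nat_lit 987403427) (nat_lit 532) (nat_lit 1170277006) (nat_lit 211) (nat_lit 1) (nat_lit 210) (nat_lit 1) (nat_lit 217) (nat_lit 1) (nat_lit 409) (nat_lit 404) (nat_lit 327)) (XT.lf (nat_lit 532) (nat_lit 1613774685) (nat_lit 0) (nat_lit 844214258) (nat_lit 456) (nat_lit 844214258) (nat_lit 211) (nat_lit 1) (nat_lit 204) (nat_lit 1) (nat_lit 210) (nat_lit 1) (nat_lit 410) (nat_lit 404) (nat_lit 326))) (XT.nd (nat_lit 78) (nat_lit 912) (nat_lit 0) (XT.lf (nat_lit 76) (nat_lit 445279341) (nat_lit 0) (nat_lit 2386185710) (nat_lit 532) (nat_lit 445279341) (nat_lit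 205) (nat_lit 1) (nat_lit 204) (nat_lit 1) (nat_lit 211) (nat_lit 1) (nat_lit 411) (nat_lit 404) (nat_lit 325)) (XT.nd (nat_lit 78) (nat_lit 532) (nat_lit 0) (XT.lf (nat_lit 456) (nat_lit 165824797) (nat_lit 0) (nat_lit 1542826083) (nat_lit 380) (nat_lit 1542826083) (nat_lit 205) (nat_lit 1) (nat_lit 199) (nat_lit 1) (nat_lit 204) (nat_lit 1) (nat_lit 412) (nat_lit 404) (nat_lit 324)) (XT.lf (nat_lit 532) (nat_lit 2684335187) (nat_lit 0) (nat_lit 271103014) (nat_lit 456) (nat_lit 271103014) (nat_lit 199) (nat_lit 1) (nat_lit 192) (nat_lit 1) (nat_lit 198) (nat_lit 1) (nat_lit 413) (nat_lit 404) (nat_lit 323)))))) (XT.nd (nat_lit 312) (nat_lit 380) (nat_lit 0) (XT.nd (nat_lit 156) (nat_lit 456) (nat_lit 0) (XT.nd (nat_lit 78) (nat_lit 380) (nat_lit 0) (XT.lf (nat_lit 76) (nat_lit 975037260) (nat_lit 0) (nat_lit 1251650205) (nat_lit 532) (nat_lit 975037260) (nat_lit 193) (nat_lit 1) (nat_lit 192) (nat_lit 1) (nat_lit 199) (nat_lit 1) (nat_lit 414) (nat_lit 404)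 (nat_lit 322)) (XT.lf (nat_lit 456) (nat_lit 1221976582) (nat_lit 0) (nat_lit 977628394) (nat_lit 380) (nat_lit 977628394) (nat_lit 193) (nat_lit 1) (nat_lit 187) (nat_lit 1) (nat_lit 192) (nat_lit 1) (nat_lit 415) (nat_lit 404) (nat_lit 321))) (XT.nd (nat_lit 78) (nat_lit 456) (nat_lit 0) (XT.lf (nat_lit 76) (nat_lit 250031256) (nat_lit 0) (nat_lit 2653001049) (nat_lit 456) (nat_lit 250031256) (nat_lit 188) (nat_lit 1) (nat_lit 187) (nat_lit 1) (nat_lit 193) (nat_lit 1) (nat_lit 416) (nat_lit 404) (nat_lit 320)) (XT.lf (nat_lit 76) (nat_lit 1453399377) (nat_lit 0) (nat_lit 222197444) (nat_lit 456) (nat_lit 1453399377) (nat_lit 182) (nat_lit 1) (nat_lit 181) (nat_lit 1) (nat_lit 187) (nat_lit 1) (nat_lit 417) (nat_lit 404) (nat_lit 319)))) (XT.nd (nat_lit 52494) (nat_lit 0) (nat_lit 24396) (XT.nd (nat_lit 78) (nat_lit 0) (nat_lit 0) (XT.lf (nat_lit 456) (nat_lit 2176741106) (nat_lit 0) (nat_lit 464251613) (nat_lit 380) (nat_lit 464251613) (nat_lit 182) (nat_lit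 1) (nat_lit 176) (nat_lit 1) (nat_lit 181) (nat_lit 1) (nat_lit 418) (nat_lit 404) (nat_lit 318)) (XT.lf (nat_lit 76) (nat_lit 723291404) (nat_lit 0) (nat_lit 1635092724) (nat_lit 456) (nat_lit 723291404) (nat_lit 177) (nat_lit 1) (nat_lit 176) (nat_lit 1) (nat_lit 182) (nat_lit 1) (nat_lit 419) (nat_lit 404) (nat_lit 317))) (XT.nd (nat_lit 78) (nat_lit 0) (nat_lit 0) (XT.lf (nat_lit 1900) (nat_lit 1106597410) (nat_lit 0) (nat_lit 1115851138) (nat_lit 1900) (nat_lit 1106597410) (nat_lit 522) (nat_lit 1) (nat_lit 497) (nat_lit 0) (nat_lit 522) (nat_lit 0) (nat_lit 330) (nat_lit 405) (nat_lit 405)) (XT.nd (nat_lit 78) (nat_lit 0) (nat_lit 76) (XT.lf (nat_lit 1900) (nat_lit 4375652537) (nat_lit 76) (nat_lit 1108510012) (nat_lit 0) (nat_lit 1108510012) (nat_lit 522) (nat_lit 1) (nat_lit 498) (nat_lit 1) (nat_lit 497) (nat_lit 0) (nat_lit 331) (nat_lit 405) (nat_lit 404)) (XT.lf (nat_lit 1900) (nat_lit 2148466224) (nat_lit 0) (nat_lit 2231035298) (nat_lit 1824) (nat_lit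 2148466224) (nat_lit 523) (nat_lit 1) (nat_lit 498) (nat_lit 1) (nat_lit 522) (nat_lit 1) (nat_lit 332) (nat_lit 405) (nat_lit 403))))))) (XT.nd (nat_lit 702) (nat_lit 0) (nat_lit 380) (XT.nd (nat_lit 312) (nat_lit 0) (nat_lit 152) (XT.nd (nat_lit 156) (nat_lit 0) (nat_lit 76) (XT.nd (nat_lit 78) (nat_lit 0) (nat_lit 76) (XT.lf (nat_lit 1900) (nat_lit 4205078026) (nat_lit 76) (nat_lit 1129582912) (nat_lit 0) (nat_lit 1129582912) (nat_lit 523) (nat_lit 1) (nat_lit 499) (nat_lit 1) (nat_lit 498) (nat_lit 1) (nat_lit 333) (nat_lit 405) (nat_lit 402)) (XT.lf (nat_lit 1900) (nat_lit 2043588236) (nat_lit 0) (nat_lit 2314046929) (nat_lit 1824) (nat_lit 2043588236) (nat_lit 524) (nat_lit 1) (nat_lit 499) (nat_lit 1) (nat_lit 523) (nat_lit 1) (nat_lit 334) (nat_lit 405) (nat_lit 401))) (XT.nd (nat_lit 78) (nat_lit 0) (nat_lit 76) (XT.lf (nat_lit 1900) (nat_lit 3956362722) (nat_lit 76) (nat_lit 1191388708) (nat_lit 0) (nat_lit 1191388708) (nat_lit 524) (nat_lit 1) (nat_lit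 500) (nat_lit 1) (nat_lit 499) (nat_lit 1) (nat_lit 335) (nat_lit 405) (nat_lit 400)) (XT.lf (nat_lit 1900) (nat_lit 1900956434) (nat_lit 0) (nat_lit 2475847578) (nat_lit 1824) (nat_lit 1900956434) (nat_lit 525) (nat_lit 1) (nat_lit 500) (nat_lit 1) (nat_lit 524) (nat_lit 1) (nat_lit 336) (nat_lit 405) (nat_lit 399)))) (XT.nd (nat_lit 156) (nat_lit 0) (nat_lit 76) (XT.nd (nat_lit 78) (nat_lit 0) (nat_lit 76) (XT.lf (nat_lit 1900) (nat_lit 3634202973) (nat_lit 76) (nat_lit 1291530962) (nat_lit 0) (nat_lit 1291530962) (nat_lit 525) (nat_lit 1) (nat_lit 501) (nat_lit 1) (nat_lit 500) (nat_lit 1) (nat_lit 337) (nat_lit 405) (nat_lit 398)) (XT.lf (nat_lit 1900) (nat_lit 1722856968) (nat_lit 0) (nat_lit 2711769684) (nat_lit 1824) (nat_lit 1722856968) (nat_lit 526) (nat_lit 1) (nat_lit 501) (nat_lit 1) (nat_lit 525) (nat_lit 1) (nat_lit 338) (nat_lit 405) (nat_lit 397))) (XT.nd (nat_lit 78) (nat_lit 0) (nat_lit 76) (XT.lf (nat_lit 1900) (nat_lit 3243080175) (nat_lit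 76) (nat_lit 1427722268) (nat_lit 0) (nat_lit 1427722268) (nat_lit 526) (nat_lit 1) (nat_lit 502) (nat_lit 1) (nat_lit 501) (nat_lit 1) (nat_lit 339) (nat_lit 405) (nat_lit 396)) (XT.nd (nat_lit 78) (nat_lit 0) (nat_lit 0) (XT.lf (nat_lit 1900) (nat_lit 1511471135) (nat_lit 0) (nat_lit 3017358463) (nat_lit 1824) (nat_lit 1511471135) (nat_lit 527) (nat_lit 1) (nat_lit 502) (nat_lit 1) (nat_lit 526) (nat_lit 1) (nat_lit 340) (nat_lit 405) (nat_lit 395)) (XT.lf (nat_lit 1900) (nat_lit 2787269755) (nat_lit 76) (nat_lit 1597779706) (nat_lit 0) (nat_lit 1597779706) (nat_lit 527) (nat_lit 1) (nat_lit 503) (nat_lit 1) (nat_lit 502) (nat_lit 1) (nat_lit 341) (nat_lit 405) (nat_lit 394)))))) (XT.nd (nat_lit 312) (nat_lit 0) (nat_lit 152) (XT.nd (nat_lit 156) (nat_lit 0) (nat_lit 76) (XT.nd (nat_lit 78) (nat_lit 0) (nat_lit 0) (XT.lf (nat_lit 1900) (nat_lit 1268879764) (nat_lit 0) (nat_lit 3388363031) (nat_lit 1824) (nat_lit 1268879764) (nat_lit 528) (nat_lit 1) (nat_lit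 503) (nat_lit 1) (nat_lit 527) (nat_lit 1) (nat_lit 342) (nat_lit 405) (nat_lit 393)) (XT.lf (nat_lit 1900) (nat_lit 2270849796) (nat_lit 76) (nat_lit 1799620476) (nat_lit 0) (nat_lit 1799620476) (nat_lit 528) (nat_lit 1) (nat_lit 504) (nat_lit 1) (nat_lit 503) (nat_lit 1) (nat_lit 343) (nat_lit 405) (nat_lit 392))) (XT.nd (nat_lit 78) (nat_lit 0) (nat_lit 0) (XT.lf (nat_lit 1900) (nat_lit 997067424) (nat_lit 0) (nat_lit 3820727876) (nat_lit 1824) (nat_lit 997067424) (nat_lit 529) (nat_lit 1) (nat_lit 504) (nat_lit 1) (nat_lit 528) (nat_lit 1) (nat_lit 344) (nat_lit 405) (nat_lit 391)) (XT.lf (nat_lit 1900) (nat_lit 1697709316) (nat_lit 76) (nat_lit 2031257708) (nat_lit 0) (nat_lit 2031257708) (nat_lit 529) (nat_lit 1) (nat_lit 505) (nat_lit 1) (nat_lit 504) (nat_lit 1) (nat_lit 345) (nat_lit 405) (nat_lit 390)))) (XT.nd (nat_lit 156) (nat_lit 0) (nat_lit 76) (XT.nd (nat_lit 78) (nat_lit 0) (nat_lit 0) (XT.lf (nat_lit 1900) (nat_lit 697926471) (nat_lit 0) (nat_lit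 4310584679) (nat_lit 1824) (nat_lit 697926471) (nat_lit 530) (nat_lit 1) (nat_lit 505) (nat_lit 1) (nat_lit 529) (nat_lit 1) (nat_lit 346) (nat_lit 405) (nat_lit 389)) (XT.lf (nat_lit 1900) (nat_lit 1071556209) (nat_lit 76) (nat_lit 2290796443) (nat_lit 0) (nat_lit 2290796443) (nat_lit 530) (nat_lit 1) (nat_lit 506) (nat_lit 1) (nat_lit 505) (nat_lit 1) (nat_lit 347) (nat_lit 405) (nat_lit 388))) (XT.nd (nat_lit 78) (nat_lit 0) (nat_lit 0) (XT.lf (nat_lit 1900) (nat_lit 373260919) (nat_lit 0) (nat_lit 4854244463) (nat_lit 1824) (nat_lit 373260919) (nat_lit 531) (nat_lit 1) (nat_lit 506) (nat_lit 1) (nat_lit 530) (nat_lit 1) (nat_lit 348) (nat_lit 405) (nat_lit 387)) (XT.nd (nat_lit 78) (nat_lit 0) (nat_lit 76) (XT.lf (nat_lit 1900) (nat_lit 395924871) (nat_lit 76) (nat_lit 2576429777) (nat_lit 0) (nat_lit 2576429777) (nat_lit 531) (nat_lit 1) (nat_lit 507) (nat_lit 1) (nat_lit 506) (nat_lit 1) (nat_lit 349) (nat_lit 405) (nat_lit 386)) (XT.lf (nat_lit 1900) (nat_lit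 24790167) (nat_lit 0) (nat_lit 5448190057) (nat_lit 1824) (nat_lit 24790167) (nat_lit 532) (nat_lit 1) (nat_lit 507) (nat_lit 1) (nat_lit 531) (nat_lit 1) (nat_lit 350) (nat_lit 405) (nat_lit 385))))))))
noncomputable def ec65 : XT := (XT.nd (nat_lit 1404) (nat_lit 7828) (nat_lit 0) (XT.nd (nat_lit 702) (nat_lit 4408) (nat_lit 0) (XT.nd (nat_lit 312) (nat_lit 1900) (nat_lit 0) (XT.nd (nat_lit 156) (nat_lit 0) (nat_lit 76) (XT.nd (nat_lit 78) (nat_lit 0) (nat_lit 0) (XT.lf (nat_lit 1976) (nat_lit 2562734084) (nat_lit 0) (nat_lit 321543345) (nat_lit 1900) (nat_lit 2562734084) (nat_lit 508) (nat_lit 1) (nat_lit 482) (nat_lit 1) (nat_lit 507) (nat_lit 1) (nat_lit 351) (nat_lit 405) (nat_lit 384)) (XT.lf (nat_lit 1976) (nat_lit 4710049525) (nat_lit 76) (nat_lit 343572118) (nat_lit 0) (nat_lit 343572118) (nat_lit 508) (nat_lit 1) (nat_lit 483) (nat_lit 1) (nat_lit 482) (nat_lit 1) (nat_lit 352) (nat_lit 405) (nat_lit 383))) (XT.nd (nat_lit 78) (nat_lit 0) (nat_lit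 0) (XT.lf (nat_lit 1976) (nat_lit 2135791982) (nat_lit 0) (nat_lit 1076157251) (nat_lit 1900) (nat_lit 2135791982) (nat_lit 509) (nat_lit 1) (nat_lit 483) (nat_lit 1) (nat_lit 508) (nat_lit 1) (nat_lit 353) (nat_lit 405) (nat_lit 382)) (XT.lf (nat_lit 1976) (nat_lit 3834635784) (nat_lit 76) (nat_lit 732241858) (nat_lit 0) (nat_lit 732241858) (nat_lit 509) (nat_lit 1) (nat_lit 484) (nat_lit 1) (nat_lit 483) (nat_lit 1) (nat_lit 354) (nat_lit 405) (nat_lit 381)))) (XT.nd (nat_lit 156) (nat_lit 912) (nat_lit 0) (XT.nd (nat_lit 78) (nat_lit 1140) (nat_lit 0) (XT.lf (nat_lit 76) (nat_lit 1690430138) (nat_lit 0) (nat_lit 1870092938) (nat_lit 1900) (nat_lit 1690430138) (nat_lit 485) (nat_lit 1) (nat_lit 484) (nat_lit 1) (nat_lit 509) (nat_lit 1) (nat_lit 355) (nat_lit 405) (nat_lit 380)) (XT.lf (nat_lit 1216) (nat_lit 2923679086) (nat_lit 0) (nat_lit 1139905520) (nat_lit 1140) (nat_lit 1139905520) (nat_lit 485) (nat_lit 1) (nat_lit 469) (nat_lit 1) (nat_lit 484) (nat_lit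 1) (nat_lit 356) (nat_lit 405) (nat_lit 379))) (XT.nd (nat_lit 78) (nat_lit 912) (nat_lit 0) (XT.lf (nat_lit 76) (nat_lit 1228050059) (nat_lit 0) (nat_lit 2700477917) (nat_lit 1216) (nat_lit 1228050059) (nat_lit 470) (nat_lit 1) (nat_lit 469) (nat_lit 1) (nat_lit 485) (nat_lit 1) (nat_lit 357) (nat_lit 405) (nat_lit 378)) (XT.nd (nat_lit 78) (nat_lit 0) (nat_lit 0) (XT.lf (nat_lit 988) (nat_lit 1979923065) (nat_lit 0) (nat_lit 1565157183) (nat_lit 912) (nat_lit 1565157183) (nat_lit 470) (nat_lit 1) (nat_lit 457) (nat_lit 1) (nat_lit 469) (nat_lit 1) (nat_lit 358) (nat_lit 405) (nat_lit 377)) (XT.lf (nat_lit 76) (nat_lit 749985371) (nat_lit 0) (nat_lit 3564577626) (nat_lit 988) (nat_lit 749985371) (nat_lit 458) (nat_lit 1) (nat_lit 457) (nat_lit 1) (nat_lit 470) (nat_lit 1) (nat_lit 359) (nat_lit 405) (nat_lit 376)))))) (XT.nd (nat_lit 312) (nat_lit 1672) (nat_lit 0) (XT.nd (nat_lit 156) (nat_lit 1824) (nat_lit 0) (XT.nd (nat_lit 78) (nat_lit 0) (nat_lit 0) (XT.lf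 (nat_lit 988) (nat_lit 1005978081) (nat_lit 0) (nat_lit 2006658630) (nat_lit 912) (nat_lit 2006658630) (nat_lit 458) (nat_lit 1) (nat_lit 445) (nat_lit 1) (nat_lit 457) (nat_lit 1) (nat_lit 360) (nat_lit 405) (nat_lit 375)) (XT.lf (nat_lit 76) (nat_lit 257504722) (nat_lit 0) (nat_lit 4459789555) (nat_lit 988) (nat_lit 257504722) (nat_lit 446) (nat_lit 1) (nat_lit 445) (nat_lit 1) (nat_lit 458) (nat_lit 1) (nat_lit 361) (nat_lit 405) (nat_lit 374))) (XT.nd (nat_lit 78) (nat_lit 988) (nat_lit 0) (XT.lf (nat_lit 912) (nat_lit 4326922) (nat_lit 0) (nat_lit 2463136452) (nat_lit 836) (nat_lit 2463136452) (nat_lit 446) (nat_lit 1) (nat_lit 434) (nat_lit 1) (nat_lit 445) (nat_lit 1) (nat_lit 362) (nat_lit 405) (nat_lit 373)) (XT.lf (nat_lit 988) (nat_lit 4394032125) (nat_lit 0) (nat_lit 246552636) (nat_lit 912) (nat_lit 246552636) (nat_lit 434) (nat_lit 1) (nat_lit 421) (nat_lit 1) (nat_lit 433) (nat_lit 1) (nat_lit 363) (nat_lit 405) (nat_lit 372)))) (XT.nd (nat_lit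 156) (nat_lit 836) (nat_lit 0) (XT.nd (nat_lit 78) (nat_lit 836) (nat_lit 0) (XT.lf (nat_lit 76) (nat_lit 1917349406) (nat_lit 0) (nat_lit 1009257233) (nat_lit 988) (nat_lit 1917349406) (nat_lit 422) (nat_lit 1) (nat_lit 421) (nat_lit 1) (nat_lit 434) (nat_lit 1) (nat_lit 364) (nat_lit 405) (nat_lit 371)) (XT.lf (nat_lit 912) (nat_lit 3279692969) (nat_lit 0) (nat_lit 760899111) (nat_lit 836) (nat_lit 760899111) (nat_lit 422) (nat_lit 1) (nat_lit 410) (nat_lit 1) (nat_lit 421) (nat_lit 1) (nat_lit 365) (nat_lit 405) (nat_lit 370))) (XT.nd (nat_lit 78) (nat_lit 836) (nat_lit 0) (XT.lf (nat_lit 76) (nat_lit 1356924886) (nat_lit 0) (nat_lit 2045583331) (nat_lit 912) (nat_lit 1356924886) (nat_lit 411) (nat_lit 1) (nat_lit 410) (nat_lit 1) (nat_lit 422) (nat_lit 1) (nat_lit 366) (nat_lit 405) (nat_lit 369)) (XT.nd (nat_lit 78) (nat_lit 0) (nat_lit 0) (XT.lf (nat_lit 912) (nat_lit 2145643755) (nat_lit 0) (nat_lit 1286146025) (nat_lit 836) (nat_lit 1286146025) (nat_lit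 411) (nat_lit 1) (nat_lit 399) (nat_lit 1) (nat_lit 410) (nat_lit 1) (nat_lit 367) (nat_lit 405) (nat_lit 368)) (XT.lf (nat_lit 76) (nat_lit 787184735) (nat_lit 0) (nat_lit 3102604090) (nat_lit 912) (nat_lit 787184735) (nat_lit 400) (nat_lit 1) (nat_lit 399) (nat_lit 1) (nat_lit 411) (nat_lit 1) (nat_lit 368) (nat_lit 405) (nat_lit 367))))))) (XT.nd (nat_lit 702) (nat_lit 4028) (nat_lit 0) (XT.nd (nat_lit 312) (nat_lit 1444) (nat_lit 0) (XT.nd (nat_lit 156) (nat_lit 1596) (nat_lit 0) (XT.nd (nat_lit 78) (nat_lit 0) (nat_lit 0) (XT.lf (nat_lit 836) (nat_lit 993884775) (nat_lit 0) (nat_lit 1821264745) (nat_lit 760) (nat_lit 1821264745) (nat_lit 400) (nat_lit 1) (nat_lit 389) (nat_lit 1) (nat_lit 399) (nat_lit 1) (nat_lit 369) (nat_lit 405) (nat_lit 366)) (XT.lf (nat_lit 76) (nat_lit 209100056) (nat_lit 0) (nat_lit 4178321078) (nat_lit 836) (nat_lit 209100056) (nat_lit 390) (nat_lit 1) (nat_lit 389) (nat_lit 1) (nat_lit 400) (nat_lit 1) (nat_lit 370) (nat_lit 405)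 (nat_lit 365))) (XT.nd (nat_lit 78) (nat_lit 760) (nat_lit 0) (XT.lf (nat_lit 76) (nat_lit 2192720565) (nat_lit 0) (nat_lit 171407651) (nat_lit 836) (nat_lit 2192720565) (nat_lit 379) (nat_lit 1) (nat_lit 378) (nat_lit 1) (nat_lit 389) (nat_lit 1) (nat_lit 371) (nat_lit 405) (nat_lit 364)) (XT.lf (nat_lit 836) (nat_lit 3769962633) (nat_lit 0) (nat_lit 373931340) (nat_lit 760) (nat_lit 373931340) (nat_lit 379) (nat_lit 1) (nat_lit 368) (nat_lit 1) (nat_lit 378) (nat_lit 1) (nat_lit 372) (nat_lit 405) (nat_lit 363)))) (XT.nd (nat_lit 156) (nat_lit 684) (nat_lit 0) (XT.nd (nat_lit 78) (nat_lit 760) (nat_lit 0) (XT.lf (nat_lit 76) (nat_lit 1570792850) (nat_lit 0) (nat_lit 1337491767) (nat_lit 836) (nat_lit 1570792850) (nat_lit 369) (nat_lit 1) (nat_lit 368) (nat_lit 1) (nat_lit 379) (nat_lit 1) (nat_lit 373) (nat_lit 405) (nat_lit 362)) (XT.lf (nat_lit 836) (nat_lit 2516730598) (nat_lit 0) (nat_lit 962093126) (nat_lit 760) (nat_lit 962093126) (nat_lit 369) (nat_lit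 1) (nat_lit 358) (nat_lit 1) (nat_lit 368) (nat_lit 1) (nat_lit 374) (nat_lit 405) (nat_lit 361))) (XT.nd (nat_lit 78) (nat_lit 684) (nat_lit 0) (XT.lf (nat_lit 76) (nat_lit 943730233) (nat_lit 0) (nat_lit 2515717209) (nat_lit 836) (nat_lit 943730233) (nat_lit 359) (nat_lit 1) (nat_lit 358) (nat_lit 1) (nat_lit 369) (nat_lit 1) (nat_lit 375) (nat_lit 405) (nat_lit 360)) (XT.nd (nat_lit 78) (nat_lit 0) (nat_lit 0) (XT.lf (nat_lit 760) (nat_lit 1253978192) (nat_lit 0) (nat_lit 1555937883) (nat_lit 684) (nat_lit 1555937883) (nat_lit 359) (nat_lit 1) (nat_lit 349) (nat_lit 1) (nat_lit 358) (nat_lit 1) (nat_lit 376) (nat_lit 405) (nat_lit 359)) (XT.lf (nat_lit 76) (nat_lit 312306324) (nat_lit 0) (nat_lit 3704486597) (nat_lit 760) (nat_lit 312306324) (nat_lit 350) (nat_lit 1) (nat_lit 349) (nat_lit 1) (nat_lit 359) (nat_lit 1) (nat_lit 377) (nat_lit 405) (nat_lit 358)))))) (XT.nd (nat_lit 312) (nat_lit 1900) (nat_lit 0) (XT.nd (nat_lit 156) (nat_lit 684) (nat_lit 0)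 (XT.nd (nat_lit 78) (nat_lit 684) (nat_lit 0) (XT.lf (nat_lit 76) (nat_lit 2138010634) (nat_lit 0) (nat_lit 16563890) (nat_lit 760) (nat_lit 2138010634) (nat_lit 340) (nat_lit 1) (nat_lit 339) (nat_lit 1) (nat_lit 349) (nat_lit 1) (nat_lit 378) (nat_lit 405) (nat_lit 357)) (XT.lf (nat_lit 760) (nat_lit 3615378872) (nat_lit 0) (nat_lit 320623229) (nat_lit 684) (nat_lit 320623229) (nat_lit 340) (nat_lit 1) (nat_lit 330) (nat_lit 1) (nat_lit 339) (nat_lit 1) (nat_lit 379) (nat_lit 405) (nat_lit 356))) (XT.nd (nat_lit 78) (nat_lit 684) (nat_lit 0) (XT.lf (nat_lit 76) (nat_lit 1471873671) (nat_lit 0) (nat_lit 1277153785) (nat_lit 760) (nat_lit 1471873671) (nat_lit 331) (nat_lit 1) (nat_lit 330) (nat_lit 1) (nat_lit 340) (nat_lit 1) (nat_lit 380) (nat_lit 405) (nat_lit 355)) (XT.lf (nat_lit 760) (nat_lit 2276882729) (nat_lit 0) (nat_lit 954414959) (nat_lit 684) (nat_lit 954414959) (nat_lit 331) (nat_lit 1) (nat_lit 321) (nat_lit 1) (nat_lit 330) (nat_lit 1) (nat_lit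 381) (nat_lit 405) (nat_lit 354)))) (XT.nd (nat_lit 156) (nat_lit 1292) (nat_lit 0) (XT.nd (nat_lit 78) (nat_lit 608) (nat_lit 0) (XT.lf (nat_lit 76) (nat_lit 804007599) (nat_lit 0) (nat_lit 2542903277) (nat_lit 760) (nat_lit 804007599) (nat_lit 322) (nat_lit 1) (nat_lit 321) (nat_lit 1) (nat_lit 331) (nat_lit 1) (nat_lit 382) (nat_lit 405) (nat_lit 353)) (XT.lf (nat_lit 684) (nat_lit 935533092) (nat_lit 0) (nat_lit 1590472709) (nat_lit 608) (nat_lit 1590472709) (nat_lit 322) (nat_lit 1) (nat_lit 313) (nat_lit 1) (nat_lit 321) (nat_lit 1) (nat_lit 383) (nat_lit 405) (nat_lit 352))) (XT.nd (nat_lit 78) (nat_lit 1292) (nat_lit 0) (XT.lf (nat_lit 76) (nat_lit 135020663) (nat_lit 0) (nat_lit 3812551033) (nat_lit 684) (nat_lit 135020663) (nat_lit 314) (nat_lit 1) (nat_lit 313) (nat_lit 1) (nat_lit 322) (nat_lit 1) (nat_lit 384) (nat_lit 405) (nat_lit 351)) (XT.nd (nat_lit 78) (nat_lit 608) (nat_lit 0) (XT.lf (nat_lit 76) (nat_lit 1823342993) (nat_lit 0) (nat_lit 402139926)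 (nat_lit 684) (nat_lit 1823342993) (nat_lit 305) (nat_lit 1) (nat_lit 304) (nat_lit 1) (nat_lit 313) (nat_lit 1) (nat_lit 385) (nat_lit 405) (nat_lit 350)) (XT.lf (nat_lit 684) (nat_lit 2953607506) (nat_lit 0) (nat_lit 530996592) (nat_lit 608) (nat_lit 530996592) (nat_lit 305) (nat_lit 1) (nat_lit 296) (nat_lit 1) (nat_lit 304) (nat_lit 1) (nat_lit 386) (nat_lit 405) (nat_lit 349))))))))
noncomputable def ec66 : XT := (XT.nd (nat_lit 1404) (nat_lit 3952) (nat_lit 0) (XT.nd (nat_lit 702) (nat_lit 2660) (nat_lit 0) (XT.nd (nat_lit 312) (nat_lit 1748) (nat_lit 0) (XT.nd (nat_lit 156) (nat_lit 532) (nat_lit 0) (XT.nd (nat_lit 78) (nat_lit 608) (nat_lit 0) (XT.lf (nat_lit 76) (nat_lit 1127279243) (nat_lit 0) (nat_lit 1728084922) (nat_lit 684) (nat_lit 1127279243) (nat_lit 297) (nat_lit 1) (nat_lit 296) (nat_lit 1) (nat_lit 305) (nat_lit 1) (nat_lit 387) (nat_lit 405) (nat_lit 348)) (XT.lf (nat_lit 684) (nat_lit 1557847329) (nat_lit 0) (nat_lit 1196131047) (nat_lit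 608) (nat_lit 1196131047) (nat_lit 297) (nat_lit 1) (nat_lit 288) (nat_lit 1) (nat_lit 296) (nat_lit 1) (nat_lit 388) (nat_lit 405) (nat_lit 347))) (XT.nd (nat_lit 78) (nat_lit 532) (nat_lit 0) (XT.lf (nat_lit 76) (nat_lit 432240153) (nat_lit 0) (nat_lit 3053530765) (nat_lit 684) (nat_lit 432240153) (nat_lit 289) (nat_lit 1) (nat_lit 288) (nat_lit 1) (nat_lit 297) (nat_lit 1) (nat_lit 389) (nat_lit 405) (nat_lit 346)) (XT.lf (nat_lit 608) (nat_lit 164619697) (nat_lit 0) (nat_lit 1860764249) (nat_lit 532) (nat_lit 1860764249) (nat_lit 289) (nat_lit 1) (nat_lit 281) (nat_lit 1) (nat_lit 288) (nat_lit 1) (nat_lit 390) (nat_lit 405) (nat_lit 345)))) (XT.nd (nat_lit 156) (nat_lit 1064) (nat_lit 0) (XT.nd (nat_lit 78) (nat_lit 0) (nat_lit 0) (XT.lf (nat_lit 684) (nat_lit 3335582387) (nat_lit 0) (nat_lit 259585069) (nat_lit 608) (nat_lit 259585069) (nat_lit 281) (nat_lit 1) (nat_lit 272) (nat_lit 1) (nat_lit 280) (nat_lit 1) (nat_lit 391) (nat_lit 405) (nat_lit 344))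 (XT.lf (nat_lit 76) (nat_lit 1307212951) (nat_lit 0) (nat_lit 1209092461) (nat_lit 684) (nat_lit 1307212951) (nat_lit 273) (nat_lit 1) (nat_lit 272) (nat_lit 1) (nat_lit 281) (nat_lit 1) (nat_lit 392) (nat_lit 405) (nat_lit 343))) (XT.nd (nat_lit 78) (nat_lit 532) (nat_lit 0) (XT.lf (nat_lit 608) (nat_lit 1899455185) (nat_lit 0) (nat_lit 946642739) (nat_lit 532) (nat_lit 946642739) (nat_lit 273) (nat_lit 1) (nat_lit 265) (nat_lit 1) (nat_lit 272) (nat_lit 1) (nat_lit 393) (nat_lit 405) (nat_lit 342)) (XT.nd (nat_lit 78) (nat_lit 532) (nat_lit 0) (XT.lf (nat_lit 76) (nat_lit 592962164) (nat_lit 0) (nat_lit 2576395470) (nat_lit 608) (nat_lit 592962164) (nat_lit 266) (nat_lit 1) (nat_lit 265) (nat_lit 1) (nat_lit 273) (nat_lit 1) (nat_lit 394) (nat_lit 405) (nat_lit 341)) (XT.lf (nat_lit 608) (nat_lit 469434302) (nat_lit 0) (nat_lit 1631364383) (nat_lit 532) (nat_lit 1631364383) (nat_lit 266) (nat_lit 1) (nat_lit 258) (nat_lit 1) (nat_lit 265) (nat_lit 1) (nat_lit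 395) (nat_lit 405) (nat_lit 340)))))) (XT.nd (nat_lit 312) (nat_lit 1520) (nat_lit 0) (XT.nd (nat_lit 156) (nat_lit 532) (nat_lit 0) (XT.nd (nat_lit 78) (nat_lit 0) (nat_lit 0) (XT.lf (nat_lit 608) (nat_lit 3467912819) (nat_lit 0) (nat_lit 117281171) (nat_lit 532) (nat_lit 117281171) (nat_lit 258) (nat_lit 1) (nat_lit 250) (nat_lit 1) (nat_lit 257) (nat_lit 1) (nat_lit 396) (nat_lit 405) (nat_lit 339)) (XT.lf (nat_lit 76) (nat_lit 1365812081) (nat_lit 0) (nat_lit 941235127) (nat_lit 608) (nat_lit 1365812081) (nat_lit 251) (nat_lit 1) (nat_lit 250) (nat_lit 1) (nat_lit 258) (nat_lit 1) (nat_lit 397) (nat_lit 405) (nat_lit 338))) (XT.nd (nat_lit 78) (nat_lit 0) (nat_lit 0) (XT.lf (nat_lit 608) (nat_lit 2003580201) (nat_lit 0) (nat_lit 820061250) (nat_lit 532) (nat_lit 820061250) (nat_lit 251) (nat_lit 1) (nat_lit 243) (nat_lit 1) (nat_lit 250) (nat_lit 1) (nat_lit 398) (nat_lit 405) (nat_lit 337)) (XT.lf (nat_lit 76) (nat_lit 638271434) (nat_lit 0) (nat_lit 2338314772)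 (nat_lit 608) (nat_lit 638271434) (nat_lit 244) (nat_lit 1) (nat_lit 243) (nat_lit 1) (nat_lit 251) (nat_lit 1) (nat_lit 399) (nat_lit 405) (nat_lit 336)))) (XT.nd (nat_lit 156) (nat_lit 456) (nat_lit 0) (XT.nd (nat_lit 78) (nat_lit 608) (nat_lit 0) (XT.lf (nat_lit 532) (nat_lit 548377521) (nat_lit 0) (nat_lit 1518949504) (nat_lit 456) (nat_lit 1518949504) (nat_lit 244) (nat_lit 1) (nat_lit 237) (nat_lit 1) (nat_lit 243) (nat_lit 1) (nat_lit 400) (nat_lit 405) (nat_lit 335)) (XT.lf (nat_lit 608) (nat_lit 3390111609) (nat_lit 0) (nat_lit 84014469) (nat_lit 532) (nat_lit 84014469) (nat_lit 237) (nat_lit 1) (nat_lit 229) (nat_lit 1) (nat_lit 236) (nat_lit 1) (nat_lit 401) (nat_lit 405) (nat_lit 334))) (XT.nd (nat_lit 78) (nat_lit 456) (nat_lit 0) (XT.lf (nat_lit 76) (nat_lit 1322349102) (nat_lit 0) (nat_lit 885348018) (nat_lit 608) (nat_lit 1322349102) (nat_lit 230) (nat_lit 1) (nat_lit 229) (nat_lit 1) (nat_lit 237) (nat_lit 1) (nat_lit 402) (nat_lit 405) (nat_lit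 333)) (XT.nd (nat_lit 78) (nat_lit 0) (nat_lit 0) (XT.lf (nat_lit 532) (nat_lit 1908076092) (nat_lit 0) (nat_lit 797156233) (nat_lit 456) (nat_lit 797156233) (nat_lit 230) (nat_lit 1) (nat_lit 223) (nat_lit 1) (nat_lit 229) (nat_lit 1) (nat_lit 403) (nat_lit 405) (nat_lit 332)) (XT.lf (nat_lit 76) (nat_lit 586630642) (nat_lit 0) (nat_lit 2301764148) (nat_lit 532) (nat_lit 586630642) (nat_lit 224) (nat_lit 1) (nat_lit 223) (nat_lit 1) (nat_lit 230) (nat_lit 1) (nat_lit 404) (nat_lit 405) (nat_lit 331))))))) (XT.nd (nat_lit 702) (nat_lit 1216) (nat_lit 0) (XT.nd (nat_lit 312) (nat_lit 1292) (nat_lit 0) (XT.nd (nat_lit 156) (nat_lit 456) (nat_lit 0) (XT.nd (nat_lit 78) (nat_lit 532) (nat_lit 0) (XT.lf (nat_lit 532) (nat_lit 437711424) (nat_lit 0) (nat_lit 1505095243) (nat_lit 456) (nat_lit 1505095243) (nat_lit 224) (nat_lit 1) (nat_lit 217) (nat_lit 1) (nat_lit 223) (nat_lit 1) (nat_lit 405) (nat_lit 405) (nat_lit 330)) (XT.lf (nat_lit 532) (nat_lit 3136747788)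 (nat_lit 0) (nat_lit 142215495) (nat_lit 456) (nat_lit 142215495) (nat_lit 217) (nat_lit 1) (nat_lit 210) (nat_lit 1) (nat_lit 216) (nat_lit 1) (nat_lit 406) (nat_lit 405) (nat_lit 329))) (XT.nd (nat_lit 78) (nat_lit 456) (nat_lit 0) (XT.lf (nat_lit 76) (nat_lit 1193682546) (nat_lit 0) (nat_lit 1007151496) (nat_lit 532) (nat_lit 1193682546) (nat_lit 211) (nat_lit 1) (nat_lit 210) (nat_lit 1) (nat_lit 217) (nat_lit 1) (nat_lit 407) (nat_lit 405) (nat_lit 328)) (XT.lf (nat_lit 532) (nat_lit 1646050179) (nat_lit 0) (nat_lit 861098543) (nat_lit 456) (nat_lit 861098543) (nat_lit 211) (nat_lit 1) (nat_lit 204) (nat_lit 1) (nat_lit 210) (nat_lit 1) (nat_lit 408) (nat_lit 405) (nat_lit 327)))) (XT.nd (nat_lit 156) (nat_lit 912) (nat_lit 0) (XT.nd (nat_lit 78) (nat_lit 380) (nat_lit 0) (XT.lf (nat_lit 76) (nat_lit 454184928) (nat_lit 0) (nat_lit 2433909425) (nat_lit 532) (nat_lit 454184928) (nat_lit 205) (nat_lit 1) (nat_lit 204) (nat_lit 1) (nat_lit 211) (nat_lit 1)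 (nat_lit 409) (nat_lit 405) (nat_lit 326)) (XT.lf (nat_lit 456) (nat_lit 169141293) (nat_lit 0) (nat_lit 1573682604) (nat_lit 380) (nat_lit 1573682604) (nat_lit 205) (nat_lit 1) (nat_lit 199) (nat_lit 1) (nat_lit 204) (nat_lit 1) (nat_lit 410) (nat_lit 405) (nat_lit 325))) (XT.nd (nat_lit 78) (nat_lit 380) (nat_lit 0) (XT.lf (nat_lit 532) (nat_lit 2738021891) (nat_lit 0) (nat_lit 276525075) (nat_lit 456) (nat_lit 276525075) (nat_lit 199) (nat_lit 1) (nat_lit 192) (nat_lit 1) (nat_lit 198) (nat_lit 1) (nat_lit 411) (nat_lit 405) (nat_lit 324)) (XT.nd (nat_lit 78) (nat_lit 380) (nat_lit 0) (XT.lf (nat_lit 76) (nat_lit 994538006) (nat_lit 0) (nat_lit 1276683209) (nat_lit 532) (nat_lit 994538006) (nat_lit 193) (nat_lit 1) (nat_lit 192) (nat_lit 1) (nat_lit 199) (nat_lit 1) (nat_lit 412) (nat_lit 405) (nat_lit 323)) (XT.lf (nat_lit 456) (nat_lit 1246416114) (nat_lit 0) (nat_lit 997180962) (nat_lit 380) (nat_lit 997180962) (nat_lit 193) (nat_lit 1) (nat_lit 187) (nat_lit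 1) (nat_lit 192) (nat_lit 1) (nat_lit 413) (nat_lit 405) (nat_lit 322)))))) (XT.nd (nat_lit 312) (nat_lit 380) (nat_lit 0) (XT.nd (nat_lit 156) (nat_lit 380) (nat_lit 0) (XT.nd (nat_lit 78) (nat_lit 456) (nat_lit 0) (XT.lf (nat_lit 76) (nat_lit 255031881) (nat_lit 0) (nat_lit 2706061070) (nat_lit 456) (nat_lit 255031881) (nat_lit 188) (nat_lit 1) (nat_lit 187) (nat_lit 1) (nat_lit 193) (nat_lit 1) (nat_lit 414) (nat_lit 405) (nat_lit 321)) (XT.lf (nat_lit 76) (nat_lit 1482467365) (nat_lit 0) (nat_lit 226641393) (nat_lit 456) (nat_lit 1482467365) (nat_lit 182) (nat_lit 1) (nat_lit 181) (nat_lit 1) (nat_lit 187) (nat_lit 1) (nat_lit 415) (nat_lit 405) (nat_lit 320))) (XT.nd (nat_lit 78) (nat_lit 0) (nat_lit 0) (XT.lf (nat_lit 456) (nat_lit 2220275928) (nat_lit 0) (nat_lit 473536646) (nat_lit 380) (nat_lit 473536646) (nat_lit 182) (nat_lit 1) (nat_lit 176) (nat_lit 1) (nat_lit 181) (nat_lit 1) (nat_lit 416) (nat_lit 405) (nat_lit 319)) (XT.lf (nat_lit 76) (nat_lit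 737757232) (nat_lit 0) (nat_lit 1667794579) (nat_lit 456) (nat_lit 737757232) (nat_lit 177) (nat_lit 1) (nat_lit 176) (nat_lit 1) (nat_lit 182) (nat_lit 1) (nat_lit 417) (nat_lit 405) (nat_lit 318)))) (XT.nd (nat_lit 52338) (nat_lit 0) (nat_lit 24776) (XT.nd (nat_lit 78) (nat_lit 0) (nat_lit 0) (XT.lf (nat_lit 456) (nat_lit 734383833) (nat_lit 0) (nat_lit 1192570632) (nat_lit 380) (nat_lit 1192570632) (nat_lit 177) (nat_lit 1) (nat_lit 171) (nat_lit 1) (nat_lit 176) (nat_lit 1) (nat_lit 418) (nat_lit 405) (nat_lit 317)) (XT.lf (nat_lit 76) (nat_lit 1460853) (nat_lit 0) (nat_lit 3093190437) (nat_lit 456) (nat_lit 1460853) (nat_lit 172) (nat_lit 1) (nat_lit 171) (nat_lit 1) (nat_lit 177) (nat_lit 1) (nat_lit 419) (nat_lit 405) (nat_lit 316))) (XT.nd (nat_lit 78) (nat_lit 0) (nat_lit 0) (XT.lf (nat_lit 1900) (nat_lit 1128729358) (nat_lit 0) (nat_lit 1138168160) (nat_lit 1900) (nat_lit 1128729358) (nat_lit 522) (nat_lit 1) (nat_lit 497) (nat_lit 0) (nat_lit 522)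 (nat_lit 0) (nat_lit 328) (nat_lit 406) (nat_lit 406)) (XT.nd (nat_lit 78) (nat_lit 0) (nat_lit 76) (XT.lf (nat_lit 1900) (nat_lit 4463165588) (nat_lit 76) (nat_lit 1130680212) (nat_lit 0) (nat_lit 1130680212) (nat_lit 522) (nat_lit 1) (nat_lit 498) (nat_lit 1) (nat_lit 497) (nat_lit 0) (nat_lit 329) (nat_lit 406) (nat_lit 405)) (XT.lf (nat_lit 1900) (nat_lit 2191435548) (nat_lit 0) (nat_lit 2275656004) (nat_lit 1824) (nat_lit 2191435548) (nat_lit 523) (nat_lit 1) (nat_lit 498) (nat_lit 1) (nat_lit 522) (nat_lit 1) (nat_lit 330) (nat_lit 406) (nat_lit 404))))))))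
noncomputable def ec67 : XT := (XT.nd (nat_lit 1404) (nat_lit 7524) (nat_lit 0) (XT.nd (nat_lit 702) (nat_lit 0) (nat_lit 380) (XT.nd (nat_lit 312) (nat_lit 0) (nat_lit 152) (XT.nd (nat_lit 156) (nat_lit 0) (nat_lit 76) (XT.nd (nat_lit 78) (nat_lit 0) (nat_lit 76) (XT.lf (nat_lit 1900) (nat_lit 4289179587) (nat_lit 76) (nat_lit 1152174571) (nat_lit 0) (nat_lit 1152174571) (nat_lit 523) (nat_lit 1) (nat_lit 499) (nat_lit 1) (nat_lit 498) (nat_lit 1) (nat_lit 331) (nat_lit 406) (nat_lit 403)) (XT.lf (nat_lit 1900) (nat_lit 2084460001) (nat_lit 0) (nat_lit 2360327868) (nat_lit 1824) (nat_lit 2084460001) (nat_lit 524) (nat_lit 1) (nat_lit 499) (nat_lit 1) (nat_lit 523) (nat_lit 1) (nat_lit 332) (nat_lit 406) (nat_lit 402))) (XT.nd (nat_lit 78) (nat_lit 0) (nat_lit 76) (XT.lf (nat_lit 1900) (nat_lit 4035489976) (nat_lit 76) (nat_lit 1215216482) (nat_lit 0) (nat_lit 1215216482) (nat_lit 524) (nat_lit 1) (nat_lit 500) (nat_lit 1) (nat_lit 499) (nat_lit 1) (nat_lit 333)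 (nat_lit 406) (nat_lit 401)) (XT.lf (nat_lit 1900) (nat_lit 1938975563) (nat_lit 0) (nat_lit 2525364530) (nat_lit 1824) (nat_lit 1938975563) (nat_lit 525) (nat_lit 1) (nat_lit 500) (nat_lit 1) (nat_lit 524) (nat_lit 1) (nat_lit 334) (nat_lit 406) (nat_lit 400)))) (XT.nd (nat_lit 156) (nat_lit 0) (nat_lit 76) (XT.nd (nat_lit 78) (nat_lit 0) (nat_lit 76) (XT.lf (nat_lit 1900) (nat_lit 3706887032) (nat_lit 76) (nat_lit 1317361581) (nat_lit 0) (nat_lit 1317361581) (nat_lit 525) (nat_lit 1) (nat_lit 501) (nat_lit 1) (nat_lit 500) (nat_lit 1) (nat_lit 335) (nat_lit 406) (nat_lit 399)) (XT.lf (nat_lit 1900) (nat_lit 1757314108) (nat_lit 0) (nat_lit 2766005078) (nat_lit 1824) (nat_lit 1757314108) (nat_lit 526) (nat_lit 1) (nat_lit 501) (nat_lit 1) (nat_lit 525) (nat_lit 1) (nat_lit 336) (nat_lit 406) (nat_lit 398))) (XT.nd (nat_lit 78) (nat_lit 0) (nat_lit 76) (XT.lf (nat_lit 1900) (nat_lit 3307941778) (nat_lit 76) (nat_lit 1456276714) (nat_lit 0) (nat_lit 1456276714)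 (nat_lit 526) (nat_lit 1) (nat_lit 502) (nat_lit 1) (nat_lit 501) (nat_lit 1) (nat_lit 337) (nat_lit 406) (nat_lit 397)) (XT.nd (nat_lit 78) (nat_lit 0) (nat_lit 0) (XT.lf (nat_lit 1900) (nat_lit 1541700558) (nat_lit 0) (nat_lit 3077705633) (nat_lit 1824) (nat_lit 1541700558) (nat_lit 527) (nat_lit 1) (nat_lit 502) (nat_lit 1) (nat_lit 526) (nat_lit 1) (nat_lit 338) (nat_lit 406) (nat_lit 396)) (XT.lf (nat_lit 1900) (nat_lit 2843015150) (nat_lit 76) (nat_lit 1629735301) (nat_lit 0) (nat_lit 1629735301) (nat_lit 527) (nat_lit 1) (nat_lit 503) (nat_lit 1) (nat_lit 502) (nat_lit 1) (nat_lit 339) (nat_lit 406) (nat_lit 395)))))) (XT.nd (nat_lit 312) (nat_lit 0) (nat_lit 152) (XT.nd (nat_lit 156) (nat_lit 0) (nat_lit 76) (XT.nd (nat_lit 78) (nat_lit 0) (nat_lit 0) (XT.lf (nat_lit 1900) (nat_lit 1294257359) (nat_lit 0) (nat_lit 3456130292) (nat_lit 1824) (nat_lit 1294257359) (nat_lit 528) (nat_lit 1) (nat_lit 503) (nat_lit 1) (nat_lit 527) (nat_lit 1) (nat_lit 340)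 (nat_lit 406) (nat_lit 394)) (XT.lf (nat_lit 1900) (nat_lit 2316266792) (nat_lit 76) (nat_lit 1835612885) (nat_lit 0) (nat_lit 1835612885) (nat_lit 528) (nat_lit 1) (nat_lit 504) (nat_lit 1) (nat_lit 503) (nat_lit 1) (nat_lit 341) (nat_lit 406) (nat_lit 393))) (XT.nd (nat_lit 78) (nat_lit 0) (nat_lit 0) (XT.lf (nat_lit 1900) (nat_lit 1017008772) (nat_lit 0) (nat_lit 3897142433) (nat_lit 1824) (nat_lit 1017008772) (nat_lit 529) (nat_lit 1) (nat_lit 504) (nat_lit 1) (nat_lit 528) (nat_lit 1) (nat_lit 342) (nat_lit 406) (nat_lit 392)) (XT.lf (nat_lit 1900) (nat_lit 1731663503) (nat_lit 76) (nat_lit 2071882862) (nat_lit 0) (nat_lit 2071882862) (nat_lit 529) (nat_lit 1) (nat_lit 505) (nat_lit 1) (nat_lit 504) (nat_lit 1) (nat_lit 343) (nat_lit 406) (nat_lit 391)))) (XT.nd (nat_lit 156) (nat_lit 0) (nat_lit 76) (XT.nd (nat_lit 78) (nat_lit 0) (nat_lit 0) (XT.lf (nat_lit 1900) (nat_lit 711885000) (nat_lit 0) (nat_lit 4396796372) (nat_lit 1824) (nat_lit 711885000) (nat_lit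 530) (nat_lit 1) (nat_lit 505) (nat_lit 1) (nat_lit 529) (nat_lit 1) (nat_lit 344) (nat_lit 406) (nat_lit 390)) (XT.lf (nat_lit 1900) (nat_lit 1092987334) (nat_lit 76) (nat_lit 2336612372) (nat_lit 0) (nat_lit 2336612372) (nat_lit 530) (nat_lit 1) (nat_lit 506) (nat_lit 1) (nat_lit 505) (nat_lit 1) (nat_lit 345) (nat_lit 406) (nat_lit 389))) (XT.nd (nat_lit 78) (nat_lit 0) (nat_lit 0) (XT.lf (nat_lit 1900) (nat_lit 380726137) (nat_lit 0) (nat_lit 4951329352) (nat_lit 1824) (nat_lit 380726137) (nat_lit 531) (nat_lit 1) (nat_lit 506) (nat_lit 1) (nat_lit 530) (nat_lit 1) (nat_lit 346) (nat_lit 406) (nat_lit 388)) (XT.nd (nat_lit 78) (nat_lit 0) (nat_lit 76) (XT.lf (nat_lit 1900) (nat_lit 403843368) (nat_lit 76) (nat_lit 2627958373) (nat_lit 0) (nat_lit 2627958373) (nat_lit 531) (nat_lit 1) (nat_lit 507) (nat_lit 1) (nat_lit 506) (nat_lit 1) (nat_lit 347) (nat_lit 406) (nat_lit 387)) (XT.lf (nat_lit 1900) (nat_lit 25285971) (nat_lit 0) (nat_lit 5557153858) (nat_lit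 1824) (nat_lit 25285971) (nat_lit 532) (nat_lit 1) (nat_lit 507) (nat_lit 1) (nat_lit 531) (nat_lit 1) (nat_lit 348) (nat_lit 406) (nat_lit 386))))))) (XT.nd (nat_lit 702) (nat_lit 4408) (nat_lit 0) (XT.nd (nat_lit 312) (nat_lit 1900) (nat_lit 0) (XT.nd (nat_lit 156) (nat_lit 0) (nat_lit 76) (XT.nd (nat_lit 78) (nat_lit 0) (nat_lit 0) (XT.lf (nat_lit 1976) (nat_lit 2613988766) (nat_lit 0) (nat_lit 327974211) (nat_lit 1900) (nat_lit 2613988766) (nat_lit 508) (nat_lit 1) (nat_lit 482) (nat_lit 1) (nat_lit 507) (nat_lit 1) (nat_lit 349) (nat_lit 406) (nat_lit 385)) (XT.lf (nat_lit 1976) (nat_lit 4804250515) (nat_lit 76) (nat_lit 350443561) (nat_lit 0) (nat_lit 350443561) (nat_lit 508) (nat_lit 1) (nat_lit 483) (nat_lit 1) (nat_lit 482) (nat_lit 1) (nat_lit 350) (nat_lit 406) (nat_lit 384))) (XT.nd (nat_lit 78) (nat_lit 0) (nat_lit 0) (XT.lf (nat_lit 1976) (nat_lit 2178507821) (nat_lit 0) (nat_lit 1097680396) (nat_lit 1900) (nat_lit 2178507821) (nat_lit 509) (nat_lit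 1) (nat_lit 483) (nat_lit 1) (nat_lit 508) (nat_lit 1) (nat_lit 351) (nat_lit 406) (nat_lit 383)) (XT.lf (nat_lit 1976) (nat_lit 3911328500) (nat_lit 76) (nat_lit 746886696) (nat_lit 0) (nat_lit 746886696) (nat_lit 509) (nat_lit 1) (nat_lit 484) (nat_lit 1) (nat_lit 483) (nat_lit 1) (nat_lit 352) (nat_lit 406) (nat_lit 382)))) (XT.nd (nat_lit 156) (nat_lit 912) (nat_lit 0) (XT.nd (nat_lit 78) (nat_lit 1140) (nat_lit 0) (XT.lf (nat_lit 76) (nat_lit 1724238741) (nat_lit 0) (nat_lit 1907494797) (nat_lit 1900) (nat_lit 1724238741) (nat_lit 485) (nat_lit 1) (nat_lit 484) (nat_lit 1) (nat_lit 509) (nat_lit 1) (nat_lit 353) (nat_lit 406) (nat_lit 381)) (XT.lf (nat_lit 1216) (nat_lit 2982152668) (nat_lit 0) (nat_lit 1162703630) (nat_lit 1140) (nat_lit 1162703630) (nat_lit 485) (nat_lit 1) (nat_lit 469) (nat_lit 1) (nat_lit 484) (nat_lit 1) (nat_lit 354) (nat_lit 406) (nat_lit 380))) (XT.nd (nat_lit 78) (nat_lit 912) (nat_lit 0) (XT.lf (nat_lit 76) (nat_lit 1252611060)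 (nat_lit 0) (nat_lit 2754487475) (nat_lit 1216) (nat_lit 1252611060) (nat_lit 470) (nat_lit 1) (nat_lit 469) (nat_lit 1) (nat_lit 485) (nat_lit 1) (nat_lit 355) (nat_lit 406) (nat_lit 379)) (XT.nd (nat_lit 78) (nat_lit 0) (nat_lit 0) (XT.lf (nat_lit 988) (nat_lit 2019521526) (nat_lit 0) (nat_lit 1596460327) (nat_lit 912) (nat_lit 1596460327) (nat_lit 470) (nat_lit 1) (nat_lit 457) (nat_lit 1) (nat_lit 469) (nat_lit 1) (nat_lit 356) (nat_lit 406) (nat_lit 378)) (XT.lf (nat_lit 76) (nat_lit 764985078) (nat_lit 0) (nat_lit 3635869178) (nat_lit 988) (nat_lit 764985078) (nat_lit 458) (nat_lit 1) (nat_lit 457) (nat_lit 1) (nat_lit 470) (nat_lit 1) (nat_lit 357) (nat_lit 406) (nat_lit 377)))))) (XT.nd (nat_lit 312) (nat_lit 1672) (nat_lit 0) (XT.nd (nat_lit 156) (nat_lit 1824) (nat_lit 0) (XT.nd (nat_lit 78) (nat_lit 0) (nat_lit 0) (XT.lf (nat_lit 988) (nat_lit 1026097643) (nat_lit 0) (nat_lit 2046791803) (nat_lit 912) (nat_lit 2046791803) (nat_lit 458) (nat_lit 1)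 (nat_lit 445) (nat_lit 1) (nat_lit 457) (nat_lit 1) (nat_lit 358) (nat_lit 406) (nat_lit 376)) (XT.lf (nat_lit 76) (nat_lit 262654816) (nat_lit 0) (nat_lit 4548985346) (nat_lit 988) (nat_lit 262654816) (nat_lit 446) (nat_lit 1) (nat_lit 445) (nat_lit 1) (nat_lit 458) (nat_lit 1) (nat_lit 359) (nat_lit 406) (nat_lit 375))) (XT.nd (nat_lit 78) (nat_lit 988) (nat_lit 0) (XT.lf (nat_lit 912) (nat_lit 4413460) (nat_lit 0) (nat_lit 2512399181) (nat_lit 836) (nat_lit 2512399181) (nat_lit 446) (nat_lit 1) (nat_lit 434) (nat_lit 1) (nat_lit 445) (nat_lit 1) (nat_lit 360) (nat_lit 406) (nat_lit 374)) (XT.lf (nat_lit 988) (nat_lit 4481912768) (nat_lit 0) (nat_lit 251483689) (nat_lit 912) (nat_lit 251483689) (nat_lit 434) (nat_lit 1) (nat_lit 421) (nat_lit 1) (nat_lit 433) (nat_lit 1) (nat_lit 361) (nat_lit 406) (nat_lit 373)))) (XT.nd (nat_lit 156) (nat_lit 836) (nat_lit 0) (XT.nd (nat_lit 78) (nat_lit 836) (nat_lit 0) (XT.lf (nat_lit 76) (nat_lit 1955696394) (nat_lit 0)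 (nat_lit 1029442377) (nat_lit 988) (nat_lit 1955696394) (nat_lit 422) (nat_lit 1) (nat_lit 421) (nat_lit 1) (nat_lit 434) (nat_lit 1) (nat_lit 362) (nat_lit 406) (nat_lit 372)) (XT.lf (nat_lit 912) (nat_lit 3345286828) (nat_lit 0) (nat_lit 776117093) (nat_lit 836) (nat_lit 776117093) (nat_lit 422) (nat_lit 1) (nat_lit 410) (nat_lit 1) (nat_lit 421) (nat_lit 1) (nat_lit 363) (nat_lit 406) (nat_lit 371))) (XT.nd (nat_lit 78) (nat_lit 836) (nat_lit 0) (XT.lf (nat_lit 76) (nat_lit 1384063384) (nat_lit 0) (nat_lit 2086494998) (nat_lit 912) (nat_lit 1384063384) (nat_lit 411) (nat_lit 1) (nat_lit 410) (nat_lit 1) (nat_lit 422) (nat_lit 1) (nat_lit 364) (nat_lit 406) (nat_lit 370)) (XT.nd (nat_lit 78) (nat_lit 0) (nat_lit 0) (XT.lf (nat_lit 912) (nat_lit 2188556630) (nat_lit 0) (nat_lit 1311868945) (nat_lit 836) (nat_lit 1311868945) (nat_lit 411) (nat_lit 1) (nat_lit 399) (nat_lit 1) (nat_lit 410) (nat_lit 1) (nat_lit 365) (nat_lit 406) (nat_lit 369)) (XT.lf (nat_lit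 76) (nat_lit 802928430) (nat_lit 0) (nat_lit 3164656172) (nat_lit 912) (nat_lit 802928430) (nat_lit 400) (nat_lit 1) (nat_lit 399) (nat_lit 1) (nat_lit 411) (nat_lit 1) (nat_lit 366) (nat_lit 406) (nat_lit 368))))))))
noncomputable def ec68 : XT := (XT.nd (nat_lit 1404) (nat_lit 5548) (nat_lit 0) (XT.nd (nat_lit 702) (nat_lit 4028) (nat_lit 0) (XT.nd (nat_lit 312) (nat_lit 1444) (nat_lit 0) (XT.nd (nat_lit 156) (nat_lit 1596) (nat_lit 0) (XT.nd (nat_lit 78) (nat_lit 0) (nat_lit 0) (XT.lf (nat_lit 836) (nat_lit 1013762470) (nat_lit 0) (nat_lit 1857690040) (nat_lit 760) (nat_lit 1857690040) (nat_lit 400) (nat_lit 1) (nat_lit 389) (nat_lit 1) (nat_lit 399) (nat_lit 1) (nat_lit 367) (nat_lit 406) (nat_lit 367)) (XT.lf (nat_lit 76) (nat_lit 213282057) (nat_lit 0) (nat_lit 4261887500) (nat_lit 836) (nat_lit 213282057) (nat_lit 390) (nat_lit 1) (nat_lit 389) (nat_lit 1) (nat_lit 400) (nat_lit 1) (nat_lit 368) (nat_lit 406) (nat_lit 366))) (XT.nd (nat_lit 78) (nat_lit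 760) (nat_lit 0) (XT.lf (nat_lit 76) (nat_lit 2236574976) (nat_lit 0) (nat_lit 174835804) (nat_lit 836) (nat_lit 2236574976) (nat_lit 379) (nat_lit 1) (nat_lit 378) (nat_lit 1) (nat_lit 389) (nat_lit 1) (nat_lit 369) (nat_lit 406) (nat_lit 365)) (XT.lf (nat_lit 836) (nat_lit 3845361885) (nat_lit 0) (nat_lit 381409966) (nat_lit 760) (nat_lit 381409966) (nat_lit 379) (nat_lit 1) (nat_lit 368) (nat_lit 1) (nat_lit 378) (nat_lit 1) (nat_lit 370) (nat_lit 406) (nat_lit 364)))) (XT.nd (nat_lit 156) (nat_lit 684) (nat_lit 0) (XT.nd (nat_lit 78) (nat_lit 760) (nat_lit 0) (XT.lf (nat_lit 76) (nat_lit 1602208707) (nat_lit 0) (nat_lit 1364241603) (nat_lit 836) (nat_lit 1602208707) (nat_lit 369) (nat_lit 1) (nat_lit 368) (nat_lit 1) (nat_lit 379) (nat_lit 1) (nat_lit 371) (nat_lit 406) (nat_lit 363)) (XT.lf (nat_lit 836) (nat_lit 2567065210) (nat_lit 0) (nat_lit 981334989) (nat_lit 760) (nat_lit 981334989) (nat_lit 369) (nat_lit 1) (nat_lit 358) (nat_lit 1) (nat_lit 368)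 (nat_lit 1) (nat_lit 372) (nat_lit 406) (nat_lit 362))) (XT.nd (nat_lit 78) (nat_lit 684) (nat_lit 0) (XT.lf (nat_lit 76) (nat_lit 962604837) (nat_lit 0) (nat_lit 2566031554) (nat_lit 836) (nat_lit 962604837) (nat_lit 359) (nat_lit 1) (nat_lit 358) (nat_lit 1) (nat_lit 369) (nat_lit 1) (nat_lit 373) (nat_lit 406) (nat_lit 361)) (XT.nd (nat_lit 78) (nat_lit 0) (nat_lit 0) (XT.lf (nat_lit 760) (nat_lit 1279057756) (nat_lit 0) (nat_lit 1587056640) (nat_lit 684) (nat_lit 1587056640) (nat_lit 359) (nat_lit 1) (nat_lit 349) (nat_lit 1) (nat_lit 358) (nat_lit 1) (nat_lit 374) (nat_lit 406) (nat_lit 360)) (XT.lf (nat_lit 76) (nat_lit 318552451) (nat_lit 0) (nat_lit 3778576329) (nat_lit 760) (nat_lit 318552451) (nat_lit 350) (nat_lit 1) (nat_lit 349) (nat_lit 1) (nat_lit 359) (nat_lit 1) (nat_lit 375) (nat_lit 406) (nat_lit 359)))))) (XT.nd (nat_lit 312) (nat_lit 1900) (nat_lit 0) (XT.nd (nat_lit 156) (nat_lit 684) (nat_lit 0) (XT.nd (nat_lit 78) (nat_lit 684) (nat_lit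 0) (XT.lf (nat_lit 76) (nat_lit 2180770847) (nat_lit 0) (nat_lit 16895168) (nat_lit 760) (nat_lit 2180770847) (nat_lit 340) (nat_lit 1) (nat_lit 339) (nat_lit 1) (nat_lit 349) (nat_lit 1) (nat_lit 376) (nat_lit 406) (nat_lit 358)) (XT.lf (nat_lit 760) (nat_lit 3687686450) (nat_lit 0) (nat_lit 327035693) (nat_lit 684) (nat_lit 327035693) (nat_lit 340) (nat_lit 1) (nat_lit 330) (nat_lit 1) (nat_lit 339) (nat_lit 1) (nat_lit 377) (nat_lit 406) (nat_lit 357))) (XT.nd (nat_lit 78) (nat_lit 684) (nat_lit 0) (XT.lf (nat_lit 76) (nat_lit 1501311144) (nat_lit 0) (nat_lit 1302696861) (nat_lit 760) (nat_lit 1501311144) (nat_lit 331) (nat_lit 1) (nat_lit 330) (nat_lit 1) (nat_lit 340) (nat_lit 1) (nat_lit 378) (nat_lit 406) (nat_lit 356)) (XT.lf (nat_lit 760) (nat_lit 2322420383) (nat_lit 0) (nat_lit 973503258) (nat_lit 684) (nat_lit 973503258) (nat_lit 331) (nat_lit 1) (nat_lit 321) (nat_lit 1) (nat_lit 330) (nat_lit 1) (nat_lit 379) (nat_lit 406) (nat_lit 355)))) (XT.nd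 (nat_lit 156) (nat_lit 1292) (nat_lit 0) (XT.nd (nat_lit 78) (nat_lit 608) (nat_lit 0) (XT.lf (nat_lit 76) (nat_lit 820087751) (nat_lit 0) (nat_lit 2593761342) (nat_lit 760) (nat_lit 820087751) (nat_lit 322) (nat_lit 1) (nat_lit 321) (nat_lit 1) (nat_lit 331) (nat_lit 1) (nat_lit 380) (nat_lit 406) (nat_lit 354)) (XT.lf (nat_lit 684) (nat_lit 954243754) (nat_lit 0) (nat_lit 1622282164) (nat_lit 608) (nat_lit 1622282164) (nat_lit 322) (nat_lit 1) (nat_lit 313) (nat_lit 1) (nat_lit 321) (nat_lit 1) (nat_lit 381) (nat_lit 406) (nat_lit 353))) (XT.nd (nat_lit 78) (nat_lit 1292) (nat_lit 0) (XT.lf (nat_lit 76) (nat_lit 137721076) (nat_lit 0) (nat_lit 3888802054) (nat_lit 684) (nat_lit 137721076) (nat_lit 314) (nat_lit 1) (nat_lit 313) (nat_lit 1) (nat_lit 322) (nat_lit 1) (nat_lit 382) (nat_lit 406) (nat_lit 352)) (XT.nd (nat_lit 78) (nat_lit 608) (nat_lit 0) (XT.lf (nat_lit 76) (nat_lit 1859809853) (nat_lit 0) (nat_lit 410182725) (nat_lit 684) (nat_lit 1859809853)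 (nat_lit 305) (nat_lit 1) (nat_lit 304) (nat_lit 1) (nat_lit 313) (nat_lit 1) (nat_lit 383) (nat_lit 406) (nat_lit 351)) (XT.lf (nat_lit 684) (nat_lit 3012679656) (nat_lit 0) (nat_lit 541616524) (nat_lit 608) (nat_lit 541616524) (nat_lit 305) (nat_lit 1) (nat_lit 296) (nat_lit 1) (nat_lit 304) (nat_lit 1) (nat_lit 384) (nat_lit 406) (nat_lit 350))))))) (XT.nd (nat_lit 702) (nat_lit 2660) (nat_lit 0) (XT.nd (nat_lit 312) (nat_lit 1748) (nat_lit 0) (XT.nd (nat_lit 156) (nat_lit 532) (nat_lit 0) (XT.nd (nat_lit 78) (nat_lit 608) (nat_lit 0) (XT.lf (nat_lit 76) (nat_lit 1149824828) (nat_lit 0) (nat_lit 1762646620) (nat_lit 684) (nat_lit 1149824828) (nat_lit 297) (nat_lit 1) (nat_lit 296) (nat_lit 1) (nat_lit 305) (nat_lit 1) (nat_lit 385) (nat_lit 406) (nat_lit 349)) (XT.lf (nat_lit 684) (nat_lit 1589004276) (nat_lit 0) (nat_lit 1220053668) (nat_lit 608) (nat_lit 1220053668) (nat_lit 297) (nat_lit 1) (nat_lit 288) (nat_lit 1) (nat_lit 296) (nat_lit 1) (nat_lit 386)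 (nat_lit 406) (nat_lit 348))) (XT.nd (nat_lit 78) (nat_lit 532) (nat_lit 0) (XT.lf (nat_lit 76) (nat_lit 440884956) (nat_lit 0) (nat_lit 3114601381) (nat_lit 684) (nat_lit 440884956) (nat_lit 289) (nat_lit 1) (nat_lit 288) (nat_lit 1) (nat_lit 297) (nat_lit 1) (nat_lit 387) (nat_lit 406) (nat_lit 347)) (XT.lf (nat_lit 608) (nat_lit 167912091) (nat_lit 0) (nat_lit 1897979534) (nat_lit 532) (nat_lit 1897979534) (nat_lit 289) (nat_lit 1) (nat_lit 281) (nat_lit 1) (nat_lit 288) (nat_lit 1) (nat_lit 388) (nat_lit 406) (nat_lit 346)))) (XT.nd (nat_lit 156) (nat_lit 1064) (nat_lit 0) (XT.nd (nat_lit 78) (nat_lit 0) (nat_lit 0) (XT.lf (nat_lit 684) (nat_lit 3402294035) (nat_lit 0) (nat_lit 264776770) (nat_lit 608) (nat_lit 264776770) (nat_lit 281) (nat_lit 1) (nat_lit 272) (nat_lit 1) (nat_lit 280) (nat_lit 1) (nat_lit 389) (nat_lit 406) (nat_lit 345)) (XT.lf (nat_lit 76) (nat_lit 1333357210) (nat_lit 0) (nat_lit 1233274310) (nat_lit 684) (nat_lit 1333357210) (nat_lit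 273) (nat_lit 1) (nat_lit 272) (nat_lit 1) (nat_lit 281) (nat_lit 1) (nat_lit 390) (nat_lit 406) (nat_lit 344))) (XT.nd (nat_lit 78) (nat_lit 532) (nat_lit 0) (XT.lf (nat_lit 608) (nat_lit 1937444289) (nat_lit 0) (nat_lit 965575594) (nat_lit 532) (nat_lit 965575594) (nat_lit 273) (nat_lit 1) (nat_lit 265) (nat_lit 1) (nat_lit 272) (nat_lit 1) (nat_lit 391) (nat_lit 406) (nat_lit 343)) (XT.nd (nat_lit 78) (nat_lit 532) (nat_lit 0) (XT.lf (nat_lit 76) (nat_lit 604821407) (nat_lit 0) (nat_lit 2627923380) (nat_lit 608) (nat_lit 604821407) (nat_lit 266) (nat_lit 1) (nat_lit 265) (nat_lit 1) (nat_lit 273) (nat_lit 1) (nat_lit 392) (nat_lit 406) (nat_lit 342)) (XT.lf (nat_lit 608) (nat_lit 478822988) (nat_lit 0) (nat_lit 1663991670) (nat_lit 532) (nat_lit 1663991670) (nat_lit 266) (nat_lit 1) (nat_lit 258) (nat_lit 1) (nat_lit 265) (nat_lit 1) (nat_lit 393) (nat_lit 406) (nat_lit 341)))))) (XT.nd (nat_lit 312) (nat_lit 1520) (nat_lit 0) (XT.nd (nat_lit 156) (nat_lit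 532) (nat_lit 0) (XT.nd (nat_lit 78) (nat_lit 0) (nat_lit 0) (XT.lf (nat_lit 608) (nat_lit 3537271076) (nat_lit 0) (nat_lit 119626794) (nat_lit 532) (nat_lit 119626794) (nat_lit 258) (nat_lit 1) (nat_lit 250) (nat_lit 1) (nat_lit 257) (nat_lit 1) (nat_lit 394) (nat_lit 406) (nat_lit 340)) (XT.lf (nat_lit 76) (nat_lit 1393128322) (nat_lit 0) (nat_lit 960059830) (nat_lit 608) (nat_lit 1393128322) (nat_lit 251) (nat_lit 1) (nat_lit 250) (nat_lit 1) (nat_lit 258) (nat_lit 1) (nat_lit 395) (nat_lit 406) (nat_lit 339))) (XT.nd (nat_lit 78) (nat_lit 0) (nat_lit 0) (XT.lf (nat_lit 608) (nat_lit 2043651805) (nat_lit 0) (nat_lit 836462475) (nat_lit 532) (nat_lit 836462475) (nat_lit 251) (nat_lit 1) (nat_lit 243) (nat_lit 1) (nat_lit 250) (nat_lit 1) (nat_lit 396) (nat_lit 406) (nat_lit 338)) (XT.lf (nat_lit 76) (nat_lit 651036863) (nat_lit 0) (nat_lit 2385081067) (nat_lit 608) (nat_lit 651036863) (nat_lit 244) (nat_lit 1) (nat_lit 243) (nat_lit 1) (nat_lit 251) (nat_lit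 1) (nat_lit 397) (nat_lit 406) (nat_lit 337)))) (XT.nd (nat_lit 156) (nat_lit 456) (nat_lit 0) (XT.nd (nat_lit 78) (nat_lit 608) (nat_lit 0) (XT.lf (nat_lit 532) (nat_lit 559345072) (nat_lit 0) (nat_lit 1549328494) (nat_lit 456) (nat_lit 1549328494) (nat_lit 244) (nat_lit 1) (nat_lit 237) (nat_lit 1) (nat_lit 243) (nat_lit 1) (nat_lit 398) (nat_lit 406) (nat_lit 336)) (XT.lf (nat_lit 608) (nat_lit 3457913841) (nat_lit 0) (nat_lit 85694759) (nat_lit 532) (nat_lit 85694759) (nat_lit 237) (nat_lit 1) (nat_lit 229) (nat_lit 1) (nat_lit 236) (nat_lit 1) (nat_lit 399) (nat_lit 406) (nat_lit 335))) (XT.nd (nat_lit 78) (nat_lit 456) (nat_lit 0) (XT.lf (nat_lit 76) (nat_lit 1348796084) (nat_lit 0) (nat_lit 903054979) (nat_lit 608) (nat_lit 1348796084) (nat_lit 230) (nat_lit 1) (nat_lit 229) (nat_lit 1) (nat_lit 237) (nat_lit 1) (nat_lit 400) (nat_lit 406) (nat_lit 334)) (XT.nd (nat_lit 78) (nat_lit 0) (nat_lit 0) (XT.lf (nat_lit 532) (nat_lit 1946237613) (nat_lit 0) (nat_lit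 813099358) (nat_lit 456) (nat_lit 813099358) (nat_lit 230) (nat_lit 1) (nat_lit 223) (nat_lit 1) (nat_lit 229) (nat_lit 1) (nat_lit 401) (nat_lit 406) (nat_lit 333)) (XT.lf (nat_lit 76) (nat_lit 598363254) (nat_lit 0) (nat_lit 2347799431) (nat_lit 532) (nat_lit 598363254) (nat_lit 224) (nat_lit 1) (nat_lit 223) (nat_lit 1) (nat_lit 230) (nat_lit 1) (nat_lit 402) (nat_lit 406) (nat_lit 332))))))))
noncomputable def ec69 : XT := (XT.nd (nat_lit 53508) (nat_lit 0) (nat_lit 25232) (XT.nd (nat_lit 702) (nat_lit 1596) (nat_lit 0) (XT.nd (nat_lit 312) (nat_lit 1292) (nat_lit 0) (XT.nd (nat_lit 156) (nat_lit 456) (nat_lit 0) (XT.nd (nat_lit 78) (nat_lit 532) (nat_lit 0) (XT.lf (nat_lit 532) (nat_lit 446465653) (nat_lit 0) (nat_lit 1535197148) (nat_lit 456) (nat_lit 1535197148) (nat_lit 224) (nat_lit 1) (nat_lit 217) (nat_lit 1) (nat_lit 223) (nat_lit 1) (nat_lit 403) (nat_lit 406) (nat_lit 331)) (XT.lf (nat_lit 532) (nat_lit 3199482744) (nat_lit 0) (nat_lit 145059805)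 (nat_lit 456) (nat_lit 145059805) (nat_lit 217) (nat_lit 1) (nat_lit 210) (nat_lit 1) (nat_lit 216) (nat_lit 1) (nat_lit 404) (nat_lit 406) (nat_lit 330))) (XT.nd (nat_lit 78) (nat_lit 456) (nat_lit 0) (XT.lf (nat_lit 76) (nat_lit 1217556197) (nat_lit 0) (nat_lit 1027294526) (nat_lit 532) (nat_lit 1217556197) (nat_lit 211) (nat_lit 1) (nat_lit 210) (nat_lit 1) (nat_lit 217) (nat_lit 1) (nat_lit 405) (nat_lit 406) (nat_lit 329)) (XT.lf (nat_lit 532) (nat_lit 1678971182) (nat_lit 0) (nat_lit 878320514) (nat_lit 456) (nat_lit 878320514) (nat_lit 211) (nat_lit 1) (nat_lit 204) (nat_lit 1) (nat_lit 210) (nat_lit 1) (nat_lit 406) (nat_lit 406) (nat_lit 328)))) (XT.nd (nat_lit 156) (nat_lit 912) (nat_lit 0) (XT.nd (nat_lit 78) (nat_lit 380) (nat_lit 0) (XT.lf (nat_lit 76) (nat_lit 463268627) (nat_lit 0) (nat_lit 2482587613) (nat_lit 532) (nat_lit 463268627) (nat_lit 205) (nat_lit 1) (nat_lit 204) (nat_lit 1) (nat_lit 211) (nat_lit 1) (nat_lit 407) (nat_lit 406) (nat_lit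 327)) (XT.lf (nat_lit 456) (nat_lit 172524119) (nat_lit 0) (nat_lit 1605156256) (nat_lit 380) (nat_lit 1605156256) (nat_lit 205) (nat_lit 1) (nat_lit 199) (nat_lit 1) (nat_lit 204) (nat_lit 1) (nat_lit 408) (nat_lit 406) (nat_lit 326))) (XT.nd (nat_lit 78) (nat_lit 380) (nat_lit 0) (XT.lf (nat_lit 532) (nat_lit 2792782329) (nat_lit 0) (nat_lit 282055576) (nat_lit 456) (nat_lit 282055576) (nat_lit 199) (nat_lit 1) (nat_lit 192) (nat_lit 1) (nat_lit 198) (nat_lit 1) (nat_lit 409) (nat_lit 406) (nat_lit 325)) (XT.nd (nat_lit 78) (nat_lit 380) (nat_lit 0) (XT.lf (nat_lit 76) (nat_lit 1014428766) (nat_lit 0) (nat_lit 1302216873) (nat_lit 532) (nat_lit 1014428766) (nat_lit 193) (nat_lit 1) (nat_lit 192) (nat_lit 1) (nat_lit 199) (nat_lit 1) (nat_lit 410) (nat_lit 406) (nat_lit 324)) (XT.lf (nat_lit 456) (nat_lit 1271344436) (nat_lit 0) (nat_lit 1017124582) (nat_lit 380) (nat_lit 1017124582) (nat_lit 193) (nat_lit 1) (nat_lit 187) (nat_lit 1) (nat_lit 192) (nat_lit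 1) (nat_lit 411) (nat_lit 406) (nat_lit 323)))))) (XT.nd (nat_lit 312) (nat_lit 760) (nat_lit 0) (XT.nd (nat_lit 156) (nat_lit 380) (nat_lit 0) (XT.nd (nat_lit 78) (nat_lit 456) (nat_lit 0) (XT.lf (nat_lit 76) (nat_lit 260132519) (nat_lit 0) (nat_lit 2760182291) (nat_lit 456) (nat_lit 260132519) (nat_lit 188) (nat_lit 1) (nat_lit 187) (nat_lit 1) (nat_lit 193) (nat_lit 1) (nat_lit 412) (nat_lit 406) (nat_lit 322)) (XT.lf (nat_lit 76) (nat_lit 1512116712) (nat_lit 0) (nat_lit 231174221) (nat_lit 456) (nat_lit 1512116712) (nat_lit 182) (nat_lit 1) (nat_lit 181) (nat_lit 1) (nat_lit 187) (nat_lit 1) (nat_lit 413) (nat_lit 406) (nat_lit 321))) (XT.nd (nat_lit 78) (nat_lit 0) (nat_lit 0) (XT.lf (nat_lit 456) (nat_lit 2264681446) (nat_lit 0) (nat_lit 483007379) (nat_lit 380) (nat_lit 483007379) (nat_lit 182) (nat_lit 1) (nat_lit 176) (nat_lit 1) (nat_lit 181) (nat_lit 1) (nat_lit 414) (nat_lit 406) (nat_lit 320)) (XT.lf (nat_lit 76) (nat_lit 752512376) (nat_lit 0)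 (nat_lit 1701150470) (nat_lit 456) (nat_lit 752512376) (nat_lit 177) (nat_lit 1) (nat_lit 176) (nat_lit 1) (nat_lit 182) (nat_lit 1) (nat_lit 415) (nat_lit 406) (nat_lit 319)))) (XT.nd (nat_lit 156) (nat_lit 380) (nat_lit 0) (XT.nd (nat_lit 78) (nat_lit 0) (nat_lit 0) (XT.lf (nat_lit 456) (nat_lit 749071510) (nat_lit 0) (nat_lit 1216422045) (nat_lit 380) (nat_lit 1216422045) (nat_lit 177) (nat_lit 1) (nat_lit 171) (nat_lit 1) (nat_lit 176) (nat_lit 1) (nat_lit 416) (nat_lit 406) (nat_lit 318)) (XT.lf (nat_lit 76) (nat_lit 1490070) (nat_lit 0) (nat_lit 3155054245) (nat_lit 456) (nat_lit 1490070) (nat_lit 172) (nat_lit 1) (nat_lit 171) (nat_lit 1) (nat_lit 177) (nat_lit 1) (nat_lit 417) (nat_lit 406) (nat_lit 317))) (XT.nd (nat_lit 52182) (nat_lit 0) (nat_lit 25156) (XT.lf (nat_lit 76) (nat_lit 1197352311) (nat_lit 0) (nat_lit 739412518) (nat_lit 380) (nat_lit 1197352311) (nat_lit 167) (nat_lit 1) (nat_lit 166) (nat_lit 1) (nat_lit 171) (nat_lit 1) (nat_lit 418)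 (nat_lit 406) (nat_lit 316)) (XT.nd (nat_lit 78) (nat_lit 0) (nat_lit 0) (XT.lf (nat_lit 1900) (nat_lit 1151303945) (nat_lit 0) (nat_lit 1160931524) (nat_lit 1900) (nat_lit 1151303945) (nat_lit 522) (nat_lit 1) (nat_lit 497) (nat_lit 0) (nat_lit 522) (nat_lit 0) (nat_lit 326) (nat_lit 407) (nat_lit 407)) (XT.lf (nat_lit 1900) (nat_lit 4552428900) (nat_lit 76) (nat_lit 1153293816) (nat_lit 0) (nat_lit 1153293816) (nat_lit 522) (nat_lit 1) (nat_lit 498) (nat_lit 1) (nat_lit 497) (nat_lit 0) (nat_lit 327) (nat_lit 407) (nat_lit 406))))))) (XT.nd (nat_lit 702) (nat_lit 0) (nat_lit 304) (XT.nd (nat_lit 312) (nat_lit 0) (nat_lit 152) (XT.nd (nat_lit 156) (nat_lit 0) (nat_lit 76) (XT.nd (nat_lit 78) (nat_lit 0) (nat_lit 0) (XT.lf (nat_lit 1900) (nat_lit 2235264259) (nat_lit 0) (nat_lit 2321169124) (nat_lit 1824) (nat_lit 2235264259) (nat_lit 523) (nat_lit 1) (nat_lit 498) (nat_lit 1) (nat_lit 522) (nat_lit 1) (nat_lit 328) (nat_lit 407) (nat_lit 405)) (XT.lf (nat_lit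 1900) (nat_lit 4374963179) (nat_lit 76) (nat_lit 1175218062) (nat_lit 0) (nat_lit 1175218062) (nat_lit 523) (nat_lit 1) (nat_lit 499) (nat_lit 1) (nat_lit 498) (nat_lit 1) (nat_lit 329) (nat_lit 407) (nat_lit 404))) (XT.nd (nat_lit 78) (nat_lit 0) (nat_lit 0) (XT.lf (nat_lit 1900) (nat_lit 2126149201) (nat_lit 0) (nat_lit 2407534425) (nat_lit 1824) (nat_lit 2126149201) (nat_lit 524) (nat_lit 1) (nat_lit 499) (nat_lit 1) (nat_lit 523) (nat_lit 1) (nat_lit 330) (nat_lit 407) (nat_lit 403)) (XT.lf (nat_lit 1900) (nat_lit 4116199776) (nat_lit 76) (nat_lit 1239520812) (nat_lit 0) (nat_lit 1239520812) (nat_lit 524) (nat_lit 1) (nat_lit 500) (nat_lit 1) (nat_lit 499) (nat_lit 1) (nat_lit 331) (nat_lit 407) (nat_lit 402)))) (XT.nd (nat_lit 156) (nat_lit 0) (nat_lit 76) (XT.nd (nat_lit 78) (nat_lit 0) (nat_lit 0) (XT.lf (nat_lit 1900) (nat_lit 1977755074) (nat_lit 0) (nat_lit 2575871821) (nat_lit 1824) (nat_lit 1977755074) (nat_lit 525) (nat_lit 1) (nat_lit 500) (nat_lit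 1) (nat_lit 524) (nat_lit 1) (nat_lit 332) (nat_lit 407) (nat_lit 401)) (XT.lf (nat_lit 1900) (nat_lit 3781024773) (nat_lit 76) (nat_lit 1343708813) (nat_lit 0) (nat_lit 1343708813) (nat_lit 525) (nat_lit 1) (nat_lit 501) (nat_lit 1) (nat_lit 500) (nat_lit 1) (nat_lit 333) (nat_lit 407) (nat_lit 400))) (XT.nd (nat_lit 78) (nat_lit 0) (nat_lit 0) (XT.lf (nat_lit 1900) (nat_lit 1792460390) (nat_lit 0) (nat_lit 2821325179) (nat_lit 1824) (nat_lit 1792460390) (nat_lit 526) (nat_lit 1) (nat_lit 501) (nat_lit 1) (nat_lit 525) (nat_lit 1) (nat_lit 334) (nat_lit 407) (nat_lit 399)) (XT.nd (nat_lit 78) (nat_lit 0) (nat_lit 76) (XT.lf (nat_lit 1900) (nat_lit 3374100614) (nat_lit 76) (nat_lit 1485402248) (nat_lit 0) (nat_lit 1485402248) (nat_lit 526) (nat_lit 1) (nat_lit 502) (nat_lit 1) (nat_lit 501) (nat_lit 1) (nat_lit 335) (nat_lit 407) (nat_lit 398)) (XT.lf (nat_lit 1900) (nat_lit 1572534569) (nat_lit 0) (nat_lit 3139259745) (nat_lit 1824) (nat_lit 1572534569) (nat_lit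 527) (nat_lit 1) (nat_lit 502) (nat_lit 1) (nat_lit 526) (nat_lit 1) (nat_lit 336) (nat_lit 407) (nat_lit 397)))))) (XT.nd (nat_lit 312) (nat_lit 0) (nat_lit 152) (XT.nd (nat_lit 156) (nat_lit 0) (nat_lit 76) (XT.nd (nat_lit 78) (nat_lit 0) (nat_lit 76) (XT.lf (nat_lit 1900) (nat_lit 2899875453) (nat_lit 76) (nat_lit 1662330007) (nat_lit 0) (nat_lit 1662330007) (nat_lit 527) (nat_lit 1) (nat_lit 503) (nat_lit 1) (nat_lit 502) (nat_lit 1) (nat_lit 337) (nat_lit 407) (nat_lit 396)) (XT.lf (nat_lit 1900) (nat_lit 1320142506) (nat_lit 0) (nat_lit 3525252898) (nat_lit 1824) (nat_lit 1320142506) (nat_lit 528) (nat_lit 1) (nat_lit 503) (nat_lit 1) (nat_lit 527) (nat_lit 1) (nat_lit 338) (nat_lit 407) (nat_lit 395))) (XT.nd (nat_lit 78) (nat_lit 0) (nat_lit 76) (XT.lf (nat_lit 1900) (nat_lit 2362592128) (nat_lit 76) (nat_lit 1872325143) (nat_lit 0) (nat_lit 1872325143) (nat_lit 528) (nat_lit 1) (nat_lit 504) (nat_lit 1) (nat_lit 503) (nat_lit 1) (nat_lit 339) (nat_lit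 407) (nat_lit 394)) (XT.lf (nat_lit 1900) (nat_lit 1037348948) (nat_lit 0) (nat_lit 3975085282) (nat_lit 1824) (nat_lit 1037348948) (nat_lit 529) (nat_lit 1) (nat_lit 504) (nat_lit 1) (nat_lit 528) (nat_lit 1) (nat_lit 340) (nat_lit 407) (nat_lit 393)))) (XT.nd (nat_lit 156) (nat_lit 0) (nat_lit 76) (XT.nd (nat_lit 78) (nat_lit 0) (nat_lit 76) (XT.lf (nat_lit 1900) (nat_lit 1766296773) (nat_lit 76) (nat_lit 2113320519) (nat_lit 0) (nat_lit 2113320519) (nat_lit 529) (nat_lit 1) (nat_lit 505) (nat_lit 1) (nat_lit 504) (nat_lit 1) (nat_lit 341) (nat_lit 407) (nat_lit 392)) (XT.lf (nat_lit 1900) (nat_lit 726122700) (nat_lit 0) (nat_lit 4484732300) (nat_lit 1824) (nat_lit 726122700) (nat_lit 530) (nat_lit 1) (nat_lit 505) (nat_lit 1) (nat_lit 529) (nat_lit 1) (nat_lit 342) (nat_lit 407) (nat_lit 391))) (XT.nd (nat_lit 78) (nat_lit 0) (nat_lit 76) (XT.lf (nat_lit 1900) (nat_lit 1114847080) (nat_lit 76) (nat_lit 2383344620) (nat_lit 0) (nat_lit 2383344620) (nat_lit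 530) (nat_lit 1) (nat_lit 506) (nat_lit 1) (nat_lit 505) (nat_lit 1) (nat_lit 343) (nat_lit 407) (nat_lit 390)) (XT.nd (nat_lit 78) (nat_lit 0) (nat_lit 0) (XT.lf (nat_lit 1900) (nat_lit 388340660) (nat_lit 0) (nat_lit 5050355939) (nat_lit 1824) (nat_lit 388340660) (nat_lit 531) (nat_lit 1) (nat_lit 506) (nat_lit 1) (nat_lit 530) (nat_lit 1) (nat_lit 344) (nat_lit 407) (nat_lit 389)) (XT.lf (nat_lit 1900) (nat_lit 411920236) (nat_lit 76) (nat_lit 2680517541) (nat_lit 0) (nat_lit 2680517541) (nat_lit 531) (nat_lit 1) (nat_lit 507) (nat_lit 1) (nat_lit 506) (nat_lit 1) (nat_lit 345) (nat_lit 407) (nat_lit 388))))))))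
noncomputable def ec70 : XT := (XT.nd (nat_lit 1404) (nat_lit 7220) (nat_lit 0) (XT.nd (nat_lit 702) (nat_lit 4408) (nat_lit 0) (XT.nd (nat_lit 312) (nat_lit 1900) (nat_lit 0) (XT.nd (nat_lit 156) (nat_lit 0) (nat_lit 0) (XT.nd (nat_lit 78) (nat_lit 1900) (nat_lit 0) (XT.lf (nat_lit 1900) (nat_lit 25791690) (nat_lit 0) (nat_lit 5668296935) (nat_lit 1824) (nat_lit 25791690) (nat_lit 532) (nat_lit 1) (nat_lit 507) (nat_lit 1) (nat_lit 531) (nat_lit 1) (nat_lit 346) (nat_lit 407) (nat_lit 387)) (XT.lf (nat_lit 1976) (nat_lit 2666268541) (nat_lit 0) (nat_lit 334533696) (nat_lit 1900) (nat_lit 2666268541) (nat_lit 508) (nat_lit 1) (nat_lit 482) (nat_lit 1) (nat_lit 507) (nat_lit 1) (nat_lit 347) (nat_lit 407) (nat_lit 386))) (XT.nd (nat_lit 78) (nat_lit 0) (nat_lit 76) (XT.lf (nat_lit 1976) (nat_lit 4900335526) (nat_lit 76) (nat_lit 357452432) (nat_lit 0) (nat_lit 357452432) (nat_lit 508) (nat_lit 1) (nat_lit 483) (nat_lit 1) (nat_lit 482) (nat_lit 1) (nat_lit 348)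 (nat_lit 407) (nat_lit 385)) (XT.lf (nat_lit 1976) (nat_lit 2222077978) (nat_lit 0) (nat_lit 1119634004) (nat_lit 1900) (nat_lit 2222077978) (nat_lit 509) (nat_lit 1) (nat_lit 483) (nat_lit 1) (nat_lit 508) (nat_lit 1) (nat_lit 349) (nat_lit 407) (nat_lit 384)))) (XT.nd (nat_lit 156) (nat_lit 1976) (nat_lit 0) (XT.nd (nat_lit 78) (nat_lit 0) (nat_lit 76) (XT.lf (nat_lit 1976) (nat_lit 3989555070) (nat_lit 76) (nat_lit 761824429) (nat_lit 0) (nat_lit 761824429) (nat_lit 509) (nat_lit 1) (nat_lit 484) (nat_lit 1) (nat_lit 483) (nat_lit 1) (nat_lit 350) (nat_lit 407) (nat_lit 383)) (XT.lf (nat_lit 76) (nat_lit 1758723516) (nat_lit 0) (nat_lit 1945644693) (nat_lit 1900) (nat_lit 1758723516) (nat_lit 485) (nat_lit 1) (nat_lit 484) (nat_lit 1) (nat_lit 509) (nat_lit 1) (nat_lit 351) (nat_lit 407) (nat_lit 382))) (XT.nd (nat_lit 78) (nat_lit 912) (nat_lit 0) (XT.lf (nat_lit 1216) (nat_lit 3041795721) (nat_lit 0) (nat_lit 1185957703) (nat_lit 1140) (nat_lit 1185957703)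 (nat_lit 485) (nat_lit 1) (nat_lit 469) (nat_lit 1) (nat_lit 484) (nat_lit 1) (nat_lit 352) (nat_lit 407) (nat_lit 381)) (XT.nd (nat_lit 78) (nat_lit 912) (nat_lit 0) (XT.lf (nat_lit 76) (nat_lit 1277663282) (nat_lit 0) (nat_lit 2809577225) (nat_lit 1216) (nat_lit 1277663282) (nat_lit 470) (nat_lit 1) (nat_lit 469) (nat_lit 1) (nat_lit 485) (nat_lit 1) (nat_lit 353) (nat_lit 407) (nat_lit 380)) (XT.lf (nat_lit 988) (nat_lit 2059911957) (nat_lit 0) (nat_lit 1628389534) (nat_lit 912) (nat_lit 1628389534) (nat_lit 470) (nat_lit 1) (nat_lit 457) (nat_lit 1) (nat_lit 469) (nat_lit 1) (nat_lit 354) (nat_lit 407) (nat_lit 379)))))) (XT.nd (nat_lit 312) (nat_lit 2660) (nat_lit 0) (XT.nd (nat_lit 156) (nat_lit 836) (nat_lit 0) (XT.nd (nat_lit 78) (nat_lit 912) (nat_lit 0) (XT.lf (nat_lit 76) (nat_lit 780284780) (nat_lit 0) (nat_lit 3708586562) (nat_lit 988) (nat_lit 780284780) (nat_lit 458) (nat_lit 1) (nat_lit 457) (nat_lit 1) (nat_lit 470) (nat_lit 1) (nat_lit 355)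 (nat_lit 407) (nat_lit 378)) (XT.lf (nat_lit 988) (nat_lit 1046619595) (nat_lit 0) (nat_lit 2087727639) (nat_lit 912) (nat_lit 2087727639) (nat_lit 458) (nat_lit 1) (nat_lit 445) (nat_lit 1) (nat_lit 457) (nat_lit 1) (nat_lit 356) (nat_lit 407) (nat_lit 377))) (XT.nd (nat_lit 78) (nat_lit 836) (nat_lit 0) (XT.lf (nat_lit 76) (nat_lit 267907912) (nat_lit 0) (nat_lit 4639965053) (nat_lit 988) (nat_lit 267907912) (nat_lit 446) (nat_lit 1) (nat_lit 445) (nat_lit 1) (nat_lit 458) (nat_lit 1) (nat_lit 357) (nat_lit 407) (nat_lit 376)) (XT.lf (nat_lit 912) (nat_lit 4501730) (nat_lit 0) (nat_lit 2562647165) (nat_lit 836) (nat_lit 2562647165) (nat_lit 446) (nat_lit 1) (nat_lit 434) (nat_lit 1) (nat_lit 445) (nat_lit 1) (nat_lit 358) (nat_lit 407) (nat_lit 375)))) (XT.nd (nat_lit 156) (nat_lit 1672) (nat_lit 0) (XT.nd (nat_lit 78) (nat_lit 0) (nat_lit 0) (XT.lf (nat_lit 988) (nat_lit 4571551023) (nat_lit 0) (nat_lit 256513363) (nat_lit 912) (nat_lit 256513363) (nat_lit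 434) (nat_lit 1) (nat_lit 421) (nat_lit 1) (nat_lit 433) (nat_lit 1) (nat_lit 359) (nat_lit 407) (nat_lit 374)) (XT.lf (nat_lit 76) (nat_lit 1994810322) (nat_lit 0) (nat_lit 1050031225) (nat_lit 988) (nat_lit 1994810322) (nat_lit 422) (nat_lit 1) (nat_lit 421) (nat_lit 1) (nat_lit 434) (nat_lit 1) (nat_lit 360) (nat_lit 407) (nat_lit 373))) (XT.nd (nat_lit 78) (nat_lit 836) (nat_lit 0) (XT.lf (nat_lit 912) (nat_lit 3412192565) (nat_lit 0) (nat_lit 791639435) (nat_lit 836) (nat_lit 791639435) (nat_lit 422) (nat_lit 1) (nat_lit 410) (nat_lit 1) (nat_lit 421) (nat_lit 1) (nat_lit 361) (nat_lit 407) (nat_lit 372)) (XT.nd (nat_lit 78) (nat_lit 836) (nat_lit 0) (XT.lf (nat_lit 76) (nat_lit 1411744651) (nat_lit 0) (nat_lit 2128224898) (nat_lit 912) (nat_lit 1411744651) (nat_lit 411) (nat_lit 1) (nat_lit 410) (nat_lit 1) (nat_lit 422) (nat_lit 1) (nat_lit 362) (nat_lit 407) (nat_lit 371)) (XT.lf (nat_lit 912) (nat_lit 2232327763) (nat_lit 0) (nat_lit 1338106324) (nat_lit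 836) (nat_lit 1338106324) (nat_lit 411) (nat_lit 1) (nat_lit 399) (nat_lit 1) (nat_lit 410) (nat_lit 1) (nat_lit 363) (nat_lit 407) (nat_lit 370))))))) (XT.nd (nat_lit 702) (nat_lit 3420) (nat_lit 0) (XT.nd (nat_lit 312) (nat_lit 2204) (nat_lit 0) (XT.nd (nat_lit 156) (nat_lit 836) (nat_lit 0) (XT.nd (nat_lit 78) (nat_lit 760) (nat_lit 0) (XT.lf (nat_lit 76) (nat_lit 818986999) (nat_lit 0) (nat_lit 3227949295) (nat_lit 912) (nat_lit 818986999) (nat_lit 400) (nat_lit 1) (nat_lit 399) (nat_lit 1) (nat_lit 411) (nat_lit 1) (nat_lit 364) (nat_lit 407) (nat_lit 369)) (XT.lf (nat_lit 836) (nat_lit 1034037720) (nat_lit 0) (nat_lit 1894843841) (nat_lit 760) (nat_lit 1894843841) (nat_lit 400) (nat_lit 1) (nat_lit 389) (nat_lit 1) (nat_lit 399) (nat_lit 1) (nat_lit 365) (nat_lit 407) (nat_lit 368))) (XT.nd (nat_lit 78) (nat_lit 836) (nat_lit 0) (XT.lf (nat_lit 76) (nat_lit 217547698) (nat_lit 0) (nat_lit 4347125250) (nat_lit 836) (nat_lit 217547698) (nat_lit 390) (nat_lit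 1) (nat_lit 389) (nat_lit 1) (nat_lit 400) (nat_lit 1) (nat_lit 366) (nat_lit 407) (nat_lit 367)) (XT.lf (nat_lit 76) (nat_lit 2281306476) (nat_lit 0) (nat_lit 178332520) (nat_lit 836) (nat_lit 2281306476) (nat_lit 379) (nat_lit 1) (nat_lit 378) (nat_lit 1) (nat_lit 389) (nat_lit 1) (nat_lit 367) (nat_lit 407) (nat_lit 366)))) (XT.nd (nat_lit 156) (nat_lit 1444) (nat_lit 0) (XT.nd (nat_lit 78) (nat_lit 0) (nat_lit 0) (XT.lf (nat_lit 836) (nat_lit 3922269123) (nat_lit 0) (nat_lit 389038166) (nat_lit 760) (nat_lit 389038166) (nat_lit 379) (nat_lit 1) (nat_lit 368) (nat_lit 1) (nat_lit 378) (nat_lit 1) (nat_lit 368) (nat_lit 407) (nat_lit 365)) (XT.lf (nat_lit 76) (nat_lit 1634252882) (nat_lit 0) (nat_lit 1391526435) (nat_lit 836) (nat_lit 1634252882) (nat_lit 369) (nat_lit 1) (nat_lit 368) (nat_lit 1) (nat_lit 379) (nat_lit 1) (nat_lit 369) (nat_lit 407) (nat_lit 364))) (XT.nd (nat_lit 78) (nat_lit 684) (nat_lit 0) (XT.lf (nat_lit 836) (nat_lit 2618406514) (nat_lit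 0) (nat_lit 1000961688) (nat_lit 760) (nat_lit 1000961688) (nat_lit 369) (nat_lit 1) (nat_lit 358) (nat_lit 1) (nat_lit 368) (nat_lit 1) (nat_lit 370) (nat_lit 407) (nat_lit 363)) (XT.nd (nat_lit 78) (nat_lit 684) (nat_lit 0) (XT.lf (nat_lit 76) (nat_lit 981856934) (nat_lit 0) (nat_lit 2617352185) (nat_lit 836) (nat_lit 981856934) (nat_lit 359) (nat_lit 1) (nat_lit 358) (nat_lit 1) (nat_lit 369) (nat_lit 1) (nat_lit 371) (nat_lit 407) (nat_lit 362)) (XT.lf (nat_lit 760) (nat_lit 1304638911) (nat_lit 0) (nat_lit 1618797773) (nat_lit 684) (nat_lit 1618797773) (nat_lit 359) (nat_lit 1) (nat_lit 349) (nat_lit 1) (nat_lit 358) (nat_lit 1) (nat_lit 372) (nat_lit 407) (nat_lit 361)))))) (XT.nd (nat_lit 312) (nat_lit 1976) (nat_lit 0) (XT.nd (nat_lit 156) (nat_lit 684) (nat_lit 0) (XT.nd (nat_lit 78) (nat_lit 760) (nat_lit 0) (XT.lf (nat_lit 76) (nat_lit 324923500) (nat_lit 0) (nat_lit 3854147856) (nat_lit 760) (nat_lit 324923500) (nat_lit 350) (nat_lit 1) (nat_lit 349)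 (nat_lit 1) (nat_lit 359) (nat_lit 1) (nat_lit 373) (nat_lit 407) (nat_lit 360)) (XT.lf (nat_lit 76) (nat_lit 2224386264) (nat_lit 0) (nat_lit 17233071) (nat_lit 760) (nat_lit 2224386264) (nat_lit 340) (nat_lit 1) (nat_lit 339) (nat_lit 1) (nat_lit 349) (nat_lit 1) (nat_lit 374) (nat_lit 407) (nat_lit 359))) (XT.nd (nat_lit 78) (nat_lit 0) (nat_lit 0) (XT.lf (nat_lit 760) (nat_lit 3761440179) (nat_lit 0) (nat_lit 333576407) (nat_lit 684) (nat_lit 333576407) (nat_lit 340) (nat_lit 1) (nat_lit 330) (nat_lit 1) (nat_lit 339) (nat_lit 1) (nat_lit 375) (nat_lit 407) (nat_lit 358)) (XT.lf (nat_lit 76) (nat_lit 1531337367) (nat_lit 0) (nat_lit 1328750798) (nat_lit 760) (nat_lit 1531337367) (nat_lit 331) (nat_lit 1) (nat_lit 330) (nat_lit 1) (nat_lit 340) (nat_lit 1) (nat_lit 376) (nat_lit 407) (nat_lit 357)))) (XT.nd (nat_lit 156) (nat_lit 1292) (nat_lit 0) (XT.nd (nat_lit 78) (nat_lit 0) (nat_lit 0) (XT.lf (nat_lit 760) (nat_lit 2368868791) (nat_lit 0) (nat_lit 992973323)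 (nat_lit 684) (nat_lit 992973323) (nat_lit 331) (nat_lit 1) (nat_lit 321) (nat_lit 1) (nat_lit 330) (nat_lit 1) (nat_lit 377) (nat_lit 407) (nat_lit 356)) (XT.lf (nat_lit 76) (nat_lit 836489506) (nat_lit 0) (nat_lit 2645636569) (nat_lit 760) (nat_lit 836489506) (nat_lit 322) (nat_lit 1) (nat_lit 321) (nat_lit 1) (nat_lit 331) (nat_lit 1) (nat_lit 378) (nat_lit 407) (nat_lit 355))) (XT.nd (nat_lit 78) (nat_lit 684) (nat_lit 0) (XT.lf (nat_lit 684) (nat_lit 973328629) (nat_lit 0) (nat_lit 1654727807) (nat_lit 608) (nat_lit 1654727807) (nat_lit 322) (nat_lit 1) (nat_lit 313) (nat_lit 1) (nat_lit 321) (nat_lit 1) (nat_lit 379) (nat_lit 407) (nat_lit 354)) (XT.nd (nat_lit 78) (nat_lit 684) (nat_lit 0) (XT.lf (nat_lit 76) (nat_lit 140475497) (nat_lit 0) (nat_lit 3966578095) (nat_lit 684) (nat_lit 140475497) (nat_lit 314) (nat_lit 1) (nat_lit 313) (nat_lit 1) (nat_lit 322) (nat_lit 1) (nat_lit 380) (nat_lit 407) (nat_lit 353)) (XT.lf (nat_lit 76) (nat_lit 1897006050)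 (nat_lit 0) (nat_lit 418386380) (nat_lit 684) (nat_lit 1897006050) (nat_lit 305) (nat_lit 1) (nat_lit 304) (nat_lit 1) (nat_lit 313) (nat_lit 1) (nat_lit 381) (nat_lit 407) (nat_lit 352))))))))
noncomputable def ec71 : XT := (XT.nd (nat_lit 1404) (nat_lit 4712) (nat_lit 0) (XT.nd (nat_lit 702) (nat_lit 3192) (nat_lit 0) (XT.nd (nat_lit 312) (nat_lit 1748) (nat_lit 0) (XT.nd (nat_lit 156) (nat_lit 608) (nat_lit 0) (XT.nd (nat_lit 78) (nat_lit 0) (nat_lit 0) (XT.lf (nat_lit 684) (nat_lit 3072933249) (nat_lit 0) (nat_lit 552448854) (nat_lit 608) (nat_lit 552448854) (nat_lit 305) (nat_lit 1) (nat_lit 296) (nat_lit 1) (nat_lit 304) (nat_lit 1) (nat_lit 382) (nat_lit 407) (nat_lit 351)) (XT.lf (nat_lit 76) (nat_lit 1172821324) (nat_lit 0) (nat_lit 1797899552) (nat_lit 684) (nat_lit 1172821324) (nat_lit 297) (nat_lit 1) (nat_lit 296) (nat_lit 1) (nat_lit 305) (nat_lit 1) (nat_lit 383) (nat_lit 407) (nat_lit 350))) (XT.nd (nat_lit 78) (nat_lit 0) (nat_lit 0) (XT.lf (nat_lit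 684) (nat_lit 1620784362) (nat_lit 0) (nat_lit 1244454742) (nat_lit 608) (nat_lit 1244454742) (nat_lit 297) (nat_lit 1) (nat_lit 288) (nat_lit 1) (nat_lit 296) (nat_lit 1) (nat_lit 384) (nat_lit 407) (nat_lit 349)) (XT.lf (nat_lit 76) (nat_lit 449702655) (nat_lit 0) (nat_lit 3176893408) (nat_lit 684) (nat_lit 449702655) (nat_lit 289) (nat_lit 1) (nat_lit 288) (nat_lit 1) (nat_lit 297) (nat_lit 1) (nat_lit 385) (nat_lit 407) (nat_lit 348)))) (XT.nd (nat_lit 156) (nat_lit 532) (nat_lit 0) (XT.nd (nat_lit 78) (nat_lit 684) (nat_lit 0) (XT.lf (nat_lit 608) (nat_lit 171270333) (nat_lit 0) (nat_lit 1935939125) (nat_lit 532) (nat_lit 1935939125) (nat_lit 289) (nat_lit 1) (nat_lit 281) (nat_lit 1) (nat_lit 288) (nat_lit 1) (nat_lit 386) (nat_lit 407) (nat_lit 347)) (XT.lf (nat_lit 684) (nat_lit 3470339916) (nat_lit 0) (nat_lit 270072306) (nat_lit 608) (nat_lit 270072306) (nat_lit 281) (nat_lit 1) (nat_lit 272) (nat_lit 1) (nat_lit 280) (nat_lit 1) (nat_lit 387) (nat_lit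 407) (nat_lit 346))) (XT.nd (nat_lit 78) (nat_lit 532) (nat_lit 0) (XT.lf (nat_lit 76) (nat_lit 1360024354) (nat_lit 0) (nat_lit 1257939796) (nat_lit 684) (nat_lit 1360024354) (nat_lit 273) (nat_lit 1) (nat_lit 272) (nat_lit 1) (nat_lit 281) (nat_lit 1) (nat_lit 388) (nat_lit 407) (nat_lit 345)) (XT.nd (nat_lit 78) (nat_lit 0) (nat_lit 0) (XT.lf (nat_lit 608) (nat_lit 1976193175) (nat_lit 0) (nat_lit 984887106) (nat_lit 532) (nat_lit 984887106) (nat_lit 273) (nat_lit 1) (nat_lit 265) (nat_lit 1) (nat_lit 272) (nat_lit 1) (nat_lit 389) (nat_lit 407) (nat_lit 344)) (XT.lf (nat_lit 76) (nat_lit 616917835) (nat_lit 0) (nat_lit 2680481847) (nat_lit 608) (nat_lit 616917835) (nat_lit 266) (nat_lit 1) (nat_lit 265) (nat_lit 1) (nat_lit 273) (nat_lit 1) (nat_lit 390) (nat_lit 407) (nat_lit 343)))))) (XT.nd (nat_lit 312) (nat_lit 1520) (nat_lit 0) (XT.nd (nat_lit 156) (nat_lit 532) (nat_lit 0) (XT.nd (nat_lit 78) (nat_lit 608) (nat_lit 0) (XT.lf (nat_lit 608) (nat_lit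 488399448) (nat_lit 0) (nat_lit 1697271504) (nat_lit 532) (nat_lit 1697271504) (nat_lit 266) (nat_lit 1) (nat_lit 258) (nat_lit 1) (nat_lit 265) (nat_lit 1) (nat_lit 391) (nat_lit 407) (nat_lit 342)) (XT.lf (nat_lit 608) (nat_lit 3608016497) (nat_lit 0) (nat_lit 122019330) (nat_lit 532) (nat_lit 122019330) (nat_lit 258) (nat_lit 1) (nat_lit 250) (nat_lit 1) (nat_lit 257) (nat_lit 1) (nat_lit 392) (nat_lit 407) (nat_lit 341))) (XT.nd (nat_lit 78) (nat_lit 532) (nat_lit 0) (XT.lf (nat_lit 76) (nat_lit 1420990889) (nat_lit 0) (nat_lit 979261026) (nat_lit 608) (nat_lit 1420990889) (nat_lit 251) (nat_lit 1) (nat_lit 250) (nat_lit 1) (nat_lit 258) (nat_lit 1) (nat_lit 393) (nat_lit 407) (nat_lit 340)) (XT.lf (nat_lit 608) (nat_lit 2084524841) (nat_lit 0) (nat_lit 853191725) (nat_lit 532) (nat_lit 853191725) (nat_lit 251) (nat_lit 1) (nat_lit 243) (nat_lit 1) (nat_lit 250) (nat_lit 1) (nat_lit 394) (nat_lit 407) (nat_lit 339)))) (XT.nd (nat_lit 156) (nat_lit 1064) (nat_lit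 0) (XT.nd (nat_lit 78) (nat_lit 456) (nat_lit 0) (XT.lf (nat_lit 76) (nat_lit 664057600) (nat_lit 0) (nat_lit 2432782688) (nat_lit 608) (nat_lit 664057600) (nat_lit 244) (nat_lit 1) (nat_lit 243) (nat_lit 1) (nat_lit 251) (nat_lit 1) (nat_lit 395) (nat_lit 407) (nat_lit 338)) (XT.lf (nat_lit 532) (nat_lit 570531973) (nat_lit 0) (nat_lit 1580315064) (nat_lit 456) (nat_lit 1580315064) (nat_lit 244) (nat_lit 1) (nat_lit 237) (nat_lit 1) (nat_lit 243) (nat_lit 1) (nat_lit 396) (nat_lit 407) (nat_lit 337))) (XT.nd (nat_lit 78) (nat_lit 456) (nat_lit 0) (XT.lf (nat_lit 608) (nat_lit 3527072118) (nat_lit 0) (nat_lit 87408654) (nat_lit 532) (nat_lit 87408654) (nat_lit 237) (nat_lit 1) (nat_lit 229) (nat_lit 1) (nat_lit 236) (nat_lit 1) (nat_lit 397) (nat_lit 407) (nat_lit 336)) (XT.nd (nat_lit 78) (nat_lit 456) (nat_lit 0) (XT.lf (nat_lit 76) (nat_lit 1375772006) (nat_lit 0) (nat_lit 921116078) (nat_lit 608) (nat_lit 1375772006) (nat_lit 230) (nat_lit 1) (nat_lit 229)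 (nat_lit 1) (nat_lit 237) (nat_lit 1) (nat_lit 398) (nat_lit 407) (nat_lit 335)) (XT.lf (nat_lit 532) (nat_lit 1985162366) (nat_lit 0) (nat_lit 829361345) (nat_lit 456) (nat_lit 829361345) (nat_lit 230) (nat_lit 1) (nat_lit 223) (nat_lit 1) (nat_lit 229) (nat_lit 1) (nat_lit 399) (nat_lit 407) (nat_lit 334))))))) (XT.nd (nat_lit 702) (nat_lit 2356) (nat_lit 0) (XT.nd (nat_lit 312) (nat_lit 1368) (nat_lit 0) (XT.nd (nat_lit 156) (nat_lit 532) (nat_lit 0) (XT.nd (nat_lit 78) (nat_lit 456) (nat_lit 0) (XT.lf (nat_lit 76) (nat_lit 610330520) (nat_lit 0) (nat_lit 2394755420) (nat_lit 532) (nat_lit 610330520) (nat_lit 224) (nat_lit 1) (nat_lit 223) (nat_lit 1) (nat_lit 230) (nat_lit 1) (nat_lit 400) (nat_lit 407) (nat_lit 333)) (XT.lf (nat_lit 532) (nat_lit 455394966) (nat_lit 0) (nat_lit 1565901091) (nat_lit 456) (nat_lit 1565901091) (nat_lit 224) (nat_lit 1) (nat_lit 217) (nat_lit 1) (nat_lit 223) (nat_lit 1) (nat_lit 401) (nat_lit 407) (nat_lit 332))) (XT.nd (nat_lit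 78) (nat_lit 0) (nat_lit 0) (XT.lf (nat_lit 532) (nat_lit 3263472399) (nat_lit 0) (nat_lit 147961001) (nat_lit 456) (nat_lit 147961001) (nat_lit 217) (nat_lit 1) (nat_lit 210) (nat_lit 1) (nat_lit 216) (nat_lit 1) (nat_lit 402) (nat_lit 407) (nat_lit 331)) (XT.lf (nat_lit 76) (nat_lit 1241907321) (nat_lit 0) (nat_lit 1047840416) (nat_lit 532) (nat_lit 1241907321) (nat_lit 211) (nat_lit 1) (nat_lit 210) (nat_lit 1) (nat_lit 217) (nat_lit 1) (nat_lit 403) (nat_lit 407) (nat_lit 330)))) (XT.nd (nat_lit 156) (nat_lit 912) (nat_lit 0) (XT.nd (nat_lit 78) (nat_lit 0) (nat_lit 0) (XT.lf (nat_lit 532) (nat_lit 1712550606) (nat_lit 0) (nat_lit 895886924) (nat_lit 456) (nat_lit 895886924) (nat_lit 211) (nat_lit 1) (nat_lit 204) (nat_lit 1) (nat_lit 210) (nat_lit 1) (nat_lit 404) (nat_lit 407) (nat_lit 329)) (XT.lf (nat_lit 76) (nat_lit 472533999) (nat_lit 0) (nat_lit 2532239365) (nat_lit 532) (nat_lit 472533999) (nat_lit 205) (nat_lit 1) (nat_lit 204) (nat_lit 1) (nat_lit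 211) (nat_lit 1) (nat_lit 405) (nat_lit 407) (nat_lit 328))) (XT.nd (nat_lit 78) (nat_lit 532) (nat_lit 0) (XT.lf (nat_lit 456) (nat_lit 175974601) (nat_lit 0) (nat_lit 1637259382) (nat_lit 380) (nat_lit 1637259382) (nat_lit 205) (nat_lit 1) (nat_lit 199) (nat_lit 1) (nat_lit 204) (nat_lit 1) (nat_lit 406) (nat_lit 407) (nat_lit 327)) (XT.nd (nat_lit 78) (nat_lit 0) (nat_lit 0) (XT.lf (nat_lit 532) (nat_lit 2848637976) (nat_lit 0) (nat_lit 287696688) (nat_lit 456) (nat_lit 287696688) (nat_lit 199) (nat_lit 1) (nat_lit 192) (nat_lit 1) (nat_lit 198) (nat_lit 1) (nat_lit 407) (nat_lit 407) (nat_lit 326)) (XT.lf (nat_lit 76) (nat_lit 1034717341) (nat_lit 0) (nat_lit 1328261210) (nat_lit 532) (nat_lit 1034717341) (nat_lit 193) (nat_lit 1) (nat_lit 192) (nat_lit 1) (nat_lit 199) (nat_lit 1) (nat_lit 408) (nat_lit 407) (nat_lit 325)))))) (XT.nd (nat_lit 312) (nat_lit 1140) (nat_lit 0) (XT.nd (nat_lit 156) (nat_lit 836) (nat_lit 0) (XT.nd (nat_lit 78) (nat_lit 0) (nat_lit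 0) (XT.lf (nat_lit 456) (nat_lit 1296771325) (nat_lit 0) (nat_lit 1037467073) (nat_lit 380) (nat_lit 1037467073) (nat_lit 193) (nat_lit 1) (nat_lit 187) (nat_lit 1) (nat_lit 192) (nat_lit 1) (nat_lit 409) (nat_lit 407) (nat_lit 324)) (XT.lf (nat_lit 76) (nat_lit 265335170) (nat_lit 0) (nat_lit 2815385937) (nat_lit 456) (nat_lit 265335170) (nat_lit 188) (nat_lit 1) (nat_lit 187) (nat_lit 1) (nat_lit 193) (nat_lit 1) (nat_lit 410) (nat_lit 407) (nat_lit 323))) (XT.nd (nat_lit 78) (nat_lit 380) (nat_lit 0) (XT.lf (nat_lit 76) (nat_lit 1542359047) (nat_lit 0) (nat_lit 235797705) (nat_lit 456) (nat_lit 1542359047) (nat_lit 182) (nat_lit 1) (nat_lit 181) (nat_lit 1) (nat_lit 187) (nat_lit 1) (nat_lit 411) (nat_lit 407) (nat_lit 322)) (XT.lf (nat_lit 456) (nat_lit 2309975075) (nat_lit 0) (nat_lit 492667526) (nat_lit 380) (nat_lit 492667526) (nat_lit 182) (nat_lit 1) (nat_lit 176) (nat_lit 1) (nat_lit 181) (nat_lit 1) (nat_lit 412) (nat_lit 407) (nat_lit 321)))) (XT.nd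 (nat_lit 156) (nat_lit 760) (nat_lit 0) (XT.nd (nat_lit 78) (nat_lit 380) (nat_lit 0) (XT.lf (nat_lit 76) (nat_lit 767562624) (nat_lit 0) (nat_lit 1735173480) (nat_lit 456) (nat_lit 767562624) (nat_lit 177) (nat_lit 1) (nat_lit 176) (nat_lit 1) (nat_lit 182) (nat_lit 1) (nat_lit 413) (nat_lit 407) (nat_lit 320)) (XT.lf (nat_lit 456) (nat_lit 764052940) (nat_lit 0) (nat_lit 1240750486) (nat_lit 380) (nat_lit 1240750486) (nat_lit 177) (nat_lit 1) (nat_lit 171) (nat_lit 1) (nat_lit 176) (nat_lit 1) (nat_lit 414) (nat_lit 407) (nat_lit 319))) (XT.nd (nat_lit 78) (nat_lit 760) (nat_lit 0) (XT.lf (nat_lit 76) (nat_lit 1519871) (nat_lit 0) (nat_lit 3218155330) (nat_lit 456) (nat_lit 1519871) (nat_lit 172) (nat_lit 1) (nat_lit 171) (nat_lit 1) (nat_lit 177) (nat_lit 1) (nat_lit 415) (nat_lit 407) (nat_lit 318)) (XT.nd (nat_lit 78) (nat_lit 380) (nat_lit 0) (XT.lf (nat_lit 76) (nat_lit 1221299357) (nat_lit 0) (nat_lit 754200768) (nat_lit 380) (nat_lit 1221299357) (nat_lit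 167) (nat_lit 1) (nat_lit 166) (nat_lit 1) (nat_lit 171) (nat_lit 1) (nat_lit 416) (nat_lit 407) (nat_lit 317)) (XT.lf (nat_lit 456) (nat_lit 1671345794) (nat_lit 0) (nat_lit 750719189) (nat_lit 380) (nat_lit 750719189) (nat_lit 167) (nat_lit 1) (nat_lit 161) (nat_lit 1) (nat_lit 166) (nat_lit 1) (nat_lit 417) (nat_lit 407) (nat_lit 316))))))))
noncomputable def ec72 : XT := (XT.nd (nat_lit 1404) (nat_lit 6612) (nat_lit 0) (XT.nd (nat_lit 702) (nat_lit 0) (nat_lit 304) (XT.nd (nat_lit 312) (nat_lit 0) (nat_lit 152) (XT.nd (nat_lit 156) (nat_lit 0) (nat_lit 76) (XT.nd (nat_lit 78) (nat_lit 0) (nat_lit 0) (XT.lf (nat_lit 1900) (nat_lit 1174330024) (nat_lit 0) (nat_lit 1184150154) (nat_lit 1900) (nat_lit 1174330024) (nat_lit 522) (nat_lit 1) (nat_lit 497) (nat_lit 0) (nat_lit 522) (nat_lit 0) (nat_lit 324) (nat_lit 408) (nat_lit 408)) (XT.lf (nat_lit 1900) (nat_lit 4643477478) (nat_lit 76) (nat_lit 1176359692) (nat_lit 0) (nat_lit 1176359692) (nat_lit 522) (nat_lit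 1) (nat_lit 498) (nat_lit 1) (nat_lit 497) (nat_lit 0) (nat_lit 325) (nat_lit 408) (nat_lit 407))) (XT.nd (nat_lit 78) (nat_lit 0) (nat_lit 0) (XT.lf (nat_lit 1900) (nat_lit 2279969544) (nat_lit 0) (nat_lit 2367592506) (nat_lit 1824) (nat_lit 2279969544) (nat_lit 523) (nat_lit 1) (nat_lit 498) (nat_lit 1) (nat_lit 522) (nat_lit 1) (nat_lit 326) (nat_lit 408) (nat_lit 406)) (XT.lf (nat_lit 1900) (nat_lit 4462462442) (nat_lit 76) (nat_lit 1198722423) (nat_lit 0) (nat_lit 1198722423) (nat_lit 523) (nat_lit 1) (nat_lit 499) (nat_lit 1) (nat_lit 498) (nat_lit 1) (nat_lit 327) (nat_lit 408) (nat_lit 405)))) (XT.nd (nat_lit 156) (nat_lit 0) (nat_lit 76) (XT.nd (nat_lit 78) (nat_lit 0) (nat_lit 0) (XT.lf (nat_lit 1900) (nat_lit 2168672185) (nat_lit 0) (nat_lit 2455685114) (nat_lit 1824) (nat_lit 2168672185) (nat_lit 524) (nat_lit 1) (nat_lit 499) (nat_lit 1) (nat_lit 523) (nat_lit 1) (nat_lit 328) (nat_lit 408) (nat_lit 404)) (XT.lf (nat_lit 1900) (nat_lit 4198523771)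 (nat_lit 76) (nat_lit 1264311228) (nat_lit 0) (nat_lit 1264311228) (nat_lit 524) (nat_lit 1) (nat_lit 500) (nat_lit 1) (nat_lit 499) (nat_lit 1) (nat_lit 329) (nat_lit 408) (nat_lit 403))) (XT.nd (nat_lit 78) (nat_lit 0) (nat_lit 0) (XT.lf (nat_lit 1900) (nat_lit 2017310175) (nat_lit 0) (nat_lit 2627389257) (nat_lit 1824) (nat_lit 2017310175) (nat_lit 525) (nat_lit 1) (nat_lit 500) (nat_lit 1) (nat_lit 524) (nat_lit 1) (nat_lit 330) (nat_lit 408) (nat_lit 402)) (XT.nd (nat_lit 78) (nat_lit 0) (nat_lit 76) (XT.lf (nat_lit 1900) (nat_lit 3856645268) (nat_lit 76) (nat_lit 1370582989) (nat_lit 0) (nat_lit 1370582989) (nat_lit 525) (nat_lit 1) (nat_lit 501) (nat_lit 1) (nat_lit 500) (nat_lit 1) (nat_lit 331) (nat_lit 408) (nat_lit 401)) (XT.lf (nat_lit 1900) (nat_lit 1828309598) (nat_lit 0) (nat_lit 2877751683) (nat_lit 1824) (nat_lit 1828309598) (nat_lit 526) (nat_lit 1) (nat_lit 501) (nat_lit 1) (nat_lit 525) (nat_lit 1) (nat_lit 332) (nat_lit 408) (nat_lit 400))))))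 (XT.nd (nat_lit 312) (nat_lit 0) (nat_lit 152) (XT.nd (nat_lit 156) (nat_lit 0) (nat_lit 76) (XT.nd (nat_lit 78) (nat_lit 0) (nat_lit 76) (XT.lf (nat_lit 1900) (nat_lit 3441582626) (nat_lit 76) (nat_lit 1515110293) (nat_lit 0) (nat_lit 1515110293) (nat_lit 526) (nat_lit 1) (nat_lit 502) (nat_lit 1) (nat_lit 501) (nat_lit 1) (nat_lit 333) (nat_lit 408) (nat_lit 399)) (XT.lf (nat_lit 1900) (nat_lit 1603985261) (nat_lit 0) (nat_lit 3202044940) (nat_lit 1824) (nat_lit 1603985261) (nat_lit 527) (nat_lit 1) (nat_lit 502) (nat_lit 1) (nat_lit 526) (nat_lit 1) (nat_lit 334) (nat_lit 408) (nat_lit 398))) (XT.nd (nat_lit 78) (nat_lit 0) (nat_lit 76) (XT.lf (nat_lit 1900) (nat_lit 2957872962) (nat_lit 76) (nat_lit 1695576607) (nat_lit 0) (nat_lit 1695576607) (nat_lit 527) (nat_lit 1) (nat_lit 503) (nat_lit 1) (nat_lit 502) (nat_lit 1) (nat_lit 335) (nat_lit 408) (nat_lit 397)) (XT.lf (nat_lit 1900) (nat_lit 1346545356) (nat_lit 0) (nat_lit 3595757955) (nat_lit 1824) (nat_lit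 1346545356) (nat_lit 528) (nat_lit 1) (nat_lit 503) (nat_lit 1) (nat_lit 527) (nat_lit 1) (nat_lit 336) (nat_lit 408) (nat_lit 396)))) (XT.nd (nat_lit 156) (nat_lit 0) (nat_lit 76) (XT.nd (nat_lit 78) (nat_lit 0) (nat_lit 76) (XT.lf (nat_lit 1900) (nat_lit 2409843971) (nat_lit 76) (nat_lit 1909771646) (nat_lit 0) (nat_lit 1909771646) (nat_lit 528) (nat_lit 1) (nat_lit 504) (nat_lit 1) (nat_lit 503) (nat_lit 1) (nat_lit 337) (nat_lit 408) (nat_lit 395)) (XT.lf (nat_lit 1900) (nat_lit 1058095927) (nat_lit 0) (nat_lit 4054586988) (nat_lit 1824) (nat_lit 1058095927) (nat_lit 529) (nat_lit 1) (nat_lit 504) (nat_lit 1) (nat_lit 528) (nat_lit 1) (nat_lit 338) (nat_lit 408) (nat_lit 394))) (XT.nd (nat_lit 78) (nat_lit 0) (nat_lit 76) (XT.lf (nat_lit 1900) (nat_lit 1801622708) (nat_lit 76) (nat_lit 2155586929) (nat_lit 0) (nat_lit 2155586929) (nat_lit 529) (nat_lit 1) (nat_lit 505) (nat_lit 1) (nat_lit 504) (nat_lit 1) (nat_lit 339) (nat_lit 408) (nat_lit 393)) (XT.nd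 (nat_lit 78) (nat_lit 0) (nat_lit 0) (XT.lf (nat_lit 1900) (nat_lit 740645154) (nat_lit 0) (nat_lit 4574426946) (nat_lit 1824) (nat_lit 740645154) (nat_lit 530) (nat_lit 1) (nat_lit 505) (nat_lit 1) (nat_lit 529) (nat_lit 1) (nat_lit 340) (nat_lit 408) (nat_lit 392)) (XT.lf (nat_lit 1900) (nat_lit 1137144022) (nat_lit 76) (nat_lit 2431011512) (nat_lit 0) (nat_lit 2431011512) (nat_lit 530) (nat_lit 1) (nat_lit 506) (nat_lit 1) (nat_lit 505) (nat_lit 1) (nat_lit 341) (nat_lit 408) (nat_lit 391))))))) (XT.nd (nat_lit 702) (nat_lit 4484) (nat_lit 0) (XT.nd (nat_lit 312) (nat_lit 988) (nat_lit 0) (XT.nd (nat_lit 156) (nat_lit 1824) (nat_lit 0) (XT.nd (nat_lit 78) (nat_lit 0) (nat_lit 0) (XT.lf (nat_lit 1900) (nat_lit 396107473) (nat_lit 0) (nat_lit 5151363058) (nat_lit 1824) (nat_lit 396107473) (nat_lit 531) (nat_lit 1) (nat_lit 506) (nat_lit 1) (nat_lit 530) (nat_lit 1) (nat_lit 342) (nat_lit 408) (nat_lit 390)) (XT.lf (nat_lit 1900) (nat_lit 420158640) (nat_lit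 76) (nat_lit 2734127891) (nat_lit 0) (nat_lit 2734127891) (nat_lit 531) (nat_lit 1) (nat_lit 507) (nat_lit 1) (nat_lit 506) (nat_lit 1) (nat_lit 343) (nat_lit 408) (nat_lit 389))) (XT.nd (nat_lit 78) (nat_lit 1900) (nat_lit 0) (XT.lf (nat_lit 1900) (nat_lit 26307524) (nat_lit 0) (nat_lit 5781662874) (nat_lit 1824) (nat_lit 26307524) (nat_lit 532) (nat_lit 1) (nat_lit 507) (nat_lit 1) (nat_lit 531) (nat_lit 1) (nat_lit 344) (nat_lit 408) (nat_lit 388)) (XT.lf (nat_lit 1976) (nat_lit 2719593912) (nat_lit 0) (nat_lit 341224370) (nat_lit 1900) (nat_lit 2719593912) (nat_lit 508) (nat_lit 1) (nat_lit 482) (nat_lit 1) (nat_lit 507) (nat_lit 1) (nat_lit 345) (nat_lit 408) (nat_lit 387)))) (XT.nd (nat_lit 156) (nat_lit 988) (nat_lit 0) (XT.nd (nat_lit 78) (nat_lit 0) (nat_lit 76) (XT.lf (nat_lit 1976) (nat_lit 4998342236) (nat_lit 76) (nat_lit 364601481) (nat_lit 0) (nat_lit 364601481) (nat_lit 508) (nat_lit 1) (nat_lit 483) (nat_lit 1) (nat_lit 482) (nat_lit 1) (nat_lit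 346) (nat_lit 408) (nat_lit 386)) (XT.lf (nat_lit 1976) (nat_lit 2266519537) (nat_lit 0) (nat_lit 1142026684) (nat_lit 1900) (nat_lit 2266519537) (nat_lit 509) (nat_lit 1) (nat_lit 483) (nat_lit 1) (nat_lit 508) (nat_lit 1) (nat_lit 347) (nat_lit 408) (nat_lit 385))) (XT.nd (nat_lit 78) (nat_lit 1064) (nat_lit 0) (XT.lf (nat_lit 1976) (nat_lit 4069346171) (nat_lit 76) (nat_lit 777060918) (nat_lit 0) (nat_lit 777060918) (nat_lit 509) (nat_lit 1) (nat_lit 484) (nat_lit 1) (nat_lit 483) (nat_lit 1) (nat_lit 348) (nat_lit 408) (nat_lit 384)) (XT.nd (nat_lit 78) (nat_lit 1140) (nat_lit 0) (XT.lf (nat_lit 76) (nat_lit 1793897986) (nat_lit 0) (nat_lit 1984557587) (nat_lit 1900) (nat_lit 1793897986) (nat_lit 485) (nat_lit 1) (nat_lit 484) (nat_lit 1) (nat_lit 509) (nat_lit 1) (nat_lit 349) (nat_lit 408) (nat_lit 383)) (XT.lf (nat_lit 1216) (nat_lit 3102631636) (nat_lit 0) (nat_lit 1209676857) (nat_lit 1140) (nat_lit 1209676857) (nat_lit 485) (nat_lit 1) (nat_lit 469)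 (nat_lit 1) (nat_lit 484) (nat_lit 1) (nat_lit 350) (nat_lit 408) (nat_lit 382)))))) (XT.nd (nat_lit 312) (nat_lit 2660) (nat_lit 0) (XT.nd (nat_lit 156) (nat_lit 912) (nat_lit 0) (XT.nd (nat_lit 78) (nat_lit 912) (nat_lit 0) (XT.lf (nat_lit 76) (nat_lit 1303216547) (nat_lit 0) (nat_lit 2865768769) (nat_lit 1216) (nat_lit 1303216547) (nat_lit 470) (nat_lit 1) (nat_lit 469) (nat_lit 1) (nat_lit 485) (nat_lit 1) (nat_lit 351) (nat_lit 408) (nat_lit 381)) (XT.lf (nat_lit 988) (nat_lit 2101110196) (nat_lit 0) (nat_lit 1660957324) (nat_lit 912) (nat_lit 1660957324) (nat_lit 470) (nat_lit 1) (nat_lit 457) (nat_lit 1) (nat_lit 469) (nat_lit 1) (nat_lit 352) (nat_lit 408) (nat_lit 380))) (XT.nd (nat_lit 78) (nat_lit 912) (nat_lit 0) (XT.lf (nat_lit 76) (nat_lit 795890475) (nat_lit 0) (nat_lit 3782758293) (nat_lit 988) (nat_lit 795890475) (nat_lit 458) (nat_lit 1) (nat_lit 457) (nat_lit 1) (nat_lit 470) (nat_lit 1) (nat_lit 353) (nat_lit 408) (nat_lit 379)) (XT.lf (nat_lit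 988) (nat_lit 1067551987) (nat_lit 0) (nat_lit 2129482191) (nat_lit 912) (nat_lit 2129482191) (nat_lit 458) (nat_lit 1) (nat_lit 445) (nat_lit 1) (nat_lit 457) (nat_lit 1) (nat_lit 354) (nat_lit 408) (nat_lit 378)))) (XT.nd (nat_lit 156) (nat_lit 1824) (nat_lit 0) (XT.nd (nat_lit 78) (nat_lit 836) (nat_lit 0) (XT.lf (nat_lit 76) (nat_lit 273266071) (nat_lit 0) (nat_lit 4732764354) (nat_lit 988) (nat_lit 273266071) (nat_lit 446) (nat_lit 1) (nat_lit 445) (nat_lit 1) (nat_lit 458) (nat_lit 1) (nat_lit 355) (nat_lit 408) (nat_lit 377)) (XT.lf (nat_lit 912) (nat_lit 4591764) (nat_lit 0) (nat_lit 2613900108) (nat_lit 836) (nat_lit 2613900108) (nat_lit 446) (nat_lit 1) (nat_lit 434) (nat_lit 1) (nat_lit 445) (nat_lit 1) (nat_lit 356) (nat_lit 408) (nat_lit 376))) (XT.nd (nat_lit 78) (nat_lit 836) (nat_lit 0) (XT.lf (nat_lit 988) (nat_lit 4662982043) (nat_lit 0) (nat_lit 261643630) (nat_lit 912) (nat_lit 261643630) (nat_lit 434) (nat_lit 1) (nat_lit 421) (nat_lit 1)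 (nat_lit 433) (nat_lit 1) (nat_lit 357) (nat_lit 408) (nat_lit 375)) (XT.nd (nat_lit 78) (nat_lit 836) (nat_lit 0) (XT.lf (nat_lit 76) (nat_lit 2034706528) (nat_lit 0) (nat_lit 1071031849) (nat_lit 988) (nat_lit 2034706528) (nat_lit 422) (nat_lit 1) (nat_lit 421) (nat_lit 1) (nat_lit 434) (nat_lit 1) (nat_lit 358) (nat_lit 408) (nat_lit 374)) (XT.lf (nat_lit 912) (nat_lit 3480436416) (nat_lit 0) (nat_lit 807472224) (nat_lit 836) (nat_lit 807472224) (nat_lit 422) (nat_lit 1) (nat_lit 410) (nat_lit 1) (nat_lit 421) (nat_lit 1) (nat_lit 359) (nat_lit 408) (nat_lit 373))))))))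
noncomputable def ec73 : XT := (XT.nd (nat_lit 1404) (nat_lit 6384) (nat_lit 0) (XT.nd (nat_lit 702) (nat_lit 3420) (nat_lit 0) (XT.nd (nat_lit 312) (nat_lit 2356) (nat_lit 0) (XT.nd (nat_lit 156) (nat_lit 760) (nat_lit 0) (XT.nd (nat_lit 78) (nat_lit 836) (nat_lit 0) (XT.lf (nat_lit 76) (nat_lit 1439979544) (nat_lit 0) (nat_lit 2170789395) (nat_lit 912) (nat_lit 1439979544) (nat_lit 411) (nat_lit 1) (nat_lit 410) (nat_lit 1) (nat_lit 422) (nat_lit 1) (nat_lit 360) (nat_lit 408) (nat_lit 372)) (XT.lf (nat_lit 912) (nat_lit 2276974318) (nat_lit 0) (nat_lit 1364868451) (nat_lit 836) (nat_lit 1364868451) (nat_lit 411) (nat_lit 1) (nat_lit 399) (nat_lit 1) (nat_lit 410) (nat_lit 1) (nat_lit 361) (nat_lit 408) (nat_lit 371))) (XT.nd (nat_lit 78) (nat_lit 760) (nat_lit 0) (XT.lf (nat_lit 76) (nat_lit 835366739) (nat_lit 0) (nat_lit 3292508281) (nat_lit 912) (nat_lit 835366739) (nat_lit 400) (nat_lit 1) (nat_lit 399) (nat_lit 1) (nat_lit 411) (nat_lit 1) (nat_lit 362)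 (nat_lit 408) (nat_lit 370)) (XT.lf (nat_lit 836) (nat_lit 1054718474) (nat_lit 0) (nat_lit 1932740718) (nat_lit 760) (nat_lit 1932740718) (nat_lit 400) (nat_lit 1) (nat_lit 389) (nat_lit 1) (nat_lit 399) (nat_lit 1) (nat_lit 363) (nat_lit 408) (nat_lit 369)))) (XT.nd (nat_lit 156) (nat_lit 1520) (nat_lit 0) (XT.nd (nat_lit 78) (nat_lit 836) (nat_lit 0) (XT.lf (nat_lit 76) (nat_lit 221898652) (nat_lit 0) (nat_lit 4434067755) (nat_lit 836) (nat_lit 221898652) (nat_lit 390) (nat_lit 1) (nat_lit 389) (nat_lit 1) (nat_lit 400) (nat_lit 1) (nat_lit 364) (nat_lit 408) (nat_lit 368)) (XT.lf (nat_lit 76) (nat_lit 2326932605) (nat_lit 0) (nat_lit 181899170) (nat_lit 836) (nat_lit 2326932605) (nat_lit 379) (nat_lit 1) (nat_lit 378) (nat_lit 1) (nat_lit 389) (nat_lit 1) (nat_lit 365) (nat_lit 408) (nat_lit 367))) (XT.nd (nat_lit 78) (nat_lit 760) (nat_lit 0) (XT.lf (nat_lit 836) (nat_lit 4000714506) (nat_lit 0) (nat_lit 396818929) (nat_lit 760) (nat_lit 396818929) (nat_lit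 379) (nat_lit 1) (nat_lit 368) (nat_lit 1) (nat_lit 378) (nat_lit 1) (nat_lit 366) (nat_lit 408) (nat_lit 366)) (XT.nd (nat_lit 78) (nat_lit 760) (nat_lit 0) (XT.lf (nat_lit 76) (nat_lit 1666937939) (nat_lit 0) (nat_lit 1419356963) (nat_lit 836) (nat_lit 1666937939) (nat_lit 369) (nat_lit 1) (nat_lit 368) (nat_lit 1) (nat_lit 379) (nat_lit 1) (nat_lit 367) (nat_lit 408) (nat_lit 365)) (XT.lf (nat_lit 836) (nat_lit 2670774645) (nat_lit 0) (nat_lit 1020980922) (nat_lit 760) (nat_lit 1020980922) (nat_lit 369) (nat_lit 1) (nat_lit 358) (nat_lit 1) (nat_lit 368) (nat_lit 1) (nat_lit 368) (nat_lit 408) (nat_lit 364)))))) (XT.nd (nat_lit 312) (nat_lit 1976) (nat_lit 0) (XT.nd (nat_lit 156) (nat_lit 760) (nat_lit 0) (XT.nd (nat_lit 78) (nat_lit 684) (nat_lit 0) (XT.lf (nat_lit 76) (nat_lit 1001494073) (nat_lit 0) (nat_lit 2669699228) (nat_lit 836) (nat_lit 1001494073) (nat_lit 359) (nat_lit 1) (nat_lit 358) (nat_lit 1) (nat_lit 369) (nat_lit 1) (nat_lit 369) (nat_lit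 408) (nat_lit 363)) (XT.lf (nat_lit 760) (nat_lit 1330731690) (nat_lit 0) (nat_lit 1651173729) (nat_lit 684) (nat_lit 1651173729) (nat_lit 359) (nat_lit 1) (nat_lit 349) (nat_lit 1) (nat_lit 358) (nat_lit 1) (nat_lit 370) (nat_lit 408) (nat_lit 362))) (XT.nd (nat_lit 78) (nat_lit 760) (nat_lit 0) (XT.lf (nat_lit 76) (nat_lit 331421970) (nat_lit 0) (nat_lit 3931230813) (nat_lit 760) (nat_lit 331421970) (nat_lit 350) (nat_lit 1) (nat_lit 349) (nat_lit 1) (nat_lit 359) (nat_lit 1) (nat_lit 371) (nat_lit 408) (nat_lit 361)) (XT.lf (nat_lit 76) (nat_lit 2268873989) (nat_lit 0) (nat_lit 17577733) (nat_lit 760) (nat_lit 2268873989) (nat_lit 340) (nat_lit 1) (nat_lit 339) (nat_lit 1) (nat_lit 349) (nat_lit 1) (nat_lit 372) (nat_lit 408) (nat_lit 360)))) (XT.nd (nat_lit 156) (nat_lit 1292) (nat_lit 0) (XT.nd (nat_lit 78) (nat_lit 0) (nat_lit 0) (XT.lf (nat_lit 760) (nat_lit 3836668983) (nat_lit 0) (nat_lit 340247935) (nat_lit 684) (nat_lit 340247935) (nat_lit 340) (nat_lit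 1) (nat_lit 330) (nat_lit 1) (nat_lit 339) (nat_lit 1) (nat_lit 373) (nat_lit 408) (nat_lit 359)) (XT.lf (nat_lit 76) (nat_lit 1561964114) (nat_lit 0) (nat_lit 1355325814) (nat_lit 760) (nat_lit 1561964114) (nat_lit 331) (nat_lit 1) (nat_lit 330) (nat_lit 1) (nat_lit 340) (nat_lit 1) (nat_lit 374) (nat_lit 408) (nat_lit 358))) (XT.nd (nat_lit 78) (nat_lit 608) (nat_lit 0) (XT.lf (nat_lit 760) (nat_lit 2416246167) (nat_lit 0) (nat_lit 1012832789) (nat_lit 684) (nat_lit 1012832789) (nat_lit 331) (nat_lit 1) (nat_lit 321) (nat_lit 1) (nat_lit 330) (nat_lit 1) (nat_lit 375) (nat_lit 408) (nat_lit 357)) (XT.nd (nat_lit 78) (nat_lit 608) (nat_lit 0) (XT.lf (nat_lit 76) (nat_lit 853219296) (nat_lit 0) (nat_lit 2698549300) (nat_lit 760) (nat_lit 853219296) (nat_lit 322) (nat_lit 1) (nat_lit 321) (nat_lit 1) (nat_lit 331) (nat_lit 1) (nat_lit 376) (nat_lit 408) (nat_lit 356)) (XT.lf (nat_lit 684) (nat_lit 992795202) (nat_lit 0) (nat_lit 1687822363) (nat_lit 608) (nat_lit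 1687822363) (nat_lit 322) (nat_lit 1) (nat_lit 313) (nat_lit 1) (nat_lit 321) (nat_lit 1) (nat_lit 377) (nat_lit 408) (nat_lit 355))))))) (XT.nd (nat_lit 702) (nat_lit 3268) (nat_lit 0) (XT.nd (nat_lit 312) (nat_lit 1824) (nat_lit 0) (XT.nd (nat_lit 156) (nat_lit 608) (nat_lit 0) (XT.nd (nat_lit 78) (nat_lit 684) (nat_lit 0) (XT.lf (nat_lit 76) (nat_lit 143285007) (nat_lit 0) (nat_lit 4045909657) (nat_lit 684) (nat_lit 143285007) (nat_lit 314) (nat_lit 1) (nat_lit 313) (nat_lit 1) (nat_lit 322) (nat_lit 1) (nat_lit 378) (nat_lit 408) (nat_lit 354)) (XT.lf (nat_lit 76) (nat_lit 1934946171) (nat_lit 0) (nat_lit 426754107) (nat_lit 684) (nat_lit 1934946171) (nat_lit 305) (nat_lit 1) (nat_lit 304) (nat_lit 1) (nat_lit 313) (nat_lit 1) (nat_lit 379) (nat_lit 408) (nat_lit 353))) (XT.nd (nat_lit 78) (nat_lit 0) (nat_lit 0) (XT.lf (nat_lit 684) (nat_lit 3134391914) (nat_lit 0) (nat_lit 563497831) (nat_lit 608) (nat_lit 563497831) (nat_lit 305) (nat_lit 1) (nat_lit 296)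 (nat_lit 1) (nat_lit 304) (nat_lit 1) (nat_lit 380) (nat_lit 408) (nat_lit 352)) (XT.lf (nat_lit 76) (nat_lit 1196277751) (nat_lit 0) (nat_lit 1833857544) (nat_lit 684) (nat_lit 1196277751) (nat_lit 297) (nat_lit 1) (nat_lit 296) (nat_lit 1) (nat_lit 305) (nat_lit 1) (nat_lit 381) (nat_lit 408) (nat_lit 351)))) (XT.nd (nat_lit 156) (nat_lit 1216) (nat_lit 0) (XT.nd (nat_lit 78) (nat_lit 0) (nat_lit 0) (XT.lf (nat_lit 684) (nat_lit 1653200049) (nat_lit 0) (nat_lit 1269343837) (nat_lit 608) (nat_lit 1269343837) (nat_lit 297) (nat_lit 1) (nat_lit 288) (nat_lit 1) (nat_lit 296) (nat_lit 1) (nat_lit 382) (nat_lit 408) (nat_lit 350)) (XT.lf (nat_lit 76) (nat_lit 458696708) (nat_lit 0) (nat_lit 3240431277) (nat_lit 684) (nat_lit 458696708) (nat_lit 289) (nat_lit 1) (nat_lit 288) (nat_lit 1) (nat_lit 297) (nat_lit 1) (nat_lit 383) (nat_lit 408) (nat_lit 349))) (XT.nd (nat_lit 78) (nat_lit 684) (nat_lit 0) (XT.lf (nat_lit 608) (nat_lit 174695739) (nat_lit 0) (nat_lit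 1974657908) (nat_lit 532) (nat_lit 1974657908) (nat_lit 289) (nat_lit 1) (nat_lit 281) (nat_lit 1) (nat_lit 288) (nat_lit 1) (nat_lit 384) (nat_lit 408) (nat_lit 348)) (XT.nd (nat_lit 78) (nat_lit 0) (nat_lit 0) (XT.lf (nat_lit 684) (nat_lit 3539746714) (nat_lit 0) (nat_lit 275473752) (nat_lit 608) (nat_lit 275473752) (nat_lit 281) (nat_lit 1) (nat_lit 272) (nat_lit 1) (nat_lit 280) (nat_lit 1) (nat_lit 385) (nat_lit 408) (nat_lit 347)) (XT.lf (nat_lit 76) (nat_lit 1387224841) (nat_lit 0) (nat_lit 1283098592) (nat_lit 684) (nat_lit 1387224841) (nat_lit 273) (nat_lit 1) (nat_lit 272) (nat_lit 1) (nat_lit 281) (nat_lit 1) (nat_lit 386) (nat_lit 408) (nat_lit 346)))))) (XT.nd (nat_lit 312) (nat_lit 1596) (nat_lit 0) (XT.nd (nat_lit 156) (nat_lit 1140) (nat_lit 0) (XT.nd (nat_lit 78) (nat_lit 0) (nat_lit 0) (XT.lf (nat_lit 608) (nat_lit 2015717038) (nat_lit 0) (nat_lit 1004584848) (nat_lit 532) (nat_lit 1004584848) (nat_lit 273) (nat_lit 1) (nat_lit 265) (nat_lit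 1) (nat_lit 272) (nat_lit 1) (nat_lit 387) (nat_lit 408) (nat_lit 345)) (XT.lf (nat_lit 76) (nat_lit 629256192) (nat_lit 0) (nat_lit 2734091484) (nat_lit 608) (nat_lit 629256192) (nat_lit 266) (nat_lit 1) (nat_lit 265) (nat_lit 1) (nat_lit 273) (nat_lit 1) (nat_lit 388) (nat_lit 408) (nat_lit 344))) (XT.nd (nat_lit 78) (nat_lit 608) (nat_lit 0) (XT.lf (nat_lit 608) (nat_lit 498167437) (nat_lit 0) (nat_lit 1731216934) (nat_lit 532) (nat_lit 1731216934) (nat_lit 266) (nat_lit 1) (nat_lit 258) (nat_lit 1) (nat_lit 265) (nat_lit 1) (nat_lit 389) (nat_lit 408) (nat_lit 343)) (XT.lf (nat_lit 608) (nat_lit 3680176827) (nat_lit 0) (nat_lit 124459717) (nat_lit 532) (nat_lit 124459717) (nat_lit 258) (nat_lit 1) (nat_lit 250) (nat_lit 1) (nat_lit 257) (nat_lit 1) (nat_lit 390) (nat_lit 408) (nat_lit 342)))) (XT.nd (nat_lit 156) (nat_lit 1064) (nat_lit 0) (XT.nd (nat_lit 78) (nat_lit 532) (nat_lit 0) (XT.lf (nat_lit 76) (nat_lit 1449410707) (nat_lit 0) (nat_lit 998846247)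 (nat_lit 608) (nat_lit 1449410707) (nat_lit 251) (nat_lit 1) (nat_lit 250) (nat_lit 1) (nat_lit 258) (nat_lit 1) (nat_lit 391) (nat_lit 408) (nat_lit 341)) (XT.lf (nat_lit 608) (nat_lit 2126215338) (nat_lit 0) (nat_lit 870255559) (nat_lit 532) (nat_lit 870255559) (nat_lit 251) (nat_lit 1) (nat_lit 243) (nat_lit 1) (nat_lit 250) (nat_lit 1) (nat_lit 392) (nat_lit 408) (nat_lit 340))) (XT.nd (nat_lit 78) (nat_lit 1064) (nat_lit 0) (XT.lf (nat_lit 76) (nat_lit 677338752) (nat_lit 0) (nat_lit 2481438342) (nat_lit 608) (nat_lit 677338752) (nat_lit 244) (nat_lit 1) (nat_lit 243) (nat_lit 1) (nat_lit 251) (nat_lit 1) (nat_lit 393) (nat_lit 408) (nat_lit 339)) (XT.nd (nat_lit 78) (nat_lit 608) (nat_lit 0) (XT.lf (nat_lit 532) (nat_lit 581942612) (nat_lit 0) (nat_lit 1611921365) (nat_lit 456) (nat_lit 1611921365) (nat_lit 244) (nat_lit 1) (nat_lit 237) (nat_lit 1) (nat_lit 243) (nat_lit 1) (nat_lit 394) (nat_lit 408) (nat_lit 338)) (XT.lf (nat_lit 608) (nat_lit 3597613561)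 (nat_lit 0) (nat_lit 89156827) (nat_lit 532) (nat_lit 89156827) (nat_lit 237) (nat_lit 1) (nat_lit 229) (nat_lit 1) (nat_lit 236) (nat_lit 1) (nat_lit 395) (nat_lit 408) (nat_lit 337))))))))
noncomputable def ec74 : XT := (XT.nd (nat_lit 1404) (nat_lit 1064) (nat_lit 0) (XT.nd (nat_lit 702) (nat_lit 2128) (nat_lit 0) (XT.nd (nat_lit 312) (nat_lit 1368) (nat_lit 0) (XT.nd (nat_lit 156) (nat_lit 456) (nat_lit 0) (XT.nd (nat_lit 78) (nat_lit 456) (nat_lit 0) (XT.lf (nat_lit 76) (nat_lit 1403287446) (nat_lit 0) (nat_lit 939538400) (nat_lit 608) (nat_lit 1403287446) (nat_lit 230) (nat_lit 1) (nat_lit 229) (nat_lit 1) (nat_lit 237) (nat_lit 1) (nat_lit 396) (nat_lit 408) (nat_lit 336)) (XT.lf (nat_lit 532) (nat_lit 2024865613) (nat_lit 0) (nat_lit 845948572) (nat_lit 456) (nat_lit 845948572) (nat_lit 230) (nat_lit 1) (nat_lit 223) (nat_lit 1) (nat_lit 229) (nat_lit 1) (nat_lit 397) (nat_lit 408) (nat_lit 335))) (XT.nd (nat_lit 78) (nat_lit 456) (nat_lit 0) (XT.lf (nat_lit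 76) (nat_lit 622537130) (nat_lit 0) (nat_lit 2442650528) (nat_lit 532) (nat_lit 622537130) (nat_lit 224) (nat_lit 1) (nat_lit 223) (nat_lit 1) (nat_lit 230) (nat_lit 1) (nat_lit 398) (nat_lit 408) (nat_lit 334)) (XT.lf (nat_lit 532) (nat_lit 464502865) (nat_lit 0) (nat_lit 1597219113) (nat_lit 456) (nat_lit 1597219113) (nat_lit 224) (nat_lit 1) (nat_lit 217) (nat_lit 1) (nat_lit 223) (nat_lit 1) (nat_lit 399) (nat_lit 408) (nat_lit 333)))) (XT.nd (nat_lit 156) (nat_lit 836) (nat_lit 0) (XT.nd (nat_lit 78) (nat_lit 0) (nat_lit 0) (XT.lf (nat_lit 532) (nat_lit 3328741847) (nat_lit 0) (nat_lit 150920221) (nat_lit 456) (nat_lit 150920221) (nat_lit 217) (nat_lit 1) (nat_lit 210) (nat_lit 1) (nat_lit 216) (nat_lit 1) (nat_lit 400) (nat_lit 408) (nat_lit 332)) (XT.lf (nat_lit 76) (nat_lit 1266745467) (nat_lit 0) (nat_lit 1068797225) (nat_lit 532) (nat_lit 1266745467) (nat_lit 211) (nat_lit 1) (nat_lit 210) (nat_lit 1) (nat_lit 217) (nat_lit 1) (nat_lit 401) (nat_lit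 408) (nat_lit 331))) (XT.nd (nat_lit 78) (nat_lit 380) (nat_lit 0) (XT.lf (nat_lit 532) (nat_lit 1746801618) (nat_lit 0) (nat_lit 913804663) (nat_lit 456) (nat_lit 913804663) (nat_lit 211) (nat_lit 1) (nat_lit 204) (nat_lit 1) (nat_lit 210) (nat_lit 1) (nat_lit 402) (nat_lit 408) (nat_lit 330)) (XT.nd (nat_lit 78) (nat_lit 380) (nat_lit 0) (XT.lf (nat_lit 76) (nat_lit 481984679) (nat_lit 0) (nat_lit 2582884153) (nat_lit 532) (nat_lit 481984679) (nat_lit 205) (nat_lit 1) (nat_lit 204) (nat_lit 1) (nat_lit 211) (nat_lit 1) (nat_lit 403) (nat_lit 408) (nat_lit 329)) (XT.lf (nat_lit 456) (nat_lit 179494093) (nat_lit 0) (nat_lit 1670004569) (nat_lit 380) (nat_lit 1670004569) (nat_lit 205) (nat_lit 1) (nat_lit 199) (nat_lit 1) (nat_lit 204) (nat_lit 1) (nat_lit 404) (nat_lit 408) (nat_lit 328)))))) (XT.nd (nat_lit 312) (nat_lit 1216) (nat_lit 0) (XT.nd (nat_lit 156) (nat_lit 380) (nat_lit 0) (XT.nd (nat_lit 78) (nat_lit 0) (nat_lit 0) (XT.lf (nat_lit 532) (nat_lit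 2905610735) (nat_lit 0) (nat_lit 293450621) (nat_lit 456) (nat_lit 293450621) (nat_lit 199) (nat_lit 1) (nat_lit 192) (nat_lit 1) (nat_lit 198) (nat_lit 1) (nat_lit 405) (nat_lit 408) (nat_lit 327)) (XT.lf (nat_lit 76) (nat_lit 1055411688) (nat_lit 0) (nat_lit 1354826434) (nat_lit 532) (nat_lit 1055411688) (nat_lit 193) (nat_lit 1) (nat_lit 192) (nat_lit 1) (nat_lit 199) (nat_lit 1) (nat_lit 406) (nat_lit 408) (nat_lit 326))) (XT.nd (nat_lit 78) (nat_lit 0) (nat_lit 0) (XT.lf (nat_lit 456) (nat_lit 1322706751) (nat_lit 0) (nat_lit 1058216415) (nat_lit 380) (nat_lit 1058216415) (nat_lit 193) (nat_lit 1) (nat_lit 187) (nat_lit 1) (nat_lit 192) (nat_lit 1) (nat_lit 407) (nat_lit 408) (nat_lit 325)) (XT.lf (nat_lit 76) (nat_lit 270641873) (nat_lit 0) (nat_lit 2871693656) (nat_lit 456) (nat_lit 270641873) (nat_lit 188) (nat_lit 1) (nat_lit 187) (nat_lit 1) (nat_lit 193) (nat_lit 1) (nat_lit 408) (nat_lit 408) (nat_lit 324)))) (XT.nd (nat_lit 156) (nat_lit 380) (nat_lit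 0) (XT.nd (nat_lit 78) (nat_lit 380) (nat_lit 0) (XT.lf (nat_lit 76) (nat_lit 1573206228) (nat_lit 0) (nat_lit 240513660) (nat_lit 456) (nat_lit 1573206228) (nat_lit 182) (nat_lit 1) (nat_lit 181) (nat_lit 1) (nat_lit 187) (nat_lit 1) (nat_lit 409) (nat_lit 408) (nat_lit 323)) (XT.lf (nat_lit 456) (nat_lit 2356174577) (nat_lit 0) (nat_lit 502520877) (nat_lit 380) (nat_lit 502520877) (nat_lit 182) (nat_lit 1) (nat_lit 176) (nat_lit 1) (nat_lit 181) (nat_lit 1) (nat_lit 410) (nat_lit 408) (nat_lit 322))) (XT.nd (nat_lit 78) (nat_lit 380) (nat_lit 0) (XT.lf (nat_lit 76) (nat_lit 782913876) (nat_lit 0) (nat_lit 1769876949) (nat_lit 456) (nat_lit 782913876) (nat_lit 177) (nat_lit 1) (nat_lit 176) (nat_lit 1) (nat_lit 182) (nat_lit 1) (nat_lit 411) (nat_lit 408) (nat_lit 321)) (XT.nd (nat_lit 78) (nat_lit 0) (nat_lit 0) (XT.lf (nat_lit 456) (nat_lit 779333999) (nat_lit 0) (nat_lit 1265565496) (nat_lit 380) (nat_lit 1265565496) (nat_lit 177) (nat_lit 1) (nat_lit 171)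 (nat_lit 1) (nat_lit 176) (nat_lit 1) (nat_lit 412) (nat_lit 408) (nat_lit 320)) (XT.lf (nat_lit 76) (nat_lit 1550269) (nat_lit 0) (nat_lit 3282518437) (nat_lit 456) (nat_lit 1550269) (nat_lit 172) (nat_lit 1) (nat_lit 171) (nat_lit 1) (nat_lit 177) (nat_lit 1) (nat_lit 413) (nat_lit 408) (nat_lit 319))))))) (XT.nd (nat_lit 52572) (nat_lit 0) (nat_lit 25992) (XT.nd (nat_lit 52182) (nat_lit 0) (nat_lit 25840) (XT.nd (nat_lit 156) (nat_lit 304) (nat_lit 0) (XT.nd (nat_lit 78) (nat_lit 380) (nat_lit 0) (XT.lf (nat_lit 76) (nat_lit 1245725345) (nat_lit 0) (nat_lit 769284784) (nat_lit 380) (nat_lit 1245725345) (nat_lit 167) (nat_lit 1) (nat_lit 166) (nat_lit 1) (nat_lit 171) (nat_lit 1) (nat_lit 414) (nat_lit 408) (nat_lit 318)) (XT.lf (nat_lit 456) (nat_lit 1704772710) (nat_lit 0) (nat_lit 765733572) (nat_lit 380) (nat_lit 765733572) (nat_lit 167) (nat_lit 1) (nat_lit 161) (nat_lit 1) (nat_lit 166) (nat_lit 1) (nat_lit 415) (nat_lit 408) (nat_lit 317))) (XT.nd (nat_lit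 78) (nat_lit 304) (nat_lit 0) (XT.lf (nat_lit 76) (nat_lit 461114951) (nat_lit 0) (nat_lit 2289773270) (nat_lit 456) (nat_lit 461114951) (nat_lit 162) (nat_lit 1) (nat_lit 161) (nat_lit 1) (nat_lit 167) (nat_lit 1) (nat_lit 416) (nat_lit 408) (nat_lit 316)) (XT.lf (nat_lit 380) (nat_lit 139966774) (nat_lit 0) (nat_lit 1523989783) (nat_lit 304) (nat_lit 1523989783) (nat_lit 162) (nat_lit 1) (nat_lit 157) (nat_lit 1) (nat_lit 161) (nat_lit 1) (nat_lit 417) (nat_lit 408) (nat_lit 315)))) (XT.nd (nat_lit 156) (nat_lit 0) (nat_lit 76) (XT.nd (nat_lit 78) (nat_lit 0) (nat_lit 0) (XT.lf (nat_lit 1900) (nat_lit 1197816624) (nat_lit 0) (nat_lit 1207833157) (nat_lit 1900) (nat_lit 1197816624) (nat_lit 522) (nat_lit 1) (nat_lit 497) (nat_lit 0) (nat_lit 522) (nat_lit 0) (nat_lit 322) (nat_lit 409) (nat_lit 409)) (XT.lf (nat_lit 1900) (nat_lit 4736347027) (nat_lit 76) (nat_lit 1199886886) (nat_lit 0) (nat_lit 1199886886) (nat_lit 522) (nat_lit 1) (nat_lit 498) (nat_lit 1)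 (nat_lit 497) (nat_lit 0) (nat_lit 323) (nat_lit 409) (nat_lit 408))) (XT.nd (nat_lit 78) (nat_lit 0) (nat_lit 0) (XT.lf (nat_lit 1900) (nat_lit 2325568935) (nat_lit 0) (nat_lit 2414944357) (nat_lit 1824) (nat_lit 2325568935) (nat_lit 523) (nat_lit 1) (nat_lit 498) (nat_lit 1) (nat_lit 522) (nat_lit 1) (nat_lit 324) (nat_lit 409) (nat_lit 407)) (XT.nd (nat_lit 78) (nat_lit 0) (nat_lit 76) (XT.lf (nat_lit 1900) (nat_lit 4551711691) (nat_lit 76) (nat_lit 1222696872) (nat_lit 0) (nat_lit 1222696872) (nat_lit 523) (nat_lit 1) (nat_lit 499) (nat_lit 1) (nat_lit 498) (nat_lit 1) (nat_lit 325) (nat_lit 409) (nat_lit 406)) (XT.lf (nat_lit 1900) (nat_lit 2212045629) (nat_lit 0) (nat_lit 2504798816) (nat_lit 1824) (nat_lit 2212045629) (nat_lit 524) (nat_lit 1) (nat_lit 499) (nat_lit 1) (nat_lit 523) (nat_lit 1) (nat_lit 326) (nat_lit 409) (nat_lit 405)))))) (XT.nd (nat_lit 312) (nat_lit 0) (nat_lit 152) (XT.nd (nat_lit 156) (nat_lit 0) (nat_lit 76) (XT.nd (nat_lit 78)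 (nat_lit 0) (nat_lit 76) (XT.lf (nat_lit 1900) (nat_lit 4282494247) (nat_lit 76) (nat_lit 1289597453) (nat_lit 0) (nat_lit 1289597453) (nat_lit 524) (nat_lit 1) (nat_lit 500) (nat_lit 1) (nat_lit 499) (nat_lit 1) (nat_lit 327) (nat_lit 409) (nat_lit 404)) (XT.lf (nat_lit 1900) (nat_lit 2057656379) (nat_lit 0) (nat_lit 2679937042) (nat_lit 1824) (nat_lit 2057656379) (nat_lit 525) (nat_lit 1) (nat_lit 500) (nat_lit 1) (nat_lit 524) (nat_lit 1) (nat_lit 328) (nat_lit 409) (nat_lit 403))) (XT.nd (nat_lit 78) (nat_lit 0) (nat_lit 76) (XT.lf (nat_lit 1900) (nat_lit 3933778174) (nat_lit 76) (nat_lit 1397994649) (nat_lit 0) (nat_lit 1397994649) (nat_lit 525) (nat_lit 1) (nat_lit 501) (nat_lit 1) (nat_lit 500) (nat_lit 1) (nat_lit 329) (nat_lit 409) (nat_lit 402)) (XT.lf (nat_lit 1900) (nat_lit 1864875790) (nat_lit 0) (nat_lit 2935306716) (nat_lit 1824) (nat_lit 1864875790) (nat_lit 526) (nat_lit 1) (nat_lit 501) (nat_lit 1) (nat_lit 525) (nat_lit 1) (nat_lit 330) (nat_lit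 409) (nat_lit 401)))) (XT.nd (nat_lit 156) (nat_lit 0) (nat_lit 76) (XT.nd (nat_lit 78) (nat_lit 0) (nat_lit 76) (XT.lf (nat_lit 1900) (nat_lit 3510414279) (nat_lit 76) (nat_lit 1545412499) (nat_lit 0) (nat_lit 1545412499) (nat_lit 526) (nat_lit 1) (nat_lit 502) (nat_lit 1) (nat_lit 501) (nat_lit 1) (nat_lit 331) (nat_lit 409) (nat_lit 400)) (XT.lf (nat_lit 1900) (nat_lit 1636064966) (nat_lit 0) (nat_lit 3266085839) (nat_lit 1824) (nat_lit 1636064966) (nat_lit 527) (nat_lit 1) (nat_lit 502) (nat_lit 1) (nat_lit 526) (nat_lit 1) (nat_lit 332) (nat_lit 409) (nat_lit 399))) (XT.nd (nat_lit 78) (nat_lit 0) (nat_lit 76) (XT.lf (nat_lit 1900) (nat_lit 3017030421) (nat_lit 76) (nat_lit 1729488139) (nat_lit 0) (nat_lit 1729488139) (nat_lit 527) (nat_lit 1) (nat_lit 503) (nat_lit 1) (nat_lit 502) (nat_lit 1) (nat_lit 333) (nat_lit 409) (nat_lit 398)) (XT.nd (nat_lit 78) (nat_lit 0) (nat_lit 0) (XT.lf (nat_lit 1900) (nat_lit 1373476263) (nat_lit 0) (nat_lit 3667673115)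 (nat_lit 1824) (nat_lit 1373476263) (nat_lit 528) (nat_lit 1) (nat_lit 503) (nat_lit 1) (nat_lit 527) (nat_lit 1) (nat_lit 334) (nat_lit 409) (nat_lit 397)) (XT.lf (nat_lit 1900) (nat_lit 2458040850) (nat_lit 76) (nat_lit 1947967079) (nat_lit 0) (nat_lit 1947967079) (nat_lit 528) (nat_lit 1) (nat_lit 504) (nat_lit 1) (nat_lit 503) (nat_lit 1) (nat_lit 335) (nat_lit 409) (nat_lit 396))))))))
noncomputable def ec75 : XT := (XT.nd (nat_lit 1404) (nat_lit 8740) (nat_lit 0) (XT.nd (nat_lit 702) (nat_lit 2812) (nat_lit 0) (XT.nd (nat_lit 312) (nat_lit 1672) (nat_lit 0) (XT.nd (nat_lit 156) (nat_lit 0) (nat_lit 76) (XT.nd (nat_lit 78) (nat_lit 0) (nat_lit 0) (XT.lf (nat_lit 1900) (nat_lit 1079257845) (nat_lit 0) (nat_lit 4135678727) (nat_lit 1824) (nat_lit 1079257845) (nat_lit 529) (nat_lit 1) (nat_lit 504) (nat_lit 1) (nat_lit 528) (nat_lit 1) (nat_lit 336) (nat_lit 409) (nat_lit 395)) (XT.lf (nat_lit 1900) (nat_lit 1837655162) (nat_lit 76) (nat_lit 2198698668) (nat_lit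 0) (nat_lit 2198698668) (nat_lit 529) (nat_lit 1) (nat_lit 505) (nat_lit 1) (nat_lit 504) (nat_lit 1) (nat_lit 337) (nat_lit 409) (nat_lit 394))) (XT.nd (nat_lit 78) (nat_lit 0) (nat_lit 0) (XT.lf (nat_lit 1900) (nat_lit 755458057) (nat_lit 0) (nat_lit 4665915485) (nat_lit 1824) (nat_lit 755458057) (nat_lit 530) (nat_lit 1) (nat_lit 505) (nat_lit 1) (nat_lit 529) (nat_lit 1) (nat_lit 338) (nat_lit 409) (nat_lit 393)) (XT.lf (nat_lit 1900) (nat_lit 1159886902) (nat_lit 76) (nat_lit 2479631742) (nat_lit 0) (nat_lit 2479631742) (nat_lit 530) (nat_lit 1) (nat_lit 506) (nat_lit 1) (nat_lit 505) (nat_lit 1) (nat_lit 339) (nat_lit 409) (nat_lit 392)))) (XT.nd (nat_lit 156) (nat_lit 1824) (nat_lit 0) (XT.nd (nat_lit 78) (nat_lit 0) (nat_lit 0) (XT.lf (nat_lit 1900) (nat_lit 404029623) (nat_lit 0) (nat_lit 5254390319) (nat_lit 1824) (nat_lit 404029623) (nat_lit 531) (nat_lit 1) (nat_lit 506) (nat_lit 1) (nat_lit 530) (nat_lit 1) (nat_lit 340) (nat_lit 409) (nat_lit 391))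 (XT.lf (nat_lit 1900) (nat_lit 428561813) (nat_lit 76) (nat_lit 2788810449) (nat_lit 0) (nat_lit 2788810449) (nat_lit 531) (nat_lit 1) (nat_lit 507) (nat_lit 1) (nat_lit 506) (nat_lit 1) (nat_lit 341) (nat_lit 409) (nat_lit 390))) (XT.nd (nat_lit 78) (nat_lit 1900) (nat_lit 0) (XT.lf (nat_lit 1900) (nat_lit 26833674) (nat_lit 0) (nat_lit 5897296132) (nat_lit 1824) (nat_lit 26833674) (nat_lit 532) (nat_lit 1) (nat_lit 507) (nat_lit 1) (nat_lit 531) (nat_lit 1) (nat_lit 342) (nat_lit 409) (nat_lit 389)) (XT.nd (nat_lit 78) (nat_lit 0) (nat_lit 0) (XT.lf (nat_lit 1976) (nat_lit 2773985790) (nat_lit 0) (nat_lit 348048857) (nat_lit 1900) (nat_lit 2773985790) (nat_lit 508) (nat_lit 1) (nat_lit 482) (nat_lit 1) (nat_lit 507) (nat_lit 1) (nat_lit 343) (nat_lit 409) (nat_lit 388)) (XT.lf (nat_lit 1976) (nat_lit 5098309081) (nat_lit 76) (nat_lit 371893510) (nat_lit 0) (nat_lit 371893510) (nat_lit 508) (nat_lit 1) (nat_lit 483) (nat_lit 1) (nat_lit 482) (nat_lit 1) (nat_lit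 344) (nat_lit 409) (nat_lit 387)))))) (XT.nd (nat_lit 312) (nat_lit 1824) (nat_lit 0) (XT.nd (nat_lit 156) (nat_lit 1064) (nat_lit 0) (XT.nd (nat_lit 78) (nat_lit 0) (nat_lit 0) (XT.lf (nat_lit 1976) (nat_lit 2311849928) (nat_lit 0) (nat_lit 1164867218) (nat_lit 1900) (nat_lit 2311849928) (nat_lit 509) (nat_lit 1) (nat_lit 483) (nat_lit 1) (nat_lit 508) (nat_lit 1) (nat_lit 345) (nat_lit 409) (nat_lit 386)) (XT.lf (nat_lit 1976) (nat_lit 4150733095) (nat_lit 76) (nat_lit 792602136) (nat_lit 0) (nat_lit 792602136) (nat_lit 509) (nat_lit 1) (nat_lit 484) (nat_lit 1) (nat_lit 483) (nat_lit 1) (nat_lit 346) (nat_lit 409) (nat_lit 385))) (XT.nd (nat_lit 78) (nat_lit 1140) (nat_lit 0) (XT.lf (nat_lit 76) (nat_lit 1829775946) (nat_lit 0) (nat_lit 2024248738) (nat_lit 1900) (nat_lit 1829775946) (nat_lit 485) (nat_lit 1) (nat_lit 484) (nat_lit 1) (nat_lit 509) (nat_lit 1) (nat_lit 347) (nat_lit 409) (nat_lit 384)) (XT.lf (nat_lit 1216) (nat_lit 3164684268) (nat_lit 0)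 (nat_lit 1233870394) (nat_lit 1140) (nat_lit 1233870394) (nat_lit 485) (nat_lit 1) (nat_lit 469) (nat_lit 1) (nat_lit 484) (nat_lit 1) (nat_lit 348) (nat_lit 409) (nat_lit 383)))) (XT.nd (nat_lit 156) (nat_lit 912) (nat_lit 0) (XT.nd (nat_lit 78) (nat_lit 912) (nat_lit 0) (XT.lf (nat_lit 76) (nat_lit 1329280878) (nat_lit 0) (nat_lit 2923084145) (nat_lit 1216) (nat_lit 1329280878) (nat_lit 470) (nat_lit 1) (nat_lit 469) (nat_lit 1) (nat_lit 485) (nat_lit 1) (nat_lit 349) (nat_lit 409) (nat_lit 382)) (XT.lf (nat_lit 988) (nat_lit 2143132400) (nat_lit 0) (nat_lit 1694176471) (nat_lit 912) (nat_lit 1694176471) (nat_lit 470) (nat_lit 1) (nat_lit 457) (nat_lit 1) (nat_lit 469) (nat_lit 1) (nat_lit 350) (nat_lit 409) (nat_lit 381))) (XT.nd (nat_lit 78) (nat_lit 912) (nat_lit 0) (XT.lf (nat_lit 76) (nat_lit 811808285) (nat_lit 0) (nat_lit 3858413459) (nat_lit 988) (nat_lit 811808285) (nat_lit 458) (nat_lit 1) (nat_lit 457) (nat_lit 1) (nat_lit 470) (nat_lit 1) (nat_lit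 351) (nat_lit 409) (nat_lit 380)) (XT.nd (nat_lit 78) (nat_lit 0) (nat_lit 0) (XT.lf (nat_lit 988) (nat_lit 1088903027) (nat_lit 0) (nat_lit 2172071835) (nat_lit 912) (nat_lit 2172071835) (nat_lit 458) (nat_lit 1) (nat_lit 445) (nat_lit 1) (nat_lit 457) (nat_lit 1) (nat_lit 352) (nat_lit 409) (nat_lit 379)) (XT.lf (nat_lit 76) (nat_lit 278731392) (nat_lit 0) (nat_lit 4827419642) (nat_lit 988) (nat_lit 278731392) (nat_lit 446) (nat_lit 1) (nat_lit 445) (nat_lit 1) (nat_lit 458) (nat_lit 1) (nat_lit 353) (nat_lit 409) (nat_lit 378))))))) (XT.nd (nat_lit 702) (nat_lit 4484) (nat_lit 0) (XT.nd (nat_lit 312) (nat_lit 1596) (nat_lit 0) (XT.nd (nat_lit 156) (nat_lit 836) (nat_lit 0) (XT.nd (nat_lit 78) (nat_lit 988) (nat_lit 0) (XT.lf (nat_lit 912) (nat_lit 4683600) (nat_lit 0) (nat_lit 2666178110) (nat_lit 836) (nat_lit 2666178110) (nat_lit 446) (nat_lit 1) (nat_lit 434) (nat_lit 1) (nat_lit 445) (nat_lit 1) (nat_lit 354) (nat_lit 409) (nat_lit 377)) (XT.lf (nat_lit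 988) (nat_lit 4756241684) (nat_lit 0) (nat_lit 266876503) (nat_lit 912) (nat_lit 266876503) (nat_lit 434) (nat_lit 1) (nat_lit 421) (nat_lit 1) (nat_lit 433) (nat_lit 1) (nat_lit 355) (nat_lit 409) (nat_lit 376))) (XT.nd (nat_lit 78) (nat_lit 836) (nat_lit 0) (XT.lf (nat_lit 76) (nat_lit 2075400659) (nat_lit 0) (nat_lit 1092452486) (nat_lit 988) (nat_lit 2075400659) (nat_lit 422) (nat_lit 1) (nat_lit 421) (nat_lit 1) (nat_lit 434) (nat_lit 1) (nat_lit 356) (nat_lit 409) (nat_lit 375)) (XT.lf (nat_lit 912) (nat_lit 3550045145) (nat_lit 0) (nat_lit 823621668) (nat_lit 836) (nat_lit 823621668) (nat_lit 422) (nat_lit 1) (nat_lit 410) (nat_lit 1) (nat_lit 421) (nat_lit 1) (nat_lit 357) (nat_lit 409) (nat_lit 374)))) (XT.nd (nat_lit 156) (nat_lit 760) (nat_lit 0) (XT.nd (nat_lit 78) (nat_lit 836) (nat_lit 0) (XT.lf (nat_lit 76) (nat_lit 1468779135) (nat_lit 0) (nat_lit 2214205183) (nat_lit 912) (nat_lit 1468779135) (nat_lit 411) (nat_lit 1) (nat_lit 410) (nat_lit 1)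 (nat_lit 422) (nat_lit 1) (nat_lit 358) (nat_lit 409) (nat_lit 373)) (XT.lf (nat_lit 912) (nat_lit 2322513805) (nat_lit 0) (nat_lit 1392165820) (nat_lit 836) (nat_lit 1392165820) (nat_lit 411) (nat_lit 1) (nat_lit 399) (nat_lit 1) (nat_lit 410) (nat_lit 1) (nat_lit 359) (nat_lit 409) (nat_lit 372))) (XT.nd (nat_lit 78) (nat_lit 760) (nat_lit 0) (XT.lf (nat_lit 76) (nat_lit 852074073) (nat_lit 0) (nat_lit 3358358447) (nat_lit 912) (nat_lit 852074073) (nat_lit 400) (nat_lit 1) (nat_lit 399) (nat_lit 1) (nat_lit 411) (nat_lit 1) (nat_lit 360) (nat_lit 409) (nat_lit 371)) (XT.nd (nat_lit 78) (nat_lit 0) (nat_lit 0) (XT.lf (nat_lit 836) (nat_lit 1075812844) (nat_lit 0) (nat_lit 1971395532) (nat_lit 760) (nat_lit 1971395532) (nat_lit 400) (nat_lit 1) (nat_lit 389) (nat_lit 1) (nat_lit 399) (nat_lit 1) (nat_lit 361) (nat_lit 409) (nat_lit 370)) (XT.lf (nat_lit 76) (nat_lit 226336625) (nat_lit 0) (nat_lit 4522749110) (nat_lit 836) (nat_lit 226336625) (nat_lit 390) (nat_lit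 1) (nat_lit 389) (nat_lit 1) (nat_lit 400) (nat_lit 1) (nat_lit 362) (nat_lit 409) (nat_lit 369)))))) (XT.nd (nat_lit 312) (nat_lit 2128) (nat_lit 0) (XT.nd (nat_lit 156) (nat_lit 760) (nat_lit 0) (XT.nd (nat_lit 78) (nat_lit 760) (nat_lit 0) (XT.lf (nat_lit 76) (nat_lit 2373471257) (nat_lit 0) (nat_lit 185537154) (nat_lit 836) (nat_lit 2373471257) (nat_lit 379) (nat_lit 1) (nat_lit 378) (nat_lit 1) (nat_lit 389) (nat_lit 1) (nat_lit 363) (nat_lit 409) (nat_lit 368)) (XT.lf (nat_lit 836) (nat_lit 4080728796) (nat_lit 0) (nat_lit 404755308) (nat_lit 760) (nat_lit 404755308) (nat_lit 379) (nat_lit 1) (nat_lit 368) (nat_lit 1) (nat_lit 378) (nat_lit 1) (nat_lit 364) (nat_lit 409) (nat_lit 367))) (XT.nd (nat_lit 78) (nat_lit 760) (nat_lit 0) (XT.lf (nat_lit 76) (nat_lit 1700276698) (nat_lit 0) (nat_lit 1447744103) (nat_lit 836) (nat_lit 1700276698) (nat_lit 369) (nat_lit 1) (nat_lit 368) (nat_lit 1) (nat_lit 379) (nat_lit 1) (nat_lit 365) (nat_lit 409) (nat_lit 366))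 (XT.lf (nat_lit 836) (nat_lit 2724190137) (nat_lit 0) (nat_lit 1041400541) (nat_lit 760) (nat_lit 1041400541) (nat_lit 369) (nat_lit 1) (nat_lit 358) (nat_lit 1) (nat_lit 368) (nat_lit 1) (nat_lit 366) (nat_lit 409) (nat_lit 365)))) (XT.nd (nat_lit 156) (nat_lit 1444) (nat_lit 0) (XT.nd (nat_lit 78) (nat_lit 684) (nat_lit 0) (XT.lf (nat_lit 76) (nat_lit 1021523954) (nat_lit 0) (nat_lit 2723093213) (nat_lit 836) (nat_lit 1021523954) (nat_lit 359) (nat_lit 1) (nat_lit 358) (nat_lit 1) (nat_lit 369) (nat_lit 1) (nat_lit 367) (nat_lit 409) (nat_lit 364)) (XT.lf (nat_lit 760) (nat_lit 1357346323) (nat_lit 0) (nat_lit 1684197203) (nat_lit 684) (nat_lit 1684197203) (nat_lit 359) (nat_lit 1) (nat_lit 349) (nat_lit 1) (nat_lit 358) (nat_lit 1) (nat_lit 368) (nat_lit 409) (nat_lit 363))) (XT.nd (nat_lit 78) (nat_lit 1444) (nat_lit 0) (XT.lf (nat_lit 76) (nat_lit 338050409) (nat_lit 0) (nat_lit 4009855429) (nat_lit 760) (nat_lit 338050409) (nat_lit 350) (nat_lit 1) (nat_lit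 349) (nat_lit 1) (nat_lit 359) (nat_lit 1) (nat_lit 369) (nat_lit 409) (nat_lit 362)) (XT.nd (nat_lit 78) (nat_lit 684) (nat_lit 0) (XT.lf (nat_lit 76) (nat_lit 2314251469) (nat_lit 0) (nat_lit 17929287) (nat_lit 760) (nat_lit 2314251469) (nat_lit 340) (nat_lit 1) (nat_lit 339) (nat_lit 1) (nat_lit 349) (nat_lit 1) (nat_lit 370) (nat_lit 409) (nat_lit 361)) (XT.lf (nat_lit 760) (nat_lit 3913402362) (nat_lit 0) (nat_lit 347052894) (nat_lit 684) (nat_lit 347052894) (nat_lit 340) (nat_lit 1) (nat_lit 330) (nat_lit 1) (nat_lit 339) (nat_lit 1) (nat_lit 371) (nat_lit 409) (nat_lit 360))))))))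
noncomputable def ec76 : XT := (XT.nd (nat_lit 1404) (nat_lit 5244) (nat_lit 0) (XT.nd (nat_lit 702) (nat_lit 2888) (nat_lit 0) (XT.nd (nat_lit 312) (nat_lit 1900) (nat_lit 0) (XT.nd (nat_lit 156) (nat_lit 608) (nat_lit 0) (XT.nd (nat_lit 78) (nat_lit 684) (nat_lit 0) (XT.lf (nat_lit 76) (nat_lit 1593203396) (nat_lit 0) (nat_lit 1382432331) (nat_lit 760) (nat_lit 1593203396) (nat_lit 331) (nat_lit 1) (nat_lit 330) (nat_lit 1) (nat_lit 340) (nat_lit 1) (nat_lit 372) (nat_lit 409) (nat_lit 359)) (XT.lf (nat_lit 760) (nat_lit 2464571090) (nat_lit 0) (nat_lit 1033089445) (nat_lit 684) (nat_lit 1033089445) (nat_lit 331) (nat_lit 1) (nat_lit 321) (nat_lit 1) (nat_lit 330) (nat_lit 1) (nat_lit 373) (nat_lit 409) (nat_lit 358))) (XT.nd (nat_lit 78) (nat_lit 608) (nat_lit 0) (XT.lf (nat_lit 76) (nat_lit 870283682) (nat_lit 0) (nat_lit 2752520286) (nat_lit 760) (nat_lit 870283682) (nat_lit 322) (nat_lit 1) (nat_lit 321) (nat_lit 1) (nat_lit 331) (nat_lit 1) (nat_lit 374)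 (nat_lit 409) (nat_lit 357)) (XT.lf (nat_lit 684) (nat_lit 1012651106) (nat_lit 0) (nat_lit 1721578810) (nat_lit 608) (nat_lit 1721578810) (nat_lit 322) (nat_lit 1) (nat_lit 313) (nat_lit 1) (nat_lit 321) (nat_lit 1) (nat_lit 375) (nat_lit 409) (nat_lit 356)))) (XT.nd (nat_lit 156) (nat_lit 1216) (nat_lit 0) (XT.nd (nat_lit 78) (nat_lit 684) (nat_lit 0) (XT.lf (nat_lit 76) (nat_lit 146150707) (nat_lit 0) (nat_lit 4126827850) (nat_lit 684) (nat_lit 146150707) (nat_lit 314) (nat_lit 1) (nat_lit 313) (nat_lit 1) (nat_lit 322) (nat_lit 1) (nat_lit 376) (nat_lit 409) (nat_lit 355)) (XT.lf (nat_lit 76) (nat_lit 1973645094) (nat_lit 0) (nat_lit 435289189) (nat_lit 684) (nat_lit 1973645094) (nat_lit 305) (nat_lit 1) (nat_lit 304) (nat_lit 1) (nat_lit 313) (nat_lit 1) (nat_lit 377) (nat_lit 409) (nat_lit 354))) (XT.nd (nat_lit 78) (nat_lit 608) (nat_lit 0) (XT.lf (nat_lit 684) (nat_lit 3197079753) (nat_lit 0) (nat_lit 574767788) (nat_lit 608) (nat_lit 574767788) (nat_lit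 305) (nat_lit 1) (nat_lit 296) (nat_lit 1) (nat_lit 304) (nat_lit 1) (nat_lit 378) (nat_lit 409) (nat_lit 353)) (XT.nd (nat_lit 78) (nat_lit 608) (nat_lit 0) (XT.lf (nat_lit 76) (nat_lit 1220203306) (nat_lit 0) (nat_lit 1870534694) (nat_lit 684) (nat_lit 1220203306) (nat_lit 297) (nat_lit 1) (nat_lit 296) (nat_lit 1) (nat_lit 305) (nat_lit 1) (nat_lit 379) (nat_lit 409) (nat_lit 352)) (XT.lf (nat_lit 684) (nat_lit 1686264050) (nat_lit 0) (nat_lit 1294730713) (nat_lit 608) (nat_lit 1294730713) (nat_lit 297) (nat_lit 1) (nat_lit 288) (nat_lit 1) (nat_lit 296) (nat_lit 1) (nat_lit 380) (nat_lit 409) (nat_lit 351)))))) (XT.nd (nat_lit 312) (nat_lit 1672) (nat_lit 0) (XT.nd (nat_lit 156) (nat_lit 684) (nat_lit 0) (XT.nd (nat_lit 78) (nat_lit 532) (nat_lit 0) (XT.lf (nat_lit 76) (nat_lit 467870642) (nat_lit 0) (nat_lit 3305239902) (nat_lit 684) (nat_lit 467870642) (nat_lit 289) (nat_lit 1) (nat_lit 288) (nat_lit 1) (nat_lit 297) (nat_lit 1) (nat_lit 381) (nat_lit 409)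 (nat_lit 350)) (XT.lf (nat_lit 608) (nat_lit 178189654) (nat_lit 0) (nat_lit 2014151066) (nat_lit 532) (nat_lit 2014151066) (nat_lit 289) (nat_lit 1) (nat_lit 281) (nat_lit 1) (nat_lit 288) (nat_lit 1) (nat_lit 382) (nat_lit 409) (nat_lit 349))) (XT.nd (nat_lit 78) (nat_lit 0) (nat_lit 0) (XT.lf (nat_lit 684) (nat_lit 3610541648) (nat_lit 0) (nat_lit 280983227) (nat_lit 608) (nat_lit 280983227) (nat_lit 281) (nat_lit 1) (nat_lit 272) (nat_lit 1) (nat_lit 280) (nat_lit 1) (nat_lit 383) (nat_lit 409) (nat_lit 348)) (XT.lf (nat_lit 76) (nat_lit 1414969338) (nat_lit 0) (nat_lit 1308760564) (nat_lit 684) (nat_lit 1414969338) (nat_lit 273) (nat_lit 1) (nat_lit 272) (nat_lit 1) (nat_lit 281) (nat_lit 1) (nat_lit 384) (nat_lit 409) (nat_lit 347)))) (XT.nd (nat_lit 156) (nat_lit 1140) (nat_lit 0) (XT.nd (nat_lit 78) (nat_lit 0) (nat_lit 0) (XT.lf (nat_lit 608) (nat_lit 2056031379) (nat_lit 0) (nat_lit 1024676545) (nat_lit 532) (nat_lit 1024676545) (nat_lit 273) (nat_lit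 1) (nat_lit 265) (nat_lit 1) (nat_lit 272) (nat_lit 1) (nat_lit 385) (nat_lit 409) (nat_lit 346)) (XT.lf (nat_lit 76) (nat_lit 641841316) (nat_lit 0) (nat_lit 2788773314) (nat_lit 608) (nat_lit 641841316) (nat_lit 266) (nat_lit 1) (nat_lit 265) (nat_lit 1) (nat_lit 273) (nat_lit 1) (nat_lit 386) (nat_lit 409) (nat_lit 345))) (XT.nd (nat_lit 78) (nat_lit 608) (nat_lit 0) (XT.lf (nat_lit 608) (nat_lit 508130786) (nat_lit 0) (nat_lit 1765841273) (nat_lit 532) (nat_lit 1765841273) (nat_lit 266) (nat_lit 1) (nat_lit 258) (nat_lit 1) (nat_lit 265) (nat_lit 1) (nat_lit 387) (nat_lit 409) (nat_lit 344)) (XT.nd (nat_lit 78) (nat_lit 0) (nat_lit 0) (XT.lf (nat_lit 608) (nat_lit 3753780364) (nat_lit 0) (nat_lit 126948911) (nat_lit 532) (nat_lit 126948911) (nat_lit 258) (nat_lit 1) (nat_lit 250) (nat_lit 1) (nat_lit 257) (nat_lit 1) (nat_lit 388) (nat_lit 409) (nat_lit 343)) (XT.lf (nat_lit 76) (nat_lit 1478398921) (nat_lit 0) (nat_lit 1018823172) (nat_lit 608) (nat_lit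 1478398921) (nat_lit 251) (nat_lit 1) (nat_lit 250) (nat_lit 1) (nat_lit 258) (nat_lit 1) (nat_lit 389) (nat_lit 409) (nat_lit 342))))))) (XT.nd (nat_lit 702) (nat_lit 2204) (nat_lit 0) (XT.nd (nat_lit 312) (nat_lit 1444) (nat_lit 0) (XT.nd (nat_lit 156) (nat_lit 1064) (nat_lit 0) (XT.nd (nat_lit 78) (nat_lit 0) (nat_lit 0) (XT.lf (nat_lit 608) (nat_lit 2168739645) (nat_lit 0) (nat_lit 887660670) (nat_lit 532) (nat_lit 887660670) (nat_lit 251) (nat_lit 1) (nat_lit 243) (nat_lit 1) (nat_lit 250) (nat_lit 1) (nat_lit 390) (nat_lit 409) (nat_lit 341)) (XT.lf (nat_lit 76) (nat_lit 690885527) (nat_lit 0) (nat_lit 2531067109) (nat_lit 608) (nat_lit 690885527) (nat_lit 244) (nat_lit 1) (nat_lit 243) (nat_lit 1) (nat_lit 251) (nat_lit 1) (nat_lit 391) (nat_lit 409) (nat_lit 340))) (XT.nd (nat_lit 78) (nat_lit 608) (nat_lit 0) (XT.lf (nat_lit 532) (nat_lit 593581465) (nat_lit 0) (nat_lit 1644159792) (nat_lit 456) (nat_lit 1644159792) (nat_lit 244) (nat_lit 1) (nat_lit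 237) (nat_lit 1) (nat_lit 243) (nat_lit 1) (nat_lit 392) (nat_lit 409) (nat_lit 339)) (XT.lf (nat_lit 608) (nat_lit 3669565832) (nat_lit 0) (nat_lit 90939963) (nat_lit 532) (nat_lit 90939963) (nat_lit 237) (nat_lit 1) (nat_lit 229) (nat_lit 1) (nat_lit 236) (nat_lit 1) (nat_lit 393) (nat_lit 409) (nat_lit 338)))) (XT.nd (nat_lit 156) (nat_lit 988) (nat_lit 0) (XT.nd (nat_lit 78) (nat_lit 456) (nat_lit 0) (XT.lf (nat_lit 76) (nat_lit 1431353195) (nat_lit 0) (nat_lit 958329168) (nat_lit 608) (nat_lit 1431353195) (nat_lit 230) (nat_lit 1) (nat_lit 229) (nat_lit 1) (nat_lit 237) (nat_lit 1) (nat_lit 394) (nat_lit 409) (nat_lit 337)) (XT.lf (nat_lit 532) (nat_lit 2065362925) (nat_lit 0) (nat_lit 862867544) (nat_lit 456) (nat_lit 862867544) (nat_lit 230) (nat_lit 1) (nat_lit 223) (nat_lit 1) (nat_lit 229) (nat_lit 1) (nat_lit 395) (nat_lit 409) (nat_lit 336))) (XT.nd (nat_lit 78) (nat_lit 988) (nat_lit 0) (XT.lf (nat_lit 76) (nat_lit 634987873) (nat_lit 0) (nat_lit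 2491503538) (nat_lit 532) (nat_lit 634987873) (nat_lit 224) (nat_lit 1) (nat_lit 223) (nat_lit 1) (nat_lit 230) (nat_lit 1) (nat_lit 396) (nat_lit 409) (nat_lit 335)) (XT.nd (nat_lit 78) (nat_lit 532) (nat_lit 0) (XT.lf (nat_lit 532) (nat_lit 473792922) (nat_lit 0) (nat_lit 1629163495) (nat_lit 456) (nat_lit 1629163495) (nat_lit 224) (nat_lit 1) (nat_lit 217) (nat_lit 1) (nat_lit 223) (nat_lit 1) (nat_lit 397) (nat_lit 409) (nat_lit 334)) (XT.lf (nat_lit 532) (nat_lit 3395316684) (nat_lit 0) (nat_lit 153938625) (nat_lit 456) (nat_lit 153938625) (nat_lit 217) (nat_lit 1) (nat_lit 210) (nat_lit 1) (nat_lit 216) (nat_lit 1) (nat_lit 398) (nat_lit 409) (nat_lit 333)))))) (XT.nd (nat_lit 312) (nat_lit 1368) (nat_lit 0) (XT.nd (nat_lit 156) (nat_lit 380) (nat_lit 0) (XT.nd (nat_lit 78) (nat_lit 456) (nat_lit 0) (XT.lf (nat_lit 76) (nat_lit 1292080377) (nat_lit 0) (nat_lit 1090173169) (nat_lit 532) (nat_lit 1292080377) (nat_lit 211) (nat_lit 1) (nat_lit 210) (nat_lit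 1) (nat_lit 217) (nat_lit 1) (nat_lit 399) (nat_lit 409) (nat_lit 332)) (XT.lf (nat_lit 532) (nat_lit 1781737651) (nat_lit 0) (nat_lit 932080756) (nat_lit 456) (nat_lit 932080756) (nat_lit 211) (nat_lit 1) (nat_lit 204) (nat_lit 1) (nat_lit 210) (nat_lit 1) (nat_lit 400) (nat_lit 409) (nat_lit 331))) (XT.nd (nat_lit 78) (nat_lit 380) (nat_lit 0) (XT.lf (nat_lit 76) (nat_lit 491624373) (nat_lit 0) (nat_lit 2634541836) (nat_lit 532) (nat_lit 491624373) (nat_lit 205) (nat_lit 1) (nat_lit 204) (nat_lit 1) (nat_lit 211) (nat_lit 1) (nat_lit 401) (nat_lit 409) (nat_lit 330)) (XT.lf (nat_lit 456) (nat_lit 183083975) (nat_lit 0) (nat_lit 1703404661) (nat_lit 380) (nat_lit 1703404661) (nat_lit 205) (nat_lit 1) (nat_lit 199) (nat_lit 1) (nat_lit 204) (nat_lit 1) (nat_lit 402) (nat_lit 409) (nat_lit 329)))) (XT.nd (nat_lit 156) (nat_lit 836) (nat_lit 0) (XT.nd (nat_lit 78) (nat_lit 0) (nat_lit 0) (XT.lf (nat_lit 532) (nat_lit 2963722950) (nat_lit 0) (nat_lit 299319634)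 (nat_lit 456) (nat_lit 299319634) (nat_lit 199) (nat_lit 1) (nat_lit 192) (nat_lit 1) (nat_lit 198) (nat_lit 1) (nat_lit 403) (nat_lit 409) (nat_lit 328)) (XT.lf (nat_lit 76) (nat_lit 1076519922) (nat_lit 0) (nat_lit 1381922963) (nat_lit 532) (nat_lit 1076519922) (nat_lit 193) (nat_lit 1) (nat_lit 192) (nat_lit 1) (nat_lit 199) (nat_lit 1) (nat_lit 404) (nat_lit 409) (nat_lit 327))) (XT.nd (nat_lit 78) (nat_lit 456) (nat_lit 0) (XT.lf (nat_lit 456) (nat_lit 1349160886) (nat_lit 0) (nat_lit 1079380743) (nat_lit 380) (nat_lit 1079380743) (nat_lit 193) (nat_lit 1) (nat_lit 187) (nat_lit 1) (nat_lit 192) (nat_lit 1) (nat_lit 405) (nat_lit 409) (nat_lit 326)) (XT.nd (nat_lit 78) (nat_lit 456) (nat_lit 0) (XT.lf (nat_lit 76) (nat_lit 276054710) (nat_lit 0) (nat_lit 2929127529) (nat_lit 456) (nat_lit 276054710) (nat_lit 188) (nat_lit 1) (nat_lit 187) (nat_lit 1) (nat_lit 193) (nat_lit 1) (nat_lit 406) (nat_lit 409) (nat_lit 325)) (XT.lf (nat_lit 76) (nat_lit 1604670352)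 (nat_lit 0) (nat_lit 245323933) (nat_lit 456) (nat_lit 1604670352) (nat_lit 182) (nat_lit 1) (nat_lit 181) (nat_lit 1) (nat_lit 187) (nat_lit 1) (nat_lit 407) (nat_lit 409) (nat_lit 324))))))))
noncomputable def ec77 : XT := (XT.nd (nat_lit 53196) (nat_lit 0) (nat_lit 24168) (XT.nd (nat_lit 52494) (nat_lit 0) (nat_lit 26296) (XT.nd (nat_lit 312) (nat_lit 1520) (nat_lit 0) (XT.nd (nat_lit 156) (nat_lit 380) (nat_lit 0) (XT.nd (nat_lit 78) (nat_lit 0) (nat_lit 0) (XT.lf (nat_lit 456) (nat_lit 2403298068) (nat_lit 0) (nat_lit 512571294) (nat_lit 380) (nat_lit 512571294) (nat_lit 182) (nat_lit 1) (nat_lit 176) (nat_lit 1) (nat_lit 181) (nat_lit 1) (nat_lit 408) (nat_lit 409) (nat_lit 323)) (XT.lf (nat_lit 76) (nat_lit 798572154) (nat_lit 0) (nat_lit 1805274488) (nat_lit 456) (nat_lit 798572154) (nat_lit 177) (nat_lit 1) (nat_lit 176) (nat_lit 1) (nat_lit 182) (nat_lit 1) (nat_lit 409) (nat_lit 409) (nat_lit 322))) (XT.nd (nat_lit 78) (nat_lit 0) (nat_lit 0) (XT.lf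 (nat_lit 456) (nat_lit 794920679) (nat_lit 0) (nat_lit 1290876805) (nat_lit 380) (nat_lit 1290876805) (nat_lit 177) (nat_lit 1) (nat_lit 171) (nat_lit 1) (nat_lit 176) (nat_lit 1) (nat_lit 410) (nat_lit 409) (nat_lit 321)) (XT.lf (nat_lit 76) (nat_lit 1581274) (nat_lit 0) (nat_lit 3348168806) (nat_lit 456) (nat_lit 1581274) (nat_lit 172) (nat_lit 1) (nat_lit 171) (nat_lit 1) (nat_lit 177) (nat_lit 1) (nat_lit 411) (nat_lit 409) (nat_lit 320)))) (XT.nd (nat_lit 156) (nat_lit 760) (nat_lit 0) (XT.nd (nat_lit 78) (nat_lit 380) (nat_lit 0) (XT.lf (nat_lit 76) (nat_lit 1270639852) (nat_lit 0) (nat_lit 784670479) (nat_lit 380) (nat_lit 1270639852) (nat_lit 167) (nat_lit 1) (nat_lit 166) (nat_lit 1) (nat_lit 171) (nat_lit 1) (nat_lit 412) (nat_lit 409) (nat_lit 319)) (XT.lf (nat_lit 456) (nat_lit 1738868164) (nat_lit 0) (nat_lit 781048244) (nat_lit 380) (nat_lit 781048244) (nat_lit 167) (nat_lit 1) (nat_lit 161) (nat_lit 1) (nat_lit 166) (nat_lit 1) (nat_lit 413) (nat_lit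 409) (nat_lit 318))) (XT.nd (nat_lit 78) (nat_lit 760) (nat_lit 0) (XT.lf (nat_lit 76) (nat_lit 470337250) (nat_lit 0) (nat_lit 2335568735) (nat_lit 456) (nat_lit 470337250) (nat_lit 162) (nat_lit 1) (nat_lit 161) (nat_lit 1) (nat_lit 167) (nat_lit 1) (nat_lit 414) (nat_lit 409) (nat_lit 317)) (XT.nd (nat_lit 78) (nat_lit 456) (nat_lit 0) (XT.lf (nat_lit 380) (nat_lit 142766110) (nat_lit 0) (nat_lit 1554469578) (nat_lit 304) (nat_lit 1554469578) (nat_lit 162) (nat_lit 1) (nat_lit 157) (nat_lit 1) (nat_lit 161) (nat_lit 1) (nat_lit 415) (nat_lit 409) (nat_lit 316)) (XT.lf (nat_lit 456) (nat_lit 2591233959) (nat_lit 0) (nat_lit 318114525) (nat_lit 380) (nat_lit 318114525) (nat_lit 157) (nat_lit 1) (nat_lit 151) (nat_lit 1) (nat_lit 156) (nat_lit 1) (nat_lit 416) (nat_lit 409) (nat_lit 315)))))) (XT.nd (nat_lit 312) (nat_lit 0) (nat_lit 152) (XT.nd (nat_lit 156) (nat_lit 0) (nat_lit 76) (XT.nd (nat_lit 78) (nat_lit 0) (nat_lit 0) (XT.lf (nat_lit 1900) (nat_lit 1221772957)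 (nat_lit 0) (nat_lit 1231989820) (nat_lit 1900) (nat_lit 1221772957) (nat_lit 522) (nat_lit 1) (nat_lit 497) (nat_lit 0) (nat_lit 522) (nat_lit 0) (nat_lit 320) (nat_lit 410) (nat_lit 410)) (XT.lf (nat_lit 1900) (nat_lit 4831073968) (nat_lit 76) (nat_lit 1223884624) (nat_lit 0) (nat_lit 1223884624) (nat_lit 522) (nat_lit 1) (nat_lit 498) (nat_lit 1) (nat_lit 497) (nat_lit 0) (nat_lit 321) (nat_lit 410) (nat_lit 409))) (XT.nd (nat_lit 78) (nat_lit 0) (nat_lit 0) (XT.lf (nat_lit 1900) (nat_lit 2372080314) (nat_lit 0) (nat_lit 2463243244) (nat_lit 1824) (nat_lit 2372080314) (nat_lit 523) (nat_lit 1) (nat_lit 498) (nat_lit 1) (nat_lit 522) (nat_lit 1) (nat_lit 322) (nat_lit 410) (nat_lit 408)) (XT.lf (nat_lit 1900) (nat_lit 4642745925) (nat_lit 76) (nat_lit 1247150809) (nat_lit 0) (nat_lit 1247150809) (nat_lit 523) (nat_lit 1) (nat_lit 499) (nat_lit 1) (nat_lit 498) (nat_lit 1) (nat_lit 323) (nat_lit 410) (nat_lit 407)))) (XT.nd (nat_lit 156) (nat_lit 0) (nat_lit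 76) (XT.nd (nat_lit 78) (nat_lit 0) (nat_lit 0) (XT.lf (nat_lit 1900) (nat_lit 2256286541) (nat_lit 0) (nat_lit 2554894792) (nat_lit 1824) (nat_lit 2256286541) (nat_lit 524) (nat_lit 1) (nat_lit 499) (nat_lit 1) (nat_lit 523) (nat_lit 1) (nat_lit 324) (nat_lit 410) (nat_lit 406)) (XT.lf (nat_lit 1900) (nat_lit 4368144132) (nat_lit 76) (nat_lit 1315389402) (nat_lit 0) (nat_lit 1315389402) (nat_lit 524) (nat_lit 1) (nat_lit 500) (nat_lit 1) (nat_lit 499) (nat_lit 1) (nat_lit 325) (nat_lit 410) (nat_lit 405))) (XT.nd (nat_lit 78) (nat_lit 0) (nat_lit 0) (XT.lf (nat_lit 1900) (nat_lit 2098809507) (nat_lit 0) (nat_lit 2733535783) (nat_lit 1824) (nat_lit 2098809507) (nat_lit 525) (nat_lit 1) (nat_lit 500) (nat_lit 1) (nat_lit 524) (nat_lit 1) (nat_lit 326) (nat_lit 410) (nat_lit 404)) (XT.nd (nat_lit 78) (nat_lit 0) (nat_lit 76) (XT.lf (nat_lit 1900) (nat_lit 4012453737) (nat_lit 76) (nat_lit 1425954542) (nat_lit 0) (nat_lit 1425954542) (nat_lit 525) (nat_lit 1) (nat_lit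 501) (nat_lit 1) (nat_lit 500) (nat_lit 1) (nat_lit 327) (nat_lit 410) (nat_lit 403)) (XT.lf (nat_lit 1900) (nat_lit 1902173305) (nat_lit 0) (nat_lit 2994012851) (nat_lit 1824) (nat_lit 1902173305) (nat_lit 526) (nat_lit 1) (nat_lit 501) (nat_lit 1) (nat_lit 525) (nat_lit 1) (nat_lit 328) (nat_lit 410) (nat_lit 402))))))) (XT.nd (nat_lit 702) (nat_lit 2432) (nat_lit 0) (XT.nd (nat_lit 312) (nat_lit 0) (nat_lit 152) (XT.nd (nat_lit 156) (nat_lit 0) (nat_lit 76) (XT.nd (nat_lit 78) (nat_lit 0) (nat_lit 76) (XT.lf (nat_lit 1900) (nat_lit 3580622564) (nat_lit 76) (nat_lit 1576320749) (nat_lit 0) (nat_lit 1576320749) (nat_lit 526) (nat_lit 1) (nat_lit 502) (nat_lit 1) (nat_lit 501) (nat_lit 1) (nat_lit 329) (nat_lit 410) (nat_lit 401)) (XT.lf (nat_lit 1900) (nat_lit 1668786265) (nat_lit 0) (nat_lit 3331407556) (nat_lit 1824) (nat_lit 1668786265) (nat_lit 527) (nat_lit 1) (nat_lit 502) (nat_lit 1) (nat_lit 526) (nat_lit 1) (nat_lit 330) (nat_lit 410) (nat_lit 400)))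 (XT.nd (nat_lit 78) (nat_lit 0) (nat_lit 76) (XT.lf (nat_lit 1900) (nat_lit 3077371030) (nat_lit 76) (nat_lit 1764077902) (nat_lit 0) (nat_lit 1764077902) (nat_lit 527) (nat_lit 1) (nat_lit 503) (nat_lit 1) (nat_lit 502) (nat_lit 1) (nat_lit 331) (nat_lit 410) (nat_lit 399)) (XT.lf (nat_lit 1900) (nat_lit 1400945789) (nat_lit 0) (nat_lit 3741026577) (nat_lit 1824) (nat_lit 1400945789) (nat_lit 528) (nat_lit 1) (nat_lit 503) (nat_lit 1) (nat_lit 527) (nat_lit 1) (nat_lit 332) (nat_lit 410) (nat_lit 398)))) (XT.nd (nat_lit 156) (nat_lit 0) (nat_lit 76) (XT.nd (nat_lit 78) (nat_lit 0) (nat_lit 76) (XT.lf (nat_lit 1900) (nat_lit 2507201667) (nat_lit 76) (nat_lit 1986926421) (nat_lit 0) (nat_lit 1986926421) (nat_lit 528) (nat_lit 1) (nat_lit 504) (nat_lit 1) (nat_lit 503) (nat_lit 1) (nat_lit 333) (nat_lit 410) (nat_lit 397)) (XT.lf (nat_lit 1900) (nat_lit 1100843002) (nat_lit 0) (nat_lit 4218392302) (nat_lit 1824) (nat_lit 1100843002) (nat_lit 529) (nat_lit 1) (nat_lit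 504) (nat_lit 1) (nat_lit 528) (nat_lit 1) (nat_lit 334) (nat_lit 410) (nat_lit 396))) (XT.nd (nat_lit 78) (nat_lit 0) (nat_lit 76) (XT.lf (nat_lit 1900) (nat_lit 1874408266) (nat_lit 76) (nat_lit 2242672641) (nat_lit 0) (nat_lit 2242672641) (nat_lit 529) (nat_lit 1) (nat_lit 505) (nat_lit 1) (nat_lit 504) (nat_lit 1) (nat_lit 335) (nat_lit 410) (nat_lit 395)) (XT.nd (nat_lit 78) (nat_lit 0) (nat_lit 0) (XT.lf (nat_lit 1900) (nat_lit 770567218) (nat_lit 0) (nat_lit 4759233794) (nat_lit 1824) (nat_lit 770567218) (nat_lit 530) (nat_lit 1) (nat_lit 505) (nat_lit 1) (nat_lit 529) (nat_lit 1) (nat_lit 336) (nat_lit 410) (nat_lit 394)) (XT.lf (nat_lit 1900) (nat_lit 1183084640) (nat_lit 76) (nat_lit 2529224377) (nat_lit 0) (nat_lit 2529224377) (nat_lit 530) (nat_lit 1) (nat_lit 506) (nat_lit 1) (nat_lit 505) (nat_lit 1) (nat_lit 337) (nat_lit 410) (nat_lit 393)))))) (XT.nd (nat_lit 312) (nat_lit 988) (nat_lit 0) (XT.nd (nat_lit 156) (nat_lit 1824) (nat_lit 0) (XT.nd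 (nat_lit 78) (nat_lit 0) (nat_lit 0) (XT.lf (nat_lit 1900) (nat_lit 412110215) (nat_lit 0) (nat_lit 5359478125) (nat_lit 1824) (nat_lit 412110215) (nat_lit 531) (nat_lit 1) (nat_lit 506) (nat_lit 1) (nat_lit 530) (nat_lit 1) (nat_lit 338) (nat_lit 410) (nat_lit 392)) (XT.lf (nat_lit 1900) (nat_lit 437133049) (nat_lit 76) (nat_lit 2844586658) (nat_lit 0) (nat_lit 2844586658) (nat_lit 531) (nat_lit 1) (nat_lit 507) (nat_lit 1) (nat_lit 506) (nat_lit 1) (nat_lit 339) (nat_lit 410) (nat_lit 391))) (XT.nd (nat_lit 78) (nat_lit 1900) (nat_lit 0) (XT.lf (nat_lit 1900) (nat_lit 27370348) (nat_lit 0) (nat_lit 6015242054) (nat_lit 1824) (nat_lit 27370348) (nat_lit 532) (nat_lit 1) (nat_lit 507) (nat_lit 1) (nat_lit 531) (nat_lit 1) (nat_lit 340) (nat_lit 410) (nat_lit 390)) (XT.lf (nat_lit 1976) (nat_lit 2829465506) (nat_lit 0) (nat_lit 355009834) (nat_lit 1900) (nat_lit 2829465506) (nat_lit 508) (nat_lit 1) (nat_lit 482) (nat_lit 1) (nat_lit 507) (nat_lit 1) (nat_lit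 341) (nat_lit 410) (nat_lit 389)))) (XT.nd (nat_lit 156) (nat_lit 988) (nat_lit 0) (XT.nd (nat_lit 78) (nat_lit 0) (nat_lit 76) (XT.lf (nat_lit 1976) (nat_lit 5200275263) (nat_lit 76) (nat_lit 379331381) (nat_lit 0) (nat_lit 379331381) (nat_lit 508) (nat_lit 1) (nat_lit 483) (nat_lit 1) (nat_lit 482) (nat_lit 1) (nat_lit 342) (nat_lit 410) (nat_lit 388)) (XT.lf (nat_lit 1976) (nat_lit 2358086926) (nat_lit 0) (nat_lit 1188164562) (nat_lit 1900) (nat_lit 2358086926) (nat_lit 509) (nat_lit 1) (nat_lit 483) (nat_lit 1) (nat_lit 508) (nat_lit 1) (nat_lit 343) (nat_lit 410) (nat_lit 387))) (XT.nd (nat_lit 78) (nat_lit 1064) (nat_lit 0) (XT.lf (nat_lit 1976) (nat_lit 4233747757) (nat_lit 76) (nat_lit 808454179) (nat_lit 0) (nat_lit 808454179) (nat_lit 509) (nat_lit 1) (nat_lit 484) (nat_lit 1) (nat_lit 483) (nat_lit 1) (nat_lit 344) (nat_lit 410) (nat_lit 386)) (XT.nd (nat_lit 78) (nat_lit 1140) (nat_lit 0) (XT.lf (nat_lit 76) (nat_lit 1866371465) (nat_lit 0) (nat_lit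 2064733713) (nat_lit 1900) (nat_lit 1866371465) (nat_lit 485) (nat_lit 1) (nat_lit 484) (nat_lit 1) (nat_lit 509) (nat_lit 1) (nat_lit 345) (nat_lit 410) (nat_lit 385)) (XT.lf (nat_lit 1216) (nat_lit 3227977954) (nat_lit 0) (nat_lit 1258547802) (nat_lit 1140) (nat_lit 1258547802) (nat_lit 485) (nat_lit 1) (nat_lit 469) (nat_lit 1) (nat_lit 484) (nat_lit 1) (nat_lit 346) (nat_lit 410) (nat_lit 384))))))))
noncomputable def ec78 : XT := (XT.nd (nat_lit 1404) (nat_lit 6536) (nat_lit 0) (XT.nd (nat_lit 702) (nat_lit 3952) (nat_lit 0) (XT.nd (nat_lit 312) (nat_lit 2660) (nat_lit 0) (XT.nd (nat_lit 156) (nat_lit 912) (nat_lit 0) (XT.nd (nat_lit 78) (nat_lit 912) (nat_lit 0) (XT.lf (nat_lit 76) (nat_lit 1355866496) (nat_lit 0) (nat_lit 2981545828) (nat_lit 1216) (nat_lit 1355866496) (nat_lit 470) (nat_lit 1) (nat_lit 469) (nat_lit 1) (nat_lit 485) (nat_lit 1) (nat_lit 347) (nat_lit 410) (nat_lit 383)) (XT.lf (nat_lit 988) (nat_lit 2185995048) (nat_lit 0) (nat_lit 1728060000)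 (nat_lit 912) (nat_lit 1728060000) (nat_lit 470) (nat_lit 1) (nat_lit 457) (nat_lit 1) (nat_lit 469) (nat_lit 1) (nat_lit 348) (nat_lit 410) (nat_lit 382))) (XT.nd (nat_lit 78) (nat_lit 912) (nat_lit 0) (XT.lf (nat_lit 76) (nat_lit 828044451) (nat_lit 0) (nat_lit 3935581728) (nat_lit 988) (nat_lit 828044451) (nat_lit 458) (nat_lit 1) (nat_lit 457) (nat_lit 1) (nat_lit 470) (nat_lit 1) (nat_lit 349) (nat_lit 410) (nat_lit 381)) (XT.lf (nat_lit 988) (nat_lit 1110681088) (nat_lit 0) (nat_lit 2215513272) (nat_lit 912) (nat_lit 2215513272) (nat_lit 458) (nat_lit 1) (nat_lit 445) (nat_lit 1) (nat_lit 457) (nat_lit 1) (nat_lit 350) (nat_lit 410) (nat_lit 380)))) (XT.nd (nat_lit 156) (nat_lit 1824) (nat_lit 0) (XT.nd (nat_lit 78) (nat_lit 836) (nat_lit 0) (XT.lf (nat_lit 76) (nat_lit 284306020) (nat_lit 0) (nat_lit 4923968034) (nat_lit 988) (nat_lit 284306020) (nat_lit 446) (nat_lit 1) (nat_lit 445) (nat_lit 1) (nat_lit 458) (nat_lit 1) (nat_lit 351) (nat_lit 410) (nat_lit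 379)) (XT.lf (nat_lit 912) (nat_lit 4777272) (nat_lit 0) (nat_lit 2719501672) (nat_lit 836) (nat_lit 2719501672) (nat_lit 446) (nat_lit 1) (nat_lit 434) (nat_lit 1) (nat_lit 445) (nat_lit 1) (nat_lit 352) (nat_lit 410) (nat_lit 378))) (XT.nd (nat_lit 78) (nat_lit 836) (nat_lit 0) (XT.lf (nat_lit 988) (nat_lit 4851366518) (nat_lit 0) (nat_lit 272214033) (nat_lit 912) (nat_lit 272214033) (nat_lit 434) (nat_lit 1) (nat_lit 421) (nat_lit 1) (nat_lit 433) (nat_lit 1) (nat_lit 353) (nat_lit 410) (nat_lit 377)) (XT.nd (nat_lit 78) (nat_lit 836) (nat_lit 0) (XT.lf (nat_lit 76) (nat_lit 2116908672) (nat_lit 0) (nat_lit 1114301536) (nat_lit 988) (nat_lit 2116908672) (nat_lit 422) (nat_lit 1) (nat_lit 421) (nat_lit 1) (nat_lit 434) (nat_lit 1) (nat_lit 354) (nat_lit 410) (nat_lit 376)) (XT.lf (nat_lit 912) (nat_lit 3621046047) (nat_lit 0) (nat_lit 840094102) (nat_lit 836) (nat_lit 840094102) (nat_lit 422) (nat_lit 1) (nat_lit 410) (nat_lit 1) (nat_lit 421) (nat_lit 1) (nat_lit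 355) (nat_lit 410) (nat_lit 375)))))) (XT.nd (nat_lit 312) (nat_lit 2356) (nat_lit 0) (XT.nd (nat_lit 156) (nat_lit 760) (nat_lit 0) (XT.nd (nat_lit 78) (nat_lit 836) (nat_lit 0) (XT.lf (nat_lit 76) (nat_lit 1498154718) (nat_lit 0) (nat_lit 2258489287) (nat_lit 912) (nat_lit 1498154718) (nat_lit 411) (nat_lit 1) (nat_lit 410) (nat_lit 1) (nat_lit 422) (nat_lit 1) (nat_lit 356) (nat_lit 410) (nat_lit 374)) (XT.lf (nat_lit 912) (nat_lit 2368964081) (nat_lit 0) (nat_lit 1420009136) (nat_lit 836) (nat_lit 1420009136) (nat_lit 411) (nat_lit 1) (nat_lit 399) (nat_lit 1) (nat_lit 410) (nat_lit 1) (nat_lit 357) (nat_lit 410) (nat_lit 373))) (XT.nd (nat_lit 78) (nat_lit 760) (nat_lit 0) (XT.lf (nat_lit 76) (nat_lit 869115555) (nat_lit 0) (nat_lit 3425525616) (nat_lit 912) (nat_lit 869115555) (nat_lit 400) (nat_lit 1) (nat_lit 399) (nat_lit 1) (nat_lit 411) (nat_lit 1) (nat_lit 358) (nat_lit 410) (nat_lit 372)) (XT.lf (nat_lit 836) (nat_lit 1097329100) (nat_lit 0) (nat_lit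 2010823443) (nat_lit 760) (nat_lit 2010823443) (nat_lit 400) (nat_lit 1) (nat_lit 389) (nat_lit 1) (nat_lit 399) (nat_lit 1) (nat_lit 359) (nat_lit 410) (nat_lit 371)))) (XT.nd (nat_lit 156) (nat_lit 1520) (nat_lit 0) (XT.nd (nat_lit 78) (nat_lit 836) (nat_lit 0) (XT.lf (nat_lit 76) (nat_lit 230863358) (nat_lit 0) (nat_lit 4613204092) (nat_lit 836) (nat_lit 230863358) (nat_lit 390) (nat_lit 1) (nat_lit 389) (nat_lit 1) (nat_lit 400) (nat_lit 1) (nat_lit 360) (nat_lit 410) (nat_lit 370)) (XT.lf (nat_lit 76) (nat_lit 2420940682) (nat_lit 0) (nat_lit 189247897) (nat_lit 836) (nat_lit 2420940682) (nat_lit 379) (nat_lit 1) (nat_lit 378) (nat_lit 1) (nat_lit 389) (nat_lit 1) (nat_lit 361) (nat_lit 410) (nat_lit 369))) (XT.nd (nat_lit 78) (nat_lit 760) (nat_lit 0) (XT.lf (nat_lit 836) (nat_lit 4162343372) (nat_lit 0) (nat_lit 412850414) (nat_lit 760) (nat_lit 412850414) (nat_lit 379) (nat_lit 1) (nat_lit 368) (nat_lit 1) (nat_lit 378) (nat_lit 1) (nat_lit 362) (nat_lit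 410) (nat_lit 368)) (XT.nd (nat_lit 78) (nat_lit 760) (nat_lit 0) (XT.lf (nat_lit 76) (nat_lit 1734282232) (nat_lit 0) (nat_lit 1476698985) (nat_lit 836) (nat_lit 1734282232) (nat_lit 369) (nat_lit 1) (nat_lit 368) (nat_lit 1) (nat_lit 379) (nat_lit 1) (nat_lit 363) (nat_lit 410) (nat_lit 367)) (XT.lf (nat_lit 836) (nat_lit 2778673940) (nat_lit 0) (nat_lit 1062228552) (nat_lit 760) (nat_lit 1062228552) (nat_lit 369) (nat_lit 1) (nat_lit 358) (nat_lit 1) (nat_lit 368) (nat_lit 1) (nat_lit 364) (nat_lit 410) (nat_lit 366))))))) (XT.nd (nat_lit 702) (nat_lit 3116) (nat_lit 0) (XT.nd (nat_lit 312) (nat_lit 1976) (nat_lit 0) (XT.nd (nat_lit 156) (nat_lit 760) (nat_lit 0) (XT.nd (nat_lit 78) (nat_lit 684) (nat_lit 0) (XT.lf (nat_lit 76) (nat_lit 1041954433) (nat_lit 0) (nat_lit 2777555077) (nat_lit 836) (nat_lit 1041954433) (nat_lit 359) (nat_lit 1) (nat_lit 358) (nat_lit 1) (nat_lit 369) (nat_lit 1) (nat_lit 365) (nat_lit 410) (nat_lit 365)) (XT.lf (nat_lit 760) (nat_lit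 1384493250) (nat_lit 0) (nat_lit 1717881147) (nat_lit 684) (nat_lit 1717881147) (nat_lit 359) (nat_lit 1) (nat_lit 349) (nat_lit 1) (nat_lit 358) (nat_lit 1) (nat_lit 366) (nat_lit 410) (nat_lit 364))) (XT.nd (nat_lit 78) (nat_lit 760) (nat_lit 0) (XT.lf (nat_lit 76) (nat_lit 344811417) (nat_lit 0) (nat_lit 4090052538) (nat_lit 760) (nat_lit 344811417) (nat_lit 350) (nat_lit 1) (nat_lit 349) (nat_lit 1) (nat_lit 359) (nat_lit 1) (nat_lit 367) (nat_lit 410) (nat_lit 363)) (XT.lf (nat_lit 76) (nat_lit 2360536499) (nat_lit 0) (nat_lit 18287873) (nat_lit 760) (nat_lit 2360536499) (nat_lit 340) (nat_lit 1) (nat_lit 339) (nat_lit 1) (nat_lit 349) (nat_lit 1) (nat_lit 368) (nat_lit 410) (nat_lit 362)))) (XT.nd (nat_lit 156) (nat_lit 1292) (nat_lit 0) (XT.nd (nat_lit 78) (nat_lit 0) (nat_lit 0) (XT.lf (nat_lit 760) (nat_lit 3991670409) (nat_lit 0) (nat_lit 353993952) (nat_lit 684) (nat_lit 353993952) (nat_lit 340) (nat_lit 1) (nat_lit 330) (nat_lit 1) (nat_lit 339) (nat_lit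 1) (nat_lit 369) (nat_lit 410) (nat_lit 361)) (XT.lf (nat_lit 76) (nat_lit 1625067464) (nat_lit 0) (nat_lit 1410080977) (nat_lit 760) (nat_lit 1625067464) (nat_lit 331) (nat_lit 1) (nat_lit 330) (nat_lit 1) (nat_lit 340) (nat_lit 1) (nat_lit 370) (nat_lit 410) (nat_lit 360))) (XT.nd (nat_lit 78) (nat_lit 608) (nat_lit 0) (XT.lf (nat_lit 760) (nat_lit 2513862512) (nat_lit 0) (nat_lit 1053751234) (nat_lit 684) (nat_lit 1053751234) (nat_lit 331) (nat_lit 1) (nat_lit 321) (nat_lit 1) (nat_lit 330) (nat_lit 1) (nat_lit 371) (nat_lit 410) (nat_lit 359)) (XT.nd (nat_lit 78) (nat_lit 608) (nat_lit 0) (XT.lf (nat_lit 76) (nat_lit 887689356) (nat_lit 0) (nat_lit 2807570692) (nat_lit 760) (nat_lit 887689356) (nat_lit 322) (nat_lit 1) (nat_lit 321) (nat_lit 1) (nat_lit 331) (nat_lit 1) (nat_lit 372) (nat_lit 410) (nat_lit 358)) (XT.lf (nat_lit 684) (nat_lit 1032904128) (nat_lit 0) (nat_lit 1756010387) (nat_lit 608) (nat_lit 1756010387) (nat_lit 322) (nat_lit 1) (nat_lit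 313) (nat_lit 1) (nat_lit 321) (nat_lit 1) (nat_lit 373) (nat_lit 410) (nat_lit 357)))))) (XT.nd (nat_lit 312) (nat_lit 1824) (nat_lit 0) (XT.nd (nat_lit 156) (nat_lit 608) (nat_lit 0) (XT.nd (nat_lit 78) (nat_lit 684) (nat_lit 0) (XT.lf (nat_lit 76) (nat_lit 149073722) (nat_lit 0) (nat_lit 4209364407) (nat_lit 684) (nat_lit 149073722) (nat_lit 314) (nat_lit 1) (nat_lit 313) (nat_lit 1) (nat_lit 322) (nat_lit 1) (nat_lit 374) (nat_lit 410) (nat_lit 356)) (XT.lf (nat_lit 76) (nat_lit 2013117996) (nat_lit 0) (nat_lit 443994973) (nat_lit 684) (nat_lit 2013117996) (nat_lit 305) (nat_lit 1) (nat_lit 304) (nat_lit 1) (nat_lit 313) (nat_lit 1) (nat_lit 375) (nat_lit 410) (nat_lit 355))) (XT.nd (nat_lit 78) (nat_lit 0) (nat_lit 0) (XT.lf (nat_lit 684) (nat_lit 3261021348) (nat_lit 0) (nat_lit 586263144) (nat_lit 608) (nat_lit 586263144) (nat_lit 305) (nat_lit 1) (nat_lit 296) (nat_lit 1) (nat_lit 304) (nat_lit 1) (nat_lit 376) (nat_lit 410) (nat_lit 354)) (XT.lf (nat_lit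 76) (nat_lit 1244607372) (nat_lit 0) (nat_lit 1907945388) (nat_lit 684) (nat_lit 1244607372) (nat_lit 297) (nat_lit 1) (nat_lit 296) (nat_lit 1) (nat_lit 305) (nat_lit 1) (nat_lit 377) (nat_lit 410) (nat_lit 353)))) (XT.nd (nat_lit 156) (nat_lit 1216) (nat_lit 0) (XT.nd (nat_lit 78) (nat_lit 0) (nat_lit 0) (XT.lf (nat_lit 684) (nat_lit 1719989331) (nat_lit 0) (nat_lit 1320625328) (nat_lit 608) (nat_lit 1320625328) (nat_lit 297) (nat_lit 1) (nat_lit 288) (nat_lit 1) (nat_lit 296) (nat_lit 1) (nat_lit 378) (nat_lit 410) (nat_lit 352)) (XT.lf (nat_lit 76) (nat_lit 477228055) (nat_lit 0) (nat_lit 3371344700) (nat_lit 684) (nat_lit 477228055) (nat_lit 289) (nat_lit 1) (nat_lit 288) (nat_lit 1) (nat_lit 297) (nat_lit 1) (nat_lit 379) (nat_lit 410) (nat_lit 351))) (XT.nd (nat_lit 78) (nat_lit 684) (nat_lit 0) (XT.lf (nat_lit 608) (nat_lit 181753447) (nat_lit 0) (nat_lit 2054434087) (nat_lit 532) (nat_lit 2054434087) (nat_lit 289) (nat_lit 1) (nat_lit 281) (nat_lit 1)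 (nat_lit 288) (nat_lit 1) (nat_lit 380) (nat_lit 410) (nat_lit 350)) (XT.nd (nat_lit 78) (nat_lit 0) (nat_lit 0) (XT.lf (nat_lit 684) (nat_lit 3682752481) (nat_lit 0) (nat_lit 286602892) (nat_lit 608) (nat_lit 286602892) (nat_lit 281) (nat_lit 1) (nat_lit 272) (nat_lit 1) (nat_lit 280) (nat_lit 1) (nat_lit 381) (nat_lit 410) (nat_lit 349)) (XT.lf (nat_lit 76) (nat_lit 1443268725) (nat_lit 0) (nat_lit 1334935776) (nat_lit 684) (nat_lit 1443268725) (nat_lit 273) (nat_lit 1) (nat_lit 272) (nat_lit 1) (nat_lit 281) (nat_lit 1) (nat_lit 382) (nat_lit 410) (nat_lit 348))))))))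
noncomputable def ec79 : XT := (XT.nd (nat_lit 1404) (nat_lit 3648) (nat_lit 0) (XT.nd (nat_lit 702) (nat_lit 2280) (nat_lit 0) (XT.nd (nat_lit 312) (nat_lit 1596) (nat_lit 0) (XT.nd (nat_lit 156) (nat_lit 1140) (nat_lit 0) (XT.nd (nat_lit 78) (nat_lit 0) (nat_lit 0) (XT.lf (nat_lit 608) (nat_lit 2097152006) (nat_lit 0) (nat_lit 1045170076) (nat_lit 532) (nat_lit 1045170076) (nat_lit 273) (nat_lit 1) (nat_lit 265) (nat_lit 1) (nat_lit 272) (nat_lit 1) (nat_lit 383) (nat_lit 410) (nat_lit 347)) (XT.lf (nat_lit 76) (nat_lit 654678142) (nat_lit 0) (nat_lit 2844548780) (nat_lit 608) (nat_lit 654678142) (nat_lit 266) (nat_lit 1) (nat_lit 265) (nat_lit 1) (nat_lit 273) (nat_lit 1) (nat_lit 384) (nat_lit 410) (nat_lit 346))) (XT.nd (nat_lit 78) (nat_lit 608) (nat_lit 0) (XT.lf (nat_lit 608) (nat_lit 518293401) (nat_lit 0) (nat_lit 1801158098) (nat_lit 532) (nat_lit 1801158098) (nat_lit 266) (nat_lit 1) (nat_lit 258) (nat_lit 1) (nat_lit 265) (nat_lit 1) (nat_lit 385)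 (nat_lit 410) (nat_lit 345)) (XT.lf (nat_lit 608) (nat_lit 3828855971) (nat_lit 0) (nat_lit 129487890) (nat_lit 532) (nat_lit 129487890) (nat_lit 258) (nat_lit 1) (nat_lit 250) (nat_lit 1) (nat_lit 257) (nat_lit 1) (nat_lit 386) (nat_lit 410) (nat_lit 344)))) (XT.nd (nat_lit 156) (nat_lit 1064) (nat_lit 0) (XT.nd (nat_lit 78) (nat_lit 532) (nat_lit 0) (XT.lf (nat_lit 76) (nat_lit 1507966899) (nat_lit 0) (nat_lit 1039199635) (nat_lit 608) (nat_lit 1507966899) (nat_lit 251) (nat_lit 1) (nat_lit 250) (nat_lit 1) (nat_lit 258) (nat_lit 1) (nat_lit 387) (nat_lit 410) (nat_lit 343)) (XT.lf (nat_lit 608) (nat_lit 2212114438) (nat_lit 0) (nat_lit 905413884) (nat_lit 532) (nat_lit 905413884) (nat_lit 251) (nat_lit 1) (nat_lit 243) (nat_lit 1) (nat_lit 250) (nat_lit 1) (nat_lit 388) (nat_lit 410) (nat_lit 342))) (XT.nd (nat_lit 78) (nat_lit 1064) (nat_lit 0) (XT.lf (nat_lit 76) (nat_lit 704703238) (nat_lit 0) (nat_lit 2581688451) (nat_lit 608) (nat_lit 704703238) (nat_lit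 244) (nat_lit 1) (nat_lit 243) (nat_lit 1) (nat_lit 251) (nat_lit 1) (nat_lit 389) (nat_lit 410) (nat_lit 341)) (XT.nd (nat_lit 78) (nat_lit 608) (nat_lit 0) (XT.lf (nat_lit 532) (nat_lit 605453094) (nat_lit 0) (nat_lit 1677042988) (nat_lit 456) (nat_lit 1677042988) (nat_lit 244) (nat_lit 1) (nat_lit 237) (nat_lit 1) (nat_lit 243) (nat_lit 1) (nat_lit 390) (nat_lit 410) (nat_lit 340)) (XT.lf (nat_lit 608) (nat_lit 3742957148) (nat_lit 0) (nat_lit 92758763) (nat_lit 532) (nat_lit 92758763) (nat_lit 237) (nat_lit 1) (nat_lit 229) (nat_lit 1) (nat_lit 236) (nat_lit 1) (nat_lit 391) (nat_lit 410) (nat_lit 339)))))) (XT.nd (nat_lit 312) (nat_lit 1368) (nat_lit 0) (XT.nd (nat_lit 156) (nat_lit 456) (nat_lit 0) (XT.nd (nat_lit 78) (nat_lit 456) (nat_lit 0) (XT.lf (nat_lit 76) (nat_lit 1459980259) (nat_lit 0) (nat_lit 977495751) (nat_lit 608) (nat_lit 1459980259) (nat_lit 230) (nat_lit 1) (nat_lit 229) (nat_lit 1) (nat_lit 237) (nat_lit 1) (nat_lit 392) (nat_lit 410)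 (nat_lit 338)) (XT.lf (nat_lit 532) (nat_lit 2106670184) (nat_lit 0) (nat_lit 880124894) (nat_lit 456) (nat_lit 880124894) (nat_lit 230) (nat_lit 1) (nat_lit 223) (nat_lit 1) (nat_lit 229) (nat_lit 1) (nat_lit 393) (nat_lit 410) (nat_lit 337))) (XT.nd (nat_lit 78) (nat_lit 456) (nat_lit 0) (XT.lf (nat_lit 76) (nat_lit 647687630) (nat_lit 0) (nat_lit 2541333609) (nat_lit 532) (nat_lit 647687630) (nat_lit 224) (nat_lit 1) (nat_lit 223) (nat_lit 1) (nat_lit 230) (nat_lit 1) (nat_lit 394) (nat_lit 410) (nat_lit 336)) (XT.lf (nat_lit 532) (nat_lit 483268781) (nat_lit 0) (nat_lit 1661746765) (nat_lit 456) (nat_lit 1661746765) (nat_lit 224) (nat_lit 1) (nat_lit 217) (nat_lit 1) (nat_lit 223) (nat_lit 1) (nat_lit 395) (nat_lit 410) (nat_lit 335)))) (XT.nd (nat_lit 156) (nat_lit 836) (nat_lit 0) (XT.nd (nat_lit 78) (nat_lit 0) (nat_lit 0) (XT.lf (nat_lit 532) (nat_lit 3463223018) (nat_lit 0) (nat_lit 157017398) (nat_lit 456) (nat_lit 157017398) (nat_lit 217) (nat_lit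 1) (nat_lit 210) (nat_lit 1) (nat_lit 216) (nat_lit 1) (nat_lit 396) (nat_lit 410) (nat_lit 334)) (XT.lf (nat_lit 76) (nat_lit 1317921984) (nat_lit 0) (nat_lit 1111976633) (nat_lit 532) (nat_lit 1317921984) (nat_lit 211) (nat_lit 1) (nat_lit 210) (nat_lit 1) (nat_lit 217) (nat_lit 1) (nat_lit 397) (nat_lit 410) (nat_lit 333))) (XT.nd (nat_lit 78) (nat_lit 380) (nat_lit 0) (XT.lf (nat_lit 532) (nat_lit 1817372404) (nat_lit 0) (nat_lit 950722371) (nat_lit 456) (nat_lit 950722371) (nat_lit 211) (nat_lit 1) (nat_lit 204) (nat_lit 1) (nat_lit 210) (nat_lit 1) (nat_lit 398) (nat_lit 410) (nat_lit 332)) (XT.nd (nat_lit 78) (nat_lit 380) (nat_lit 0) (XT.lf (nat_lit 76) (nat_lit 501456860) (nat_lit 0) (nat_lit 2687232673) (nat_lit 532) (nat_lit 501456860) (nat_lit 205) (nat_lit 1) (nat_lit 204) (nat_lit 1) (nat_lit 211) (nat_lit 1) (nat_lit 399) (nat_lit 410) (nat_lit 331)) (XT.lf (nat_lit 456) (nat_lit 186745655) (nat_lit 0) (nat_lit 1737472754) (nat_lit 380) (nat_lit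 1737472754) (nat_lit 205) (nat_lit 1) (nat_lit 199) (nat_lit 1) (nat_lit 204) (nat_lit 1) (nat_lit 400) (nat_lit 410) (nat_lit 330))))))) (XT.nd (nat_lit 702) (nat_lit 1520) (nat_lit 0) (XT.nd (nat_lit 312) (nat_lit 1216) (nat_lit 0) (XT.nd (nat_lit 156) (nat_lit 380) (nat_lit 0) (XT.nd (nat_lit 78) (nat_lit 0) (nat_lit 0) (XT.lf (nat_lit 532) (nat_lit 3022997409) (nat_lit 0) (nat_lit 305306026) (nat_lit 456) (nat_lit 305306026) (nat_lit 199) (nat_lit 1) (nat_lit 192) (nat_lit 1) (nat_lit 198) (nat_lit 1) (nat_lit 401) (nat_lit 410) (nat_lit 329)) (XT.lf (nat_lit 76) (nat_lit 1098050320) (nat_lit 0) (nat_lit 1409561422) (nat_lit 532) (nat_lit 1098050320) (nat_lit 193) (nat_lit 1) (nat_lit 192) (nat_lit 1) (nat_lit 199) (nat_lit 1) (nat_lit 402) (nat_lit 410) (nat_lit 328))) (XT.nd (nat_lit 78) (nat_lit 0) (nat_lit 0) (XT.lf (nat_lit 456) (nat_lit 1376144104) (nat_lit 0) (nat_lit 1100968358) (nat_lit 380) (nat_lit 1100968358) (nat_lit 193) (nat_lit 1) (nat_lit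 187) (nat_lit 1) (nat_lit 192) (nat_lit 1) (nat_lit 403) (nat_lit 410) (nat_lit 327)) (XT.lf (nat_lit 76) (nat_lit 281575805) (nat_lit 0) (nat_lit 2987710080) (nat_lit 456) (nat_lit 281575805) (nat_lit 188) (nat_lit 1) (nat_lit 187) (nat_lit 1) (nat_lit 193) (nat_lit 1) (nat_lit 404) (nat_lit 410) (nat_lit 326)))) (XT.nd (nat_lit 156) (nat_lit 380) (nat_lit 0) (XT.nd (nat_lit 78) (nat_lit 380) (nat_lit 0) (XT.lf (nat_lit 76) (nat_lit 1636763759) (nat_lit 0) (nat_lit 250230411) (nat_lit 456) (nat_lit 1636763759) (nat_lit 182) (nat_lit 1) (nat_lit 181) (nat_lit 1) (nat_lit 187) (nat_lit 1) (nat_lit 405) (nat_lit 410) (nat_lit 325)) (XT.lf (nat_lit 456) (nat_lit 2451364030) (nat_lit 0) (nat_lit 522822720) (nat_lit 380) (nat_lit 522822720) (nat_lit 182) (nat_lit 1) (nat_lit 176) (nat_lit 1) (nat_lit 181) (nat_lit 1) (nat_lit 406) (nat_lit 410) (nat_lit 324))) (XT.nd (nat_lit 78) (nat_lit 380) (nat_lit 0) (XT.lf (nat_lit 76) (nat_lit 814543597) (nat_lit 0) (nat_lit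 1841379978) (nat_lit 456) (nat_lit 814543597) (nat_lit 177) (nat_lit 1) (nat_lit 176) (nat_lit 1) (nat_lit 182) (nat_lit 1) (nat_lit 407) (nat_lit 410) (nat_lit 323)) (XT.nd (nat_lit 78) (nat_lit 0) (nat_lit 0) (XT.lf (nat_lit 456) (nat_lit 810819092) (nat_lit 0) (nat_lit 1316694342) (nat_lit 380) (nat_lit 1316694342) (nat_lit 177) (nat_lit 1) (nat_lit 171) (nat_lit 1) (nat_lit 176) (nat_lit 1) (nat_lit 408) (nat_lit 410) (nat_lit 322)) (XT.lf (nat_lit 76) (nat_lit 1612900) (nat_lit 0) (nat_lit 3415132182) (nat_lit 456) (nat_lit 1612900) (nat_lit 172) (nat_lit 1) (nat_lit 171) (nat_lit 1) (nat_lit 177) (nat_lit 1) (nat_lit 409) (nat_lit 410) (nat_lit 321)))))) (XT.nd (nat_lit 390) (nat_lit 0) (nat_lit 0) (XT.nd (nat_lit 156) (nat_lit 760) (nat_lit 0) (XT.nd (nat_lit 78) (nat_lit 380) (nat_lit 0) (XT.lf (nat_lit 76) (nat_lit 1296052649) (nat_lit 0) (nat_lit 800363889) (nat_lit 380) (nat_lit 1296052649) (nat_lit 167) (nat_lit 1) (nat_lit 166) (nat_lit 1) (nat_lit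 171) (nat_lit 1) (nat_lit 410) (nat_lit 410) (nat_lit 320)) (XT.lf (nat_lit 456) (nat_lit 1773645527) (nat_lit 0) (nat_lit 796669209) (nat_lit 380) (nat_lit 796669209) (nat_lit 167) (nat_lit 1) (nat_lit 161) (nat_lit 1) (nat_lit 166) (nat_lit 1) (nat_lit 411) (nat_lit 410) (nat_lit 319))) (XT.nd (nat_lit 78) (nat_lit 760) (nat_lit 0) (XT.lf (nat_lit 76) (nat_lit 479743995) (nat_lit 0) (nat_lit 2382280110) (nat_lit 456) (nat_lit 479743995) (nat_lit 162) (nat_lit 1) (nat_lit 161) (nat_lit 1) (nat_lit 167) (nat_lit 1) (nat_lit 412) (nat_lit 410) (nat_lit 318)) (XT.nd (nat_lit 78) (nat_lit 456) (nat_lit 0) (XT.lf (nat_lit 380) (nat_lit 145621432) (nat_lit 0) (nat_lit 1585558970) (nat_lit 304) (nat_lit 1585558970) (nat_lit 162) (nat_lit 1) (nat_lit 157) (nat_lit 1) (nat_lit 161) (nat_lit 1) (nat_lit 413) (nat_lit 410) (nat_lit 317)) (XT.lf (nat_lit 456) (nat_lit 2643058638) (nat_lit 0) (nat_lit 324476816) (nat_lit 380) (nat_lit 324476816) (nat_lit 157) (nat_lit 1)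 (nat_lit 151) (nat_lit 1) (nat_lit 156) (nat_lit 1) (nat_lit 414) (nat_lit 410) (nat_lit 316))))) (XT.nd (nat_lit 51870) (nat_lit 0) (nat_lit 26296) (XT.nd (nat_lit 51792) (nat_lit 0) (nat_lit 26296) (XT.lf (nat_lit 76) (nat_lit 912085693) (nat_lit 0) (nat_lit 1443236881) (nat_lit 456) (nat_lit 912085693) (nat_lit 152) (nat_lit 1) (nat_lit 151) (nat_lit 1) (nat_lit 157) (nat_lit 1) (nat_lit 415) (nat_lit 410) (nat_lit 315)) (XT.lf (nat_lit 1900) (nat_lit 1246208416) (nat_lit 0) (nat_lit 1256629617) (nat_lit 1900) (nat_lit 1246208416) (nat_lit 522) (nat_lit 1) (nat_lit 497) (nat_lit 0) (nat_lit 522) (nat_lit 0) (nat_lit 318) (nat_lit 411) (nat_lit 411))) (XT.nd (nat_lit 78) (nat_lit 0) (nat_lit 76) (XT.lf (nat_lit 1900) (nat_lit 4927695447) (nat_lit 76) (nat_lit 1248362317) (nat_lit 0) (nat_lit 1248362317) (nat_lit 522) (nat_lit 1) (nat_lit 498) (nat_lit 1) (nat_lit 497) (nat_lit 0) (nat_lit 319) (nat_lit 411) (nat_lit 410)) (XT.nd (nat_lit 78) (nat_lit 0) (nat_lit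 0) (XT.lf (nat_lit 1900) (nat_lit 2419521920) (nat_lit 0) (nat_lit 2512508109) (nat_lit 1824) (nat_lit 2419521920) (nat_lit 523) (nat_lit 1) (nat_lit 498) (nat_lit 1) (nat_lit 522) (nat_lit 1) (nat_lit 320) (nat_lit 411) (nat_lit 409)) (XT.lf (nat_lit 1900) (nat_lit 4735600844) (nat_lit 76) (nat_lit 1272093825) (nat_lit 0) (nat_lit 1272093825) (nat_lit 523) (nat_lit 1) (nat_lit 499) (nat_lit 1) (nat_lit 498) (nat_lit 1) (nat_lit 321) (nat_lit 411) (nat_lit 408))))))))
noncomputable def ec80 : XT := (XT.nd (nat_lit 1404) (nat_lit 7068) (nat_lit 0) (XT.nd (nat_lit 702) (nat_lit 1292) (nat_lit 0) (XT.nd (nat_lit 312) (nat_lit 0) (nat_lit 152) (XT.nd (nat_lit 156) (nat_lit 0) (nat_lit 76) (XT.nd (nat_lit 78) (nat_lit 0) (nat_lit 0) (XT.lf (nat_lit 1900) (nat_lit 2301412272) (nat_lit 0) (nat_lit 2605992688) (nat_lit 1824) (nat_lit 2301412272) (nat_lit 524) (nat_lit 1) (nat_lit 499) (nat_lit 1) (nat_lit 523) (nat_lit 1) (nat_lit 322) (nat_lit 411) (nat_lit 407)) (XT.lf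 (nat_lit 1900) (nat_lit 4455507014) (nat_lit 76) (nat_lit 1341697190) (nat_lit 0) (nat_lit 1341697190) (nat_lit 524) (nat_lit 1) (nat_lit 500) (nat_lit 1) (nat_lit 499) (nat_lit 1) (nat_lit 323) (nat_lit 411) (nat_lit 406))) (XT.nd (nat_lit 78) (nat_lit 0) (nat_lit 0) (XT.lf (nat_lit 1900) (nat_lit 2140785697) (nat_lit 0) (nat_lit 2788206499) (nat_lit 1824) (nat_lit 2140785697) (nat_lit 525) (nat_lit 1) (nat_lit 500) (nat_lit 1) (nat_lit 524) (nat_lit 1) (nat_lit 324) (nat_lit 411) (nat_lit 405)) (XT.lf (nat_lit 1900) (nat_lit 4092702812) (nat_lit 76) (nat_lit 1454473633) (nat_lit 0) (nat_lit 1454473633) (nat_lit 525) (nat_lit 1) (nat_lit 501) (nat_lit 1) (nat_lit 500) (nat_lit 1) (nat_lit 325) (nat_lit 411) (nat_lit 404)))) (XT.nd (nat_lit 156) (nat_lit 0) (nat_lit 76) (XT.nd (nat_lit 78) (nat_lit 0) (nat_lit 0) (XT.lf (nat_lit 1900) (nat_lit 1940216772) (nat_lit 0) (nat_lit 3053893108) (nat_lit 1824) (nat_lit 1940216772) (nat_lit 526) (nat_lit 1) (nat_lit 501)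 (nat_lit 1) (nat_lit 525) (nat_lit 1) (nat_lit 326) (nat_lit 411) (nat_lit 403)) (XT.lf (nat_lit 1900) (nat_lit 3652235015) (nat_lit 76) (nat_lit 1607847164) (nat_lit 0) (nat_lit 1607847164) (nat_lit 526) (nat_lit 1) (nat_lit 502) (nat_lit 1) (nat_lit 501) (nat_lit 1) (nat_lit 327) (nat_lit 411) (nat_lit 402))) (XT.nd (nat_lit 78) (nat_lit 0) (nat_lit 0) (XT.lf (nat_lit 1900) (nat_lit 1702161991) (nat_lit 0) (nat_lit 3398035707) (nat_lit 1824) (nat_lit 1702161991) (nat_lit 527) (nat_lit 1) (nat_lit 502) (nat_lit 1) (nat_lit 526) (nat_lit 1) (nat_lit 328) (nat_lit 411) (nat_lit 401)) (XT.nd (nat_lit 78) (nat_lit 0) (nat_lit 76) (XT.lf (nat_lit 1900) (nat_lit 3138918450) (nat_lit 76) (nat_lit 1799359460) (nat_lit 0) (nat_lit 1799359460) (nat_lit 527) (nat_lit 1) (nat_lit 503) (nat_lit 1) (nat_lit 502) (nat_lit 1) (nat_lit 329) (nat_lit 411) (nat_lit 400)) (XT.lf (nat_lit 1900) (nat_lit 1428964704) (nat_lit 0) (nat_lit 3815847108) (nat_lit 1824) (nat_lit 1428964704)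 (nat_lit 528) (nat_lit 1) (nat_lit 503) (nat_lit 1) (nat_lit 527) (nat_lit 1) (nat_lit 330) (nat_lit 411) (nat_lit 399)))))) (XT.nd (nat_lit 312) (nat_lit 1596) (nat_lit 0) (XT.nd (nat_lit 156) (nat_lit 0) (nat_lit 76) (XT.nd (nat_lit 78) (nat_lit 0) (nat_lit 76) (XT.lf (nat_lit 1900) (nat_lit 2557345700) (nat_lit 76) (nat_lit 2026664949) (nat_lit 0) (nat_lit 2026664949) (nat_lit 528) (nat_lit 1) (nat_lit 504) (nat_lit 1) (nat_lit 503) (nat_lit 1) (nat_lit 331) (nat_lit 411) (nat_lit 398)) (XT.lf (nat_lit 1900) (nat_lit 1122859862) (nat_lit 0) (nat_lit 4302760148) (nat_lit 1824) (nat_lit 1122859862) (nat_lit 529) (nat_lit 1) (nat_lit 504) (nat_lit 1) (nat_lit 528) (nat_lit 1) (nat_lit 332) (nat_lit 411) (nat_lit 397))) (XT.nd (nat_lit 78) (nat_lit 0) (nat_lit 76) (XT.lf (nat_lit 1900) (nat_lit 1911896431) (nat_lit 76) (nat_lit 2287526094) (nat_lit 0) (nat_lit 2287526094) (nat_lit 529) (nat_lit 1) (nat_lit 505) (nat_lit 1) (nat_lit 504) (nat_lit 1) (nat_lit 333)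 (nat_lit 411) (nat_lit 396)) (XT.lf (nat_lit 1900) (nat_lit 785978563) (nat_lit 0) (nat_lit 4854418470) (nat_lit 1824) (nat_lit 785978563) (nat_lit 530) (nat_lit 1) (nat_lit 505) (nat_lit 1) (nat_lit 529) (nat_lit 1) (nat_lit 334) (nat_lit 411) (nat_lit 395)))) (XT.nd (nat_lit 156) (nat_lit 1748) (nat_lit 0) (XT.nd (nat_lit 78) (nat_lit 0) (nat_lit 76) (XT.lf (nat_lit 1900) (nat_lit 1206746333) (nat_lit 76) (nat_lit 2579808865) (nat_lit 0) (nat_lit 2579808865) (nat_lit 530) (nat_lit 1) (nat_lit 506) (nat_lit 1) (nat_lit 505) (nat_lit 1) (nat_lit 335) (nat_lit 411) (nat_lit 394)) (XT.lf (nat_lit 1900) (nat_lit 420352419) (nat_lit 0) (nat_lit 5466667688) (nat_lit 1824) (nat_lit 420352419) (nat_lit 531) (nat_lit 1) (nat_lit 506) (nat_lit 1) (nat_lit 530) (nat_lit 1) (nat_lit 336) (nat_lit 411) (nat_lit 393))) (XT.nd (nat_lit 78) (nat_lit 1824) (nat_lit 0) (XT.lf (nat_lit 1900) (nat_lit 445875710) (nat_lit 76) (nat_lit 2901478391) (nat_lit 0) (nat_lit 2901478391)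 (nat_lit 531) (nat_lit 1) (nat_lit 507) (nat_lit 1) (nat_lit 506) (nat_lit 1) (nat_lit 337) (nat_lit 411) (nat_lit 392)) (XT.nd (nat_lit 78) (nat_lit 1900) (nat_lit 0) (XT.lf (nat_lit 1900) (nat_lit 27917755) (nat_lit 0) (nat_lit 6135546895) (nat_lit 1824) (nat_lit 27917755) (nat_lit 532) (nat_lit 1) (nat_lit 507) (nat_lit 1) (nat_lit 531) (nat_lit 1) (nat_lit 338) (nat_lit 411) (nat_lit 391)) (XT.lf (nat_lit 1976) (nat_lit 2886054816) (nat_lit 0) (nat_lit 362110031) (nat_lit 1900) (nat_lit 2886054816) (nat_lit 508) (nat_lit 1) (nat_lit 482) (nat_lit 1) (nat_lit 507) (nat_lit 1) (nat_lit 339) (nat_lit 411) (nat_lit 390))))))) (XT.nd (nat_lit 702) (nat_lit 4256) (nat_lit 0) (XT.nd (nat_lit 312) (nat_lit 2812) (nat_lit 0) (XT.nd (nat_lit 156) (nat_lit 0) (nat_lit 76) (XT.nd (nat_lit 78) (nat_lit 0) (nat_lit 76) (XT.lf (nat_lit 1976) (nat_lit 5304280768) (nat_lit 76) (nat_lit 386918008) (nat_lit 0) (nat_lit 386918008) (nat_lit 508) (nat_lit 1) (nat_lit 483) (nat_lit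 1) (nat_lit 482) (nat_lit 1) (nat_lit 340) (nat_lit 411) (nat_lit 389)) (XT.lf (nat_lit 1976) (nat_lit 2405248665) (nat_lit 0) (nat_lit 1211927853) (nat_lit 1900) (nat_lit 2405248665) (nat_lit 509) (nat_lit 1) (nat_lit 483) (nat_lit 1) (nat_lit 508) (nat_lit 1) (nat_lit 341) (nat_lit 411) (nat_lit 388))) (XT.nd (nat_lit 78) (nat_lit 0) (nat_lit 76) (XT.lf (nat_lit 1976) (nat_lit 4318422712) (nat_lit 76) (nat_lit 824623263) (nat_lit 0) (nat_lit 824623263) (nat_lit 509) (nat_lit 1) (nat_lit 484) (nat_lit 1) (nat_lit 483) (nat_lit 1) (nat_lit 342) (nat_lit 411) (nat_lit 387)) (XT.lf (nat_lit 76) (nat_lit 1903698894) (nat_lit 0) (nat_lit 2106028387) (nat_lit 1900) (nat_lit 1903698894) (nat_lit 485) (nat_lit 1) (nat_lit 484) (nat_lit 1) (nat_lit 509) (nat_lit 1) (nat_lit 343) (nat_lit 411) (nat_lit 386)))) (XT.nd (nat_lit 156) (nat_lit 1824) (nat_lit 0) (XT.nd (nat_lit 78) (nat_lit 0) (nat_lit 0) (XT.lf (nat_lit 1216) (nat_lit 3292537513) (nat_lit 0) (nat_lit 1283718758)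 (nat_lit 1140) (nat_lit 1283718758) (nat_lit 485) (nat_lit 1) (nat_lit 469) (nat_lit 1) (nat_lit 484) (nat_lit 1) (nat_lit 344) (nat_lit 411) (nat_lit 385)) (XT.lf (nat_lit 76) (nat_lit 1382983826) (nat_lit 0) (nat_lit 3041176744) (nat_lit 1216) (nat_lit 1382983826) (nat_lit 470) (nat_lit 1) (nat_lit 469) (nat_lit 1) (nat_lit 485) (nat_lit 1) (nat_lit 345) (nat_lit 411) (nat_lit 384))) (XT.nd (nat_lit 78) (nat_lit 912) (nat_lit 0) (XT.lf (nat_lit 988) (nat_lit 2229714949) (nat_lit 0) (nat_lit 1762621200) (nat_lit 912) (nat_lit 1762621200) (nat_lit 470) (nat_lit 1) (nat_lit 457) (nat_lit 1) (nat_lit 469) (nat_lit 1) (nat_lit 346) (nat_lit 411) (nat_lit 383)) (XT.nd (nat_lit 78) (nat_lit 912) (nat_lit 0) (XT.lf (nat_lit 76) (nat_lit 844605340) (nat_lit 0) (nat_lit 4014293363) (nat_lit 988) (nat_lit 844605340) (nat_lit 458) (nat_lit 1) (nat_lit 457) (nat_lit 1) (nat_lit 470) (nat_lit 1) (nat_lit 347) (nat_lit 411) (nat_lit 382)) (XT.lf (nat_lit 988) (nat_lit 1132894709)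 (nat_lit 0) (nat_lit 2259823537) (nat_lit 912) (nat_lit 2259823537) (nat_lit 458) (nat_lit 1) (nat_lit 445) (nat_lit 1) (nat_lit 457) (nat_lit 1) (nat_lit 348) (nat_lit 411) (nat_lit 381)))))) (XT.nd (nat_lit 312) (nat_lit 2432) (nat_lit 0) (XT.nd (nat_lit 156) (nat_lit 988) (nat_lit 0) (XT.nd (nat_lit 78) (nat_lit 836) (nat_lit 0) (XT.lf (nat_lit 76) (nat_lit 289992140) (nat_lit 0) (nat_lit 5022447395) (nat_lit 988) (nat_lit 289992140) (nat_lit 446) (nat_lit 1) (nat_lit 445) (nat_lit 1) (nat_lit 458) (nat_lit 1) (nat_lit 349) (nat_lit 411) (nat_lit 380)) (XT.lf (nat_lit 912) (nat_lit 4872817) (nat_lit 0) (nat_lit 2773891706) (nat_lit 836) (nat_lit 2773891706) (nat_lit 446) (nat_lit 1) (nat_lit 434) (nat_lit 1) (nat_lit 445) (nat_lit 1) (nat_lit 350) (nat_lit 411) (nat_lit 379))) (XT.nd (nat_lit 78) (nat_lit 0) (nat_lit 0) (XT.lf (nat_lit 988) (nat_lit 4948393848) (nat_lit 0) (nat_lit 277658314) (nat_lit 912) (nat_lit 277658314) (nat_lit 434) (nat_lit 1) (nat_lit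 421) (nat_lit 1) (nat_lit 433) (nat_lit 1) (nat_lit 351) (nat_lit 411) (nat_lit 378)) (XT.lf (nat_lit 76) (nat_lit 2159246846) (nat_lit 0) (nat_lit 1136587567) (nat_lit 988) (nat_lit 2159246846) (nat_lit 422) (nat_lit 1) (nat_lit 421) (nat_lit 1) (nat_lit 434) (nat_lit 1) (nat_lit 352) (nat_lit 411) (nat_lit 377)))) (XT.nd (nat_lit 156) (nat_lit 1596) (nat_lit 0) (XT.nd (nat_lit 78) (nat_lit 0) (nat_lit 0) (XT.lf (nat_lit 912) (nat_lit 3693466968) (nat_lit 0) (nat_lit 856895984) (nat_lit 836) (nat_lit 856895984) (nat_lit 422) (nat_lit 1) (nat_lit 410) (nat_lit 1) (nat_lit 421) (nat_lit 1) (nat_lit 353) (nat_lit 411) (nat_lit 376)) (XT.lf (nat_lit 76) (nat_lit 1528117812) (nat_lit 0) (nat_lit 2303659073) (nat_lit 912) (nat_lit 1528117812) (nat_lit 411) (nat_lit 1) (nat_lit 410) (nat_lit 1) (nat_lit 422) (nat_lit 1) (nat_lit 354) (nat_lit 411) (nat_lit 375))) (XT.nd (nat_lit 78) (nat_lit 760) (nat_lit 0) (XT.lf (nat_lit 912) (nat_lit 2416343362) (nat_lit 0) (nat_lit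 1448409319) (nat_lit 836) (nat_lit 1448409319) (nat_lit 411) (nat_lit 1) (nat_lit 399) (nat_lit 1) (nat_lit 410) (nat_lit 1) (nat_lit 355) (nat_lit 411) (nat_lit 374)) (XT.nd (nat_lit 78) (nat_lit 760) (nat_lit 0) (XT.lf (nat_lit 76) (nat_lit 886497866) (nat_lit 0) (nat_lit 3494036128) (nat_lit 912) (nat_lit 886497866) (nat_lit 400) (nat_lit 1) (nat_lit 399) (nat_lit 1) (nat_lit 411) (nat_lit 1) (nat_lit 356) (nat_lit 411) (nat_lit 373)) (XT.lf (nat_lit 836) (nat_lit 1119275682) (nat_lit 0) (nat_lit 2051039911) (nat_lit 760) (nat_lit 2051039911) (nat_lit 400) (nat_lit 1) (nat_lit 389) (nat_lit 1) (nat_lit 399) (nat_lit 1) (nat_lit 357) (nat_lit 411) (nat_lit 372))))))))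
noncomputable def ec81 : XT := (XT.nd (nat_lit 1404) (nat_lit 6004) (nat_lit 0) (XT.nd (nat_lit 702) (nat_lit 3268) (nat_lit 0) (XT.nd (nat_lit 312) (nat_lit 2204) (nat_lit 0) (XT.nd (nat_lit 156) (nat_lit 760) (nat_lit 0) (XT.nd (nat_lit 78) (nat_lit 836) (nat_lit 0) (XT.lf (nat_lit 76) (nat_lit 235480625) (nat_lit 0) (nat_lit 4705468174) (nat_lit 836) (nat_lit 235480625) (nat_lit 390) (nat_lit 1) (nat_lit 389) (nat_lit 1) (nat_lit 400) (nat_lit 1) (nat_lit 358) (nat_lit 411) (nat_lit 371)) (XT.lf (nat_lit 76) (nat_lit 2469359496) (nat_lit 0) (nat_lit 193032855) (nat_lit 836) (nat_lit 2469359496) (nat_lit 379) (nat_lit 1) (nat_lit 378) (nat_lit 1) (nat_lit 389) (nat_lit 1) (nat_lit 359) (nat_lit 411) (nat_lit 370))) (XT.nd (nat_lit 78) (nat_lit 0) (nat_lit 0) (XT.lf (nat_lit 836) (nat_lit 4245590239) (nat_lit 0) (nat_lit 421107422) (nat_lit 760) (nat_lit 421107422) (nat_lit 379) (nat_lit 1) (nat_lit 368) (nat_lit 1) (nat_lit 378) (nat_lit 1) (nat_lit 360) (nat_lit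 411) (nat_lit 369)) (XT.lf (nat_lit 76) (nat_lit 1768967877) (nat_lit 0) (nat_lit 1506232964) (nat_lit 836) (nat_lit 1768967877) (nat_lit 369) (nat_lit 1) (nat_lit 368) (nat_lit 1) (nat_lit 379) (nat_lit 1) (nat_lit 361) (nat_lit 411) (nat_lit 368)))) (XT.nd (nat_lit 156) (nat_lit 1444) (nat_lit 0) (XT.nd (nat_lit 78) (nat_lit 0) (nat_lit 0) (XT.lf (nat_lit 836) (nat_lit 2834247419) (nat_lit 0) (nat_lit 1083473123) (nat_lit 760) (nat_lit 1083473123) (nat_lit 369) (nat_lit 1) (nat_lit 358) (nat_lit 1) (nat_lit 368) (nat_lit 1) (nat_lit 362) (nat_lit 411) (nat_lit 367)) (XT.lf (nat_lit 76) (nat_lit 1062793522) (nat_lit 0) (nat_lit 2833106179) (nat_lit 836) (nat_lit 1062793522) (nat_lit 359) (nat_lit 1) (nat_lit 358) (nat_lit 1) (nat_lit 369) (nat_lit 1) (nat_lit 363) (nat_lit 411) (nat_lit 366))) (XT.nd (nat_lit 78) (nat_lit 760) (nat_lit 0) (XT.lf (nat_lit 760) (nat_lit 1412183115) (nat_lit 0) (nat_lit 1752238770) (nat_lit 684) (nat_lit 1752238770) (nat_lit 359)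 (nat_lit 1) (nat_lit 349) (nat_lit 1) (nat_lit 358) (nat_lit 1) (nat_lit 364) (nat_lit 411) (nat_lit 365)) (XT.nd (nat_lit 78) (nat_lit 760) (nat_lit 0) (XT.lf (nat_lit 76) (nat_lit 351707646) (nat_lit 0) (nat_lit 4171853588) (nat_lit 760) (nat_lit 351707646) (nat_lit 350) (nat_lit 1) (nat_lit 349) (nat_lit 1) (nat_lit 359) (nat_lit 1) (nat_lit 365) (nat_lit 411) (nat_lit 364)) (XT.lf (nat_lit 76) (nat_lit 2407747229) (nat_lit 0) (nat_lit 18653631) (nat_lit 760) (nat_lit 2407747229) (nat_lit 340) (nat_lit 1) (nat_lit 339) (nat_lit 1) (nat_lit 349) (nat_lit 1) (nat_lit 366) (nat_lit 411) (nat_lit 363)))))) (XT.nd (nat_lit 312) (nat_lit 1900) (nat_lit 0) (XT.nd (nat_lit 156) (nat_lit 684) (nat_lit 0) (XT.nd (nat_lit 78) (nat_lit 0) (nat_lit 0) (XT.lf (nat_lit 760) (nat_lit 4071503818) (nat_lit 0) (nat_lit 361073831) (nat_lit 684) (nat_lit 361073831) (nat_lit 340) (nat_lit 1) (nat_lit 330) (nat_lit 1) (nat_lit 339) (nat_lit 1) (nat_lit 367) (nat_lit 411) (nat_lit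 362)) (XT.lf (nat_lit 76) (nat_lit 1657568814) (nat_lit 0) (nat_lit 1438282597) (nat_lit 760) (nat_lit 1657568814) (nat_lit 331) (nat_lit 1) (nat_lit 330) (nat_lit 1) (nat_lit 340) (nat_lit 1) (nat_lit 368) (nat_lit 411) (nat_lit 361))) (XT.nd (nat_lit 78) (nat_lit 0) (nat_lit 0) (XT.lf (nat_lit 760) (nat_lit 2564139762) (nat_lit 0) (nat_lit 1074826259) (nat_lit 684) (nat_lit 1074826259) (nat_lit 331) (nat_lit 1) (nat_lit 321) (nat_lit 1) (nat_lit 330) (nat_lit 1) (nat_lit 369) (nat_lit 411) (nat_lit 360)) (XT.lf (nat_lit 76) (nat_lit 905443143) (nat_lit 0) (nat_lit 2863722106) (nat_lit 760) (nat_lit 905443143) (nat_lit 322) (nat_lit 1) (nat_lit 321) (nat_lit 1) (nat_lit 331) (nat_lit 1) (nat_lit 370) (nat_lit 411) (nat_lit 359)))) (XT.nd (nat_lit 156) (nat_lit 1292) (nat_lit 0) (XT.nd (nat_lit 78) (nat_lit 0) (nat_lit 0) (XT.lf (nat_lit 684) (nat_lit 1053562210) (nat_lit 0) (nat_lit 1791130594) (nat_lit 608) (nat_lit 1791130594) (nat_lit 322) (nat_lit 1) (nat_lit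 313) (nat_lit 1) (nat_lit 321) (nat_lit 1) (nat_lit 371) (nat_lit 411) (nat_lit 358)) (XT.lf (nat_lit 76) (nat_lit 152055196) (nat_lit 0) (nat_lit 4293551695) (nat_lit 684) (nat_lit 152055196) (nat_lit 314) (nat_lit 1) (nat_lit 313) (nat_lit 1) (nat_lit 322) (nat_lit 1) (nat_lit 372) (nat_lit 411) (nat_lit 357))) (XT.nd (nat_lit 78) (nat_lit 608) (nat_lit 0) (XT.lf (nat_lit 76) (nat_lit 2053380356) (nat_lit 0) (nat_lit 452874873) (nat_lit 684) (nat_lit 2053380356) (nat_lit 305) (nat_lit 1) (nat_lit 304) (nat_lit 1) (nat_lit 313) (nat_lit 1) (nat_lit 373) (nat_lit 411) (nat_lit 356)) (XT.nd (nat_lit 78) (nat_lit 0) (nat_lit 0) (XT.lf (nat_lit 684) (nat_lit 3326241775) (nat_lit 0) (nat_lit 597988407) (nat_lit 608) (nat_lit 597988407) (nat_lit 305) (nat_lit 1) (nat_lit 296) (nat_lit 1) (nat_lit 304) (nat_lit 1) (nat_lit 374) (nat_lit 411) (nat_lit 355)) (XT.lf (nat_lit 76) (nat_lit 1269499519) (nat_lit 0) (nat_lit 1946104296) (nat_lit 684) (nat_lit 1269499519) (nat_lit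 297) (nat_lit 1) (nat_lit 296) (nat_lit 1) (nat_lit 305) (nat_lit 1) (nat_lit 375) (nat_lit 411) (nat_lit 354))))))) (XT.nd (nat_lit 702) (nat_lit 2508) (nat_lit 0) (XT.nd (nat_lit 312) (nat_lit 1672) (nat_lit 0) (XT.nd (nat_lit 156) (nat_lit 1216) (nat_lit 0) (XT.nd (nat_lit 78) (nat_lit 0) (nat_lit 0) (XT.lf (nat_lit 684) (nat_lit 1754389117) (nat_lit 0) (nat_lit 1347037834) (nat_lit 608) (nat_lit 1347037834) (nat_lit 297) (nat_lit 1) (nat_lit 288) (nat_lit 1) (nat_lit 296) (nat_lit 1) (nat_lit 376) (nat_lit 411) (nat_lit 353)) (XT.lf (nat_lit 76) (nat_lit 486772616) (nat_lit 0) (nat_lit 3438771594) (nat_lit 684) (nat_lit 486772616) (nat_lit 289) (nat_lit 1) (nat_lit 288) (nat_lit 1) (nat_lit 297) (nat_lit 1) (nat_lit 377) (nat_lit 411) (nat_lit 352))) (XT.nd (nat_lit 78) (nat_lit 684) (nat_lit 0) (XT.lf (nat_lit 608) (nat_lit 185388516) (nat_lit 0) (nat_lit 2095522769) (nat_lit 532) (nat_lit 2095522769) (nat_lit 289) (nat_lit 1) (nat_lit 281) (nat_lit 1) (nat_lit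 288) (nat_lit 1) (nat_lit 378) (nat_lit 411) (nat_lit 351)) (XT.lf (nat_lit 684) (nat_lit 3756407531) (nat_lit 0) (nat_lit 292334949) (nat_lit 608) (nat_lit 292334949) (nat_lit 281) (nat_lit 1) (nat_lit 272) (nat_lit 1) (nat_lit 280) (nat_lit 1) (nat_lit 379) (nat_lit 411) (nat_lit 350)))) (XT.nd (nat_lit 156) (nat_lit 1140) (nat_lit 0) (XT.nd (nat_lit 78) (nat_lit 532) (nat_lit 0) (XT.lf (nat_lit 76) (nat_lit 1472134099) (nat_lit 0) (nat_lit 1361634491) (nat_lit 684) (nat_lit 1472134099) (nat_lit 273) (nat_lit 1) (nat_lit 272) (nat_lit 1) (nat_lit 281) (nat_lit 1) (nat_lit 380) (nat_lit 411) (nat_lit 349)) (XT.lf (nat_lit 608) (nat_lit 2139095047) (nat_lit 0) (nat_lit 1066073477) (nat_lit 532) (nat_lit 1066073477) (nat_lit 273) (nat_lit 1) (nat_lit 265) (nat_lit 1) (nat_lit 272) (nat_lit 1) (nat_lit 381) (nat_lit 411) (nat_lit 348))) (XT.nd (nat_lit 78) (nat_lit 1140) (nat_lit 0) (XT.lf (nat_lit 76) (nat_lit 667771705) (nat_lit 0) (nat_lit 2901439756) (nat_lit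 608) (nat_lit 667771705) (nat_lit 266) (nat_lit 1) (nat_lit 265) (nat_lit 1) (nat_lit 273) (nat_lit 1) (nat_lit 382) (nat_lit 411) (nat_lit 347)) (XT.nd (nat_lit 78) (nat_lit 608) (nat_lit 0) (XT.lf (nat_lit 608) (nat_lit 528659269) (nat_lit 0) (nat_lit 1837181260) (nat_lit 532) (nat_lit 1837181260) (nat_lit 266) (nat_lit 1) (nat_lit 258) (nat_lit 1) (nat_lit 265) (nat_lit 1) (nat_lit 383) (nat_lit 411) (nat_lit 346)) (XT.lf (nat_lit 608) (nat_lit 3905433090) (nat_lit 0) (nat_lit 132077647) (nat_lit 532) (nat_lit 132077647) (nat_lit 258) (nat_lit 1) (nat_lit 250) (nat_lit 1) (nat_lit 257) (nat_lit 1) (nat_lit 384) (nat_lit 411) (nat_lit 345)))))) (XT.nd (nat_lit 312) (nat_lit 1520) (nat_lit 0) (XT.nd (nat_lit 156) (nat_lit 456) (nat_lit 0) (XT.nd (nat_lit 78) (nat_lit 532) (nat_lit 0) (XT.lf (nat_lit 76) (nat_lit 1538126237) (nat_lit 0) (nat_lit 1059983628) (nat_lit 608) (nat_lit 1538126237) (nat_lit 251) (nat_lit 1) (nat_lit 250) (nat_lit 1) (nat_lit 258) (nat_lit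 1) (nat_lit 385) (nat_lit 411) (nat_lit 344)) (XT.lf (nat_lit 608) (nat_lit 2256356727) (nat_lit 0) (nat_lit 923522161) (nat_lit 532) (nat_lit 923522161) (nat_lit 251) (nat_lit 1) (nat_lit 243) (nat_lit 1) (nat_lit 250) (nat_lit 1) (nat_lit 386) (nat_lit 411) (nat_lit 343))) (XT.nd (nat_lit 78) (nat_lit 456) (nat_lit 0) (XT.lf (nat_lit 76) (nat_lit 718797303) (nat_lit 0) (nat_lit 2633322220) (nat_lit 608) (nat_lit 718797303) (nat_lit 244) (nat_lit 1) (nat_lit 243) (nat_lit 1) (nat_lit 251) (nat_lit 1) (nat_lit 387) (nat_lit 411) (nat_lit 342)) (XT.lf (nat_lit 532) (nat_lit 617562156) (nat_lit 0) (nat_lit 1710583848) (nat_lit 456) (nat_lit 1710583848) (nat_lit 244) (nat_lit 1) (nat_lit 237) (nat_lit 1) (nat_lit 243) (nat_lit 1) (nat_lit 388) (nat_lit 411) (nat_lit 341)))) (XT.nd (nat_lit 156) (nat_lit 912) (nat_lit 0) (XT.nd (nat_lit 78) (nat_lit 0) (nat_lit 0) (XT.lf (nat_lit 608) (nat_lit 3817816291) (nat_lit 0) (nat_lit 94613938) (nat_lit 532) (nat_lit 94613938)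 (nat_lit 237) (nat_lit 1) (nat_lit 229) (nat_lit 1) (nat_lit 236) (nat_lit 1) (nat_lit 389) (nat_lit 411) (nat_lit 340)) (XT.lf (nat_lit 76) (nat_lit 1489179864) (nat_lit 0) (nat_lit 997045666) (nat_lit 608) (nat_lit 1489179864) (nat_lit 230) (nat_lit 1) (nat_lit 229) (nat_lit 1) (nat_lit 237) (nat_lit 1) (nat_lit 390) (nat_lit 411) (nat_lit 339))) (XT.nd (nat_lit 78) (nat_lit 456) (nat_lit 0) (XT.lf (nat_lit 532) (nat_lit 2148803588) (nat_lit 0) (nat_lit 897727392) (nat_lit 456) (nat_lit 897727392) (nat_lit 230) (nat_lit 1) (nat_lit 223) (nat_lit 1) (nat_lit 229) (nat_lit 1) (nat_lit 391) (nat_lit 411) (nat_lit 338)) (XT.nd (nat_lit 78) (nat_lit 456) (nat_lit 0) (XT.lf (nat_lit 76) (nat_lit 660641383) (nat_lit 0) (nat_lit 2592160281) (nat_lit 532) (nat_lit 660641383) (nat_lit 224) (nat_lit 1) (nat_lit 223) (nat_lit 1) (nat_lit 230) (nat_lit 1) (nat_lit 392) (nat_lit 411) (nat_lit 337)) (XT.lf (nat_lit 532) (nat_lit 492934156) (nat_lit 0) (nat_lit 1694981700)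 (nat_lit 456) (nat_lit 1694981700) (nat_lit 224) (nat_lit 1) (nat_lit 217) (nat_lit 1) (nat_lit 223) (nat_lit 1) (nat_lit 393) (nat_lit 411) (nat_lit 336))))))))
noncomputable def ec82 : XT := (XT.nd (nat_lit 1404) (nat_lit 760) (nat_lit 0) (XT.nd (nat_lit 702) (nat_lit 2280) (nat_lit 0) (XT.nd (nat_lit 312) (nat_lit 1292) (nat_lit 0) (XT.nd (nat_lit 156) (nat_lit 456) (nat_lit 0) (XT.nd (nat_lit 78) (nat_lit 0) (nat_lit 0) (XT.lf (nat_lit 532) (nat_lit 3532487478) (nat_lit 0) (nat_lit 160157746) (nat_lit 456) (nat_lit 160157746) (nat_lit 217) (nat_lit 1) (nat_lit 210) (nat_lit 1) (nat_lit 216) (nat_lit 1) (nat_lit 394) (nat_lit 411) (nat_lit 335)) (XT.lf (nat_lit 76) (nat_lit 1344280424) (nat_lit 0) (nat_lit 1134216165) (nat_lit 532) (nat_lit 1344280424) (nat_lit 211) (nat_lit 1) (nat_lit 210) (nat_lit 1) (nat_lit 217) (nat_lit 1) (nat_lit 395) (nat_lit 411) (nat_lit 334))) (XT.nd (nat_lit 78) (nat_lit 0) (nat_lit 0) (XT.lf (nat_lit 532) (nat_lit 1853719852)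 (nat_lit 0) (nat_lit 969736818) (nat_lit 456) (nat_lit 969736818) (nat_lit 211) (nat_lit 1) (nat_lit 204) (nat_lit 1) (nat_lit 210) (nat_lit 1) (nat_lit 396) (nat_lit 411) (nat_lit 333)) (XT.lf (nat_lit 76) (nat_lit 511485998) (nat_lit 0) (nat_lit 2740977326) (nat_lit 532) (nat_lit 511485998) (nat_lit 205) (nat_lit 1) (nat_lit 204) (nat_lit 1) (nat_lit 211) (nat_lit 1) (nat_lit 397) (nat_lit 411) (nat_lit 332)))) (XT.nd (nat_lit 156) (nat_lit 380) (nat_lit 0) (XT.nd (nat_lit 78) (nat_lit 532) (nat_lit 0) (XT.lf (nat_lit 456) (nat_lit 190480568) (nat_lit 0) (nat_lit 1772222209) (nat_lit 380) (nat_lit 1772222209) (nat_lit 205) (nat_lit 1) (nat_lit 199) (nat_lit 1) (nat_lit 204) (nat_lit 1) (nat_lit 398) (nat_lit 411) (nat_lit 331)) (XT.lf (nat_lit 532) (nat_lit 3083457357) (nat_lit 0) (nat_lit 311412147) (nat_lit 456) (nat_lit 311412147) (nat_lit 199) (nat_lit 1) (nat_lit 192) (nat_lit 1) (nat_lit 198) (nat_lit 1) (nat_lit 399) (nat_lit 411) (nat_lit 330))) (XT.nd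 (nat_lit 78) (nat_lit 380) (nat_lit 0) (XT.lf (nat_lit 76) (nat_lit 1120011326) (nat_lit 0) (nat_lit 1437752651) (nat_lit 532) (nat_lit 1120011326) (nat_lit 193) (nat_lit 1) (nat_lit 192) (nat_lit 1) (nat_lit 199) (nat_lit 1) (nat_lit 400) (nat_lit 411) (nat_lit 329)) (XT.nd (nat_lit 78) (nat_lit 0) (nat_lit 0) (XT.lf (nat_lit 456) (nat_lit 1403666986) (nat_lit 0) (nat_lit 1122987725) (nat_lit 380) (nat_lit 1122987725) (nat_lit 193) (nat_lit 1) (nat_lit 187) (nat_lit 1) (nat_lit 192) (nat_lit 1) (nat_lit 401) (nat_lit 411) (nat_lit 328)) (XT.lf (nat_lit 76) (nat_lit 287207321) (nat_lit 0) (nat_lit 3047464281) (nat_lit 456) (nat_lit 287207321) (nat_lit 188) (nat_lit 1) (nat_lit 187) (nat_lit 1) (nat_lit 193) (nat_lit 1) (nat_lit 402) (nat_lit 411) (nat_lit 327)))))) (XT.nd (nat_lit 312) (nat_lit 1064) (nat_lit 0) (XT.nd (nat_lit 156) (nat_lit 380) (nat_lit 0) (XT.nd (nat_lit 78) (nat_lit 380) (nat_lit 0) (XT.lf (nat_lit 76) (nat_lit 1669499034) (nat_lit 0) (nat_lit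 255235020) (nat_lit 456) (nat_lit 1669499034) (nat_lit 182) (nat_lit 1) (nat_lit 181) (nat_lit 1) (nat_lit 187) (nat_lit 1) (nat_lit 403) (nat_lit 411) (nat_lit 326)) (XT.lf (nat_lit 456) (nat_lit 2500391310) (nat_lit 0) (nat_lit 533279175) (nat_lit 380) (nat_lit 533279175) (nat_lit 182) (nat_lit 1) (nat_lit 176) (nat_lit 1) (nat_lit 181) (nat_lit 1) (nat_lit 404) (nat_lit 411) (nat_lit 325))) (XT.nd (nat_lit 78) (nat_lit 380) (nat_lit 0) (XT.lf (nat_lit 76) (nat_lit 830834469) (nat_lit 0) (nat_lit 1878207578) (nat_lit 456) (nat_lit 830834469) (nat_lit 177) (nat_lit 1) (nat_lit 176) (nat_lit 1) (nat_lit 182) (nat_lit 1) (nat_lit 405) (nat_lit 411) (nat_lit 324)) (XT.lf (nat_lit 456) (nat_lit 827035474) (nat_lit 0) (nat_lit 1343028228) (nat_lit 380) (nat_lit 1343028228) (nat_lit 177) (nat_lit 1) (nat_lit 171) (nat_lit 1) (nat_lit 176) (nat_lit 1) (nat_lit 406) (nat_lit 411) (nat_lit 323)))) (XT.nd (nat_lit 156) (nat_lit 684) (nat_lit 0) (XT.nd (nat_lit 78) (nat_lit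 380) (nat_lit 0) (XT.lf (nat_lit 76) (nat_lit 1645158) (nat_lit 0) (nat_lit 3483434826) (nat_lit 456) (nat_lit 1645158) (nat_lit 172) (nat_lit 1) (nat_lit 171) (nat_lit 1) (nat_lit 177) (nat_lit 1) (nat_lit 407) (nat_lit 411) (nat_lit 322)) (XT.lf (nat_lit 76) (nat_lit 1321973702) (nat_lit 0) (nat_lit 816371167) (nat_lit 380) (nat_lit 1321973702) (nat_lit 167) (nat_lit 1) (nat_lit 166) (nat_lit 1) (nat_lit 171) (nat_lit 1) (nat_lit 408) (nat_lit 411) (nat_lit 321))) (XT.nd (nat_lit 78) (nat_lit 304) (nat_lit 0) (XT.lf (nat_lit 456) (nat_lit 1809118438) (nat_lit 0) (nat_lit 812602593) (nat_lit 380) (nat_lit 812602593) (nat_lit 167) (nat_lit 1) (nat_lit 161) (nat_lit 1) (nat_lit 166) (nat_lit 1) (nat_lit 409) (nat_lit 411) (nat_lit 320)) (XT.nd (nat_lit 78) (nat_lit 304) (nat_lit 0) (XT.lf (nat_lit 76) (nat_lit 489338875) (nat_lit 0) (nat_lit 2429925712) (nat_lit 456) (nat_lit 489338875) (nat_lit 162) (nat_lit 1) (nat_lit 161) (nat_lit 1) (nat_lit 167) (nat_lit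 1) (nat_lit 410) (nat_lit 411) (nat_lit 319)) (XT.lf (nat_lit 380) (nat_lit 148533860) (nat_lit 0) (nat_lit 1617270149) (nat_lit 304) (nat_lit 1617270149) (nat_lit 162) (nat_lit 1) (nat_lit 157) (nat_lit 1) (nat_lit 161) (nat_lit 1) (nat_lit 411) (nat_lit 411) (nat_lit 318))))))) (XT.nd (nat_lit 52338) (nat_lit 0) (nat_lit 26828) (XT.nd (nat_lit 51948) (nat_lit 0) (nat_lit 26600) (XT.nd (nat_lit 156) (nat_lit 304) (nat_lit 0) (XT.nd (nat_lit 78) (nat_lit 0) (nat_lit 0) (XT.lf (nat_lit 456) (nat_lit 2695919811) (nat_lit 0) (nat_lit 330966352) (nat_lit 380) (nat_lit 330966352) (nat_lit 157) (nat_lit 1) (nat_lit 151) (nat_lit 1) (nat_lit 156) (nat_lit 1) (nat_lit 412) (nat_lit 411) (nat_lit 317)) (XT.lf (nat_lit 76) (nat_lit 930327406) (nat_lit 0) (nat_lit 1472101619) (nat_lit 456) (nat_lit 930327406) (nat_lit 152) (nat_lit 1) (nat_lit 151) (nat_lit 1) (nat_lit 157) (nat_lit 1) (nat_lit 413) (nat_lit 411) (nat_lit 316))) (XT.nd (nat_lit 51714) (nat_lit 0) (nat_lit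 26600) (XT.lf (nat_lit 380) (nat_lit 1032082681) (nat_lit 0) (nat_lit 1137939923) (nat_lit 304) (nat_lit 1137939923) (nat_lit 152) (nat_lit 1) (nat_lit 147) (nat_lit 1) (nat_lit 151) (nat_lit 1) (nat_lit 414) (nat_lit 411) (nat_lit 315)) (XT.lf (nat_lit 1900) (nat_lit 1271132584) (nat_lit 0) (nat_lit 1281762209) (nat_lit 1900) (nat_lit 1271132584) (nat_lit 522) (nat_lit 1) (nat_lit 497) (nat_lit 0) (nat_lit 522) (nat_lit 0) (nat_lit 316) (nat_lit 412) (nat_lit 412)))) (XT.nd (nat_lit 156) (nat_lit 0) (nat_lit 76) (XT.nd (nat_lit 78) (nat_lit 0) (nat_lit 76) (XT.lf (nat_lit 1900) (nat_lit 5026249356) (nat_lit 76) (nat_lit 1273329563) (nat_lit 0) (nat_lit 1273329563) (nat_lit 522) (nat_lit 1) (nat_lit 498) (nat_lit 1) (nat_lit 497) (nat_lit 0) (nat_lit 317) (nat_lit 412) (nat_lit 411)) (XT.lf (nat_lit 1900) (nat_lit 2467912359) (nat_lit 0) (nat_lit 2562758271) (nat_lit 1824) (nat_lit 2467912359) (nat_lit 523) (nat_lit 1) (nat_lit 498) (nat_lit 1) (nat_lit 522)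 (nat_lit 1) (nat_lit 318) (nat_lit 412) (nat_lit 410))) (XT.nd (nat_lit 78) (nat_lit 0) (nat_lit 76) (XT.lf (nat_lit 1900) (nat_lit 4830312860) (nat_lit 76) (nat_lit 1297535702) (nat_lit 0) (nat_lit 1297535702) (nat_lit 523) (nat_lit 1) (nat_lit 499) (nat_lit 1) (nat_lit 498) (nat_lit 1) (nat_lit 319) (nat_lit 412) (nat_lit 409)) (XT.nd (nat_lit 78) (nat_lit 0) (nat_lit 0) (XT.lf (nat_lit 1900) (nat_lit 2347440518) (nat_lit 0) (nat_lit 2658112542) (nat_lit 1824) (nat_lit 2347440518) (nat_lit 524) (nat_lit 1) (nat_lit 499) (nat_lit 1) (nat_lit 523) (nat_lit 1) (nat_lit 320) (nat_lit 412) (nat_lit 408)) (XT.lf (nat_lit 1900) (nat_lit 4544617155) (nat_lit 76) (nat_lit 1368531134) (nat_lit 0) (nat_lit 1368531134) (nat_lit 524) (nat_lit 1) (nat_lit 500) (nat_lit 1) (nat_lit 499) (nat_lit 1) (nat_lit 321) (nat_lit 412) (nat_lit 407)))))) (XT.nd (nat_lit 312) (nat_lit 0) (nat_lit 152) (XT.nd (nat_lit 156) (nat_lit 0) (nat_lit 76) (XT.nd (nat_lit 78) (nat_lit 0) (nat_lit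 0) (XT.lf (nat_lit 1900) (nat_lit 2183601411) (nat_lit 0) (nat_lit 2843970629) (nat_lit 1824) (nat_lit 2183601411) (nat_lit 525) (nat_lit 1) (nat_lit 500) (nat_lit 1) (nat_lit 524) (nat_lit 1) (nat_lit 322) (nat_lit 412) (nat_lit 406)) (XT.lf (nat_lit 1900) (nat_lit 4174556868) (nat_lit 76) (nat_lit 1483563105) (nat_lit 0) (nat_lit 1483563105) (nat_lit 525) (nat_lit 1) (nat_lit 501) (nat_lit 1) (nat_lit 500) (nat_lit 1) (nat_lit 323) (nat_lit 412) (nat_lit 405))) (XT.nd (nat_lit 78) (nat_lit 0) (nat_lit 0) (XT.lf (nat_lit 1900) (nat_lit 1979021107) (nat_lit 0) (nat_lit 3114970970) (nat_lit 1824) (nat_lit 1979021107) (nat_lit 526) (nat_lit 1) (nat_lit 501) (nat_lit 1) (nat_lit 525) (nat_lit 1) (nat_lit 324) (nat_lit 412) (nat_lit 404)) (XT.lf (nat_lit 1900) (nat_lit 3725279716) (nat_lit 76) (nat_lit 1640004107) (nat_lit 0) (nat_lit 1640004107) (nat_lit 526) (nat_lit 1) (nat_lit 502) (nat_lit 1) (nat_lit 501) (nat_lit 1) (nat_lit 325) (nat_lit 412) (nat_lit 403))))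 (XT.nd (nat_lit 156) (nat_lit 0) (nat_lit 76) (XT.nd (nat_lit 78) (nat_lit 0) (nat_lit 0) (XT.lf (nat_lit 1900) (nat_lit 1736205230) (nat_lit 0) (nat_lit 3465996421) (nat_lit 1824) (nat_lit 1736205230) (nat_lit 527) (nat_lit 1) (nat_lit 502) (nat_lit 1) (nat_lit 526) (nat_lit 1) (nat_lit 326) (nat_lit 412) (nat_lit 402)) (XT.lf (nat_lit 1900) (nat_lit 3201696819) (nat_lit 76) (nat_lit 1835346649) (nat_lit 0) (nat_lit 1835346649) (nat_lit 527) (nat_lit 1) (nat_lit 503) (nat_lit 1) (nat_lit 502) (nat_lit 1) (nat_lit 327) (nat_lit 412) (nat_lit 401))) (XT.nd (nat_lit 78) (nat_lit 0) (nat_lit 0) (XT.lf (nat_lit 1900) (nat_lit 1457543999) (nat_lit 0) (nat_lit 3892164051) (nat_lit 1824) (nat_lit 1457543999) (nat_lit 528) (nat_lit 1) (nat_lit 503) (nat_lit 1) (nat_lit 527) (nat_lit 1) (nat_lit 328) (nat_lit 412) (nat_lit 400)) (XT.nd (nat_lit 78) (nat_lit 0) (nat_lit 76) (XT.lf (nat_lit 1900) (nat_lit 2608492614) (nat_lit 76) (nat_lit 2067198248) (nat_lit 0) (nat_lit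 2067198248) (nat_lit 528) (nat_lit 1) (nat_lit 504) (nat_lit 1) (nat_lit 503) (nat_lit 1) (nat_lit 329) (nat_lit 412) (nat_lit 399)) (XT.lf (nat_lit 1900) (nat_lit 1145317060) (nat_lit 0) (nat_lit 4388815351) (nat_lit 1824) (nat_lit 1145317060) (nat_lit 529) (nat_lit 1) (nat_lit 504) (nat_lit 1) (nat_lit 528) (nat_lit 1) (nat_lit 330) (nat_lit 412) (nat_lit 398))))))))
noncomputable def ec83 : XT := (XT.nd (nat_lit 1404) (nat_lit 7904) (nat_lit 0) (XT.nd (nat_lit 702) (nat_lit 3648) (nat_lit 0) (XT.nd (nat_lit 312) (nat_lit 1672) (nat_lit 0) (XT.nd (nat_lit 156) (nat_lit 0) (nat_lit 76) (XT.nd (nat_lit 78) (nat_lit 0) (nat_lit 76) (XT.lf (nat_lit 1900) (nat_lit 1950134360) (nat_lit 76) (nat_lit 2333276616) (nat_lit 0) (nat_lit 2333276616) (nat_lit 529) (nat_lit 1) (nat_lit 505) (nat_lit 1) (nat_lit 504) (nat_lit 1) (nat_lit 331) (nat_lit 412) (nat_lit 397)) (XT.lf (nat_lit 1900) (nat_lit 801698134) (nat_lit 0) (nat_lit 4951506840) (nat_lit 1824) (nat_lit 801698134)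 (nat_lit 530) (nat_lit 1) (nat_lit 505) (nat_lit 1) (nat_lit 529) (nat_lit 1) (nat_lit 332) (nat_lit 412) (nat_lit 396))) (XT.nd (nat_lit 78) (nat_lit 0) (nat_lit 76) (XT.lf (nat_lit 1900) (nat_lit 1230881260) (nat_lit 76) (nat_lit 2631405042) (nat_lit 0) (nat_lit 2631405042) (nat_lit 530) (nat_lit 1) (nat_lit 506) (nat_lit 1) (nat_lit 505) (nat_lit 1) (nat_lit 333) (nat_lit 412) (nat_lit 395)) (XT.lf (nat_lit 1900) (nat_lit 428759468) (nat_lit 0) (nat_lit 5576001042) (nat_lit 1824) (nat_lit 428759468) (nat_lit 531) (nat_lit 1) (nat_lit 506) (nat_lit 1) (nat_lit 530) (nat_lit 1) (nat_lit 334) (nat_lit 412) (nat_lit 394)))) (XT.nd (nat_lit 156) (nat_lit 1824) (nat_lit 0) (XT.nd (nat_lit 78) (nat_lit 0) (nat_lit 76) (XT.lf (nat_lit 1900) (nat_lit 454793225) (nat_lit 76) (nat_lit 2959507959) (nat_lit 0) (nat_lit 2959507959) (nat_lit 531) (nat_lit 1) (nat_lit 507) (nat_lit 1) (nat_lit 506) (nat_lit 1) (nat_lit 335) (nat_lit 412) (nat_lit 393)) (XT.lf (nat_lit 1900)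 (nat_lit 28476110) (nat_lit 0) (nat_lit 6258257833) (nat_lit 1824) (nat_lit 28476110) (nat_lit 532) (nat_lit 1) (nat_lit 507) (nat_lit 1) (nat_lit 531) (nat_lit 1) (nat_lit 336) (nat_lit 412) (nat_lit 392))) (XT.nd (nat_lit 78) (nat_lit 0) (nat_lit 0) (XT.lf (nat_lit 1976) (nat_lit 2943775913) (nat_lit 0) (nat_lit 369352231) (nat_lit 1900) (nat_lit 2943775913) (nat_lit 508) (nat_lit 1) (nat_lit 482) (nat_lit 1) (nat_lit 507) (nat_lit 1) (nat_lit 337) (nat_lit 412) (nat_lit 391)) (XT.nd (nat_lit 78) (nat_lit 0) (nat_lit 76) (XT.lf (nat_lit 1976) (nat_lit 5410366383) (nat_lit 76) (nat_lit 394656368) (nat_lit 0) (nat_lit 394656368) (nat_lit 508) (nat_lit 1) (nat_lit 483) (nat_lit 1) (nat_lit 482) (nat_lit 1) (nat_lit 338) (nat_lit 412) (nat_lit 390)) (XT.lf (nat_lit 1976) (nat_lit 2453353638) (nat_lit 0) (nat_lit 1236166410) (nat_lit 1900) (nat_lit 2453353638) (nat_lit 509) (nat_lit 1) (nat_lit 483) (nat_lit 1) (nat_lit 508) (nat_lit 1) (nat_lit 339) (nat_lit 412)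 (nat_lit 389)))))) (XT.nd (nat_lit 312) (nat_lit 2660) (nat_lit 0) (XT.nd (nat_lit 156) (nat_lit 1064) (nat_lit 0) (XT.nd (nat_lit 78) (nat_lit 0) (nat_lit 76) (XT.lf (nat_lit 1976) (nat_lit 4404791166) (nat_lit 76) (nat_lit 841115728) (nat_lit 0) (nat_lit 841115728) (nat_lit 509) (nat_lit 1) (nat_lit 484) (nat_lit 1) (nat_lit 483) (nat_lit 1) (nat_lit 340) (nat_lit 412) (nat_lit 388)) (XT.lf (nat_lit 76) (nat_lit 1941772872) (nat_lit 0) (nat_lit 2148148955) (nat_lit 1900) (nat_lit 1941772872) (nat_lit 485) (nat_lit 1) (nat_lit 484) (nat_lit 1) (nat_lit 509) (nat_lit 1) (nat_lit 341) (nat_lit 412) (nat_lit 387))) (XT.nd (nat_lit 78) (nat_lit 0) (nat_lit 0) (XT.lf (nat_lit 1216) (nat_lit 3358388263) (nat_lit 0) (nat_lit 1309393133) (nat_lit 1140) (nat_lit 1309393133) (nat_lit 485) (nat_lit 1) (nat_lit 469) (nat_lit 1) (nat_lit 484) (nat_lit 1) (nat_lit 342) (nat_lit 412) (nat_lit 386)) (XT.lf (nat_lit 76) (nat_lit 1410643502) (nat_lit 0) (nat_lit 3102000279) (nat_lit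 1216) (nat_lit 1410643502) (nat_lit 470) (nat_lit 1) (nat_lit 469) (nat_lit 1) (nat_lit 485) (nat_lit 1) (nat_lit 343) (nat_lit 412) (nat_lit 385)))) (XT.nd (nat_lit 156) (nat_lit 1748) (nat_lit 0) (XT.nd (nat_lit 78) (nat_lit 0) (nat_lit 0) (XT.lf (nat_lit 988) (nat_lit 2274309248) (nat_lit 0) (nat_lit 1797873624) (nat_lit 912) (nat_lit 1797873624) (nat_lit 470) (nat_lit 1) (nat_lit 457) (nat_lit 1) (nat_lit 469) (nat_lit 1) (nat_lit 344) (nat_lit 412) (nat_lit 384)) (XT.lf (nat_lit 76) (nat_lit 861497447) (nat_lit 0) (nat_lit 4094579230) (nat_lit 988) (nat_lit 861497447) (nat_lit 458) (nat_lit 1) (nat_lit 457) (nat_lit 1) (nat_lit 470) (nat_lit 1) (nat_lit 345) (nat_lit 412) (nat_lit 383))) (XT.nd (nat_lit 78) (nat_lit 836) (nat_lit 0) (XT.lf (nat_lit 988) (nat_lit 1155552604) (nat_lit 0) (nat_lit 2305020008) (nat_lit 912) (nat_lit 2305020008) (nat_lit 458) (nat_lit 1) (nat_lit 445) (nat_lit 1) (nat_lit 457) (nat_lit 1) (nat_lit 346) (nat_lit 412) (nat_lit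 382)) (XT.nd (nat_lit 78) (nat_lit 836) (nat_lit 0) (XT.lf (nat_lit 76) (nat_lit 295791983) (nat_lit 0) (nat_lit 5122896343) (nat_lit 988) (nat_lit 295791983) (nat_lit 446) (nat_lit 1) (nat_lit 445) (nat_lit 1) (nat_lit 458) (nat_lit 1) (nat_lit 347) (nat_lit 412) (nat_lit 381)) (XT.lf (nat_lit 912) (nat_lit 4970273) (nat_lit 0) (nat_lit 2829369540) (nat_lit 836) (nat_lit 2829369540) (nat_lit 446) (nat_lit 1) (nat_lit 434) (nat_lit 1) (nat_lit 445) (nat_lit 1) (nat_lit 348) (nat_lit 412) (nat_lit 380))))))) (XT.nd (nat_lit 702) (nat_lit 3648) (nat_lit 0) (XT.nd (nat_lit 312) (nat_lit 2432) (nat_lit 0) (XT.nd (nat_lit 156) (nat_lit 836) (nat_lit 0) (XT.nd (nat_lit 78) (nat_lit 0) (nat_lit 0) (XT.lf (nat_lit 988) (nat_lit 5047361725) (nat_lit 0) (nat_lit 283211480) (nat_lit 912) (nat_lit 283211480) (nat_lit 434) (nat_lit 1) (nat_lit 421) (nat_lit 1) (nat_lit 433) (nat_lit 1) (nat_lit 349) (nat_lit 412) (nat_lit 379)) (XT.lf (nat_lit 76) (nat_lit 2202431782) (nat_lit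 0) (nat_lit 1159319318) (nat_lit 988) (nat_lit 2202431782) (nat_lit 422) (nat_lit 1) (nat_lit 421) (nat_lit 1) (nat_lit 434) (nat_lit 1) (nat_lit 350) (nat_lit 412) (nat_lit 378))) (XT.nd (nat_lit 78) (nat_lit 0) (nat_lit 0) (XT.lf (nat_lit 912) (nat_lit 3767336308) (nat_lit 0) (nat_lit 874033903) (nat_lit 836) (nat_lit 874033903) (nat_lit 422) (nat_lit 1) (nat_lit 410) (nat_lit 1) (nat_lit 421) (nat_lit 1) (nat_lit 351) (nat_lit 412) (nat_lit 377)) (XT.lf (nat_lit 76) (nat_lit 1558680169) (nat_lit 0) (nat_lit 2349732254) (nat_lit 912) (nat_lit 1558680169) (nat_lit 411) (nat_lit 1) (nat_lit 410) (nat_lit 1) (nat_lit 422) (nat_lit 1) (nat_lit 352) (nat_lit 412) (nat_lit 376)))) (XT.nd (nat_lit 156) (nat_lit 1596) (nat_lit 0) (XT.nd (nat_lit 78) (nat_lit 0) (nat_lit 0) (XT.lf (nat_lit 912) (nat_lit 2464670229) (nat_lit 0) (nat_lit 1477377505) (nat_lit 836) (nat_lit 1477377505) (nat_lit 411) (nat_lit 1) (nat_lit 399) (nat_lit 1) (nat_lit 410) (nat_lit 1) (nat_lit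 353) (nat_lit 412) (nat_lit 375)) (XT.lf (nat_lit 76) (nat_lit 904227823) (nat_lit 0) (nat_lit 3563916851) (nat_lit 912) (nat_lit 904227823) (nat_lit 400) (nat_lit 1) (nat_lit 399) (nat_lit 1) (nat_lit 411) (nat_lit 1) (nat_lit 354) (nat_lit 412) (nat_lit 374))) (XT.nd (nat_lit 78) (nat_lit 836) (nat_lit 0) (XT.lf (nat_lit 836) (nat_lit 1141661196) (nat_lit 0) (nat_lit 2092060710) (nat_lit 760) (nat_lit 2092060710) (nat_lit 400) (nat_lit 1) (nat_lit 389) (nat_lit 1) (nat_lit 399) (nat_lit 1) (nat_lit 355) (nat_lit 412) (nat_lit 373)) (XT.nd (nat_lit 78) (nat_lit 836) (nat_lit 0) (XT.lf (nat_lit 76) (nat_lit 240190238) (nat_lit 0) (nat_lit 4799577537) (nat_lit 836) (nat_lit 240190238) (nat_lit 390) (nat_lit 1) (nat_lit 389) (nat_lit 1) (nat_lit 400) (nat_lit 1) (nat_lit 356) (nat_lit 412) (nat_lit 372)) (XT.lf (nat_lit 76) (nat_lit 2518746686) (nat_lit 0) (nat_lit 196893512) (nat_lit 836) (nat_lit 2518746686) (nat_lit 379) (nat_lit 1) (nat_lit 378) (nat_lit 1)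 (nat_lit 389) (nat_lit 1) (nat_lit 357) (nat_lit 412) (nat_lit 371)))))) (XT.nd (nat_lit 312) (nat_lit 2128) (nat_lit 0) (XT.nd (nat_lit 156) (nat_lit 760) (nat_lit 0) (XT.nd (nat_lit 78) (nat_lit 0) (nat_lit 0) (XT.lf (nat_lit 836) (nat_lit 4330502044) (nat_lit 0) (nat_lit 429529571) (nat_lit 760) (nat_lit 429529571) (nat_lit 379) (nat_lit 1) (nat_lit 368) (nat_lit 1) (nat_lit 378) (nat_lit 1) (nat_lit 358) (nat_lit 412) (nat_lit 370)) (XT.lf (nat_lit 76) (nat_lit 1804347234) (nat_lit 0) (nat_lit 1536357624) (nat_lit 836) (nat_lit 1804347234) (nat_lit 369) (nat_lit 1) (nat_lit 368) (nat_lit 1) (nat_lit 379) (nat_lit 1) (nat_lit 359) (nat_lit 412) (nat_lit 369))) (XT.nd (nat_lit 78) (nat_lit 0) (nat_lit 0) (XT.lf (nat_lit 836) (nat_lit 2890932367) (nat_lit 0) (nat_lit 1105142585) (nat_lit 760) (nat_lit 1105142585) (nat_lit 369) (nat_lit 1) (nat_lit 358) (nat_lit 1) (nat_lit 368) (nat_lit 1) (nat_lit 360) (nat_lit 412) (nat_lit 368)) (XT.lf (nat_lit 76) (nat_lit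 1084049392) (nat_lit 0) (nat_lit 2889768302) (nat_lit 836) (nat_lit 1084049392) (nat_lit 359) (nat_lit 1) (nat_lit 358) (nat_lit 1) (nat_lit 369) (nat_lit 1) (nat_lit 361) (nat_lit 412) (nat_lit 367)))) (XT.nd (nat_lit 156) (nat_lit 1444) (nat_lit 0) (XT.nd (nat_lit 78) (nat_lit 0) (nat_lit 0) (XT.lf (nat_lit 760) (nat_lit 1440426777) (nat_lit 0) (nat_lit 1787283546) (nat_lit 684) (nat_lit 1787283546) (nat_lit 359) (nat_lit 1) (nat_lit 349) (nat_lit 1) (nat_lit 358) (nat_lit 1) (nat_lit 362) (nat_lit 412) (nat_lit 366)) (XT.lf (nat_lit 76) (nat_lit 358741798) (nat_lit 0) (nat_lit 4255290660) (nat_lit 760) (nat_lit 358741798) (nat_lit 350) (nat_lit 1) (nat_lit 349) (nat_lit 1) (nat_lit 359) (nat_lit 1) (nat_lit 363) (nat_lit 412) (nat_lit 365))) (XT.nd (nat_lit 78) (nat_lit 684) (nat_lit 0) (XT.lf (nat_lit 76) (nat_lit 2455902173) (nat_lit 0) (nat_lit 19026703) (nat_lit 760) (nat_lit 2455902173) (nat_lit 340) (nat_lit 1) (nat_lit 339) (nat_lit 1) (nat_lit 349)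 (nat_lit 1) (nat_lit 364) (nat_lit 412) (nat_lit 364)) (XT.nd (nat_lit 78) (nat_lit 0) (nat_lit 0) (XT.lf (nat_lit 760) (nat_lit 4152933894) (nat_lit 0) (nat_lit 368295308) (nat_lit 684) (nat_lit 368295308) (nat_lit 340) (nat_lit 1) (nat_lit 330) (nat_lit 1) (nat_lit 339) (nat_lit 1) (nat_lit 365) (nat_lit 412) (nat_lit 363)) (XT.lf (nat_lit 76) (nat_lit 1690720190) (nat_lit 0) (nat_lit 1467048249) (nat_lit 760) (nat_lit 1690720190) (nat_lit 331) (nat_lit 1) (nat_lit 330) (nat_lit 1) (nat_lit 340) (nat_lit 1) (nat_lit 366) (nat_lit 412) (nat_lit 362))))))))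
noncomputable def ec84 : XT := (XT.nd (nat_lit 1404) (nat_lit 5092) (nat_lit 0) (XT.nd (nat_lit 702) (nat_lit 3420) (nat_lit 0) (XT.nd (nat_lit 312) (nat_lit 1900) (nat_lit 0) (XT.nd (nat_lit 156) (nat_lit 608) (nat_lit 0) (XT.nd (nat_lit 78) (nat_lit 0) (nat_lit 0) (XT.lf (nat_lit 760) (nat_lit 2615422557) (nat_lit 0) (nat_lit 1096322784) (nat_lit 684) (nat_lit 1096322784) (nat_lit 331) (nat_lit 1) (nat_lit 321) (nat_lit 1) (nat_lit 330) (nat_lit 1) (nat_lit 367) (nat_lit 412) (nat_lit 361)) (XT.lf (nat_lit 76) (nat_lit 923552006) (nat_lit 0) (nat_lit 2920996548) (nat_lit 760) (nat_lit 923552006) (nat_lit 322) (nat_lit 1) (nat_lit 321) (nat_lit 1) (nat_lit 331) (nat_lit 1) (nat_lit 368) (nat_lit 412) (nat_lit 360))) (XT.nd (nat_lit 78) (nat_lit 0) (nat_lit 0) (XT.lf (nat_lit 684) (nat_lit 1074633455) (nat_lit 0) (nat_lit 1826953206) (nat_lit 608) (nat_lit 1826953206) (nat_lit 322) (nat_lit 1) (nat_lit 313) (nat_lit 1) (nat_lit 321) (nat_lit 1) (nat_lit 369)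 (nat_lit 412) (nat_lit 359)) (XT.lf (nat_lit 76) (nat_lit 155096300) (nat_lit 0) (nat_lit 4379422729) (nat_lit 684) (nat_lit 155096300) (nat_lit 314) (nat_lit 1) (nat_lit 313) (nat_lit 1) (nat_lit 322) (nat_lit 1) (nat_lit 370) (nat_lit 412) (nat_lit 358)))) (XT.nd (nat_lit 156) (nat_lit 608) (nat_lit 0) (XT.nd (nat_lit 78) (nat_lit 608) (nat_lit 0) (XT.lf (nat_lit 76) (nat_lit 2094447963) (nat_lit 0) (nat_lit 461932370) (nat_lit 684) (nat_lit 2094447963) (nat_lit 305) (nat_lit 1) (nat_lit 304) (nat_lit 1) (nat_lit 313) (nat_lit 1) (nat_lit 371) (nat_lit 412) (nat_lit 357)) (XT.lf (nat_lit 684) (nat_lit 3392766610) (nat_lit 0) (nat_lit 609948175) (nat_lit 608) (nat_lit 609948175) (nat_lit 305) (nat_lit 1) (nat_lit 296) (nat_lit 1) (nat_lit 304) (nat_lit 1) (nat_lit 372) (nat_lit 412) (nat_lit 356))) (XT.nd (nat_lit 78) (nat_lit 608) (nat_lit 0) (XT.lf (nat_lit 76) (nat_lit 1294889510) (nat_lit 0) (nat_lit 1985026382) (nat_lit 684) (nat_lit 1294889510) (nat_lit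 297) (nat_lit 1) (nat_lit 296) (nat_lit 1) (nat_lit 305) (nat_lit 1) (nat_lit 373) (nat_lit 412) (nat_lit 355)) (XT.nd (nat_lit 78) (nat_lit 0) (nat_lit 0) (XT.lf (nat_lit 684) (nat_lit 1789476900) (nat_lit 0) (nat_lit 1373978591) (nat_lit 608) (nat_lit 1373978591) (nat_lit 297) (nat_lit 1) (nat_lit 288) (nat_lit 1) (nat_lit 296) (nat_lit 1) (nat_lit 374) (nat_lit 412) (nat_lit 354)) (XT.lf (nat_lit 76) (nat_lit 496508069) (nat_lit 0) (nat_lit 3507547026) (nat_lit 684) (nat_lit 496508069) (nat_lit 289) (nat_lit 1) (nat_lit 288) (nat_lit 1) (nat_lit 297) (nat_lit 1) (nat_lit 375) (nat_lit 412) (nat_lit 353)))))) (XT.nd (nat_lit 312) (nat_lit 1672) (nat_lit 0) (XT.nd (nat_lit 156) (nat_lit 532) (nat_lit 0) (XT.nd (nat_lit 78) (nat_lit 684) (nat_lit 0) (XT.lf (nat_lit 608) (nat_lit 189096286) (nat_lit 0) (nat_lit 2137433224) (nat_lit 532) (nat_lit 2137433224) (nat_lit 289) (nat_lit 1) (nat_lit 281) (nat_lit 1) (nat_lit 288) (nat_lit 1) (nat_lit 376) (nat_lit 412)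 (nat_lit 352)) (XT.lf (nat_lit 684) (nat_lit 3831535682) (nat_lit 0) (nat_lit 298181648) (nat_lit 608) (nat_lit 298181648) (nat_lit 281) (nat_lit 1) (nat_lit 272) (nat_lit 1) (nat_lit 280) (nat_lit 1) (nat_lit 377) (nat_lit 412) (nat_lit 351))) (XT.nd (nat_lit 78) (nat_lit 532) (nat_lit 0) (XT.lf (nat_lit 76) (nat_lit 1501576781) (nat_lit 0) (nat_lit 1388867181) (nat_lit 684) (nat_lit 1501576781) (nat_lit 273) (nat_lit 1) (nat_lit 272) (nat_lit 1) (nat_lit 281) (nat_lit 1) (nat_lit 378) (nat_lit 412) (nat_lit 350)) (XT.lf (nat_lit 608) (nat_lit 2181876948) (nat_lit 0) (nat_lit 1087394947) (nat_lit 532) (nat_lit 1087394947) (nat_lit 273) (nat_lit 1) (nat_lit 265) (nat_lit 1) (nat_lit 272) (nat_lit 1) (nat_lit 379) (nat_lit 412) (nat_lit 349)))) (XT.nd (nat_lit 156) (nat_lit 1140) (nat_lit 0) (XT.nd (nat_lit 78) (nat_lit 532) (nat_lit 0) (XT.lf (nat_lit 76) (nat_lit 681127139) (nat_lit 0) (nat_lit 2959468551) (nat_lit 608) (nat_lit 681127139) (nat_lit 266) (nat_lit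 1) (nat_lit 265) (nat_lit 1) (nat_lit 273) (nat_lit 1) (nat_lit 380) (nat_lit 412) (nat_lit 348)) (XT.lf (nat_lit 608) (nat_lit 539232455) (nat_lit 0) (nat_lit 1873924885) (nat_lit 532) (nat_lit 1873924885) (nat_lit 266) (nat_lit 1) (nat_lit 258) (nat_lit 1) (nat_lit 265) (nat_lit 1) (nat_lit 381) (nat_lit 412) (nat_lit 347))) (XT.nd (nat_lit 78) (nat_lit 532) (nat_lit 0) (XT.lf (nat_lit 608) (nat_lit 3983541752) (nat_lit 0) (nat_lit 134719200) (nat_lit 532) (nat_lit 134719200) (nat_lit 258) (nat_lit 1) (nat_lit 250) (nat_lit 1) (nat_lit 257) (nat_lit 1) (nat_lit 382) (nat_lit 412) (nat_lit 346)) (XT.nd (nat_lit 78) (nat_lit 532) (nat_lit 0) (XT.lf (nat_lit 76) (nat_lit 1568888762) (nat_lit 0) (nat_lit 1081183300) (nat_lit 608) (nat_lit 1568888762) (nat_lit 251) (nat_lit 1) (nat_lit 250) (nat_lit 1) (nat_lit 258) (nat_lit 1) (nat_lit 383) (nat_lit 412) (nat_lit 345)) (XT.lf (nat_lit 608) (nat_lit 2301483861) (nat_lit 0) (nat_lit 941992605) (nat_lit 532) (nat_lit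 941992605) (nat_lit 251) (nat_lit 1) (nat_lit 243) (nat_lit 1) (nat_lit 250) (nat_lit 1) (nat_lit 384) (nat_lit 412) (nat_lit 344))))))) (XT.nd (nat_lit 702) (nat_lit 2584) (nat_lit 0) (XT.nd (nat_lit 312) (nat_lit 1444) (nat_lit 0) (XT.nd (nat_lit 156) (nat_lit 608) (nat_lit 0) (XT.nd (nat_lit 78) (nat_lit 456) (nat_lit 0) (XT.lf (nat_lit 76) (nat_lit 733173249) (nat_lit 0) (nat_lit 2685988665) (nat_lit 608) (nat_lit 733173249) (nat_lit 244) (nat_lit 1) (nat_lit 243) (nat_lit 1) (nat_lit 251) (nat_lit 1) (nat_lit 385) (nat_lit 412) (nat_lit 343)) (XT.lf (nat_lit 532) (nat_lit 629913399) (nat_lit 0) (nat_lit 1744795525) (nat_lit 456) (nat_lit 1744795525) (nat_lit 244) (nat_lit 1) (nat_lit 237) (nat_lit 1) (nat_lit 243) (nat_lit 1) (nat_lit 386) (nat_lit 412) (nat_lit 342))) (XT.nd (nat_lit 78) (nat_lit 0) (nat_lit 0) (XT.lf (nat_lit 608) (nat_lit 3894172617) (nat_lit 0) (nat_lit 96506217) (nat_lit 532) (nat_lit 96506217) (nat_lit 237) (nat_lit 1) (nat_lit 229)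 (nat_lit 1) (nat_lit 236) (nat_lit 1) (nat_lit 387) (nat_lit 412) (nat_lit 341)) (XT.lf (nat_lit 76) (nat_lit 1518963461) (nat_lit 0) (nat_lit 1016986580) (nat_lit 608) (nat_lit 1518963461) (nat_lit 230) (nat_lit 1) (nat_lit 229) (nat_lit 1) (nat_lit 237) (nat_lit 1) (nat_lit 388) (nat_lit 412) (nat_lit 340)))) (XT.nd (nat_lit 156) (nat_lit 988) (nat_lit 0) (XT.nd (nat_lit 78) (nat_lit 0) (nat_lit 0) (XT.lf (nat_lit 532) (nat_lit 2191779659) (nat_lit 0) (nat_lit 915681940) (nat_lit 456) (nat_lit 915681940) (nat_lit 230) (nat_lit 1) (nat_lit 223) (nat_lit 1) (nat_lit 229) (nat_lit 1) (nat_lit 389) (nat_lit 412) (nat_lit 339)) (XT.lf (nat_lit 76) (nat_lit 673854210) (nat_lit 0) (nat_lit 2644003487) (nat_lit 532) (nat_lit 673854210) (nat_lit 224) (nat_lit 1) (nat_lit 223) (nat_lit 1) (nat_lit 230) (nat_lit 1) (nat_lit 390) (nat_lit 412) (nat_lit 338))) (XT.nd (nat_lit 78) (nat_lit 532) (nat_lit 0) (XT.lf (nat_lit 532) (nat_lit 502792840) (nat_lit 0) (nat_lit 1728881334)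 (nat_lit 456) (nat_lit 1728881334) (nat_lit 224) (nat_lit 1) (nat_lit 217) (nat_lit 1) (nat_lit 223) (nat_lit 1) (nat_lit 391) (nat_lit 412) (nat_lit 337)) (XT.nd (nat_lit 78) (nat_lit 0) (nat_lit 0) (XT.lf (nat_lit 532) (nat_lit 3603137228) (nat_lit 0) (nat_lit 163360901) (nat_lit 456) (nat_lit 163360901) (nat_lit 217) (nat_lit 1) (nat_lit 210) (nat_lit 1) (nat_lit 216) (nat_lit 1) (nat_lit 392) (nat_lit 412) (nat_lit 336)) (XT.lf (nat_lit 76) (nat_lit 1371166033) (nat_lit 0) (nat_lit 1156900489) (nat_lit 532) (nat_lit 1371166033) (nat_lit 211) (nat_lit 1) (nat_lit 210) (nat_lit 1) (nat_lit 217) (nat_lit 1) (nat_lit 393) (nat_lit 412) (nat_lit 335)))))) (XT.nd (nat_lit 312) (nat_lit 1216) (nat_lit 0) (XT.nd (nat_lit 156) (nat_lit 912) (nat_lit 0) (XT.nd (nat_lit 78) (nat_lit 0) (nat_lit 0) (XT.lf (nat_lit 532) (nat_lit 1890794249) (nat_lit 0) (nat_lit 989131555) (nat_lit 456) (nat_lit 989131555) (nat_lit 211) (nat_lit 1) (nat_lit 204) (nat_lit 1) (nat_lit 210)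 (nat_lit 1) (nat_lit 394) (nat_lit 412) (nat_lit 334)) (XT.lf (nat_lit 76) (nat_lit 521715718) (nat_lit 0) (nat_lit 2795796872) (nat_lit 532) (nat_lit 521715718) (nat_lit 205) (nat_lit 1) (nat_lit 204) (nat_lit 1) (nat_lit 211) (nat_lit 1) (nat_lit 395) (nat_lit 412) (nat_lit 333))) (XT.nd (nat_lit 78) (nat_lit 532) (nat_lit 0) (XT.lf (nat_lit 456) (nat_lit 194290179) (nat_lit 0) (nat_lit 1807666653) (nat_lit 380) (nat_lit 1807666653) (nat_lit 205) (nat_lit 1) (nat_lit 199) (nat_lit 1) (nat_lit 204) (nat_lit 1) (nat_lit 396) (nat_lit 412) (nat_lit 332)) (XT.lf (nat_lit 532) (nat_lit 3145126504) (nat_lit 0) (nat_lit 317640390) (nat_lit 456) (nat_lit 317640390) (nat_lit 199) (nat_lit 1) (nat_lit 192) (nat_lit 1) (nat_lit 198) (nat_lit 1) (nat_lit 397) (nat_lit 412) (nat_lit 331)))) (XT.nd (nat_lit 156) (nat_lit 836) (nat_lit 0) (XT.nd (nat_lit 78) (nat_lit 380) (nat_lit 0) (XT.lf (nat_lit 76) (nat_lit 1142411553) (nat_lit 0) (nat_lit 1466507704) (nat_lit 532) (nat_lit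 1142411553) (nat_lit 193) (nat_lit 1) (nat_lit 192) (nat_lit 1) (nat_lit 199) (nat_lit 1) (nat_lit 398) (nat_lit 412) (nat_lit 330)) (XT.lf (nat_lit 456) (nat_lit 1431740326) (nat_lit 0) (nat_lit 1145447479) (nat_lit 380) (nat_lit 1145447479) (nat_lit 193) (nat_lit 1) (nat_lit 187) (nat_lit 1) (nat_lit 192) (nat_lit 1) (nat_lit 399) (nat_lit 412) (nat_lit 329))) (XT.nd (nat_lit 78) (nat_lit 836) (nat_lit 0) (XT.lf (nat_lit 76) (nat_lit 292951467) (nat_lit 0) (nat_lit 3108413567) (nat_lit 456) (nat_lit 292951467) (nat_lit 188) (nat_lit 1) (nat_lit 187) (nat_lit 1) (nat_lit 193) (nat_lit 1) (nat_lit 400) (nat_lit 412) (nat_lit 328)) (XT.nd (nat_lit 78) (nat_lit 380) (nat_lit 0) (XT.lf (nat_lit 76) (nat_lit 1702889015) (nat_lit 0) (nat_lit 260339720) (nat_lit 456) (nat_lit 1702889015) (nat_lit 182) (nat_lit 1) (nat_lit 181) (nat_lit 1) (nat_lit 187) (nat_lit 1) (nat_lit 401) (nat_lit 412) (nat_lit 327)) (XT.lf (nat_lit 456) (nat_lit 2550399136) (nat_lit 0) (nat_lit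 543944758) (nat_lit 380) (nat_lit 543944758) (nat_lit 182) (nat_lit 1) (nat_lit 176) (nat_lit 1) (nat_lit 181) (nat_lit 1) (nat_lit 402) (nat_lit 412) (nat_lit 326))))))))
noncomputable def ec85 : XT := (XT.nd (nat_lit 53040) (nat_lit 0) (nat_lit 25460) (XT.nd (nat_lit 702) (nat_lit 304) (nat_lit 0) (XT.nd (nat_lit 312) (nat_lit 1140) (nat_lit 0) (XT.nd (nat_lit 156) (nat_lit 380) (nat_lit 0) (XT.nd (nat_lit 78) (nat_lit 380) (nat_lit 0) (XT.lf (nat_lit 76) (nat_lit 847451158) (nat_lit 0) (nat_lit 1915771729) (nat_lit 456) (nat_lit 847451158) (nat_lit 177) (nat_lit 1) (nat_lit 176) (nat_lit 1) (nat_lit 182) (nat_lit 1) (nat_lit 403) (nat_lit 412) (nat_lit 325)) (XT.lf (nat_lit 456) (nat_lit 843576184) (nat_lit 0) (nat_lit 1369888793) (nat_lit 380) (nat_lit 1369888793) (nat_lit 177) (nat_lit 1) (nat_lit 171) (nat_lit 1) (nat_lit 176) (nat_lit 1) (nat_lit 404) (nat_lit 412) (nat_lit 324))) (XT.nd (nat_lit 78) (nat_lit 380) (nat_lit 0) (XT.lf (nat_lit 76) (nat_lit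 1678061) (nat_lit 0) (nat_lit 3553103522) (nat_lit 456) (nat_lit 1678061) (nat_lit 172) (nat_lit 1) (nat_lit 171) (nat_lit 1) (nat_lit 177) (nat_lit 1) (nat_lit 405) (nat_lit 412) (nat_lit 323)) (XT.lf (nat_lit 76) (nat_lit 1348413176) (nat_lit 0) (nat_lit 832698590) (nat_lit 380) (nat_lit 1348413176) (nat_lit 167) (nat_lit 1) (nat_lit 166) (nat_lit 1) (nat_lit 171) (nat_lit 1) (nat_lit 406) (nat_lit 412) (nat_lit 322)))) (XT.nd (nat_lit 156) (nat_lit 760) (nat_lit 0) (XT.nd (nat_lit 78) (nat_lit 0) (nat_lit 0) (XT.lf (nat_lit 456) (nat_lit 1845300806) (nat_lit 0) (nat_lit 828854645) (nat_lit 380) (nat_lit 828854645) (nat_lit 167) (nat_lit 1) (nat_lit 161) (nat_lit 1) (nat_lit 166) (nat_lit 1) (nat_lit 407) (nat_lit 412) (nat_lit 321)) (XT.lf (nat_lit 76) (nat_lit 499125652) (nat_lit 0) (nat_lit 2478524226) (nat_lit 456) (nat_lit 499125652) (nat_lit 162) (nat_lit 1) (nat_lit 161) (nat_lit 1) (nat_lit 167) (nat_lit 1) (nat_lit 408) (nat_lit 412) (nat_lit 320)))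 (XT.nd (nat_lit 78) (nat_lit 456) (nat_lit 0) (XT.lf (nat_lit 380) (nat_lit 151504538) (nat_lit 0) (nat_lit 1649615552) (nat_lit 304) (nat_lit 1649615552) (nat_lit 162) (nat_lit 1) (nat_lit 157) (nat_lit 1) (nat_lit 161) (nat_lit 1) (nat_lit 409) (nat_lit 412) (nat_lit 319)) (XT.nd (nat_lit 78) (nat_lit 0) (nat_lit 0) (XT.lf (nat_lit 456) (nat_lit 2749838207) (nat_lit 0) (nat_lit 337585679) (nat_lit 380) (nat_lit 337585679) (nat_lit 157) (nat_lit 1) (nat_lit 151) (nat_lit 1) (nat_lit 156) (nat_lit 1) (nat_lit 410) (nat_lit 412) (nat_lit 318)) (XT.lf (nat_lit 76) (nat_lit 948933955) (nat_lit 0) (nat_lit 1501543651) (nat_lit 456) (nat_lit 948933955) (nat_lit 152) (nat_lit 1) (nat_lit 151) (nat_lit 1) (nat_lit 157) (nat_lit 1) (nat_lit 411) (nat_lit 412) (nat_lit 317)))))) (XT.nd (nat_lit 51948) (nat_lit 0) (nat_lit 26676) (XT.nd (nat_lit 51792) (nat_lit 0) (nat_lit 26600) (XT.nd (nat_lit 78) (nat_lit 0) (nat_lit 0) (XT.lf (nat_lit 380) (nat_lit 1052724335) (nat_lit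 0) (nat_lit 1160698722) (nat_lit 304) (nat_lit 1160698722) (nat_lit 152) (nat_lit 1) (nat_lit 147) (nat_lit 1) (nat_lit 151) (nat_lit 1) (nat_lit 412) (nat_lit 412) (nat_lit 316)) (XT.lf (nat_lit 76) (nat_lit 108590259) (nat_lit 0) (nat_lit 3132010656) (nat_lit 380) (nat_lit 108590259) (nat_lit 148) (nat_lit 1) (nat_lit 147) (nat_lit 1) (nat_lit 152) (nat_lit 1) (nat_lit 413) (nat_lit 412) (nat_lit 315))) (XT.nd (nat_lit 78) (nat_lit 0) (nat_lit 76) (XT.lf (nat_lit 1900) (nat_lit 5126774343) (nat_lit 76) (nat_lit 1298796154) (nat_lit 0) (nat_lit 1298796154) (nat_lit 522) (nat_lit 1) (nat_lit 498) (nat_lit 1) (nat_lit 497) (nat_lit 0) (nat_lit 315) (nat_lit 413) (nat_lit 412)) (XT.lf (nat_lit 1900) (nat_lit 2517270606) (nat_lit 0) (nat_lit 2614013436) (nat_lit 1824) (nat_lit 2517270606) (nat_lit 523) (nat_lit 1) (nat_lit 498) (nat_lit 1) (nat_lit 522) (nat_lit 1) (nat_lit 316) (nat_lit 413) (nat_lit 411)))) (XT.nd (nat_lit 156) (nat_lit 0) (nat_lit 76) (XT.nd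 (nat_lit 78) (nat_lit 0) (nat_lit 76) (XT.lf (nat_lit 1900) (nat_lit 4926919118) (nat_lit 76) (nat_lit 1323486416) (nat_lit 0) (nat_lit 1323486416) (nat_lit 523) (nat_lit 1) (nat_lit 499) (nat_lit 1) (nat_lit 498) (nat_lit 1) (nat_lit 317) (nat_lit 413) (nat_lit 410)) (XT.lf (nat_lit 1900) (nat_lit 2394389328) (nat_lit 0) (nat_lit 2711274793) (nat_lit 1824) (nat_lit 2394389328) (nat_lit 524) (nat_lit 1) (nat_lit 499) (nat_lit 1) (nat_lit 523) (nat_lit 1) (nat_lit 318) (nat_lit 413) (nat_lit 409))) (XT.nd (nat_lit 78) (nat_lit 0) (nat_lit 76) (XT.lf (nat_lit 1900) (nat_lit 4635509498) (nat_lit 76) (nat_lit 1395901756) (nat_lit 0) (nat_lit 1395901756) (nat_lit 524) (nat_lit 1) (nat_lit 500) (nat_lit 1) (nat_lit 499) (nat_lit 1) (nat_lit 319) (nat_lit 413) (nat_lit 408)) (XT.nd (nat_lit 78) (nat_lit 0) (nat_lit 0) (XT.lf (nat_lit 1900) (nat_lit 2227273439) (nat_lit 0) (nat_lit 2900850041) (nat_lit 1824) (nat_lit 2227273439) (nat_lit 525) (nat_lit 1) (nat_lit 500)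 (nat_lit 1) (nat_lit 524) (nat_lit 1) (nat_lit 320) (nat_lit 413) (nat_lit 407)) (XT.lf (nat_lit 1900) (nat_lit 4258048006) (nat_lit 76) (nat_lit 1513234367) (nat_lit 0) (nat_lit 1513234367) (nat_lit 525) (nat_lit 1) (nat_lit 501) (nat_lit 1) (nat_lit 500) (nat_lit 1) (nat_lit 321) (nat_lit 413) (nat_lit 406))))))) (XT.nd (nat_lit 702) (nat_lit 1444) (nat_lit 0) (XT.nd (nat_lit 312) (nat_lit 0) (nat_lit 152) (XT.nd (nat_lit 156) (nat_lit 0) (nat_lit 76) (XT.nd (nat_lit 78) (nat_lit 0) (nat_lit 0) (XT.lf (nat_lit 1900) (nat_lit 2018601529) (nat_lit 0) (nat_lit 3177270389) (nat_lit 1824) (nat_lit 2018601529) (nat_lit 526) (nat_lit 1) (nat_lit 501) (nat_lit 1) (nat_lit 525) (nat_lit 1) (nat_lit 322) (nat_lit 413) (nat_lit 405)) (XT.lf (nat_lit 1900) (nat_lit 3799785310) (nat_lit 76) (nat_lit 1672804189) (nat_lit 0) (nat_lit 1672804189) (nat_lit 526) (nat_lit 1) (nat_lit 502) (nat_lit 1) (nat_lit 501) (nat_lit 1) (nat_lit 323) (nat_lit 413) (nat_lit 404))) (XT.nd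 (nat_lit 78) (nat_lit 0) (nat_lit 0) (XT.lf (nat_lit 1900) (nat_lit 1770929335) (nat_lit 0) (nat_lit 3535316349) (nat_lit 1824) (nat_lit 1770929335) (nat_lit 527) (nat_lit 1) (nat_lit 502) (nat_lit 1) (nat_lit 526) (nat_lit 1) (nat_lit 324) (nat_lit 413) (nat_lit 403)) (XT.lf (nat_lit 1900) (nat_lit 3265730756) (nat_lit 76) (nat_lit 1872053582) (nat_lit 0) (nat_lit 1872053582) (nat_lit 527) (nat_lit 1) (nat_lit 503) (nat_lit 1) (nat_lit 502) (nat_lit 1) (nat_lit 325) (nat_lit 413) (nat_lit 402)))) (XT.nd (nat_lit 156) (nat_lit 0) (nat_lit 76) (XT.nd (nat_lit 78) (nat_lit 0) (nat_lit 0) (XT.lf (nat_lit 1900) (nat_lit 1486694879) (nat_lit 0) (nat_lit 3970007332) (nat_lit 1824) (nat_lit 1486694879) (nat_lit 528) (nat_lit 1) (nat_lit 503) (nat_lit 1) (nat_lit 527) (nat_lit 1) (nat_lit 326) (nat_lit 413) (nat_lit 401)) (XT.lf (nat_lit 1900) (nat_lit 2660662467) (nat_lit 76) (nat_lit 2108542213) (nat_lit 0) (nat_lit 2108542213) (nat_lit 528) (nat_lit 1) (nat_lit 504)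 (nat_lit 1) (nat_lit 503) (nat_lit 1) (nat_lit 327) (nat_lit 413) (nat_lit 400))) (XT.nd (nat_lit 78) (nat_lit 0) (nat_lit 0) (XT.lf (nat_lit 1900) (nat_lit 1168223401) (nat_lit 0) (nat_lit 4476591658) (nat_lit 1824) (nat_lit 1168223401) (nat_lit 529) (nat_lit 1) (nat_lit 504) (nat_lit 1) (nat_lit 528) (nat_lit 1) (nat_lit 328) (nat_lit 413) (nat_lit 399)) (XT.nd (nat_lit 78) (nat_lit 0) (nat_lit 76) (XT.lf (nat_lit 1900) (nat_lit 1989137047) (nat_lit 76) (nat_lit 2379942148) (nat_lit 0) (nat_lit 2379942148) (nat_lit 529) (nat_lit 1) (nat_lit 505) (nat_lit 1) (nat_lit 504) (nat_lit 1) (nat_lit 329) (nat_lit 413) (nat_lit 398)) (XT.lf (nat_lit 1900) (nat_lit 817732097) (nat_lit 0) (nat_lit 5050536976) (nat_lit 1824) (nat_lit 817732097) (nat_lit 530) (nat_lit 1) (nat_lit 505) (nat_lit 1) (nat_lit 529) (nat_lit 1) (nat_lit 330) (nat_lit 413) (nat_lit 397)))))) (XT.nd (nat_lit 312) (nat_lit 1748) (nat_lit 0) (XT.nd (nat_lit 156) (nat_lit 0) (nat_lit 76) (XT.nd (nat_lit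 78) (nat_lit 0) (nat_lit 76) (XT.lf (nat_lit 1900) (nat_lit 1255498885) (nat_lit 76) (nat_lit 2684033143) (nat_lit 0) (nat_lit 2684033143) (nat_lit 530) (nat_lit 1) (nat_lit 506) (nat_lit 1) (nat_lit 505) (nat_lit 1) (nat_lit 331) (nat_lit 413) (nat_lit 396)) (XT.lf (nat_lit 1900) (nat_lit 437334657) (nat_lit 0) (nat_lit 5687521063) (nat_lit 1824) (nat_lit 437334657) (nat_lit 531) (nat_lit 1) (nat_lit 506) (nat_lit 1) (nat_lit 530) (nat_lit 1) (nat_lit 332) (nat_lit 413) (nat_lit 395))) (XT.nd (nat_lit 78) (nat_lit 0) (nat_lit 76) (XT.lf (nat_lit 1900) (nat_lit 463889089) (nat_lit 76) (nat_lit 3018698118) (nat_lit 0) (nat_lit 3018698118) (nat_lit 531) (nat_lit 1) (nat_lit 507) (nat_lit 1) (nat_lit 506) (nat_lit 1) (nat_lit 333) (nat_lit 413) (nat_lit 394)) (XT.lf (nat_lit 1900) (nat_lit 29045632) (nat_lit 0) (nat_lit 6383422990) (nat_lit 1824) (nat_lit 29045632) (nat_lit 532) (nat_lit 1) (nat_lit 507) (nat_lit 1) (nat_lit 531) (nat_lit 1) (nat_lit 334) (nat_lit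 413) (nat_lit 393)))) (XT.nd (nat_lit 156) (nat_lit 0) (nat_lit 76) (XT.nd (nat_lit 78) (nat_lit 0) (nat_lit 0) (XT.lf (nat_lit 1976) (nat_lit 3002651431) (nat_lit 0) (nat_lit 376739276) (nat_lit 1900) (nat_lit 3002651431) (nat_lit 508) (nat_lit 1) (nat_lit 482) (nat_lit 1) (nat_lit 507) (nat_lit 1) (nat_lit 335) (nat_lit 413) (nat_lit 392)) (XT.lf (nat_lit 1976) (nat_lit 5518573711) (nat_lit 76) (nat_lit 402549496) (nat_lit 0) (nat_lit 402549496) (nat_lit 508) (nat_lit 1) (nat_lit 483) (nat_lit 1) (nat_lit 482) (nat_lit 1) (nat_lit 336) (nat_lit 413) (nat_lit 391))) (XT.nd (nat_lit 78) (nat_lit 0) (nat_lit 0) (XT.lf (nat_lit 1976) (nat_lit 2502420711) (nat_lit 0) (nat_lit 1260889739) (nat_lit 1900) (nat_lit 2502420711) (nat_lit 509) (nat_lit 1) (nat_lit 483) (nat_lit 1) (nat_lit 508) (nat_lit 1) (nat_lit 337) (nat_lit 413) (nat_lit 390)) (XT.nd (nat_lit 78) (nat_lit 0) (nat_lit 76) (XT.lf (nat_lit 1976) (nat_lit 4492886989) (nat_lit 76) (nat_lit 857938043) (nat_lit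 0) (nat_lit 857938043) (nat_lit 509) (nat_lit 1) (nat_lit 484) (nat_lit 1) (nat_lit 483) (nat_lit 1) (nat_lit 338) (nat_lit 413) (nat_lit 389)) (XT.lf (nat_lit 76) (nat_lit 1980608330) (nat_lit 0) (nat_lit 2191111934) (nat_lit 1900) (nat_lit 1980608330) (nat_lit 485) (nat_lit 1) (nat_lit 484) (nat_lit 1) (nat_lit 509) (nat_lit 1) (nat_lit 339) (nat_lit 413) (nat_lit 388))))))))
noncomputable def ec86 : XT := (XT.nd (nat_lit 1404) (nat_lit 7296) (nat_lit 0) (XT.nd (nat_lit 702) (nat_lit 4028) (nat_lit 0) (XT.nd (nat_lit 312) (nat_lit 2736) (nat_lit 0) (XT.nd (nat_lit 156) (nat_lit 912) (nat_lit 0) (XT.nd (nat_lit 78) (nat_lit 0) (nat_lit 0) (XT.lf (nat_lit 1216) (nat_lit 3425556028) (nat_lit 0) (nat_lit 1335580996) (nat_lit 1140) (nat_lit 1335580996) (nat_lit 485) (nat_lit 1) (nat_lit 469) (nat_lit 1) (nat_lit 484) (nat_lit 1) (nat_lit 340) (nat_lit 413) (nat_lit 387)) (XT.lf (nat_lit 76) (nat_lit 1438856372) (nat_lit 0) (nat_lit 3164040285) (nat_lit 1216) (nat_lit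 1438856372) (nat_lit 470) (nat_lit 1) (nat_lit 469) (nat_lit 1) (nat_lit 485) (nat_lit 1) (nat_lit 341) (nat_lit 413) (nat_lit 386))) (XT.nd (nat_lit 78) (nat_lit 0) (nat_lit 0) (XT.lf (nat_lit 988) (nat_lit 2319795433) (nat_lit 0) (nat_lit 1833831097) (nat_lit 912) (nat_lit 1833831097) (nat_lit 470) (nat_lit 1) (nat_lit 457) (nat_lit 1) (nat_lit 469) (nat_lit 1) (nat_lit 342) (nat_lit 413) (nat_lit 385)) (XT.lf (nat_lit 76) (nat_lit 878727395) (nat_lit 0) (nat_lit 4176470815) (nat_lit 988) (nat_lit 878727395) (nat_lit 458) (nat_lit 1) (nat_lit 457) (nat_lit 1) (nat_lit 470) (nat_lit 1) (nat_lit 343) (nat_lit 413) (nat_lit 384)))) (XT.nd (nat_lit 156) (nat_lit 1824) (nat_lit 0) (XT.nd (nat_lit 78) (nat_lit 0) (nat_lit 0) (XT.lf (nat_lit 988) (nat_lit 1178663656) (nat_lit 0) (nat_lit 2351120408) (nat_lit 912) (nat_lit 2351120408) (nat_lit 458) (nat_lit 1) (nat_lit 445) (nat_lit 1) (nat_lit 457) (nat_lit 1) (nat_lit 344) (nat_lit 413) (nat_lit 383)) (XT.lf (nat_lit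 76) (nat_lit 301707823) (nat_lit 0) (nat_lit 5225354270) (nat_lit 988) (nat_lit 301707823) (nat_lit 446) (nat_lit 1) (nat_lit 445) (nat_lit 1) (nat_lit 458) (nat_lit 1) (nat_lit 345) (nat_lit 413) (nat_lit 382))) (XT.nd (nat_lit 78) (nat_lit 988) (nat_lit 0) (XT.lf (nat_lit 912) (nat_lit 5069679) (nat_lit 0) (nat_lit 2885956931) (nat_lit 836) (nat_lit 2885956931) (nat_lit 446) (nat_lit 1) (nat_lit 434) (nat_lit 1) (nat_lit 445) (nat_lit 1) (nat_lit 346) (nat_lit 413) (nat_lit 381)) (XT.nd (nat_lit 78) (nat_lit 0) (nat_lit 0) (XT.lf (nat_lit 988) (nat_lit 5148308960) (nat_lit 0) (nat_lit 288875709) (nat_lit 912) (nat_lit 288875709) (nat_lit 434) (nat_lit 1) (nat_lit 421) (nat_lit 1) (nat_lit 433) (nat_lit 1) (nat_lit 347) (nat_lit 413) (nat_lit 380)) (XT.lf (nat_lit 76) (nat_lit 2246480418) (nat_lit 0) (nat_lit 1182505705) (nat_lit 988) (nat_lit 2246480418) (nat_lit 422) (nat_lit 1) (nat_lit 421) (nat_lit 1) (nat_lit 434) (nat_lit 1) (nat_lit 348) (nat_lit 413)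 (nat_lit 379)))))) (XT.nd (nat_lit 312) (nat_lit 2356) (nat_lit 0) (XT.nd (nat_lit 156) (nat_lit 836) (nat_lit 0) (XT.nd (nat_lit 78) (nat_lit 0) (nat_lit 0) (XT.lf (nat_lit 912) (nat_lit 3842683034) (nat_lit 0) (nat_lit 891514581) (nat_lit 836) (nat_lit 891514581) (nat_lit 422) (nat_lit 1) (nat_lit 410) (nat_lit 1) (nat_lit 421) (nat_lit 1) (nat_lit 349) (nat_lit 413) (nat_lit 378)) (XT.lf (nat_lit 76) (nat_lit 1589853772) (nat_lit 0) (nat_lit 2396726899) (nat_lit 912) (nat_lit 1589853772) (nat_lit 411) (nat_lit 1) (nat_lit 410) (nat_lit 1) (nat_lit 422) (nat_lit 1) (nat_lit 350) (nat_lit 413) (nat_lit 377))) (XT.nd (nat_lit 78) (nat_lit 0) (nat_lit 0) (XT.lf (nat_lit 912) (nat_lit 2513963634) (nat_lit 0) (nat_lit 1506925055) (nat_lit 836) (nat_lit 1506925055) (nat_lit 411) (nat_lit 1) (nat_lit 399) (nat_lit 1) (nat_lit 410) (nat_lit 1) (nat_lit 351) (nat_lit 413) (nat_lit 376)) (XT.lf (nat_lit 76) (nat_lit 922312380) (nat_lit 0) (nat_lit 3635195188) (nat_lit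 912) (nat_lit 922312380) (nat_lit 400) (nat_lit 1) (nat_lit 399) (nat_lit 1) (nat_lit 411) (nat_lit 1) (nat_lit 352) (nat_lit 413) (nat_lit 375)))) (XT.nd (nat_lit 156) (nat_lit 1596) (nat_lit 0) (XT.nd (nat_lit 78) (nat_lit 0) (nat_lit 0) (XT.lf (nat_lit 836) (nat_lit 1164494420) (nat_lit 0) (nat_lit 2133901924) (nat_lit 760) (nat_lit 2133901924) (nat_lit 400) (nat_lit 1) (nat_lit 389) (nat_lit 1) (nat_lit 399) (nat_lit 1) (nat_lit 353) (nat_lit 413) (nat_lit 374)) (XT.lf (nat_lit 76) (nat_lit 244994042) (nat_lit 0) (nat_lit 4895569088) (nat_lit 836) (nat_lit 244994042) (nat_lit 390) (nat_lit 1) (nat_lit 389) (nat_lit 1) (nat_lit 400) (nat_lit 1) (nat_lit 354) (nat_lit 413) (nat_lit 373))) (XT.nd (nat_lit 78) (nat_lit 760) (nat_lit 0) (XT.lf (nat_lit 76) (nat_lit 2569121620) (nat_lit 0) (nat_lit 200831382) (nat_lit 836) (nat_lit 2569121620) (nat_lit 379) (nat_lit 1) (nat_lit 378) (nat_lit 1) (nat_lit 389) (nat_lit 1) (nat_lit 355) (nat_lit 413) (nat_lit 372))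 (XT.nd (nat_lit 78) (nat_lit 0) (nat_lit 0) (XT.lf (nat_lit 836) (nat_lit 4417112085) (nat_lit 0) (nat_lit 438120162) (nat_lit 760) (nat_lit 438120162) (nat_lit 379) (nat_lit 1) (nat_lit 368) (nat_lit 1) (nat_lit 378) (nat_lit 1) (nat_lit 356) (nat_lit 413) (nat_lit 371)) (XT.lf (nat_lit 76) (nat_lit 1840434179) (nat_lit 0) (nat_lit 1567084776) (nat_lit 836) (nat_lit 1840434179) (nat_lit 369) (nat_lit 1) (nat_lit 368) (nat_lit 1) (nat_lit 379) (nat_lit 1) (nat_lit 357) (nat_lit 413) (nat_lit 370))))))) (XT.nd (nat_lit 702) (nat_lit 3724) (nat_lit 0) (XT.nd (nat_lit 312) (nat_lit 2128) (nat_lit 0) (XT.nd (nat_lit 156) (nat_lit 684) (nat_lit 0) (XT.nd (nat_lit 78) (nat_lit 0) (nat_lit 0) (XT.lf (nat_lit 836) (nat_lit 2948751015) (nat_lit 0) (nat_lit 1127245437) (nat_lit 760) (nat_lit 1127245437) (nat_lit 369) (nat_lit 1) (nat_lit 358) (nat_lit 1) (nat_lit 368) (nat_lit 1) (nat_lit 358) (nat_lit 413) (nat_lit 369)) (XT.lf (nat_lit 76) (nat_lit 1105730380) (nat_lit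 0) (nat_lit 2947563668) (nat_lit 836) (nat_lit 1105730380) (nat_lit 359) (nat_lit 1) (nat_lit 358) (nat_lit 1) (nat_lit 369) (nat_lit 1) (nat_lit 359) (nat_lit 413) (nat_lit 368))) (XT.nd (nat_lit 78) (nat_lit 0) (nat_lit 0) (XT.lf (nat_lit 760) (nat_lit 1469235313) (nat_lit 0) (nat_lit 1823029217) (nat_lit 684) (nat_lit 1823029217) (nat_lit 359) (nat_lit 1) (nat_lit 349) (nat_lit 1) (nat_lit 358) (nat_lit 1) (nat_lit 360) (nat_lit 413) (nat_lit 367)) (XT.lf (nat_lit 76) (nat_lit 365916634) (nat_lit 0) (nat_lit 4340396473) (nat_lit 760) (nat_lit 365916634) (nat_lit 350) (nat_lit 1) (nat_lit 349) (nat_lit 1) (nat_lit 359) (nat_lit 1) (nat_lit 361) (nat_lit 413) (nat_lit 366)))) (XT.nd (nat_lit 156) (nat_lit 684) (nat_lit 0) (XT.nd (nat_lit 78) (nat_lit 684) (nat_lit 0) (XT.lf (nat_lit 76) (nat_lit 2505020217) (nat_lit 0) (nat_lit 19407237) (nat_lit 760) (nat_lit 2505020217) (nat_lit 340) (nat_lit 1) (nat_lit 339) (nat_lit 1) (nat_lit 349) (nat_lit 1) (nat_lit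 362) (nat_lit 413) (nat_lit 365)) (XT.lf (nat_lit 760) (nat_lit 4235992572) (nat_lit 0) (nat_lit 375661214) (nat_lit 684) (nat_lit 375661214) (nat_lit 340) (nat_lit 1) (nat_lit 330) (nat_lit 1) (nat_lit 339) (nat_lit 1) (nat_lit 363) (nat_lit 413) (nat_lit 364))) (XT.nd (nat_lit 78) (nat_lit 684) (nat_lit 0) (XT.lf (nat_lit 76) (nat_lit 1724534594) (nat_lit 0) (nat_lit 1496389214) (nat_lit 760) (nat_lit 1724534594) (nat_lit 331) (nat_lit 1) (nat_lit 330) (nat_lit 1) (nat_lit 340) (nat_lit 1) (nat_lit 364) (nat_lit 413) (nat_lit 363)) (XT.nd (nat_lit 78) (nat_lit 0) (nat_lit 0) (XT.lf (nat_lit 760) (nat_lit 2667731009) (nat_lit 0) (nat_lit 1118249240) (nat_lit 684) (nat_lit 1118249240) (nat_lit 331) (nat_lit 1) (nat_lit 321) (nat_lit 1) (nat_lit 330) (nat_lit 1) (nat_lit 365) (nat_lit 413) (nat_lit 362)) (XT.lf (nat_lit 76) (nat_lit 942023046) (nat_lit 0) (nat_lit 2979416479) (nat_lit 760) (nat_lit 942023046) (nat_lit 322) (nat_lit 1) (nat_lit 321) (nat_lit 1)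 (nat_lit 331) (nat_lit 1) (nat_lit 366) (nat_lit 413) (nat_lit 361)))))) (XT.nd (nat_lit 312) (nat_lit 1824) (nat_lit 0) (XT.nd (nat_lit 156) (nat_lit 1292) (nat_lit 0) (XT.nd (nat_lit 78) (nat_lit 0) (nat_lit 0) (XT.lf (nat_lit 684) (nat_lit 1096126124) (nat_lit 0) (nat_lit 1863492270) (nat_lit 608) (nat_lit 1863492270) (nat_lit 322) (nat_lit 1) (nat_lit 313) (nat_lit 1) (nat_lit 321) (nat_lit 1) (nat_lit 367) (nat_lit 413) (nat_lit 360)) (XT.lf (nat_lit 76) (nat_lit 158198226) (nat_lit 0) (nat_lit 4467011184) (nat_lit 684) (nat_lit 158198226) (nat_lit 314) (nat_lit 1) (nat_lit 313) (nat_lit 1) (nat_lit 322) (nat_lit 1) (nat_lit 368) (nat_lit 413) (nat_lit 359))) (XT.nd (nat_lit 78) (nat_lit 608) (nat_lit 0) (XT.lf (nat_lit 76) (nat_lit 2136336922) (nat_lit 0) (nat_lit 471171017) (nat_lit 684) (nat_lit 2136336922) (nat_lit 305) (nat_lit 1) (nat_lit 304) (nat_lit 1) (nat_lit 313) (nat_lit 1) (nat_lit 369) (nat_lit 413) (nat_lit 358)) (XT.lf (nat_lit 684) (nat_lit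 3460621942) (nat_lit 0) (nat_lit 622147138) (nat_lit 608) (nat_lit 622147138) (nat_lit 305) (nat_lit 1) (nat_lit 296) (nat_lit 1) (nat_lit 304) (nat_lit 1) (nat_lit 370) (nat_lit 413) (nat_lit 357)))) (XT.nd (nat_lit 156) (nat_lit 1216) (nat_lit 0) (XT.nd (nat_lit 78) (nat_lit 608) (nat_lit 0) (XT.lf (nat_lit 76) (nat_lit 1320787300) (nat_lit 0) (nat_lit 2024726910) (nat_lit 684) (nat_lit 1320787300) (nat_lit 297) (nat_lit 1) (nat_lit 296) (nat_lit 1) (nat_lit 305) (nat_lit 1) (nat_lit 371) (nat_lit 413) (nat_lit 356)) (XT.lf (nat_lit 684) (nat_lit 1825266438) (nat_lit 0) (nat_lit 1401458163) (nat_lit 608) (nat_lit 1401458163) (nat_lit 297) (nat_lit 1) (nat_lit 288) (nat_lit 1) (nat_lit 296) (nat_lit 1) (nat_lit 372) (nat_lit 413) (nat_lit 355))) (XT.nd (nat_lit 78) (nat_lit 1216) (nat_lit 0) (XT.lf (nat_lit 76) (nat_lit 506438230) (nat_lit 0) (nat_lit 3577697967) (nat_lit 684) (nat_lit 506438230) (nat_lit 289) (nat_lit 1) (nat_lit 288) (nat_lit 1) (nat_lit 297)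 (nat_lit 1) (nat_lit 373) (nat_lit 413) (nat_lit 354)) (XT.nd (nat_lit 78) (nat_lit 684) (nat_lit 0) (XT.lf (nat_lit 608) (nat_lit 192878212) (nat_lit 0) (nat_lit 2180181889) (nat_lit 532) (nat_lit 2180181889) (nat_lit 289) (nat_lit 1) (nat_lit 281) (nat_lit 1) (nat_lit 288) (nat_lit 1) (nat_lit 374) (nat_lit 413) (nat_lit 353)) (XT.lf (nat_lit 684) (nat_lit 3908166395) (nat_lit 0) (nat_lit 304145281) (nat_lit 608) (nat_lit 304145281) (nat_lit 281) (nat_lit 1) (nat_lit 272) (nat_lit 1) (nat_lit 280) (nat_lit 1) (nat_lit 375) (nat_lit 413) (nat_lit 352))))))))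
noncomputable def ec87 : XT := (XT.nd (nat_lit 1404) (nat_lit 4332) (nat_lit 0) (XT.nd (nat_lit 702) (nat_lit 2508) (nat_lit 0) (XT.nd (nat_lit 312) (nat_lit 1596) (nat_lit 0) (XT.nd (nat_lit 156) (nat_lit 532) (nat_lit 0) (XT.nd (nat_lit 78) (nat_lit 532) (nat_lit 0) (XT.lf (nat_lit 76) (nat_lit 1531608317) (nat_lit 0) (nat_lit 1416644524) (nat_lit 684) (nat_lit 1531608317) (nat_lit 273) (nat_lit 1) (nat_lit 272) (nat_lit 1) (nat_lit 281) (nat_lit 1) (nat_lit 376) (nat_lit 413) (nat_lit 351)) (XT.lf (nat_lit 608) (nat_lit 2225514487) (nat_lit 0) (nat_lit 1109142846) (nat_lit 532) (nat_lit 1109142846) (nat_lit 273) (nat_lit 1) (nat_lit 265) (nat_lit 1) (nat_lit 272) (nat_lit 1) (nat_lit 377) (nat_lit 413) (nat_lit 350))) (XT.nd (nat_lit 78) (nat_lit 532) (nat_lit 0) (XT.lf (nat_lit 76) (nat_lit 694749682) (nat_lit 0) (nat_lit 3018657922) (nat_lit 608) (nat_lit 694749682) (nat_lit 266) (nat_lit 1) (nat_lit 265) (nat_lit 1) (nat_lit 273) (nat_lit 1) (nat_lit 378)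 (nat_lit 413) (nat_lit 349)) (XT.lf (nat_lit 608) (nat_lit 550017104) (nat_lit 0) (nat_lit 1911403383) (nat_lit 532) (nat_lit 1911403383) (nat_lit 266) (nat_lit 1) (nat_lit 258) (nat_lit 1) (nat_lit 265) (nat_lit 1) (nat_lit 379) (nat_lit 413) (nat_lit 348)))) (XT.nd (nat_lit 156) (nat_lit 988) (nat_lit 0) (XT.nd (nat_lit 78) (nat_lit 0) (nat_lit 0) (XT.lf (nat_lit 608) (nat_lit 4063212587) (nat_lit 0) (nat_lit 137413584) (nat_lit 532) (nat_lit 137413584) (nat_lit 258) (nat_lit 1) (nat_lit 250) (nat_lit 1) (nat_lit 257) (nat_lit 1) (nat_lit 380) (nat_lit 413) (nat_lit 347)) (XT.lf (nat_lit 76) (nat_lit 1600266537) (nat_lit 0) (nat_lit 1102806966) (nat_lit 608) (nat_lit 1600266537) (nat_lit 251) (nat_lit 1) (nat_lit 250) (nat_lit 1) (nat_lit 258) (nat_lit 1) (nat_lit 381) (nat_lit 413) (nat_lit 346))) (XT.nd (nat_lit 78) (nat_lit 456) (nat_lit 0) (XT.lf (nat_lit 608) (nat_lit 2347513539) (nat_lit 0) (nat_lit 960832457) (nat_lit 532) (nat_lit 960832457) (nat_lit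 251) (nat_lit 1) (nat_lit 243) (nat_lit 1) (nat_lit 250) (nat_lit 1) (nat_lit 382) (nat_lit 413) (nat_lit 345)) (XT.nd (nat_lit 78) (nat_lit 456) (nat_lit 0) (XT.lf (nat_lit 76) (nat_lit 747836714) (nat_lit 0) (nat_lit 2739708438) (nat_lit 608) (nat_lit 747836714) (nat_lit 244) (nat_lit 1) (nat_lit 243) (nat_lit 1) (nat_lit 251) (nat_lit 1) (nat_lit 383) (nat_lit 413) (nat_lit 344)) (XT.lf (nat_lit 532) (nat_lit 642511667) (nat_lit 0) (nat_lit 1779691435) (nat_lit 456) (nat_lit 1779691435) (nat_lit 244) (nat_lit 1) (nat_lit 237) (nat_lit 1) (nat_lit 243) (nat_lit 1) (nat_lit 384) (nat_lit 413) (nat_lit 343)))))) (XT.nd (nat_lit 312) (nat_lit 1444) (nat_lit 0) (XT.nd (nat_lit 156) (nat_lit 456) (nat_lit 0) (XT.nd (nat_lit 78) (nat_lit 0) (nat_lit 0) (XT.lf (nat_lit 608) (nat_lit 3972056070) (nat_lit 0) (nat_lit 98436341) (nat_lit 532) (nat_lit 98436341) (nat_lit 237) (nat_lit 1) (nat_lit 229) (nat_lit 1) (nat_lit 236) (nat_lit 1) (nat_lit 385) (nat_lit 413) (nat_lit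 342)) (XT.lf (nat_lit 76) (nat_lit 1549342731) (nat_lit 0) (nat_lit 1037326311) (nat_lit 608) (nat_lit 1549342731) (nat_lit 230) (nat_lit 1) (nat_lit 229) (nat_lit 1) (nat_lit 237) (nat_lit 1) (nat_lit 386) (nat_lit 413) (nat_lit 341))) (XT.nd (nat_lit 78) (nat_lit 0) (nat_lit 0) (XT.lf (nat_lit 532) (nat_lit 2235615252) (nat_lit 0) (nat_lit 933995579) (nat_lit 456) (nat_lit 933995579) (nat_lit 230) (nat_lit 1) (nat_lit 223) (nat_lit 1) (nat_lit 229) (nat_lit 1) (nat_lit 387) (nat_lit 413) (nat_lit 340)) (XT.lf (nat_lit 76) (nat_lit 687331295) (nat_lit 0) (nat_lit 2696883557) (nat_lit 532) (nat_lit 687331295) (nat_lit 224) (nat_lit 1) (nat_lit 223) (nat_lit 1) (nat_lit 230) (nat_lit 1) (nat_lit 388) (nat_lit 413) (nat_lit 339)))) (XT.nd (nat_lit 156) (nat_lit 456) (nat_lit 0) (XT.nd (nat_lit 78) (nat_lit 532) (nat_lit 0) (XT.lf (nat_lit 532) (nat_lit 512848696) (nat_lit 0) (nat_lit 1763458961) (nat_lit 456) (nat_lit 1763458961) (nat_lit 224) (nat_lit 1) (nat_lit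 217) (nat_lit 1) (nat_lit 223) (nat_lit 1) (nat_lit 389) (nat_lit 413) (nat_lit 338)) (XT.lf (nat_lit 532) (nat_lit 3675199972) (nat_lit 0) (nat_lit 166628119) (nat_lit 456) (nat_lit 166628119) (nat_lit 217) (nat_lit 1) (nat_lit 210) (nat_lit 1) (nat_lit 216) (nat_lit 1) (nat_lit 390) (nat_lit 413) (nat_lit 337))) (XT.nd (nat_lit 78) (nat_lit 456) (nat_lit 0) (XT.lf (nat_lit 76) (nat_lit 1398589353) (nat_lit 0) (nat_lit 1180038498) (nat_lit 532) (nat_lit 1398589353) (nat_lit 211) (nat_lit 1) (nat_lit 210) (nat_lit 1) (nat_lit 217) (nat_lit 1) (nat_lit 391) (nat_lit 413) (nat_lit 336)) (XT.nd (nat_lit 78) (nat_lit 0) (nat_lit 0) (XT.lf (nat_lit 532) (nat_lit 1928610134) (nat_lit 0) (nat_lit 1008914186) (nat_lit 456) (nat_lit 1008914186) (nat_lit 211) (nat_lit 1) (nat_lit 204) (nat_lit 1) (nat_lit 210) (nat_lit 1) (nat_lit 392) (nat_lit 413) (nat_lit 335)) (XT.lf (nat_lit 76) (nat_lit 532150032) (nat_lit 0) (nat_lit 2851712810) (nat_lit 532) (nat_lit 532150032)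 (nat_lit 205) (nat_lit 1) (nat_lit 204) (nat_lit 1) (nat_lit 211) (nat_lit 1) (nat_lit 393) (nat_lit 413) (nat_lit 334))))))) (XT.nd (nat_lit 702) (nat_lit 1824) (nat_lit 0) (XT.nd (nat_lit 312) (nat_lit 1216) (nat_lit 0) (XT.nd (nat_lit 156) (nat_lit 380) (nat_lit 0) (XT.nd (nat_lit 78) (nat_lit 532) (nat_lit 0) (XT.lf (nat_lit 456) (nat_lit 198175983) (nat_lit 0) (nat_lit 1843819986) (nat_lit 380) (nat_lit 1843819986) (nat_lit 205) (nat_lit 1) (nat_lit 199) (nat_lit 1) (nat_lit 204) (nat_lit 1) (nat_lit 394) (nat_lit 413) (nat_lit 333)) (XT.lf (nat_lit 532) (nat_lit 3208029034) (nat_lit 0) (nat_lit 323993198) (nat_lit 456) (nat_lit 323993198) (nat_lit 199) (nat_lit 1) (nat_lit 192) (nat_lit 1) (nat_lit 198) (nat_lit 1) (nat_lit 395) (nat_lit 413) (nat_lit 332))) (XT.nd (nat_lit 78) (nat_lit 380) (nat_lit 0) (XT.lf (nat_lit 76) (nat_lit 1165259784) (nat_lit 0) (nat_lit 1495837858) (nat_lit 532) (nat_lit 1165259784) (nat_lit 193) (nat_lit 1) (nat_lit 192) (nat_lit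 1) (nat_lit 199) (nat_lit 1) (nat_lit 396) (nat_lit 413) (nat_lit 331)) (XT.lf (nat_lit 456) (nat_lit 1460375132) (nat_lit 0) (nat_lit 1168356429) (nat_lit 380) (nat_lit 1168356429) (nat_lit 193) (nat_lit 1) (nat_lit 187) (nat_lit 1) (nat_lit 192) (nat_lit 1) (nat_lit 397) (nat_lit 413) (nat_lit 330)))) (XT.nd (nat_lit 156) (nat_lit 760) (nat_lit 0) (XT.nd (nat_lit 78) (nat_lit 456) (nat_lit 0) (XT.lf (nat_lit 76) (nat_lit 298810496) (nat_lit 0) (nat_lit 3170581838) (nat_lit 456) (nat_lit 298810496) (nat_lit 188) (nat_lit 1) (nat_lit 187) (nat_lit 1) (nat_lit 193) (nat_lit 1) (nat_lit 398) (nat_lit 413) (nat_lit 329)) (XT.lf (nat_lit 76) (nat_lit 1736946795) (nat_lit 0) (nat_lit 265546514) (nat_lit 456) (nat_lit 1736946795) (nat_lit 182) (nat_lit 1) (nat_lit 181) (nat_lit 1) (nat_lit 187) (nat_lit 1) (nat_lit 399) (nat_lit 413) (nat_lit 328))) (XT.nd (nat_lit 78) (nat_lit 380) (nat_lit 0) (XT.lf (nat_lit 456) (nat_lit 2601407119) (nat_lit 0) (nat_lit 554823653)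 (nat_lit 380) (nat_lit 554823653) (nat_lit 182) (nat_lit 1) (nat_lit 176) (nat_lit 1) (nat_lit 181) (nat_lit 1) (nat_lit 400) (nat_lit 413) (nat_lit 327)) (XT.nd (nat_lit 78) (nat_lit 380) (nat_lit 0) (XT.lf (nat_lit 76) (nat_lit 864400181) (nat_lit 0) (nat_lit 1954087164) (nat_lit 456) (nat_lit 864400181) (nat_lit 177) (nat_lit 1) (nat_lit 176) (nat_lit 1) (nat_lit 182) (nat_lit 1) (nat_lit 401) (nat_lit 413) (nat_lit 326)) (XT.lf (nat_lit 456) (nat_lit 860447707) (nat_lit 0) (nat_lit 1397286569) (nat_lit 380) (nat_lit 1397286569) (nat_lit 177) (nat_lit 1) (nat_lit 171) (nat_lit 1) (nat_lit 176) (nat_lit 1) (nat_lit 402) (nat_lit 413) (nat_lit 325)))))) (XT.nd (nat_lit 312) (nat_lit 1064) (nat_lit 0) (XT.nd (nat_lit 156) (nat_lit 380) (nat_lit 0) (XT.nd (nat_lit 78) (nat_lit 380) (nat_lit 0) (XT.lf (nat_lit 76) (nat_lit 1711622) (nat_lit 0) (nat_lit 3624165592) (nat_lit 456) (nat_lit 1711622) (nat_lit 172) (nat_lit 1) (nat_lit 171) (nat_lit 1) (nat_lit 177)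 (nat_lit 1) (nat_lit 403) (nat_lit 413) (nat_lit 324)) (XT.lf (nat_lit 76) (nat_lit 1375381439) (nat_lit 0) (nat_lit 849352562) (nat_lit 380) (nat_lit 1375381439) (nat_lit 167) (nat_lit 1) (nat_lit 166) (nat_lit 1) (nat_lit 171) (nat_lit 1) (nat_lit 404) (nat_lit 413) (nat_lit 323))) (XT.nd (nat_lit 78) (nat_lit 0) (nat_lit 0) (XT.lf (nat_lit 456) (nat_lit 1882206823) (nat_lit 0) (nat_lit 845431738) (nat_lit 380) (nat_lit 845431738) (nat_lit 167) (nat_lit 1) (nat_lit 161) (nat_lit 1) (nat_lit 166) (nat_lit 1) (nat_lit 405) (nat_lit 413) (nat_lit 322)) (XT.lf (nat_lit 76) (nat_lit 509108165) (nat_lit 0) (nat_lit 2528094711) (nat_lit 456) (nat_lit 509108165) (nat_lit 162) (nat_lit 1) (nat_lit 161) (nat_lit 1) (nat_lit 167) (nat_lit 1) (nat_lit 406) (nat_lit 413) (nat_lit 321)))) (XT.nd (nat_lit 156) (nat_lit 304) (nat_lit 0) (XT.nd (nat_lit 78) (nat_lit 456) (nat_lit 0) (XT.lf (nat_lit 380) (nat_lit 154534628) (nat_lit 0) (nat_lit 1682607863) (nat_lit 304) (nat_lit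 1682607863) (nat_lit 162) (nat_lit 1) (nat_lit 157) (nat_lit 1) (nat_lit 161) (nat_lit 1) (nat_lit 407) (nat_lit 413) (nat_lit 320)) (XT.lf (nat_lit 456) (nat_lit 2804834972) (nat_lit 0) (nat_lit 344337393) (nat_lit 380) (nat_lit 344337393) (nat_lit 157) (nat_lit 1) (nat_lit 151) (nat_lit 1) (nat_lit 156) (nat_lit 1) (nat_lit 408) (nat_lit 413) (nat_lit 319))) (XT.nd (nat_lit 78) (nat_lit 304) (nat_lit 0) (XT.lf (nat_lit 76) (nat_lit 967912634) (nat_lit 0) (nat_lit 1531574524) (nat_lit 456) (nat_lit 967912634) (nat_lit 152) (nat_lit 1) (nat_lit 151) (nat_lit 1) (nat_lit 157) (nat_lit 1) (nat_lit 409) (nat_lit 413) (nat_lit 318)) (XT.nd (nat_lit 78) (nat_lit 0) (nat_lit 0) (XT.lf (nat_lit 380) (nat_lit 1073778822) (nat_lit 0) (nat_lit 1183912696) (nat_lit 304) (nat_lit 1183912696) (nat_lit 152) (nat_lit 1) (nat_lit 147) (nat_lit 1) (nat_lit 151) (nat_lit 1) (nat_lit 410) (nat_lit 413) (nat_lit 317)) (XT.lf (nat_lit 76) (nat_lit 110762064) (nat_lit 0) (nat_lit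 3194650869) (nat_lit 380) (nat_lit 110762064) (nat_lit 148) (nat_lit 1) (nat_lit 147) (nat_lit 1) (nat_lit 152) (nat_lit 1) (nat_lit 411) (nat_lit 413) (nat_lit 316))))))))
noncomputable def ec88 : XT := (XT.nd (nat_lit 53118) (nat_lit 0) (nat_lit 19532) (XT.nd (nat_lit 52416) (nat_lit 0) (nat_lit 27360) (XT.nd (nat_lit 52026) (nat_lit 0) (nat_lit 27208) (XT.nd (nat_lit 51870) (nat_lit 0) (nat_lit 27132) (XT.nd (nat_lit 51792) (nat_lit 0) (nat_lit 27056) (XT.lf (nat_lit 76) (nat_lit 1382020663) (nat_lit 0) (nat_lit 626708500) (nat_lit 380) (nat_lit 1382020663) (nat_lit 143) (nat_lit 1) (nat_lit 142) (nat_lit 1) (nat_lit 147) (nat_lit 1) (nat_lit 412) (nat_lit 413) (nat_lit 315)) (XT.lf (nat_lit 1900) (nat_lit 5025457500) (nat_lit 76) (nat_lit 1349956144) (nat_lit 0) (nat_lit 1349956144) (nat_lit 523) (nat_lit 1) (nat_lit 499) (nat_lit 1) (nat_lit 498) (nat_lit 1) (nat_lit 315) (nat_lit 414) (nat_lit 411))) (XT.nd (nat_lit 78) (nat_lit 0) (nat_lit 0) (XT.lf (nat_lit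 1900) (nat_lit 2442277115) (nat_lit 0) (nat_lit 2765500289) (nat_lit 1824) (nat_lit 2442277115) (nat_lit 524) (nat_lit 1) (nat_lit 499) (nat_lit 1) (nat_lit 523) (nat_lit 1) (nat_lit 316) (nat_lit 414) (nat_lit 410)) (XT.lf (nat_lit 1900) (nat_lit 4728219688) (nat_lit 76) (nat_lit 1423819791) (nat_lit 0) (nat_lit 1423819791) (nat_lit 524) (nat_lit 1) (nat_lit 500) (nat_lit 1) (nat_lit 499) (nat_lit 1) (nat_lit 317) (nat_lit 414) (nat_lit 409)))) (XT.nd (nat_lit 156) (nat_lit 0) (nat_lit 76) (XT.nd (nat_lit 78) (nat_lit 0) (nat_lit 0) (XT.lf (nat_lit 1900) (nat_lit 2271818908) (nat_lit 0) (nat_lit 2958867042) (nat_lit 1824) (nat_lit 2271818908) (nat_lit 525) (nat_lit 1) (nat_lit 500) (nat_lit 1) (nat_lit 524) (nat_lit 1) (nat_lit 318) (nat_lit 414) (nat_lit 408)) (XT.lf (nat_lit 1900) (nat_lit 4343208966) (nat_lit 76) (nat_lit 1543499055) (nat_lit 0) (nat_lit 1543499055) (nat_lit 525) (nat_lit 1) (nat_lit 501) (nat_lit 1) (nat_lit 500) (nat_lit 1) (nat_lit 319)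 (nat_lit 414) (nat_lit 407))) (XT.nd (nat_lit 78) (nat_lit 0) (nat_lit 0) (XT.lf (nat_lit 1900) (nat_lit 2058973560) (nat_lit 0) (nat_lit 3240815797) (nat_lit 1824) (nat_lit 2058973560) (nat_lit 526) (nat_lit 1) (nat_lit 501) (nat_lit 1) (nat_lit 525) (nat_lit 1) (nat_lit 320) (nat_lit 414) (nat_lit 406)) (XT.nd (nat_lit 78) (nat_lit 0) (nat_lit 76) (XT.lf (nat_lit 1900) (nat_lit 3875781016) (nat_lit 76) (nat_lit 1706260273) (nat_lit 0) (nat_lit 1706260273) (nat_lit 526) (nat_lit 1) (nat_lit 502) (nat_lit 1) (nat_lit 501) (nat_lit 1) (nat_lit 321) (nat_lit 414) (nat_lit 405)) (XT.lf (nat_lit 1900) (nat_lit 1806347922) (nat_lit 0) (nat_lit 3606022676) (nat_lit 1824) (nat_lit 1806347922) (nat_lit 527) (nat_lit 1) (nat_lit 502) (nat_lit 1) (nat_lit 526) (nat_lit 1) (nat_lit 322) (nat_lit 414) (nat_lit 404)))))) (XT.nd (nat_lit 312) (nat_lit 0) (nat_lit 152) (XT.nd (nat_lit 156) (nat_lit 0) (nat_lit 76) (XT.nd (nat_lit 78) (nat_lit 0) (nat_lit 76) (XT.lf (nat_lit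 1900) (nat_lit 3331045371) (nat_lit 76) (nat_lit 1909494654) (nat_lit 0) (nat_lit 1909494654) (nat_lit 527) (nat_lit 1) (nat_lit 503) (nat_lit 1) (nat_lit 502) (nat_lit 1) (nat_lit 323) (nat_lit 414) (nat_lit 403)) (XT.lf (nat_lit 1900) (nat_lit 1516428776) (nat_lit 0) (nat_lit 4049407478) (nat_lit 1824) (nat_lit 1516428776) (nat_lit 528) (nat_lit 1) (nat_lit 503) (nat_lit 1) (nat_lit 527) (nat_lit 1) (nat_lit 324) (nat_lit 414) (nat_lit 402))) (XT.nd (nat_lit 78) (nat_lit 0) (nat_lit 76) (XT.lf (nat_lit 1900) (nat_lit 2713875716) (nat_lit 76) (nat_lit 2150713057) (nat_lit 0) (nat_lit 2150713057) (nat_lit 528) (nat_lit 1) (nat_lit 504) (nat_lit 1) (nat_lit 503) (nat_lit 1) (nat_lit 325) (nat_lit 414) (nat_lit 401)) (XT.lf (nat_lit 1900) (nat_lit 1191587869) (nat_lit 0) (nat_lit 4566123491) (nat_lit 1824) (nat_lit 1191587869) (nat_lit 529) (nat_lit 1) (nat_lit 504) (nat_lit 1) (nat_lit 528) (nat_lit 1) (nat_lit 326) (nat_lit 414) (nat_lit 400)))) (XT.nd (nat_lit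 156) (nat_lit 0) (nat_lit 76) (XT.nd (nat_lit 78) (nat_lit 0) (nat_lit 76) (XT.lf (nat_lit 1900) (nat_lit 2028919788) (nat_lit 76) (nat_lit 2427540991) (nat_lit 0) (nat_lit 2427540991) (nat_lit 529) (nat_lit 1) (nat_lit 505) (nat_lit 1) (nat_lit 504) (nat_lit 1) (nat_lit 327) (nat_lit 414) (nat_lit 399)) (XT.lf (nat_lit 1900) (nat_lit 834086738) (nat_lit 0) (nat_lit 5151547716) (nat_lit 1824) (nat_lit 834086738) (nat_lit 530) (nat_lit 1) (nat_lit 505) (nat_lit 1) (nat_lit 529) (nat_lit 1) (nat_lit 328) (nat_lit 414) (nat_lit 398))) (XT.nd (nat_lit 78) (nat_lit 0) (nat_lit 76) (XT.lf (nat_lit 1900) (nat_lit 1280608863) (nat_lit 76) (nat_lit 2737713806) (nat_lit 0) (nat_lit 2737713806) (nat_lit 530) (nat_lit 1) (nat_lit 506) (nat_lit 1) (nat_lit 505) (nat_lit 1) (nat_lit 329) (nat_lit 414) (nat_lit 397)) (XT.nd (nat_lit 78) (nat_lit 0) (nat_lit 0) (XT.lf (nat_lit 1900) (nat_lit 446081350) (nat_lit 0) (nat_lit 5801271484) (nat_lit 1824) (nat_lit 446081350) (nat_lit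 531) (nat_lit 1) (nat_lit 506) (nat_lit 1) (nat_lit 530) (nat_lit 1) (nat_lit 330) (nat_lit 414) (nat_lit 396)) (XT.lf (nat_lit 1900) (nat_lit 473166871) (nat_lit 76) (nat_lit 3079072081) (nat_lit 0) (nat_lit 3079072081) (nat_lit 531) (nat_lit 1) (nat_lit 507) (nat_lit 1) (nat_lit 506) (nat_lit 1) (nat_lit 331) (nat_lit 414) (nat_lit 395))))))) (XT.nd (nat_lit 702) (nat_lit 4408) (nat_lit 0) (XT.nd (nat_lit 312) (nat_lit 1900) (nat_lit 0) (XT.nd (nat_lit 156) (nat_lit 0) (nat_lit 0) (XT.nd (nat_lit 78) (nat_lit 1900) (nat_lit 0) (XT.lf (nat_lit 1900) (nat_lit 29626545) (nat_lit 0) (nat_lit 6511091450) (nat_lit 1824) (nat_lit 29626545) (nat_lit 532) (nat_lit 1) (nat_lit 507) (nat_lit 1) (nat_lit 531) (nat_lit 1) (nat_lit 332) (nat_lit 414) (nat_lit 394)) (XT.lf (nat_lit 1976) (nat_lit 3062704460) (nat_lit 0) (nat_lit 384274062) (nat_lit 1900) (nat_lit 3062704460) (nat_lit 508) (nat_lit 1) (nat_lit 482) (nat_lit 1) (nat_lit 507) (nat_lit 1) (nat_lit 333) (nat_lit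 414) (nat_lit 393))) (XT.nd (nat_lit 78) (nat_lit 0) (nat_lit 76) (XT.lf (nat_lit 1976) (nat_lit 5628945185) (nat_lit 76) (nat_lit 410600486) (nat_lit 0) (nat_lit 410600486) (nat_lit 508) (nat_lit 1) (nat_lit 483) (nat_lit 1) (nat_lit 482) (nat_lit 1) (nat_lit 334) (nat_lit 414) (nat_lit 392)) (XT.lf (nat_lit 1976) (nat_lit 2552469125) (nat_lit 0) (nat_lit 1286107533) (nat_lit 1900) (nat_lit 2552469125) (nat_lit 509) (nat_lit 1) (nat_lit 483) (nat_lit 1) (nat_lit 508) (nat_lit 1) (nat_lit 335) (nat_lit 414) (nat_lit 391)))) (XT.nd (nat_lit 156) (nat_lit 1976) (nat_lit 0) (XT.nd (nat_lit 78) (nat_lit 0) (nat_lit 76) (XT.lf (nat_lit 1976) (nat_lit 4582744729) (nat_lit 76) (nat_lit 875096803) (nat_lit 0) (nat_lit 875096803) (nat_lit 509) (nat_lit 1) (nat_lit 484) (nat_lit 1) (nat_lit 483) (nat_lit 1) (nat_lit 336) (nat_lit 414) (nat_lit 390)) (XT.lf (nat_lit 76) (nat_lit 2020220496) (nat_lit 0) (nat_lit 2234934173) (nat_lit 1900) (nat_lit 2020220496) (nat_lit 485)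 (nat_lit 1) (nat_lit 484) (nat_lit 1) (nat_lit 509) (nat_lit 1) (nat_lit 337) (nat_lit 414) (nat_lit 389))) (XT.nd (nat_lit 78) (nat_lit 912) (nat_lit 0) (XT.lf (nat_lit 1216) (nat_lit 3494067149) (nat_lit 0) (nat_lit 1362292615) (nat_lit 1140) (nat_lit 1362292615) (nat_lit 485) (nat_lit 1) (nat_lit 469) (nat_lit 1) (nat_lit 484) (nat_lit 1) (nat_lit 338) (nat_lit 414) (nat_lit 388)) (XT.nd (nat_lit 78) (nat_lit 912) (nat_lit 0) (XT.lf (nat_lit 76) (nat_lit 1467633500) (nat_lit 0) (nat_lit 3227321090) (nat_lit 1216) (nat_lit 1467633500) (nat_lit 470) (nat_lit 1) (nat_lit 469) (nat_lit 1) (nat_lit 485) (nat_lit 1) (nat_lit 339) (nat_lit 414) (nat_lit 387)) (XT.lf (nat_lit 988) (nat_lit 2366191341) (nat_lit 0) (nat_lit 1870507719) (nat_lit 912) (nat_lit 1870507719) (nat_lit 470) (nat_lit 1) (nat_lit 457) (nat_lit 1) (nat_lit 469) (nat_lit 1) (nat_lit 340) (nat_lit 414) (nat_lit 386)))))) (XT.nd (nat_lit 312) (nat_lit 2660) (nat_lit 0) (XT.nd (nat_lit 156) (nat_lit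 836) (nat_lit 0) (XT.nd (nat_lit 78) (nat_lit 912) (nat_lit 0) (XT.lf (nat_lit 76) (nat_lit 896301943) (nat_lit 0) (nat_lit 4260000231) (nat_lit 988) (nat_lit 896301943) (nat_lit 458) (nat_lit 1) (nat_lit 457) (nat_lit 1) (nat_lit 470) (nat_lit 1) (nat_lit 341) (nat_lit 414) (nat_lit 385)) (XT.lf (nat_lit 988) (nat_lit 1202236929) (nat_lit 0) (nat_lit 2398142816) (nat_lit 912) (nat_lit 2398142816) (nat_lit 458) (nat_lit 1) (nat_lit 445) (nat_lit 1) (nat_lit 457) (nat_lit 1) (nat_lit 342) (nat_lit 414) (nat_lit 384))) (XT.nd (nat_lit 78) (nat_lit 836) (nat_lit 0) (XT.lf (nat_lit 76) (nat_lit 307741979) (nat_lit 0) (nat_lit 5329861355) (nat_lit 988) (nat_lit 307741979) (nat_lit 446) (nat_lit 1) (nat_lit 445) (nat_lit 1) (nat_lit 458) (nat_lit 1) (nat_lit 343) (nat_lit 414) (nat_lit 383)) (XT.lf (nat_lit 912) (nat_lit 5171072) (nat_lit 0) (nat_lit 2943676069) (nat_lit 836) (nat_lit 2943676069) (nat_lit 446) (nat_lit 1) (nat_lit 434) (nat_lit 1) (nat_lit 445) (nat_lit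 1) (nat_lit 344) (nat_lit 414) (nat_lit 382)))) (XT.nd (nat_lit 156) (nat_lit 1672) (nat_lit 0) (XT.nd (nat_lit 78) (nat_lit 0) (nat_lit 0) (XT.lf (nat_lit 988) (nat_lit 5251275139) (nat_lit 0) (nat_lit 294653224) (nat_lit 912) (nat_lit 294653224) (nat_lit 434) (nat_lit 1) (nat_lit 421) (nat_lit 1) (nat_lit 433) (nat_lit 1) (nat_lit 345) (nat_lit 414) (nat_lit 381)) (XT.lf (nat_lit 76) (nat_lit 2291410026) (nat_lit 0) (nat_lit 1206155819) (nat_lit 988) (nat_lit 2291410026) (nat_lit 422) (nat_lit 1) (nat_lit 421) (nat_lit 1) (nat_lit 434) (nat_lit 1) (nat_lit 346) (nat_lit 414) (nat_lit 380))) (XT.nd (nat_lit 78) (nat_lit 836) (nat_lit 0) (XT.lf (nat_lit 912) (nat_lit 3919536695) (nat_lit 0) (nat_lit 909344873) (nat_lit 836) (nat_lit 909344873) (nat_lit 422) (nat_lit 1) (nat_lit 410) (nat_lit 1) (nat_lit 421) (nat_lit 1) (nat_lit 347) (nat_lit 414) (nat_lit 379)) (XT.nd (nat_lit 78) (nat_lit 836) (nat_lit 0) (XT.lf (nat_lit 76) (nat_lit 1621650847) (nat_lit 0)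 (nat_lit 2444661437) (nat_lit 912) (nat_lit 1621650847) (nat_lit 411) (nat_lit 1) (nat_lit 410) (nat_lit 1) (nat_lit 422) (nat_lit 1) (nat_lit 348) (nat_lit 414) (nat_lit 378)) (XT.lf (nat_lit 912) (nat_lit 2564242907) (nat_lit 0) (nat_lit 1537063557) (nat_lit 836) (nat_lit 1537063557) (nat_lit 411) (nat_lit 1) (nat_lit 399) (nat_lit 1) (nat_lit 410) (nat_lit 1) (nat_lit 349) (nat_lit 414) (nat_lit 377))))))))
noncomputable def ec89 : XT := (XT.nd (nat_lit 1404) (nat_lit 6156) (nat_lit 0) (XT.nd (nat_lit 702) (nat_lit 3420) (nat_lit 0) (XT.nd (nat_lit 312) (nat_lit 2204) (nat_lit 0) (XT.nd (nat_lit 156) (nat_lit 836) (nat_lit 0) (XT.nd (nat_lit 78) (nat_lit 760) (nat_lit 0) (XT.lf (nat_lit 76) (nat_lit 940758627) (nat_lit 0) (nat_lit 3707899091) (nat_lit 912) (nat_lit 940758627) (nat_lit 400) (nat_lit 1) (nat_lit 399) (nat_lit 1) (nat_lit 411) (nat_lit 1) (nat_lit 350) (nat_lit 414) (nat_lit 376)) (XT.lf (nat_lit 836) (nat_lit 1187784308) (nat_lit 0) (nat_lit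 2176579962) (nat_lit 760) (nat_lit 2176579962) (nat_lit 400) (nat_lit 1) (nat_lit 389) (nat_lit 1) (nat_lit 399) (nat_lit 1) (nat_lit 351) (nat_lit 414) (nat_lit 375))) (XT.nd (nat_lit 78) (nat_lit 836) (nat_lit 0) (XT.lf (nat_lit 76) (nat_lit 249893923) (nat_lit 0) (nat_lit 4993480470) (nat_lit 836) (nat_lit 249893923) (nat_lit 390) (nat_lit 1) (nat_lit 389) (nat_lit 1) (nat_lit 400) (nat_lit 1) (nat_lit 352) (nat_lit 414) (nat_lit 374)) (XT.lf (nat_lit 76) (nat_lit 2620504052) (nat_lit 0) (nat_lit 204848010) (nat_lit 836) (nat_lit 2620504052) (nat_lit 379) (nat_lit 1) (nat_lit 378) (nat_lit 1) (nat_lit 389) (nat_lit 1) (nat_lit 353) (nat_lit 414) (nat_lit 373)))) (XT.nd (nat_lit 156) (nat_lit 1444) (nat_lit 0) (XT.nd (nat_lit 78) (nat_lit 0) (nat_lit 0) (XT.lf (nat_lit 836) (nat_lit 4505454326) (nat_lit 0) (nat_lit 446882565) (nat_lit 760) (nat_lit 446882565) (nat_lit 379) (nat_lit 1) (nat_lit 368) (nat_lit 1) (nat_lit 378) (nat_lit 1) (nat_lit 354) (nat_lit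 414) (nat_lit 372)) (XT.lf (nat_lit 76) (nat_lit 1877242862) (nat_lit 0) (nat_lit 1598426472) (nat_lit 836) (nat_lit 1877242862) (nat_lit 369) (nat_lit 1) (nat_lit 368) (nat_lit 1) (nat_lit 379) (nat_lit 1) (nat_lit 355) (nat_lit 414) (nat_lit 371))) (XT.nd (nat_lit 78) (nat_lit 684) (nat_lit 0) (XT.lf (nat_lit 836) (nat_lit 3007726035) (nat_lit 0) (nat_lit 1149790345) (nat_lit 760) (nat_lit 1149790345) (nat_lit 369) (nat_lit 1) (nat_lit 358) (nat_lit 1) (nat_lit 368) (nat_lit 1) (nat_lit 356) (nat_lit 414) (nat_lit 370)) (XT.nd (nat_lit 78) (nat_lit 684) (nat_lit 0) (XT.lf (nat_lit 76) (nat_lit 1127844988) (nat_lit 0) (nat_lit 3006514942) (nat_lit 836) (nat_lit 1127844988) (nat_lit 359) (nat_lit 1) (nat_lit 358) (nat_lit 1) (nat_lit 369) (nat_lit 1) (nat_lit 357) (nat_lit 414) (nat_lit 369)) (XT.lf (nat_lit 760) (nat_lit 1498620019) (nat_lit 0) (nat_lit 1859489801) (nat_lit 684) (nat_lit 1859489801) (nat_lit 359) (nat_lit 1) (nat_lit 349) (nat_lit 1) (nat_lit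 358) (nat_lit 1) (nat_lit 358) (nat_lit 414) (nat_lit 368)))))) (XT.nd (nat_lit 312) (nat_lit 1976) (nat_lit 0) (XT.nd (nat_lit 156) (nat_lit 684) (nat_lit 0) (XT.nd (nat_lit 78) (nat_lit 760) (nat_lit 0) (XT.lf (nat_lit 76) (nat_lit 373234967) (nat_lit 0) (nat_lit 4427204403) (nat_lit 760) (nat_lit 373234967) (nat_lit 350) (nat_lit 1) (nat_lit 349) (nat_lit 1) (nat_lit 359) (nat_lit 1) (nat_lit 359) (nat_lit 414) (nat_lit 367)) (XT.lf (nat_lit 76) (nat_lit 2555120621) (nat_lit 0) (nat_lit 19795382) (nat_lit 760) (nat_lit 2555120621) (nat_lit 340) (nat_lit 1) (nat_lit 339) (nat_lit 1) (nat_lit 349) (nat_lit 1) (nat_lit 360) (nat_lit 414) (nat_lit 366))) (XT.nd (nat_lit 78) (nat_lit 0) (nat_lit 0) (XT.lf (nat_lit 760) (nat_lit 4320712423) (nat_lit 0) (nat_lit 383174438) (nat_lit 684) (nat_lit 383174438) (nat_lit 340) (nat_lit 1) (nat_lit 330) (nat_lit 1) (nat_lit 339) (nat_lit 1) (nat_lit 361) (nat_lit 414) (nat_lit 365)) (XT.lf (nat_lit 76) (nat_lit 1759025286)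 (nat_lit 0) (nat_lit 1526316998) (nat_lit 760) (nat_lit 1759025286) (nat_lit 331) (nat_lit 1) (nat_lit 330) (nat_lit 1) (nat_lit 340) (nat_lit 1) (nat_lit 362) (nat_lit 414) (nat_lit 364)))) (XT.nd (nat_lit 156) (nat_lit 1292) (nat_lit 0) (XT.nd (nat_lit 78) (nat_lit 0) (nat_lit 0) (XT.lf (nat_lit 760) (nat_lit 2721085629) (nat_lit 0) (nat_lit 1140614225) (nat_lit 684) (nat_lit 1140614225) (nat_lit 331) (nat_lit 1) (nat_lit 321) (nat_lit 1) (nat_lit 330) (nat_lit 1) (nat_lit 363) (nat_lit 414) (nat_lit 363)) (XT.lf (nat_lit 76) (nat_lit 960863507) (nat_lit 0) (nat_lit 3039004809) (nat_lit 760) (nat_lit 960863507) (nat_lit 322) (nat_lit 1) (nat_lit 321) (nat_lit 1) (nat_lit 331) (nat_lit 1) (nat_lit 364) (nat_lit 414) (nat_lit 362))) (XT.nd (nat_lit 78) (nat_lit 684) (nat_lit 0) (XT.lf (nat_lit 684) (nat_lit 1118048646) (nat_lit 0) (nat_lit 1900762116) (nat_lit 608) (nat_lit 1900762116) (nat_lit 322) (nat_lit 1) (nat_lit 313) (nat_lit 1) (nat_lit 321) (nat_lit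 1) (nat_lit 365) (nat_lit 414) (nat_lit 361)) (XT.nd (nat_lit 78) (nat_lit 684) (nat_lit 0) (XT.lf (nat_lit 76) (nat_lit 161362191) (nat_lit 0) (nat_lit 4556351408) (nat_lit 684) (nat_lit 161362191) (nat_lit 314) (nat_lit 1) (nat_lit 313) (nat_lit 1) (nat_lit 322) (nat_lit 1) (nat_lit 366) (nat_lit 414) (nat_lit 360)) (XT.lf (nat_lit 76) (nat_lit 2179063661) (nat_lit 0) (nat_lit 480594438) (nat_lit 684) (nat_lit 2179063661) (nat_lit 305) (nat_lit 1) (nat_lit 304) (nat_lit 1) (nat_lit 313) (nat_lit 1) (nat_lit 367) (nat_lit 414) (nat_lit 359))))))) (XT.nd (nat_lit 702) (nat_lit 3192) (nat_lit 0) (XT.nd (nat_lit 312) (nat_lit 1748) (nat_lit 0) (XT.nd (nat_lit 156) (nat_lit 608) (nat_lit 0) (XT.nd (nat_lit 78) (nat_lit 0) (nat_lit 0) (XT.lf (nat_lit 684) (nat_lit 3529834381) (nat_lit 0) (nat_lit 634590081) (nat_lit 608) (nat_lit 634590081) (nat_lit 305) (nat_lit 1) (nat_lit 296) (nat_lit 1) (nat_lit 304) (nat_lit 1) (nat_lit 368) (nat_lit 414) (nat_lit 358)) (XT.lf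 (nat_lit 76) (nat_lit 1347203046) (nat_lit 0) (nat_lit 2065221448) (nat_lit 684) (nat_lit 1347203046) (nat_lit 297) (nat_lit 1) (nat_lit 296) (nat_lit 1) (nat_lit 305) (nat_lit 1) (nat_lit 369) (nat_lit 414) (nat_lit 357))) (XT.nd (nat_lit 78) (nat_lit 0) (nat_lit 0) (XT.lf (nat_lit 684) (nat_lit 1861771767) (nat_lit 0) (nat_lit 1429487326) (nat_lit 608) (nat_lit 1429487326) (nat_lit 297) (nat_lit 1) (nat_lit 288) (nat_lit 1) (nat_lit 296) (nat_lit 1) (nat_lit 370) (nat_lit 414) (nat_lit 356)) (XT.lf (nat_lit 76) (nat_lit 516566995) (nat_lit 0) (nat_lit 3649251926) (nat_lit 684) (nat_lit 516566995) (nat_lit 289) (nat_lit 1) (nat_lit 288) (nat_lit 1) (nat_lit 297) (nat_lit 1) (nat_lit 371) (nat_lit 414) (nat_lit 355)))) (XT.nd (nat_lit 156) (nat_lit 532) (nat_lit 0) (XT.nd (nat_lit 78) (nat_lit 684) (nat_lit 0) (XT.lf (nat_lit 608) (nat_lit 196735776) (nat_lit 0) (nat_lit 2223785526) (nat_lit 532) (nat_lit 2223785526) (nat_lit 289) (nat_lit 1) (nat_lit 281) (nat_lit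 1) (nat_lit 288) (nat_lit 1) (nat_lit 372) (nat_lit 414) (nat_lit 354)) (XT.lf (nat_lit 684) (nat_lit 3986329723) (nat_lit 0) (nat_lit 310228187) (nat_lit 608) (nat_lit 310228187) (nat_lit 281) (nat_lit 1) (nat_lit 272) (nat_lit 1) (nat_lit 280) (nat_lit 1) (nat_lit 373) (nat_lit 414) (nat_lit 353))) (XT.nd (nat_lit 78) (nat_lit 532) (nat_lit 0) (XT.lf (nat_lit 76) (nat_lit 1562240483) (nat_lit 0) (nat_lit 1444977415) (nat_lit 684) (nat_lit 1562240483) (nat_lit 273) (nat_lit 1) (nat_lit 272) (nat_lit 1) (nat_lit 281) (nat_lit 1) (nat_lit 374) (nat_lit 414) (nat_lit 352)) (XT.nd (nat_lit 78) (nat_lit 0) (nat_lit 0) (XT.lf (nat_lit 608) (nat_lit 2270024776) (nat_lit 0) (nat_lit 1131325703) (nat_lit 532) (nat_lit 1131325703) (nat_lit 273) (nat_lit 1) (nat_lit 265) (nat_lit 1) (nat_lit 272) (nat_lit 1) (nat_lit 375) (nat_lit 414) (nat_lit 351)) (XT.lf (nat_lit 76) (nat_lit 708644676) (nat_lit 0) (nat_lit 3079031080) (nat_lit 608) (nat_lit 708644676) (nat_lit 266)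 (nat_lit 1) (nat_lit 265) (nat_lit 1) (nat_lit 273) (nat_lit 1) (nat_lit 376) (nat_lit 414) (nat_lit 350)))))) (XT.nd (nat_lit 312) (nat_lit 1520) (nat_lit 0) (XT.nd (nat_lit 156) (nat_lit 532) (nat_lit 0) (XT.nd (nat_lit 78) (nat_lit 608) (nat_lit 0) (XT.lf (nat_lit 608) (nat_lit 561017446) (nat_lit 0) (nat_lit 1949631451) (nat_lit 532) (nat_lit 1949631451) (nat_lit 266) (nat_lit 1) (nat_lit 258) (nat_lit 1) (nat_lit 265) (nat_lit 1) (nat_lit 377) (nat_lit 414) (nat_lit 349)) (XT.lf (nat_lit 608) (nat_lit 4144476839) (nat_lit 0) (nat_lit 140161856) (nat_lit 532) (nat_lit 140161856) (nat_lit 258) (nat_lit 1) (nat_lit 250) (nat_lit 1) (nat_lit 257) (nat_lit 1) (nat_lit 378) (nat_lit 414) (nat_lit 348))) (XT.nd (nat_lit 78) (nat_lit 532) (nat_lit 0) (XT.lf (nat_lit 76) (nat_lit 1632271868) (nat_lit 0) (nat_lit 1124863106) (nat_lit 608) (nat_lit 1632271868) (nat_lit 251) (nat_lit 1) (nat_lit 250) (nat_lit 1) (nat_lit 258) (nat_lit 1) (nat_lit 379) (nat_lit 414)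 (nat_lit 347)) (XT.lf (nat_lit 608) (nat_lit 2394463809) (nat_lit 0) (nat_lit 980049106) (nat_lit 532) (nat_lit 980049106) (nat_lit 251) (nat_lit 1) (nat_lit 243) (nat_lit 1) (nat_lit 250) (nat_lit 1) (nat_lit 380) (nat_lit 414) (nat_lit 346)))) (XT.nd (nat_lit 156) (nat_lit 1064) (nat_lit 0) (XT.nd (nat_lit 78) (nat_lit 456) (nat_lit 0) (XT.lf (nat_lit 76) (nat_lit 762793448) (nat_lit 0) (nat_lit 2794502607) (nat_lit 608) (nat_lit 762793448) (nat_lit 244) (nat_lit 1) (nat_lit 243) (nat_lit 1) (nat_lit 251) (nat_lit 1) (nat_lit 381) (nat_lit 414) (nat_lit 345)) (XT.lf (nat_lit 532) (nat_lit 655361900) (nat_lit 0) (nat_lit 1815285264) (nat_lit 456) (nat_lit 1815285264) (nat_lit 244) (nat_lit 1) (nat_lit 237) (nat_lit 1) (nat_lit 243) (nat_lit 1) (nat_lit 382) (nat_lit 414) (nat_lit 344))) (XT.nd (nat_lit 78) (nat_lit 456) (nat_lit 0) (XT.lf (nat_lit 608) (nat_lit 4051497191) (nat_lit 0) (nat_lit 100405068) (nat_lit 532) (nat_lit 100405068) (nat_lit 237) (nat_lit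 1) (nat_lit 229) (nat_lit 1) (nat_lit 236) (nat_lit 1) (nat_lit 383) (nat_lit 414) (nat_lit 343)) (XT.nd (nat_lit 78) (nat_lit 456) (nat_lit 0) (XT.lf (nat_lit 76) (nat_lit 1580329585) (nat_lit 0) (nat_lit 1058072838) (nat_lit 608) (nat_lit 1580329585) (nat_lit 230) (nat_lit 1) (nat_lit 229) (nat_lit 1) (nat_lit 237) (nat_lit 1) (nat_lit 384) (nat_lit 414) (nat_lit 342)) (XT.lf (nat_lit 532) (nat_lit 2280327558) (nat_lit 0) (nat_lit 952675491) (nat_lit 456) (nat_lit 952675491) (nat_lit 230) (nat_lit 1) (nat_lit 223) (nat_lit 1) (nat_lit 229) (nat_lit 1) (nat_lit 385) (nat_lit 414) (nat_lit 341))))))))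
noncomputable def ec90 : XT := (XT.nd (nat_lit 1404) (nat_lit 1748) (nat_lit 0) (XT.nd (nat_lit 702) (nat_lit 2356) (nat_lit 0) (XT.nd (nat_lit 312) (nat_lit 1368) (nat_lit 0) (XT.nd (nat_lit 156) (nat_lit 532) (nat_lit 0) (XT.nd (nat_lit 78) (nat_lit 456) (nat_lit 0) (XT.lf (nat_lit 76) (nat_lit 701077920) (nat_lit 0) (nat_lit 2750821228) (nat_lit 532) (nat_lit 701077920) (nat_lit 224) (nat_lit 1) (nat_lit 223) (nat_lit 1) (nat_lit 230) (nat_lit 1) (nat_lit 386) (nat_lit 414) (nat_lit 340)) (XT.lf (nat_lit 532) (nat_lit 523105670) (nat_lit 0) (nat_lit 1798728140) (nat_lit 456) (nat_lit 1798728140) (nat_lit 224) (nat_lit 1) (nat_lit 217) (nat_lit 1) (nat_lit 223) (nat_lit 1) (nat_lit 387) (nat_lit 414) (nat_lit 339))) (XT.nd (nat_lit 78) (nat_lit 0) (nat_lit 0) (XT.lf (nat_lit 532) (nat_lit 3748703972) (nat_lit 0) (nat_lit 169960681) (nat_lit 456) (nat_lit 169960681) (nat_lit 217) (nat_lit 1) (nat_lit 210) (nat_lit 1) (nat_lit 216) (nat_lit 1) (nat_lit 388) (nat_lit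 414) (nat_lit 338)) (XT.lf (nat_lit 76) (nat_lit 1426561140) (nat_lit 0) (nat_lit 1203639268) (nat_lit 532) (nat_lit 1426561140) (nat_lit 211) (nat_lit 1) (nat_lit 210) (nat_lit 1) (nat_lit 217) (nat_lit 1) (nat_lit 389) (nat_lit 414) (nat_lit 337)))) (XT.nd (nat_lit 156) (nat_lit 912) (nat_lit 0) (XT.nd (nat_lit 78) (nat_lit 0) (nat_lit 0) (XT.lf (nat_lit 532) (nat_lit 1967182336) (nat_lit 0) (nat_lit 1029092470) (nat_lit 456) (nat_lit 1029092470) (nat_lit 211) (nat_lit 1) (nat_lit 204) (nat_lit 1) (nat_lit 210) (nat_lit 1) (nat_lit 390) (nat_lit 414) (nat_lit 336)) (XT.lf (nat_lit 76) (nat_lit 542793033) (nat_lit 0) (nat_lit 2908747066) (nat_lit 532) (nat_lit 542793033) (nat_lit 205) (nat_lit 1) (nat_lit 204) (nat_lit 1) (nat_lit 211) (nat_lit 1) (nat_lit 391) (nat_lit 414) (nat_lit 335))) (XT.nd (nat_lit 78) (nat_lit 532) (nat_lit 0) (XT.lf (nat_lit 456) (nat_lit 202139502) (nat_lit 0) (nat_lit 1880696386) (nat_lit 380) (nat_lit 1880696386) (nat_lit 205) (nat_lit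 1) (nat_lit 199) (nat_lit 1) (nat_lit 204) (nat_lit 1) (nat_lit 392) (nat_lit 414) (nat_lit 334)) (XT.nd (nat_lit 78) (nat_lit 0) (nat_lit 0) (XT.lf (nat_lit 532) (nat_lit 3272189615) (nat_lit 0) (nat_lit 330473062) (nat_lit 456) (nat_lit 330473062) (nat_lit 199) (nat_lit 1) (nat_lit 192) (nat_lit 1) (nat_lit 198) (nat_lit 1) (nat_lit 393) (nat_lit 414) (nat_lit 333)) (XT.lf (nat_lit 76) (nat_lit 1188564980) (nat_lit 0) (nat_lit 1525754615) (nat_lit 532) (nat_lit 1188564980) (nat_lit 193) (nat_lit 1) (nat_lit 192) (nat_lit 1) (nat_lit 199) (nat_lit 1) (nat_lit 394) (nat_lit 414) (nat_lit 332)))))) (XT.nd (nat_lit 312) (nat_lit 1140) (nat_lit 0) (XT.nd (nat_lit 156) (nat_lit 836) (nat_lit 0) (XT.nd (nat_lit 78) (nat_lit 0) (nat_lit 0) (XT.lf (nat_lit 456) (nat_lit 1489582635) (nat_lit 0) (nat_lit 1191723558) (nat_lit 380) (nat_lit 1191723558) (nat_lit 193) (nat_lit 1) (nat_lit 187) (nat_lit 1) (nat_lit 192) (nat_lit 1) (nat_lit 395) (nat_lit 414) (nat_lit 331))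 (XT.lf (nat_lit 76) (nat_lit 304786706) (nat_lit 0) (nat_lit 3233993475) (nat_lit 456) (nat_lit 304786706) (nat_lit 188) (nat_lit 1) (nat_lit 187) (nat_lit 1) (nat_lit 193) (nat_lit 1) (nat_lit 396) (nat_lit 414) (nat_lit 330))) (XT.nd (nat_lit 78) (nat_lit 380) (nat_lit 0) (XT.lf (nat_lit 76) (nat_lit 1771685731) (nat_lit 0) (nat_lit 270857445) (nat_lit 456) (nat_lit 1771685731) (nat_lit 182) (nat_lit 1) (nat_lit 181) (nat_lit 1) (nat_lit 187) (nat_lit 1) (nat_lit 397) (nat_lit 414) (nat_lit 329)) (XT.lf (nat_lit 456) (nat_lit 2653435262) (nat_lit 0) (nat_lit 565920126) (nat_lit 380) (nat_lit 565920126) (nat_lit 182) (nat_lit 1) (nat_lit 176) (nat_lit 1) (nat_lit 181) (nat_lit 1) (nat_lit 398) (nat_lit 414) (nat_lit 328)))) (XT.nd (nat_lit 156) (nat_lit 760) (nat_lit 0) (XT.nd (nat_lit 78) (nat_lit 380) (nat_lit 0) (XT.lf (nat_lit 76) (nat_lit 881688185) (nat_lit 0) (nat_lit 1993168907) (nat_lit 456) (nat_lit 881688185) (nat_lit 177) (nat_lit 1) (nat_lit 176)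 (nat_lit 1) (nat_lit 182) (nat_lit 1) (nat_lit 399) (nat_lit 414) (nat_lit 327)) (XT.lf (nat_lit 456) (nat_lit 877656661) (nat_lit 0) (nat_lit 1425232300) (nat_lit 380) (nat_lit 1425232300) (nat_lit 177) (nat_lit 1) (nat_lit 171) (nat_lit 1) (nat_lit 176) (nat_lit 1) (nat_lit 400) (nat_lit 414) (nat_lit 326))) (XT.nd (nat_lit 78) (nat_lit 760) (nat_lit 0) (XT.lf (nat_lit 76) (nat_lit 1745854) (nat_lit 0) (nat_lit 3696648904) (nat_lit 456) (nat_lit 1745854) (nat_lit 172) (nat_lit 1) (nat_lit 171) (nat_lit 1) (nat_lit 177) (nat_lit 1) (nat_lit 401) (nat_lit 414) (nat_lit 325)) (XT.nd (nat_lit 78) (nat_lit 380) (nat_lit 0) (XT.lf (nat_lit 76) (nat_lit 1402889068) (nat_lit 0) (nat_lit 866339613) (nat_lit 380) (nat_lit 1402889068) (nat_lit 167) (nat_lit 1) (nat_lit 166) (nat_lit 1) (nat_lit 171) (nat_lit 1) (nat_lit 402) (nat_lit 414) (nat_lit 324)) (XT.lf (nat_lit 456) (nat_lit 1919850959) (nat_lit 0) (nat_lit 862340372) (nat_lit 380) (nat_lit 862340372) (nat_lit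 167) (nat_lit 1) (nat_lit 161) (nat_lit 1) (nat_lit 166) (nat_lit 1) (nat_lit 403) (nat_lit 414) (nat_lit 323))))))) (XT.nd (nat_lit 52494) (nat_lit 0) (nat_lit 27512) (XT.nd (nat_lit 312) (nat_lit 988) (nat_lit 0) (XT.nd (nat_lit 156) (nat_lit 456) (nat_lit 0) (XT.nd (nat_lit 78) (nat_lit 304) (nat_lit 0) (XT.lf (nat_lit 76) (nat_lit 519290329) (nat_lit 0) (nat_lit 2578656605) (nat_lit 456) (nat_lit 519290329) (nat_lit 162) (nat_lit 1) (nat_lit 161) (nat_lit 1) (nat_lit 167) (nat_lit 1) (nat_lit 404) (nat_lit 414) (nat_lit 322)) (XT.lf (nat_lit 380) (nat_lit 157625321) (nat_lit 0) (nat_lit 1716260021) (nat_lit 304) (nat_lit 1716260021) (nat_lit 162) (nat_lit 1) (nat_lit 157) (nat_lit 1) (nat_lit 161) (nat_lit 1) (nat_lit 405) (nat_lit 414) (nat_lit 321))) (XT.nd (nat_lit 78) (nat_lit 0) (nat_lit 0) (XT.lf (nat_lit 456) (nat_lit 2860931671) (nat_lit 0) (nat_lit 351224141) (nat_lit 380) (nat_lit 351224141) (nat_lit 157) (nat_lit 1) (nat_lit 151) (nat_lit 1) (nat_lit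 156) (nat_lit 1) (nat_lit 406) (nat_lit 414) (nat_lit 320)) (XT.lf (nat_lit 76) (nat_lit 987270886) (nat_lit 0) (nat_lit 1562206014) (nat_lit 456) (nat_lit 987270886) (nat_lit 152) (nat_lit 1) (nat_lit 151) (nat_lit 1) (nat_lit 157) (nat_lit 1) (nat_lit 407) (nat_lit 414) (nat_lit 319)))) (XT.nd (nat_lit 156) (nat_lit 684) (nat_lit 0) (XT.nd (nat_lit 78) (nat_lit 0) (nat_lit 0) (XT.lf (nat_lit 380) (nat_lit 1095254398) (nat_lit 0) (nat_lit 1207590950) (nat_lit 304) (nat_lit 1207590950) (nat_lit 152) (nat_lit 1) (nat_lit 147) (nat_lit 1) (nat_lit 151) (nat_lit 1) (nat_lit 408) (nat_lit 414) (nat_lit 318)) (XT.lf (nat_lit 76) (nat_lit 112977306) (nat_lit 0) (nat_lit 3258543887) (nat_lit 380) (nat_lit 112977306) (nat_lit 148) (nat_lit 1) (nat_lit 147) (nat_lit 1) (nat_lit 152) (nat_lit 1) (nat_lit 409) (nat_lit 414) (nat_lit 317))) (XT.nd (nat_lit 78) (nat_lit 304) (nat_lit 0) (XT.lf (nat_lit 76) (nat_lit 1409661076) (nat_lit 0) (nat_lit 639242670) (nat_lit 380)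 (nat_lit 1409661076) (nat_lit 143) (nat_lit 1) (nat_lit 142) (nat_lit 1) (nat_lit 147) (nat_lit 1) (nat_lit 410) (nat_lit 414) (nat_lit 316)) (XT.nd (nat_lit 51870) (nat_lit 0) (nat_lit 27436) (XT.lf (nat_lit 380) (nat_lit 1942858478) (nat_lit 0) (nat_lit 745070493) (nat_lit 304) (nat_lit 745070493) (nat_lit 143) (nat_lit 1) (nat_lit 138) (nat_lit 1) (nat_lit 142) (nat_lit 1) (nat_lit 411) (nat_lit 414) (nat_lit 315)) (XT.lf (nat_lit 1900) (nat_lit 4822784082) (nat_lit 76) (nat_lit 1452296187) (nat_lit 0) (nat_lit 1452296187) (nat_lit 524) (nat_lit 1) (nat_lit 500) (nat_lit 1) (nat_lit 499) (nat_lit 1) (nat_lit 315) (nat_lit 415) (nat_lit 410)))))) (XT.nd (nat_lit 312) (nat_lit 0) (nat_lit 152) (XT.nd (nat_lit 156) (nat_lit 0) (nat_lit 76) (XT.nd (nat_lit 78) (nat_lit 0) (nat_lit 0) (XT.lf (nat_lit 1900) (nat_lit 2317255286) (nat_lit 0) (nat_lit 3018044383) (nat_lit 1824) (nat_lit 2317255286) (nat_lit 525) (nat_lit 1) (nat_lit 500) (nat_lit 1) (nat_lit 524) (nat_lit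 1) (nat_lit 316) (nat_lit 415) (nat_lit 409)) (XT.lf (nat_lit 1900) (nat_lit 4430073145) (nat_lit 76) (nat_lit 1574369036) (nat_lit 0) (nat_lit 1574369036) (nat_lit 525) (nat_lit 1) (nat_lit 501) (nat_lit 1) (nat_lit 500) (nat_lit 1) (nat_lit 317) (nat_lit 415) (nat_lit 408))) (XT.nd (nat_lit 78) (nat_lit 0) (nat_lit 0) (XT.lf (nat_lit 1900) (nat_lit 2100153031) (nat_lit 0) (nat_lit 3305632113) (nat_lit 1824) (nat_lit 2100153031) (nat_lit 526) (nat_lit 1) (nat_lit 501) (nat_lit 1) (nat_lit 525) (nat_lit 1) (nat_lit 318) (nat_lit 415) (nat_lit 407)) (XT.lf (nat_lit 1900) (nat_lit 3953296637) (nat_lit 76) (nat_lit 1740385478) (nat_lit 0) (nat_lit 1740385478) (nat_lit 526) (nat_lit 1) (nat_lit 502) (nat_lit 1) (nat_lit 501) (nat_lit 1) (nat_lit 319) (nat_lit 415) (nat_lit 406)))) (XT.nd (nat_lit 156) (nat_lit 0) (nat_lit 76) (XT.nd (nat_lit 78) (nat_lit 0) (nat_lit 0) (XT.lf (nat_lit 1900) (nat_lit 1842474880) (nat_lit 0) (nat_lit 3678143130) (nat_lit 1824) (nat_lit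 1842474880) (nat_lit 527) (nat_lit 1) (nat_lit 502) (nat_lit 1) (nat_lit 526) (nat_lit 1) (nat_lit 320) (nat_lit 415) (nat_lit 405)) (XT.lf (nat_lit 1900) (nat_lit 3397666278) (nat_lit 76) (nat_lit 1947684547) (nat_lit 0) (nat_lit 1947684547) (nat_lit 527) (nat_lit 1) (nat_lit 503) (nat_lit 1) (nat_lit 502) (nat_lit 1) (nat_lit 321) (nat_lit 415) (nat_lit 404))) (XT.nd (nat_lit 78) (nat_lit 0) (nat_lit 0) (XT.lf (nat_lit 1900) (nat_lit 1546757352) (nat_lit 0) (nat_lit 4130395628) (nat_lit 1824) (nat_lit 1546757352) (nat_lit 528) (nat_lit 1) (nat_lit 503) (nat_lit 1) (nat_lit 527) (nat_lit 1) (nat_lit 322) (nat_lit 415) (nat_lit 403)) (XT.nd (nat_lit 78) (nat_lit 0) (nat_lit 76) (XT.lf (nat_lit 1900) (nat_lit 2768153230) (nat_lit 76) (nat_lit 2193727318) (nat_lit 0) (nat_lit 2193727318) (nat_lit 528) (nat_lit 1) (nat_lit 504) (nat_lit 1) (nat_lit 503) (nat_lit 1) (nat_lit 323) (nat_lit 415) (nat_lit 402)) (XT.lf (nat_lit 1900) (nat_lit 1215419626) (nat_lit 0)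 (nat_lit 4657445961) (nat_lit 1824) (nat_lit 1215419626) (nat_lit 529) (nat_lit 1) (nat_lit 504) (nat_lit 1) (nat_lit 528) (nat_lit 1) (nat_lit 324) (nat_lit 415) (nat_lit 401))))))))
noncomputable def ec91 : XT := (XT.nd (nat_lit 1404) (nat_lit 7904) (nat_lit 0) (XT.nd (nat_lit 702) (nat_lit 3648) (nat_lit 0) (XT.nd (nat_lit 312) (nat_lit 1672) (nat_lit 0) (XT.nd (nat_lit 156) (nat_lit 0) (nat_lit 76) (XT.nd (nat_lit 78) (nat_lit 0) (nat_lit 76) (XT.lf (nat_lit 1900) (nat_lit 2069498184) (nat_lit 76) (nat_lit 2476091811) (nat_lit 0) (nat_lit 2476091811) (nat_lit 529) (nat_lit 1) (nat_lit 505) (nat_lit 1) (nat_lit 504) (nat_lit 1) (nat_lit 325) (nat_lit 415) (nat_lit 400)) (XT.lf (nat_lit 1900) (nat_lit 850768473) (nat_lit 0) (nat_lit 5254578670) (nat_lit 1824) (nat_lit 850768473) (nat_lit 530) (nat_lit 1) (nat_lit 505) (nat_lit 1) (nat_lit 529) (nat_lit 1) (nat_lit 326) (nat_lit 415) (nat_lit 399))) (XT.nd (nat_lit 78) (nat_lit 0) (nat_lit 76) (XT.lf (nat_lit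 1900) (nat_lit 1306221040) (nat_lit 76) (nat_lit 2792468082) (nat_lit 0) (nat_lit 2792468082) (nat_lit 530) (nat_lit 1) (nat_lit 506) (nat_lit 1) (nat_lit 505) (nat_lit 1) (nat_lit 327) (nat_lit 415) (nat_lit 398)) (XT.lf (nat_lit 1900) (nat_lit 455002977) (nat_lit 0) (nat_lit 5917296914) (nat_lit 1824) (nat_lit 455002977) (nat_lit 531) (nat_lit 1) (nat_lit 506) (nat_lit 1) (nat_lit 530) (nat_lit 1) (nat_lit 328) (nat_lit 415) (nat_lit 397)))) (XT.nd (nat_lit 156) (nat_lit 1824) (nat_lit 0) (XT.nd (nat_lit 78) (nat_lit 0) (nat_lit 76) (XT.lf (nat_lit 1900) (nat_lit 482630208) (nat_lit 76) (nat_lit 3140653522) (nat_lit 0) (nat_lit 3140653522) (nat_lit 531) (nat_lit 1) (nat_lit 507) (nat_lit 1) (nat_lit 506) (nat_lit 1) (nat_lit 329) (nat_lit 415) (nat_lit 396)) (XT.lf (nat_lit 1900) (nat_lit 30219076) (nat_lit 0) (nat_lit 6641313279) (nat_lit 1824) (nat_lit 30219076) (nat_lit 532) (nat_lit 1) (nat_lit 507) (nat_lit 1) (nat_lit 531) (nat_lit 1) (nat_lit 330) (nat_lit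 415) (nat_lit 395))) (XT.nd (nat_lit 78) (nat_lit 0) (nat_lit 0) (XT.lf (nat_lit 1976) (nat_lit 3123958549) (nat_lit 0) (nat_lit 391959543) (nat_lit 1900) (nat_lit 3123958549) (nat_lit 508) (nat_lit 1) (nat_lit 482) (nat_lit 1) (nat_lit 507) (nat_lit 1) (nat_lit 331) (nat_lit 415) (nat_lit 394)) (XT.nd (nat_lit 78) (nat_lit 0) (nat_lit 76) (XT.lf (nat_lit 1976) (nat_lit 5741524089) (nat_lit 76) (nat_lit 418812495) (nat_lit 0) (nat_lit 418812495) (nat_lit 508) (nat_lit 1) (nat_lit 483) (nat_lit 1) (nat_lit 482) (nat_lit 1) (nat_lit 332) (nat_lit 415) (nat_lit 393)) (XT.lf (nat_lit 1976) (nat_lit 2603518508) (nat_lit 0) (nat_lit 1311829684) (nat_lit 1900) (nat_lit 2603518508) (nat_lit 509) (nat_lit 1) (nat_lit 483) (nat_lit 1) (nat_lit 508) (nat_lit 1) (nat_lit 333) (nat_lit 415) (nat_lit 392)))))) (XT.nd (nat_lit 312) (nat_lit 2660) (nat_lit 0) (XT.nd (nat_lit 156) (nat_lit 1064) (nat_lit 0) (XT.nd (nat_lit 78) (nat_lit 0) (nat_lit 76) (XT.lf (nat_lit 1976) (nat_lit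 4674399624) (nat_lit 76) (nat_lit 892598740) (nat_lit 0) (nat_lit 892598740) (nat_lit 509) (nat_lit 1) (nat_lit 484) (nat_lit 1) (nat_lit 483) (nat_lit 1) (nat_lit 334) (nat_lit 415) (nat_lit 391)) (XT.lf (nat_lit 76) (nat_lit 2060624906) (nat_lit 0) (nat_lit 2279632856) (nat_lit 1900) (nat_lit 2060624906) (nat_lit 485) (nat_lit 1) (nat_lit 484) (nat_lit 1) (nat_lit 509) (nat_lit 1) (nat_lit 335) (nat_lit 415) (nat_lit 390))) (XT.nd (nat_lit 78) (nat_lit 0) (nat_lit 0) (XT.lf (nat_lit 1216) (nat_lit 3563948492) (nat_lit 0) (nat_lit 1389538468) (nat_lit 1140) (nat_lit 1389538468) (nat_lit 485) (nat_lit 1) (nat_lit 469) (nat_lit 1) (nat_lit 484) (nat_lit 1) (nat_lit 336) (nat_lit 415) (nat_lit 389)) (XT.lf (nat_lit 76) (nat_lit 1496986170) (nat_lit 0) (nat_lit 3291867512) (nat_lit 1216) (nat_lit 1496986170) (nat_lit 470) (nat_lit 1) (nat_lit 469) (nat_lit 1) (nat_lit 485) (nat_lit 1) (nat_lit 337) (nat_lit 415) (nat_lit 388)))) (XT.nd (nat_lit 156) (nat_lit 1748)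 (nat_lit 0) (XT.nd (nat_lit 78) (nat_lit 0) (nat_lit 0) (XT.lf (nat_lit 988) (nat_lit 2413515168) (nat_lit 0) (nat_lit 1907917873) (nat_lit 912) (nat_lit 1907917873) (nat_lit 470) (nat_lit 1) (nat_lit 457) (nat_lit 1) (nat_lit 469) (nat_lit 1) (nat_lit 338) (nat_lit 415) (nat_lit 387)) (XT.lf (nat_lit 76) (nat_lit 914227982) (nat_lit 0) (nat_lit 4345200236) (nat_lit 988) (nat_lit 914227982) (nat_lit 458) (nat_lit 1) (nat_lit 457) (nat_lit 1) (nat_lit 470) (nat_lit 1) (nat_lit 339) (nat_lit 415) (nat_lit 386))) (XT.nd (nat_lit 78) (nat_lit 836) (nat_lit 0) (XT.lf (nat_lit 988) (nat_lit 1226281667) (nat_lit 0) (nat_lit 2446105673) (nat_lit 912) (nat_lit 2446105673) (nat_lit 458) (nat_lit 1) (nat_lit 445) (nat_lit 1) (nat_lit 457) (nat_lit 1) (nat_lit 340) (nat_lit 415) (nat_lit 385)) (XT.nd (nat_lit 78) (nat_lit 836) (nat_lit 0) (XT.lf (nat_lit 76) (nat_lit 313896819) (nat_lit 0) (nat_lit 5436458582) (nat_lit 988) (nat_lit 313896819) (nat_lit 446) (nat_lit 1) (nat_lit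 445) (nat_lit 1) (nat_lit 458) (nat_lit 1) (nat_lit 341) (nat_lit 415) (nat_lit 384)) (XT.lf (nat_lit 912) (nat_lit 5274494) (nat_lit 0) (nat_lit 3002549591) (nat_lit 836) (nat_lit 3002549591) (nat_lit 446) (nat_lit 1) (nat_lit 434) (nat_lit 1) (nat_lit 445) (nat_lit 1) (nat_lit 342) (nat_lit 415) (nat_lit 383))))))) (XT.nd (nat_lit 702) (nat_lit 3648) (nat_lit 0) (XT.nd (nat_lit 312) (nat_lit 2432) (nat_lit 0) (XT.nd (nat_lit 156) (nat_lit 836) (nat_lit 0) (XT.nd (nat_lit 78) (nat_lit 0) (nat_lit 0) (XT.lf (nat_lit 988) (nat_lit 5356300642) (nat_lit 0) (nat_lit 300546288) (nat_lit 912) (nat_lit 300546288) (nat_lit 434) (nat_lit 1) (nat_lit 421) (nat_lit 1) (nat_lit 433) (nat_lit 1) (nat_lit 343) (nat_lit 415) (nat_lit 382)) (XT.lf (nat_lit 76) (nat_lit 2337238227) (nat_lit 0) (nat_lit 1230278935) (nat_lit 988) (nat_lit 2337238227) (nat_lit 422) (nat_lit 1) (nat_lit 421) (nat_lit 1) (nat_lit 434) (nat_lit 1) (nat_lit 344) (nat_lit 415) (nat_lit 381))) (XT.nd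 (nat_lit 78) (nat_lit 0) (nat_lit 0) (XT.lf (nat_lit 912) (nat_lit 3997927429) (nat_lit 0) (nat_lit 927531771) (nat_lit 836) (nat_lit 927531771) (nat_lit 422) (nat_lit 1) (nat_lit 410) (nat_lit 1) (nat_lit 421) (nat_lit 1) (nat_lit 345) (nat_lit 415) (nat_lit 380)) (XT.lf (nat_lit 76) (nat_lit 1654083864) (nat_lit 0) (nat_lit 2493554666) (nat_lit 912) (nat_lit 1654083864) (nat_lit 411) (nat_lit 1) (nat_lit 410) (nat_lit 1) (nat_lit 422) (nat_lit 1) (nat_lit 346) (nat_lit 415) (nat_lit 379)))) (XT.nd (nat_lit 156) (nat_lit 1596) (nat_lit 0) (XT.nd (nat_lit 78) (nat_lit 0) (nat_lit 0) (XT.lf (nat_lit 912) (nat_lit 2615527765) (nat_lit 0) (nat_lit 1567804828) (nat_lit 836) (nat_lit 1567804828) (nat_lit 411) (nat_lit 1) (nat_lit 399) (nat_lit 1) (nat_lit 410) (nat_lit 1) (nat_lit 347) (nat_lit 415) (nat_lit 378)) (XT.lf (nat_lit 76) (nat_lit 959573800) (nat_lit 0) (nat_lit 3782057073) (nat_lit 912) (nat_lit 959573800) (nat_lit 400) (nat_lit 1) (nat_lit 399) (nat_lit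 1) (nat_lit 411) (nat_lit 1) (nat_lit 348) (nat_lit 415) (nat_lit 377))) (XT.nd (nat_lit 78) (nat_lit 836) (nat_lit 0) (XT.lf (nat_lit 836) (nat_lit 1211539995) (nat_lit 0) (nat_lit 2220111562) (nat_lit 760) (nat_lit 2220111562) (nat_lit 400) (nat_lit 1) (nat_lit 389) (nat_lit 1) (nat_lit 399) (nat_lit 1) (nat_lit 349) (nat_lit 415) (nat_lit 376)) (XT.nd (nat_lit 78) (nat_lit 836) (nat_lit 0) (XT.lf (nat_lit 76) (nat_lit 254891802) (nat_lit 0) (nat_lit 5093350079) (nat_lit 836) (nat_lit 254891802) (nat_lit 390) (nat_lit 1) (nat_lit 389) (nat_lit 1) (nat_lit 400) (nat_lit 1) (nat_lit 350) (nat_lit 415) (nat_lit 375)) (XT.lf (nat_lit 76) (nat_lit 2672914133) (nat_lit 0) (nat_lit 208944970) (nat_lit 836) (nat_lit 2672914133) (nat_lit 379) (nat_lit 1) (nat_lit 378) (nat_lit 1) (nat_lit 389) (nat_lit 1) (nat_lit 351) (nat_lit 415) (nat_lit 374)))))) (XT.nd (nat_lit 312) (nat_lit 2128) (nat_lit 0) (XT.nd (nat_lit 156) (nat_lit 760) (nat_lit 0) (XT.nd (nat_lit 78) (nat_lit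 0) (nat_lit 0) (XT.lf (nat_lit 836) (nat_lit 4595563413) (nat_lit 0) (nat_lit 455820217) (nat_lit 760) (nat_lit 455820217) (nat_lit 379) (nat_lit 1) (nat_lit 368) (nat_lit 1) (nat_lit 378) (nat_lit 1) (nat_lit 352) (nat_lit 415) (nat_lit 373)) (XT.lf (nat_lit 76) (nat_lit 1914787720) (nat_lit 0) (nat_lit 1630395001) (nat_lit 836) (nat_lit 1914787720) (nat_lit 369) (nat_lit 1) (nat_lit 368) (nat_lit 1) (nat_lit 379) (nat_lit 1) (nat_lit 353) (nat_lit 415) (nat_lit 372))) (XT.nd (nat_lit 78) (nat_lit 0) (nat_lit 0) (XT.lf (nat_lit 836) (nat_lit 3067880556) (nat_lit 0) (nat_lit 1172786152) (nat_lit 760) (nat_lit 1172786152) (nat_lit 369) (nat_lit 1) (nat_lit 358) (nat_lit 1) (nat_lit 368) (nat_lit 1) (nat_lit 354) (nat_lit 415) (nat_lit 371)) (XT.lf (nat_lit 76) (nat_lit 1150401888) (nat_lit 0) (nat_lit 3066645241) (nat_lit 836) (nat_lit 1150401888) (nat_lit 359) (nat_lit 1) (nat_lit 358) (nat_lit 1) (nat_lit 369) (nat_lit 1) (nat_lit 355) (nat_lit 415) (nat_lit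 370)))) (XT.nd (nat_lit 156) (nat_lit 1444) (nat_lit 0) (XT.nd (nat_lit 78) (nat_lit 0) (nat_lit 0) (XT.lf (nat_lit 760) (nat_lit 1528592419) (nat_lit 0) (nat_lit 1896679597) (nat_lit 684) (nat_lit 1896679597) (nat_lit 359) (nat_lit 1) (nat_lit 349) (nat_lit 1) (nat_lit 358) (nat_lit 1) (nat_lit 356) (nat_lit 415) (nat_lit 369)) (XT.lf (nat_lit 76) (nat_lit 380699666) (nat_lit 0) (nat_lit 4515748491) (nat_lit 760) (nat_lit 380699666) (nat_lit 350) (nat_lit 1) (nat_lit 349) (nat_lit 1) (nat_lit 359) (nat_lit 1) (nat_lit 357) (nat_lit 415) (nat_lit 368))) (XT.nd (nat_lit 78) (nat_lit 684) (nat_lit 0) (XT.lf (nat_lit 76) (nat_lit 2606223033) (nat_lit 0) (nat_lit 20191290) (nat_lit 760) (nat_lit 2606223033) (nat_lit 340) (nat_lit 1) (nat_lit 339) (nat_lit 1) (nat_lit 349) (nat_lit 1) (nat_lit 358) (nat_lit 415) (nat_lit 367)) (XT.nd (nat_lit 78) (nat_lit 0) (nat_lit 0) (XT.lf (nat_lit 760) (nat_lit 4407126672) (nat_lit 0) (nat_lit 390837927) (nat_lit 684) (nat_lit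 390837927) (nat_lit 340) (nat_lit 1) (nat_lit 330) (nat_lit 1) (nat_lit 339) (nat_lit 1) (nat_lit 359) (nat_lit 415) (nat_lit 366)) (XT.lf (nat_lit 76) (nat_lit 1794205791) (nat_lit 0) (nat_lit 1556843338) (nat_lit 760) (nat_lit 1794205791) (nat_lit 331) (nat_lit 1) (nat_lit 330) (nat_lit 1) (nat_lit 340) (nat_lit 1) (nat_lit 360) (nat_lit 415) (nat_lit 365))))))))
noncomputable def ec92 : XT := (XT.nd (nat_lit 1404) (nat_lit 5092) (nat_lit 0) (XT.nd (nat_lit 702) (nat_lit 3420) (nat_lit 0) (XT.nd (nat_lit 312) (nat_lit 1900) (nat_lit 0) (XT.nd (nat_lit 156) (nat_lit 608) (nat_lit 0) (XT.nd (nat_lit 78) (nat_lit 0) (nat_lit 0) (XT.lf (nat_lit 760) (nat_lit 2775507341) (nat_lit 0) (nat_lit 1163426509) (nat_lit 684) (nat_lit 1163426509) (nat_lit 331) (nat_lit 1) (nat_lit 321) (nat_lit 1) (nat_lit 330) (nat_lit 1) (nat_lit 361) (nat_lit 415) (nat_lit 364)) (XT.lf (nat_lit 76) (nat_lit 980080777) (nat_lit 0) (nat_lit 3099784905) (nat_lit 760) (nat_lit 980080777)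 (nat_lit 322) (nat_lit 1) (nat_lit 321) (nat_lit 1) (nat_lit 331) (nat_lit 1) (nat_lit 362) (nat_lit 415) (nat_lit 363))) (XT.nd (nat_lit 78) (nat_lit 0) (nat_lit 0) (XT.lf (nat_lit 684) (nat_lit 1140409619) (nat_lit 0) (nat_lit 1938777358) (nat_lit 608) (nat_lit 1938777358) (nat_lit 322) (nat_lit 1) (nat_lit 313) (nat_lit 1) (nat_lit 321) (nat_lit 1) (nat_lit 363) (nat_lit 415) (nat_lit 362)) (XT.lf (nat_lit 76) (nat_lit 164589434) (nat_lit 0) (nat_lit 4647478436) (nat_lit 684) (nat_lit 164589434) (nat_lit 314) (nat_lit 1) (nat_lit 313) (nat_lit 1) (nat_lit 322) (nat_lit 1) (nat_lit 364) (nat_lit 415) (nat_lit 361)))) (XT.nd (nat_lit 156) (nat_lit 608) (nat_lit 0) (XT.nd (nat_lit 78) (nat_lit 608) (nat_lit 0) (XT.lf (nat_lit 76) (nat_lit 2222644934) (nat_lit 0) (nat_lit 490206327) (nat_lit 684) (nat_lit 2222644934) (nat_lit 305) (nat_lit 1) (nat_lit 304) (nat_lit 1) (nat_lit 313) (nat_lit 1) (nat_lit 365) (nat_lit 415) (nat_lit 360)) (XT.lf (nat_lit 684) (nat_lit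 3600431069) (nat_lit 0) (nat_lit 647281883) (nat_lit 608) (nat_lit 647281883) (nat_lit 305) (nat_lit 1) (nat_lit 296) (nat_lit 1) (nat_lit 304) (nat_lit 1) (nat_lit 366) (nat_lit 415) (nat_lit 359))) (XT.nd (nat_lit 78) (nat_lit 608) (nat_lit 0) (XT.lf (nat_lit 76) (nat_lit 1374147107) (nat_lit 0) (nat_lit 2106525877) (nat_lit 684) (nat_lit 1374147107) (nat_lit 297) (nat_lit 1) (nat_lit 296) (nat_lit 1) (nat_lit 305) (nat_lit 1) (nat_lit 367) (nat_lit 415) (nat_lit 358)) (XT.nd (nat_lit 78) (nat_lit 0) (nat_lit 0) (XT.lf (nat_lit 684) (nat_lit 1899007202) (nat_lit 0) (nat_lit 1458077073) (nat_lit 608) (nat_lit 1458077073) (nat_lit 297) (nat_lit 1) (nat_lit 288) (nat_lit 1) (nat_lit 296) (nat_lit 1) (nat_lit 368) (nat_lit 415) (nat_lit 357)) (XT.lf (nat_lit 76) (nat_lit 526898335) (nat_lit 0) (nat_lit 3722236965) (nat_lit 684) (nat_lit 526898335) (nat_lit 289) (nat_lit 1) (nat_lit 288) (nat_lit 1) (nat_lit 297) (nat_lit 1) (nat_lit 369) (nat_lit 415) (nat_lit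 356)))))) (XT.nd (nat_lit 312) (nat_lit 1672) (nat_lit 0) (XT.nd (nat_lit 156) (nat_lit 532) (nat_lit 0) (XT.nd (nat_lit 78) (nat_lit 684) (nat_lit 0) (XT.lf (nat_lit 608) (nat_lit 200670492) (nat_lit 0) (nat_lit 2268261237) (nat_lit 532) (nat_lit 2268261237) (nat_lit 289) (nat_lit 1) (nat_lit 281) (nat_lit 1) (nat_lit 288) (nat_lit 1) (nat_lit 370) (nat_lit 415) (nat_lit 355)) (XT.lf (nat_lit 684) (nat_lit 4066056318) (nat_lit 0) (nat_lit 316432751) (nat_lit 608) (nat_lit 316432751) (nat_lit 281) (nat_lit 1) (nat_lit 272) (nat_lit 1) (nat_lit 280) (nat_lit 1) (nat_lit 371) (nat_lit 415) (nat_lit 354))) (XT.nd (nat_lit 78) (nat_lit 532) (nat_lit 0) (XT.lf (nat_lit 76) (nat_lit 1593485293) (nat_lit 0) (nat_lit 1473876963) (nat_lit 684) (nat_lit 1593485293) (nat_lit 273) (nat_lit 1) (nat_lit 272) (nat_lit 1) (nat_lit 281) (nat_lit 1) (nat_lit 372) (nat_lit 415) (nat_lit 353)) (XT.lf (nat_lit 608) (nat_lit 2315425272) (nat_lit 0) (nat_lit 1153952217) (nat_lit 532)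 (nat_lit 1153952217) (nat_lit 273) (nat_lit 1) (nat_lit 265) (nat_lit 1) (nat_lit 272) (nat_lit 1) (nat_lit 373) (nat_lit 415) (nat_lit 352)))) (XT.nd (nat_lit 156) (nat_lit 1140) (nat_lit 0) (XT.nd (nat_lit 78) (nat_lit 532) (nat_lit 0) (XT.lf (nat_lit 76) (nat_lit 722817569) (nat_lit 0) (nat_lit 3140611702) (nat_lit 608) (nat_lit 722817569) (nat_lit 266) (nat_lit 1) (nat_lit 265) (nat_lit 1) (nat_lit 273) (nat_lit 1) (nat_lit 374) (nat_lit 415) (nat_lit 351)) (XT.lf (nat_lit 608) (nat_lit 572237795) (nat_lit 0) (nat_lit 1988624080) (nat_lit 532) (nat_lit 1988624080) (nat_lit 266) (nat_lit 1) (nat_lit 258) (nat_lit 1) (nat_lit 265) (nat_lit 1) (nat_lit 375) (nat_lit 415) (nat_lit 350))) (XT.nd (nat_lit 78) (nat_lit 532) (nat_lit 0) (XT.lf (nat_lit 608) (nat_lit 4227366376) (nat_lit 0) (nat_lit 142965093) (nat_lit 532) (nat_lit 142965093) (nat_lit 258) (nat_lit 1) (nat_lit 250) (nat_lit 1) (nat_lit 257) (nat_lit 1) (nat_lit 376) (nat_lit 415) (nat_lit 349)) (XT.nd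 (nat_lit 78) (nat_lit 532) (nat_lit 0) (XT.lf (nat_lit 76) (nat_lit 1664917305) (nat_lit 0) (nat_lit 1147360368) (nat_lit 608) (nat_lit 1664917305) (nat_lit 251) (nat_lit 1) (nat_lit 250) (nat_lit 1) (nat_lit 258) (nat_lit 1) (nat_lit 377) (nat_lit 415) (nat_lit 348)) (XT.lf (nat_lit 608) (nat_lit 2442353086) (nat_lit 0) (nat_lit 999650088) (nat_lit 532) (nat_lit 999650088) (nat_lit 251) (nat_lit 1) (nat_lit 243) (nat_lit 1) (nat_lit 250) (nat_lit 1) (nat_lit 378) (nat_lit 415) (nat_lit 347))))))) (XT.nd (nat_lit 702) (nat_lit 2584) (nat_lit 0) (XT.nd (nat_lit 312) (nat_lit 1444) (nat_lit 0) (XT.nd (nat_lit 156) (nat_lit 608) (nat_lit 0) (XT.nd (nat_lit 78) (nat_lit 456) (nat_lit 0) (XT.lf (nat_lit 76) (nat_lit 778049317) (nat_lit 0) (nat_lit 2850392659) (nat_lit 608) (nat_lit 778049317) (nat_lit 244) (nat_lit 1) (nat_lit 243) (nat_lit 1) (nat_lit 251) (nat_lit 1) (nat_lit 379) (nat_lit 415) (nat_lit 346)) (XT.lf (nat_lit 532) (nat_lit 668469138) (nat_lit 0)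 (nat_lit 1851590969) (nat_lit 456) (nat_lit 1851590969) (nat_lit 244) (nat_lit 1) (nat_lit 237) (nat_lit 1) (nat_lit 243) (nat_lit 1) (nat_lit 380) (nat_lit 415) (nat_lit 345))) (XT.nd (nat_lit 78) (nat_lit 0) (nat_lit 0) (XT.lf (nat_lit 608) (nat_lit 4132527135) (nat_lit 0) (nat_lit 102413169) (nat_lit 532) (nat_lit 102413169) (nat_lit 237) (nat_lit 1) (nat_lit 229) (nat_lit 1) (nat_lit 236) (nat_lit 1) (nat_lit 381) (nat_lit 415) (nat_lit 344)) (XT.lf (nat_lit 76) (nat_lit 1611936177) (nat_lit 0) (nat_lit 1079234294) (nat_lit 608) (nat_lit 1611936177) (nat_lit 230) (nat_lit 1) (nat_lit 229) (nat_lit 1) (nat_lit 237) (nat_lit 1) (nat_lit 382) (nat_lit 415) (nat_lit 343)))) (XT.nd (nat_lit 156) (nat_lit 988) (nat_lit 0) (XT.nd (nat_lit 78) (nat_lit 0) (nat_lit 0) (XT.lf (nat_lit 532) (nat_lit 2325934109) (nat_lit 0) (nat_lit 971729000) (nat_lit 456) (nat_lit 971729000) (nat_lit 230) (nat_lit 1) (nat_lit 223) (nat_lit 1) (nat_lit 229) (nat_lit 1) (nat_lit 383)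 (nat_lit 415) (nat_lit 342)) (XT.lf (nat_lit 76) (nat_lit 715099479) (nat_lit 0) (nat_lit 2805837653) (nat_lit 532) (nat_lit 715099479) (nat_lit 224) (nat_lit 1) (nat_lit 223) (nat_lit 1) (nat_lit 230) (nat_lit 1) (nat_lit 384) (nat_lit 415) (nat_lit 341))) (XT.nd (nat_lit 78) (nat_lit 532) (nat_lit 0) (XT.lf (nat_lit 532) (nat_lit 533567784) (nat_lit 0) (nat_lit 1834702703) (nat_lit 456) (nat_lit 1834702703) (nat_lit 224) (nat_lit 1) (nat_lit 217) (nat_lit 1) (nat_lit 223) (nat_lit 1) (nat_lit 385) (nat_lit 415) (nat_lit 340)) (XT.nd (nat_lit 78) (nat_lit 0) (nat_lit 0) (XT.lf (nat_lit 532) (nat_lit 3823678051) (nat_lit 0) (nat_lit 173359895) (nat_lit 456) (nat_lit 173359895) (nat_lit 217) (nat_lit 1) (nat_lit 210) (nat_lit 1) (nat_lit 216) (nat_lit 1) (nat_lit 386) (nat_lit 415) (nat_lit 339)) (XT.lf (nat_lit 76) (nat_lit 1455092363) (nat_lit 0) (nat_lit 1227712054) (nat_lit 532) (nat_lit 1455092363) (nat_lit 211) (nat_lit 1) (nat_lit 210) (nat_lit 1) (nat_lit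 217) (nat_lit 1) (nat_lit 387) (nat_lit 415) (nat_lit 338)))))) (XT.nd (nat_lit 312) (nat_lit 1216) (nat_lit 0) (XT.nd (nat_lit 156) (nat_lit 912) (nat_lit 0) (XT.nd (nat_lit 78) (nat_lit 0) (nat_lit 0) (XT.lf (nat_lit 532) (nat_lit 2006525983) (nat_lit 0) (nat_lit 1049674319) (nat_lit 456) (nat_lit 1049674319) (nat_lit 211) (nat_lit 1) (nat_lit 204) (nat_lit 1) (nat_lit 210) (nat_lit 1) (nat_lit 388) (nat_lit 415) (nat_lit 337)) (XT.lf (nat_lit 76) (nat_lit 553648893) (nat_lit 0) (nat_lit 2966922007) (nat_lit 532) (nat_lit 553648893) (nat_lit 205) (nat_lit 1) (nat_lit 204) (nat_lit 1) (nat_lit 211) (nat_lit 1) (nat_lit 389) (nat_lit 415) (nat_lit 336))) (XT.nd (nat_lit 78) (nat_lit 532) (nat_lit 0) (XT.lf (nat_lit 456) (nat_lit 206182292) (nat_lit 0) (nat_lit 1918310314) (nat_lit 380) (nat_lit 1918310314) (nat_lit 205) (nat_lit 1) (nat_lit 199) (nat_lit 1) (nat_lit 204) (nat_lit 1) (nat_lit 390) (nat_lit 415) (nat_lit 335)) (XT.lf (nat_lit 532) (nat_lit 3337633407)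 (nat_lit 0) (nat_lit 337082523) (nat_lit 456) (nat_lit 337082523) (nat_lit 199) (nat_lit 1) (nat_lit 192) (nat_lit 1) (nat_lit 198) (nat_lit 1) (nat_lit 391) (nat_lit 415) (nat_lit 334)))) (XT.nd (nat_lit 156) (nat_lit 836) (nat_lit 0) (XT.nd (nat_lit 78) (nat_lit 380) (nat_lit 0) (XT.lf (nat_lit 76) (nat_lit 1212336279) (nat_lit 0) (nat_lit 1556269708) (nat_lit 532) (nat_lit 1212336279) (nat_lit 193) (nat_lit 1) (nat_lit 192) (nat_lit 1) (nat_lit 199) (nat_lit 1) (nat_lit 392) (nat_lit 415) (nat_lit 333)) (XT.lf (nat_lit 456) (nat_lit 1519374288) (nat_lit 0) (nat_lit 1215558029) (nat_lit 380) (nat_lit 1215558029) (nat_lit 193) (nat_lit 1) (nat_lit 187) (nat_lit 1) (nat_lit 192) (nat_lit 1) (nat_lit 393) (nat_lit 415) (nat_lit 332))) (XT.nd (nat_lit 78) (nat_lit 836) (nat_lit 0) (XT.lf (nat_lit 76) (nat_lit 310882441) (nat_lit 0) (nat_lit 3298673344) (nat_lit 456) (nat_lit 310882441) (nat_lit 188) (nat_lit 1) (nat_lit 187) (nat_lit 1) (nat_lit 193) (nat_lit 1)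 (nat_lit 394) (nat_lit 415) (nat_lit 331)) (XT.nd (nat_lit 78) (nat_lit 380) (nat_lit 0) (XT.lf (nat_lit 76) (nat_lit 1807119446) (nat_lit 0) (nat_lit 276274594) (nat_lit 456) (nat_lit 1807119446) (nat_lit 182) (nat_lit 1) (nat_lit 181) (nat_lit 1) (nat_lit 187) (nat_lit 1) (nat_lit 395) (nat_lit 415) (nat_lit 330)) (XT.lf (nat_lit 456) (nat_lit 2706503967) (nat_lit 0) (nat_lit 577238529) (nat_lit 380) (nat_lit 577238529) (nat_lit 182) (nat_lit 1) (nat_lit 176) (nat_lit 1) (nat_lit 181) (nat_lit 1) (nat_lit 396) (nat_lit 415) (nat_lit 329))))))))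
noncomputable def ec93 : XT := (XT.nd (nat_lit 53274) (nat_lit 0) (nat_lit 24244) (XT.nd (nat_lit 702) (nat_lit 988) (nat_lit 0) (XT.nd (nat_lit 312) (nat_lit 1140) (nat_lit 0) (XT.nd (nat_lit 156) (nat_lit 380) (nat_lit 0) (XT.nd (nat_lit 78) (nat_lit 380) (nat_lit 0) (XT.lf (nat_lit 76) (nat_lit 899321949) (nat_lit 0) (nat_lit 2033032285) (nat_lit 456) (nat_lit 899321949) (nat_lit 177) (nat_lit 1) (nat_lit 176) (nat_lit 1) (nat_lit 182) (nat_lit 1) (nat_lit 397) (nat_lit 415) (nat_lit 328)) (XT.lf (nat_lit 456) (nat_lit 895209795) (nat_lit 0) (nat_lit 1453736946) (nat_lit 380) (nat_lit 1453736946) (nat_lit 177) (nat_lit 1) (nat_lit 171) (nat_lit 1) (nat_lit 176) (nat_lit 1) (nat_lit 398) (nat_lit 415) (nat_lit 327))) (XT.nd (nat_lit 78) (nat_lit 380) (nat_lit 0) (XT.lf (nat_lit 76) (nat_lit 1780772) (nat_lit 0) (nat_lit 3770581882) (nat_lit 456) (nat_lit 1780772) (nat_lit 172) (nat_lit 1) (nat_lit 171) (nat_lit 1) (nat_lit 177) (nat_lit 1) (nat_lit 399) (nat_lit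 415) (nat_lit 326)) (XT.lf (nat_lit 76) (nat_lit 1430946849) (nat_lit 0) (nat_lit 883666406) (nat_lit 380) (nat_lit 1430946849) (nat_lit 167) (nat_lit 1) (nat_lit 166) (nat_lit 1) (nat_lit 171) (nat_lit 1) (nat_lit 400) (nat_lit 415) (nat_lit 325)))) (XT.nd (nat_lit 156) (nat_lit 760) (nat_lit 0) (XT.nd (nat_lit 78) (nat_lit 0) (nat_lit 0) (XT.lf (nat_lit 456) (nat_lit 1958247978) (nat_lit 0) (nat_lit 879587180) (nat_lit 380) (nat_lit 879587180) (nat_lit 167) (nat_lit 1) (nat_lit 161) (nat_lit 1) (nat_lit 166) (nat_lit 1) (nat_lit 401) (nat_lit 415) (nat_lit 324)) (XT.lf (nat_lit 76) (nat_lit 529676135) (nat_lit 0) (nat_lit 2630229737) (nat_lit 456) (nat_lit 529676135) (nat_lit 162) (nat_lit 1) (nat_lit 161) (nat_lit 1) (nat_lit 167) (nat_lit 1) (nat_lit 402) (nat_lit 415) (nat_lit 323))) (XT.nd (nat_lit 78) (nat_lit 456) (nat_lit 0) (XT.lf (nat_lit 380) (nat_lit 160777827) (nat_lit 0) (nat_lit 1750585221) (nat_lit 304) (nat_lit 1750585221) (nat_lit 162) (nat_lit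 1) (nat_lit 157) (nat_lit 1) (nat_lit 161) (nat_lit 1) (nat_lit 403) (nat_lit 415) (nat_lit 322)) (XT.nd (nat_lit 78) (nat_lit 0) (nat_lit 0) (XT.lf (nat_lit 456) (nat_lit 2918150305) (nat_lit 0) (nat_lit 358248624) (nat_lit 380) (nat_lit 358248624) (nat_lit 157) (nat_lit 1) (nat_lit 151) (nat_lit 1) (nat_lit 156) (nat_lit 1) (nat_lit 404) (nat_lit 415) (nat_lit 321)) (XT.lf (nat_lit 76) (nat_lit 1007016304) (nat_lit 0) (nat_lit 1593450135) (nat_lit 456) (nat_lit 1007016304) (nat_lit 152) (nat_lit 1) (nat_lit 151) (nat_lit 1) (nat_lit 157) (nat_lit 1) (nat_lit 405) (nat_lit 415) (nat_lit 320)))))) (XT.nd (nat_lit 312) (nat_lit 0) (nat_lit 0) (XT.nd (nat_lit 156) (nat_lit 684) (nat_lit 0) (XT.nd (nat_lit 78) (nat_lit 0) (nat_lit 0) (XT.lf (nat_lit 380) (nat_lit 1117159486) (nat_lit 0) (nat_lit 1231742769) (nat_lit 304) (nat_lit 1231742769) (nat_lit 152) (nat_lit 1) (nat_lit 147) (nat_lit 1) (nat_lit 151) (nat_lit 1) (nat_lit 406) (nat_lit 415) (nat_lit 319)) (XT.lf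 (nat_lit 76) (nat_lit 115236852) (nat_lit 0) (nat_lit 3323714764) (nat_lit 380) (nat_lit 115236852) (nat_lit 148) (nat_lit 1) (nat_lit 147) (nat_lit 1) (nat_lit 152) (nat_lit 1) (nat_lit 407) (nat_lit 415) (nat_lit 318))) (XT.nd (nat_lit 78) (nat_lit 304) (nat_lit 0) (XT.lf (nat_lit 76) (nat_lit 1437854298) (nat_lit 0) (nat_lit 652027523) (nat_lit 380) (nat_lit 1437854298) (nat_lit 143) (nat_lit 1) (nat_lit 142) (nat_lit 1) (nat_lit 147) (nat_lit 1) (nat_lit 408) (nat_lit 415) (nat_lit 317)) (XT.lf (nat_lit 380) (nat_lit 1981715648) (nat_lit 0) (nat_lit 759971903) (nat_lit 304) (nat_lit 759971903) (nat_lit 143) (nat_lit 1) (nat_lit 138) (nat_lit 1) (nat_lit 142) (nat_lit 1) (nat_lit 409) (nat_lit 415) (nat_lit 316)))) (XT.nd (nat_lit 52026) (nat_lit 0) (nat_lit 27588) (XT.nd (nat_lit 51948) (nat_lit 0) (nat_lit 27512) (XT.lf (nat_lit 76) (nat_lit 546064014) (nat_lit 0) (nat_lit 2383708736) (nat_lit 380) (nat_lit 546064014) (nat_lit 139) (nat_lit 1) (nat_lit 138)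 (nat_lit 1) (nat_lit 143) (nat_lit 1) (nat_lit 410) (nat_lit 415) (nat_lit 315)) (XT.lf (nat_lit 1900) (nat_lit 4518674608) (nat_lit 76) (nat_lit 1605856417) (nat_lit 0) (nat_lit 1605856417) (nat_lit 525) (nat_lit 1) (nat_lit 501) (nat_lit 1) (nat_lit 500) (nat_lit 1) (nat_lit 315) (nat_lit 416) (nat_lit 409))) (XT.nd (nat_lit 78) (nat_lit 0) (nat_lit 0) (XT.lf (nat_lit 1900) (nat_lit 2142156092) (nat_lit 0) (nat_lit 3371744755) (nat_lit 1824) (nat_lit 2142156092) (nat_lit 526) (nat_lit 1) (nat_lit 501) (nat_lit 1) (nat_lit 525) (nat_lit 1) (nat_lit 316) (nat_lit 416) (nat_lit 408)) (XT.nd (nat_lit 78) (nat_lit 0) (nat_lit 76) (XT.lf (nat_lit 1900) (nat_lit 4032362569) (nat_lit 76) (nat_lit 1775193188) (nat_lit 0) (nat_lit 1775193188) (nat_lit 526) (nat_lit 1) (nat_lit 502) (nat_lit 1) (nat_lit 501) (nat_lit 1) (nat_lit 317) (nat_lit 416) (nat_lit 407)) (XT.lf (nat_lit 1900) (nat_lit 1879324378) (nat_lit 0) (nat_lit 3751705993) (nat_lit 1824) (nat_lit 1879324378)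 (nat_lit 527) (nat_lit 1) (nat_lit 502) (nat_lit 1) (nat_lit 526) (nat_lit 1) (nat_lit 318) (nat_lit 416) (nat_lit 406))))))) (XT.nd (nat_lit 702) (nat_lit 3420) (nat_lit 0) (XT.nd (nat_lit 312) (nat_lit 0) (nat_lit 152) (XT.nd (nat_lit 156) (nat_lit 0) (nat_lit 76) (XT.nd (nat_lit 78) (nat_lit 0) (nat_lit 76) (XT.lf (nat_lit 1900) (nat_lit 3465619604) (nat_lit 76) (nat_lit 1986638238) (nat_lit 0) (nat_lit 1986638238) (nat_lit 527) (nat_lit 1) (nat_lit 503) (nat_lit 1) (nat_lit 502) (nat_lit 1) (nat_lit 319) (nat_lit 416) (nat_lit 405)) (XT.lf (nat_lit 1900) (nat_lit 1577692499) (nat_lit 0) (nat_lit 4213003540) (nat_lit 1824) (nat_lit 1577692499) (nat_lit 528) (nat_lit 1) (nat_lit 503) (nat_lit 1) (nat_lit 527) (nat_lit 1) (nat_lit 320) (nat_lit 416) (nat_lit 404))) (XT.nd (nat_lit 78) (nat_lit 0) (nat_lit 76) (XT.lf (nat_lit 1900) (nat_lit 2823516295) (nat_lit 76) (nat_lit 2237601865) (nat_lit 0) (nat_lit 2237601865) (nat_lit 528) (nat_lit 1) (nat_lit 504) (nat_lit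 1) (nat_lit 503) (nat_lit 1) (nat_lit 321) (nat_lit 416) (nat_lit 403)) (XT.lf (nat_lit 1900) (nat_lit 1239728019) (nat_lit 0) (nat_lit 4750594880) (nat_lit 1824) (nat_lit 1239728019) (nat_lit 529) (nat_lit 1) (nat_lit 504) (nat_lit 1) (nat_lit 528) (nat_lit 1) (nat_lit 322) (nat_lit 416) (nat_lit 402)))) (XT.nd (nat_lit 156) (nat_lit 0) (nat_lit 76) (XT.nd (nat_lit 78) (nat_lit 0) (nat_lit 76) (XT.lf (nat_lit 1900) (nat_lit 2110888147) (nat_lit 76) (nat_lit 2525613648) (nat_lit 0) (nat_lit 2525613648) (nat_lit 529) (nat_lit 1) (nat_lit 505) (nat_lit 1) (nat_lit 504) (nat_lit 1) (nat_lit 323) (nat_lit 416) (nat_lit 401)) (XT.lf (nat_lit 1900) (nat_lit 867783843) (nat_lit 0) (nat_lit 5359670244) (nat_lit 1824) (nat_lit 867783843) (nat_lit 530) (nat_lit 1) (nat_lit 505) (nat_lit 1) (nat_lit 529) (nat_lit 1) (nat_lit 324) (nat_lit 416) (nat_lit 400))) (XT.nd (nat_lit 78) (nat_lit 0) (nat_lit 76) (XT.lf (nat_lit 1900) (nat_lit 1332345461) (nat_lit 76) (nat_lit 2848317443)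 (nat_lit 0) (nat_lit 2848317443) (nat_lit 530) (nat_lit 1) (nat_lit 506) (nat_lit 1) (nat_lit 505) (nat_lit 1) (nat_lit 325) (nat_lit 416) (nat_lit 399)) (XT.nd (nat_lit 78) (nat_lit 0) (nat_lit 0) (XT.lf (nat_lit 1900) (nat_lit 464103037) (nat_lit 0) (nat_lit 6035642852) (nat_lit 1824) (nat_lit 464103037) (nat_lit 531) (nat_lit 1) (nat_lit 506) (nat_lit 1) (nat_lit 530) (nat_lit 1) (nat_lit 326) (nat_lit 416) (nat_lit 398)) (XT.lf (nat_lit 1900) (nat_lit 492282813) (nat_lit 76) (nat_lit 3203466593) (nat_lit 0) (nat_lit 3203466593) (nat_lit 531) (nat_lit 1) (nat_lit 507) (nat_lit 1) (nat_lit 506) (nat_lit 1) (nat_lit 327) (nat_lit 416) (nat_lit 397)))))) (XT.nd (nat_lit 312) (nat_lit 1900) (nat_lit 0) (XT.nd (nat_lit 156) (nat_lit 0) (nat_lit 0) (XT.nd (nat_lit 78) (nat_lit 1900) (nat_lit 0) (XT.lf (nat_lit 1900) (nat_lit 30823457) (nat_lit 0) (nat_lit 6774139544) (nat_lit 1824) (nat_lit 30823457) (nat_lit 532) (nat_lit 1) (nat_lit 507) (nat_lit 1) (nat_lit 531)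 (nat_lit 1) (nat_lit 328) (nat_lit 416) (nat_lit 396)) (XT.lf (nat_lit 1976) (nat_lit 3186437720) (nat_lit 0) (nat_lit 399798734) (nat_lit 1900) (nat_lit 3186437720) (nat_lit 508) (nat_lit 1) (nat_lit 482) (nat_lit 1) (nat_lit 507) (nat_lit 1) (nat_lit 329) (nat_lit 416) (nat_lit 395))) (XT.nd (nat_lit 78) (nat_lit 0) (nat_lit 76) (XT.lf (nat_lit 1976) (nat_lit 5856354571) (nat_lit 76) (nat_lit 427188745) (nat_lit 0) (nat_lit 427188745) (nat_lit 508) (nat_lit 1) (nat_lit 483) (nat_lit 1) (nat_lit 482) (nat_lit 1) (nat_lit 330) (nat_lit 416) (nat_lit 394)) (XT.lf (nat_lit 1976) (nat_lit 2655588878) (nat_lit 0) (nat_lit 1338066278) (nat_lit 1900) (nat_lit 2655588878) (nat_lit 509) (nat_lit 1) (nat_lit 483) (nat_lit 1) (nat_lit 508) (nat_lit 1) (nat_lit 331) (nat_lit 416) (nat_lit 393)))) (XT.nd (nat_lit 156) (nat_lit 1976) (nat_lit 0) (XT.nd (nat_lit 78) (nat_lit 0) (nat_lit 76) (XT.lf (nat_lit 1976) (nat_lit 4767887616) (nat_lit 76) (nat_lit 910450714) (nat_lit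 0) (nat_lit 910450714) (nat_lit 509) (nat_lit 1) (nat_lit 484) (nat_lit 1) (nat_lit 483) (nat_lit 1) (nat_lit 332) (nat_lit 416) (nat_lit 392)) (XT.lf (nat_lit 76) (nat_lit 2101837404) (nat_lit 0) (nat_lit 2325225513) (nat_lit 1900) (nat_lit 2101837404) (nat_lit 485) (nat_lit 1) (nat_lit 484) (nat_lit 1) (nat_lit 509) (nat_lit 1) (nat_lit 333) (nat_lit 416) (nat_lit 391))) (XT.nd (nat_lit 78) (nat_lit 912) (nat_lit 0) (XT.lf (nat_lit 1216) (nat_lit 3635227462) (nat_lit 0) (nat_lit 1417329237) (nat_lit 1140) (nat_lit 1417329237) (nat_lit 485) (nat_lit 1) (nat_lit 469) (nat_lit 1) (nat_lit 484) (nat_lit 1) (nat_lit 334) (nat_lit 416) (nat_lit 390)) (XT.nd (nat_lit 78) (nat_lit 912) (nat_lit 0) (XT.lf (nat_lit 76) (nat_lit 1526925893) (nat_lit 0) (nat_lit 3357704862) (nat_lit 1216) (nat_lit 1526925893) (nat_lit 470) (nat_lit 1) (nat_lit 469) (nat_lit 1) (nat_lit 485) (nat_lit 1) (nat_lit 335) (nat_lit 416) (nat_lit 389)) (XT.lf (nat_lit 988) (nat_lit 2461785471)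 (nat_lit 0) (nat_lit 1946076231) (nat_lit 912) (nat_lit 1946076231) (nat_lit 470) (nat_lit 1) (nat_lit 457) (nat_lit 1) (nat_lit 469) (nat_lit 1) (nat_lit 336) (nat_lit 416) (nat_lit 388))))))))
noncomputable def ec94 : XT := (XT.nd (nat_lit 1404) (nat_lit 6384) (nat_lit 0) (XT.nd (nat_lit 702) (nat_lit 3800) (nat_lit 0) (XT.nd (nat_lit 312) (nat_lit 2660) (nat_lit 0) (XT.nd (nat_lit 156) (nat_lit 836) (nat_lit 0) (XT.nd (nat_lit 78) (nat_lit 912) (nat_lit 0) (XT.lf (nat_lit 76) (nat_lit 932512542) (nat_lit 0) (nat_lit 4432104240) (nat_lit 988) (nat_lit 932512542) (nat_lit 458) (nat_lit 1) (nat_lit 457) (nat_lit 1) (nat_lit 470) (nat_lit 1) (nat_lit 337) (nat_lit 416) (nat_lit 387)) (XT.lf (nat_lit 988) (nat_lit 1250807301) (nat_lit 0) (nat_lit 2495027786) (nat_lit 912) (nat_lit 2495027786) (nat_lit 458) (nat_lit 1) (nat_lit 445) (nat_lit 1) (nat_lit 457) (nat_lit 1) (nat_lit 338) (nat_lit 416) (nat_lit 386))) (XT.nd (nat_lit 78) (nat_lit 836) (nat_lit 0) (XT.lf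 (nat_lit 76) (nat_lit 320174755) (nat_lit 0) (nat_lit 5545187754) (nat_lit 988) (nat_lit 320174755) (nat_lit 446) (nat_lit 1) (nat_lit 445) (nat_lit 1) (nat_lit 458) (nat_lit 1) (nat_lit 339) (nat_lit 416) (nat_lit 385)) (XT.lf (nat_lit 912) (nat_lit 5379984) (nat_lit 0) (nat_lit 3062600582) (nat_lit 836) (nat_lit 3062600582) (nat_lit 446) (nat_lit 1) (nat_lit 434) (nat_lit 1) (nat_lit 445) (nat_lit 1) (nat_lit 340) (nat_lit 416) (nat_lit 384)))) (XT.nd (nat_lit 156) (nat_lit 1672) (nat_lit 0) (XT.nd (nat_lit 78) (nat_lit 0) (nat_lit 0) (XT.lf (nat_lit 988) (nat_lit 5463426655) (nat_lit 0) (nat_lit 306557214) (nat_lit 912) (nat_lit 306557214) (nat_lit 434) (nat_lit 1) (nat_lit 421) (nat_lit 1) (nat_lit 433) (nat_lit 1) (nat_lit 341) (nat_lit 416) (nat_lit 383)) (XT.lf (nat_lit 76) (nat_lit 2383982992) (nat_lit 0) (nat_lit 1254884514) (nat_lit 988) (nat_lit 2383982992) (nat_lit 422) (nat_lit 1) (nat_lit 421) (nat_lit 1) (nat_lit 434) (nat_lit 1) (nat_lit 342)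 (nat_lit 416) (nat_lit 382))) (XT.nd (nat_lit 78) (nat_lit 836) (nat_lit 0) (XT.lf (nat_lit 912) (nat_lit 4077885977) (nat_lit 0) (nat_lit 946082406) (nat_lit 836) (nat_lit 946082406) (nat_lit 422) (nat_lit 1) (nat_lit 410) (nat_lit 1) (nat_lit 421) (nat_lit 1) (nat_lit 343) (nat_lit 416) (nat_lit 381)) (XT.nd (nat_lit 78) (nat_lit 836) (nat_lit 0) (XT.lf (nat_lit 76) (nat_lit 1687165542) (nat_lit 0) (nat_lit 2543425759) (nat_lit 912) (nat_lit 1687165542) (nat_lit 411) (nat_lit 1) (nat_lit 410) (nat_lit 1) (nat_lit 422) (nat_lit 1) (nat_lit 344) (nat_lit 416) (nat_lit 380)) (XT.lf (nat_lit 912) (nat_lit 2667838320) (nat_lit 0) (nat_lit 1599160924) (nat_lit 836) (nat_lit 1599160924) (nat_lit 411) (nat_lit 1) (nat_lit 399) (nat_lit 1) (nat_lit 410) (nat_lit 1) (nat_lit 345) (nat_lit 416) (nat_lit 379)))))) (XT.nd (nat_lit 312) (nat_lit 2204) (nat_lit 0) (XT.nd (nat_lit 156) (nat_lit 836) (nat_lit 0) (XT.nd (nat_lit 78) (nat_lit 760) (nat_lit 0) (XT.lf (nat_lit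 76) (nat_lit 978765276) (nat_lit 0) (nat_lit 3857698215) (nat_lit 912) (nat_lit 978765276) (nat_lit 400) (nat_lit 1) (nat_lit 399) (nat_lit 1) (nat_lit 411) (nat_lit 1) (nat_lit 346) (nat_lit 416) (nat_lit 378)) (XT.lf (nat_lit 836) (nat_lit 1235770795) (nat_lit 0) (nat_lit 2264513793) (nat_lit 760) (nat_lit 2264513793) (nat_lit 400) (nat_lit 1) (nat_lit 389) (nat_lit 1) (nat_lit 399) (nat_lit 1) (nat_lit 347) (nat_lit 416) (nat_lit 377))) (XT.nd (nat_lit 78) (nat_lit 836) (nat_lit 0) (XT.lf (nat_lit 76) (nat_lit 259989638) (nat_lit 0) (nat_lit 5195217081) (nat_lit 836) (nat_lit 259989638) (nat_lit 390) (nat_lit 1) (nat_lit 389) (nat_lit 1) (nat_lit 400) (nat_lit 1) (nat_lit 348) (nat_lit 416) (nat_lit 376)) (XT.lf (nat_lit 76) (nat_lit 2726372416) (nat_lit 0) (nat_lit 213123869) (nat_lit 836) (nat_lit 2726372416) (nat_lit 379) (nat_lit 1) (nat_lit 378) (nat_lit 1) (nat_lit 389) (nat_lit 1) (nat_lit 349) (nat_lit 416) (nat_lit 375)))) (XT.nd (nat_lit 156) (nat_lit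 1444) (nat_lit 0) (XT.nd (nat_lit 78) (nat_lit 0) (nat_lit 0) (XT.lf (nat_lit 836) (nat_lit 4687474681) (nat_lit 0) (nat_lit 464936621) (nat_lit 760) (nat_lit 464936621) (nat_lit 379) (nat_lit 1) (nat_lit 368) (nat_lit 1) (nat_lit 378) (nat_lit 1) (nat_lit 350) (nat_lit 416) (nat_lit 374)) (XT.lf (nat_lit 76) (nat_lit 1953083474) (nat_lit 0) (nat_lit 1663002901) (nat_lit 836) (nat_lit 1953083474) (nat_lit 369) (nat_lit 1) (nat_lit 368) (nat_lit 1) (nat_lit 379) (nat_lit 1) (nat_lit 351) (nat_lit 416) (nat_lit 373))) (XT.nd (nat_lit 78) (nat_lit 684) (nat_lit 0) (XT.lf (nat_lit 836) (nat_lit 3129238167) (nat_lit 0) (nat_lit 1196241875) (nat_lit 760) (nat_lit 1196241875) (nat_lit 369) (nat_lit 1) (nat_lit 358) (nat_lit 1) (nat_lit 368) (nat_lit 1) (nat_lit 352) (nat_lit 416) (nat_lit 372)) (XT.nd (nat_lit 78) (nat_lit 684) (nat_lit 0) (XT.lf (nat_lit 76) (nat_lit 1173409925) (nat_lit 0) (nat_lit 3127978145) (nat_lit 836) (nat_lit 1173409925) (nat_lit 359) (nat_lit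 1) (nat_lit 358) (nat_lit 1) (nat_lit 369) (nat_lit 1) (nat_lit 353) (nat_lit 416) (nat_lit 371)) (XT.lf (nat_lit 760) (nat_lit 1559164268) (nat_lit 0) (nat_lit 1934613189) (nat_lit 684) (nat_lit 1934613189) (nat_lit 359) (nat_lit 1) (nat_lit 349) (nat_lit 1) (nat_lit 358) (nat_lit 1) (nat_lit 354) (nat_lit 416) (nat_lit 370))))))) (XT.nd (nat_lit 702) (nat_lit 2964) (nat_lit 0) (XT.nd (nat_lit 312) (nat_lit 1976) (nat_lit 0) (XT.nd (nat_lit 156) (nat_lit 684) (nat_lit 0) (XT.nd (nat_lit 78) (nat_lit 760) (nat_lit 0) (XT.lf (nat_lit 76) (nat_lit 388313660) (nat_lit 0) (nat_lit 4606063461) (nat_lit 760) (nat_lit 388313660) (nat_lit 350) (nat_lit 1) (nat_lit 349) (nat_lit 1) (nat_lit 359) (nat_lit 1) (nat_lit 355) (nat_lit 416) (nat_lit 369)) (XT.lf (nat_lit 76) (nat_lit 2658347494) (nat_lit 0) (nat_lit 20595116) (nat_lit 760) (nat_lit 2658347494) (nat_lit 340) (nat_lit 1) (nat_lit 339) (nat_lit 1) (nat_lit 349) (nat_lit 1) (nat_lit 356) (nat_lit 416) (nat_lit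 368))) (XT.nd (nat_lit 78) (nat_lit 0) (nat_lit 0) (XT.lf (nat_lit 760) (nat_lit 4495269205) (nat_lit 0) (nat_lit 398654685) (nat_lit 684) (nat_lit 398654685) (nat_lit 340) (nat_lit 1) (nat_lit 330) (nat_lit 1) (nat_lit 339) (nat_lit 1) (nat_lit 357) (nat_lit 416) (nat_lit 367)) (XT.lf (nat_lit 76) (nat_lit 1830089907) (nat_lit 0) (nat_lit 1587980205) (nat_lit 760) (nat_lit 1830089907) (nat_lit 331) (nat_lit 1) (nat_lit 330) (nat_lit 1) (nat_lit 340) (nat_lit 1) (nat_lit 358) (nat_lit 416) (nat_lit 366)))) (XT.nd (nat_lit 156) (nat_lit 1292) (nat_lit 0) (XT.nd (nat_lit 78) (nat_lit 0) (nat_lit 0) (XT.lf (nat_lit 760) (nat_lit 2831017488) (nat_lit 0) (nat_lit 1186695039) (nat_lit 684) (nat_lit 1186695039) (nat_lit 331) (nat_lit 1) (nat_lit 321) (nat_lit 1) (nat_lit 330) (nat_lit 1) (nat_lit 359) (nat_lit 416) (nat_lit 365)) (XT.lf (nat_lit 76) (nat_lit 999682393) (nat_lit 0) (nat_lit 3161780603) (nat_lit 760) (nat_lit 999682393) (nat_lit 322) (nat_lit 1) (nat_lit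 321) (nat_lit 1) (nat_lit 331) (nat_lit 1) (nat_lit 360) (nat_lit 416) (nat_lit 364))) (XT.nd (nat_lit 78) (nat_lit 684) (nat_lit 0) (XT.lf (nat_lit 684) (nat_lit 1163217812) (nat_lit 0) (nat_lit 1977552905) (nat_lit 608) (nat_lit 1977552905) (nat_lit 322) (nat_lit 1) (nat_lit 313) (nat_lit 1) (nat_lit 321) (nat_lit 1) (nat_lit 361) (nat_lit 416) (nat_lit 363)) (XT.nd (nat_lit 78) (nat_lit 684) (nat_lit 0) (XT.lf (nat_lit 76) (nat_lit 167881223) (nat_lit 0) (nat_lit 4740428005) (nat_lit 684) (nat_lit 167881223) (nat_lit 314) (nat_lit 1) (nat_lit 313) (nat_lit 1) (nat_lit 322) (nat_lit 1) (nat_lit 362) (nat_lit 416) (nat_lit 362)) (XT.lf (nat_lit 76) (nat_lit 2267097833) (nat_lit 0) (nat_lit 500010453) (nat_lit 684) (nat_lit 2267097833) (nat_lit 305) (nat_lit 1) (nat_lit 304) (nat_lit 1) (nat_lit 313) (nat_lit 1) (nat_lit 363) (nat_lit 416) (nat_lit 361)))))) (XT.nd (nat_lit 312) (nat_lit 1748) (nat_lit 0) (XT.nd (nat_lit 156) (nat_lit 608) (nat_lit 0) (XT.nd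 (nat_lit 78) (nat_lit 0) (nat_lit 0) (XT.lf (nat_lit 684) (nat_lit 3672439690) (nat_lit 0) (nat_lit 660227520) (nat_lit 608) (nat_lit 660227520) (nat_lit 305) (nat_lit 1) (nat_lit 296) (nat_lit 1) (nat_lit 304) (nat_lit 1) (nat_lit 364) (nat_lit 416) (nat_lit 360)) (XT.lf (nat_lit 76) (nat_lit 1401630049) (nat_lit 0) (nat_lit 2148656394) (nat_lit 684) (nat_lit 1401630049) (nat_lit 297) (nat_lit 1) (nat_lit 296) (nat_lit 1) (nat_lit 305) (nat_lit 1) (nat_lit 365) (nat_lit 416) (nat_lit 359))) (XT.nd (nat_lit 78) (nat_lit 0) (nat_lit 0) (XT.lf (nat_lit 684) (nat_lit 1936987346) (nat_lit 0) (nat_lit 1487238614) (nat_lit 608) (nat_lit 1487238614) (nat_lit 297) (nat_lit 1) (nat_lit 288) (nat_lit 1) (nat_lit 296) (nat_lit 1) (nat_lit 366) (nat_lit 416) (nat_lit 358)) (XT.lf (nat_lit 76) (nat_lit 537436301) (nat_lit 0) (nat_lit 3796681704) (nat_lit 684) (nat_lit 537436301) (nat_lit 289) (nat_lit 1) (nat_lit 288) (nat_lit 1) (nat_lit 297) (nat_lit 1) (nat_lit 367) (nat_lit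 416) (nat_lit 357)))) (XT.nd (nat_lit 156) (nat_lit 532) (nat_lit 0) (XT.nd (nat_lit 78) (nat_lit 684) (nat_lit 0) (XT.lf (nat_lit 608) (nat_lit 204683902) (nat_lit 0) (nat_lit 2313626462) (nat_lit 532) (nat_lit 2313626462) (nat_lit 289) (nat_lit 1) (nat_lit 281) (nat_lit 1) (nat_lit 288) (nat_lit 1) (nat_lit 368) (nat_lit 416) (nat_lit 356)) (XT.lf (nat_lit 684) (nat_lit 4147377444) (nat_lit 0) (nat_lit 322761406) (nat_lit 608) (nat_lit 322761406) (nat_lit 281) (nat_lit 1) (nat_lit 272) (nat_lit 1) (nat_lit 280) (nat_lit 1) (nat_lit 369) (nat_lit 416) (nat_lit 355))) (XT.nd (nat_lit 78) (nat_lit 532) (nat_lit 0) (XT.lf (nat_lit 76) (nat_lit 1625354999) (nat_lit 0) (nat_lit 1503354503) (nat_lit 684) (nat_lit 1625354999) (nat_lit 273) (nat_lit 1) (nat_lit 272) (nat_lit 1) (nat_lit 281) (nat_lit 1) (nat_lit 370) (nat_lit 416) (nat_lit 354)) (XT.nd (nat_lit 78) (nat_lit 0) (nat_lit 0) (XT.lf (nat_lit 608) (nat_lit 2361733777) (nat_lit 0) (nat_lit 1177031261) (nat_lit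 532) (nat_lit 1177031261) (nat_lit 273) (nat_lit 1) (nat_lit 265) (nat_lit 1) (nat_lit 272) (nat_lit 1) (nat_lit 371) (nat_lit 416) (nat_lit 353)) (XT.lf (nat_lit 76) (nat_lit 737273920) (nat_lit 0) (nat_lit 3203423936) (nat_lit 608) (nat_lit 737273920) (nat_lit 266) (nat_lit 1) (nat_lit 265) (nat_lit 1) (nat_lit 273) (nat_lit 1) (nat_lit 372) (nat_lit 416) (nat_lit 352))))))))
noncomputable def ec95 : XT := (XT.nd (nat_lit 1404) (nat_lit 4408) (nat_lit 0) (XT.nd (nat_lit 702) (nat_lit 2356) (nat_lit 0) (XT.nd (nat_lit 312) (nat_lit 1520) (nat_lit 0) (XT.nd (nat_lit 156) (nat_lit 532) (nat_lit 0) (XT.nd (nat_lit 78) (nat_lit 608) (nat_lit 0) (XT.lf (nat_lit 608) (nat_lit 583682551) (nat_lit 0) (nat_lit 2028396561) (nat_lit 532) (nat_lit 2028396561) (nat_lit 266) (nat_lit 1) (nat_lit 258) (nat_lit 1) (nat_lit 265) (nat_lit 1) (nat_lit 373) (nat_lit 416) (nat_lit 351)) (XT.lf (nat_lit 608) (nat_lit 4311913703) (nat_lit 0) (nat_lit 145824395) (nat_lit 532) (nat_lit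 145824395) (nat_lit 258) (nat_lit 1) (nat_lit 250) (nat_lit 1) (nat_lit 257) (nat_lit 1) (nat_lit 374) (nat_lit 416) (nat_lit 350))) (XT.nd (nat_lit 78) (nat_lit 532) (nat_lit 0) (XT.lf (nat_lit 76) (nat_lit 1698215652) (nat_lit 0) (nat_lit 1170307575) (nat_lit 608) (nat_lit 1698215652) (nat_lit 251) (nat_lit 1) (nat_lit 250) (nat_lit 1) (nat_lit 258) (nat_lit 1) (nat_lit 375) (nat_lit 416) (nat_lit 349)) (XT.lf (nat_lit 608) (nat_lit 2491200147) (nat_lit 0) (nat_lit 1019643090) (nat_lit 532) (nat_lit 1019643090) (nat_lit 251) (nat_lit 1) (nat_lit 243) (nat_lit 1) (nat_lit 250) (nat_lit 1) (nat_lit 376) (nat_lit 416) (nat_lit 348)))) (XT.nd (nat_lit 156) (nat_lit 1064) (nat_lit 0) (XT.nd (nat_lit 78) (nat_lit 456) (nat_lit 0) (XT.lf (nat_lit 76) (nat_lit 793610303) (nat_lit 0) (nat_lit 2907400512) (nat_lit 608) (nat_lit 793610303) (nat_lit 244) (nat_lit 1) (nat_lit 243) (nat_lit 1) (nat_lit 251) (nat_lit 1) (nat_lit 377) (nat_lit 416) (nat_lit 347)) (XT.lf (nat_lit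 532) (nat_lit 681838521) (nat_lit 0) (nat_lit 1888622789) (nat_lit 456) (nat_lit 1888622789) (nat_lit 244) (nat_lit 1) (nat_lit 237) (nat_lit 1) (nat_lit 243) (nat_lit 1) (nat_lit 378) (nat_lit 416) (nat_lit 346))) (XT.nd (nat_lit 78) (nat_lit 456) (nat_lit 0) (XT.lf (nat_lit 608) (nat_lit 4215177678) (nat_lit 0) (nat_lit 104461433) (nat_lit 532) (nat_lit 104461433) (nat_lit 237) (nat_lit 1) (nat_lit 229) (nat_lit 1) (nat_lit 236) (nat_lit 1) (nat_lit 379) (nat_lit 416) (nat_lit 345)) (XT.nd (nat_lit 78) (nat_lit 456) (nat_lit 0) (XT.lf (nat_lit 76) (nat_lit 1644174900) (nat_lit 0) (nat_lit 1100818980) (nat_lit 608) (nat_lit 1644174900) (nat_lit 230) (nat_lit 1) (nat_lit 229) (nat_lit 1) (nat_lit 237) (nat_lit 1) (nat_lit 380) (nat_lit 416) (nat_lit 344)) (XT.lf (nat_lit 532) (nat_lit 2372452791) (nat_lit 0) (nat_lit 991163580) (nat_lit 456) (nat_lit 991163580) (nat_lit 230) (nat_lit 1) (nat_lit 223) (nat_lit 1) (nat_lit 229) (nat_lit 1) (nat_lit 381) (nat_lit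 416) (nat_lit 343)))))) (XT.nd (nat_lit 312) (nat_lit 1368) (nat_lit 0) (XT.nd (nat_lit 156) (nat_lit 532) (nat_lit 0) (XT.nd (nat_lit 78) (nat_lit 456) (nat_lit 0) (XT.lf (nat_lit 76) (nat_lit 729401468) (nat_lit 0) (nat_lit 2861954406) (nat_lit 532) (nat_lit 729401468) (nat_lit 224) (nat_lit 1) (nat_lit 223) (nat_lit 1) (nat_lit 230) (nat_lit 1) (nat_lit 382) (nat_lit 416) (nat_lit 342)) (XT.lf (nat_lit 532) (nat_lit 544239139) (nat_lit 0) (nat_lit 1871396757) (nat_lit 456) (nat_lit 1871396757) (nat_lit 224) (nat_lit 1) (nat_lit 217) (nat_lit 1) (nat_lit 223) (nat_lit 1) (nat_lit 383) (nat_lit 416) (nat_lit 341))) (XT.nd (nat_lit 78) (nat_lit 0) (nat_lit 0) (XT.lf (nat_lit 532) (nat_lit 3900151612) (nat_lit 0) (nat_lit 176827093) (nat_lit 456) (nat_lit 176827093) (nat_lit 217) (nat_lit 1) (nat_lit 210) (nat_lit 1) (nat_lit 216) (nat_lit 1) (nat_lit 384) (nat_lit 416) (nat_lit 340)) (XT.lf (nat_lit 76) (nat_lit 1484194210) (nat_lit 0) (nat_lit 1252266295) (nat_lit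 532) (nat_lit 1484194210) (nat_lit 211) (nat_lit 1) (nat_lit 210) (nat_lit 1) (nat_lit 217) (nat_lit 1) (nat_lit 385) (nat_lit 416) (nat_lit 339)))) (XT.nd (nat_lit 156) (nat_lit 912) (nat_lit 0) (XT.nd (nat_lit 78) (nat_lit 0) (nat_lit 0) (XT.lf (nat_lit 532) (nat_lit 2046656503) (nat_lit 0) (nat_lit 1070667805) (nat_lit 456) (nat_lit 1070667805) (nat_lit 211) (nat_lit 1) (nat_lit 204) (nat_lit 1) (nat_lit 210) (nat_lit 1) (nat_lit 386) (nat_lit 416) (nat_lit 338)) (XT.lf (nat_lit 76) (nat_lit 564721871) (nat_lit 0) (nat_lit 3026260448) (nat_lit 532) (nat_lit 564721871) (nat_lit 205) (nat_lit 1) (nat_lit 204) (nat_lit 1) (nat_lit 211) (nat_lit 1) (nat_lit 387) (nat_lit 416) (nat_lit 337))) (XT.nd (nat_lit 78) (nat_lit 532) (nat_lit 0) (XT.lf (nat_lit 456) (nat_lit 210305938) (nat_lit 0) (nat_lit 1956676520) (nat_lit 380) (nat_lit 1956676520) (nat_lit 205) (nat_lit 1) (nat_lit 199) (nat_lit 1) (nat_lit 204) (nat_lit 1) (nat_lit 388) (nat_lit 416) (nat_lit 336))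 (XT.nd (nat_lit 78) (nat_lit 0) (nat_lit 0) (XT.lf (nat_lit 532) (nat_lit 3404386075) (nat_lit 0) (nat_lit 343824173) (nat_lit 456) (nat_lit 343824173) (nat_lit 199) (nat_lit 1) (nat_lit 192) (nat_lit 1) (nat_lit 198) (nat_lit 1) (nat_lit 389) (nat_lit 416) (nat_lit 335)) (XT.lf (nat_lit 76) (nat_lit 1236583005) (nat_lit 0) (nat_lit 1587395102) (nat_lit 532) (nat_lit 1236583005) (nat_lit 193) (nat_lit 1) (nat_lit 192) (nat_lit 1) (nat_lit 199) (nat_lit 1) (nat_lit 390) (nat_lit 416) (nat_lit 334))))))) (XT.nd (nat_lit 702) (nat_lit 2052) (nat_lit 0) (XT.nd (nat_lit 312) (nat_lit 1140) (nat_lit 0) (XT.nd (nat_lit 156) (nat_lit 836) (nat_lit 0) (XT.nd (nat_lit 78) (nat_lit 0) (nat_lit 0) (XT.lf (nat_lit 456) (nat_lit 1549761774) (nat_lit 0) (nat_lit 1239869189) (nat_lit 380) (nat_lit 1239869189) (nat_lit 193) (nat_lit 1) (nat_lit 187) (nat_lit 1) (nat_lit 192) (nat_lit 1) (nat_lit 391) (nat_lit 416) (nat_lit 333)) (XT.lf (nat_lit 76) (nat_lit 317100089) (nat_lit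 0) (nat_lit 3364646811) (nat_lit 456) (nat_lit 317100089) (nat_lit 188) (nat_lit 1) (nat_lit 187) (nat_lit 1) (nat_lit 193) (nat_lit 1) (nat_lit 392) (nat_lit 416) (nat_lit 332))) (XT.nd (nat_lit 78) (nat_lit 380) (nat_lit 0) (XT.lf (nat_lit 76) (nat_lit 1843261835) (nat_lit 0) (nat_lit 281800086) (nat_lit 456) (nat_lit 1843261835) (nat_lit 182) (nat_lit 1) (nat_lit 181) (nat_lit 1) (nat_lit 187) (nat_lit 1) (nat_lit 393) (nat_lit 416) (nat_lit 331)) (XT.lf (nat_lit 456) (nat_lit 2760634046) (nat_lit 0) (nat_lit 588783299) (nat_lit 380) (nat_lit 588783299) (nat_lit 182) (nat_lit 1) (nat_lit 176) (nat_lit 1) (nat_lit 181) (nat_lit 1) (nat_lit 394) (nat_lit 416) (nat_lit 330)))) (XT.nd (nat_lit 156) (nat_lit 760) (nat_lit 0) (XT.nd (nat_lit 78) (nat_lit 380) (nat_lit 0) (XT.lf (nat_lit 76) (nat_lit 917308388) (nat_lit 0) (nat_lit 2073692931) (nat_lit 456) (nat_lit 917308388) (nat_lit 177) (nat_lit 1) (nat_lit 176) (nat_lit 1) (nat_lit 182) (nat_lit 1) (nat_lit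 395) (nat_lit 416) (nat_lit 329)) (XT.lf (nat_lit 456) (nat_lit 913113990) (nat_lit 0) (nat_lit 1482811685) (nat_lit 380) (nat_lit 1482811685) (nat_lit 177) (nat_lit 1) (nat_lit 171) (nat_lit 1) (nat_lit 176) (nat_lit 1) (nat_lit 396) (nat_lit 416) (nat_lit 328))) (XT.nd (nat_lit 78) (nat_lit 760) (nat_lit 0) (XT.lf (nat_lit 76) (nat_lit 1816387) (nat_lit 0) (nat_lit 3845993520) (nat_lit 456) (nat_lit 1816387) (nat_lit 172) (nat_lit 1) (nat_lit 171) (nat_lit 1) (nat_lit 177) (nat_lit 1) (nat_lit 397) (nat_lit 416) (nat_lit 327)) (XT.nd (nat_lit 78) (nat_lit 380) (nat_lit 0) (XT.lf (nat_lit 76) (nat_lit 1459565786) (nat_lit 0) (nat_lit 901339734) (nat_lit 380) (nat_lit 1459565786) (nat_lit 167) (nat_lit 1) (nat_lit 166) (nat_lit 1) (nat_lit 171) (nat_lit 1) (nat_lit 398) (nat_lit 416) (nat_lit 326)) (XT.lf (nat_lit 456) (nat_lit 1997412938) (nat_lit 0) (nat_lit 897178923) (nat_lit 380) (nat_lit 897178923) (nat_lit 167) (nat_lit 1) (nat_lit 161) (nat_lit 1) (nat_lit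 166) (nat_lit 1) (nat_lit 399) (nat_lit 416) (nat_lit 325)))))) (XT.nd (nat_lit 390) (nat_lit 988) (nat_lit 0) (XT.nd (nat_lit 156) (nat_lit 760) (nat_lit 0) (XT.nd (nat_lit 78) (nat_lit 304) (nat_lit 0) (XT.lf (nat_lit 76) (nat_lit 540269658) (nat_lit 0) (nat_lit 2682834332) (nat_lit 456) (nat_lit 540269658) (nat_lit 162) (nat_lit 1) (nat_lit 161) (nat_lit 1) (nat_lit 167) (nat_lit 1) (nat_lit 400) (nat_lit 416) (nat_lit 324)) (XT.lf (nat_lit 380) (nat_lit 163993384) (nat_lit 0) (nat_lit 1785596925) (nat_lit 304) (nat_lit 1785596925) (nat_lit 162) (nat_lit 1) (nat_lit 157) (nat_lit 1) (nat_lit 161) (nat_lit 1) (nat_lit 401) (nat_lit 416) (nat_lit 323))) (XT.nd (nat_lit 78) (nat_lit 304) (nat_lit 0) (XT.lf (nat_lit 456) (nat_lit 2976513311) (nat_lit 0) (nat_lit 365413596) (nat_lit 380) (nat_lit 365413596) (nat_lit 157) (nat_lit 1) (nat_lit 151) (nat_lit 1) (nat_lit 156) (nat_lit 1) (nat_lit 402) (nat_lit 416) (nat_lit 322)) (XT.nd (nat_lit 78) (nat_lit 304) (nat_lit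 0) (XT.lf (nat_lit 76) (nat_lit 1027156630) (nat_lit 0) (nat_lit 1625319137) (nat_lit 456) (nat_lit 1027156630) (nat_lit 152) (nat_lit 1) (nat_lit 151) (nat_lit 1) (nat_lit 157) (nat_lit 1) (nat_lit 403) (nat_lit 416) (nat_lit 321)) (XT.lf (nat_lit 380) (nat_lit 1139502676) (nat_lit 0) (nat_lit 1256377624) (nat_lit 304) (nat_lit 1256377624) (nat_lit 152) (nat_lit 1) (nat_lit 147) (nat_lit 1) (nat_lit 151) (nat_lit 1) (nat_lit 404) (nat_lit 416) (nat_lit 320))))) (XT.nd (nat_lit 156) (nat_lit 608) (nat_lit 0) (XT.nd (nat_lit 78) (nat_lit 380) (nat_lit 0) (XT.lf (nat_lit 76) (nat_lit 117541589) (nat_lit 0) (nat_lit 3390189060) (nat_lit 380) (nat_lit 117541589) (nat_lit 148) (nat_lit 1) (nat_lit 147) (nat_lit 1) (nat_lit 152) (nat_lit 1) (nat_lit 405) (nat_lit 416) (nat_lit 319)) (XT.lf (nat_lit 76) (nat_lit 1466611384) (nat_lit 0) (nat_lit 665068074) (nat_lit 380) (nat_lit 1466611384) (nat_lit 143) (nat_lit 1) (nat_lit 142) (nat_lit 1) (nat_lit 147) (nat_lit 1)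 (nat_lit 406) (nat_lit 416) (nat_lit 318))) (XT.nd (nat_lit 78) (nat_lit 304) (nat_lit 0) (XT.lf (nat_lit 380) (nat_lit 2021349961) (nat_lit 0) (nat_lit 775171341) (nat_lit 304) (nat_lit 775171341) (nat_lit 143) (nat_lit 1) (nat_lit 138) (nat_lit 1) (nat_lit 142) (nat_lit 1) (nat_lit 407) (nat_lit 416) (nat_lit 317)) (XT.nd (nat_lit 78) (nat_lit 304) (nat_lit 0) (XT.lf (nat_lit 76) (nat_lit 556985294) (nat_lit 0) (nat_lit 2431382910) (nat_lit 380) (nat_lit 556985294) (nat_lit 139) (nat_lit 1) (nat_lit 138) (nat_lit 1) (nat_lit 143) (nat_lit 1) (nat_lit 408) (nat_lit 416) (nat_lit 316)) (XT.lf (nat_lit 380) (nat_lit 208387029) (nat_lit 0) (nat_lit 1655415067) (nat_lit 304) (nat_lit 1655415067) (nat_lit 139) (nat_lit 1) (nat_lit 134) (nat_lit 1) (nat_lit 138) (nat_lit 1) (nat_lit 409) (nat_lit 416) (nat_lit 315))))))))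
noncomputable def ec96 : XT := (XT.nd (nat_lit 1404) (nat_lit 8436) (nat_lit 0) (XT.nd (nat_lit 702) (nat_lit 2432) (nat_lit 0) (XT.nd (nat_lit 312) (nat_lit 0) (nat_lit 152) (XT.nd (nat_lit 156) (nat_lit 0) (nat_lit 76) (XT.nd (nat_lit 78) (nat_lit 0) (nat_lit 76) (XT.lf (nat_lit 1900) (nat_lit 4113009821) (nat_lit 76) (nat_lit 1810697052) (nat_lit 0) (nat_lit 1810697052) (nat_lit 526) (nat_lit 1) (nat_lit 502) (nat_lit 1) (nat_lit 501) (nat_lit 1) (nat_lit 315) (nat_lit 417) (nat_lit 408)) (XT.lf (nat_lit 1900) (nat_lit 1916910865) (nat_lit 0) (nat_lit 3826740112) (nat_lit 1824) (nat_lit 1916910865) (nat_lit 527) (nat_lit 1) (nat_lit 502) (nat_lit 1) (nat_lit 526) (nat_lit 1) (nat_lit 316) (nat_lit 417) (nat_lit 407))) (XT.nd (nat_lit 78) (nat_lit 0) (nat_lit 76) (XT.lf (nat_lit 1900) (nat_lit 3534931996) (nat_lit 76) (nat_lit 2026371002) (nat_lit 0) (nat_lit 2026371002) (nat_lit 527) (nat_lit 1) (nat_lit 503) (nat_lit 1) (nat_lit 502) (nat_lit 1) (nat_lit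 317) (nat_lit 417) (nat_lit 406)) (XT.lf (nat_lit 1900) (nat_lit 1609246349) (nat_lit 0) (nat_lit 4297263611) (nat_lit 1824) (nat_lit 1609246349) (nat_lit 528) (nat_lit 1) (nat_lit 503) (nat_lit 1) (nat_lit 527) (nat_lit 1) (nat_lit 318) (nat_lit 417) (nat_lit 405)))) (XT.nd (nat_lit 156) (nat_lit 0) (nat_lit 76) (XT.nd (nat_lit 78) (nat_lit 0) (nat_lit 76) (XT.lf (nat_lit 1900) (nat_lit 2879986621) (nat_lit 76) (nat_lit 2282353902) (nat_lit 0) (nat_lit 2282353902) (nat_lit 528) (nat_lit 1) (nat_lit 504) (nat_lit 1) (nat_lit 503) (nat_lit 1) (nat_lit 319) (nat_lit 417) (nat_lit 404)) (XT.lf (nat_lit 1900) (nat_lit 1264522579) (nat_lit 0) (nat_lit 4845606778) (nat_lit 1824) (nat_lit 1264522579) (nat_lit 529) (nat_lit 1) (nat_lit 504) (nat_lit 1) (nat_lit 528) (nat_lit 1) (nat_lit 320) (nat_lit 417) (nat_lit 403))) (XT.nd (nat_lit 78) (nat_lit 0) (nat_lit 76) (XT.lf (nat_lit 1900) (nat_lit 2153105910) (nat_lit 76) (nat_lit 2576125920) (nat_lit 0) (nat_lit 2576125920)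 (nat_lit 529) (nat_lit 1) (nat_lit 505) (nat_lit 1) (nat_lit 504) (nat_lit 1) (nat_lit 321) (nat_lit 417) (nat_lit 402)) (XT.nd (nat_lit 78) (nat_lit 0) (nat_lit 0) (XT.lf (nat_lit 1900) (nat_lit 885139520) (nat_lit 0) (nat_lit 5466863649) (nat_lit 1824) (nat_lit 885139520) (nat_lit 530) (nat_lit 1) (nat_lit 505) (nat_lit 1) (nat_lit 529) (nat_lit 1) (nat_lit 322) (nat_lit 417) (nat_lit 401)) (XT.lf (nat_lit 1900) (nat_lit 1358992370) (nat_lit 76) (nat_lit 2905283792) (nat_lit 0) (nat_lit 2905283792) (nat_lit 530) (nat_lit 1) (nat_lit 506) (nat_lit 1) (nat_lit 505) (nat_lit 1) (nat_lit 323) (nat_lit 417) (nat_lit 400)))))) (XT.nd (nat_lit 312) (nat_lit 988) (nat_lit 0) (XT.nd (nat_lit 156) (nat_lit 1824) (nat_lit 0) (XT.nd (nat_lit 78) (nat_lit 0) (nat_lit 0) (XT.lf (nat_lit 1900) (nat_lit 473385098) (nat_lit 0) (nat_lit 6156355709) (nat_lit 1824) (nat_lit 473385098) (nat_lit 531) (nat_lit 1) (nat_lit 506) (nat_lit 1) (nat_lit 530) (nat_lit 1) (nat_lit 324) (nat_lit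 417) (nat_lit 399)) (XT.lf (nat_lit 1900) (nat_lit 502128469) (nat_lit 76) (nat_lit 3267535925) (nat_lit 0) (nat_lit 3267535925) (nat_lit 531) (nat_lit 1) (nat_lit 507) (nat_lit 1) (nat_lit 506) (nat_lit 1) (nat_lit 325) (nat_lit 417) (nat_lit 398))) (XT.nd (nat_lit 78) (nat_lit 1900) (nat_lit 0) (XT.lf (nat_lit 1900) (nat_lit 31439926) (nat_lit 0) (nat_lit 6909622335) (nat_lit 1824) (nat_lit 31439926) (nat_lit 532) (nat_lit 1) (nat_lit 507) (nat_lit 1) (nat_lit 531) (nat_lit 1) (nat_lit 326) (nat_lit 417) (nat_lit 397)) (XT.lf (nat_lit 1976) (nat_lit 3250166474) (nat_lit 0) (nat_lit 407794708) (nat_lit 1900) (nat_lit 3250166474) (nat_lit 508) (nat_lit 1) (nat_lit 482) (nat_lit 1) (nat_lit 507) (nat_lit 1) (nat_lit 327) (nat_lit 417) (nat_lit 396)))) (XT.nd (nat_lit 156) (nat_lit 988) (nat_lit 0) (XT.nd (nat_lit 78) (nat_lit 0) (nat_lit 76) (XT.lf (nat_lit 1976) (nat_lit 5973481662) (nat_lit 76) (nat_lit 435732520) (nat_lit 0) (nat_lit 435732520) (nat_lit 508)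 (nat_lit 1) (nat_lit 483) (nat_lit 1) (nat_lit 482) (nat_lit 1) (nat_lit 328) (nat_lit 417) (nat_lit 395)) (XT.lf (nat_lit 1976) (nat_lit 2708700656) (nat_lit 0) (nat_lit 1364827603) (nat_lit 1900) (nat_lit 2708700656) (nat_lit 509) (nat_lit 1) (nat_lit 483) (nat_lit 1) (nat_lit 508) (nat_lit 1) (nat_lit 329) (nat_lit 417) (nat_lit 394))) (XT.nd (nat_lit 78) (nat_lit 1064) (nat_lit 0) (XT.lf (nat_lit 1976) (nat_lit 4863245368) (nat_lit 76) (nat_lit 928659729) (nat_lit 0) (nat_lit 928659729) (nat_lit 509) (nat_lit 1) (nat_lit 484) (nat_lit 1) (nat_lit 483) (nat_lit 1) (nat_lit 330) (nat_lit 417) (nat_lit 393)) (XT.nd (nat_lit 78) (nat_lit 1140) (nat_lit 0) (XT.lf (nat_lit 76) (nat_lit 2143874152) (nat_lit 0) (nat_lit 2371730024) (nat_lit 1900) (nat_lit 2143874152) (nat_lit 485) (nat_lit 1) (nat_lit 484) (nat_lit 1) (nat_lit 509) (nat_lit 1) (nat_lit 331) (nat_lit 417) (nat_lit 392)) (XT.lf (nat_lit 1216) (nat_lit 3707932011) (nat_lit 0) (nat_lit 1445675822) (nat_lit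 1140) (nat_lit 1445675822) (nat_lit 485) (nat_lit 1) (nat_lit 469) (nat_lit 1) (nat_lit 484) (nat_lit 1) (nat_lit 332) (nat_lit 417) (nat_lit 391))))))) (XT.nd (nat_lit 702) (nat_lit 3952) (nat_lit 0) (XT.nd (nat_lit 312) (nat_lit 2660) (nat_lit 0) (XT.nd (nat_lit 156) (nat_lit 912) (nat_lit 0) (XT.nd (nat_lit 78) (nat_lit 912) (nat_lit 0) (XT.lf (nat_lit 76) (nat_lit 1557464411) (nat_lit 0) (nat_lit 3424858960) (nat_lit 1216) (nat_lit 1557464411) (nat_lit 470) (nat_lit 1) (nat_lit 469) (nat_lit 1) (nat_lit 485) (nat_lit 1) (nat_lit 333) (nat_lit 417) (nat_lit 390)) (XT.lf (nat_lit 988) (nat_lit 2511021181) (nat_lit 0) (nat_lit 1984997755) (nat_lit 912) (nat_lit 1984997755) (nat_lit 470) (nat_lit 1) (nat_lit 457) (nat_lit 1) (nat_lit 469) (nat_lit 1) (nat_lit 334) (nat_lit 417) (nat_lit 389))) (XT.nd (nat_lit 78) (nat_lit 912) (nat_lit 0) (XT.lf (nat_lit 76) (nat_lit 951162793) (nat_lit 0) (nat_lit 4520746325) (nat_lit 988) (nat_lit 951162793) (nat_lit 458) (nat_lit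 1) (nat_lit 457) (nat_lit 1) (nat_lit 470) (nat_lit 1) (nat_lit 335) (nat_lit 417) (nat_lit 388)) (XT.lf (nat_lit 988) (nat_lit 1275823447) (nat_lit 0) (nat_lit 2544928342) (nat_lit 912) (nat_lit 2544928342) (nat_lit 458) (nat_lit 1) (nat_lit 445) (nat_lit 1) (nat_lit 457) (nat_lit 1) (nat_lit 336) (nat_lit 417) (nat_lit 387)))) (XT.nd (nat_lit 156) (nat_lit 1824) (nat_lit 0) (XT.nd (nat_lit 78) (nat_lit 836) (nat_lit 0) (XT.lf (nat_lit 76) (nat_lit 326578250) (nat_lit 0) (nat_lit 5656091509) (nat_lit 988) (nat_lit 326578250) (nat_lit 446) (nat_lit 1) (nat_lit 445) (nat_lit 1) (nat_lit 458) (nat_lit 1) (nat_lit 337) (nat_lit 417) (nat_lit 386)) (XT.lf (nat_lit 912) (nat_lit 5487583) (nat_lit 0) (nat_lit 3123852594) (nat_lit 836) (nat_lit 3123852594) (nat_lit 446) (nat_lit 1) (nat_lit 434) (nat_lit 1) (nat_lit 445) (nat_lit 1) (nat_lit 338) (nat_lit 417) (nat_lit 385))) (XT.nd (nat_lit 78) (nat_lit 836) (nat_lit 0) (XT.lf (nat_lit 988) (nat_lit 5572695188) (nat_lit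 0) (nat_lit 312688358) (nat_lit 912) (nat_lit 312688358) (nat_lit 434) (nat_lit 1) (nat_lit 421) (nat_lit 1) (nat_lit 433) (nat_lit 1) (nat_lit 339) (nat_lit 417) (nat_lit 384)) (XT.nd (nat_lit 78) (nat_lit 836) (nat_lit 0) (XT.lf (nat_lit 76) (nat_lit 2431662651) (nat_lit 0) (nat_lit 1279982204) (nat_lit 988) (nat_lit 2431662651) (nat_lit 422) (nat_lit 1) (nat_lit 421) (nat_lit 1) (nat_lit 434) (nat_lit 1) (nat_lit 340) (nat_lit 417) (nat_lit 383)) (XT.lf (nat_lit 912) (nat_lit 4159443697) (nat_lit 0) (nat_lit 965004054) (nat_lit 836) (nat_lit 965004054) (nat_lit 422) (nat_lit 1) (nat_lit 410) (nat_lit 1) (nat_lit 421) (nat_lit 1) (nat_lit 341) (nat_lit 417) (nat_lit 382)))))) (XT.nd (nat_lit 312) (nat_lit 2356) (nat_lit 0) (XT.nd (nat_lit 156) (nat_lit 760) (nat_lit 0) (XT.nd (nat_lit 78) (nat_lit 836) (nat_lit 0) (XT.lf (nat_lit 76) (nat_lit 1720908852) (nat_lit 0) (nat_lit 2594294275) (nat_lit 912) (nat_lit 1720908852) (nat_lit 411) (nat_lit 1) (nat_lit 410)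 (nat_lit 1) (nat_lit 422) (nat_lit 1) (nat_lit 342) (nat_lit 417) (nat_lit 381)) (XT.lf (nat_lit 912) (nat_lit 2721195087) (nat_lit 0) (nat_lit 1631144143) (nat_lit 836) (nat_lit 1631144143) (nat_lit 411) (nat_lit 1) (nat_lit 399) (nat_lit 1) (nat_lit 410) (nat_lit 1) (nat_lit 343) (nat_lit 417) (nat_lit 380))) (XT.nd (nat_lit 78) (nat_lit 760) (nat_lit 0) (XT.lf (nat_lit 76) (nat_lit 998340582) (nat_lit 0) (nat_lit 3934852179) (nat_lit 912) (nat_lit 998340582) (nat_lit 400) (nat_lit 1) (nat_lit 399) (nat_lit 1) (nat_lit 411) (nat_lit 1) (nat_lit 344) (nat_lit 417) (nat_lit 379)) (XT.lf (nat_lit 836) (nat_lit 1260486210) (nat_lit 0) (nat_lit 2309804069) (nat_lit 760) (nat_lit 2309804069) (nat_lit 400) (nat_lit 1) (nat_lit 389) (nat_lit 1) (nat_lit 399) (nat_lit 1) (nat_lit 345) (nat_lit 417) (nat_lit 378)))) (XT.nd (nat_lit 156) (nat_lit 1520) (nat_lit 0) (XT.nd (nat_lit 78) (nat_lit 836) (nat_lit 0) (XT.lf (nat_lit 76) (nat_lit 265189431) (nat_lit 0) (nat_lit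 5299121422) (nat_lit 836) (nat_lit 265189431) (nat_lit 390) (nat_lit 1) (nat_lit 389) (nat_lit 1) (nat_lit 400) (nat_lit 1) (nat_lit 346) (nat_lit 417) (nat_lit 377)) (XT.lf (nat_lit 76) (nat_lit 2780899864) (nat_lit 0) (nat_lit 217386347) (nat_lit 836) (nat_lit 2780899864) (nat_lit 379) (nat_lit 1) (nat_lit 378) (nat_lit 1) (nat_lit 389) (nat_lit 1) (nat_lit 347) (nat_lit 417) (nat_lit 376))) (XT.nd (nat_lit 78) (nat_lit 760) (nat_lit 0) (XT.lf (nat_lit 836) (nat_lit 4781224175) (nat_lit 0) (nat_lit 474235353) (nat_lit 760) (nat_lit 474235353) (nat_lit 379) (nat_lit 1) (nat_lit 368) (nat_lit 1) (nat_lit 378) (nat_lit 1) (nat_lit 348) (nat_lit 417) (nat_lit 375)) (XT.nd (nat_lit 78) (nat_lit 760) (nat_lit 0) (XT.lf (nat_lit 76) (nat_lit 1992145144) (nat_lit 0) (nat_lit 1696262959) (nat_lit 836) (nat_lit 1992145144) (nat_lit 369) (nat_lit 1) (nat_lit 368) (nat_lit 1) (nat_lit 379) (nat_lit 1) (nat_lit 349) (nat_lit 417) (nat_lit 374)) (XT.lf (nat_lit 836) (nat_lit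 3191822930) (nat_lit 0) (nat_lit 1220166713) (nat_lit 760) (nat_lit 1220166713) (nat_lit 369) (nat_lit 1) (nat_lit 358) (nat_lit 1) (nat_lit 368) (nat_lit 1) (nat_lit 350) (nat_lit 417) (nat_lit 373))))))))
noncomputable def ec97 : XT := (XT.nd (nat_lit 1404) (nat_lit 5548) (nat_lit 0) (XT.nd (nat_lit 702) (nat_lit 3116) (nat_lit 0) (XT.nd (nat_lit 312) (nat_lit 1976) (nat_lit 0) (XT.nd (nat_lit 156) (nat_lit 760) (nat_lit 0) (XT.nd (nat_lit 78) (nat_lit 684) (nat_lit 0) (XT.lf (nat_lit 76) (nat_lit 1196878124) (nat_lit 0) (nat_lit 3190537708) (nat_lit 836) (nat_lit 1196878124) (nat_lit 359) (nat_lit 1) (nat_lit 358) (nat_lit 1) (nat_lit 369) (nat_lit 1) (nat_lit 351) (nat_lit 417) (nat_lit 372)) (XT.lf (nat_lit 760) (nat_lit 1590347553) (nat_lit 0) (nat_lit 1973305453) (nat_lit 684) (nat_lit 1973305453) (nat_lit 359) (nat_lit 1) (nat_lit 349) (nat_lit 1) (nat_lit 358) (nat_lit 1) (nat_lit 352) (nat_lit 417) (nat_lit 371))) (XT.nd (nat_lit 78) (nat_lit 760) (nat_lit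 0) (XT.lf (nat_lit 76) (nat_lit 396079933) (nat_lit 0) (nat_lit 4698184730) (nat_lit 760) (nat_lit 396079933) (nat_lit 350) (nat_lit 1) (nat_lit 349) (nat_lit 1) (nat_lit 359) (nat_lit 1) (nat_lit 353) (nat_lit 417) (nat_lit 370)) (XT.lf (nat_lit 76) (nat_lit 2711514444) (nat_lit 0) (nat_lit 21007018) (nat_lit 760) (nat_lit 2711514444) (nat_lit 340) (nat_lit 1) (nat_lit 339) (nat_lit 1) (nat_lit 349) (nat_lit 1) (nat_lit 354) (nat_lit 417) (nat_lit 369)))) (XT.nd (nat_lit 156) (nat_lit 1292) (nat_lit 0) (XT.nd (nat_lit 78) (nat_lit 0) (nat_lit 0) (XT.lf (nat_lit 760) (nat_lit 4585174589) (nat_lit 0) (nat_lit 406627779) (nat_lit 684) (nat_lit 406627779) (nat_lit 340) (nat_lit 1) (nat_lit 330) (nat_lit 1) (nat_lit 339) (nat_lit 1) (nat_lit 355) (nat_lit 417) (nat_lit 368)) (XT.lf (nat_lit 76) (nat_lit 1866691705) (nat_lit 0) (nat_lit 1619739809) (nat_lit 760) (nat_lit 1866691705) (nat_lit 331) (nat_lit 1) (nat_lit 330) (nat_lit 1) (nat_lit 340) (nat_lit 1) (nat_lit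 356) (nat_lit 417) (nat_lit 367))) (XT.nd (nat_lit 78) (nat_lit 608) (nat_lit 0) (XT.lf (nat_lit 760) (nat_lit 2887637838) (nat_lit 0) (nat_lit 1210428940) (nat_lit 684) (nat_lit 1210428940) (nat_lit 331) (nat_lit 1) (nat_lit 321) (nat_lit 1) (nat_lit 330) (nat_lit 1) (nat_lit 357) (nat_lit 417) (nat_lit 366)) (XT.nd (nat_lit 78) (nat_lit 608) (nat_lit 0) (XT.lf (nat_lit 76) (nat_lit 1019676041) (nat_lit 0) (nat_lit 3225016215) (nat_lit 760) (nat_lit 1019676041) (nat_lit 322) (nat_lit 1) (nat_lit 321) (nat_lit 1) (nat_lit 331) (nat_lit 1) (nat_lit 358) (nat_lit 417) (nat_lit 365)) (XT.lf (nat_lit 684) (nat_lit 1186482168) (nat_lit 0) (nat_lit 2017103963) (nat_lit 608) (nat_lit 2017103963) (nat_lit 322) (nat_lit 1) (nat_lit 313) (nat_lit 1) (nat_lit 321) (nat_lit 1) (nat_lit 359) (nat_lit 417) (nat_lit 364)))))) (XT.nd (nat_lit 312) (nat_lit 1824) (nat_lit 0) (XT.nd (nat_lit 156) (nat_lit 608) (nat_lit 0) (XT.nd (nat_lit 78) (nat_lit 684) (nat_lit 0) (XT.lf (nat_lit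 76) (nat_lit 171238847) (nat_lit 0) (nat_lit 4835236565) (nat_lit 684) (nat_lit 171238847) (nat_lit 314) (nat_lit 1) (nat_lit 313) (nat_lit 1) (nat_lit 322) (nat_lit 1) (nat_lit 360) (nat_lit 417) (nat_lit 363)) (XT.lf (nat_lit 76) (nat_lit 2312439789) (nat_lit 0) (nat_lit 510010662) (nat_lit 684) (nat_lit 2312439789) (nat_lit 305) (nat_lit 1) (nat_lit 304) (nat_lit 1) (nat_lit 313) (nat_lit 1) (nat_lit 361) (nat_lit 417) (nat_lit 362))) (XT.nd (nat_lit 78) (nat_lit 0) (nat_lit 0) (XT.lf (nat_lit 684) (nat_lit 3745888484) (nat_lit 0) (nat_lit 673432071) (nat_lit 608) (nat_lit 673432071) (nat_lit 305) (nat_lit 1) (nat_lit 296) (nat_lit 1) (nat_lit 304) (nat_lit 1) (nat_lit 362) (nat_lit 417) (nat_lit 361)) (XT.lf (nat_lit 76) (nat_lit 1429662650) (nat_lit 0) (nat_lit 2191629522) (nat_lit 684) (nat_lit 1429662650) (nat_lit 297) (nat_lit 1) (nat_lit 296) (nat_lit 1) (nat_lit 305) (nat_lit 1) (nat_lit 363) (nat_lit 417) (nat_lit 360)))) (XT.nd (nat_lit 156) (nat_lit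 1216) (nat_lit 0) (XT.nd (nat_lit 78) (nat_lit 0) (nat_lit 0) (XT.lf (nat_lit 684) (nat_lit 1975727093) (nat_lit 0) (nat_lit 1516983386) (nat_lit 608) (nat_lit 1516983386) (nat_lit 297) (nat_lit 1) (nat_lit 288) (nat_lit 1) (nat_lit 296) (nat_lit 1) (nat_lit 364) (nat_lit 417) (nat_lit 359)) (XT.lf (nat_lit 76) (nat_lit 548185027) (nat_lit 0) (nat_lit 3872615338) (nat_lit 684) (nat_lit 548185027) (nat_lit 289) (nat_lit 1) (nat_lit 288) (nat_lit 1) (nat_lit 297) (nat_lit 1) (nat_lit 365) (nat_lit 417) (nat_lit 358))) (XT.nd (nat_lit 78) (nat_lit 684) (nat_lit 0) (XT.lf (nat_lit 608) (nat_lit 208777580) (nat_lit 0) (nat_lit 2359898991) (nat_lit 532) (nat_lit 2359898991) (nat_lit 289) (nat_lit 1) (nat_lit 281) (nat_lit 1) (nat_lit 288) (nat_lit 1) (nat_lit 366) (nat_lit 417) (nat_lit 357)) (XT.nd (nat_lit 78) (nat_lit 0) (nat_lit 0) (XT.lf (nat_lit 684) (nat_lit 4230324993) (nat_lit 0) (nat_lit 329216634) (nat_lit 608) (nat_lit 329216634) (nat_lit 281) (nat_lit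 1) (nat_lit 272) (nat_lit 1) (nat_lit 280) (nat_lit 1) (nat_lit 367) (nat_lit 417) (nat_lit 356)) (XT.lf (nat_lit 76) (nat_lit 1657862099) (nat_lit 0) (nat_lit 1533421593) (nat_lit 684) (nat_lit 1657862099) (nat_lit 273) (nat_lit 1) (nat_lit 272) (nat_lit 1) (nat_lit 281) (nat_lit 1) (nat_lit 368) (nat_lit 417) (nat_lit 355))))))) (XT.nd (nat_lit 702) (nat_lit 2280) (nat_lit 0) (XT.nd (nat_lit 312) (nat_lit 1596) (nat_lit 0) (XT.nd (nat_lit 156) (nat_lit 1140) (nat_lit 0) (XT.nd (nat_lit 78) (nat_lit 0) (nat_lit 0) (XT.lf (nat_lit 608) (nat_lit 2408968453) (nat_lit 0) (nat_lit 1200571886) (nat_lit 532) (nat_lit 1200571886) (nat_lit 273) (nat_lit 1) (nat_lit 265) (nat_lit 1) (nat_lit 272) (nat_lit 1) (nat_lit 369) (nat_lit 417) (nat_lit 354)) (XT.lf (nat_lit 76) (nat_lit 752019399) (nat_lit 0) (nat_lit 3267492415) (nat_lit 608) (nat_lit 752019399) (nat_lit 266) (nat_lit 1) (nat_lit 265) (nat_lit 1) (nat_lit 273) (nat_lit 1) (nat_lit 370) (nat_lit 417) (nat_lit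 353))) (XT.nd (nat_lit 78) (nat_lit 608) (nat_lit 0) (XT.lf (nat_lit 608) (nat_lit 595356202) (nat_lit 0) (nat_lit 2068964492) (nat_lit 532) (nat_lit 2068964492) (nat_lit 266) (nat_lit 1) (nat_lit 258) (nat_lit 1) (nat_lit 265) (nat_lit 1) (nat_lit 371) (nat_lit 417) (nat_lit 352)) (XT.lf (nat_lit 608) (nat_lit 4398151977) (nat_lit 0) (nat_lit 148740883) (nat_lit 532) (nat_lit 148740883) (nat_lit 258) (nat_lit 1) (nat_lit 250) (nat_lit 1) (nat_lit 257) (nat_lit 1) (nat_lit 372) (nat_lit 417) (nat_lit 351)))) (XT.nd (nat_lit 156) (nat_lit 1064) (nat_lit 0) (XT.nd (nat_lit 78) (nat_lit 532) (nat_lit 0) (XT.lf (nat_lit 76) (nat_lit 1732179965) (nat_lit 0) (nat_lit 1193713727) (nat_lit 608) (nat_lit 1732179965) (nat_lit 251) (nat_lit 1) (nat_lit 250) (nat_lit 1) (nat_lit 258) (nat_lit 1) (nat_lit 373) (nat_lit 417) (nat_lit 350)) (XT.lf (nat_lit 608) (nat_lit 2541024150) (nat_lit 0) (nat_lit 1040035952) (nat_lit 532) (nat_lit 1040035952) (nat_lit 251) (nat_lit 1)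 (nat_lit 243) (nat_lit 1) (nat_lit 250) (nat_lit 1) (nat_lit 374) (nat_lit 417) (nat_lit 349))) (XT.nd (nat_lit 78) (nat_lit 1064) (nat_lit 0) (XT.lf (nat_lit 76) (nat_lit 809482509) (nat_lit 0) (nat_lit 2965548522) (nat_lit 608) (nat_lit 809482509) (nat_lit 244) (nat_lit 1) (nat_lit 243) (nat_lit 1) (nat_lit 251) (nat_lit 1) (nat_lit 375) (nat_lit 417) (nat_lit 348)) (XT.nd (nat_lit 78) (nat_lit 608) (nat_lit 0) (XT.lf (nat_lit 532) (nat_lit 695475292) (nat_lit 0) (nat_lit 1926395245) (nat_lit 456) (nat_lit 1926395245) (nat_lit 244) (nat_lit 1) (nat_lit 237) (nat_lit 1) (nat_lit 243) (nat_lit 1) (nat_lit 376) (nat_lit 417) (nat_lit 347)) (XT.lf (nat_lit 608) (nat_lit 4299481231) (nat_lit 0) (nat_lit 106550661) (nat_lit 532) (nat_lit 106550661) (nat_lit 237) (nat_lit 1) (nat_lit 229) (nat_lit 1) (nat_lit 236) (nat_lit 1) (nat_lit 377) (nat_lit 417) (nat_lit 346)))))) (XT.nd (nat_lit 312) (nat_lit 1368) (nat_lit 0) (XT.nd (nat_lit 156) (nat_lit 456) (nat_lit 0)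 (XT.nd (nat_lit 78) (nat_lit 456) (nat_lit 0) (XT.lf (nat_lit 76) (nat_lit 1677058399) (nat_lit 0) (nat_lit 1122835360) (nat_lit 608) (nat_lit 1677058399) (nat_lit 230) (nat_lit 1) (nat_lit 229) (nat_lit 1) (nat_lit 237) (nat_lit 1) (nat_lit 378) (nat_lit 417) (nat_lit 345)) (XT.lf (nat_lit 532) (nat_lit 2419901847) (nat_lit 0) (nat_lit 1010986852) (nat_lit 456) (nat_lit 1010986852) (nat_lit 230) (nat_lit 1) (nat_lit 223) (nat_lit 1) (nat_lit 229) (nat_lit 1) (nat_lit 379) (nat_lit 417) (nat_lit 344))) (XT.nd (nat_lit 78) (nat_lit 456) (nat_lit 0) (XT.lf (nat_lit 76) (nat_lit 743989498) (nat_lit 0) (nat_lit 2919193494) (nat_lit 532) (nat_lit 743989498) (nat_lit 224) (nat_lit 1) (nat_lit 223) (nat_lit 1) (nat_lit 230) (nat_lit 1) (nat_lit 380) (nat_lit 417) (nat_lit 343)) (XT.lf (nat_lit 532) (nat_lit 555123922) (nat_lit 0) (nat_lit 1908824692) (nat_lit 456) (nat_lit 1908824692) (nat_lit 224) (nat_lit 1) (nat_lit 217) (nat_lit 1) (nat_lit 223) (nat_lit 1) (nat_lit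 381) (nat_lit 417) (nat_lit 342)))) (XT.nd (nat_lit 156) (nat_lit 836) (nat_lit 0) (XT.nd (nat_lit 78) (nat_lit 0) (nat_lit 0) (XT.lf (nat_lit 532) (nat_lit 3978154644) (nat_lit 0) (nat_lit 180363635) (nat_lit 456) (nat_lit 180363635) (nat_lit 217) (nat_lit 1) (nat_lit 210) (nat_lit 1) (nat_lit 216) (nat_lit 1) (nat_lit 382) (nat_lit 417) (nat_lit 341)) (XT.lf (nat_lit 76) (nat_lit 1513878095) (nat_lit 0) (nat_lit 1277311621) (nat_lit 532) (nat_lit 1513878095) (nat_lit 211) (nat_lit 1) (nat_lit 210) (nat_lit 1) (nat_lit 217) (nat_lit 1) (nat_lit 383) (nat_lit 417) (nat_lit 340))) (XT.nd (nat_lit 78) (nat_lit 380) (nat_lit 0) (XT.lf (nat_lit 532) (nat_lit 2087589633) (nat_lit 0) (nat_lit 1092081162) (nat_lit 456) (nat_lit 1092081162) (nat_lit 211) (nat_lit 1) (nat_lit 204) (nat_lit 1) (nat_lit 210) (nat_lit 1) (nat_lit 384) (nat_lit 417) (nat_lit 339)) (XT.nd (nat_lit 78) (nat_lit 380) (nat_lit 0) (XT.lf (nat_lit 76) (nat_lit 576016308) (nat_lit 0) (nat_lit 3086785657)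 (nat_lit 532) (nat_lit 576016308) (nat_lit 205) (nat_lit 1) (nat_lit 204) (nat_lit 1) (nat_lit 211) (nat_lit 1) (nat_lit 385) (nat_lit 417) (nat_lit 338)) (XT.lf (nat_lit 456) (nat_lit 214512057) (nat_lit 0) (nat_lit 1995810050) (nat_lit 380) (nat_lit 1995810050) (nat_lit 205) (nat_lit 1) (nat_lit 199) (nat_lit 1) (nat_lit 204) (nat_lit 1) (nat_lit 386) (nat_lit 417) (nat_lit 337))))))))
noncomputable def ec98 : XT := (XT.nd (nat_lit 1404) (nat_lit 988) (nat_lit 0) (XT.nd (nat_lit 702) (nat_lit 2204) (nat_lit 0) (XT.nd (nat_lit 312) (nat_lit 1216) (nat_lit 0) (XT.nd (nat_lit 156) (nat_lit 380) (nat_lit 0) (XT.nd (nat_lit 78) (nat_lit 0) (nat_lit 0) (XT.lf (nat_lit 532) (nat_lit 3472473797) (nat_lit 0) (nat_lit 350700657) (nat_lit 456) (nat_lit 350700657) (nat_lit 199) (nat_lit 1) (nat_lit 192) (nat_lit 1) (nat_lit 198) (nat_lit 1) (nat_lit 387) (nat_lit 417) (nat_lit 336)) (XT.lf (nat_lit 76) (nat_lit 1261314665) (nat_lit 0) (nat_lit 1619143004) (nat_lit 532)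 (nat_lit 1261314665) (nat_lit 193) (nat_lit 1) (nat_lit 192) (nat_lit 1) (nat_lit 199) (nat_lit 1) (nat_lit 388) (nat_lit 417) (nat_lit 335))) (XT.nd (nat_lit 78) (nat_lit 0) (nat_lit 0) (XT.lf (nat_lit 456) (nat_lit 1580757009) (nat_lit 0) (nat_lit 1264666573) (nat_lit 380) (nat_lit 1264666573) (nat_lit 193) (nat_lit 1) (nat_lit 187) (nat_lit 1) (nat_lit 192) (nat_lit 1) (nat_lit 389) (nat_lit 417) (nat_lit 334)) (XT.lf (nat_lit 76) (nat_lit 323442091) (nat_lit 0) (nat_lit 3431939748) (nat_lit 456) (nat_lit 323442091) (nat_lit 188) (nat_lit 1) (nat_lit 187) (nat_lit 1) (nat_lit 193) (nat_lit 1) (nat_lit 390) (nat_lit 417) (nat_lit 333)))) (XT.nd (nat_lit 156) (nat_lit 380) (nat_lit 0) (XT.nd (nat_lit 78) (nat_lit 380) (nat_lit 0) (XT.lf (nat_lit 76) (nat_lit 1880127072) (nat_lit 0) (nat_lit 287436087) (nat_lit 456) (nat_lit 1880127072) (nat_lit 182) (nat_lit 1) (nat_lit 181) (nat_lit 1) (nat_lit 187) (nat_lit 1) (nat_lit 391) (nat_lit 417) (nat_lit 332)) (XT.lf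 (nat_lit 456) (nat_lit 2815846727) (nat_lit 0) (nat_lit 600558965) (nat_lit 380) (nat_lit 600558965) (nat_lit 182) (nat_lit 1) (nat_lit 176) (nat_lit 1) (nat_lit 181) (nat_lit 1) (nat_lit 392) (nat_lit 417) (nat_lit 331))) (XT.nd (nat_lit 78) (nat_lit 380) (nat_lit 0) (XT.lf (nat_lit 76) (nat_lit 935654555) (nat_lit 0) (nat_lit 2115166790) (nat_lit 456) (nat_lit 935654555) (nat_lit 177) (nat_lit 1) (nat_lit 176) (nat_lit 1) (nat_lit 182) (nat_lit 1) (nat_lit 393) (nat_lit 417) (nat_lit 330)) (XT.nd (nat_lit 78) (nat_lit 0) (nat_lit 0) (XT.lf (nat_lit 456) (nat_lit 931376270) (nat_lit 0) (nat_lit 1512467919) (nat_lit 380) (nat_lit 1512467919) (nat_lit 177) (nat_lit 1) (nat_lit 171) (nat_lit 1) (nat_lit 176) (nat_lit 1) (nat_lit 394) (nat_lit 417) (nat_lit 329)) (XT.lf (nat_lit 76) (nat_lit 1852715) (nat_lit 0) (nat_lit 3922913391) (nat_lit 456) (nat_lit 1852715) (nat_lit 172) (nat_lit 1) (nat_lit 171) (nat_lit 1) (nat_lit 177) (nat_lit 1) (nat_lit 395) (nat_lit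 417) (nat_lit 328)))))) (XT.nd (nat_lit 312) (nat_lit 1140) (nat_lit 0) (XT.nd (nat_lit 156) (nat_lit 304) (nat_lit 0) (XT.nd (nat_lit 78) (nat_lit 380) (nat_lit 0) (XT.lf (nat_lit 76) (nat_lit 1488757102) (nat_lit 0) (nat_lit 919366528) (nat_lit 380) (nat_lit 1488757102) (nat_lit 167) (nat_lit 1) (nat_lit 166) (nat_lit 1) (nat_lit 171) (nat_lit 1) (nat_lit 396) (nat_lit 417) (nat_lit 327)) (XT.lf (nat_lit 456) (nat_lit 2037361197) (nat_lit 0) (nat_lit 915122502) (nat_lit 380) (nat_lit 915122502) (nat_lit 167) (nat_lit 1) (nat_lit 161) (nat_lit 1) (nat_lit 166) (nat_lit 1) (nat_lit 397) (nat_lit 417) (nat_lit 326))) (XT.nd (nat_lit 78) (nat_lit 304) (nat_lit 0) (XT.lf (nat_lit 76) (nat_lit 551075051) (nat_lit 0) (nat_lit 2736491018) (nat_lit 456) (nat_lit 551075051) (nat_lit 162) (nat_lit 1) (nat_lit 161) (nat_lit 1) (nat_lit 167) (nat_lit 1) (nat_lit 398) (nat_lit 417) (nat_lit 325)) (XT.lf (nat_lit 380) (nat_lit 167273252) (nat_lit 0) (nat_lit 1821308864) (nat_lit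 304) (nat_lit 1821308864) (nat_lit 162) (nat_lit 1) (nat_lit 157) (nat_lit 1) (nat_lit 161) (nat_lit 1) (nat_lit 399) (nat_lit 417) (nat_lit 324)))) (XT.nd (nat_lit 156) (nat_lit 684) (nat_lit 0) (XT.nd (nat_lit 78) (nat_lit 0) (nat_lit 0) (XT.lf (nat_lit 456) (nat_lit 3036043577) (nat_lit 0) (nat_lit 372721868) (nat_lit 380) (nat_lit 372721868) (nat_lit 157) (nat_lit 1) (nat_lit 151) (nat_lit 1) (nat_lit 156) (nat_lit 1) (nat_lit 400) (nat_lit 417) (nat_lit 323)) (XT.lf (nat_lit 76) (nat_lit 1047699763) (nat_lit 0) (nat_lit 1657825520) (nat_lit 456) (nat_lit 1047699763) (nat_lit 152) (nat_lit 1) (nat_lit 151) (nat_lit 1) (nat_lit 157) (nat_lit 1) (nat_lit 401) (nat_lit 417) (nat_lit 322))) (XT.nd (nat_lit 78) (nat_lit 380) (nat_lit 0) (XT.lf (nat_lit 380) (nat_lit 1162292729) (nat_lit 0) (nat_lit 1281505177) (nat_lit 304) (nat_lit 1281505177) (nat_lit 152) (nat_lit 1) (nat_lit 147) (nat_lit 1) (nat_lit 151) (nat_lit 1) (nat_lit 402) (nat_lit 417) (nat_lit 321))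 (XT.nd (nat_lit 78) (nat_lit 380) (nat_lit 0) (XT.lf (nat_lit 76) (nat_lit 119892421) (nat_lit 0) (nat_lit 3457992841) (nat_lit 380) (nat_lit 119892421) (nat_lit 148) (nat_lit 1) (nat_lit 147) (nat_lit 1) (nat_lit 152) (nat_lit 1) (nat_lit 403) (nat_lit 417) (nat_lit 320)) (XT.lf (nat_lit 76) (nat_lit 1495943611) (nat_lit 0) (nat_lit 678369435) (nat_lit 380) (nat_lit 1495943611) (nat_lit 143) (nat_lit 1) (nat_lit 142) (nat_lit 1) (nat_lit 147) (nat_lit 1) (nat_lit 404) (nat_lit 417) (nat_lit 319))))))) (XT.nd (nat_lit 52806) (nat_lit 0) (nat_lit 26828) (XT.nd (nat_lit 52416) (nat_lit 0) (nat_lit 28424) (XT.nd (nat_lit 156) (nat_lit 684) (nat_lit 0) (XT.nd (nat_lit 78) (nat_lit 0) (nat_lit 0) (XT.lf (nat_lit 380) (nat_lit 2061776960) (nat_lit 0) (nat_lit 790674768) (nat_lit 304) (nat_lit 790674768) (nat_lit 143) (nat_lit 1) (nat_lit 138) (nat_lit 1) (nat_lit 142) (nat_lit 1) (nat_lit 405) (nat_lit 417) (nat_lit 318)) (XT.lf (nat_lit 76) (nat_lit 568125000) (nat_lit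 0) (nat_lit 2480010569) (nat_lit 380) (nat_lit 568125000) (nat_lit 139) (nat_lit 1) (nat_lit 138) (nat_lit 1) (nat_lit 143) (nat_lit 1) (nat_lit 406) (nat_lit 417) (nat_lit 317))) (XT.nd (nat_lit 78) (nat_lit 380) (nat_lit 0) (XT.lf (nat_lit 380) (nat_lit 212554770) (nat_lit 0) (nat_lit 1688523368) (nat_lit 304) (nat_lit 1688523368) (nat_lit 139) (nat_lit 1) (nat_lit 134) (nat_lit 1) (nat_lit 138) (nat_lit 1) (nat_lit 407) (nat_lit 417) (nat_lit 316)) (XT.lf (nat_lit 380) (nat_lit 2873388840) (nat_lit 0) (nat_lit 344933887) (nat_lit 304) (nat_lit 344933887) (nat_lit 134) (nat_lit 1) (nat_lit 129) (nat_lit 1) (nat_lit 133) (nat_lit 1) (nat_lit 408) (nat_lit 417) (nat_lit 315)))) (XT.nd (nat_lit 156) (nat_lit 0) (nat_lit 76) (XT.nd (nat_lit 78) (nat_lit 0) (nat_lit 0) (XT.lf (nat_lit 1900) (nat_lit 1641431276) (nat_lit 0) (nat_lit 4383208883) (nat_lit 1824) (nat_lit 1641431276) (nat_lit 528) (nat_lit 1) (nat_lit 503) (nat_lit 1) (nat_lit 527) (nat_lit 1) (nat_lit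 316) (nat_lit 418) (nat_lit 406)) (XT.lf (nat_lit 1900) (nat_lit 2937586353) (nat_lit 76) (nat_lit 2328000980) (nat_lit 0) (nat_lit 2328000980) (nat_lit 528) (nat_lit 1) (nat_lit 504) (nat_lit 1) (nat_lit 503) (nat_lit 1) (nat_lit 317) (nat_lit 418) (nat_lit 405))) (XT.nd (nat_lit 78) (nat_lit 0) (nat_lit 0) (XT.lf (nat_lit 1900) (nat_lit 1289813031) (nat_lit 0) (nat_lit 4942518913) (nat_lit 1824) (nat_lit 1289813031) (nat_lit 529) (nat_lit 1) (nat_lit 504) (nat_lit 1) (nat_lit 528) (nat_lit 1) (nat_lit 318) (nat_lit 418) (nat_lit 404)) (XT.nd (nat_lit 78) (nat_lit 0) (nat_lit 76) (XT.lf (nat_lit 1900) (nat_lit 2196168028) (nat_lit 76) (nat_lit 2627648439) (nat_lit 0) (nat_lit 2627648439) (nat_lit 529) (nat_lit 1) (nat_lit 505) (nat_lit 1) (nat_lit 504) (nat_lit 1) (nat_lit 319) (nat_lit 418) (nat_lit 403)) (XT.lf (nat_lit 1900) (nat_lit 902842310) (nat_lit 0) (nat_lit 5576200922) (nat_lit 1824) (nat_lit 902842310) (nat_lit 530) (nat_lit 1) (nat_lit 505) (nat_lit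 1) (nat_lit 529) (nat_lit 1) (nat_lit 320) (nat_lit 418) (nat_lit 402)))))) (XT.nd (nat_lit 312) (nat_lit 1748) (nat_lit 0) (XT.nd (nat_lit 156) (nat_lit 0) (nat_lit 76) (XT.nd (nat_lit 78) (nat_lit 0) (nat_lit 76) (XT.lf (nat_lit 1900) (nat_lit 1386172218) (nat_lit 76) (nat_lit 2963389468) (nat_lit 0) (nat_lit 2963389468) (nat_lit 530) (nat_lit 1) (nat_lit 506) (nat_lit 1) (nat_lit 505) (nat_lit 1) (nat_lit 321) (nat_lit 418) (nat_lit 401)) (XT.lf (nat_lit 1900) (nat_lit 482852800) (nat_lit 0) (nat_lit 6279482823) (nat_lit 1824) (nat_lit 482852800) (nat_lit 531) (nat_lit 1) (nat_lit 506) (nat_lit 1) (nat_lit 530) (nat_lit 1) (nat_lit 322) (nat_lit 418) (nat_lit 400))) (XT.nd (nat_lit 78) (nat_lit 0) (nat_lit 76) (XT.lf (nat_lit 1900) (nat_lit 512171038) (nat_lit 76) (nat_lit 3332886643) (nat_lit 0) (nat_lit 3332886643) (nat_lit 531) (nat_lit 1) (nat_lit 507) (nat_lit 1) (nat_lit 506) (nat_lit 1) (nat_lit 323) (nat_lit 418) (nat_lit 399)) (XT.lf (nat_lit 1900)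 (nat_lit 32068725) (nat_lit 0) (nat_lit 7047814782) (nat_lit 1824) (nat_lit 32068725) (nat_lit 532) (nat_lit 1) (nat_lit 507) (nat_lit 1) (nat_lit 531) (nat_lit 1) (nat_lit 324) (nat_lit 418) (nat_lit 398)))) (XT.nd (nat_lit 156) (nat_lit 0) (nat_lit 76) (XT.nd (nat_lit 78) (nat_lit 0) (nat_lit 0) (XT.lf (nat_lit 1976) (nat_lit 3315169804) (nat_lit 0) (nat_lit 415950603) (nat_lit 1900) (nat_lit 3315169804) (nat_lit 508) (nat_lit 1) (nat_lit 482) (nat_lit 1) (nat_lit 507) (nat_lit 1) (nat_lit 325) (nat_lit 418) (nat_lit 397)) (XT.lf (nat_lit 1976) (nat_lit 6092951295) (nat_lit 76) (nat_lit 444447171) (nat_lit 0) (nat_lit 444447171) (nat_lit 508) (nat_lit 1) (nat_lit 483) (nat_lit 1) (nat_lit 482) (nat_lit 1) (nat_lit 326) (nat_lit 418) (nat_lit 396))) (XT.nd (nat_lit 78) (nat_lit 0) (nat_lit 0) (XT.lf (nat_lit 1976) (nat_lit 2762874669) (nat_lit 0) (nat_lit 1392124155) (nat_lit 1900) (nat_lit 2762874669) (nat_lit 509) (nat_lit 1) (nat_lit 483) (nat_lit 1) (nat_lit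 508) (nat_lit 1) (nat_lit 327) (nat_lit 418) (nat_lit 395)) (XT.nd (nat_lit 78) (nat_lit 0) (nat_lit 76) (XT.lf (nat_lit 1976) (nat_lit 4960510276) (nat_lit 76) (nat_lit 947232923) (nat_lit 0) (nat_lit 947232923) (nat_lit 509) (nat_lit 1) (nat_lit 484) (nat_lit 1) (nat_lit 483) (nat_lit 1) (nat_lit 328) (nat_lit 418) (nat_lit 394)) (XT.lf (nat_lit 76) (nat_lit 2186751635) (nat_lit 0) (nat_lit 2419164624) (nat_lit 1900) (nat_lit 2186751635) (nat_lit 485) (nat_lit 1) (nat_lit 484) (nat_lit 1) (nat_lit 509) (nat_lit 1) (nat_lit 329) (nat_lit 418) (nat_lit 393))))))))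
noncomputable def ec99 : XT := (XT.nd (nat_lit 1404) (nat_lit 7296) (nat_lit 0) (XT.nd (nat_lit 702) (nat_lit 4028) (nat_lit 0) (XT.nd (nat_lit 312) (nat_lit 2736) (nat_lit 0) (XT.nd (nat_lit 156) (nat_lit 912) (nat_lit 0) (XT.nd (nat_lit 78) (nat_lit 0) (nat_lit 0) (XT.lf (nat_lit 1216) (nat_lit 3782090651) (nat_lit 0) (nat_lit 1474589338) (nat_lit 1140) (nat_lit 1474589338) (nat_lit 485) (nat_lit 1) (nat_lit 469) (nat_lit 1) (nat_lit 484) (nat_lit 1) (nat_lit 330) (nat_lit 418) (nat_lit 392)) (XT.lf (nat_lit 76) (nat_lit 1588613699) (nat_lit 0) (nat_lit 3493356139) (nat_lit 1216) (nat_lit 1588613699) (nat_lit 470) (nat_lit 1) (nat_lit 469) (nat_lit 1) (nat_lit 485) (nat_lit 1) (nat_lit 331) (nat_lit 418) (nat_lit 391))) (XT.nd (nat_lit 78) (nat_lit 0) (nat_lit 0) (XT.lf (nat_lit 988) (nat_lit 2561241604) (nat_lit 0) (nat_lit 2024697710) (nat_lit 912) (nat_lit 2024697710) (nat_lit 470) (nat_lit 1) (nat_lit 457) (nat_lit 1) (nat_lit 469) (nat_lit 1) (nat_lit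 332) (nat_lit 418) (nat_lit 390)) (XT.lf (nat_lit 76) (nat_lit 970186049) (nat_lit 0) (nat_lit 4611161252) (nat_lit 988) (nat_lit 970186049) (nat_lit 458) (nat_lit 1) (nat_lit 457) (nat_lit 1) (nat_lit 470) (nat_lit 1) (nat_lit 333) (nat_lit 418) (nat_lit 389)))) (XT.nd (nat_lit 156) (nat_lit 1824) (nat_lit 0) (XT.nd (nat_lit 78) (nat_lit 0) (nat_lit 0) (XT.lf (nat_lit 988) (nat_lit 1301339916) (nat_lit 0) (nat_lit 2595826909) (nat_lit 912) (nat_lit 2595826909) (nat_lit 458) (nat_lit 1) (nat_lit 445) (nat_lit 1) (nat_lit 457) (nat_lit 1) (nat_lit 334) (nat_lit 418) (nat_lit 388)) (XT.lf (nat_lit 76) (nat_lit 333109815) (nat_lit 0) (nat_lit 5769213339) (nat_lit 988) (nat_lit 333109815) (nat_lit 446) (nat_lit 1) (nat_lit 445) (nat_lit 1) (nat_lit 458) (nat_lit 1) (nat_lit 335) (nat_lit 418) (nat_lit 387))) (XT.nd (nat_lit 78) (nat_lit 988) (nat_lit 0) (XT.lf (nat_lit 912) (nat_lit 5597335) (nat_lit 0) (nat_lit 3186329646) (nat_lit 836) (nat_lit 3186329646) (nat_lit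 446) (nat_lit 1) (nat_lit 434) (nat_lit 1) (nat_lit 445) (nat_lit 1) (nat_lit 336) (nat_lit 418) (nat_lit 386)) (XT.nd (nat_lit 78) (nat_lit 0) (nat_lit 0) (XT.lf (nat_lit 988) (nat_lit 5684149092) (nat_lit 0) (nat_lit 318942125) (nat_lit 912) (nat_lit 318942125) (nat_lit 434) (nat_lit 1) (nat_lit 421) (nat_lit 1) (nat_lit 433) (nat_lit 1) (nat_lit 337) (nat_lit 418) (nat_lit 385)) (XT.lf (nat_lit 76) (nat_lit 2480295904) (nat_lit 0) (nat_lit 1305581848) (nat_lit 988) (nat_lit 2480295904) (nat_lit 422) (nat_lit 1) (nat_lit 421) (nat_lit 1) (nat_lit 434) (nat_lit 1) (nat_lit 338) (nat_lit 418) (nat_lit 384)))))) (XT.nd (nat_lit 312) (nat_lit 2356) (nat_lit 0) (XT.nd (nat_lit 156) (nat_lit 836) (nat_lit 0) (XT.nd (nat_lit 78) (nat_lit 0) (nat_lit 0) (XT.lf (nat_lit 912) (nat_lit 4242632571) (nat_lit 0) (nat_lit 984304135) (nat_lit 836) (nat_lit 984304135) (nat_lit 422) (nat_lit 1) (nat_lit 410) (nat_lit 1) (nat_lit 421) (nat_lit 1) (nat_lit 339) (nat_lit 418) (nat_lit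 383)) (XT.lf (nat_lit 76) (nat_lit 1755327030) (nat_lit 0) (nat_lit 2646180160) (nat_lit 912) (nat_lit 1755327030) (nat_lit 411) (nat_lit 1) (nat_lit 410) (nat_lit 1) (nat_lit 422) (nat_lit 1) (nat_lit 340) (nat_lit 418) (nat_lit 382))) (XT.nd (nat_lit 78) (nat_lit 0) (nat_lit 0) (XT.lf (nat_lit 912) (nat_lit 2775618988) (nat_lit 0) (nat_lit 1663767026) (nat_lit 836) (nat_lit 1663767026) (nat_lit 411) (nat_lit 1) (nat_lit 399) (nat_lit 1) (nat_lit 410) (nat_lit 1) (nat_lit 341) (nat_lit 418) (nat_lit 381)) (XT.lf (nat_lit 76) (nat_lit 1018307393) (nat_lit 0) (nat_lit 4013549223) (nat_lit 912) (nat_lit 1018307393) (nat_lit 400) (nat_lit 1) (nat_lit 399) (nat_lit 1) (nat_lit 411) (nat_lit 1) (nat_lit 342) (nat_lit 418) (nat_lit 380)))) (XT.nd (nat_lit 156) (nat_lit 1596) (nat_lit 0) (XT.nd (nat_lit 78) (nat_lit 0) (nat_lit 0) (XT.lf (nat_lit 836) (nat_lit 1285695935) (nat_lit 0) (nat_lit 2356000150) (nat_lit 760) (nat_lit 2356000150) (nat_lit 400) (nat_lit 1) (nat_lit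 389) (nat_lit 1) (nat_lit 399) (nat_lit 1) (nat_lit 343) (nat_lit 418) (nat_lit 379)) (XT.lf (nat_lit 76) (nat_lit 270493219) (nat_lit 0) (nat_lit 5405103851) (nat_lit 836) (nat_lit 270493219) (nat_lit 390) (nat_lit 1) (nat_lit 389) (nat_lit 1) (nat_lit 400) (nat_lit 1) (nat_lit 344) (nat_lit 418) (nat_lit 378))) (XT.nd (nat_lit 78) (nat_lit 760) (nat_lit 0) (XT.lf (nat_lit 76) (nat_lit 2836517861) (nat_lit 0) (nat_lit 221734073) (nat_lit 836) (nat_lit 2836517861) (nat_lit 379) (nat_lit 1) (nat_lit 378) (nat_lit 1) (nat_lit 389) (nat_lit 1) (nat_lit 345) (nat_lit 418) (nat_lit 377)) (XT.nd (nat_lit 78) (nat_lit 0) (nat_lit 0) (XT.lf (nat_lit 836) (nat_lit 4876848658) (nat_lit 0) (nat_lit 483720060) (nat_lit 760) (nat_lit 483720060) (nat_lit 379) (nat_lit 1) (nat_lit 368) (nat_lit 1) (nat_lit 378) (nat_lit 1) (nat_lit 346) (nat_lit 418) (nat_lit 376)) (XT.lf (nat_lit 76) (nat_lit 2031988046) (nat_lit 0) (nat_lit 1730188218) (nat_lit 836) (nat_lit 2031988046) (nat_lit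 369) (nat_lit 1) (nat_lit 368) (nat_lit 1) (nat_lit 379) (nat_lit 1) (nat_lit 347) (nat_lit 418) (nat_lit 375))))))) (XT.nd (nat_lit 702) (nat_lit 3724) (nat_lit 0) (XT.nd (nat_lit 312) (nat_lit 2128) (nat_lit 0) (XT.nd (nat_lit 156) (nat_lit 684) (nat_lit 0) (XT.nd (nat_lit 78) (nat_lit 0) (nat_lit 0) (XT.lf (nat_lit 836) (nat_lit 3255659389) (nat_lit 0) (nat_lit 1244570047) (nat_lit 760) (nat_lit 1244570047) (nat_lit 369) (nat_lit 1) (nat_lit 358) (nat_lit 1) (nat_lit 368) (nat_lit 1) (nat_lit 348) (nat_lit 418) (nat_lit 374)) (XT.lf (nat_lit 76) (nat_lit 1220815686) (nat_lit 0) (nat_lit 3254348463) (nat_lit 836) (nat_lit 1220815686) (nat_lit 359) (nat_lit 1) (nat_lit 358) (nat_lit 1) (nat_lit 369) (nat_lit 1) (nat_lit 349) (nat_lit 418) (nat_lit 373))) (XT.nd (nat_lit 78) (nat_lit 0) (nat_lit 0) (XT.lf (nat_lit 760) (nat_lit 1622154504) (nat_lit 0) (nat_lit 2012771562) (nat_lit 684) (nat_lit 2012771562) (nat_lit 359) (nat_lit 1) (nat_lit 349) (nat_lit 1) (nat_lit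 358) (nat_lit 1) (nat_lit 350) (nat_lit 418) (nat_lit 372)) (XT.lf (nat_lit 76) (nat_lit 404001532) (nat_lit 0) (nat_lit 4792148425) (nat_lit 760) (nat_lit 404001532) (nat_lit 350) (nat_lit 1) (nat_lit 349) (nat_lit 1) (nat_lit 359) (nat_lit 1) (nat_lit 351) (nat_lit 418) (nat_lit 371)))) (XT.nd (nat_lit 156) (nat_lit 684) (nat_lit 0) (XT.nd (nat_lit 78) (nat_lit 684) (nat_lit 0) (XT.lf (nat_lit 76) (nat_lit 2765744733) (nat_lit 0) (nat_lit 21427158) (nat_lit 760) (nat_lit 2765744733) (nat_lit 340) (nat_lit 1) (nat_lit 339) (nat_lit 1) (nat_lit 349) (nat_lit 1) (nat_lit 352) (nat_lit 418) (nat_lit 370)) (XT.lf (nat_lit 760) (nat_lit 4676878081) (nat_lit 0) (nat_lit 414760335) (nat_lit 684) (nat_lit 414760335) (nat_lit 340) (nat_lit 1) (nat_lit 330) (nat_lit 1) (nat_lit 339) (nat_lit 1) (nat_lit 353) (nat_lit 418) (nat_lit 369))) (XT.nd (nat_lit 78) (nat_lit 684) (nat_lit 0) (XT.lf (nat_lit 76) (nat_lit 1904025539) (nat_lit 0) (nat_lit 1652134605) (nat_lit 760)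 (nat_lit 1904025539) (nat_lit 331) (nat_lit 1) (nat_lit 330) (nat_lit 1) (nat_lit 340) (nat_lit 1) (nat_lit 354) (nat_lit 418) (nat_lit 368)) (XT.nd (nat_lit 78) (nat_lit 0) (nat_lit 0) (XT.lf (nat_lit 760) (nat_lit 2945390595) (nat_lit 0) (nat_lit 1234637519) (nat_lit 684) (nat_lit 1234637519) (nat_lit 331) (nat_lit 1) (nat_lit 321) (nat_lit 1) (nat_lit 330) (nat_lit 1) (nat_lit 355) (nat_lit 418) (nat_lit 367)) (XT.lf (nat_lit 76) (nat_lit 1040069562) (nat_lit 0) (nat_lit 3289516539) (nat_lit 760) (nat_lit 1040069562) (nat_lit 322) (nat_lit 1) (nat_lit 321) (nat_lit 1) (nat_lit 331) (nat_lit 1) (nat_lit 356) (nat_lit 418) (nat_lit 366)))))) (XT.nd (nat_lit 312) (nat_lit 1824) (nat_lit 0) (XT.nd (nat_lit 156) (nat_lit 1292) (nat_lit 0) (XT.nd (nat_lit 78) (nat_lit 0) (nat_lit 0) (XT.lf (nat_lit 684) (nat_lit 1210211811) (nat_lit 0) (nat_lit 2057446043) (nat_lit 608) (nat_lit 2057446043) (nat_lit 322) (nat_lit 1) (nat_lit 313) (nat_lit 1) (nat_lit 321) (nat_lit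 1) (nat_lit 357) (nat_lit 418) (nat_lit 365)) (XT.lf (nat_lit 76) (nat_lit 174663624) (nat_lit 0) (nat_lit 4931941296) (nat_lit 684) (nat_lit 174663624) (nat_lit 314) (nat_lit 1) (nat_lit 313) (nat_lit 1) (nat_lit 322) (nat_lit 1) (nat_lit 358) (nat_lit 418) (nat_lit 364))) (XT.nd (nat_lit 78) (nat_lit 608) (nat_lit 0) (XT.lf (nat_lit 76) (nat_lit 2358688585) (nat_lit 0) (nat_lit 520210875) (nat_lit 684) (nat_lit 2358688585) (nat_lit 305) (nat_lit 1) (nat_lit 304) (nat_lit 1) (nat_lit 313) (nat_lit 1) (nat_lit 359) (nat_lit 418) (nat_lit 363)) (XT.lf (nat_lit 684) (nat_lit 3820806254) (nat_lit 0) (nat_lit 686900712) (nat_lit 608) (nat_lit 686900712) (nat_lit 305) (nat_lit 1) (nat_lit 296) (nat_lit 1) (nat_lit 304) (nat_lit 1) (nat_lit 360) (nat_lit 418) (nat_lit 362)))) (XT.nd (nat_lit 156) (nat_lit 1216) (nat_lit 0) (XT.nd (nat_lit 78) (nat_lit 608) (nat_lit 0) (XT.lf (nat_lit 76) (nat_lit 1458255903) (nat_lit 0) (nat_lit 2235462113) (nat_lit 684) (nat_lit 1458255903)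 (nat_lit 297) (nat_lit 1) (nat_lit 296) (nat_lit 1) (nat_lit 305) (nat_lit 1) (nat_lit 361) (nat_lit 418) (nat_lit 361)) (XT.lf (nat_lit 684) (nat_lit 2015241635) (nat_lit 0) (nat_lit 1547323054) (nat_lit 608) (nat_lit 1547323054) (nat_lit 297) (nat_lit 1) (nat_lit 288) (nat_lit 1) (nat_lit 296) (nat_lit 1) (nat_lit 362) (nat_lit 418) (nat_lit 360))) (XT.nd (nat_lit 78) (nat_lit 1216) (nat_lit 0) (XT.lf (nat_lit 76) (nat_lit 559148728) (nat_lit 0) (nat_lit 3950067645) (nat_lit 684) (nat_lit 559148728) (nat_lit 289) (nat_lit 1) (nat_lit 288) (nat_lit 1) (nat_lit 297) (nat_lit 1) (nat_lit 363) (nat_lit 418) (nat_lit 359)) (XT.nd (nat_lit 78) (nat_lit 684) (nat_lit 0) (XT.lf (nat_lit 608) (nat_lit 212953131) (nat_lit 0) (nat_lit 2407096971) (nat_lit 532) (nat_lit 2407096971) (nat_lit 289) (nat_lit 1) (nat_lit 281) (nat_lit 1) (nat_lit 288) (nat_lit 1) (nat_lit 364) (nat_lit 418) (nat_lit 358)) (XT.lf (nat_lit 684) (nat_lit 4314931493) (nat_lit 0) (nat_lit 335800967)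 (nat_lit 608) (nat_lit 335800967) (nat_lit 281) (nat_lit 1) (nat_lit 272) (nat_lit 1) (nat_lit 280) (nat_lit 1) (nat_lit 365) (nat_lit 418) (nat_lit 357))))))))
noncomputable def ec100 : XT := (XT.nd (nat_lit 1404) (nat_lit 4332) (nat_lit 0) (XT.nd (nat_lit 702) (nat_lit 2508) (nat_lit 0) (XT.nd (nat_lit 312) (nat_lit 1596) (nat_lit 0) (XT.nd (nat_lit 156) (nat_lit 532) (nat_lit 0) (XT.nd (nat_lit 78) (nat_lit 532) (nat_lit 0) (XT.lf (nat_lit 76) (nat_lit 1691019341) (nat_lit 0) (nat_lit 1564090024) (nat_lit 684) (nat_lit 1691019341) (nat_lit 273) (nat_lit 1) (nat_lit 272) (nat_lit 1) (nat_lit 281) (nat_lit 1) (nat_lit 366) (nat_lit 418) (nat_lit 356)) (XT.lf (nat_lit 608) (nat_lit 2457147822) (nat_lit 0) (nat_lit 1224583324) (nat_lit 532) (nat_lit 1224583324) (nat_lit 273) (nat_lit 1) (nat_lit 265) (nat_lit 1) (nat_lit 272) (nat_lit 1) (nat_lit 367) (nat_lit 418) (nat_lit 355))) (XT.nd (nat_lit 78) (nat_lit 532) (nat_lit 0) (XT.lf (nat_lit 76) (nat_lit 767059787)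 (nat_lit 0) (nat_lit 3332842263) (nat_lit 608) (nat_lit 767059787) (nat_lit 266) (nat_lit 1) (nat_lit 265) (nat_lit 1) (nat_lit 273) (nat_lit 1) (nat_lit 368) (nat_lit 418) (nat_lit 354)) (XT.lf (nat_lit 608) (nat_lit 607263326) (nat_lit 0) (nat_lit 2110343782) (nat_lit 532) (nat_lit 2110343782) (nat_lit 266) (nat_lit 1) (nat_lit 258) (nat_lit 1) (nat_lit 265) (nat_lit 1) (nat_lit 369) (nat_lit 418) (nat_lit 353)))) (XT.nd (nat_lit 156) (nat_lit 988) (nat_lit 0) (XT.nd (nat_lit 78) (nat_lit 0) (nat_lit 0) (XT.lf (nat_lit 608) (nat_lit 4486115017) (nat_lit 0) (nat_lit 151715701) (nat_lit 532) (nat_lit 151715701) (nat_lit 258) (nat_lit 1) (nat_lit 250) (nat_lit 1) (nat_lit 257) (nat_lit 1) (nat_lit 370) (nat_lit 418) (nat_lit 352)) (XT.lf (nat_lit 76) (nat_lit 1766823564) (nat_lit 0) (nat_lit 1217588001) (nat_lit 608) (nat_lit 1766823564) (nat_lit 251) (nat_lit 1) (nat_lit 250) (nat_lit 1) (nat_lit 258) (nat_lit 1) (nat_lit 371) (nat_lit 418) (nat_lit 351))) (XT.nd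 (nat_lit 78) (nat_lit 456) (nat_lit 0) (XT.lf (nat_lit 608) (nat_lit 2591844633) (nat_lit 0) (nat_lit 1060836671) (nat_lit 532) (nat_lit 1060836671) (nat_lit 251) (nat_lit 1) (nat_lit 243) (nat_lit 1) (nat_lit 250) (nat_lit 1) (nat_lit 372) (nat_lit 418) (nat_lit 350)) (XT.nd (nat_lit 78) (nat_lit 456) (nat_lit 0) (XT.lf (nat_lit 76) (nat_lit 825672160) (nat_lit 0) (nat_lit 3024859493) (nat_lit 608) (nat_lit 825672160) (nat_lit 244) (nat_lit 1) (nat_lit 243) (nat_lit 1) (nat_lit 251) (nat_lit 1) (nat_lit 373) (nat_lit 418) (nat_lit 349)) (XT.lf (nat_lit 532) (nat_lit 709384797) (nat_lit 0) (nat_lit 1964923149) (nat_lit 456) (nat_lit 1964923149) (nat_lit 244) (nat_lit 1) (nat_lit 237) (nat_lit 1) (nat_lit 243) (nat_lit 1) (nat_lit 374) (nat_lit 418) (nat_lit 348)))))) (XT.nd (nat_lit 312) (nat_lit 1444) (nat_lit 0) (XT.nd (nat_lit 156) (nat_lit 456) (nat_lit 0) (XT.nd (nat_lit 78) (nat_lit 0) (nat_lit 0) (XT.lf (nat_lit 608) (nat_lit 4385470856) (nat_lit 0) (nat_lit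 108681674) (nat_lit 532) (nat_lit 108681674) (nat_lit 237) (nat_lit 1) (nat_lit 229) (nat_lit 1) (nat_lit 236) (nat_lit 1) (nat_lit 375) (nat_lit 418) (nat_lit 347)) (XT.lf (nat_lit 76) (nat_lit 1710599566) (nat_lit 0) (nat_lit 1145292067) (nat_lit 608) (nat_lit 1710599566) (nat_lit 230) (nat_lit 1) (nat_lit 229) (nat_lit 1) (nat_lit 237) (nat_lit 1) (nat_lit 376) (nat_lit 418) (nat_lit 346))) (XT.nd (nat_lit 78) (nat_lit 0) (nat_lit 0) (XT.lf (nat_lit 532) (nat_lit 2468299884) (nat_lit 0) (nat_lit 1031206589) (nat_lit 456) (nat_lit 1031206589) (nat_lit 230) (nat_lit 1) (nat_lit 223) (nat_lit 1) (nat_lit 229) (nat_lit 1) (nat_lit 377) (nat_lit 418) (nat_lit 345)) (XT.lf (nat_lit 76) (nat_lit 758869288) (nat_lit 0) (nat_lit 2977577364) (nat_lit 532) (nat_lit 758869288) (nat_lit 224) (nat_lit 1) (nat_lit 223) (nat_lit 1) (nat_lit 230) (nat_lit 1) (nat_lit 378) (nat_lit 418) (nat_lit 344)))) (XT.nd (nat_lit 156) (nat_lit 456) (nat_lit 0) (XT.nd (nat_lit 78) (nat_lit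 532) (nat_lit 0) (XT.lf (nat_lit 532) (nat_lit 566226401) (nat_lit 0) (nat_lit 1947001186) (nat_lit 456) (nat_lit 1947001186) (nat_lit 224) (nat_lit 1) (nat_lit 217) (nat_lit 1) (nat_lit 223) (nat_lit 1) (nat_lit 379) (nat_lit 418) (nat_lit 343)) (XT.lf (nat_lit 532) (nat_lit 4057717737) (nat_lit 0) (nat_lit 183970907) (nat_lit 456) (nat_lit 183970907) (nat_lit 217) (nat_lit 1) (nat_lit 210) (nat_lit 1) (nat_lit 216) (nat_lit 1) (nat_lit 380) (nat_lit 418) (nat_lit 342))) (XT.nd (nat_lit 78) (nat_lit 456) (nat_lit 0) (XT.lf (nat_lit 76) (nat_lit 1544155656) (nat_lit 0) (nat_lit 1302857853) (nat_lit 532) (nat_lit 1544155656) (nat_lit 211) (nat_lit 1) (nat_lit 210) (nat_lit 1) (nat_lit 217) (nat_lit 1) (nat_lit 381) (nat_lit 418) (nat_lit 341)) (XT.nd (nat_lit 78) (nat_lit 0) (nat_lit 0) (XT.lf (nat_lit 532) (nat_lit 2129341426) (nat_lit 0) (nat_lit 1113922785) (nat_lit 456) (nat_lit 1113922785) (nat_lit 211) (nat_lit 1) (nat_lit 204) (nat_lit 1) (nat_lit 210)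 (nat_lit 1) (nat_lit 382) (nat_lit 418) (nat_lit 340)) (XT.lf (nat_lit 76) (nat_lit 587536635) (nat_lit 0) (nat_lit 3148521370) (nat_lit 532) (nat_lit 587536635) (nat_lit 205) (nat_lit 1) (nat_lit 204) (nat_lit 1) (nat_lit 211) (nat_lit 1) (nat_lit 383) (nat_lit 418) (nat_lit 339))))))) (XT.nd (nat_lit 702) (nat_lit 1824) (nat_lit 0) (XT.nd (nat_lit 312) (nat_lit 1216) (nat_lit 0) (XT.nd (nat_lit 156) (nat_lit 380) (nat_lit 0) (XT.nd (nat_lit 78) (nat_lit 532) (nat_lit 0) (XT.lf (nat_lit 456) (nat_lit 218802298) (nat_lit 0) (nat_lit 2035726251) (nat_lit 380) (nat_lit 2035726251) (nat_lit 205) (nat_lit 1) (nat_lit 199) (nat_lit 1) (nat_lit 204) (nat_lit 1) (nat_lit 384) (nat_lit 418) (nat_lit 338)) (XT.lf (nat_lit 532) (nat_lit 3541923273) (nat_lit 0) (nat_lit 357714670) (nat_lit 456) (nat_lit 357714670) (nat_lit 199) (nat_lit 1) (nat_lit 192) (nat_lit 1) (nat_lit 198) (nat_lit 1) (nat_lit 385) (nat_lit 418) (nat_lit 337))) (XT.nd (nat_lit 78) (nat_lit 380) (nat_lit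 0) (XT.lf (nat_lit 76) (nat_lit 1286540958) (nat_lit 0) (nat_lit 1651525864) (nat_lit 532) (nat_lit 1286540958) (nat_lit 193) (nat_lit 1) (nat_lit 192) (nat_lit 1) (nat_lit 199) (nat_lit 1) (nat_lit 386) (nat_lit 418) (nat_lit 336)) (XT.lf (nat_lit 456) (nat_lit 1612372149) (nat_lit 0) (nat_lit 1289959905) (nat_lit 380) (nat_lit 1289959905) (nat_lit 193) (nat_lit 1) (nat_lit 187) (nat_lit 1) (nat_lit 192) (nat_lit 1) (nat_lit 387) (nat_lit 418) (nat_lit 335)))) (XT.nd (nat_lit 156) (nat_lit 760) (nat_lit 0) (XT.nd (nat_lit 78) (nat_lit 456) (nat_lit 0) (XT.lf (nat_lit 76) (nat_lit 329910933) (nat_lit 0) (nat_lit 3500578543) (nat_lit 456) (nat_lit 329910933) (nat_lit 188) (nat_lit 1) (nat_lit 187) (nat_lit 1) (nat_lit 193) (nat_lit 1) (nat_lit 388) (nat_lit 418) (nat_lit 334)) (XT.lf (nat_lit 76) (nat_lit 1917729613) (nat_lit 0) (nat_lit 293184809) (nat_lit 456) (nat_lit 1917729613) (nat_lit 182) (nat_lit 1) (nat_lit 181) (nat_lit 1) (nat_lit 187) (nat_lit 1)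 (nat_lit 389) (nat_lit 418) (nat_lit 333))) (XT.nd (nat_lit 78) (nat_lit 380) (nat_lit 0) (XT.lf (nat_lit 456) (nat_lit 2872163662) (nat_lit 0) (nat_lit 612570145) (nat_lit 380) (nat_lit 612570145) (nat_lit 182) (nat_lit 1) (nat_lit 176) (nat_lit 1) (nat_lit 181) (nat_lit 1) (nat_lit 390) (nat_lit 418) (nat_lit 332)) (XT.nd (nat_lit 78) (nat_lit 380) (nat_lit 0) (XT.lf (nat_lit 76) (nat_lit 954367647) (nat_lit 0) (nat_lit 2157470126) (nat_lit 456) (nat_lit 954367647) (nat_lit 177) (nat_lit 1) (nat_lit 176) (nat_lit 1) (nat_lit 182) (nat_lit 1) (nat_lit 391) (nat_lit 418) (nat_lit 331)) (XT.lf (nat_lit 456) (nat_lit 950003796) (nat_lit 0) (nat_lit 1542717277) (nat_lit 380) (nat_lit 1542717277) (nat_lit 177) (nat_lit 1) (nat_lit 171) (nat_lit 1) (nat_lit 176) (nat_lit 1) (nat_lit 392) (nat_lit 418) (nat_lit 330)))))) (XT.nd (nat_lit 312) (nat_lit 1064) (nat_lit 0) (XT.nd (nat_lit 156) (nat_lit 380) (nat_lit 0) (XT.nd (nat_lit 78) (nat_lit 380) (nat_lit 0) (XT.lf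 (nat_lit 76) (nat_lit 1889769) (nat_lit 0) (nat_lit 4001371658) (nat_lit 456) (nat_lit 1889769) (nat_lit 172) (nat_lit 1) (nat_lit 171) (nat_lit 1) (nat_lit 177) (nat_lit 1) (nat_lit 393) (nat_lit 418) (nat_lit 329)) (XT.lf (nat_lit 76) (nat_lit 1518532244) (nat_lit 0) (nat_lit 937753859) (nat_lit 380) (nat_lit 1518532244) (nat_lit 167) (nat_lit 1) (nat_lit 166) (nat_lit 1) (nat_lit 171) (nat_lit 1) (nat_lit 394) (nat_lit 418) (nat_lit 328))) (XT.nd (nat_lit 78) (nat_lit 0) (nat_lit 0) (XT.lf (nat_lit 456) (nat_lit 2078108420) (nat_lit 0) (nat_lit 933424952) (nat_lit 380) (nat_lit 933424952) (nat_lit 167) (nat_lit 1) (nat_lit 161) (nat_lit 1) (nat_lit 166) (nat_lit 1) (nat_lit 395) (nat_lit 418) (nat_lit 327)) (XT.lf (nat_lit 76) (nat_lit 562096552) (nat_lit 0) (nat_lit 2791220839) (nat_lit 456) (nat_lit 562096552) (nat_lit 162) (nat_lit 1) (nat_lit 161) (nat_lit 1) (nat_lit 167) (nat_lit 1) (nat_lit 396) (nat_lit 418) (nat_lit 326)))) (XT.nd (nat_lit 156) (nat_lit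 304) (nat_lit 0) (XT.nd (nat_lit 78) (nat_lit 456) (nat_lit 0) (XT.lf (nat_lit 380) (nat_lit 170618717) (nat_lit 0) (nat_lit 1857735041) (nat_lit 304) (nat_lit 1857735041) (nat_lit 162) (nat_lit 1) (nat_lit 157) (nat_lit 1) (nat_lit 161) (nat_lit 1) (nat_lit 397) (nat_lit 418) (nat_lit 325)) (XT.lf (nat_lit 456) (nat_lit 3096764448) (nat_lit 0) (nat_lit 380176305) (nat_lit 380) (nat_lit 380176305) (nat_lit 157) (nat_lit 1) (nat_lit 151) (nat_lit 1) (nat_lit 156) (nat_lit 1) (nat_lit 398) (nat_lit 418) (nat_lit 324))) (XT.nd (nat_lit 78) (nat_lit 304) (nat_lit 0) (XT.lf (nat_lit 76) (nat_lit 1068653758) (nat_lit 0) (nat_lit 1690982031) (nat_lit 456) (nat_lit 1068653758) (nat_lit 152) (nat_lit 1) (nat_lit 151) (nat_lit 1) (nat_lit 157) (nat_lit 1) (nat_lit 399) (nat_lit 418) (nat_lit 323)) (XT.nd (nat_lit 78) (nat_lit 0) (nat_lit 0) (XT.lf (nat_lit 380) (nat_lit 1185538584) (nat_lit 0) (nat_lit 1307135280) (nat_lit 304) (nat_lit 1307135280) (nat_lit 152) (nat_lit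 1) (nat_lit 147) (nat_lit 1) (nat_lit 151) (nat_lit 1) (nat_lit 400) (nat_lit 418) (nat_lit 322)) (XT.lf (nat_lit 76) (nat_lit 122290269) (nat_lit 0) (nat_lit 3527152698) (nat_lit 380) (nat_lit 122290269) (nat_lit 148) (nat_lit 1) (nat_lit 147) (nat_lit 1) (nat_lit 152) (nat_lit 1) (nat_lit 401) (nat_lit 418) (nat_lit 321))))))))
noncomputable def ec101 : XT := (XT.nd (nat_lit 53664) (nat_lit 0) (nat_lit 17404) (XT.nd (nat_lit 52962) (nat_lit 0) (nat_lit 25840) (XT.nd (nat_lit 312) (nat_lit 380) (nat_lit 0) (XT.nd (nat_lit 156) (nat_lit 304) (nat_lit 0) (XT.nd (nat_lit 78) (nat_lit 304) (nat_lit 0) (XT.lf (nat_lit 76) (nat_lit 1525862484) (nat_lit 0) (nat_lit 691936824) (nat_lit 380) (nat_lit 1525862484) (nat_lit 143) (nat_lit 1) (nat_lit 142) (nat_lit 1) (nat_lit 147) (nat_lit 1) (nat_lit 402) (nat_lit 418) (nat_lit 320)) (XT.lf (nat_lit 380) (nat_lit 2103012499) (nat_lit 0) (nat_lit 806488263) (nat_lit 304) (nat_lit 806488263) (nat_lit 143) (nat_lit 1) (nat_lit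 138) (nat_lit 1) (nat_lit 142) (nat_lit 1) (nat_lit 403) (nat_lit 418) (nat_lit 319))) (XT.nd (nat_lit 78) (nat_lit 304) (nat_lit 0) (XT.lf (nat_lit 76) (nat_lit 579487500) (nat_lit 0) (nat_lit 2529610780) (nat_lit 380) (nat_lit 579487500) (nat_lit 139) (nat_lit 1) (nat_lit 138) (nat_lit 1) (nat_lit 143) (nat_lit 1) (nat_lit 404) (nat_lit 418) (nat_lit 318)) (XT.lf (nat_lit 380) (nat_lit 216805865) (nat_lit 0) (nat_lit 1722293835) (nat_lit 304) (nat_lit 1722293835) (nat_lit 139) (nat_lit 1) (nat_lit 134) (nat_lit 1) (nat_lit 138) (nat_lit 1) (nat_lit 405) (nat_lit 418) (nat_lit 317)))) (XT.nd (nat_lit 52416) (nat_lit 0) (nat_lit 28500) (XT.nd (nat_lit 52338) (nat_lit 0) (nat_lit 28500) (XT.lf (nat_lit 380) (nat_lit 2930856617) (nat_lit 0) (nat_lit 351832565) (nat_lit 304) (nat_lit 351832565) (nat_lit 134) (nat_lit 1) (nat_lit 129) (nat_lit 1) (nat_lit 133) (nat_lit 1) (nat_lit 406) (nat_lit 418) (nat_lit 316)) (XT.lf (nat_lit 1900) (nat_lit 1315609291) (nat_lit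 0) (nat_lit 5041369292) (nat_lit 1824) (nat_lit 1315609291) (nat_lit 529) (nat_lit 1) (nat_lit 504) (nat_lit 1) (nat_lit 528) (nat_lit 1) (nat_lit 316) (nat_lit 419) (nat_lit 405))) (XT.nd (nat_lit 78) (nat_lit 0) (nat_lit 76) (XT.lf (nat_lit 1900) (nat_lit 2240091389) (nat_lit 76) (nat_lit 2680201408) (nat_lit 0) (nat_lit 2680201408) (nat_lit 529) (nat_lit 1) (nat_lit 505) (nat_lit 1) (nat_lit 504) (nat_lit 1) (nat_lit 317) (nat_lit 419) (nat_lit 404)) (XT.nd (nat_lit 78) (nat_lit 0) (nat_lit 0) (XT.lf (nat_lit 1900) (nat_lit 920899156) (nat_lit 0) (nat_lit 5687724940) (nat_lit 1824) (nat_lit 920899156) (nat_lit 530) (nat_lit 1) (nat_lit 505) (nat_lit 1) (nat_lit 529) (nat_lit 1) (nat_lit 318) (nat_lit 419) (nat_lit 403)) (XT.lf (nat_lit 1900) (nat_lit 1413895662) (nat_lit 76) (nat_lit 3022657258) (nat_lit 0) (nat_lit 3022657258) (nat_lit 530) (nat_lit 1) (nat_lit 506) (nat_lit 1) (nat_lit 505) (nat_lit 1) (nat_lit 319) (nat_lit 419) (nat_lit 402)))))) (XT.nd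 (nat_lit 312) (nat_lit 988) (nat_lit 0) (XT.nd (nat_lit 156) (nat_lit 1824) (nat_lit 0) (XT.nd (nat_lit 78) (nat_lit 0) (nat_lit 0) (XT.lf (nat_lit 1900) (nat_lit 492509856) (nat_lit 0) (nat_lit 6405072480) (nat_lit 1824) (nat_lit 492509856) (nat_lit 531) (nat_lit 1) (nat_lit 506) (nat_lit 1) (nat_lit 530) (nat_lit 1) (nat_lit 320) (nat_lit 419) (nat_lit 401)) (XT.lf (nat_lit 1900) (nat_lit 522414459) (nat_lit 76) (nat_lit 3399544376) (nat_lit 0) (nat_lit 3399544376) (nat_lit 531) (nat_lit 1) (nat_lit 507) (nat_lit 1) (nat_lit 506) (nat_lit 1) (nat_lit 321) (nat_lit 419) (nat_lit 400))) (XT.nd (nat_lit 78) (nat_lit 1900) (nat_lit 0) (XT.lf (nat_lit 1900) (nat_lit 32710099) (nat_lit 0) (nat_lit 7188771078) (nat_lit 1824) (nat_lit 32710099) (nat_lit 532) (nat_lit 1) (nat_lit 507) (nat_lit 1) (nat_lit 531) (nat_lit 1) (nat_lit 322) (nat_lit 419) (nat_lit 399)) (XT.lf (nat_lit 1976) (nat_lit 3381473200) (nat_lit 0) (nat_lit 424269615) (nat_lit 1900) (nat_lit 3381473200)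 (nat_lit 508) (nat_lit 1) (nat_lit 482) (nat_lit 1) (nat_lit 507) (nat_lit 1) (nat_lit 323) (nat_lit 419) (nat_lit 398)))) (XT.nd (nat_lit 156) (nat_lit 988) (nat_lit 0) (XT.nd (nat_lit 78) (nat_lit 0) (nat_lit 76) (XT.lf (nat_lit 1976) (nat_lit 6214810321) (nat_lit 76) (nat_lit 453336114) (nat_lit 0) (nat_lit 453336114) (nat_lit 508) (nat_lit 1) (nat_lit 483) (nat_lit 1) (nat_lit 482) (nat_lit 1) (nat_lit 324) (nat_lit 419) (nat_lit 397)) (XT.lf (nat_lit 1976) (nat_lit 2818132162) (nat_lit 0) (nat_lit 1419966639) (nat_lit 1900) (nat_lit 2818132162) (nat_lit 509) (nat_lit 1) (nat_lit 483) (nat_lit 1) (nat_lit 508) (nat_lit 1) (nat_lit 325) (nat_lit 419) (nat_lit 396))) (XT.nd (nat_lit 78) (nat_lit 1064) (nat_lit 0) (XT.lf (nat_lit 1976) (nat_lit 5059720481) (nat_lit 76) (nat_lit 966177582) (nat_lit 0) (nat_lit 966177582) (nat_lit 509) (nat_lit 1) (nat_lit 484) (nat_lit 1) (nat_lit 483) (nat_lit 1) (nat_lit 326) (nat_lit 419) (nat_lit 395)) (XT.nd (nat_lit 78)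 (nat_lit 1140) (nat_lit 0) (XT.lf (nat_lit 76) (nat_lit 2230486668) (nat_lit 0) (nat_lit 2467547917) (nat_lit 1900) (nat_lit 2230486668) (nat_lit 485) (nat_lit 1) (nat_lit 484) (nat_lit 1) (nat_lit 509) (nat_lit 1) (nat_lit 327) (nat_lit 419) (nat_lit 394)) (XT.lf (nat_lit 1216) (nat_lit 3857732464) (nat_lit 0) (nat_lit 1504081125) (nat_lit 1140) (nat_lit 1504081125) (nat_lit 485) (nat_lit 1) (nat_lit 469) (nat_lit 1) (nat_lit 484) (nat_lit 1) (nat_lit 328) (nat_lit 419) (nat_lit 393))))))) (XT.nd (nat_lit 702) (nat_lit 3952) (nat_lit 0) (XT.nd (nat_lit 312) (nat_lit 2660) (nat_lit 0) (XT.nd (nat_lit 156) (nat_lit 912) (nat_lit 0) (XT.nd (nat_lit 78) (nat_lit 912) (nat_lit 0) (XT.lf (nat_lit 76) (nat_lit 1620385973) (nat_lit 0) (nat_lit 3563223262) (nat_lit 1216) (nat_lit 1620385973) (nat_lit 470) (nat_lit 1) (nat_lit 469) (nat_lit 1) (nat_lit 485) (nat_lit 1) (nat_lit 329) (nat_lit 419) (nat_lit 392)) (XT.lf (nat_lit 988) (nat_lit 2612466437) (nat_lit 0) (nat_lit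 2065191665) (nat_lit 912) (nat_lit 2065191665) (nat_lit 470) (nat_lit 1) (nat_lit 457) (nat_lit 1) (nat_lit 469) (nat_lit 1) (nat_lit 330) (nat_lit 419) (nat_lit 391))) (XT.nd (nat_lit 78) (nat_lit 912) (nat_lit 0) (XT.lf (nat_lit 76) (nat_lit 989589770) (nat_lit 0) (nat_lit 4703384477) (nat_lit 988) (nat_lit 989589770) (nat_lit 458) (nat_lit 1) (nat_lit 457) (nat_lit 1) (nat_lit 470) (nat_lit 1) (nat_lit 331) (nat_lit 419) (nat_lit 390)) (XT.lf (nat_lit 988) (nat_lit 1327366714) (nat_lit 0) (nat_lit 2647743447) (nat_lit 912) (nat_lit 2647743447) (nat_lit 458) (nat_lit 1) (nat_lit 445) (nat_lit 1) (nat_lit 457) (nat_lit 1) (nat_lit 332) (nat_lit 419) (nat_lit 389)))) (XT.nd (nat_lit 156) (nat_lit 1824) (nat_lit 0) (XT.nd (nat_lit 78) (nat_lit 836) (nat_lit 0) (XT.lf (nat_lit 76) (nat_lit 339772012) (nat_lit 0) (nat_lit 5884597606) (nat_lit 988) (nat_lit 339772012) (nat_lit 446) (nat_lit 1) (nat_lit 445) (nat_lit 1) (nat_lit 458) (nat_lit 1) (nat_lit 333) (nat_lit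 419) (nat_lit 388)) (XT.lf (nat_lit 912) (nat_lit 5709282) (nat_lit 0) (nat_lit 3250056239) (nat_lit 836) (nat_lit 3250056239) (nat_lit 446) (nat_lit 1) (nat_lit 434) (nat_lit 1) (nat_lit 445) (nat_lit 1) (nat_lit 334) (nat_lit 419) (nat_lit 387))) (XT.nd (nat_lit 78) (nat_lit 836) (nat_lit 0) (XT.lf (nat_lit 988) (nat_lit 5797832073) (nat_lit 0) (nat_lit 325320968) (nat_lit 912) (nat_lit 325320968) (nat_lit 434) (nat_lit 1) (nat_lit 421) (nat_lit 1) (nat_lit 433) (nat_lit 1) (nat_lit 335) (nat_lit 419) (nat_lit 386)) (XT.nd (nat_lit 78) (nat_lit 836) (nat_lit 0) (XT.lf (nat_lit 76) (nat_lit 2529901823) (nat_lit 0) (nat_lit 1331693485) (nat_lit 988) (nat_lit 2529901823) (nat_lit 422) (nat_lit 1) (nat_lit 421) (nat_lit 1) (nat_lit 434) (nat_lit 1) (nat_lit 336) (nat_lit 419) (nat_lit 385)) (XT.lf (nat_lit 912) (nat_lit 4327485222) (nat_lit 0) (nat_lit 1003990218) (nat_lit 836) (nat_lit 1003990218) (nat_lit 422) (nat_lit 1) (nat_lit 410) (nat_lit 1) (nat_lit 421)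 (nat_lit 1) (nat_lit 337) (nat_lit 419) (nat_lit 384)))))) (XT.nd (nat_lit 312) (nat_lit 2356) (nat_lit 0) (XT.nd (nat_lit 156) (nat_lit 760) (nat_lit 0) (XT.nd (nat_lit 78) (nat_lit 836) (nat_lit 0) (XT.lf (nat_lit 76) (nat_lit 1790433570) (nat_lit 0) (nat_lit 2699103763) (nat_lit 912) (nat_lit 1790433570) (nat_lit 411) (nat_lit 1) (nat_lit 410) (nat_lit 1) (nat_lit 422) (nat_lit 1) (nat_lit 338) (nat_lit 419) (nat_lit 383)) (XT.lf (nat_lit 912) (nat_lit 2831131368) (nat_lit 0) (nat_lit 1697042366) (nat_lit 836) (nat_lit 1697042366) (nat_lit 411) (nat_lit 1) (nat_lit 399) (nat_lit 1) (nat_lit 410) (nat_lit 1) (nat_lit 339) (nat_lit 419) (nat_lit 382))) (XT.nd (nat_lit 78) (nat_lit 760) (nat_lit 0) (XT.lf (nat_lit 76) (nat_lit 1038673541) (nat_lit 0) (nat_lit 4093820207) (nat_lit 912) (nat_lit 1038673541) (nat_lit 400) (nat_lit 1) (nat_lit 399) (nat_lit 1) (nat_lit 411) (nat_lit 1) (nat_lit 340) (nat_lit 419) (nat_lit 381)) (XT.lf (nat_lit 836) (nat_lit 1311409853)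 (nat_lit 0) (nat_lit 2403120153) (nat_lit 760) (nat_lit 2403120153) (nat_lit 400) (nat_lit 1) (nat_lit 389) (nat_lit 1) (nat_lit 399) (nat_lit 1) (nat_lit 341) (nat_lit 419) (nat_lit 380)))) (XT.nd (nat_lit 156) (nat_lit 1520) (nat_lit 0) (XT.nd (nat_lit 78) (nat_lit 836) (nat_lit 0) (XT.lf (nat_lit 76) (nat_lit 275903084) (nat_lit 0) (nat_lit 5513205928) (nat_lit 836) (nat_lit 275903084) (nat_lit 390) (nat_lit 1) (nat_lit 389) (nat_lit 1) (nat_lit 400) (nat_lit 1) (nat_lit 342) (nat_lit 419) (nat_lit 379)) (XT.lf (nat_lit 76) (nat_lit 2893248219) (nat_lit 0) (nat_lit 226168755) (nat_lit 836) (nat_lit 2893248219) (nat_lit 379) (nat_lit 1) (nat_lit 378) (nat_lit 1) (nat_lit 389) (nat_lit 1) (nat_lit 343) (nat_lit 419) (nat_lit 378))) (XT.nd (nat_lit 78) (nat_lit 760) (nat_lit 0) (XT.lf (nat_lit 836) (nat_lit 4974385632) (nat_lit 0) (nat_lit 493394462) (nat_lit 760) (nat_lit 493394462) (nat_lit 379) (nat_lit 1) (nat_lit 368) (nat_lit 1) (nat_lit 378) (nat_lit 1)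 (nat_lit 344) (nat_lit 419) (nat_lit 377)) (XT.nd (nat_lit 78) (nat_lit 760) (nat_lit 0) (XT.lf (nat_lit 76) (nat_lit 2072627807) (nat_lit 0) (nat_lit 1764791983) (nat_lit 836) (nat_lit 2072627807) (nat_lit 369) (nat_lit 1) (nat_lit 368) (nat_lit 1) (nat_lit 379) (nat_lit 1) (nat_lit 345) (nat_lit 419) (nat_lit 376)) (XT.lf (nat_lit 836) (nat_lit 3320772577) (nat_lit 0) (nat_lit 1269461448) (nat_lit 760) (nat_lit 1269461448) (nat_lit 369) (nat_lit 1) (nat_lit 358) (nat_lit 1) (nat_lit 368) (nat_lit 1) (nat_lit 346) (nat_lit 419) (nat_lit 375))))))))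
noncomputable def ec102 : XT := (XT.nd (nat_lit 1404) (nat_lit 5548) (nat_lit 0) (XT.nd (nat_lit 702) (nat_lit 3116) (nat_lit 0) (XT.nd (nat_lit 312) (nat_lit 1976) (nat_lit 0) (XT.nd (nat_lit 156) (nat_lit 760) (nat_lit 0) (XT.nd (nat_lit 78) (nat_lit 684) (nat_lit 0) (XT.lf (nat_lit 76) (nat_lit 1245232000) (nat_lit 0) (nat_lit 3319435432) (nat_lit 836) (nat_lit 1245232000) (nat_lit 359) (nat_lit 1) (nat_lit 358) (nat_lit 1) (nat_lit 369) (nat_lit 1) (nat_lit 347) (nat_lit 419) (nat_lit 374)) (XT.lf (nat_lit 760) (nat_lit 1654597594) (nat_lit 0) (nat_lit 2053026993) (nat_lit 684) (nat_lit 2053026993) (nat_lit 359) (nat_lit 1) (nat_lit 349) (nat_lit 1) (nat_lit 358) (nat_lit 1) (nat_lit 348) (nat_lit 419) (nat_lit 373))) (XT.nd (nat_lit 78) (nat_lit 760) (nat_lit 0) (XT.lf (nat_lit 76) (nat_lit 412081562) (nat_lit 0) (nat_lit 4887991393) (nat_lit 760) (nat_lit 412081562) (nat_lit 350) (nat_lit 1) (nat_lit 349) (nat_lit 1) (nat_lit 359) (nat_lit 1) (nat_lit 349)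 (nat_lit 419) (nat_lit 372)) (XT.lf (nat_lit 76) (nat_lit 2821059628) (nat_lit 0) (nat_lit 21855701) (nat_lit 760) (nat_lit 2821059628) (nat_lit 340) (nat_lit 1) (nat_lit 339) (nat_lit 1) (nat_lit 349) (nat_lit 1) (nat_lit 350) (nat_lit 419) (nat_lit 371)))) (XT.nd (nat_lit 156) (nat_lit 1292) (nat_lit 0) (XT.nd (nat_lit 78) (nat_lit 0) (nat_lit 0) (XT.lf (nat_lit 760) (nat_lit 4770415643) (nat_lit 0) (nat_lit 423055541) (nat_lit 684) (nat_lit 423055541) (nat_lit 340) (nat_lit 1) (nat_lit 330) (nat_lit 1) (nat_lit 339) (nat_lit 1) (nat_lit 351) (nat_lit 419) (nat_lit 370)) (XT.lf (nat_lit 76) (nat_lit 1942106050) (nat_lit 0) (nat_lit 1685177297) (nat_lit 760) (nat_lit 1942106050) (nat_lit 331) (nat_lit 1) (nat_lit 330) (nat_lit 1) (nat_lit 340) (nat_lit 1) (nat_lit 352) (nat_lit 419) (nat_lit 369))) (XT.nd (nat_lit 78) (nat_lit 608) (nat_lit 0) (XT.lf (nat_lit 760) (nat_lit 3004298407) (nat_lit 0) (nat_lit 1259330269) (nat_lit 684) (nat_lit 1259330269) (nat_lit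 331) (nat_lit 1) (nat_lit 321) (nat_lit 1) (nat_lit 330) (nat_lit 1) (nat_lit 353) (nat_lit 419) (nat_lit 368)) (XT.nd (nat_lit 78) (nat_lit 608) (nat_lit 0) (XT.lf (nat_lit 76) (nat_lit 1060870953) (nat_lit 0) (nat_lit 3355306870) (nat_lit 760) (nat_lit 1060870953) (nat_lit 322) (nat_lit 1) (nat_lit 321) (nat_lit 1) (nat_lit 331) (nat_lit 1) (nat_lit 354) (nat_lit 419) (nat_lit 367)) (XT.lf (nat_lit 684) (nat_lit 1234416047) (nat_lit 0) (nat_lit 2098594964) (nat_lit 608) (nat_lit 2098594964) (nat_lit 322) (nat_lit 1) (nat_lit 313) (nat_lit 1) (nat_lit 321) (nat_lit 1) (nat_lit 355) (nat_lit 419) (nat_lit 366)))))) (XT.nd (nat_lit 312) (nat_lit 1824) (nat_lit 0) (XT.nd (nat_lit 156) (nat_lit 608) (nat_lit 0) (XT.nd (nat_lit 78) (nat_lit 684) (nat_lit 0) (XT.lf (nat_lit 76) (nat_lit 178156897) (nat_lit 0) (nat_lit 5030580122) (nat_lit 684) (nat_lit 178156897) (nat_lit 314) (nat_lit 1) (nat_lit 313) (nat_lit 1) (nat_lit 322) (nat_lit 1) (nat_lit 356) (nat_lit 419)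 (nat_lit 365)) (XT.lf (nat_lit 76) (nat_lit 2405862357) (nat_lit 0) (nat_lit 530615093) (nat_lit 684) (nat_lit 2405862357) (nat_lit 305) (nat_lit 1) (nat_lit 304) (nat_lit 1) (nat_lit 313) (nat_lit 1) (nat_lit 357) (nat_lit 419) (nat_lit 364))) (XT.nd (nat_lit 78) (nat_lit 0) (nat_lit 0) (XT.lf (nat_lit 684) (nat_lit 3897222379) (nat_lit 0) (nat_lit 700638726) (nat_lit 608) (nat_lit 700638726) (nat_lit 305) (nat_lit 1) (nat_lit 296) (nat_lit 1) (nat_lit 304) (nat_lit 1) (nat_lit 358) (nat_lit 419) (nat_lit 363)) (XT.lf (nat_lit 76) (nat_lit 1487421021) (nat_lit 0) (nat_lit 2280171355) (nat_lit 684) (nat_lit 1487421021) (nat_lit 297) (nat_lit 1) (nat_lit 296) (nat_lit 1) (nat_lit 305) (nat_lit 1) (nat_lit 359) (nat_lit 419) (nat_lit 362)))) (XT.nd (nat_lit 156) (nat_lit 1216) (nat_lit 0) (XT.nd (nat_lit 78) (nat_lit 0) (nat_lit 0) (XT.lf (nat_lit 684) (nat_lit 2055546467) (nat_lit 0) (nat_lit 1578269515) (nat_lit 608) (nat_lit 1578269515) (nat_lit 297) (nat_lit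 1) (nat_lit 288) (nat_lit 1) (nat_lit 296) (nat_lit 1) (nat_lit 360) (nat_lit 419) (nat_lit 361)) (XT.lf (nat_lit 76) (nat_lit 570331702) (nat_lit 0) (nat_lit 4029068998) (nat_lit 684) (nat_lit 570331702) (nat_lit 289) (nat_lit 1) (nat_lit 288) (nat_lit 1) (nat_lit 297) (nat_lit 1) (nat_lit 361) (nat_lit 419) (nat_lit 360))) (XT.nd (nat_lit 78) (nat_lit 684) (nat_lit 0) (XT.lf (nat_lit 608) (nat_lit 217212194) (nat_lit 0) (nat_lit 2455238910) (nat_lit 532) (nat_lit 2455238910) (nat_lit 289) (nat_lit 1) (nat_lit 281) (nat_lit 1) (nat_lit 288) (nat_lit 1) (nat_lit 362) (nat_lit 419) (nat_lit 359)) (XT.nd (nat_lit 78) (nat_lit 0) (nat_lit 0) (XT.lf (nat_lit 684) (nat_lit 4401230123) (nat_lit 0) (nat_lit 342516986) (nat_lit 608) (nat_lit 342516986) (nat_lit 281) (nat_lit 1) (nat_lit 272) (nat_lit 1) (nat_lit 280) (nat_lit 1) (nat_lit 363) (nat_lit 419) (nat_lit 358)) (XT.lf (nat_lit 76) (nat_lit 1724839728) (nat_lit 0) (nat_lit 1595371825) (nat_lit 684) (nat_lit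 1724839728) (nat_lit 273) (nat_lit 1) (nat_lit 272) (nat_lit 1) (nat_lit 281) (nat_lit 1) (nat_lit 364) (nat_lit 419) (nat_lit 357))))))) (XT.nd (nat_lit 702) (nat_lit 2280) (nat_lit 0) (XT.nd (nat_lit 312) (nat_lit 1596) (nat_lit 0) (XT.nd (nat_lit 156) (nat_lit 1140) (nat_lit 0) (XT.nd (nat_lit 78) (nat_lit 0) (nat_lit 0) (XT.lf (nat_lit 608) (nat_lit 2506290778) (nat_lit 0) (nat_lit 1249074991) (nat_lit 532) (nat_lit 1249074991) (nat_lit 273) (nat_lit 1) (nat_lit 265) (nat_lit 1) (nat_lit 272) (nat_lit 1) (nat_lit 365) (nat_lit 419) (nat_lit 356)) (XT.lf (nat_lit 76) (nat_lit 782400983) (nat_lit 0) (nat_lit 3399499108) (nat_lit 608) (nat_lit 782400983) (nat_lit 266) (nat_lit 1) (nat_lit 265) (nat_lit 1) (nat_lit 273) (nat_lit 1) (nat_lit 366) (nat_lit 419) (nat_lit 355))) (XT.nd (nat_lit 78) (nat_lit 608) (nat_lit 0) (XT.lf (nat_lit 608) (nat_lit 619408592) (nat_lit 0) (nat_lit 2152550658) (nat_lit 532) (nat_lit 2152550658) (nat_lit 266) (nat_lit 1) (nat_lit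 258) (nat_lit 1) (nat_lit 265) (nat_lit 1) (nat_lit 367) (nat_lit 419) (nat_lit 354)) (XT.lf (nat_lit 608) (nat_lit 4575837317) (nat_lit 0) (nat_lit 154750015) (nat_lit 532) (nat_lit 154750015) (nat_lit 258) (nat_lit 1) (nat_lit 250) (nat_lit 1) (nat_lit 257) (nat_lit 1) (nat_lit 368) (nat_lit 419) (nat_lit 353)))) (XT.nd (nat_lit 156) (nat_lit 1064) (nat_lit 0) (XT.nd (nat_lit 78) (nat_lit 532) (nat_lit 0) (XT.lf (nat_lit 76) (nat_lit 1802160035) (nat_lit 0) (nat_lit 1241939761) (nat_lit 608) (nat_lit 1802160035) (nat_lit 251) (nat_lit 1) (nat_lit 250) (nat_lit 1) (nat_lit 258) (nat_lit 1) (nat_lit 369) (nat_lit 419) (nat_lit 352)) (XT.lf (nat_lit 608) (nat_lit 2643681526) (nat_lit 0) (nat_lit 1082053404) (nat_lit 532) (nat_lit 1082053404) (nat_lit 251) (nat_lit 1) (nat_lit 243) (nat_lit 1) (nat_lit 250) (nat_lit 1) (nat_lit 370) (nat_lit 419) (nat_lit 351))) (XT.nd (nat_lit 78) (nat_lit 1064) (nat_lit 0) (XT.lf (nat_lit 76) (nat_lit 842185603) (nat_lit 0) (nat_lit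 3085356683) (nat_lit 608) (nat_lit 842185603) (nat_lit 244) (nat_lit 1) (nat_lit 243) (nat_lit 1) (nat_lit 251) (nat_lit 1) (nat_lit 371) (nat_lit 419) (nat_lit 350)) (XT.nd (nat_lit 78) (nat_lit 608) (nat_lit 0) (XT.lf (nat_lit 532) (nat_lit 723572493) (nat_lit 0) (nat_lit 2004221612) (nat_lit 456) (nat_lit 2004221612) (nat_lit 244) (nat_lit 1) (nat_lit 237) (nat_lit 1) (nat_lit 243) (nat_lit 1) (nat_lit 372) (nat_lit 419) (nat_lit 349)) (XT.lf (nat_lit 608) (nat_lit 4473180273) (nat_lit 0) (nat_lit 110855308) (nat_lit 532) (nat_lit 110855308) (nat_lit 237) (nat_lit 1) (nat_lit 229) (nat_lit 1) (nat_lit 236) (nat_lit 1) (nat_lit 373) (nat_lit 419) (nat_lit 348)))))) (XT.nd (nat_lit 312) (nat_lit 1368) (nat_lit 0) (XT.nd (nat_lit 156) (nat_lit 456) (nat_lit 0) (XT.nd (nat_lit 78) (nat_lit 456) (nat_lit 0) (XT.lf (nat_lit 76) (nat_lit 1744811558) (nat_lit 0) (nat_lit 1168197908) (nat_lit 608) (nat_lit 1744811558) (nat_lit 230) (nat_lit 1) (nat_lit 229) (nat_lit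 1) (nat_lit 237) (nat_lit 1) (nat_lit 374) (nat_lit 419) (nat_lit 347)) (XT.lf (nat_lit 532) (nat_lit 2517665881) (nat_lit 0) (nat_lit 1051830721) (nat_lit 456) (nat_lit 1051830721) (nat_lit 230) (nat_lit 1) (nat_lit 223) (nat_lit 1) (nat_lit 229) (nat_lit 1) (nat_lit 375) (nat_lit 419) (nat_lit 346))) (XT.nd (nat_lit 78) (nat_lit 456) (nat_lit 0) (XT.lf (nat_lit 76) (nat_lit 774046674) (nat_lit 0) (nat_lit 3037128911) (nat_lit 532) (nat_lit 774046674) (nat_lit 224) (nat_lit 1) (nat_lit 223) (nat_lit 1) (nat_lit 230) (nat_lit 1) (nat_lit 376) (nat_lit 419) (nat_lit 345)) (XT.lf (nat_lit 532) (nat_lit 577550929) (nat_lit 0) (nat_lit 1985941210) (nat_lit 456) (nat_lit 1985941210) (nat_lit 224) (nat_lit 1) (nat_lit 217) (nat_lit 1) (nat_lit 223) (nat_lit 1) (nat_lit 377) (nat_lit 419) (nat_lit 344)))) (XT.nd (nat_lit 156) (nat_lit 836) (nat_lit 0) (XT.nd (nat_lit 78) (nat_lit 0) (nat_lit 0) (XT.lf (nat_lit 532) (nat_lit 4138872092) (nat_lit 0) (nat_lit 187650326)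 (nat_lit 456) (nat_lit 187650326) (nat_lit 217) (nat_lit 1) (nat_lit 210) (nat_lit 1) (nat_lit 216) (nat_lit 1) (nat_lit 378) (nat_lit 419) (nat_lit 343)) (XT.lf (nat_lit 76) (nat_lit 1575038770) (nat_lit 0) (nat_lit 1328915010) (nat_lit 532) (nat_lit 1575038770) (nat_lit 211) (nat_lit 1) (nat_lit 210) (nat_lit 1) (nat_lit 217) (nat_lit 1) (nat_lit 379) (nat_lit 419) (nat_lit 342))) (XT.nd (nat_lit 78) (nat_lit 380) (nat_lit 0) (XT.lf (nat_lit 532) (nat_lit 2171928254) (nat_lit 0) (nat_lit 1136201240) (nat_lit 456) (nat_lit 1136201240) (nat_lit 211) (nat_lit 1) (nat_lit 204) (nat_lit 1) (nat_lit 210) (nat_lit 1) (nat_lit 380) (nat_lit 419) (nat_lit 341)) (XT.nd (nat_lit 78) (nat_lit 380) (nat_lit 0) (XT.lf (nat_lit 76) (nat_lit 599287367) (nat_lit 0) (nat_lit 3211491797) (nat_lit 532) (nat_lit 599287367) (nat_lit 205) (nat_lit 1) (nat_lit 204) (nat_lit 1) (nat_lit 211) (nat_lit 1) (nat_lit 381) (nat_lit 419) (nat_lit 340)) (XT.lf (nat_lit 456) (nat_lit 223178344)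 (nat_lit 0) (nat_lit 2076440776) (nat_lit 380) (nat_lit 2076440776) (nat_lit 205) (nat_lit 1) (nat_lit 199) (nat_lit 1) (nat_lit 204) (nat_lit 1) (nat_lit 382) (nat_lit 419) (nat_lit 339))))))))
noncomputable def ec103 : XT := (XT.nd (nat_lit 1404) (nat_lit 988) (nat_lit 0) (XT.nd (nat_lit 702) (nat_lit 2204) (nat_lit 0) (XT.nd (nat_lit 312) (nat_lit 1216) (nat_lit 0) (XT.nd (nat_lit 156) (nat_lit 380) (nat_lit 0) (XT.nd (nat_lit 78) (nat_lit 0) (nat_lit 0) (XT.lf (nat_lit 532) (nat_lit 3612761738) (nat_lit 0) (nat_lit 364868963) (nat_lit 456) (nat_lit 364868963) (nat_lit 199) (nat_lit 1) (nat_lit 192) (nat_lit 1) (nat_lit 198) (nat_lit 1) (nat_lit 383) (nat_lit 419) (nat_lit 338)) (XT.lf (nat_lit 76) (nat_lit 1312271778) (nat_lit 0) (nat_lit 1684556381) (nat_lit 532) (nat_lit 1312271778) (nat_lit 193) (nat_lit 1) (nat_lit 192) (nat_lit 1) (nat_lit 199) (nat_lit 1) (nat_lit 384) (nat_lit 419) (nat_lit 337))) (XT.nd (nat_lit 78) (nat_lit 0) (nat_lit 0) (XT.lf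 (nat_lit 456) (nat_lit 1644619592) (nat_lit 0) (nat_lit 1315759103) (nat_lit 380) (nat_lit 1315759103) (nat_lit 193) (nat_lit 1) (nat_lit 187) (nat_lit 1) (nat_lit 192) (nat_lit 1) (nat_lit 385) (nat_lit 419) (nat_lit 336)) (XT.lf (nat_lit 76) (nat_lit 336509152) (nat_lit 0) (nat_lit 3570590113) (nat_lit 456) (nat_lit 336509152) (nat_lit 188) (nat_lit 1) (nat_lit 187) (nat_lit 1) (nat_lit 193) (nat_lit 1) (nat_lit 386) (nat_lit 419) (nat_lit 335)))) (XT.nd (nat_lit 156) (nat_lit 380) (nat_lit 0) (XT.nd (nat_lit 78) (nat_lit 380) (nat_lit 0) (XT.lf (nat_lit 76) (nat_lit 1956084205) (nat_lit 0) (nat_lit 299048505) (nat_lit 456) (nat_lit 1956084205) (nat_lit 182) (nat_lit 1) (nat_lit 181) (nat_lit 1) (nat_lit 187) (nat_lit 1) (nat_lit 387) (nat_lit 419) (nat_lit 334)) (XT.lf (nat_lit 456) (nat_lit 2929606935) (nat_lit 0) (nat_lit 624821548) (nat_lit 380) (nat_lit 624821548) (nat_lit 182) (nat_lit 1) (nat_lit 176) (nat_lit 1) (nat_lit 181) (nat_lit 1) (nat_lit 388)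 (nat_lit 419) (nat_lit 333))) (XT.nd (nat_lit 78) (nat_lit 380) (nat_lit 0) (XT.lf (nat_lit 76) (nat_lit 973455000) (nat_lit 0) (nat_lit 2200619528) (nat_lit 456) (nat_lit 973455000) (nat_lit 177) (nat_lit 1) (nat_lit 176) (nat_lit 1) (nat_lit 182) (nat_lit 1) (nat_lit 389) (nat_lit 419) (nat_lit 332)) (XT.nd (nat_lit 78) (nat_lit 0) (nat_lit 0) (XT.lf (nat_lit 456) (nat_lit 969003872) (nat_lit 0) (nat_lit 1573571623) (nat_lit 380) (nat_lit 1573571623) (nat_lit 177) (nat_lit 1) (nat_lit 171) (nat_lit 1) (nat_lit 176) (nat_lit 1) (nat_lit 390) (nat_lit 419) (nat_lit 331)) (XT.lf (nat_lit 76) (nat_lit 1927564) (nat_lit 0) (nat_lit 4081399092) (nat_lit 456) (nat_lit 1927564) (nat_lit 172) (nat_lit 1) (nat_lit 171) (nat_lit 1) (nat_lit 177) (nat_lit 1) (nat_lit 391) (nat_lit 419) (nat_lit 330)))))) (XT.nd (nat_lit 312) (nat_lit 1140) (nat_lit 0) (XT.nd (nat_lit 156) (nat_lit 304) (nat_lit 0) (XT.nd (nat_lit 78) (nat_lit 380) (nat_lit 0) (XT.lf (nat_lit 76) (nat_lit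 1548902889) (nat_lit 0) (nat_lit 956508936) (nat_lit 380) (nat_lit 1548902889) (nat_lit 167) (nat_lit 1) (nat_lit 166) (nat_lit 1) (nat_lit 171) (nat_lit 1) (nat_lit 392) (nat_lit 419) (nat_lit 329)) (XT.lf (nat_lit 456) (nat_lit 2119670589) (nat_lit 0) (nat_lit 952093451) (nat_lit 380) (nat_lit 952093451) (nat_lit 167) (nat_lit 1) (nat_lit 161) (nat_lit 1) (nat_lit 166) (nat_lit 1) (nat_lit 393) (nat_lit 419) (nat_lit 328))) (XT.nd (nat_lit 78) (nat_lit 304) (nat_lit 0) (XT.lf (nat_lit 76) (nat_lit 573338483) (nat_lit 0) (nat_lit 2847045255) (nat_lit 456) (nat_lit 573338483) (nat_lit 162) (nat_lit 1) (nat_lit 161) (nat_lit 1) (nat_lit 167) (nat_lit 1) (nat_lit 394) (nat_lit 419) (nat_lit 327)) (XT.lf (nat_lit 380) (nat_lit 174031091) (nat_lit 0) (nat_lit 1894889742) (nat_lit 304) (nat_lit 1894889742) (nat_lit 162) (nat_lit 1) (nat_lit 157) (nat_lit 1) (nat_lit 161) (nat_lit 1) (nat_lit 395) (nat_lit 419) (nat_lit 326)))) (XT.nd (nat_lit 156) (nat_lit 684) (nat_lit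 0) (XT.nd (nat_lit 78) (nat_lit 0) (nat_lit 0) (XT.lf (nat_lit 456) (nat_lit 3158699737) (nat_lit 0) (nat_lit 387779832) (nat_lit 380) (nat_lit 387779832) (nat_lit 157) (nat_lit 1) (nat_lit 151) (nat_lit 1) (nat_lit 156) (nat_lit 1) (nat_lit 396) (nat_lit 419) (nat_lit 325)) (XT.lf (nat_lit 76) (nat_lit 1090026833) (nat_lit 0) (nat_lit 1724801671) (nat_lit 456) (nat_lit 1090026833) (nat_lit 152) (nat_lit 1) (nat_lit 151) (nat_lit 1) (nat_lit 157) (nat_lit 1) (nat_lit 397) (nat_lit 419) (nat_lit 324))) (XT.nd (nat_lit 78) (nat_lit 380) (nat_lit 0) (XT.lf (nat_lit 380) (nat_lit 1209249356) (nat_lit 0) (nat_lit 1333277986) (nat_lit 304) (nat_lit 1333277986) (nat_lit 152) (nat_lit 1) (nat_lit 147) (nat_lit 1) (nat_lit 151) (nat_lit 1) (nat_lit 398) (nat_lit 419) (nat_lit 323)) (XT.nd (nat_lit 78) (nat_lit 380) (nat_lit 0) (XT.lf (nat_lit 76) (nat_lit 124736074) (nat_lit 0) (nat_lit 3597695752) (nat_lit 380) (nat_lit 124736074) (nat_lit 148) (nat_lit 1) (nat_lit 147)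 (nat_lit 1) (nat_lit 152) (nat_lit 1) (nat_lit 399) (nat_lit 419) (nat_lit 322)) (XT.lf (nat_lit 76) (nat_lit 1556379733) (nat_lit 0) (nat_lit 705775561) (nat_lit 380) (nat_lit 1556379733) (nat_lit 143) (nat_lit 1) (nat_lit 142) (nat_lit 1) (nat_lit 147) (nat_lit 1) (nat_lit 400) (nat_lit 419) (nat_lit 321))))))) (XT.nd (nat_lit 53118) (nat_lit 0) (nat_lit 24928) (XT.nd (nat_lit 312) (nat_lit 0) (nat_lit 0) (XT.nd (nat_lit 156) (nat_lit 684) (nat_lit 0) (XT.nd (nat_lit 78) (nat_lit 0) (nat_lit 0) (XT.lf (nat_lit 380) (nat_lit 2145072749) (nat_lit 0) (nat_lit 822618029) (nat_lit 304) (nat_lit 822618029) (nat_lit 143) (nat_lit 1) (nat_lit 138) (nat_lit 1) (nat_lit 142) (nat_lit 1) (nat_lit 401) (nat_lit 419) (nat_lit 320)) (XT.lf (nat_lit 76) (nat_lit 591077250) (nat_lit 0) (nat_lit 2580202996) (nat_lit 380) (nat_lit 591077250) (nat_lit 139) (nat_lit 1) (nat_lit 138) (nat_lit 1) (nat_lit 143) (nat_lit 1) (nat_lit 402) (nat_lit 419) (nat_lit 319))) (XT.nd (nat_lit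 78) (nat_lit 380) (nat_lit 0) (XT.lf (nat_lit 380) (nat_lit 221141983) (nat_lit 0) (nat_lit 1756739712) (nat_lit 304) (nat_lit 1756739712) (nat_lit 139) (nat_lit 1) (nat_lit 134) (nat_lit 1) (nat_lit 138) (nat_lit 1) (nat_lit 403) (nat_lit 419) (nat_lit 318)) (XT.lf (nat_lit 380) (nat_lit 2989473749) (nat_lit 0) (nat_lit 358869216) (nat_lit 304) (nat_lit 358869216) (nat_lit 134) (nat_lit 1) (nat_lit 129) (nat_lit 1) (nat_lit 133) (nat_lit 1) (nat_lit 404) (nat_lit 419) (nat_lit 317)))) (XT.nd (nat_lit 52572) (nat_lit 0) (nat_lit 28652) (XT.nd (nat_lit 52494) (nat_lit 0) (nat_lit 28576) (XT.lf (nat_lit 76) (nat_lit 1012574209) (nat_lit 0) (nat_lit 1654775629) (nat_lit 380) (nat_lit 1012574209) (nat_lit 130) (nat_lit 1) (nat_lit 129) (nat_lit 1) (nat_lit 134) (nat_lit 1) (nat_lit 405) (nat_lit 419) (nat_lit 316)) (XT.lf (nat_lit 1900) (nat_lit 1442173575) (nat_lit 76) (nat_lit 3083110403) (nat_lit 0) (nat_lit 3083110403) (nat_lit 530) (nat_lit 1) (nat_lit 506)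 (nat_lit 1) (nat_lit 505) (nat_lit 1) (nat_lit 317) (nat_lit 420) (nat_lit 403))) (XT.nd (nat_lit 78) (nat_lit 0) (nat_lit 0) (XT.lf (nat_lit 1900) (nat_lit 502360053) (nat_lit 0) (nat_lit 6533173929) (nat_lit 1824) (nat_lit 502360053) (nat_lit 531) (nat_lit 1) (nat_lit 506) (nat_lit 1) (nat_lit 530) (nat_lit 1) (nat_lit 318) (nat_lit 420) (nat_lit 402)) (XT.nd (nat_lit 78) (nat_lit 0) (nat_lit 76) (XT.lf (nat_lit 1900) (nat_lit 532862748) (nat_lit 76) (nat_lit 3467535264) (nat_lit 0) (nat_lit 3467535264) (nat_lit 531) (nat_lit 1) (nat_lit 507) (nat_lit 1) (nat_lit 506) (nat_lit 1) (nat_lit 319) (nat_lit 420) (nat_lit 401)) (XT.lf (nat_lit 1900) (nat_lit 33364301) (nat_lit 0) (nat_lit 7332546499) (nat_lit 1824) (nat_lit 33364301) (nat_lit 532) (nat_lit 1) (nat_lit 507) (nat_lit 1) (nat_lit 531) (nat_lit 1) (nat_lit 320) (nat_lit 420) (nat_lit 400)))))) (XT.nd (nat_lit 312) (nat_lit 1900) (nat_lit 0) (XT.nd (nat_lit 156) (nat_lit 0) (nat_lit 76) (XT.nd (nat_lit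 78) (nat_lit 0) (nat_lit 0) (XT.lf (nat_lit 1976) (nat_lit 3449102664) (nat_lit 0) (nat_lit 432755007) (nat_lit 1900) (nat_lit 3449102664) (nat_lit 508) (nat_lit 1) (nat_lit 482) (nat_lit 1) (nat_lit 507) (nat_lit 1) (nat_lit 321) (nat_lit 420) (nat_lit 399)) (XT.lf (nat_lit 1976) (nat_lit 6339106528) (nat_lit 76) (nat_lit 462402836) (nat_lit 0) (nat_lit 462402836) (nat_lit 508) (nat_lit 1) (nat_lit 483) (nat_lit 1) (nat_lit 482) (nat_lit 1) (nat_lit 322) (nat_lit 420) (nat_lit 398))) (XT.nd (nat_lit 78) (nat_lit 0) (nat_lit 0) (XT.lf (nat_lit 1976) (nat_lit 2874494805) (nat_lit 0) (nat_lit 1448365971) (nat_lit 1900) (nat_lit 2874494805) (nat_lit 509) (nat_lit 1) (nat_lit 483) (nat_lit 1) (nat_lit 508) (nat_lit 1) (nat_lit 323) (nat_lit 420) (nat_lit 397)) (XT.lf (nat_lit 1976) (nat_lit 5160914891) (nat_lit 76) (nat_lit 985501133) (nat_lit 0) (nat_lit 985501133) (nat_lit 509) (nat_lit 1) (nat_lit 484) (nat_lit 1) (nat_lit 483) (nat_lit 1) (nat_lit 324) (nat_lit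 420) (nat_lit 396)))) (XT.nd (nat_lit 156) (nat_lit 912) (nat_lit 0) (XT.nd (nat_lit 78) (nat_lit 1140) (nat_lit 0) (XT.lf (nat_lit 76) (nat_lit 2275096401) (nat_lit 0) (nat_lit 2516898875) (nat_lit 1900) (nat_lit 2275096401) (nat_lit 485) (nat_lit 1) (nat_lit 484) (nat_lit 1) (nat_lit 509) (nat_lit 1) (nat_lit 325) (nat_lit 420) (nat_lit 395)) (XT.lf (nat_lit 1216) (nat_lit 3934887113) (nat_lit 0) (nat_lit 1534162748) (nat_lit 1140) (nat_lit 1534162748) (nat_lit 485) (nat_lit 1) (nat_lit 469) (nat_lit 1) (nat_lit 484) (nat_lit 1) (nat_lit 326) (nat_lit 420) (nat_lit 394))) (XT.nd (nat_lit 78) (nat_lit 912) (nat_lit 0) (XT.lf (nat_lit 76) (nat_lit 1652793693) (nat_lit 0) (nat_lit 3634487727) (nat_lit 1216) (nat_lit 1652793693) (nat_lit 470) (nat_lit 1) (nat_lit 469) (nat_lit 1) (nat_lit 485) (nat_lit 1) (nat_lit 327) (nat_lit 420) (nat_lit 393)) (XT.nd (nat_lit 78) (nat_lit 0) (nat_lit 0) (XT.lf (nat_lit 988) (nat_lit 2664715765) (nat_lit 0) (nat_lit 2106495498)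 (nat_lit 912) (nat_lit 2106495498) (nat_lit 470) (nat_lit 1) (nat_lit 457) (nat_lit 1) (nat_lit 469) (nat_lit 1) (nat_lit 328) (nat_lit 420) (nat_lit 392)) (XT.lf (nat_lit 76) (nat_lit 1009381565) (nat_lit 0) (nat_lit 4797452166) (nat_lit 988) (nat_lit 1009381565) (nat_lit 458) (nat_lit 1) (nat_lit 457) (nat_lit 1) (nat_lit 470) (nat_lit 1) (nat_lit 329) (nat_lit 420) (nat_lit 391))))))))
noncomputable def ec104 : XT := (XT.nd (nat_lit 1404) (nat_lit 6916) (nat_lit 0) (XT.nd (nat_lit 702) (nat_lit 3800) (nat_lit 0) (XT.nd (nat_lit 312) (nat_lit 1672) (nat_lit 0) (XT.nd (nat_lit 156) (nat_lit 1824) (nat_lit 0) (XT.nd (nat_lit 78) (nat_lit 0) (nat_lit 0) (XT.lf (nat_lit 988) (nat_lit 1353914048) (nat_lit 0) (nat_lit 2700698316) (nat_lit 912) (nat_lit 2700698316) (nat_lit 458) (nat_lit 1) (nat_lit 445) (nat_lit 1) (nat_lit 457) (nat_lit 1) (nat_lit 330) (nat_lit 420) (nat_lit 390)) (XT.lf (nat_lit 76) (nat_lit 346567452) (nat_lit 0) (nat_lit 6002289558) (nat_lit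 988) (nat_lit 346567452) (nat_lit 446) (nat_lit 1) (nat_lit 445) (nat_lit 1) (nat_lit 458) (nat_lit 1) (nat_lit 331) (nat_lit 420) (nat_lit 389))) (XT.nd (nat_lit 78) (nat_lit 988) (nat_lit 0) (XT.lf (nat_lit 912) (nat_lit 5823467) (nat_lit 0) (nat_lit 3315057364) (nat_lit 836) (nat_lit 3315057364) (nat_lit 446) (nat_lit 1) (nat_lit 434) (nat_lit 1) (nat_lit 445) (nat_lit 1) (nat_lit 332) (nat_lit 420) (nat_lit 388)) (XT.lf (nat_lit 988) (nat_lit 5913788715) (nat_lit 0) (nat_lit 331827387) (nat_lit 912) (nat_lit 331827387) (nat_lit 434) (nat_lit 1) (nat_lit 421) (nat_lit 1) (nat_lit 433) (nat_lit 1) (nat_lit 333) (nat_lit 420) (nat_lit 387)))) (XT.nd (nat_lit 156) (nat_lit 836) (nat_lit 0) (XT.nd (nat_lit 78) (nat_lit 836) (nat_lit 0) (XT.lf (nat_lit 76) (nat_lit 2580499859) (nat_lit 0) (nat_lit 1358327355) (nat_lit 988) (nat_lit 2580499859) (nat_lit 422) (nat_lit 1) (nat_lit 421) (nat_lit 1) (nat_lit 434) (nat_lit 1) (nat_lit 334) (nat_lit 420) (nat_lit 386))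 (XT.lf (nat_lit 912) (nat_lit 4414034927) (nat_lit 0) (nat_lit 1024070022) (nat_lit 836) (nat_lit 1024070022) (nat_lit 422) (nat_lit 1) (nat_lit 410) (nat_lit 1) (nat_lit 421) (nat_lit 1) (nat_lit 335) (nat_lit 420) (nat_lit 385))) (XT.nd (nat_lit 78) (nat_lit 836) (nat_lit 0) (XT.lf (nat_lit 76) (nat_lit 1826242242) (nat_lit 0) (nat_lit 2753085839) (nat_lit 912) (nat_lit 1826242242) (nat_lit 411) (nat_lit 1) (nat_lit 410) (nat_lit 1) (nat_lit 422) (nat_lit 1) (nat_lit 336) (nat_lit 420) (nat_lit 384)) (XT.nd (nat_lit 78) (nat_lit 0) (nat_lit 0) (XT.lf (nat_lit 912) (nat_lit 2887753996) (nat_lit 0) (nat_lit 1730983213) (nat_lit 836) (nat_lit 1730983213) (nat_lit 411) (nat_lit 1) (nat_lit 399) (nat_lit 1) (nat_lit 410) (nat_lit 1) (nat_lit 337) (nat_lit 420) (nat_lit 383)) (XT.lf (nat_lit 76) (nat_lit 1059447012) (nat_lit 0) (nat_lit 4175696611) (nat_lit 912) (nat_lit 1059447012) (nat_lit 400) (nat_lit 1) (nat_lit 399) (nat_lit 1) (nat_lit 411) (nat_lit 1) (nat_lit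 338) (nat_lit 420) (nat_lit 382)))))) (XT.nd (nat_lit 312) (nat_lit 1444) (nat_lit 0) (XT.nd (nat_lit 156) (nat_lit 1596) (nat_lit 0) (XT.nd (nat_lit 78) (nat_lit 0) (nat_lit 0) (XT.lf (nat_lit 836) (nat_lit 1337638050) (nat_lit 0) (nat_lit 2451182556) (nat_lit 760) (nat_lit 2451182556) (nat_lit 400) (nat_lit 1) (nat_lit 389) (nat_lit 1) (nat_lit 399) (nat_lit 1) (nat_lit 339) (nat_lit 420) (nat_lit 381)) (XT.lf (nat_lit 76) (nat_lit 281421145) (nat_lit 0) (nat_lit 5623470046) (nat_lit 836) (nat_lit 281421145) (nat_lit 390) (nat_lit 1) (nat_lit 389) (nat_lit 1) (nat_lit 400) (nat_lit 1) (nat_lit 340) (nat_lit 420) (nat_lit 380))) (XT.nd (nat_lit 78) (nat_lit 760) (nat_lit 0) (XT.lf (nat_lit 76) (nat_lit 2951113183) (nat_lit 0) (nat_lit 230692130) (nat_lit 836) (nat_lit 2951113183) (nat_lit 379) (nat_lit 1) (nat_lit 378) (nat_lit 1) (nat_lit 389) (nat_lit 1) (nat_lit 341) (nat_lit 420) (nat_lit 379)) (XT.lf (nat_lit 836) (nat_lit 5073873344) (nat_lit 0) (nat_lit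 503262351) (nat_lit 760) (nat_lit 503262351) (nat_lit 379) (nat_lit 1) (nat_lit 368) (nat_lit 1) (nat_lit 378) (nat_lit 1) (nat_lit 342) (nat_lit 420) (nat_lit 378)))) (XT.nd (nat_lit 156) (nat_lit 684) (nat_lit 0) (XT.nd (nat_lit 78) (nat_lit 760) (nat_lit 0) (XT.lf (nat_lit 76) (nat_lit 2114080364) (nat_lit 0) (nat_lit 1800087822) (nat_lit 836) (nat_lit 2114080364) (nat_lit 369) (nat_lit 1) (nat_lit 368) (nat_lit 1) (nat_lit 379) (nat_lit 1) (nat_lit 343) (nat_lit 420) (nat_lit 377)) (XT.lf (nat_lit 836) (nat_lit 3387188028) (nat_lit 0) (nat_lit 1294850677) (nat_lit 760) (nat_lit 1294850677) (nat_lit 369) (nat_lit 1) (nat_lit 358) (nat_lit 1) (nat_lit 368) (nat_lit 1) (nat_lit 344) (nat_lit 420) (nat_lit 376))) (XT.nd (nat_lit 78) (nat_lit 684) (nat_lit 0) (XT.lf (nat_lit 76) (nat_lit 1270136640) (nat_lit 0) (nat_lit 3385824140) (nat_lit 836) (nat_lit 1270136640) (nat_lit 359) (nat_lit 1) (nat_lit 358) (nat_lit 1) (nat_lit 369) (nat_lit 1) (nat_lit 345) (nat_lit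 420) (nat_lit 375)) (XT.nd (nat_lit 78) (nat_lit 0) (nat_lit 0) (XT.lf (nat_lit 760) (nat_lit 1687689546) (nat_lit 0) (nat_lit 2094087533) (nat_lit 684) (nat_lit 2094087533) (nat_lit 359) (nat_lit 1) (nat_lit 349) (nat_lit 1) (nat_lit 358) (nat_lit 1) (nat_lit 346) (nat_lit 420) (nat_lit 374)) (XT.lf (nat_lit 76) (nat_lit 420323194) (nat_lit 0) (nat_lit 4985751221) (nat_lit 760) (nat_lit 420323194) (nat_lit 350) (nat_lit 1) (nat_lit 349) (nat_lit 1) (nat_lit 359) (nat_lit 1) (nat_lit 347) (nat_lit 420) (nat_lit 373))))))) (XT.nd (nat_lit 702) (nat_lit 2888) (nat_lit 0) (XT.nd (nat_lit 312) (nat_lit 1900) (nat_lit 0) (XT.nd (nat_lit 156) (nat_lit 684) (nat_lit 0) (XT.nd (nat_lit 78) (nat_lit 684) (nat_lit 0) (XT.lf (nat_lit 76) (nat_lit 2877480820) (nat_lit 0) (nat_lit 22292815) (nat_lit 760) (nat_lit 2877480820) (nat_lit 340) (nat_lit 1) (nat_lit 339) (nat_lit 1) (nat_lit 349) (nat_lit 1) (nat_lit 348) (nat_lit 420) (nat_lit 372)) (XT.lf (nat_lit 760) (nat_lit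 4865823956) (nat_lit 0) (nat_lit 431516652) (nat_lit 684) (nat_lit 431516652) (nat_lit 340) (nat_lit 1) (nat_lit 330) (nat_lit 1) (nat_lit 339) (nat_lit 1) (nat_lit 349) (nat_lit 420) (nat_lit 371))) (XT.nd (nat_lit 78) (nat_lit 684) (nat_lit 0) (XT.lf (nat_lit 76) (nat_lit 1980948171) (nat_lit 0) (nat_lit 1718880843) (nat_lit 760) (nat_lit 1980948171) (nat_lit 331) (nat_lit 1) (nat_lit 330) (nat_lit 1) (nat_lit 340) (nat_lit 1) (nat_lit 350) (nat_lit 420) (nat_lit 370)) (XT.lf (nat_lit 760) (nat_lit 3064384375) (nat_lit 0) (nat_lit 1284516875) (nat_lit 684) (nat_lit 1284516875) (nat_lit 331) (nat_lit 1) (nat_lit 321) (nat_lit 1) (nat_lit 330) (nat_lit 1) (nat_lit 351) (nat_lit 420) (nat_lit 369)))) (XT.nd (nat_lit 156) (nat_lit 1292) (nat_lit 0) (XT.nd (nat_lit 78) (nat_lit 608) (nat_lit 0) (XT.lf (nat_lit 76) (nat_lit 1082088372) (nat_lit 0) (nat_lit 3422413008) (nat_lit 760) (nat_lit 1082088372) (nat_lit 322) (nat_lit 1) (nat_lit 321) (nat_lit 1) (nat_lit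 331) (nat_lit 1) (nat_lit 352) (nat_lit 420) (nat_lit 368)) (XT.lf (nat_lit 684) (nat_lit 1259104368) (nat_lit 0) (nat_lit 2140566863) (nat_lit 608) (nat_lit 2140566863) (nat_lit 322) (nat_lit 1) (nat_lit 313) (nat_lit 1) (nat_lit 321) (nat_lit 1) (nat_lit 353) (nat_lit 420) (nat_lit 367))) (XT.nd (nat_lit 78) (nat_lit 1292) (nat_lit 0) (XT.lf (nat_lit 76) (nat_lit 181720035) (nat_lit 0) (nat_lit 5131191724) (nat_lit 684) (nat_lit 181720035) (nat_lit 314) (nat_lit 1) (nat_lit 313) (nat_lit 1) (nat_lit 322) (nat_lit 1) (nat_lit 354) (nat_lit 420) (nat_lit 366)) (XT.nd (nat_lit 78) (nat_lit 608) (nat_lit 0) (XT.lf (nat_lit 76) (nat_lit 2453979604) (nat_lit 0) (nat_lit 541227395) (nat_lit 684) (nat_lit 2453979604) (nat_lit 305) (nat_lit 1) (nat_lit 304) (nat_lit 1) (nat_lit 313) (nat_lit 1) (nat_lit 355) (nat_lit 420) (nat_lit 365)) (XT.lf (nat_lit 684) (nat_lit 3975166827) (nat_lit 0) (nat_lit 714651501) (nat_lit 608) (nat_lit 714651501) (nat_lit 305) (nat_lit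 1) (nat_lit 296) (nat_lit 1) (nat_lit 304) (nat_lit 1) (nat_lit 356) (nat_lit 420) (nat_lit 364)))))) (XT.nd (nat_lit 312) (nat_lit 1748) (nat_lit 0) (XT.nd (nat_lit 156) (nat_lit 532) (nat_lit 0) (XT.nd (nat_lit 78) (nat_lit 608) (nat_lit 0) (XT.lf (nat_lit 76) (nat_lit 1517169441) (nat_lit 0) (nat_lit 2325774782) (nat_lit 684) (nat_lit 1517169441) (nat_lit 297) (nat_lit 1) (nat_lit 296) (nat_lit 1) (nat_lit 305) (nat_lit 1) (nat_lit 357) (nat_lit 420) (nat_lit 363)) (XT.lf (nat_lit 684) (nat_lit 2096657397) (nat_lit 0) (nat_lit 1609834905) (nat_lit 608) (nat_lit 1609834905) (nat_lit 297) (nat_lit 1) (nat_lit 288) (nat_lit 1) (nat_lit 296) (nat_lit 1) (nat_lit 358) (nat_lit 420) (nat_lit 362))) (XT.nd (nat_lit 78) (nat_lit 532) (nat_lit 0) (XT.lf (nat_lit 76) (nat_lit 581738337) (nat_lit 0) (nat_lit 4109650378) (nat_lit 684) (nat_lit 581738337) (nat_lit 289) (nat_lit 1) (nat_lit 288) (nat_lit 1) (nat_lit 297) (nat_lit 1) (nat_lit 359) (nat_lit 420) (nat_lit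 361)) (XT.lf (nat_lit 608) (nat_lit 221556438) (nat_lit 0) (nat_lit 2504343688) (nat_lit 532) (nat_lit 2504343688) (nat_lit 289) (nat_lit 1) (nat_lit 281) (nat_lit 1) (nat_lit 288) (nat_lit 1) (nat_lit 360) (nat_lit 420) (nat_lit 360)))) (XT.nd (nat_lit 156) (nat_lit 1064) (nat_lit 0) (XT.nd (nat_lit 78) (nat_lit 0) (nat_lit 0) (XT.lf (nat_lit 684) (nat_lit 4489254725) (nat_lit 0) (nat_lit 349367326) (nat_lit 608) (nat_lit 349367326) (nat_lit 281) (nat_lit 1) (nat_lit 272) (nat_lit 1) (nat_lit 280) (nat_lit 1) (nat_lit 361) (nat_lit 420) (nat_lit 359)) (XT.lf (nat_lit 76) (nat_lit 1759336522) (nat_lit 0) (nat_lit 1627279262) (nat_lit 684) (nat_lit 1759336522) (nat_lit 273) (nat_lit 1) (nat_lit 272) (nat_lit 1) (nat_lit 281) (nat_lit 1) (nat_lit 362) (nat_lit 420) (nat_lit 358))) (XT.nd (nat_lit 78) (nat_lit 532) (nat_lit 0) (XT.lf (nat_lit 608) (nat_lit 2556416594) (nat_lit 0) (nat_lit 1274056490) (nat_lit 532) (nat_lit 1274056490) (nat_lit 273) (nat_lit 1) (nat_lit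 265) (nat_lit 1) (nat_lit 272) (nat_lit 1) (nat_lit 363) (nat_lit 420) (nat_lit 357)) (XT.nd (nat_lit 78) (nat_lit 532) (nat_lit 0) (XT.lf (nat_lit 76) (nat_lit 798049002) (nat_lit 0) (nat_lit 3467489090) (nat_lit 608) (nat_lit 798049002) (nat_lit 266) (nat_lit 1) (nat_lit 265) (nat_lit 1) (nat_lit 273) (nat_lit 1) (nat_lit 364) (nat_lit 420) (nat_lit 356)) (XT.lf (nat_lit 608) (nat_lit 631796764) (nat_lit 0) (nat_lit 2195601671) (nat_lit 532) (nat_lit 2195601671) (nat_lit 266) (nat_lit 1) (nat_lit 258) (nat_lit 1) (nat_lit 265) (nat_lit 1) (nat_lit 365) (nat_lit 420) (nat_lit 355))))))))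
noncomputable def ec105 : XT := (XT.nd (nat_lit 1404) (nat_lit 4028) (nat_lit 0) (XT.nd (nat_lit 702) (nat_lit 2736) (nat_lit 0) (XT.nd (nat_lit 312) (nat_lit 1520) (nat_lit 0) (XT.nd (nat_lit 156) (nat_lit 532) (nat_lit 0) (XT.nd (nat_lit 78) (nat_lit 0) (nat_lit 0) (XT.lf (nat_lit 608) (nat_lit 4667354064) (nat_lit 0) (nat_lit 157845015) (nat_lit 532) (nat_lit 157845015) (nat_lit 258) (nat_lit 1) (nat_lit 250) (nat_lit 1) (nat_lit 257) (nat_lit 1) (nat_lit 366) (nat_lit 420) (nat_lit 354)) (XT.lf (nat_lit 76) (nat_lit 1838203236) (nat_lit 0) (nat_lit 1266778557) (nat_lit 608) (nat_lit 1838203236) (nat_lit 251) (nat_lit 1) (nat_lit 250) (nat_lit 1) (nat_lit 258) (nat_lit 1) (nat_lit 367) (nat_lit 420) (nat_lit 353))) (XT.nd (nat_lit 78) (nat_lit 0) (nat_lit 0) (XT.lf (nat_lit 608) (nat_lit 2696555156) (nat_lit 0) (nat_lit 1103694472) (nat_lit 532) (nat_lit 1103694472) (nat_lit 251) (nat_lit 1) (nat_lit 243) (nat_lit 1) (nat_lit 250) (nat_lit 1) (nat_lit 368)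 (nat_lit 420) (nat_lit 352)) (XT.lf (nat_lit 76) (nat_lit 859029315) (nat_lit 0) (nat_lit 3147063816) (nat_lit 608) (nat_lit 859029315) (nat_lit 244) (nat_lit 1) (nat_lit 243) (nat_lit 1) (nat_lit 251) (nat_lit 1) (nat_lit 369) (nat_lit 420) (nat_lit 351)))) (XT.nd (nat_lit 156) (nat_lit 456) (nat_lit 0) (XT.nd (nat_lit 78) (nat_lit 608) (nat_lit 0) (XT.lf (nat_lit 532) (nat_lit 738043943) (nat_lit 0) (nat_lit 2044306045) (nat_lit 456) (nat_lit 2044306045) (nat_lit 244) (nat_lit 1) (nat_lit 237) (nat_lit 1) (nat_lit 243) (nat_lit 1) (nat_lit 370) (nat_lit 420) (nat_lit 350)) (XT.lf (nat_lit 608) (nat_lit 4562643878) (nat_lit 0) (nat_lit 113072414) (nat_lit 532) (nat_lit 113072414) (nat_lit 237) (nat_lit 1) (nat_lit 229) (nat_lit 1) (nat_lit 236) (nat_lit 1) (nat_lit 371) (nat_lit 420) (nat_lit 349))) (XT.nd (nat_lit 78) (nat_lit 456) (nat_lit 0) (XT.lf (nat_lit 76) (nat_lit 1779707789) (nat_lit 0) (nat_lit 1191561867) (nat_lit 608) (nat_lit 1779707789) (nat_lit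 230) (nat_lit 1) (nat_lit 229) (nat_lit 1) (nat_lit 237) (nat_lit 1) (nat_lit 372) (nat_lit 420) (nat_lit 348)) (XT.nd (nat_lit 78) (nat_lit 0) (nat_lit 0) (XT.lf (nat_lit 532) (nat_lit 2568019199) (nat_lit 0) (nat_lit 1072867335) (nat_lit 456) (nat_lit 1072867335) (nat_lit 230) (nat_lit 1) (nat_lit 223) (nat_lit 1) (nat_lit 229) (nat_lit 1) (nat_lit 373) (nat_lit 420) (nat_lit 347)) (XT.lf (nat_lit 76) (nat_lit 789527607) (nat_lit 0) (nat_lit 3097871489) (nat_lit 532) (nat_lit 789527607) (nat_lit 224) (nat_lit 1) (nat_lit 223) (nat_lit 1) (nat_lit 230) (nat_lit 1) (nat_lit 374) (nat_lit 420) (nat_lit 346)))))) (XT.nd (nat_lit 312) (nat_lit 1292) (nat_lit 0) (XT.nd (nat_lit 156) (nat_lit 456) (nat_lit 0) (XT.nd (nat_lit 78) (nat_lit 532) (nat_lit 0) (XT.lf (nat_lit 532) (nat_lit 589101947) (nat_lit 0) (nat_lit 2025660034) (nat_lit 456) (nat_lit 2025660034) (nat_lit 224) (nat_lit 1) (nat_lit 217) (nat_lit 1) (nat_lit 223) (nat_lit 1) (nat_lit 375) (nat_lit 420)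 (nat_lit 345)) (XT.lf (nat_lit 532) (nat_lit 4221649534) (nat_lit 0) (nat_lit 191403332) (nat_lit 456) (nat_lit 191403332) (nat_lit 217) (nat_lit 1) (nat_lit 210) (nat_lit 1) (nat_lit 216) (nat_lit 1) (nat_lit 376) (nat_lit 420) (nat_lit 344))) (XT.nd (nat_lit 78) (nat_lit 456) (nat_lit 0) (XT.lf (nat_lit 76) (nat_lit 1606539545) (nat_lit 0) (nat_lit 1355493311) (nat_lit 532) (nat_lit 1606539545) (nat_lit 211) (nat_lit 1) (nat_lit 210) (nat_lit 1) (nat_lit 217) (nat_lit 1) (nat_lit 377) (nat_lit 420) (nat_lit 343)) (XT.lf (nat_lit 532) (nat_lit 2215366819) (nat_lit 0) (nat_lit 1158925265) (nat_lit 456) (nat_lit 1158925265) (nat_lit 211) (nat_lit 1) (nat_lit 204) (nat_lit 1) (nat_lit 210) (nat_lit 1) (nat_lit 378) (nat_lit 420) (nat_lit 342)))) (XT.nd (nat_lit 156) (nat_lit 912) (nat_lit 0) (XT.nd (nat_lit 78) (nat_lit 380) (nat_lit 0) (XT.lf (nat_lit 76) (nat_lit 611273115) (nat_lit 0) (nat_lit 3275721633) (nat_lit 532) (nat_lit 611273115) (nat_lit 205) (nat_lit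 1) (nat_lit 204) (nat_lit 1) (nat_lit 211) (nat_lit 1) (nat_lit 379) (nat_lit 420) (nat_lit 341)) (XT.lf (nat_lit 456) (nat_lit 227641911) (nat_lit 0) (nat_lit 2117969592) (nat_lit 380) (nat_lit 2117969592) (nat_lit 205) (nat_lit 1) (nat_lit 199) (nat_lit 1) (nat_lit 204) (nat_lit 1) (nat_lit 380) (nat_lit 420) (nat_lit 340))) (XT.nd (nat_lit 78) (nat_lit 380) (nat_lit 0) (XT.lf (nat_lit 532) (nat_lit 3685016973) (nat_lit 0) (nat_lit 372166343) (nat_lit 456) (nat_lit 372166343) (nat_lit 199) (nat_lit 1) (nat_lit 192) (nat_lit 1) (nat_lit 198) (nat_lit 1) (nat_lit 381) (nat_lit 420) (nat_lit 339)) (XT.nd (nat_lit 78) (nat_lit 380) (nat_lit 0) (XT.lf (nat_lit 76) (nat_lit 1338517213) (nat_lit 0) (nat_lit 1718247509) (nat_lit 532) (nat_lit 1338517213) (nat_lit 193) (nat_lit 1) (nat_lit 192) (nat_lit 1) (nat_lit 199) (nat_lit 1) (nat_lit 382) (nat_lit 420) (nat_lit 338)) (XT.lf (nat_lit 456) (nat_lit 1677511984) (nat_lit 0) (nat_lit 1342074285) (nat_lit 380) (nat_lit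 1342074285) (nat_lit 193) (nat_lit 1) (nat_lit 187) (nat_lit 1) (nat_lit 192) (nat_lit 1) (nat_lit 383) (nat_lit 420) (nat_lit 337))))))) (XT.nd (nat_lit 702) (nat_lit 2052) (nat_lit 0) (XT.nd (nat_lit 312) (nat_lit 1140) (nat_lit 0) (XT.nd (nat_lit 156) (nat_lit 380) (nat_lit 0) (XT.nd (nat_lit 78) (nat_lit 456) (nat_lit 0) (XT.lf (nat_lit 76) (nat_lit 343239335) (nat_lit 0) (nat_lit 3642001916) (nat_lit 456) (nat_lit 343239335) (nat_lit 188) (nat_lit 1) (nat_lit 187) (nat_lit 1) (nat_lit 193) (nat_lit 1) (nat_lit 384) (nat_lit 420) (nat_lit 336)) (XT.lf (nat_lit 76) (nat_lit 1995205889) (nat_lit 0) (nat_lit 305029475) (nat_lit 456) (nat_lit 1995205889) (nat_lit 182) (nat_lit 1) (nat_lit 181) (nat_lit 1) (nat_lit 187) (nat_lit 1) (nat_lit 385) (nat_lit 420) (nat_lit 335))) (XT.nd (nat_lit 78) (nat_lit 0) (nat_lit 0) (XT.lf (nat_lit 456) (nat_lit 2988199074) (nat_lit 0) (nat_lit 637317979) (nat_lit 380) (nat_lit 637317979) (nat_lit 182) (nat_lit 1) (nat_lit 176)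 (nat_lit 1) (nat_lit 181) (nat_lit 1) (nat_lit 386) (nat_lit 420) (nat_lit 334)) (XT.lf (nat_lit 76) (nat_lit 992924100) (nat_lit 0) (nat_lit 2244631919) (nat_lit 456) (nat_lit 992924100) (nat_lit 177) (nat_lit 1) (nat_lit 176) (nat_lit 1) (nat_lit 182) (nat_lit 1) (nat_lit 387) (nat_lit 420) (nat_lit 333)))) (XT.nd (nat_lit 156) (nat_lit 760) (nat_lit 0) (XT.nd (nat_lit 78) (nat_lit 0) (nat_lit 0) (XT.lf (nat_lit 456) (nat_lit 988383949) (nat_lit 0) (nat_lit 1605043055) (nat_lit 380) (nat_lit 1605043055) (nat_lit 177) (nat_lit 1) (nat_lit 171) (nat_lit 1) (nat_lit 176) (nat_lit 1) (nat_lit 388) (nat_lit 420) (nat_lit 332)) (XT.lf (nat_lit 76) (nat_lit 1966116) (nat_lit 0) (nat_lit 4163027073) (nat_lit 456) (nat_lit 1966116) (nat_lit 172) (nat_lit 1) (nat_lit 171) (nat_lit 1) (nat_lit 177) (nat_lit 1) (nat_lit 389) (nat_lit 420) (nat_lit 331))) (XT.nd (nat_lit 78) (nat_lit 380) (nat_lit 0) (XT.lf (nat_lit 76) (nat_lit 1579880947) (nat_lit 0) (nat_lit 975639115)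 (nat_lit 380) (nat_lit 1579880947) (nat_lit 167) (nat_lit 1) (nat_lit 166) (nat_lit 1) (nat_lit 171) (nat_lit 1) (nat_lit 390) (nat_lit 420) (nat_lit 330)) (XT.nd (nat_lit 78) (nat_lit 0) (nat_lit 0) (XT.lf (nat_lit 456) (nat_lit 2162064001) (nat_lit 0) (nat_lit 971135320) (nat_lit 380) (nat_lit 971135320) (nat_lit 167) (nat_lit 1) (nat_lit 161) (nat_lit 1) (nat_lit 166) (nat_lit 1) (nat_lit 391) (nat_lit 420) (nat_lit 329)) (XT.lf (nat_lit 76) (nat_lit 584805253) (nat_lit 0) (nat_lit 2903986161) (nat_lit 456) (nat_lit 584805253) (nat_lit 162) (nat_lit 1) (nat_lit 161) (nat_lit 1) (nat_lit 167) (nat_lit 1) (nat_lit 392) (nat_lit 420) (nat_lit 328)))))) (XT.nd (nat_lit 312) (nat_lit 988) (nat_lit 0) (XT.nd (nat_lit 156) (nat_lit 304) (nat_lit 0) (XT.nd (nat_lit 78) (nat_lit 456) (nat_lit 0) (XT.lf (nat_lit 380) (nat_lit 177511713) (nat_lit 0) (nat_lit 1932787537) (nat_lit 304) (nat_lit 1932787537) (nat_lit 162) (nat_lit 1) (nat_lit 157) (nat_lit 1) (nat_lit 161)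 (nat_lit 1) (nat_lit 393) (nat_lit 420) (nat_lit 327)) (XT.lf (nat_lit 456) (nat_lit 3221873732) (nat_lit 0) (nat_lit 395535428) (nat_lit 380) (nat_lit 395535428) (nat_lit 157) (nat_lit 1) (nat_lit 151) (nat_lit 1) (nat_lit 156) (nat_lit 1) (nat_lit 394) (nat_lit 420) (nat_lit 326))) (XT.nd (nat_lit 78) (nat_lit 304) (nat_lit 0) (XT.lf (nat_lit 76) (nat_lit 1111827370) (nat_lit 0) (nat_lit 1759297705) (nat_lit 456) (nat_lit 1111827370) (nat_lit 152) (nat_lit 1) (nat_lit 151) (nat_lit 1) (nat_lit 157) (nat_lit 1) (nat_lit 395) (nat_lit 420) (nat_lit 325)) (XT.lf (nat_lit 380) (nat_lit 1233434343) (nat_lit 0) (nat_lit 1359943546) (nat_lit 304) (nat_lit 1359943546) (nat_lit 152) (nat_lit 1) (nat_lit 147) (nat_lit 1) (nat_lit 151) (nat_lit 1) (nat_lit 396) (nat_lit 420) (nat_lit 324)))) (XT.nd (nat_lit 156) (nat_lit 608) (nat_lit 0) (XT.nd (nat_lit 78) (nat_lit 380) (nat_lit 0) (XT.lf (nat_lit 76) (nat_lit 127230796) (nat_lit 0) (nat_lit 3669649667) (nat_lit 380)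 (nat_lit 127230796) (nat_lit 148) (nat_lit 1) (nat_lit 147) (nat_lit 1) (nat_lit 152) (nat_lit 1) (nat_lit 397) (nat_lit 420) (nat_lit 323)) (XT.lf (nat_lit 76) (nat_lit 1587507328) (nat_lit 0) (nat_lit 719891072) (nat_lit 380) (nat_lit 1587507328) (nat_lit 143) (nat_lit 1) (nat_lit 142) (nat_lit 1) (nat_lit 147) (nat_lit 1) (nat_lit 398) (nat_lit 420) (nat_lit 322))) (XT.nd (nat_lit 78) (nat_lit 304) (nat_lit 0) (XT.lf (nat_lit 380) (nat_lit 2187974204) (nat_lit 0) (nat_lit 839070389) (nat_lit 304) (nat_lit 839070389) (nat_lit 143) (nat_lit 1) (nat_lit 138) (nat_lit 1) (nat_lit 142) (nat_lit 1) (nat_lit 399) (nat_lit 420) (nat_lit 321)) (XT.nd (nat_lit 78) (nat_lit 304) (nat_lit 0) (XT.lf (nat_lit 76) (nat_lit 602898795) (nat_lit 0) (nat_lit 2631807056) (nat_lit 380) (nat_lit 602898795) (nat_lit 139) (nat_lit 1) (nat_lit 138) (nat_lit 1) (nat_lit 143) (nat_lit 1) (nat_lit 400) (nat_lit 420) (nat_lit 320)) (XT.lf (nat_lit 380) (nat_lit 225564822) (nat_lit 0)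 (nat_lit 1791874506) (nat_lit 304) (nat_lit 1791874506) (nat_lit 139) (nat_lit 1) (nat_lit 134) (nat_lit 1) (nat_lit 138) (nat_lit 1) (nat_lit 401) (nat_lit 420) (nat_lit 319))))))))
noncomputable def ec106 : XT := (XT.nd (nat_lit 53976) (nat_lit 0) (nat_lit 14592) (XT.nd (nat_lit 53274) (nat_lit 0) (nat_lit 22192) (XT.nd (nat_lit 52884) (nat_lit 0) (nat_lit 26828) (XT.nd (nat_lit 52728) (nat_lit 0) (nat_lit 28652) (XT.nd (nat_lit 78) (nat_lit 0) (nat_lit 0) (XT.lf (nat_lit 380) (nat_lit 3049263224) (nat_lit 0) (nat_lit 366046601) (nat_lit 304) (nat_lit 366046601) (nat_lit 134) (nat_lit 1) (nat_lit 129) (nat_lit 1) (nat_lit 133) (nat_lit 1) (nat_lit 402) (nat_lit 420) (nat_lit 318)) (XT.lf (nat_lit 76) (nat_lit 1032825693) (nat_lit 0) (nat_lit 1687871142) (nat_lit 380) (nat_lit 1032825693) (nat_lit 130) (nat_lit 1) (nat_lit 129) (nat_lit 1) (nat_lit 134) (nat_lit 1) (nat_lit 403) (nat_lit 420) (nat_lit 317))) (XT.nd (nat_lit 78) (nat_lit 0) (nat_lit 76) (XT.lf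 (nat_lit 1900) (nat_lit 543520003) (nat_lit 76) (nat_lit 3536885969) (nat_lit 0) (nat_lit 3536885969) (nat_lit 531) (nat_lit 1) (nat_lit 507) (nat_lit 1) (nat_lit 506) (nat_lit 1) (nat_lit 317) (nat_lit 421) (nat_lit 402)) (XT.lf (nat_lit 1900) (nat_lit 34031587) (nat_lit 0) (nat_lit 7479197429) (nat_lit 1824) (nat_lit 34031587) (nat_lit 532) (nat_lit 1) (nat_lit 507) (nat_lit 1) (nat_lit 531) (nat_lit 1) (nat_lit 318) (nat_lit 421) (nat_lit 401)))) (XT.nd (nat_lit 156) (nat_lit 0) (nat_lit 76) (XT.nd (nat_lit 78) (nat_lit 0) (nat_lit 0) (XT.lf (nat_lit 1976) (nat_lit 3518084717) (nat_lit 0) (nat_lit 441410107) (nat_lit 1900) (nat_lit 3518084717) (nat_lit 508) (nat_lit 1) (nat_lit 482) (nat_lit 1) (nat_lit 507) (nat_lit 1) (nat_lit 319) (nat_lit 421) (nat_lit 400)) (XT.lf (nat_lit 1976) (nat_lit 6465888658) (nat_lit 76) (nat_lit 471650893) (nat_lit 0) (nat_lit 471650893) (nat_lit 508) (nat_lit 1) (nat_lit 483) (nat_lit 1) (nat_lit 482) (nat_lit 1) (nat_lit 320)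 (nat_lit 421) (nat_lit 399))) (XT.nd (nat_lit 78) (nat_lit 0) (nat_lit 0) (XT.lf (nat_lit 1976) (nat_lit 2931984701) (nat_lit 0) (nat_lit 1477333291) (nat_lit 1900) (nat_lit 2931984701) (nat_lit 509) (nat_lit 1) (nat_lit 483) (nat_lit 1) (nat_lit 508) (nat_lit 1) (nat_lit 321) (nat_lit 421) (nat_lit 398)) (XT.nd (nat_lit 78) (nat_lit 0) (nat_lit 76) (XT.lf (nat_lit 1976) (nat_lit 5264133189) (nat_lit 76) (nat_lit 1005211156) (nat_lit 0) (nat_lit 1005211156) (nat_lit 509) (nat_lit 1) (nat_lit 484) (nat_lit 1) (nat_lit 483) (nat_lit 1) (nat_lit 322) (nat_lit 421) (nat_lit 397)) (XT.lf (nat_lit 76) (nat_lit 2320598330) (nat_lit 0) (nat_lit 2567236853) (nat_lit 1900) (nat_lit 2320598330) (nat_lit 485) (nat_lit 1) (nat_lit 484) (nat_lit 1) (nat_lit 509) (nat_lit 1) (nat_lit 323) (nat_lit 421) (nat_lit 396)))))) (XT.nd (nat_lit 312) (nat_lit 2736) (nat_lit 0) (XT.nd (nat_lit 156) (nat_lit 912) (nat_lit 0) (XT.nd (nat_lit 78) (nat_lit 0) (nat_lit 0) (XT.lf (nat_lit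 1216) (nat_lit 4013584856) (nat_lit 0) (nat_lit 1564846003) (nat_lit 1140) (nat_lit 1564846003) (nat_lit 485) (nat_lit 1) (nat_lit 469) (nat_lit 1) (nat_lit 484) (nat_lit 1) (nat_lit 324) (nat_lit 421) (nat_lit 395)) (XT.lf (nat_lit 76) (nat_lit 1685849567) (nat_lit 0) (nat_lit 3707177482) (nat_lit 1216) (nat_lit 1685849567) (nat_lit 470) (nat_lit 1) (nat_lit 469) (nat_lit 1) (nat_lit 485) (nat_lit 1) (nat_lit 325) (nat_lit 421) (nat_lit 394))) (XT.nd (nat_lit 78) (nat_lit 0) (nat_lit 0) (XT.lf (nat_lit 988) (nat_lit 2718010081) (nat_lit 0) (nat_lit 2148625408) (nat_lit 912) (nat_lit 2148625408) (nat_lit 470) (nat_lit 1) (nat_lit 457) (nat_lit 1) (nat_lit 469) (nat_lit 1) (nat_lit 326) (nat_lit 421) (nat_lit 393)) (XT.lf (nat_lit 76) (nat_lit 1029569196) (nat_lit 0) (nat_lit 4893401210) (nat_lit 988) (nat_lit 1029569196) (nat_lit 458) (nat_lit 1) (nat_lit 457) (nat_lit 1) (nat_lit 470) (nat_lit 1) (nat_lit 327) (nat_lit 421) (nat_lit 392)))) (XT.nd (nat_lit 156)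 (nat_lit 1824) (nat_lit 0) (XT.nd (nat_lit 78) (nat_lit 0) (nat_lit 0) (XT.lf (nat_lit 988) (nat_lit 1380992329) (nat_lit 0) (nat_lit 2754712282) (nat_lit 912) (nat_lit 2754712282) (nat_lit 458) (nat_lit 1) (nat_lit 445) (nat_lit 1) (nat_lit 457) (nat_lit 1) (nat_lit 328) (nat_lit 421) (nat_lit 391)) (XT.lf (nat_lit 76) (nat_lit 353498801) (nat_lit 0) (nat_lit 6122335349) (nat_lit 988) (nat_lit 353498801) (nat_lit 446) (nat_lit 1) (nat_lit 445) (nat_lit 1) (nat_lit 458) (nat_lit 1) (nat_lit 329) (nat_lit 421) (nat_lit 390))) (XT.nd (nat_lit 78) (nat_lit 988) (nat_lit 0) (XT.lf (nat_lit 912) (nat_lit 5939937) (nat_lit 0) (nat_lit 3381358511) (nat_lit 836) (nat_lit 3381358511) (nat_lit 446) (nat_lit 1) (nat_lit 434) (nat_lit 1) (nat_lit 445) (nat_lit 1) (nat_lit 330) (nat_lit 421) (nat_lit 389)) (XT.nd (nat_lit 78) (nat_lit 0) (nat_lit 0) (XT.lf (nat_lit 988) (nat_lit 6032064489) (nat_lit 0) (nat_lit 338463935) (nat_lit 912) (nat_lit 338463935) (nat_lit 434) (nat_lit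 1) (nat_lit 421) (nat_lit 1) (nat_lit 433) (nat_lit 1) (nat_lit 331) (nat_lit 421) (nat_lit 388)) (XT.lf (nat_lit 76) (nat_lit 2632109856) (nat_lit 0) (nat_lit 1385493902) (nat_lit 988) (nat_lit 2632109856) (nat_lit 422) (nat_lit 1) (nat_lit 421) (nat_lit 1) (nat_lit 434) (nat_lit 1) (nat_lit 332) (nat_lit 421) (nat_lit 387))))))) (XT.nd (nat_lit 702) (nat_lit 3572) (nat_lit 0) (XT.nd (nat_lit 312) (nat_lit 2356) (nat_lit 0) (XT.nd (nat_lit 156) (nat_lit 836) (nat_lit 0) (XT.nd (nat_lit 78) (nat_lit 0) (nat_lit 0) (XT.lf (nat_lit 912) (nat_lit 4502315625) (nat_lit 0) (nat_lit 1044551423) (nat_lit 836) (nat_lit 1044551423) (nat_lit 422) (nat_lit 1) (nat_lit 410) (nat_lit 1) (nat_lit 421) (nat_lit 1) (nat_lit 333) (nat_lit 421) (nat_lit 386)) (XT.lf (nat_lit 76) (nat_lit 1862767086) (nat_lit 0) (nat_lit 2808147555) (nat_lit 912) (nat_lit 1862767086) (nat_lit 411) (nat_lit 1) (nat_lit 410) (nat_lit 1) (nat_lit 422) (nat_lit 1) (nat_lit 334) (nat_lit 421) (nat_lit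 385))) (XT.nd (nat_lit 78) (nat_lit 0) (nat_lit 0) (XT.lf (nat_lit 912) (nat_lit 2945509075) (nat_lit 0) (nat_lit 1765602878) (nat_lit 836) (nat_lit 1765602878) (nat_lit 411) (nat_lit 1) (nat_lit 399) (nat_lit 1) (nat_lit 410) (nat_lit 1) (nat_lit 335) (nat_lit 421) (nat_lit 384)) (XT.lf (nat_lit 76) (nat_lit 1080635952) (nat_lit 0) (nat_lit 4259210543) (nat_lit 912) (nat_lit 1080635952) (nat_lit 400) (nat_lit 1) (nat_lit 399) (nat_lit 1) (nat_lit 411) (nat_lit 1) (nat_lit 336) (nat_lit 421) (nat_lit 383)))) (XT.nd (nat_lit 156) (nat_lit 1596) (nat_lit 0) (XT.nd (nat_lit 78) (nat_lit 0) (nat_lit 0) (XT.lf (nat_lit 836) (nat_lit 1364390811) (nat_lit 0) (nat_lit 2500206207) (nat_lit 760) (nat_lit 2500206207) (nat_lit 400) (nat_lit 1) (nat_lit 389) (nat_lit 1) (nat_lit 399) (nat_lit 1) (nat_lit 337) (nat_lit 421) (nat_lit 382)) (XT.lf (nat_lit 76) (nat_lit 287049568) (nat_lit 0) (nat_lit 5735939447) (nat_lit 836) (nat_lit 287049568) (nat_lit 390) (nat_lit 1) (nat_lit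 389) (nat_lit 1) (nat_lit 400) (nat_lit 1) (nat_lit 338) (nat_lit 421) (nat_lit 381))) (XT.nd (nat_lit 78) (nat_lit 760) (nat_lit 0) (XT.lf (nat_lit 76) (nat_lit 3010135447) (nat_lit 0) (nat_lit 235305973) (nat_lit 836) (nat_lit 3010135447) (nat_lit 379) (nat_lit 1) (nat_lit 378) (nat_lit 1) (nat_lit 389) (nat_lit 1) (nat_lit 339) (nat_lit 421) (nat_lit 380)) (XT.nd (nat_lit 78) (nat_lit 0) (nat_lit 0) (XT.lf (nat_lit 836) (nat_lit 5175350811) (nat_lit 0) (nat_lit 513327598) (nat_lit 760) (nat_lit 513327598) (nat_lit 379) (nat_lit 1) (nat_lit 368) (nat_lit 1) (nat_lit 378) (nat_lit 1) (nat_lit 340) (nat_lit 421) (nat_lit 379)) (XT.lf (nat_lit 76) (nat_lit 2156361971) (nat_lit 0) (nat_lit 1836089579) (nat_lit 836) (nat_lit 2156361971) (nat_lit 369) (nat_lit 1) (nat_lit 368) (nat_lit 1) (nat_lit 379) (nat_lit 1) (nat_lit 341) (nat_lit 421) (nat_lit 378)))))) (XT.nd (nat_lit 312) (nat_lit 2128) (nat_lit 0) (XT.nd (nat_lit 156) (nat_lit 684) (nat_lit 0) (XT.nd (nat_lit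 78) (nat_lit 0) (nat_lit 0) (XT.lf (nat_lit 836) (nat_lit 3454931789) (nat_lit 0) (nat_lit 1320747691) (nat_lit 760) (nat_lit 1320747691) (nat_lit 369) (nat_lit 1) (nat_lit 358) (nat_lit 1) (nat_lit 368) (nat_lit 1) (nat_lit 342) (nat_lit 421) (nat_lit 377)) (XT.lf (nat_lit 76) (nat_lit 1295539373) (nat_lit 0) (nat_lit 3453540623) (nat_lit 836) (nat_lit 1295539373) (nat_lit 359) (nat_lit 1) (nat_lit 358) (nat_lit 1) (nat_lit 369) (nat_lit 1) (nat_lit 343) (nat_lit 421) (nat_lit 376))) (XT.nd (nat_lit 78) (nat_lit 0) (nat_lit 0) (XT.lf (nat_lit 760) (nat_lit 1721443337) (nat_lit 0) (nat_lit 2135969284) (nat_lit 684) (nat_lit 2135969284) (nat_lit 359) (nat_lit 1) (nat_lit 349) (nat_lit 1) (nat_lit 358) (nat_lit 1) (nat_lit 344) (nat_lit 421) (nat_lit 375)) (XT.lf (nat_lit 76) (nat_lit 428729657) (nat_lit 0) (nat_lit 5085466245) (nat_lit 760) (nat_lit 428729657) (nat_lit 350) (nat_lit 1) (nat_lit 349) (nat_lit 1) (nat_lit 359) (nat_lit 1) (nat_lit 345) (nat_lit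 421) (nat_lit 374)))) (XT.nd (nat_lit 156) (nat_lit 684) (nat_lit 0) (XT.nd (nat_lit 78) (nat_lit 684) (nat_lit 0) (XT.lf (nat_lit 76) (nat_lit 2935030437) (nat_lit 0) (nat_lit 22738672) (nat_lit 760) (nat_lit 2935030437) (nat_lit 340) (nat_lit 1) (nat_lit 339) (nat_lit 1) (nat_lit 349) (nat_lit 1) (nat_lit 346) (nat_lit 421) (nat_lit 373)) (XT.lf (nat_lit 760) (nat_lit 4963140435) (nat_lit 0) (nat_lit 440146985) (nat_lit 684) (nat_lit 440146985) (nat_lit 340) (nat_lit 1) (nat_lit 330) (nat_lit 1) (nat_lit 339) (nat_lit 1) (nat_lit 347) (nat_lit 421) (nat_lit 372))) (XT.nd (nat_lit 78) (nat_lit 684) (nat_lit 0) (XT.lf (nat_lit 76) (nat_lit 2020567135) (nat_lit 0) (nat_lit 1753258460) (nat_lit 760) (nat_lit 2020567135) (nat_lit 331) (nat_lit 1) (nat_lit 330) (nat_lit 1) (nat_lit 340) (nat_lit 1) (nat_lit 348) (nat_lit 421) (nat_lit 371)) (XT.nd (nat_lit 78) (nat_lit 0) (nat_lit 0) (XT.lf (nat_lit 760) (nat_lit 3125672062) (nat_lit 0) (nat_lit 1310207212) (nat_lit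 684) (nat_lit 1310207212) (nat_lit 331) (nat_lit 1) (nat_lit 321) (nat_lit 1) (nat_lit 330) (nat_lit 1) (nat_lit 349) (nat_lit 421) (nat_lit 370)) (XT.lf (nat_lit 76) (nat_lit 1103730139) (nat_lit 0) (nat_lit 3490861268) (nat_lit 760) (nat_lit 1103730139) (nat_lit 322) (nat_lit 1) (nat_lit 321) (nat_lit 1) (nat_lit 331) (nat_lit 1) (nat_lit 350) (nat_lit 421) (nat_lit 369))))))))
noncomputable def ec107 : XT := (XT.nd (nat_lit 1404) (nat_lit 5016) (nat_lit 0) (XT.nd (nat_lit 702) (nat_lit 2660) (nat_lit 0) (XT.nd (nat_lit 312) (nat_lit 1824) (nat_lit 0) (XT.nd (nat_lit 156) (nat_lit 1292) (nat_lit 0) (XT.nd (nat_lit 78) (nat_lit 0) (nat_lit 0) (XT.lf (nat_lit 684) (nat_lit 1284286456) (nat_lit 0) (nat_lit 2183378200) (nat_lit 608) (nat_lit 2183378200) (nat_lit 322) (nat_lit 1) (nat_lit 313) (nat_lit 1) (nat_lit 321) (nat_lit 1) (nat_lit 351) (nat_lit 421) (nat_lit 368)) (XT.lf (nat_lit 76) (nat_lit 185354436) (nat_lit 0) (nat_lit 5233815559) (nat_lit 684) (nat_lit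 185354436) (nat_lit 314) (nat_lit 1) (nat_lit 313) (nat_lit 1) (nat_lit 322) (nat_lit 1) (nat_lit 352) (nat_lit 421) (nat_lit 367))) (XT.nd (nat_lit 78) (nat_lit 608) (nat_lit 0) (XT.lf (nat_lit 76) (nat_lit 2503059196) (nat_lit 0) (nat_lit 552051943) (nat_lit 684) (nat_lit 2503059196) (nat_lit 305) (nat_lit 1) (nat_lit 304) (nat_lit 1) (nat_lit 313) (nat_lit 1) (nat_lit 353) (nat_lit 421) (nat_lit 366)) (XT.lf (nat_lit 684) (nat_lit 4054670163) (nat_lit 0) (nat_lit 728944531) (nat_lit 608) (nat_lit 728944531) (nat_lit 305) (nat_lit 1) (nat_lit 296) (nat_lit 1) (nat_lit 304) (nat_lit 1) (nat_lit 354) (nat_lit 421) (nat_lit 365)))) (XT.nd (nat_lit 156) (nat_lit 1216) (nat_lit 0) (XT.nd (nat_lit 78) (nat_lit 608) (nat_lit 0) (XT.lf (nat_lit 76) (nat_lit 1547512830) (nat_lit 0) (nat_lit 2372290278) (nat_lit 684) (nat_lit 1547512830) (nat_lit 297) (nat_lit 1) (nat_lit 296) (nat_lit 1) (nat_lit 305) (nat_lit 1) (nat_lit 355) (nat_lit 421) (nat_lit 364)) (XT.lf (nat_lit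 684) (nat_lit 2138590545) (nat_lit 0) (nat_lit 1642031604) (nat_lit 608) (nat_lit 1642031604) (nat_lit 297) (nat_lit 1) (nat_lit 288) (nat_lit 1) (nat_lit 296) (nat_lit 1) (nat_lit 356) (nat_lit 421) (nat_lit 363))) (XT.nd (nat_lit 78) (nat_lit 1216) (nat_lit 0) (XT.lf (nat_lit 76) (nat_lit 593373103) (nat_lit 0) (nat_lit 4191843385) (nat_lit 684) (nat_lit 593373103) (nat_lit 289) (nat_lit 1) (nat_lit 288) (nat_lit 1) (nat_lit 297) (nat_lit 1) (nat_lit 357) (nat_lit 421) (nat_lit 362)) (XT.nd (nat_lit 78) (nat_lit 684) (nat_lit 0) (XT.lf (nat_lit 608) (nat_lit 225987567) (nat_lit 0) (nat_lit 2554430562) (nat_lit 532) (nat_lit 2554430562) (nat_lit 289) (nat_lit 1) (nat_lit 281) (nat_lit 1) (nat_lit 288) (nat_lit 1) (nat_lit 358) (nat_lit 421) (nat_lit 361)) (XT.lf (nat_lit 684) (nat_lit 4579039820) (nat_lit 0) (nat_lit 356354672) (nat_lit 608) (nat_lit 356354672) (nat_lit 281) (nat_lit 1) (nat_lit 272) (nat_lit 1) (nat_lit 280) (nat_lit 1) (nat_lit 359) (nat_lit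 421) (nat_lit 360)))))) (XT.nd (nat_lit 312) (nat_lit 1596) (nat_lit 0) (XT.nd (nat_lit 156) (nat_lit 532) (nat_lit 0) (XT.nd (nat_lit 78) (nat_lit 532) (nat_lit 0) (XT.lf (nat_lit 76) (nat_lit 1794523253) (nat_lit 0) (nat_lit 1659824847) (nat_lit 684) (nat_lit 1794523253) (nat_lit 273) (nat_lit 1) (nat_lit 272) (nat_lit 1) (nat_lit 281) (nat_lit 1) (nat_lit 360) (nat_lit 421) (nat_lit 359)) (XT.lf (nat_lit 608) (nat_lit 2607544926) (nat_lit 0) (nat_lit 1299537620) (nat_lit 532) (nat_lit 1299537620) (nat_lit 273) (nat_lit 1) (nat_lit 265) (nat_lit 1) (nat_lit 272) (nat_lit 1) (nat_lit 361) (nat_lit 421) (nat_lit 358))) (XT.nd (nat_lit 78) (nat_lit 532) (nat_lit 0) (XT.lf (nat_lit 76) (nat_lit 814009982) (nat_lit 0) (nat_lit 3536838872) (nat_lit 608) (nat_lit 814009982) (nat_lit 266) (nat_lit 1) (nat_lit 265) (nat_lit 1) (nat_lit 273) (nat_lit 1) (nat_lit 362) (nat_lit 421) (nat_lit 357)) (XT.lf (nat_lit 608) (nat_lit 644432699) (nat_lit 0) (nat_lit 2239513705)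 (nat_lit 532) (nat_lit 2239513705) (nat_lit 266) (nat_lit 1) (nat_lit 258) (nat_lit 1) (nat_lit 265) (nat_lit 1) (nat_lit 363) (nat_lit 421) (nat_lit 356)))) (XT.nd (nat_lit 156) (nat_lit 988) (nat_lit 0) (XT.nd (nat_lit 78) (nat_lit 0) (nat_lit 0) (XT.lf (nat_lit 608) (nat_lit 4760701145) (nat_lit 0) (nat_lit 161001915) (nat_lit 532) (nat_lit 161001915) (nat_lit 258) (nat_lit 1) (nat_lit 250) (nat_lit 1) (nat_lit 257) (nat_lit 1) (nat_lit 364) (nat_lit 421) (nat_lit 355)) (XT.lf (nat_lit 76) (nat_lit 1874967301) (nat_lit 0) (nat_lit 1292114128) (nat_lit 608) (nat_lit 1874967301) (nat_lit 251) (nat_lit 1) (nat_lit 250) (nat_lit 1) (nat_lit 258) (nat_lit 1) (nat_lit 365) (nat_lit 421) (nat_lit 354))) (XT.nd (nat_lit 78) (nat_lit 456) (nat_lit 0) (XT.lf (nat_lit 608) (nat_lit 2750486260) (nat_lit 0) (nat_lit 1125768362) (nat_lit 532) (nat_lit 1125768362) (nat_lit 251) (nat_lit 1) (nat_lit 243) (nat_lit 1) (nat_lit 250) (nat_lit 1) (nat_lit 366) (nat_lit 421) (nat_lit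 353)) (XT.nd (nat_lit 78) (nat_lit 456) (nat_lit 0) (XT.lf (nat_lit 76) (nat_lit 876209901) (nat_lit 0) (nat_lit 3210005093) (nat_lit 608) (nat_lit 876209901) (nat_lit 244) (nat_lit 1) (nat_lit 243) (nat_lit 1) (nat_lit 251) (nat_lit 1) (nat_lit 367) (nat_lit 421) (nat_lit 352)) (XT.lf (nat_lit 532) (nat_lit 752804822) (nat_lit 0) (nat_lit 2085192166) (nat_lit 456) (nat_lit 2085192166) (nat_lit 244) (nat_lit 1) (nat_lit 237) (nat_lit 1) (nat_lit 243) (nat_lit 1) (nat_lit 368) (nat_lit 421) (nat_lit 351))))))) (XT.nd (nat_lit 702) (nat_lit 2508) (nat_lit 0) (XT.nd (nat_lit 312) (nat_lit 1444) (nat_lit 0) (XT.nd (nat_lit 156) (nat_lit 456) (nat_lit 0) (XT.nd (nat_lit 78) (nat_lit 0) (nat_lit 0) (XT.lf (nat_lit 608) (nat_lit 4653896756) (nat_lit 0) (nat_lit 115333862) (nat_lit 532) (nat_lit 115333862) (nat_lit 237) (nat_lit 1) (nat_lit 229) (nat_lit 1) (nat_lit 236) (nat_lit 1) (nat_lit 369) (nat_lit 421) (nat_lit 350)) (XT.lf (nat_lit 76) (nat_lit 1815301945) (nat_lit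 0) (nat_lit 1215393104) (nat_lit 608) (nat_lit 1815301945) (nat_lit 230) (nat_lit 1) (nat_lit 229) (nat_lit 1) (nat_lit 237) (nat_lit 1) (nat_lit 370) (nat_lit 421) (nat_lit 349))) (XT.nd (nat_lit 78) (nat_lit 0) (nat_lit 0) (XT.lf (nat_lit 532) (nat_lit 2619379583) (nat_lit 0) (nat_lit 1094324682) (nat_lit 456) (nat_lit 1094324682) (nat_lit 230) (nat_lit 1) (nat_lit 223) (nat_lit 1) (nat_lit 229) (nat_lit 1) (nat_lit 371) (nat_lit 421) (nat_lit 348)) (XT.lf (nat_lit 76) (nat_lit 805318159) (nat_lit 0) (nat_lit 3159828919) (nat_lit 532) (nat_lit 805318159) (nat_lit 224) (nat_lit 1) (nat_lit 223) (nat_lit 1) (nat_lit 230) (nat_lit 1) (nat_lit 372) (nat_lit 421) (nat_lit 347)))) (XT.nd (nat_lit 156) (nat_lit 456) (nat_lit 0) (XT.nd (nat_lit 78) (nat_lit 532) (nat_lit 0) (XT.lf (nat_lit 532) (nat_lit 600883986) (nat_lit 0) (nat_lit 2066173235) (nat_lit 456) (nat_lit 2066173235) (nat_lit 224) (nat_lit 1) (nat_lit 217) (nat_lit 1) (nat_lit 223) (nat_lit 1) (nat_lit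 373) (nat_lit 421) (nat_lit 346)) (XT.lf (nat_lit 532) (nat_lit 4306082525) (nat_lit 0) (nat_lit 195231399) (nat_lit 456) (nat_lit 195231399) (nat_lit 217) (nat_lit 1) (nat_lit 210) (nat_lit 1) (nat_lit 216) (nat_lit 1) (nat_lit 374) (nat_lit 421) (nat_lit 345))) (XT.nd (nat_lit 78) (nat_lit 456) (nat_lit 0) (XT.lf (nat_lit 76) (nat_lit 1638670336) (nat_lit 0) (nat_lit 1382603177) (nat_lit 532) (nat_lit 1638670336) (nat_lit 211) (nat_lit 1) (nat_lit 210) (nat_lit 1) (nat_lit 217) (nat_lit 1) (nat_lit 375) (nat_lit 421) (nat_lit 344)) (XT.nd (nat_lit 78) (nat_lit 0) (nat_lit 0) (XT.lf (nat_lit 532) (nat_lit 2259674156) (nat_lit 0) (nat_lit 1182103771) (nat_lit 456) (nat_lit 1182103771) (nat_lit 211) (nat_lit 1) (nat_lit 204) (nat_lit 1) (nat_lit 210) (nat_lit 1) (nat_lit 376) (nat_lit 421) (nat_lit 343)) (XT.lf (nat_lit 76) (nat_lit 623498577) (nat_lit 0) (nat_lit 3341236066) (nat_lit 532) (nat_lit 623498577) (nat_lit 205) (nat_lit 1) (nat_lit 204) (nat_lit 1)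 (nat_lit 211) (nat_lit 1) (nat_lit 377) (nat_lit 421) (nat_lit 342)))))) (XT.nd (nat_lit 312) (nat_lit 1216) (nat_lit 0) (XT.nd (nat_lit 156) (nat_lit 380) (nat_lit 0) (XT.nd (nat_lit 78) (nat_lit 532) (nat_lit 0) (XT.lf (nat_lit 456) (nat_lit 232194749) (nat_lit 0) (nat_lit 2160328984) (nat_lit 380) (nat_lit 2160328984) (nat_lit 205) (nat_lit 1) (nat_lit 199) (nat_lit 1) (nat_lit 204) (nat_lit 1) (nat_lit 378) (nat_lit 421) (nat_lit 341)) (XT.lf (nat_lit 532) (nat_lit 3758717313) (nat_lit 0) (nat_lit 379609670) (nat_lit 456) (nat_lit 379609670) (nat_lit 199) (nat_lit 1) (nat_lit 192) (nat_lit 1) (nat_lit 198) (nat_lit 1) (nat_lit 379) (nat_lit 421) (nat_lit 340))) (XT.nd (nat_lit 78) (nat_lit 380) (nat_lit 0) (XT.lf (nat_lit 76) (nat_lit 1365287557) (nat_lit 0) (nat_lit 1752612459) (nat_lit 532) (nat_lit 1365287557) (nat_lit 193) (nat_lit 1) (nat_lit 192) (nat_lit 1) (nat_lit 199) (nat_lit 1) (nat_lit 380) (nat_lit 421) (nat_lit 339)) (XT.lf (nat_lit 456) (nat_lit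 1711062224) (nat_lit 0) (nat_lit 1368915771) (nat_lit 380) (nat_lit 1368915771) (nat_lit 193) (nat_lit 1) (nat_lit 187) (nat_lit 1) (nat_lit 192) (nat_lit 1) (nat_lit 381) (nat_lit 421) (nat_lit 338)))) (XT.nd (nat_lit 156) (nat_lit 760) (nat_lit 0) (XT.nd (nat_lit 78) (nat_lit 456) (nat_lit 0) (XT.lf (nat_lit 76) (nat_lit 350104121) (nat_lit 0) (nat_lit 3714841954) (nat_lit 456) (nat_lit 350104121) (nat_lit 188) (nat_lit 1) (nat_lit 187) (nat_lit 1) (nat_lit 193) (nat_lit 1) (nat_lit 382) (nat_lit 421) (nat_lit 337)) (XT.lf (nat_lit 76) (nat_lit 2035110007) (nat_lit 0) (nat_lit 311130065) (nat_lit 456) (nat_lit 2035110007) (nat_lit 182) (nat_lit 1) (nat_lit 181) (nat_lit 1) (nat_lit 187) (nat_lit 1) (nat_lit 383) (nat_lit 421) (nat_lit 336))) (XT.nd (nat_lit 78) (nat_lit 380) (nat_lit 0) (XT.lf (nat_lit 456) (nat_lit 3047963055) (nat_lit 0) (nat_lit 650064338) (nat_lit 380) (nat_lit 650064338) (nat_lit 182) (nat_lit 1) (nat_lit 176) (nat_lit 1) (nat_lit 181)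 (nat_lit 1) (nat_lit 384) (nat_lit 421) (nat_lit 335)) (XT.nd (nat_lit 78) (nat_lit 380) (nat_lit 0) (XT.lf (nat_lit 76) (nat_lit 1012782582) (nat_lit 0) (nat_lit 2289524557) (nat_lit 456) (nat_lit 1012782582) (nat_lit 177) (nat_lit 1) (nat_lit 176) (nat_lit 1) (nat_lit 182) (nat_lit 1) (nat_lit 385) (nat_lit 421) (nat_lit 334)) (XT.lf (nat_lit 456) (nat_lit 1008151628) (nat_lit 0) (nat_lit 1637143916) (nat_lit 380) (nat_lit 1637143916) (nat_lit 177) (nat_lit 1) (nat_lit 171) (nat_lit 1) (nat_lit 176) (nat_lit 1) (nat_lit 386) (nat_lit 421) (nat_lit 333))))))))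
noncomputable def ec108 : XT := (XT.nd (nat_lit 54132) (nat_lit 0) (nat_lit 19228) (XT.nd (nat_lit 702) (nat_lit 1672) (nat_lit 0) (XT.nd (nat_lit 312) (nat_lit 1064) (nat_lit 0) (XT.nd (nat_lit 156) (nat_lit 380) (nat_lit 0) (XT.nd (nat_lit 78) (nat_lit 380) (nat_lit 0) (XT.lf (nat_lit 76) (nat_lit 2005438) (nat_lit 0) (nat_lit 4246287615) (nat_lit 456) (nat_lit 2005438) (nat_lit 172) (nat_lit 1) (nat_lit 171) (nat_lit 1) (nat_lit 177) (nat_lit 1) (nat_lit 387) (nat_lit 421) (nat_lit 332)) (XT.lf (nat_lit 76) (nat_lit 1611478566) (nat_lit 0) (nat_lit 995151897) (nat_lit 380) (nat_lit 1611478566) (nat_lit 167) (nat_lit 1) (nat_lit 166) (nat_lit 1) (nat_lit 171) (nat_lit 1) (nat_lit 388) (nat_lit 421) (nat_lit 331))) (XT.nd (nat_lit 78) (nat_lit 0) (nat_lit 0) (XT.lf (nat_lit 456) (nat_lit 2205305281) (nat_lit 0) (nat_lit 990558026) (nat_lit 380) (nat_lit 990558026) (nat_lit 167) (nat_lit 1) (nat_lit 161) (nat_lit 1) (nat_lit 166) (nat_lit 1) (nat_lit 389) (nat_lit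 421) (nat_lit 330)) (XT.lf (nat_lit 76) (nat_lit 596501358) (nat_lit 0) (nat_lit 2962065884) (nat_lit 456) (nat_lit 596501358) (nat_lit 162) (nat_lit 1) (nat_lit 161) (nat_lit 1) (nat_lit 167) (nat_lit 1) (nat_lit 390) (nat_lit 421) (nat_lit 329)))) (XT.nd (nat_lit 156) (nat_lit 304) (nat_lit 0) (XT.nd (nat_lit 78) (nat_lit 456) (nat_lit 0) (XT.lf (nat_lit 380) (nat_lit 181061947) (nat_lit 0) (nat_lit 1971443288) (nat_lit 304) (nat_lit 1971443288) (nat_lit 162) (nat_lit 1) (nat_lit 157) (nat_lit 1) (nat_lit 161) (nat_lit 1) (nat_lit 391) (nat_lit 421) (nat_lit 328)) (XT.lf (nat_lit 456) (nat_lit 3286311207) (nat_lit 0) (nat_lit 403446137) (nat_lit 380) (nat_lit 403446137) (nat_lit 157) (nat_lit 1) (nat_lit 151) (nat_lit 1) (nat_lit 156) (nat_lit 1) (nat_lit 392) (nat_lit 421) (nat_lit 327))) (XT.nd (nat_lit 78) (nat_lit 304) (nat_lit 0) (XT.lf (nat_lit 76) (nat_lit 1134063917) (nat_lit 0) (nat_lit 1794483659) (nat_lit 456) (nat_lit 1134063917) (nat_lit 152) (nat_lit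 1) (nat_lit 151) (nat_lit 1) (nat_lit 157) (nat_lit 1) (nat_lit 393) (nat_lit 421) (nat_lit 326)) (XT.nd (nat_lit 78) (nat_lit 0) (nat_lit 0) (XT.lf (nat_lit 380) (nat_lit 1258103030) (nat_lit 0) (nat_lit 1387142417) (nat_lit 304) (nat_lit 1387142417) (nat_lit 152) (nat_lit 1) (nat_lit 147) (nat_lit 1) (nat_lit 151) (nat_lit 1) (nat_lit 394) (nat_lit 421) (nat_lit 325)) (XT.lf (nat_lit 76) (nat_lit 129775412) (nat_lit 0) (nat_lit 3743042660) (nat_lit 380) (nat_lit 129775412) (nat_lit 148) (nat_lit 1) (nat_lit 147) (nat_lit 1) (nat_lit 152) (nat_lit 1) (nat_lit 395) (nat_lit 421) (nat_lit 324)))))) (XT.nd (nat_lit 312) (nat_lit 684) (nat_lit 0) (XT.nd (nat_lit 156) (nat_lit 304) (nat_lit 0) (XT.nd (nat_lit 78) (nat_lit 304) (nat_lit 0) (XT.lf (nat_lit 76) (nat_lit 1619257475) (nat_lit 0) (nat_lit 734288893) (nat_lit 380) (nat_lit 1619257475) (nat_lit 143) (nat_lit 1) (nat_lit 142) (nat_lit 1) (nat_lit 147) (nat_lit 1) (nat_lit 396) (nat_lit 421) (nat_lit 323))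 (XT.lf (nat_lit 380) (nat_lit 2231733688) (nat_lit 0) (nat_lit 855851797) (nat_lit 304) (nat_lit 855851797) (nat_lit 143) (nat_lit 1) (nat_lit 138) (nat_lit 1) (nat_lit 142) (nat_lit 1) (nat_lit 397) (nat_lit 421) (nat_lit 322))) (XT.nd (nat_lit 78) (nat_lit 304) (nat_lit 0) (XT.lf (nat_lit 76) (nat_lit 614956771) (nat_lit 0) (nat_lit 2684443197) (nat_lit 380) (nat_lit 614956771) (nat_lit 139) (nat_lit 1) (nat_lit 138) (nat_lit 1) (nat_lit 143) (nat_lit 1) (nat_lit 398) (nat_lit 421) (nat_lit 321)) (XT.lf (nat_lit 380) (nat_lit 230076119) (nat_lit 0) (nat_lit 1827711997) (nat_lit 304) (nat_lit 1827711997) (nat_lit 139) (nat_lit 1) (nat_lit 134) (nat_lit 1) (nat_lit 138) (nat_lit 1) (nat_lit 399) (nat_lit 421) (nat_lit 320)))) (XT.nd (nat_lit 156) (nat_lit 304) (nat_lit 0) (XT.nd (nat_lit 78) (nat_lit 0) (nat_lit 0) (XT.lf (nat_lit 380) (nat_lit 3110248488) (nat_lit 0) (nat_lit 373367533) (nat_lit 304) (nat_lit 373367533) (nat_lit 134) (nat_lit 1) (nat_lit 129)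 (nat_lit 1) (nat_lit 133) (nat_lit 1) (nat_lit 400) (nat_lit 421) (nat_lit 319)) (XT.lf (nat_lit 76) (nat_lit 1053482207) (nat_lit 0) (nat_lit 1721628565) (nat_lit 380) (nat_lit 1053482207) (nat_lit 130) (nat_lit 1) (nat_lit 129) (nat_lit 1) (nat_lit 134) (nat_lit 1) (nat_lit 401) (nat_lit 421) (nat_lit 318))) (XT.nd (nat_lit 52806) (nat_lit 0) (nat_lit 27132) (XT.lf (nat_lit 380) (nat_lit 1112026072) (nat_lit 0) (nat_lit 1344255460) (nat_lit 304) (nat_lit 1344255460) (nat_lit 130) (nat_lit 1) (nat_lit 125) (nat_lit 1) (nat_lit 129) (nat_lit 1) (nat_lit 402) (nat_lit 421) (nat_lit 317)) (XT.nd (nat_lit 78) (nat_lit 0) (nat_lit 76) (XT.lf (nat_lit 1976) (nat_lit 6595206432) (nat_lit 76) (nat_lit 481083911) (nat_lit 0) (nat_lit 481083911) (nat_lit 508) (nat_lit 1) (nat_lit 483) (nat_lit 1) (nat_lit 482) (nat_lit 1) (nat_lit 318) (nat_lit 422) (nat_lit 400)) (XT.lf (nat_lit 1976) (nat_lit 2990624396) (nat_lit 0) (nat_lit 1506879957) (nat_lit 1900) (nat_lit 2990624396)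 (nat_lit 509) (nat_lit 1) (nat_lit 483) (nat_lit 1) (nat_lit 508) (nat_lit 1) (nat_lit 319) (nat_lit 422) (nat_lit 399))))))) (XT.nd (nat_lit 702) (nat_lit 4256) (nat_lit 0) (XT.nd (nat_lit 312) (nat_lit 2660) (nat_lit 0) (XT.nd (nat_lit 156) (nat_lit 1064) (nat_lit 0) (XT.nd (nat_lit 78) (nat_lit 0) (nat_lit 76) (XT.lf (nat_lit 1976) (nat_lit 5369415853) (nat_lit 76) (nat_lit 1025315379) (nat_lit 0) (nat_lit 1025315379) (nat_lit 509) (nat_lit 1) (nat_lit 484) (nat_lit 1) (nat_lit 483) (nat_lit 1) (nat_lit 320) (nat_lit 422) (nat_lit 398)) (XT.lf (nat_lit 76) (nat_lit 2367010296) (nat_lit 0) (nat_lit 2618581590) (nat_lit 1900) (nat_lit 2367010296) (nat_lit 485) (nat_lit 1) (nat_lit 484) (nat_lit 1) (nat_lit 509) (nat_lit 1) (nat_lit 321) (nat_lit 422) (nat_lit 397))) (XT.nd (nat_lit 78) (nat_lit 0) (nat_lit 0) (XT.lf (nat_lit 1216) (nat_lit 4093856553) (nat_lit 0) (nat_lit 1596142923) (nat_lit 1140) (nat_lit 1596142923) (nat_lit 485) (nat_lit 1) (nat_lit 469)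 (nat_lit 1) (nat_lit 484) (nat_lit 1) (nat_lit 322) (nat_lit 422) (nat_lit 396)) (XT.lf (nat_lit 76) (nat_lit 1719566558) (nat_lit 0) (nat_lit 3781321031) (nat_lit 1216) (nat_lit 1719566558) (nat_lit 470) (nat_lit 1) (nat_lit 469) (nat_lit 1) (nat_lit 485) (nat_lit 1) (nat_lit 323) (nat_lit 422) (nat_lit 395)))) (XT.nd (nat_lit 156) (nat_lit 1748) (nat_lit 0) (XT.nd (nat_lit 78) (nat_lit 0) (nat_lit 0) (XT.lf (nat_lit 988) (nat_lit 2772370282) (nat_lit 0) (nat_lit 2191597916) (nat_lit 912) (nat_lit 2191597916) (nat_lit 470) (nat_lit 1) (nat_lit 457) (nat_lit 1) (nat_lit 469) (nat_lit 1) (nat_lit 324) (nat_lit 422) (nat_lit 394)) (XT.lf (nat_lit 76) (nat_lit 1050160580) (nat_lit 0) (nat_lit 4991269234) (nat_lit 988) (nat_lit 1050160580) (nat_lit 458) (nat_lit 1) (nat_lit 457) (nat_lit 1) (nat_lit 470) (nat_lit 1) (nat_lit 325) (nat_lit 422) (nat_lit 393))) (XT.nd (nat_lit 78) (nat_lit 836) (nat_lit 0) (XT.lf (nat_lit 988) (nat_lit 1408612176) (nat_lit 0) (nat_lit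 2809806528) (nat_lit 912) (nat_lit 2809806528) (nat_lit 458) (nat_lit 1) (nat_lit 445) (nat_lit 1) (nat_lit 457) (nat_lit 1) (nat_lit 326) (nat_lit 422) (nat_lit 392)) (XT.nd (nat_lit 78) (nat_lit 836) (nat_lit 0) (XT.lf (nat_lit 76) (nat_lit 360568777) (nat_lit 0) (nat_lit 6244782056) (nat_lit 988) (nat_lit 360568777) (nat_lit 446) (nat_lit 1) (nat_lit 445) (nat_lit 1) (nat_lit 458) (nat_lit 1) (nat_lit 327) (nat_lit 422) (nat_lit 391)) (XT.lf (nat_lit 912) (nat_lit 6058736) (nat_lit 0) (nat_lit 3448985681) (nat_lit 836) (nat_lit 3448985681) (nat_lit 446) (nat_lit 1) (nat_lit 434) (nat_lit 1) (nat_lit 445) (nat_lit 1) (nat_lit 328) (nat_lit 422) (nat_lit 390)))))) (XT.nd (nat_lit 312) (nat_lit 2432) (nat_lit 0) (XT.nd (nat_lit 156) (nat_lit 836) (nat_lit 0) (XT.nd (nat_lit 78) (nat_lit 0) (nat_lit 0) (XT.lf (nat_lit 988) (nat_lit 6152705779) (nat_lit 0) (nat_lit 345233214) (nat_lit 912) (nat_lit 345233214) (nat_lit 434) (nat_lit 1) (nat_lit 421) (nat_lit 1)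 (nat_lit 433) (nat_lit 1) (nat_lit 329) (nat_lit 422) (nat_lit 389)) (XT.lf (nat_lit 76) (nat_lit 2684752053) (nat_lit 0) (nat_lit 1413203780) (nat_lit 988) (nat_lit 2684752053) (nat_lit 422) (nat_lit 1) (nat_lit 421) (nat_lit 1) (nat_lit 434) (nat_lit 1) (nat_lit 330) (nat_lit 422) (nat_lit 388))) (XT.nd (nat_lit 78) (nat_lit 0) (nat_lit 0) (XT.lf (nat_lit 912) (nat_lit 4592361938) (nat_lit 0) (nat_lit 1065442451) (nat_lit 836) (nat_lit 1065442451) (nat_lit 422) (nat_lit 1) (nat_lit 410) (nat_lit 1) (nat_lit 421) (nat_lit 1) (nat_lit 331) (nat_lit 422) (nat_lit 387)) (XT.lf (nat_lit 76) (nat_lit 1900022428) (nat_lit 0) (nat_lit 2864310507) (nat_lit 912) (nat_lit 1900022428) (nat_lit 411) (nat_lit 1) (nat_lit 410) (nat_lit 1) (nat_lit 422) (nat_lit 1) (nat_lit 332) (nat_lit 422) (nat_lit 386)))) (XT.nd (nat_lit 156) (nat_lit 1596) (nat_lit 0) (XT.nd (nat_lit 78) (nat_lit 0) (nat_lit 0) (XT.lf (nat_lit 912) (nat_lit 3004419257) (nat_lit 0) (nat_lit 1800914935)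 (nat_lit 836) (nat_lit 1800914935) (nat_lit 411) (nat_lit 1) (nat_lit 399) (nat_lit 1) (nat_lit 410) (nat_lit 1) (nat_lit 333) (nat_lit 422) (nat_lit 385)) (XT.lf (nat_lit 76) (nat_lit 1102248671) (nat_lit 0) (nat_lit 4344394754) (nat_lit 912) (nat_lit 1102248671) (nat_lit 400) (nat_lit 1) (nat_lit 399) (nat_lit 1) (nat_lit 411) (nat_lit 1) (nat_lit 334) (nat_lit 422) (nat_lit 384))) (XT.nd (nat_lit 78) (nat_lit 836) (nat_lit 0) (XT.lf (nat_lit 836) (nat_lit 1391678628) (nat_lit 0) (nat_lit 2550210332) (nat_lit 760) (nat_lit 2550210332) (nat_lit 400) (nat_lit 1) (nat_lit 389) (nat_lit 1) (nat_lit 399) (nat_lit 1) (nat_lit 335) (nat_lit 422) (nat_lit 383)) (XT.nd (nat_lit 78) (nat_lit 836) (nat_lit 0) (XT.lf (nat_lit 76) (nat_lit 292790560) (nat_lit 0) (nat_lit 5850658236) (nat_lit 836) (nat_lit 292790560) (nat_lit 390) (nat_lit 1) (nat_lit 389) (nat_lit 1) (nat_lit 400) (nat_lit 1) (nat_lit 336) (nat_lit 422) (nat_lit 382)) (XT.lf (nat_lit 76) (nat_lit 3070338156)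 (nat_lit 0) (nat_lit 240012092) (nat_lit 836) (nat_lit 3070338156) (nat_lit 379) (nat_lit 1) (nat_lit 378) (nat_lit 1) (nat_lit 389) (nat_lit 1) (nat_lit 337) (nat_lit 422) (nat_lit 381))))))))
noncomputable def ec109 : XT := (XT.nd (nat_lit 1404) (nat_lit 5928) (nat_lit 0) (XT.nd (nat_lit 702) (nat_lit 3192) (nat_lit 0) (XT.nd (nat_lit 312) (nat_lit 2128) (nat_lit 0) (XT.nd (nat_lit 156) (nat_lit 760) (nat_lit 0) (XT.nd (nat_lit 78) (nat_lit 0) (nat_lit 0) (XT.lf (nat_lit 836) (nat_lit 5278857827) (nat_lit 0) (nat_lit 523594150) (nat_lit 760) (nat_lit 523594150) (nat_lit 379) (nat_lit 1) (nat_lit 368) (nat_lit 1) (nat_lit 378) (nat_lit 1) (nat_lit 338) (nat_lit 422) (nat_lit 380)) (XT.lf (nat_lit 76) (nat_lit 2199489210) (nat_lit 0) (nat_lit 1872811370) (nat_lit 836) (nat_lit 2199489210) (nat_lit 369) (nat_lit 1) (nat_lit 368) (nat_lit 1) (nat_lit 379) (nat_lit 1) (nat_lit 339) (nat_lit 422) (nat_lit 379))) (XT.nd (nat_lit 78) (nat_lit 0) (nat_lit 0) (XT.lf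 (nat_lit 836) (nat_lit 3524030425) (nat_lit 0) (nat_lit 1347162645) (nat_lit 760) (nat_lit 1347162645) (nat_lit 369) (nat_lit 1) (nat_lit 358) (nat_lit 1) (nat_lit 368) (nat_lit 1) (nat_lit 340) (nat_lit 422) (nat_lit 378)) (XT.lf (nat_lit 76) (nat_lit 1321450160) (nat_lit 0) (nat_lit 3522611436) (nat_lit 836) (nat_lit 1321450160) (nat_lit 359) (nat_lit 1) (nat_lit 358) (nat_lit 1) (nat_lit 369) (nat_lit 1) (nat_lit 341) (nat_lit 422) (nat_lit 377)))) (XT.nd (nat_lit 156) (nat_lit 1444) (nat_lit 0) (XT.nd (nat_lit 78) (nat_lit 0) (nat_lit 0) (XT.lf (nat_lit 760) (nat_lit 1755872204) (nat_lit 0) (nat_lit 2178688669) (nat_lit 684) (nat_lit 2178688669) (nat_lit 359) (nat_lit 1) (nat_lit 349) (nat_lit 1) (nat_lit 358) (nat_lit 1) (nat_lit 342) (nat_lit 422) (nat_lit 376)) (XT.lf (nat_lit 76) (nat_lit 437304251) (nat_lit 0) (nat_lit 5187175570) (nat_lit 760) (nat_lit 437304251) (nat_lit 350) (nat_lit 1) (nat_lit 349) (nat_lit 1) (nat_lit 359) (nat_lit 1) (nat_lit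 343) (nat_lit 422) (nat_lit 375))) (XT.nd (nat_lit 78) (nat_lit 684) (nat_lit 0) (XT.lf (nat_lit 76) (nat_lit 2993731045) (nat_lit 0) (nat_lit 23193445) (nat_lit 760) (nat_lit 2993731045) (nat_lit 340) (nat_lit 1) (nat_lit 339) (nat_lit 1) (nat_lit 349) (nat_lit 1) (nat_lit 344) (nat_lit 422) (nat_lit 374)) (XT.nd (nat_lit 78) (nat_lit 0) (nat_lit 0) (XT.lf (nat_lit 760) (nat_lit 5062403244) (nat_lit 0) (nat_lit 448949925) (nat_lit 684) (nat_lit 448949925) (nat_lit 340) (nat_lit 1) (nat_lit 330) (nat_lit 1) (nat_lit 339) (nat_lit 1) (nat_lit 345) (nat_lit 422) (nat_lit 373)) (XT.lf (nat_lit 76) (nat_lit 2060978477) (nat_lit 0) (nat_lit 1788323629) (nat_lit 760) (nat_lit 2060978477) (nat_lit 331) (nat_lit 1) (nat_lit 330) (nat_lit 1) (nat_lit 340) (nat_lit 1) (nat_lit 346) (nat_lit 422) (nat_lit 372)))))) (XT.nd (nat_lit 312) (nat_lit 1900) (nat_lit 0) (XT.nd (nat_lit 156) (nat_lit 608) (nat_lit 0) (XT.nd (nat_lit 78) (nat_lit 0) (nat_lit 0) (XT.lf (nat_lit 760)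 (nat_lit 3188185504) (nat_lit 0) (nat_lit 1336411356) (nat_lit 684) (nat_lit 1336411356) (nat_lit 331) (nat_lit 1) (nat_lit 321) (nat_lit 1) (nat_lit 330) (nat_lit 1) (nat_lit 347) (nat_lit 422) (nat_lit 371)) (XT.lf (nat_lit 76) (nat_lit 1125804742) (nat_lit 0) (nat_lit 3560678493) (nat_lit 760) (nat_lit 1125804742) (nat_lit 322) (nat_lit 1) (nat_lit 321) (nat_lit 1) (nat_lit 331) (nat_lit 1) (nat_lit 348) (nat_lit 422) (nat_lit 370))) (XT.nd (nat_lit 78) (nat_lit 0) (nat_lit 0) (XT.lf (nat_lit 684) (nat_lit 1309972185) (nat_lit 0) (nat_lit 2227045764) (nat_lit 608) (nat_lit 2227045764) (nat_lit 322) (nat_lit 1) (nat_lit 313) (nat_lit 1) (nat_lit 321) (nat_lit 1) (nat_lit 349) (nat_lit 422) (nat_lit 369)) (XT.lf (nat_lit 76) (nat_lit 189061524) (nat_lit 0) (nat_lit 5338491870) (nat_lit 684) (nat_lit 189061524) (nat_lit 314) (nat_lit 1) (nat_lit 313) (nat_lit 1) (nat_lit 322) (nat_lit 1) (nat_lit 350) (nat_lit 422) (nat_lit 368)))) (XT.nd (nat_lit 156) (nat_lit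 608) (nat_lit 0) (XT.nd (nat_lit 78) (nat_lit 608) (nat_lit 0) (XT.lf (nat_lit 76) (nat_lit 2553120380) (nat_lit 0) (nat_lit 563092982) (nat_lit 684) (nat_lit 2553120380) (nat_lit 305) (nat_lit 1) (nat_lit 304) (nat_lit 1) (nat_lit 313) (nat_lit 1) (nat_lit 351) (nat_lit 422) (nat_lit 367)) (XT.lf (nat_lit 684) (nat_lit 4135763566) (nat_lit 0) (nat_lit 743523421) (nat_lit 608) (nat_lit 743523421) (nat_lit 305) (nat_lit 1) (nat_lit 296) (nat_lit 1) (nat_lit 304) (nat_lit 1) (nat_lit 352) (nat_lit 422) (nat_lit 366))) (XT.nd (nat_lit 78) (nat_lit 608) (nat_lit 0) (XT.lf (nat_lit 76) (nat_lit 1578463087) (nat_lit 0) (nat_lit 2419736083) (nat_lit 684) (nat_lit 1578463087) (nat_lit 297) (nat_lit 1) (nat_lit 296) (nat_lit 1) (nat_lit 305) (nat_lit 1) (nat_lit 353) (nat_lit 422) (nat_lit 365)) (XT.nd (nat_lit 78) (nat_lit 0) (nat_lit 0) (XT.lf (nat_lit 684) (nat_lit 2181362356) (nat_lit 0) (nat_lit 1674872236) (nat_lit 608) (nat_lit 1674872236) (nat_lit 297) (nat_lit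 1) (nat_lit 288) (nat_lit 1) (nat_lit 296) (nat_lit 1) (nat_lit 354) (nat_lit 422) (nat_lit 364)) (XT.lf (nat_lit 76) (nat_lit 605240565) (nat_lit 0) (nat_lit 4275680253) (nat_lit 684) (nat_lit 605240565) (nat_lit 289) (nat_lit 1) (nat_lit 288) (nat_lit 1) (nat_lit 297) (nat_lit 1) (nat_lit 355) (nat_lit 422) (nat_lit 363))))))) (XT.nd (nat_lit 702) (nat_lit 2508) (nat_lit 0) (XT.nd (nat_lit 312) (nat_lit 1672) (nat_lit 0) (XT.nd (nat_lit 156) (nat_lit 532) (nat_lit 0) (XT.nd (nat_lit 78) (nat_lit 684) (nat_lit 0) (XT.lf (nat_lit 608) (nat_lit 230507318) (nat_lit 0) (nat_lit 2605519173) (nat_lit 532) (nat_lit 2605519173) (nat_lit 289) (nat_lit 1) (nat_lit 281) (nat_lit 1) (nat_lit 288) (nat_lit 1) (nat_lit 356) (nat_lit 422) (nat_lit 362)) (XT.lf (nat_lit 684) (nat_lit 4670620616) (nat_lit 0) (nat_lit 363481766) (nat_lit 608) (nat_lit 363481766) (nat_lit 281) (nat_lit 1) (nat_lit 272) (nat_lit 1) (nat_lit 280) (nat_lit 1) (nat_lit 357) (nat_lit 422) (nat_lit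 361))) (XT.nd (nat_lit 78) (nat_lit 532) (nat_lit 0) (XT.lf (nat_lit 76) (nat_lit 1830413718) (nat_lit 0) (nat_lit 1693021344) (nat_lit 684) (nat_lit 1830413718) (nat_lit 273) (nat_lit 1) (nat_lit 272) (nat_lit 1) (nat_lit 281) (nat_lit 1) (nat_lit 358) (nat_lit 422) (nat_lit 360)) (XT.lf (nat_lit 608) (nat_lit 2659695824) (nat_lit 0) (nat_lit 1325528373) (nat_lit 532) (nat_lit 1325528373) (nat_lit 273) (nat_lit 1) (nat_lit 265) (nat_lit 1) (nat_lit 272) (nat_lit 1) (nat_lit 359) (nat_lit 422) (nat_lit 359)))) (XT.nd (nat_lit 156) (nat_lit 1140) (nat_lit 0) (XT.nd (nat_lit 78) (nat_lit 532) (nat_lit 0) (XT.lf (nat_lit 76) (nat_lit 830290182) (nat_lit 0) (nat_lit 3607575650) (nat_lit 608) (nat_lit 830290182) (nat_lit 266) (nat_lit 1) (nat_lit 265) (nat_lit 1) (nat_lit 273) (nat_lit 1) (nat_lit 360) (nat_lit 422) (nat_lit 358)) (XT.lf (nat_lit 608) (nat_lit 657321353) (nat_lit 0) (nat_lit 2284303979) (nat_lit 532) (nat_lit 2284303979) (nat_lit 266) (nat_lit 1)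 (nat_lit 258) (nat_lit 1) (nat_lit 265) (nat_lit 1) (nat_lit 361) (nat_lit 422) (nat_lit 357))) (XT.nd (nat_lit 78) (nat_lit 532) (nat_lit 0) (XT.lf (nat_lit 608) (nat_lit 4855915168) (nat_lit 0) (nat_lit 164221954) (nat_lit 532) (nat_lit 164221954) (nat_lit 258) (nat_lit 1) (nat_lit 250) (nat_lit 1) (nat_lit 257) (nat_lit 1) (nat_lit 362) (nat_lit 422) (nat_lit 356)) (XT.nd (nat_lit 78) (nat_lit 532) (nat_lit 0) (XT.lf (nat_lit 76) (nat_lit 1912466647) (nat_lit 0) (nat_lit 1317956410) (nat_lit 608) (nat_lit 1912466647) (nat_lit 251) (nat_lit 1) (nat_lit 250) (nat_lit 1) (nat_lit 258) (nat_lit 1) (nat_lit 363) (nat_lit 422) (nat_lit 355)) (XT.lf (nat_lit 608) (nat_lit 2805495985) (nat_lit 0) (nat_lit 1148283729) (nat_lit 532) (nat_lit 1148283729) (nat_lit 251) (nat_lit 1) (nat_lit 243) (nat_lit 1) (nat_lit 250) (nat_lit 1) (nat_lit 364) (nat_lit 422) (nat_lit 354)))))) (XT.nd (nat_lit 312) (nat_lit 1444) (nat_lit 0) (XT.nd (nat_lit 156) (nat_lit 608) (nat_lit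 0) (XT.nd (nat_lit 78) (nat_lit 456) (nat_lit 0) (XT.lf (nat_lit 76) (nat_lit 893734099) (nat_lit 0) (nat_lit 3274205195) (nat_lit 608) (nat_lit 893734099) (nat_lit 244) (nat_lit 1) (nat_lit 243) (nat_lit 1) (nat_lit 251) (nat_lit 1) (nat_lit 365) (nat_lit 422) (nat_lit 353)) (XT.lf (nat_lit 532) (nat_lit 767860919) (nat_lit 0) (nat_lit 2126896009) (nat_lit 456) (nat_lit 2126896009) (nat_lit 244) (nat_lit 1) (nat_lit 237) (nat_lit 1) (nat_lit 243) (nat_lit 1) (nat_lit 366) (nat_lit 422) (nat_lit 352))) (XT.nd (nat_lit 78) (nat_lit 0) (nat_lit 0) (XT.lf (nat_lit 608) (nat_lit 4746974691) (nat_lit 0) (nat_lit 117640540) (nat_lit 532) (nat_lit 117640540) (nat_lit 237) (nat_lit 1) (nat_lit 229) (nat_lit 1) (nat_lit 236) (nat_lit 1) (nat_lit 367) (nat_lit 422) (nat_lit 351)) (XT.lf (nat_lit 76) (nat_lit 1851607984) (nat_lit 0) (nat_lit 1239700966) (nat_lit 608) (nat_lit 1851607984) (nat_lit 230) (nat_lit 1) (nat_lit 229) (nat_lit 1) (nat_lit 237) (nat_lit 1) (nat_lit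 368) (nat_lit 422) (nat_lit 350)))) (XT.nd (nat_lit 156) (nat_lit 988) (nat_lit 0) (XT.nd (nat_lit 78) (nat_lit 0) (nat_lit 0) (XT.lf (nat_lit 532) (nat_lit 2671767175) (nat_lit 0) (nat_lit 1116211176) (nat_lit 456) (nat_lit 1116211176) (nat_lit 230) (nat_lit 1) (nat_lit 223) (nat_lit 1) (nat_lit 229) (nat_lit 1) (nat_lit 369) (nat_lit 422) (nat_lit 349)) (XT.lf (nat_lit 76) (nat_lit 821424522) (nat_lit 0) (nat_lit 3223025497) (nat_lit 532) (nat_lit 821424522) (nat_lit 224) (nat_lit 1) (nat_lit 223) (nat_lit 1) (nat_lit 230) (nat_lit 1) (nat_lit 370) (nat_lit 422) (nat_lit 348))) (XT.nd (nat_lit 78) (nat_lit 532) (nat_lit 0) (XT.lf (nat_lit 532) (nat_lit 612901666) (nat_lit 0) (nat_lit 2107496700) (nat_lit 456) (nat_lit 2107496700) (nat_lit 224) (nat_lit 1) (nat_lit 217) (nat_lit 1) (nat_lit 223) (nat_lit 1) (nat_lit 371) (nat_lit 422) (nat_lit 347)) (XT.nd (nat_lit 78) (nat_lit 0) (nat_lit 0) (XT.lf (nat_lit 532) (nat_lit 4392204175) (nat_lit 0) (nat_lit 199136027)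 (nat_lit 456) (nat_lit 199136027) (nat_lit 217) (nat_lit 1) (nat_lit 210) (nat_lit 1) (nat_lit 216) (nat_lit 1) (nat_lit 372) (nat_lit 422) (nat_lit 346)) (XT.lf (nat_lit 76) (nat_lit 1671443743) (nat_lit 0) (nat_lit 1410255240) (nat_lit 532) (nat_lit 1671443743) (nat_lit 211) (nat_lit 1) (nat_lit 210) (nat_lit 1) (nat_lit 217) (nat_lit 1) (nat_lit 373) (nat_lit 422) (nat_lit 345))))))))
noncomputable def ec110 : XT := (XT.nd (nat_lit 1404) (nat_lit 1976) (nat_lit 0) (XT.nd (nat_lit 702) (nat_lit 1900) (nat_lit 0) (XT.nd (nat_lit 312) (nat_lit 1216) (nat_lit 0) (XT.nd (nat_lit 156) (nat_lit 912) (nat_lit 0) (XT.nd (nat_lit 78) (nat_lit 0) (nat_lit 0) (XT.lf (nat_lit 532) (nat_lit 2304867639) (nat_lit 0) (nat_lit 1205745846) (nat_lit 456) (nat_lit 1205745846) (nat_lit 211) (nat_lit 1) (nat_lit 204) (nat_lit 1) (nat_lit 210) (nat_lit 1) (nat_lit 374) (nat_lit 422) (nat_lit 344)) (XT.lf (nat_lit 76) (nat_lit 635968549) (nat_lit 0) (nat_lit 3408060787) (nat_lit 532)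 (nat_lit 635968549) (nat_lit 205) (nat_lit 1) (nat_lit 204) (nat_lit 1) (nat_lit 211) (nat_lit 1) (nat_lit 375) (nat_lit 422) (nat_lit 343))) (XT.nd (nat_lit 78) (nat_lit 532) (nat_lit 0) (XT.lf (nat_lit 456) (nat_lit 236838644) (nat_lit 0) (nat_lit 2203535563) (nat_lit 380) (nat_lit 2203535563) (nat_lit 205) (nat_lit 1) (nat_lit 199) (nat_lit 1) (nat_lit 204) (nat_lit 1) (nat_lit 376) (nat_lit 422) (nat_lit 342)) (XT.lf (nat_lit 532) (nat_lit 3833891659) (nat_lit 0) (nat_lit 387201863) (nat_lit 456) (nat_lit 387201863) (nat_lit 199) (nat_lit 1) (nat_lit 192) (nat_lit 1) (nat_lit 198) (nat_lit 1) (nat_lit 377) (nat_lit 422) (nat_lit 341)))) (XT.nd (nat_lit 156) (nat_lit 836) (nat_lit 0) (XT.nd (nat_lit 78) (nat_lit 380) (nat_lit 0) (XT.lf (nat_lit 76) (nat_lit 1392593309) (nat_lit 0) (nat_lit 1787664708) (nat_lit 532) (nat_lit 1392593309) (nat_lit 193) (nat_lit 1) (nat_lit 192) (nat_lit 1) (nat_lit 199) (nat_lit 1) (nat_lit 378) (nat_lit 422) (nat_lit 340)) (XT.lf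 (nat_lit 456) (nat_lit 1745283468) (nat_lit 0) (nat_lit 1396294086) (nat_lit 380) (nat_lit 1396294086) (nat_lit 193) (nat_lit 1) (nat_lit 187) (nat_lit 1) (nat_lit 192) (nat_lit 1) (nat_lit 379) (nat_lit 422) (nat_lit 339))) (XT.nd (nat_lit 78) (nat_lit 836) (nat_lit 0) (XT.lf (nat_lit 76) (nat_lit 357106204) (nat_lit 0) (nat_lit 3789138793) (nat_lit 456) (nat_lit 357106204) (nat_lit 188) (nat_lit 1) (nat_lit 187) (nat_lit 1) (nat_lit 193) (nat_lit 1) (nat_lit 380) (nat_lit 422) (nat_lit 338)) (XT.nd (nat_lit 78) (nat_lit 380) (nat_lit 0) (XT.lf (nat_lit 76) (nat_lit 2075812207) (nat_lit 0) (nat_lit 317352666) (nat_lit 456) (nat_lit 2075812207) (nat_lit 182) (nat_lit 1) (nat_lit 181) (nat_lit 1) (nat_lit 187) (nat_lit 1) (nat_lit 381) (nat_lit 422) (nat_lit 337)) (XT.lf (nat_lit 456) (nat_lit 3108922316) (nat_lit 0) (nat_lit 663065625) (nat_lit 380) (nat_lit 663065625) (nat_lit 182) (nat_lit 1) (nat_lit 176) (nat_lit 1) (nat_lit 181) (nat_lit 1) (nat_lit 382)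 (nat_lit 422) (nat_lit 336)))))) (XT.nd (nat_lit 312) (nat_lit 1140) (nat_lit 0) (XT.nd (nat_lit 156) (nat_lit 380) (nat_lit 0) (XT.nd (nat_lit 78) (nat_lit 380) (nat_lit 0) (XT.lf (nat_lit 76) (nat_lit 1033038233) (nat_lit 0) (nat_lit 2335315048) (nat_lit 456) (nat_lit 1033038233) (nat_lit 177) (nat_lit 1) (nat_lit 176) (nat_lit 1) (nat_lit 182) (nat_lit 1) (nat_lit 383) (nat_lit 422) (nat_lit 335)) (XT.lf (nat_lit 456) (nat_lit 1028314661) (nat_lit 0) (nat_lit 1669886795) (nat_lit 380) (nat_lit 1669886795) (nat_lit 177) (nat_lit 1) (nat_lit 171) (nat_lit 1) (nat_lit 176) (nat_lit 1) (nat_lit 384) (nat_lit 422) (nat_lit 334))) (XT.nd (nat_lit 78) (nat_lit 380) (nat_lit 0) (XT.lf (nat_lit 76) (nat_lit 2045547) (nat_lit 0) (nat_lit 4331213367) (nat_lit 456) (nat_lit 2045547) (nat_lit 172) (nat_lit 1) (nat_lit 171) (nat_lit 1) (nat_lit 177) (nat_lit 1) (nat_lit 385) (nat_lit 422) (nat_lit 333)) (XT.lf (nat_lit 76) (nat_lit 1643708137) (nat_lit 0) (nat_lit 1015054935)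 (nat_lit 380) (nat_lit 1643708137) (nat_lit 167) (nat_lit 1) (nat_lit 166) (nat_lit 1) (nat_lit 171) (nat_lit 1) (nat_lit 386) (nat_lit 422) (nat_lit 332)))) (XT.nd (nat_lit 156) (nat_lit 760) (nat_lit 0) (XT.nd (nat_lit 78) (nat_lit 0) (nat_lit 0) (XT.lf (nat_lit 456) (nat_lit 2249411386) (nat_lit 0) (nat_lit 1010369187) (nat_lit 380) (nat_lit 1010369187) (nat_lit 167) (nat_lit 1) (nat_lit 161) (nat_lit 1) (nat_lit 166) (nat_lit 1) (nat_lit 387) (nat_lit 422) (nat_lit 331)) (XT.lf (nat_lit 76) (nat_lit 608431385) (nat_lit 0) (nat_lit 3021307202) (nat_lit 456) (nat_lit 608431385) (nat_lit 162) (nat_lit 1) (nat_lit 161) (nat_lit 1) (nat_lit 167) (nat_lit 1) (nat_lit 388) (nat_lit 422) (nat_lit 330))) (XT.nd (nat_lit 78) (nat_lit 456) (nat_lit 0) (XT.lf (nat_lit 380) (nat_lit 184683186) (nat_lit 0) (nat_lit 2010872153) (nat_lit 304) (nat_lit 2010872153) (nat_lit 162) (nat_lit 1) (nat_lit 157) (nat_lit 1) (nat_lit 161) (nat_lit 1) (nat_lit 389) (nat_lit 422) (nat_lit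 329)) (XT.nd (nat_lit 78) (nat_lit 0) (nat_lit 0) (XT.lf (nat_lit 456) (nat_lit 3352037431) (nat_lit 0) (nat_lit 411515060) (nat_lit 380) (nat_lit 411515060) (nat_lit 157) (nat_lit 1) (nat_lit 151) (nat_lit 1) (nat_lit 156) (nat_lit 1) (nat_lit 390) (nat_lit 422) (nat_lit 328)) (XT.lf (nat_lit 76) (nat_lit 1156745196) (nat_lit 0) (nat_lit 1830373332) (nat_lit 456) (nat_lit 1156745196) (nat_lit 152) (nat_lit 1) (nat_lit 151) (nat_lit 1) (nat_lit 157) (nat_lit 1) (nat_lit 391) (nat_lit 422) (nat_lit 327))))))) (XT.nd (nat_lit 53664) (nat_lit 0) (nat_lit 22496) (XT.nd (nat_lit 312) (nat_lit 988) (nat_lit 0) (XT.nd (nat_lit 156) (nat_lit 684) (nat_lit 0) (XT.nd (nat_lit 78) (nat_lit 0) (nat_lit 0) (XT.lf (nat_lit 380) (nat_lit 1283265090) (nat_lit 0) (nat_lit 1414885265) (nat_lit 304) (nat_lit 1414885265) (nat_lit 152) (nat_lit 1) (nat_lit 147) (nat_lit 1) (nat_lit 151) (nat_lit 1) (nat_lit 392) (nat_lit 422) (nat_lit 326)) (XT.lf (nat_lit 76) (nat_lit 132370920)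 (nat_lit 0) (nat_lit 3817903513) (nat_lit 380) (nat_lit 132370920) (nat_lit 148) (nat_lit 1) (nat_lit 147) (nat_lit 1) (nat_lit 152) (nat_lit 1) (nat_lit 393) (nat_lit 422) (nat_lit 325))) (XT.nd (nat_lit 78) (nat_lit 304) (nat_lit 0) (XT.lf (nat_lit 76) (nat_lit 1651642624) (nat_lit 0) (nat_lit 748974671) (nat_lit 380) (nat_lit 1651642624) (nat_lit 143) (nat_lit 1) (nat_lit 142) (nat_lit 1) (nat_lit 147) (nat_lit 1) (nat_lit 394) (nat_lit 422) (nat_lit 324)) (XT.lf (nat_lit 380) (nat_lit 2276368362) (nat_lit 0) (nat_lit 872968833) (nat_lit 304) (nat_lit 872968833) (nat_lit 143) (nat_lit 1) (nat_lit 138) (nat_lit 1) (nat_lit 142) (nat_lit 1) (nat_lit 395) (nat_lit 422) (nat_lit 323)))) (XT.nd (nat_lit 156) (nat_lit 684) (nat_lit 0) (XT.nd (nat_lit 78) (nat_lit 304) (nat_lit 0) (XT.lf (nat_lit 76) (nat_lit 627255907) (nat_lit 0) (nat_lit 2738132061) (nat_lit 380) (nat_lit 627255907) (nat_lit 139) (nat_lit 1) (nat_lit 138) (nat_lit 1) (nat_lit 143) (nat_lit 1)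 (nat_lit 396) (nat_lit 422) (nat_lit 322)) (XT.lf (nat_lit 380) (nat_lit 234677641) (nat_lit 0) (nat_lit 1864266237) (nat_lit 304) (nat_lit 1864266237) (nat_lit 139) (nat_lit 1) (nat_lit 134) (nat_lit 1) (nat_lit 138) (nat_lit 1) (nat_lit 397) (nat_lit 422) (nat_lit 321))) (XT.nd (nat_lit 78) (nat_lit 304) (nat_lit 0) (XT.lf (nat_lit 380) (nat_lit 3172453458) (nat_lit 0) (nat_lit 380834883) (nat_lit 304) (nat_lit 380834883) (nat_lit 134) (nat_lit 1) (nat_lit 129) (nat_lit 1) (nat_lit 133) (nat_lit 1) (nat_lit 398) (nat_lit 422) (nat_lit 320)) (XT.nd (nat_lit 78) (nat_lit 304) (nat_lit 0) (XT.lf (nat_lit 76) (nat_lit 1074551851) (nat_lit 0) (nat_lit 1756061136) (nat_lit 380) (nat_lit 1074551851) (nat_lit 130) (nat_lit 1) (nat_lit 129) (nat_lit 1) (nat_lit 134) (nat_lit 1) (nat_lit 399) (nat_lit 422) (nat_lit 319)) (XT.lf (nat_lit 380) (nat_lit 1134266594) (nat_lit 0) (nat_lit 1371140569) (nat_lit 304) (nat_lit 1371140569) (nat_lit 130) (nat_lit 1) (nat_lit 125)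 (nat_lit 1) (nat_lit 129) (nat_lit 1) (nat_lit 400) (nat_lit 422) (nat_lit 318)))))) (XT.nd (nat_lit 312) (nat_lit 2736) (nat_lit 0) (XT.nd (nat_lit 156) (nat_lit 912) (nat_lit 0) (XT.nd (nat_lit 78) (nat_lit 1140) (nat_lit 0) (XT.lf (nat_lit 76) (nat_lit 2414350502) (nat_lit 0) (nat_lit 2670953221) (nat_lit 1900) (nat_lit 2414350502) (nat_lit 485) (nat_lit 1) (nat_lit 484) (nat_lit 1) (nat_lit 509) (nat_lit 1) (nat_lit 319) (nat_lit 423) (nat_lit 398)) (XT.lf (nat_lit 1216) (nat_lit 4175733684) (nat_lit 0) (nat_lit 1628065781) (nat_lit 1140) (nat_lit 1628065781) (nat_lit 485) (nat_lit 1) (nat_lit 469) (nat_lit 1) (nat_lit 484) (nat_lit 1) (nat_lit 320) (nat_lit 423) (nat_lit 397))) (XT.nd (nat_lit 78) (nat_lit 912) (nat_lit 0) (XT.lf (nat_lit 76) (nat_lit 1753957889) (nat_lit 0) (nat_lit 3856947452) (nat_lit 1216) (nat_lit 1753957889) (nat_lit 470) (nat_lit 1) (nat_lit 469) (nat_lit 1) (nat_lit 485) (nat_lit 1) (nat_lit 321) (nat_lit 423) (nat_lit 396)) (XT.lf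 (nat_lit 988) (nat_lit 2827817688) (nat_lit 0) (nat_lit 2235429874) (nat_lit 912) (nat_lit 2235429874) (nat_lit 470) (nat_lit 1) (nat_lit 457) (nat_lit 1) (nat_lit 469) (nat_lit 1) (nat_lit 322) (nat_lit 423) (nat_lit 395)))) (XT.nd (nat_lit 156) (nat_lit 1824) (nat_lit 0) (XT.nd (nat_lit 78) (nat_lit 912) (nat_lit 0) (XT.lf (nat_lit 76) (nat_lit 1071163792) (nat_lit 0) (nat_lit 5091094619) (nat_lit 988) (nat_lit 1071163792) (nat_lit 458) (nat_lit 1) (nat_lit 457) (nat_lit 1) (nat_lit 470) (nat_lit 1) (nat_lit 323) (nat_lit 423) (nat_lit 394)) (XT.lf (nat_lit 988) (nat_lit 1436784420) (nat_lit 0) (nat_lit 2866002659) (nat_lit 912) (nat_lit 2866002659) (nat_lit 458) (nat_lit 1) (nat_lit 445) (nat_lit 1) (nat_lit 457) (nat_lit 1) (nat_lit 324) (nat_lit 423) (nat_lit 393))) (XT.nd (nat_lit 78) (nat_lit 1824) (nat_lit 0) (XT.lf (nat_lit 76) (nat_lit 367780153) (nat_lit 0) (nat_lit 6369677698) (nat_lit 988) (nat_lit 367780153) (nat_lit 446) (nat_lit 1) (nat_lit 445)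 (nat_lit 1) (nat_lit 458) (nat_lit 1) (nat_lit 325) (nat_lit 423) (nat_lit 392)) (XT.nd (nat_lit 78) (nat_lit 988) (nat_lit 0) (XT.lf (nat_lit 912) (nat_lit 6179910) (nat_lit 0) (nat_lit 3517965395) (nat_lit 836) (nat_lit 3517965395) (nat_lit 446) (nat_lit 1) (nat_lit 434) (nat_lit 1) (nat_lit 445) (nat_lit 1) (nat_lit 326) (nat_lit 423) (nat_lit 391)) (XT.lf (nat_lit 988) (nat_lit 6275759895) (nat_lit 0) (nat_lit 352137878) (nat_lit 912) (nat_lit 352137878) (nat_lit 434) (nat_lit 1) (nat_lit 421) (nat_lit 1) (nat_lit 433) (nat_lit 1) (nat_lit 327) (nat_lit 423) (nat_lit 390))))))))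
noncomputable def ec111 : XT := (XT.nd (nat_lit 1404) (nat_lit 6384) (nat_lit 0) (XT.nd (nat_lit 702) (nat_lit 3572) (nat_lit 0) (XT.nd (nat_lit 312) (nat_lit 2356) (nat_lit 0) (XT.nd (nat_lit 156) (nat_lit 836) (nat_lit 0) (XT.nd (nat_lit 78) (nat_lit 836) (nat_lit 0) (XT.lf (nat_lit 76) (nat_lit 2738447094) (nat_lit 0) (nat_lit 1441467856) (nat_lit 988) (nat_lit 2738447094) (nat_lit 422) (nat_lit 1) (nat_lit 421) (nat_lit 1) (nat_lit 434) (nat_lit 1) (nat_lit 328) (nat_lit 423) (nat_lit 389)) (XT.lf (nat_lit 912) (nat_lit 4684209176) (nat_lit 0) (nat_lit 1086751300) (nat_lit 836) (nat_lit 1086751300) (nat_lit 422) (nat_lit 1) (nat_lit 410) (nat_lit 1) (nat_lit 421) (nat_lit 1) (nat_lit 329) (nat_lit 423) (nat_lit 388))) (XT.nd (nat_lit 78) (nat_lit 836) (nat_lit 0) (XT.lf (nat_lit 76) (nat_lit 1938022877) (nat_lit 0) (nat_lit 2921596717) (nat_lit 912) (nat_lit 1938022877) (nat_lit 411) (nat_lit 1) (nat_lit 410) (nat_lit 1) (nat_lit 422) (nat_lit 1) (nat_lit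 330) (nat_lit 423) (nat_lit 387)) (XT.lf (nat_lit 912) (nat_lit 3064507642) (nat_lit 0) (nat_lit 1836933234) (nat_lit 836) (nat_lit 1836933234) (nat_lit 411) (nat_lit 1) (nat_lit 399) (nat_lit 1) (nat_lit 410) (nat_lit 1) (nat_lit 331) (nat_lit 423) (nat_lit 386)))) (XT.nd (nat_lit 156) (nat_lit 1596) (nat_lit 0) (XT.nd (nat_lit 78) (nat_lit 760) (nat_lit 0) (XT.lf (nat_lit 76) (nat_lit 1124293645) (nat_lit 0) (nat_lit 4431282649) (nat_lit 912) (nat_lit 1124293645) (nat_lit 400) (nat_lit 1) (nat_lit 399) (nat_lit 1) (nat_lit 411) (nat_lit 1) (nat_lit 332) (nat_lit 423) (nat_lit 385)) (XT.lf (nat_lit 836) (nat_lit 1419512200) (nat_lit 0) (nat_lit 2601214538) (nat_lit 760) (nat_lit 2601214538) (nat_lit 400) (nat_lit 1) (nat_lit 389) (nat_lit 1) (nat_lit 399) (nat_lit 1) (nat_lit 333) (nat_lit 423) (nat_lit 384))) (XT.nd (nat_lit 78) (nat_lit 1596) (nat_lit 0) (XT.lf (nat_lit 76) (nat_lit 298646371) (nat_lit 0) (nat_lit 5967671401) (nat_lit 836) (nat_lit 298646371)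 (nat_lit 390) (nat_lit 1) (nat_lit 389) (nat_lit 1) (nat_lit 400) (nat_lit 1) (nat_lit 334) (nat_lit 423) (nat_lit 383)) (XT.nd (nat_lit 78) (nat_lit 760) (nat_lit 0) (XT.lf (nat_lit 76) (nat_lit 3131744919) (nat_lit 0) (nat_lit 244812334) (nat_lit 836) (nat_lit 3131744919) (nat_lit 379) (nat_lit 1) (nat_lit 378) (nat_lit 1) (nat_lit 389) (nat_lit 1) (nat_lit 335) (nat_lit 423) (nat_lit 382)) (XT.lf (nat_lit 836) (nat_lit 5384434984) (nat_lit 0) (nat_lit 534066033) (nat_lit 760) (nat_lit 534066033) (nat_lit 379) (nat_lit 1) (nat_lit 368) (nat_lit 1) (nat_lit 378) (nat_lit 1) (nat_lit 336) (nat_lit 423) (nat_lit 381)))))) (XT.nd (nat_lit 312) (nat_lit 2128) (nat_lit 0) (XT.nd (nat_lit 156) (nat_lit 684) (nat_lit 0) (XT.nd (nat_lit 78) (nat_lit 760) (nat_lit 0) (XT.lf (nat_lit 76) (nat_lit 2243478994) (nat_lit 0) (nat_lit 1910267598) (nat_lit 836) (nat_lit 2243478994) (nat_lit 369) (nat_lit 1) (nat_lit 368) (nat_lit 1) (nat_lit 379) (nat_lit 1) (nat_lit 337) (nat_lit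 423) (nat_lit 380)) (XT.lf (nat_lit 836) (nat_lit 3594511033) (nat_lit 0) (nat_lit 1374105897) (nat_lit 760) (nat_lit 1374105897) (nat_lit 369) (nat_lit 1) (nat_lit 358) (nat_lit 1) (nat_lit 368) (nat_lit 1) (nat_lit 338) (nat_lit 423) (nat_lit 379))) (XT.nd (nat_lit 78) (nat_lit 684) (nat_lit 0) (XT.lf (nat_lit 76) (nat_lit 1347879164) (nat_lit 0) (nat_lit 3593063664) (nat_lit 836) (nat_lit 1347879164) (nat_lit 359) (nat_lit 1) (nat_lit 358) (nat_lit 1) (nat_lit 369) (nat_lit 1) (nat_lit 339) (nat_lit 423) (nat_lit 378)) (XT.lf (nat_lit 760) (nat_lit 1790989648) (nat_lit 0) (nat_lit 2222262443) (nat_lit 684) (nat_lit 2222262443) (nat_lit 359) (nat_lit 1) (nat_lit 349) (nat_lit 1) (nat_lit 358) (nat_lit 1) (nat_lit 340) (nat_lit 423) (nat_lit 377)))) (XT.nd (nat_lit 156) (nat_lit 1368) (nat_lit 0) (XT.nd (nat_lit 78) (nat_lit 760) (nat_lit 0) (XT.lf (nat_lit 76) (nat_lit 446050336) (nat_lit 0) (nat_lit 5290919082) (nat_lit 760) (nat_lit 446050336) (nat_lit 350)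 (nat_lit 1) (nat_lit 349) (nat_lit 1) (nat_lit 359) (nat_lit 1) (nat_lit 341) (nat_lit 423) (nat_lit 376)) (XT.lf (nat_lit 76) (nat_lit 3053605666) (nat_lit 0) (nat_lit 23657314) (nat_lit 760) (nat_lit 3053605666) (nat_lit 340) (nat_lit 1) (nat_lit 339) (nat_lit 1) (nat_lit 349) (nat_lit 1) (nat_lit 342) (nat_lit 423) (nat_lit 375))) (XT.nd (nat_lit 78) (nat_lit 684) (nat_lit 0) (XT.lf (nat_lit 760) (nat_lit 5163651308) (nat_lit 0) (nat_lit 457928923) (nat_lit 684) (nat_lit 457928923) (nat_lit 340) (nat_lit 1) (nat_lit 330) (nat_lit 1) (nat_lit 339) (nat_lit 1) (nat_lit 343) (nat_lit 423) (nat_lit 374)) (XT.nd (nat_lit 78) (nat_lit 684) (nat_lit 0) (XT.lf (nat_lit 76) (nat_lit 2102198047) (nat_lit 0) (nat_lit 1824090102) (nat_lit 760) (nat_lit 2102198047) (nat_lit 331) (nat_lit 1) (nat_lit 330) (nat_lit 1) (nat_lit 340) (nat_lit 1) (nat_lit 344) (nat_lit 423) (nat_lit 373)) (XT.lf (nat_lit 760) (nat_lit 3251949214) (nat_lit 0) (nat_lit 1363139584) (nat_lit 684)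 (nat_lit 1363139584) (nat_lit 331) (nat_lit 1) (nat_lit 321) (nat_lit 1) (nat_lit 330) (nat_lit 1) (nat_lit 345) (nat_lit 423) (nat_lit 372))))))) (XT.nd (nat_lit 702) (nat_lit 3344) (nat_lit 0) (XT.nd (nat_lit 312) (nat_lit 1748) (nat_lit 0) (XT.nd (nat_lit 156) (nat_lit 684) (nat_lit 0) (XT.nd (nat_lit 78) (nat_lit 608) (nat_lit 0) (XT.lf (nat_lit 76) (nat_lit 1148320837) (nat_lit 0) (nat_lit 3631892063) (nat_lit 760) (nat_lit 1148320837) (nat_lit 322) (nat_lit 1) (nat_lit 321) (nat_lit 1) (nat_lit 331) (nat_lit 1) (nat_lit 346) (nat_lit 423) (nat_lit 371)) (XT.lf (nat_lit 684) (nat_lit 1336171629) (nat_lit 0) (nat_lit 2271586679) (nat_lit 608) (nat_lit 2271586679) (nat_lit 322) (nat_lit 1) (nat_lit 313) (nat_lit 1) (nat_lit 321) (nat_lit 1) (nat_lit 347) (nat_lit 423) (nat_lit 370))) (XT.nd (nat_lit 78) (nat_lit 684) (nat_lit 0) (XT.lf (nat_lit 76) (nat_lit 192842755) (nat_lit 0) (nat_lit 5445261707) (nat_lit 684) (nat_lit 192842755) (nat_lit 314) (nat_lit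 1) (nat_lit 313) (nat_lit 1) (nat_lit 322) (nat_lit 1) (nat_lit 348) (nat_lit 423) (nat_lit 369)) (XT.lf (nat_lit 76) (nat_lit 2604182788) (nat_lit 0) (nat_lit 574354841) (nat_lit 684) (nat_lit 2604182788) (nat_lit 305) (nat_lit 1) (nat_lit 304) (nat_lit 1) (nat_lit 313) (nat_lit 1) (nat_lit 349) (nat_lit 423) (nat_lit 368)))) (XT.nd (nat_lit 156) (nat_lit 1140) (nat_lit 0) (XT.nd (nat_lit 78) (nat_lit 0) (nat_lit 0) (XT.lf (nat_lit 684) (nat_lit 4218478838) (nat_lit 0) (nat_lit 758393890) (nat_lit 608) (nat_lit 758393890) (nat_lit 305) (nat_lit 1) (nat_lit 296) (nat_lit 1) (nat_lit 304) (nat_lit 1) (nat_lit 350) (nat_lit 423) (nat_lit 367)) (XT.lf (nat_lit 76) (nat_lit 1610032349) (nat_lit 0) (nat_lit 2468130805) (nat_lit 684) (nat_lit 1610032349) (nat_lit 297) (nat_lit 1) (nat_lit 296) (nat_lit 1) (nat_lit 305) (nat_lit 1) (nat_lit 351) (nat_lit 423) (nat_lit 366))) (XT.nd (nat_lit 78) (nat_lit 532) (nat_lit 0) (XT.lf (nat_lit 684) (nat_lit 2224989603) (nat_lit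 0) (nat_lit 1708369680) (nat_lit 608) (nat_lit 1708369680) (nat_lit 297) (nat_lit 1) (nat_lit 288) (nat_lit 1) (nat_lit 296) (nat_lit 1) (nat_lit 352) (nat_lit 423) (nat_lit 365)) (XT.nd (nat_lit 78) (nat_lit 532) (nat_lit 0) (XT.lf (nat_lit 76) (nat_lit 617345377) (nat_lit 0) (nat_lit 4361193858) (nat_lit 684) (nat_lit 617345377) (nat_lit 289) (nat_lit 1) (nat_lit 288) (nat_lit 1) (nat_lit 297) (nat_lit 1) (nat_lit 353) (nat_lit 423) (nat_lit 364)) (XT.lf (nat_lit 608) (nat_lit 235117464) (nat_lit 0) (nat_lit 2657629557) (nat_lit 532) (nat_lit 2657629557) (nat_lit 289) (nat_lit 1) (nat_lit 281) (nat_lit 1) (nat_lit 288) (nat_lit 1) (nat_lit 354) (nat_lit 423) (nat_lit 363)))))) (XT.nd (nat_lit 390) (nat_lit 1596) (nat_lit 0) (XT.nd (nat_lit 156) (nat_lit 1064) (nat_lit 0) (XT.nd (nat_lit 78) (nat_lit 0) (nat_lit 0) (XT.lf (nat_lit 684) (nat_lit 4764033028) (nat_lit 0) (nat_lit 370751401) (nat_lit 608) (nat_lit 370751401) (nat_lit 281) (nat_lit 1) (nat_lit 272)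 (nat_lit 1) (nat_lit 280) (nat_lit 1) (nat_lit 355) (nat_lit 423) (nat_lit 362)) (XT.lf (nat_lit 76) (nat_lit 1867021992) (nat_lit 0) (nat_lit 1726881771) (nat_lit 684) (nat_lit 1867021992) (nat_lit 273) (nat_lit 1) (nat_lit 272) (nat_lit 1) (nat_lit 281) (nat_lit 1) (nat_lit 356) (nat_lit 423) (nat_lit 361))) (XT.nd (nat_lit 78) (nat_lit 532) (nat_lit 0) (XT.lf (nat_lit 608) (nat_lit 2712889741) (nat_lit 0) (nat_lit 1352038940) (nat_lit 532) (nat_lit 1352038940) (nat_lit 273) (nat_lit 1) (nat_lit 265) (nat_lit 1) (nat_lit 272) (nat_lit 1) (nat_lit 357) (nat_lit 423) (nat_lit 360)) (XT.nd (nat_lit 78) (nat_lit 532) (nat_lit 0) (XT.lf (nat_lit 76) (nat_lit 846895986) (nat_lit 0) (nat_lit 3679727163) (nat_lit 608) (nat_lit 846895986) (nat_lit 266) (nat_lit 1) (nat_lit 265) (nat_lit 1) (nat_lit 273) (nat_lit 1) (nat_lit 358) (nat_lit 423) (nat_lit 359)) (XT.lf (nat_lit 608) (nat_lit 670467781) (nat_lit 0) (nat_lit 2329990058) (nat_lit 532) (nat_lit 2329990058) (nat_lit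 266) (nat_lit 1) (nat_lit 258) (nat_lit 1) (nat_lit 265) (nat_lit 1) (nat_lit 359) (nat_lit 423) (nat_lit 358))))) (XT.nd (nat_lit 156) (nat_lit 988) (nat_lit 0) (XT.nd (nat_lit 78) (nat_lit 0) (nat_lit 0) (XT.lf (nat_lit 608) (nat_lit 4953033471) (nat_lit 0) (nat_lit 167506393) (nat_lit 532) (nat_lit 167506393) (nat_lit 258) (nat_lit 1) (nat_lit 250) (nat_lit 1) (nat_lit 257) (nat_lit 1) (nat_lit 360) (nat_lit 423) (nat_lit 357)) (XT.lf (nat_lit 76) (nat_lit 1950715980) (nat_lit 0) (nat_lit 1344315539) (nat_lit 608) (nat_lit 1950715980) (nat_lit 251) (nat_lit 1) (nat_lit 250) (nat_lit 1) (nat_lit 258) (nat_lit 1) (nat_lit 361) (nat_lit 423) (nat_lit 356))) (XT.nd (nat_lit 78) (nat_lit 456) (nat_lit 0) (XT.lf (nat_lit 608) (nat_lit 2861605904) (nat_lit 0) (nat_lit 1171249403) (nat_lit 532) (nat_lit 1171249403) (nat_lit 251) (nat_lit 1) (nat_lit 243) (nat_lit 1) (nat_lit 250) (nat_lit 1) (nat_lit 362) (nat_lit 423) (nat_lit 355)) (XT.nd (nat_lit 78) (nat_lit 456)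 (nat_lit 0) (XT.lf (nat_lit 76) (nat_lit 911608781) (nat_lit 0) (nat_lit 3339689298) (nat_lit 608) (nat_lit 911608781) (nat_lit 244) (nat_lit 1) (nat_lit 243) (nat_lit 1) (nat_lit 251) (nat_lit 1) (nat_lit 363) (nat_lit 423) (nat_lit 354)) (XT.lf (nat_lit 532) (nat_lit 783218137) (nat_lit 0) (nat_lit 2169433929) (nat_lit 456) (nat_lit 2169433929) (nat_lit 244) (nat_lit 1) (nat_lit 237) (nat_lit 1) (nat_lit 243) (nat_lit 1) (nat_lit 364) (nat_lit 423) (nat_lit 353))))))))
noncomputable def ec112 : XT := (XT.nd (nat_lit 1404) (nat_lit 3496) (nat_lit 0) (XT.nd (nat_lit 702) (nat_lit 2508) (nat_lit 0) (XT.nd (nat_lit 312) (nat_lit 1444) (nat_lit 0) (XT.nd (nat_lit 156) (nat_lit 456) (nat_lit 0) (XT.nd (nat_lit 78) (nat_lit 0) (nat_lit 0) (XT.lf (nat_lit 608) (nat_lit 4841914185) (nat_lit 0) (nat_lit 119993350) (nat_lit 532) (nat_lit 119993350) (nat_lit 237) (nat_lit 1) (nat_lit 229) (nat_lit 1) (nat_lit 236) (nat_lit 1) (nat_lit 365) (nat_lit 423) (nat_lit 352))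 (XT.lf (nat_lit 76) (nat_lit 1888640143) (nat_lit 0) (nat_lit 1264494985) (nat_lit 608) (nat_lit 1888640143) (nat_lit 230) (nat_lit 1) (nat_lit 229) (nat_lit 1) (nat_lit 237) (nat_lit 1) (nat_lit 366) (nat_lit 423) (nat_lit 351))) (XT.nd (nat_lit 78) (nat_lit 0) (nat_lit 0) (XT.lf (nat_lit 532) (nat_lit 2725202518) (nat_lit 0) (nat_lit 1138535399) (nat_lit 456) (nat_lit 1138535399) (nat_lit 230) (nat_lit 1) (nat_lit 223) (nat_lit 1) (nat_lit 229) (nat_lit 1) (nat_lit 367) (nat_lit 423) (nat_lit 350)) (XT.lf (nat_lit 76) (nat_lit 837853013) (nat_lit 0) (nat_lit 3287486007) (nat_lit 532) (nat_lit 837853013) (nat_lit 224) (nat_lit 1) (nat_lit 223) (nat_lit 1) (nat_lit 230) (nat_lit 1) (nat_lit 368) (nat_lit 423) (nat_lit 349)))) (XT.nd (nat_lit 156) (nat_lit 456) (nat_lit 0) (XT.nd (nat_lit 78) (nat_lit 532) (nat_lit 0) (XT.lf (nat_lit 532) (nat_lit 625159699) (nat_lit 0) (nat_lit 2149646634) (nat_lit 456) (nat_lit 2149646634) (nat_lit 224) (nat_lit 1) (nat_lit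 217) (nat_lit 1) (nat_lit 223) (nat_lit 1) (nat_lit 369) (nat_lit 423) (nat_lit 348)) (XT.lf (nat_lit 532) (nat_lit 4480048259) (nat_lit 0) (nat_lit 203118747) (nat_lit 456) (nat_lit 203118747) (nat_lit 217) (nat_lit 1) (nat_lit 210) (nat_lit 1) (nat_lit 216) (nat_lit 1) (nat_lit 370) (nat_lit 423) (nat_lit 347))) (XT.nd (nat_lit 78) (nat_lit 456) (nat_lit 0) (XT.lf (nat_lit 76) (nat_lit 1704872618) (nat_lit 0) (nat_lit 1438460345) (nat_lit 532) (nat_lit 1704872618) (nat_lit 211) (nat_lit 1) (nat_lit 210) (nat_lit 1) (nat_lit 217) (nat_lit 1) (nat_lit 371) (nat_lit 423) (nat_lit 346)) (XT.nd (nat_lit 78) (nat_lit 0) (nat_lit 0) (XT.lf (nat_lit 532) (nat_lit 2350964991) (nat_lit 0) (nat_lit 1229860763) (nat_lit 456) (nat_lit 1229860763) (nat_lit 211) (nat_lit 1) (nat_lit 204) (nat_lit 1) (nat_lit 210) (nat_lit 1) (nat_lit 372) (nat_lit 423) (nat_lit 345)) (XT.lf (nat_lit 76) (nat_lit 648687920) (nat_lit 0) (nat_lit 3476222003) (nat_lit 532) (nat_lit 648687920)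 (nat_lit 205) (nat_lit 1) (nat_lit 204) (nat_lit 1) (nat_lit 211) (nat_lit 1) (nat_lit 373) (nat_lit 423) (nat_lit 344)))))) (XT.nd (nat_lit 312) (nat_lit 1216) (nat_lit 0) (XT.nd (nat_lit 156) (nat_lit 380) (nat_lit 0) (XT.nd (nat_lit 78) (nat_lit 532) (nat_lit 0) (XT.lf (nat_lit 456) (nat_lit 241575417) (nat_lit 0) (nat_lit 2247606275) (nat_lit 380) (nat_lit 2247606275) (nat_lit 205) (nat_lit 1) (nat_lit 199) (nat_lit 1) (nat_lit 204) (nat_lit 1) (nat_lit 374) (nat_lit 423) (nat_lit 343)) (XT.lf (nat_lit 532) (nat_lit 3910569492) (nat_lit 0) (nat_lit 394945900) (nat_lit 456) (nat_lit 394945900) (nat_lit 199) (nat_lit 1) (nat_lit 192) (nat_lit 1) (nat_lit 198) (nat_lit 1) (nat_lit 375) (nat_lit 423) (nat_lit 342))) (XT.nd (nat_lit 78) (nat_lit 380) (nat_lit 0) (XT.lf (nat_lit 76) (nat_lit 1420445175) (nat_lit 0) (nat_lit 1823418002) (nat_lit 532) (nat_lit 1420445175) (nat_lit 193) (nat_lit 1) (nat_lit 192) (nat_lit 1) (nat_lit 199) (nat_lit 1) (nat_lit 376)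 (nat_lit 423) (nat_lit 341)) (XT.lf (nat_lit 456) (nat_lit 1780189138) (nat_lit 0) (nat_lit 1424219968) (nat_lit 380) (nat_lit 1424219968) (nat_lit 193) (nat_lit 1) (nat_lit 187) (nat_lit 1) (nat_lit 192) (nat_lit 1) (nat_lit 377) (nat_lit 423) (nat_lit 340)))) (XT.nd (nat_lit 156) (nat_lit 760) (nat_lit 0) (XT.nd (nat_lit 78) (nat_lit 456) (nat_lit 0) (XT.lf (nat_lit 76) (nat_lit 364248328) (nat_lit 0) (nat_lit 3864921569) (nat_lit 456) (nat_lit 364248328) (nat_lit 188) (nat_lit 1) (nat_lit 187) (nat_lit 1) (nat_lit 193) (nat_lit 1) (nat_lit 378) (nat_lit 423) (nat_lit 339)) (XT.lf (nat_lit 76) (nat_lit 2117328451) (nat_lit 0) (nat_lit 323699719) (nat_lit 456) (nat_lit 2117328451) (nat_lit 182) (nat_lit 1) (nat_lit 181) (nat_lit 1) (nat_lit 187) (nat_lit 1) (nat_lit 379) (nat_lit 423) (nat_lit 338))) (XT.nd (nat_lit 78) (nat_lit 380) (nat_lit 0) (XT.lf (nat_lit 456) (nat_lit 3171100763) (nat_lit 0) (nat_lit 676326937) (nat_lit 380) (nat_lit 676326937) (nat_lit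 182) (nat_lit 1) (nat_lit 176) (nat_lit 1) (nat_lit 181) (nat_lit 1) (nat_lit 380) (nat_lit 423) (nat_lit 337)) (XT.nd (nat_lit 78) (nat_lit 380) (nat_lit 0) (XT.lf (nat_lit 76) (nat_lit 1053698998) (nat_lit 0) (nat_lit 2382021349) (nat_lit 456) (nat_lit 1053698998) (nat_lit 177) (nat_lit 1) (nat_lit 176) (nat_lit 1) (nat_lit 182) (nat_lit 1) (nat_lit 381) (nat_lit 423) (nat_lit 336)) (XT.lf (nat_lit 456) (nat_lit 1048880954) (nat_lit 0) (nat_lit 1703284531) (nat_lit 380) (nat_lit 1703284531) (nat_lit 177) (nat_lit 1) (nat_lit 171) (nat_lit 1) (nat_lit 176) (nat_lit 1) (nat_lit 382) (nat_lit 423) (nat_lit 335))))))) (XT.nd (nat_lit 702) (nat_lit 1672) (nat_lit 0) (XT.nd (nat_lit 312) (nat_lit 1064) (nat_lit 0) (XT.nd (nat_lit 156) (nat_lit 380) (nat_lit 0) (XT.nd (nat_lit 78) (nat_lit 380) (nat_lit 0) (XT.lf (nat_lit 76) (nat_lit 2086458) (nat_lit 0) (nat_lit 4417837634) (nat_lit 456) (nat_lit 2086458) (nat_lit 172) (nat_lit 1) (nat_lit 171) (nat_lit 1) (nat_lit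 177) (nat_lit 1) (nat_lit 383) (nat_lit 423) (nat_lit 334)) (XT.lf (nat_lit 76) (nat_lit 1676582300) (nat_lit 0) (nat_lit 1035356034) (nat_lit 380) (nat_lit 1676582300) (nat_lit 167) (nat_lit 1) (nat_lit 166) (nat_lit 1) (nat_lit 171) (nat_lit 1) (nat_lit 384) (nat_lit 423) (nat_lit 333))) (XT.nd (nat_lit 78) (nat_lit 0) (nat_lit 0) (XT.lf (nat_lit 456) (nat_lit 2294399614) (nat_lit 0) (nat_lit 1030576571) (nat_lit 380) (nat_lit 1030576571) (nat_lit 167) (nat_lit 1) (nat_lit 161) (nat_lit 1) (nat_lit 166) (nat_lit 1) (nat_lit 385) (nat_lit 423) (nat_lit 332)) (XT.lf (nat_lit 76) (nat_lit 620600013) (nat_lit 0) (nat_lit 3081733346) (nat_lit 456) (nat_lit 620600013) (nat_lit 162) (nat_lit 1) (nat_lit 161) (nat_lit 1) (nat_lit 167) (nat_lit 1) (nat_lit 386) (nat_lit 423) (nat_lit 331)))) (XT.nd (nat_lit 156) (nat_lit 304) (nat_lit 0) (XT.nd (nat_lit 78) (nat_lit 456) (nat_lit 0) (XT.lf (nat_lit 380) (nat_lit 188376850) (nat_lit 0) (nat_lit 2051089597) (nat_lit 304)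 (nat_lit 2051089597) (nat_lit 162) (nat_lit 1) (nat_lit 157) (nat_lit 1) (nat_lit 161) (nat_lit 1) (nat_lit 387) (nat_lit 423) (nat_lit 330)) (XT.lf (nat_lit 456) (nat_lit 3419078180) (nat_lit 0) (nat_lit 419745361) (nat_lit 380) (nat_lit 419745361) (nat_lit 157) (nat_lit 1) (nat_lit 151) (nat_lit 1) (nat_lit 156) (nat_lit 1) (nat_lit 388) (nat_lit 423) (nat_lit 329))) (XT.nd (nat_lit 78) (nat_lit 304) (nat_lit 0) (XT.lf (nat_lit 76) (nat_lit 1179880100) (nat_lit 0) (nat_lit 1866980799) (nat_lit 456) (nat_lit 1179880100) (nat_lit 152) (nat_lit 1) (nat_lit 151) (nat_lit 1) (nat_lit 157) (nat_lit 1) (nat_lit 389) (nat_lit 423) (nat_lit 328)) (XT.nd (nat_lit 78) (nat_lit 0) (nat_lit 0) (XT.lf (nat_lit 380) (nat_lit 1308930392) (nat_lit 0) (nat_lit 1443182970) (nat_lit 304) (nat_lit 1443182970) (nat_lit 152) (nat_lit 1) (nat_lit 147) (nat_lit 1) (nat_lit 151) (nat_lit 1) (nat_lit 390) (nat_lit 423) (nat_lit 327)) (XT.lf (nat_lit 76) (nat_lit 135018338) (nat_lit 0)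 (nat_lit 3894261584) (nat_lit 380) (nat_lit 135018338) (nat_lit 148) (nat_lit 1) (nat_lit 147) (nat_lit 1) (nat_lit 152) (nat_lit 1) (nat_lit 391) (nat_lit 423) (nat_lit 326)))))) (XT.nd (nat_lit 312) (nat_lit 684) (nat_lit 0) (XT.nd (nat_lit 156) (nat_lit 304) (nat_lit 0) (XT.nd (nat_lit 78) (nat_lit 304) (nat_lit 0) (XT.lf (nat_lit 76) (nat_lit 1684675477) (nat_lit 0) (nat_lit 763954165) (nat_lit 380) (nat_lit 1684675477) (nat_lit 143) (nat_lit 1) (nat_lit 142) (nat_lit 1) (nat_lit 147) (nat_lit 1) (nat_lit 392) (nat_lit 423) (nat_lit 325)) (XT.lf (nat_lit 380) (nat_lit 2321895729) (nat_lit 0) (nat_lit 890428210) (nat_lit 304) (nat_lit 890428210) (nat_lit 143) (nat_lit 1) (nat_lit 138) (nat_lit 1) (nat_lit 142) (nat_lit 1) (nat_lit 393) (nat_lit 423) (nat_lit 324))) (XT.nd (nat_lit 78) (nat_lit 304) (nat_lit 0) (XT.lf (nat_lit 76) (nat_lit 639801025) (nat_lit 0) (nat_lit 2792894702) (nat_lit 380) (nat_lit 639801025) (nat_lit 139) (nat_lit 1) (nat_lit 138) (nat_lit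 1) (nat_lit 143) (nat_lit 1) (nat_lit 394) (nat_lit 423) (nat_lit 323)) (XT.lf (nat_lit 380) (nat_lit 239371194) (nat_lit 0) (nat_lit 1901551561) (nat_lit 304) (nat_lit 1901551561) (nat_lit 139) (nat_lit 1) (nat_lit 134) (nat_lit 1) (nat_lit 138) (nat_lit 1) (nat_lit 395) (nat_lit 423) (nat_lit 322)))) (XT.nd (nat_lit 156) (nat_lit 304) (nat_lit 0) (XT.nd (nat_lit 78) (nat_lit 0) (nat_lit 0) (XT.lf (nat_lit 380) (nat_lit 3235902527) (nat_lit 0) (nat_lit 388451581) (nat_lit 304) (nat_lit 388451581) (nat_lit 134) (nat_lit 1) (nat_lit 129) (nat_lit 1) (nat_lit 133) (nat_lit 1) (nat_lit 396) (nat_lit 423) (nat_lit 321)) (XT.lf (nat_lit 76) (nat_lit 1096042888) (nat_lit 0) (nat_lit 1791182359) (nat_lit 380) (nat_lit 1096042888) (nat_lit 130) (nat_lit 1) (nat_lit 129) (nat_lit 1) (nat_lit 134) (nat_lit 1) (nat_lit 397) (nat_lit 423) (nat_lit 320))) (XT.nd (nat_lit 53274) (nat_lit 0) (nat_lit 25232) (XT.lf (nat_lit 380) (nat_lit 1156951925) (nat_lit 0) (nat_lit 1398563380)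 (nat_lit 304) (nat_lit 1398563380) (nat_lit 130) (nat_lit 1) (nat_lit 125) (nat_lit 1) (nat_lit 129) (nat_lit 1) (nat_lit 398) (nat_lit 423) (nat_lit 319)) (XT.nd (nat_lit 78) (nat_lit 0) (nat_lit 0) (XT.lf (nat_lit 988) (nat_lit 2884374042) (nat_lit 0) (nat_lit 2280138472) (nat_lit 912) (nat_lit 2280138472) (nat_lit 470) (nat_lit 1) (nat_lit 457) (nat_lit 1) (nat_lit 469) (nat_lit 1) (nat_lit 320) (nat_lit 424) (nat_lit 396)) (XT.lf (nat_lit 76) (nat_lit 1092587068) (nat_lit 0) (nat_lit 5192916511) (nat_lit 988) (nat_lit 1092587068) (nat_lit 458) (nat_lit 1) (nat_lit 457) (nat_lit 1) (nat_lit 470) (nat_lit 1) (nat_lit 321) (nat_lit 424) (nat_lit 395))))))))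
noncomputable def ec113 : XT := (XT.nd (nat_lit 1404) (nat_lit 6916) (nat_lit 0) (XT.nd (nat_lit 702) (nat_lit 3800) (nat_lit 0) (XT.nd (nat_lit 312) (nat_lit 1672) (nat_lit 0) (XT.nd (nat_lit 156) (nat_lit 1824) (nat_lit 0) (XT.nd (nat_lit 78) (nat_lit 0) (nat_lit 0) (XT.lf (nat_lit 988) (nat_lit 1465520108) (nat_lit 0) (nat_lit 2923322712) (nat_lit 912) (nat_lit 2923322712) (nat_lit 458) (nat_lit 1) (nat_lit 445) (nat_lit 1) (nat_lit 457) (nat_lit 1) (nat_lit 322) (nat_lit 424) (nat_lit 394)) (XT.lf (nat_lit 76) (nat_lit 375135756) (nat_lit 0) (nat_lit 6497071252) (nat_lit 988) (nat_lit 375135756) (nat_lit 446) (nat_lit 1) (nat_lit 445) (nat_lit 1) (nat_lit 458) (nat_lit 1) (nat_lit 323) (nat_lit 424) (nat_lit 393))) (XT.nd (nat_lit 78) (nat_lit 988) (nat_lit 0) (XT.lf (nat_lit 912) (nat_lit 6303509) (nat_lit 0) (nat_lit 3588324703) (nat_lit 836) (nat_lit 3588324703) (nat_lit 446) (nat_lit 1) (nat_lit 434) (nat_lit 1) (nat_lit 445) (nat_lit 1) (nat_lit 324)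 (nat_lit 424) (nat_lit 392)) (XT.lf (nat_lit 988) (nat_lit 6401275092) (nat_lit 0) (nat_lit 359180636) (nat_lit 912) (nat_lit 359180636) (nat_lit 434) (nat_lit 1) (nat_lit 421) (nat_lit 1) (nat_lit 433) (nat_lit 1) (nat_lit 325) (nat_lit 424) (nat_lit 391)))) (XT.nd (nat_lit 156) (nat_lit 836) (nat_lit 0) (XT.nd (nat_lit 78) (nat_lit 836) (nat_lit 0) (XT.lf (nat_lit 76) (nat_lit 2793216036) (nat_lit 0) (nat_lit 1470297213) (nat_lit 988) (nat_lit 2793216036) (nat_lit 422) (nat_lit 1) (nat_lit 421) (nat_lit 1) (nat_lit 434) (nat_lit 1) (nat_lit 326) (nat_lit 424) (nat_lit 390)) (XT.lf (nat_lit 912) (nat_lit 4777893360) (nat_lit 0) (nat_lit 1108486326) (nat_lit 836) (nat_lit 1108486326) (nat_lit 422) (nat_lit 1) (nat_lit 410) (nat_lit 1) (nat_lit 421) (nat_lit 1) (nat_lit 327) (nat_lit 424) (nat_lit 389))) (XT.nd (nat_lit 78) (nat_lit 836) (nat_lit 0) (XT.lf (nat_lit 76) (nat_lit 1976783334) (nat_lit 0) (nat_lit 2980028651) (nat_lit 912) (nat_lit 1976783334) (nat_lit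 411) (nat_lit 1) (nat_lit 410) (nat_lit 1) (nat_lit 422) (nat_lit 1) (nat_lit 328) (nat_lit 424) (nat_lit 388)) (XT.nd (nat_lit 78) (nat_lit 0) (nat_lit 0) (XT.lf (nat_lit 912) (nat_lit 3125797795) (nat_lit 0) (nat_lit 1873671899) (nat_lit 836) (nat_lit 1873671899) (nat_lit 411) (nat_lit 1) (nat_lit 399) (nat_lit 1) (nat_lit 410) (nat_lit 1) (nat_lit 329) (nat_lit 424) (nat_lit 387)) (XT.lf (nat_lit 76) (nat_lit 1146779518) (nat_lit 0) (nat_lit 4519908302) (nat_lit 912) (nat_lit 1146779518) (nat_lit 400) (nat_lit 1) (nat_lit 399) (nat_lit 1) (nat_lit 411) (nat_lit 1) (nat_lit 330) (nat_lit 424) (nat_lit 386)))))) (XT.nd (nat_lit 312) (nat_lit 1444) (nat_lit 0) (XT.nd (nat_lit 156) (nat_lit 1596) (nat_lit 0) (XT.nd (nat_lit 78) (nat_lit 0) (nat_lit 0) (XT.lf (nat_lit 836) (nat_lit 1447902444) (nat_lit 0) (nat_lit 2653238829) (nat_lit 760) (nat_lit 2653238829) (nat_lit 400) (nat_lit 1) (nat_lit 389) (nat_lit 1) (nat_lit 399) (nat_lit 1) (nat_lit 331) (nat_lit 424)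 (nat_lit 385)) (XT.lf (nat_lit 76) (nat_lit 304619298) (nat_lit 0) (nat_lit 6087024829) (nat_lit 836) (nat_lit 304619298) (nat_lit 390) (nat_lit 1) (nat_lit 389) (nat_lit 1) (nat_lit 400) (nat_lit 1) (nat_lit 332) (nat_lit 424) (nat_lit 384))) (XT.nd (nat_lit 78) (nat_lit 760) (nat_lit 0) (XT.lf (nat_lit 76) (nat_lit 3194379817) (nat_lit 0) (nat_lit 249708581) (nat_lit 836) (nat_lit 3194379817) (nat_lit 379) (nat_lit 1) (nat_lit 378) (nat_lit 1) (nat_lit 389) (nat_lit 1) (nat_lit 333) (nat_lit 424) (nat_lit 383)) (XT.lf (nat_lit 836) (nat_lit 5492123684) (nat_lit 0) (nat_lit 544747354) (nat_lit 760) (nat_lit 544747354) (nat_lit 379) (nat_lit 1) (nat_lit 368) (nat_lit 1) (nat_lit 378) (nat_lit 1) (nat_lit 334) (nat_lit 424) (nat_lit 382)))) (XT.nd (nat_lit 156) (nat_lit 684) (nat_lit 0) (XT.nd (nat_lit 78) (nat_lit 760) (nat_lit 0) (XT.lf (nat_lit 76) (nat_lit 2288348574) (nat_lit 0) (nat_lit 1948472950) (nat_lit 836) (nat_lit 2288348574) (nat_lit 369) (nat_lit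 1) (nat_lit 368) (nat_lit 1) (nat_lit 379) (nat_lit 1) (nat_lit 335) (nat_lit 424) (nat_lit 381)) (XT.lf (nat_lit 836) (nat_lit 3666401254) (nat_lit 0) (nat_lit 1401588015) (nat_lit 760) (nat_lit 1401588015) (nat_lit 369) (nat_lit 1) (nat_lit 358) (nat_lit 1) (nat_lit 368) (nat_lit 1) (nat_lit 336) (nat_lit 424) (nat_lit 380))) (XT.nd (nat_lit 78) (nat_lit 684) (nat_lit 0) (XT.lf (nat_lit 76) (nat_lit 1374836747) (nat_lit 0) (nat_lit 3664924938) (nat_lit 836) (nat_lit 1374836747) (nat_lit 359) (nat_lit 1) (nat_lit 358) (nat_lit 1) (nat_lit 369) (nat_lit 1) (nat_lit 337) (nat_lit 424) (nat_lit 379)) (XT.nd (nat_lit 78) (nat_lit 0) (nat_lit 0) (XT.lf (nat_lit 760) (nat_lit 1826809441) (nat_lit 0) (nat_lit 2266707692) (nat_lit 684) (nat_lit 2266707692) (nat_lit 359) (nat_lit 1) (nat_lit 349) (nat_lit 1) (nat_lit 358) (nat_lit 1) (nat_lit 338) (nat_lit 424) (nat_lit 378)) (XT.lf (nat_lit 76) (nat_lit 454971342) (nat_lit 0) (nat_lit 5396737463) (nat_lit 760) (nat_lit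 454971342) (nat_lit 350) (nat_lit 1) (nat_lit 349) (nat_lit 1) (nat_lit 359) (nat_lit 1) (nat_lit 339) (nat_lit 424) (nat_lit 377))))))) (XT.nd (nat_lit 702) (nat_lit 2888) (nat_lit 0) (XT.nd (nat_lit 312) (nat_lit 1900) (nat_lit 0) (XT.nd (nat_lit 156) (nat_lit 684) (nat_lit 0) (XT.nd (nat_lit 78) (nat_lit 684) (nat_lit 0) (XT.lf (nat_lit 76) (nat_lit 3114677780) (nat_lit 0) (nat_lit 24130460) (nat_lit 760) (nat_lit 3114677780) (nat_lit 340) (nat_lit 1) (nat_lit 339) (nat_lit 1) (nat_lit 349) (nat_lit 1) (nat_lit 340) (nat_lit 424) (nat_lit 376)) (XT.lf (nat_lit 760) (nat_lit 5266924335) (nat_lit 0) (nat_lit 467087502) (nat_lit 684) (nat_lit 467087502) (nat_lit 340) (nat_lit 1) (nat_lit 330) (nat_lit 1) (nat_lit 339) (nat_lit 1) (nat_lit 341) (nat_lit 424) (nat_lit 375))) (XT.nd (nat_lit 78) (nat_lit 684) (nat_lit 0) (XT.lf (nat_lit 76) (nat_lit 2144242008) (nat_lit 0) (nat_lit 1860571904) (nat_lit 760) (nat_lit 2144242008) (nat_lit 331) (nat_lit 1) (nat_lit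 330) (nat_lit 1) (nat_lit 340) (nat_lit 1) (nat_lit 342) (nat_lit 424) (nat_lit 374)) (XT.lf (nat_lit 760) (nat_lit 3316988198) (nat_lit 0) (nat_lit 1390402375) (nat_lit 684) (nat_lit 1390402375) (nat_lit 331) (nat_lit 1) (nat_lit 321) (nat_lit 1) (nat_lit 330) (nat_lit 1) (nat_lit 343) (nat_lit 424) (nat_lit 373)))) (XT.nd (nat_lit 156) (nat_lit 1292) (nat_lit 0) (XT.nd (nat_lit 78) (nat_lit 608) (nat_lit 0) (XT.lf (nat_lit 76) (nat_lit 1171287254) (nat_lit 0) (nat_lit 3704529904) (nat_lit 760) (nat_lit 1171287254) (nat_lit 322) (nat_lit 1) (nat_lit 321) (nat_lit 1) (nat_lit 331) (nat_lit 1) (nat_lit 344) (nat_lit 424) (nat_lit 372)) (XT.lf (nat_lit 684) (nat_lit 1362895061) (nat_lit 0) (nat_lit 2317018413) (nat_lit 608) (nat_lit 2317018413) (nat_lit 322) (nat_lit 1) (nat_lit 313) (nat_lit 1) (nat_lit 321) (nat_lit 1) (nat_lit 345) (nat_lit 424) (nat_lit 371))) (XT.nd (nat_lit 78) (nat_lit 1292) (nat_lit 0) (XT.lf (nat_lit 76) (nat_lit 196699610) (nat_lit 0)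 (nat_lit 5554166942) (nat_lit 684) (nat_lit 196699610) (nat_lit 314) (nat_lit 1) (nat_lit 313) (nat_lit 1) (nat_lit 322) (nat_lit 1) (nat_lit 346) (nat_lit 424) (nat_lit 370)) (XT.nd (nat_lit 78) (nat_lit 608) (nat_lit 0) (XT.lf (nat_lit 76) (nat_lit 2656266443) (nat_lit 0) (nat_lit 585841938) (nat_lit 684) (nat_lit 2656266443) (nat_lit 305) (nat_lit 1) (nat_lit 304) (nat_lit 1) (nat_lit 313) (nat_lit 1) (nat_lit 347) (nat_lit 424) (nat_lit 369)) (XT.lf (nat_lit 684) (nat_lit 4302848414) (nat_lit 0) (nat_lit 773561768) (nat_lit 608) (nat_lit 773561768) (nat_lit 305) (nat_lit 1) (nat_lit 296) (nat_lit 1) (nat_lit 304) (nat_lit 1) (nat_lit 348) (nat_lit 424) (nat_lit 368)))))) (XT.nd (nat_lit 312) (nat_lit 1748) (nat_lit 0) (XT.nd (nat_lit 156) (nat_lit 532) (nat_lit 0) (XT.nd (nat_lit 78) (nat_lit 608) (nat_lit 0) (XT.lf (nat_lit 76) (nat_lit 1642232996) (nat_lit 0) (nat_lit 2517493421) (nat_lit 684) (nat_lit 1642232996) (nat_lit 297) (nat_lit 1) (nat_lit 296)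 (nat_lit 1) (nat_lit 305) (nat_lit 1) (nat_lit 349) (nat_lit 424) (nat_lit 367)) (XT.lf (nat_lit 684) (nat_lit 2269489395) (nat_lit 0) (nat_lit 1742537074) (nat_lit 608) (nat_lit 1742537074) (nat_lit 297) (nat_lit 1) (nat_lit 288) (nat_lit 1) (nat_lit 296) (nat_lit 1) (nat_lit 350) (nat_lit 424) (nat_lit 366))) (XT.nd (nat_lit 78) (nat_lit 532) (nat_lit 0) (XT.lf (nat_lit 76) (nat_lit 629692284) (nat_lit 0) (nat_lit 4448417735) (nat_lit 684) (nat_lit 629692284) (nat_lit 289) (nat_lit 1) (nat_lit 288) (nat_lit 1) (nat_lit 297) (nat_lit 1) (nat_lit 351) (nat_lit 424) (nat_lit 365)) (XT.lf (nat_lit 608) (nat_lit 239819814) (nat_lit 0) (nat_lit 2710782148) (nat_lit 532) (nat_lit 2710782148) (nat_lit 289) (nat_lit 1) (nat_lit 281) (nat_lit 1) (nat_lit 288) (nat_lit 1) (nat_lit 352) (nat_lit 424) (nat_lit 364)))) (XT.nd (nat_lit 156) (nat_lit 1064) (nat_lit 0) (XT.nd (nat_lit 78) (nat_lit 0) (nat_lit 0) (XT.lf (nat_lit 684) (nat_lit 4859313689) (nat_lit 0) (nat_lit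 378166429) (nat_lit 608) (nat_lit 378166429) (nat_lit 281) (nat_lit 1) (nat_lit 272) (nat_lit 1) (nat_lit 280) (nat_lit 1) (nat_lit 353) (nat_lit 424) (nat_lit 363)) (XT.lf (nat_lit 76) (nat_lit 1904362432) (nat_lit 0) (nat_lit 1761419406) (nat_lit 684) (nat_lit 1904362432) (nat_lit 273) (nat_lit 1) (nat_lit 272) (nat_lit 1) (nat_lit 281) (nat_lit 1) (nat_lit 354) (nat_lit 424) (nat_lit 362))) (XT.nd (nat_lit 78) (nat_lit 532) (nat_lit 0) (XT.lf (nat_lit 608) (nat_lit 2767147536) (nat_lit 0) (nat_lit 1379079719) (nat_lit 532) (nat_lit 1379079719) (nat_lit 273) (nat_lit 1) (nat_lit 265) (nat_lit 1) (nat_lit 272) (nat_lit 1) (nat_lit 355) (nat_lit 424) (nat_lit 361)) (XT.nd (nat_lit 78) (nat_lit 532) (nat_lit 0) (XT.lf (nat_lit 76) (nat_lit 863833905) (nat_lit 0) (nat_lit 3753321706) (nat_lit 608) (nat_lit 863833905) (nat_lit 266) (nat_lit 1) (nat_lit 265) (nat_lit 1) (nat_lit 273) (nat_lit 1) (nat_lit 356) (nat_lit 424) (nat_lit 360)) (XT.lf (nat_lit 608) (nat_lit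 683877136) (nat_lit 0) (nat_lit 2376589859) (nat_lit 532) (nat_lit 2376589859) (nat_lit 266) (nat_lit 1) (nat_lit 258) (nat_lit 1) (nat_lit 265) (nat_lit 1) (nat_lit 357) (nat_lit 424) (nat_lit 359))))))))
noncomputable def ec114 : XT := (XT.nd (nat_lit 1404) (nat_lit 4028) (nat_lit 0) (XT.nd (nat_lit 702) (nat_lit 2736) (nat_lit 0) (XT.nd (nat_lit 312) (nat_lit 1520) (nat_lit 0) (XT.nd (nat_lit 156) (nat_lit 532) (nat_lit 0) (XT.nd (nat_lit 78) (nat_lit 0) (nat_lit 0) (XT.lf (nat_lit 608) (nat_lit 5052094141) (nat_lit 0) (nat_lit 170856520) (nat_lit 532) (nat_lit 170856520) (nat_lit 258) (nat_lit 1) (nat_lit 250) (nat_lit 1) (nat_lit 257) (nat_lit 1) (nat_lit 358) (nat_lit 424) (nat_lit 358)) (XT.lf (nat_lit 76) (nat_lit 1989730299) (nat_lit 0) (nat_lit 1371201849) (nat_lit 608) (nat_lit 1989730299) (nat_lit 251) (nat_lit 1) (nat_lit 250) (nat_lit 1) (nat_lit 258) (nat_lit 1) (nat_lit 359) (nat_lit 424) (nat_lit 357))) (XT.nd (nat_lit 78) (nat_lit 0) (nat_lit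 0) (XT.lf (nat_lit 608) (nat_lit 2918838023) (nat_lit 0) (nat_lit 1194674391) (nat_lit 532) (nat_lit 1194674391) (nat_lit 251) (nat_lit 1) (nat_lit 243) (nat_lit 1) (nat_lit 250) (nat_lit 1) (nat_lit 360) (nat_lit 424) (nat_lit 356)) (XT.lf (nat_lit 76) (nat_lit 929840957) (nat_lit 0) (nat_lit 3406483084) (nat_lit 608) (nat_lit 929840957) (nat_lit 244) (nat_lit 1) (nat_lit 243) (nat_lit 1) (nat_lit 251) (nat_lit 1) (nat_lit 361) (nat_lit 424) (nat_lit 355)))) (XT.nd (nat_lit 156) (nat_lit 456) (nat_lit 0) (XT.nd (nat_lit 78) (nat_lit 608) (nat_lit 0) (XT.lf (nat_lit 532) (nat_lit 798882500) (nat_lit 0) (nat_lit 2212822608) (nat_lit 456) (nat_lit 2212822608) (nat_lit 244) (nat_lit 1) (nat_lit 237) (nat_lit 1) (nat_lit 243) (nat_lit 1) (nat_lit 362) (nat_lit 424) (nat_lit 354)) (XT.lf (nat_lit 608) (nat_lit 4938752469) (nat_lit 0) (nat_lit 122393218) (nat_lit 532) (nat_lit 122393218) (nat_lit 237) (nat_lit 1) (nat_lit 229) (nat_lit 1) (nat_lit 236) (nat_lit 1)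 (nat_lit 363) (nat_lit 424) (nat_lit 353))) (XT.nd (nat_lit 78) (nat_lit 456) (nat_lit 0) (XT.lf (nat_lit 76) (nat_lit 1926412946) (nat_lit 0) (nat_lit 1289784885) (nat_lit 608) (nat_lit 1926412946) (nat_lit 230) (nat_lit 1) (nat_lit 229) (nat_lit 1) (nat_lit 237) (nat_lit 1) (nat_lit 364) (nat_lit 424) (nat_lit 352)) (XT.nd (nat_lit 78) (nat_lit 0) (nat_lit 0) (XT.lf (nat_lit 532) (nat_lit 2779706569) (nat_lit 0) (nat_lit 1161306107) (nat_lit 456) (nat_lit 1161306107) (nat_lit 230) (nat_lit 1) (nat_lit 223) (nat_lit 1) (nat_lit 229) (nat_lit 1) (nat_lit 365) (nat_lit 424) (nat_lit 351)) (XT.lf (nat_lit 76) (nat_lit 854610073) (nat_lit 0) (nat_lit 3353235727) (nat_lit 532) (nat_lit 854610073) (nat_lit 224) (nat_lit 1) (nat_lit 223) (nat_lit 1) (nat_lit 230) (nat_lit 1) (nat_lit 366) (nat_lit 424) (nat_lit 350)))))) (XT.nd (nat_lit 312) (nat_lit 1292) (nat_lit 0) (XT.nd (nat_lit 156) (nat_lit 456) (nat_lit 0) (XT.nd (nat_lit 78) (nat_lit 532) (nat_lit 0) (XT.lf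 (nat_lit 532) (nat_lit 637662893) (nat_lit 0) (nat_lit 2192639566) (nat_lit 456) (nat_lit 2192639566) (nat_lit 224) (nat_lit 1) (nat_lit 217) (nat_lit 1) (nat_lit 223) (nat_lit 1) (nat_lit 367) (nat_lit 424) (nat_lit 349)) (XT.lf (nat_lit 532) (nat_lit 4569649224) (nat_lit 0) (nat_lit 207181122) (nat_lit 456) (nat_lit 207181122) (nat_lit 217) (nat_lit 1) (nat_lit 210) (nat_lit 1) (nat_lit 216) (nat_lit 1) (nat_lit 368) (nat_lit 424) (nat_lit 348))) (XT.nd (nat_lit 78) (nat_lit 456) (nat_lit 0) (XT.lf (nat_lit 76) (nat_lit 1738970070) (nat_lit 0) (nat_lit 1467229552) (nat_lit 532) (nat_lit 1738970070) (nat_lit 211) (nat_lit 1) (nat_lit 210) (nat_lit 1) (nat_lit 217) (nat_lit 1) (nat_lit 369) (nat_lit 424) (nat_lit 347)) (XT.lf (nat_lit 532) (nat_lit 2397984291) (nat_lit 0) (nat_lit 1254457978) (nat_lit 456) (nat_lit 1254457978) (nat_lit 211) (nat_lit 1) (nat_lit 204) (nat_lit 1) (nat_lit 210) (nat_lit 1) (nat_lit 370) (nat_lit 424) (nat_lit 346)))) (XT.nd (nat_lit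 156) (nat_lit 912) (nat_lit 0) (XT.nd (nat_lit 78) (nat_lit 380) (nat_lit 0) (XT.lf (nat_lit 76) (nat_lit 661661678) (nat_lit 0) (nat_lit 3545746443) (nat_lit 532) (nat_lit 661661678) (nat_lit 205) (nat_lit 1) (nat_lit 204) (nat_lit 1) (nat_lit 211) (nat_lit 1) (nat_lit 371) (nat_lit 424) (nat_lit 345)) (XT.lf (nat_lit 456) (nat_lit 246406925) (nat_lit 0) (nat_lit 2292558400) (nat_lit 380) (nat_lit 2292558400) (nat_lit 205) (nat_lit 1) (nat_lit 199) (nat_lit 1) (nat_lit 204) (nat_lit 1) (nat_lit 372) (nat_lit 424) (nat_lit 344))) (XT.nd (nat_lit 78) (nat_lit 380) (nat_lit 0) (XT.lf (nat_lit 532) (nat_lit 3988780882) (nat_lit 0) (nat_lit 402844818) (nat_lit 456) (nat_lit 402844818) (nat_lit 199) (nat_lit 1) (nat_lit 192) (nat_lit 1) (nat_lit 198) (nat_lit 1) (nat_lit 373) (nat_lit 424) (nat_lit 343)) (XT.nd (nat_lit 78) (nat_lit 380) (nat_lit 0) (XT.lf (nat_lit 76) (nat_lit 1448854078) (nat_lit 0) (nat_lit 1859886362) (nat_lit 532) (nat_lit 1448854078) (nat_lit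 193) (nat_lit 1) (nat_lit 192) (nat_lit 1) (nat_lit 199) (nat_lit 1) (nat_lit 374) (nat_lit 424) (nat_lit 342)) (XT.lf (nat_lit 456) (nat_lit 1815792920) (nat_lit 0) (nat_lit 1452704367) (nat_lit 380) (nat_lit 1452704367) (nat_lit 193) (nat_lit 1) (nat_lit 187) (nat_lit 1) (nat_lit 192) (nat_lit 1) (nat_lit 375) (nat_lit 424) (nat_lit 341))))))) (XT.nd (nat_lit 702) (nat_lit 2052) (nat_lit 0) (XT.nd (nat_lit 312) (nat_lit 1140) (nat_lit 0) (XT.nd (nat_lit 156) (nat_lit 380) (nat_lit 0) (XT.nd (nat_lit 78) (nat_lit 456) (nat_lit 0) (XT.lf (nat_lit 76) (nat_lit 371533295) (nat_lit 0) (nat_lit 3942220000) (nat_lit 456) (nat_lit 371533295) (nat_lit 188) (nat_lit 1) (nat_lit 187) (nat_lit 1) (nat_lit 193) (nat_lit 1) (nat_lit 376) (nat_lit 424) (nat_lit 340)) (XT.lf (nat_lit 76) (nat_lit 2159675021) (nat_lit 0) (nat_lit 330173714) (nat_lit 456) (nat_lit 2159675021) (nat_lit 182) (nat_lit 1) (nat_lit 181) (nat_lit 1) (nat_lit 187) (nat_lit 1) (nat_lit 377) (nat_lit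 424) (nat_lit 339))) (XT.nd (nat_lit 78) (nat_lit 0) (nat_lit 0) (XT.lf (nat_lit 456) (nat_lit 3234522778) (nat_lit 0) (nat_lit 689853476) (nat_lit 380) (nat_lit 689853476) (nat_lit 182) (nat_lit 1) (nat_lit 176) (nat_lit 1) (nat_lit 181) (nat_lit 1) (nat_lit 378) (nat_lit 424) (nat_lit 338)) (XT.lf (nat_lit 76) (nat_lit 1074772978) (nat_lit 0) (nat_lit 2429661776) (nat_lit 456) (nat_lit 1074772978) (nat_lit 177) (nat_lit 1) (nat_lit 176) (nat_lit 1) (nat_lit 182) (nat_lit 1) (nat_lit 379) (nat_lit 424) (nat_lit 337)))) (XT.nd (nat_lit 156) (nat_lit 760) (nat_lit 0) (XT.nd (nat_lit 78) (nat_lit 0) (nat_lit 0) (XT.lf (nat_lit 456) (nat_lit 1069858573) (nat_lit 0) (nat_lit 1737350221) (nat_lit 380) (nat_lit 1737350221) (nat_lit 177) (nat_lit 1) (nat_lit 171) (nat_lit 1) (nat_lit 176) (nat_lit 1) (nat_lit 380) (nat_lit 424) (nat_lit 336)) (XT.lf (nat_lit 76) (nat_lit 2128187) (nat_lit 0) (nat_lit 4506194387) (nat_lit 456) (nat_lit 2128187) (nat_lit 172) (nat_lit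 1) (nat_lit 171) (nat_lit 1) (nat_lit 177) (nat_lit 1) (nat_lit 381) (nat_lit 424) (nat_lit 335))) (XT.nd (nat_lit 78) (nat_lit 380) (nat_lit 0) (XT.lf (nat_lit 76) (nat_lit 1710113946) (nat_lit 0) (nat_lit 1056063154) (nat_lit 380) (nat_lit 1710113946) (nat_lit 167) (nat_lit 1) (nat_lit 166) (nat_lit 1) (nat_lit 171) (nat_lit 1) (nat_lit 382) (nat_lit 424) (nat_lit 334)) (XT.nd (nat_lit 78) (nat_lit 0) (nat_lit 0) (XT.lf (nat_lit 456) (nat_lit 2340287606) (nat_lit 0) (nat_lit 1051188102) (nat_lit 380) (nat_lit 1051188102) (nat_lit 167) (nat_lit 1) (nat_lit 161) (nat_lit 1) (nat_lit 166) (nat_lit 1) (nat_lit 383) (nat_lit 424) (nat_lit 333)) (XT.lf (nat_lit 76) (nat_lit 633012013) (nat_lit 0) (nat_lit 3143368012) (nat_lit 456) (nat_lit 633012013) (nat_lit 162) (nat_lit 1) (nat_lit 161) (nat_lit 1) (nat_lit 167) (nat_lit 1) (nat_lit 384) (nat_lit 424) (nat_lit 332)))))) (XT.nd (nat_lit 312) (nat_lit 988) (nat_lit 0) (XT.nd (nat_lit 156) (nat_lit 304) (nat_lit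 0) (XT.nd (nat_lit 78) (nat_lit 456) (nat_lit 0) (XT.lf (nat_lit 380) (nat_lit 192144387) (nat_lit 0) (nat_lit 2092111389) (nat_lit 304) (nat_lit 2092111389) (nat_lit 162) (nat_lit 1) (nat_lit 157) (nat_lit 1) (nat_lit 161) (nat_lit 1) (nat_lit 385) (nat_lit 424) (nat_lit 331)) (XT.lf (nat_lit 456) (nat_lit 3487459743) (nat_lit 0) (nat_lit 428140268) (nat_lit 380) (nat_lit 428140268) (nat_lit 157) (nat_lit 1) (nat_lit 151) (nat_lit 1) (nat_lit 156) (nat_lit 1) (nat_lit 386) (nat_lit 424) (nat_lit 330))) (XT.nd (nat_lit 78) (nat_lit 304) (nat_lit 0) (XT.lf (nat_lit 76) (nat_lit 1203477702) (nat_lit 0) (nat_lit 1904320415) (nat_lit 456) (nat_lit 1203477702) (nat_lit 152) (nat_lit 1) (nat_lit 151) (nat_lit 1) (nat_lit 157) (nat_lit 1) (nat_lit 387) (nat_lit 424) (nat_lit 329)) (XT.lf (nat_lit 380) (nat_lit 1335109000) (nat_lit 0) (nat_lit 1472046630) (nat_lit 304) (nat_lit 1472046630) (nat_lit 152) (nat_lit 1) (nat_lit 147) (nat_lit 1) (nat_lit 151) (nat_lit 1)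 (nat_lit 388) (nat_lit 424) (nat_lit 328)))) (XT.nd (nat_lit 156) (nat_lit 608) (nat_lit 0) (XT.nd (nat_lit 78) (nat_lit 380) (nat_lit 0) (XT.lf (nat_lit 76) (nat_lit 137718705) (nat_lit 0) (nat_lit 3972146815) (nat_lit 380) (nat_lit 137718705) (nat_lit 148) (nat_lit 1) (nat_lit 147) (nat_lit 1) (nat_lit 152) (nat_lit 1) (nat_lit 389) (nat_lit 424) (nat_lit 327)) (XT.lf (nat_lit 76) (nat_lit 1718368986) (nat_lit 0) (nat_lit 779233248) (nat_lit 380) (nat_lit 1718368986) (nat_lit 143) (nat_lit 1) (nat_lit 142) (nat_lit 1) (nat_lit 147) (nat_lit 1) (nat_lit 390) (nat_lit 424) (nat_lit 326))) (XT.nd (nat_lit 78) (nat_lit 304) (nat_lit 0) (XT.lf (nat_lit 380) (nat_lit 2368333644) (nat_lit 0) (nat_lit 908236774) (nat_lit 304) (nat_lit 908236774) (nat_lit 143) (nat_lit 1) (nat_lit 138) (nat_lit 1) (nat_lit 142) (nat_lit 1) (nat_lit 391) (nat_lit 424) (nat_lit 325)) (XT.nd (nat_lit 78) (nat_lit 304) (nat_lit 0) (XT.lf (nat_lit 76) (nat_lit 652597045) (nat_lit 0) (nat_lit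 2848752596) (nat_lit 380) (nat_lit 652597045) (nat_lit 139) (nat_lit 1) (nat_lit 138) (nat_lit 1) (nat_lit 143) (nat_lit 1) (nat_lit 392) (nat_lit 424) (nat_lit 324)) (XT.lf (nat_lit 380) (nat_lit 244158618) (nat_lit 0) (nat_lit 1939582592) (nat_lit 304) (nat_lit 1939582592) (nat_lit 139) (nat_lit 1) (nat_lit 134) (nat_lit 1) (nat_lit 138) (nat_lit 1) (nat_lit 393) (nat_lit 424) (nat_lit 323))))))))
noncomputable def ec115 : XT := (XT.nd (nat_lit 54834) (nat_lit 0) (nat_lit 10640) (XT.nd (nat_lit 54132) (nat_lit 0) (nat_lit 17708) (XT.nd (nat_lit 53742) (nat_lit 0) (nat_lit 21660) (XT.nd (nat_lit 156) (nat_lit 304) (nat_lit 0) (XT.nd (nat_lit 78) (nat_lit 0) (nat_lit 0) (XT.lf (nat_lit 380) (nat_lit 3300620578) (nat_lit 0) (nat_lit 396220613) (nat_lit 304) (nat_lit 396220613) (nat_lit 134) (nat_lit 1) (nat_lit 129) (nat_lit 1) (nat_lit 133) (nat_lit 1) (nat_lit 394) (nat_lit 424) (nat_lit 322)) (XT.lf (nat_lit 76) (nat_lit 1117963746) (nat_lit 0) (nat_lit 1827006006)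 (nat_lit 380) (nat_lit 1117963746) (nat_lit 130) (nat_lit 1) (nat_lit 129) (nat_lit 1) (nat_lit 134) (nat_lit 1) (nat_lit 395) (nat_lit 424) (nat_lit 321))) (XT.nd (nat_lit 53508) (nat_lit 0) (nat_lit 24320) (XT.lf (nat_lit 380) (nat_lit 1180090964) (nat_lit 0) (nat_lit 1426534648) (nat_lit 304) (nat_lit 1426534648) (nat_lit 130) (nat_lit 1) (nat_lit 125) (nat_lit 1) (nat_lit 129) (nat_lit 1) (nat_lit 396) (nat_lit 424) (nat_lit 320)) (XT.lf (nat_lit 76) (nat_lit 382638471) (nat_lit 0) (nat_lit 6627012677) (nat_lit 988) (nat_lit 382638471) (nat_lit 446) (nat_lit 1) (nat_lit 445) (nat_lit 1) (nat_lit 458) (nat_lit 1) (nat_lit 321) (nat_lit 425) (nat_lit 394)))) (XT.nd (nat_lit 156) (nat_lit 836) (nat_lit 0) (XT.nd (nat_lit 78) (nat_lit 988) (nat_lit 0) (XT.lf (nat_lit 912) (nat_lit 6429579) (nat_lit 0) (nat_lit 3660091197) (nat_lit 836) (nat_lit 3660091197) (nat_lit 446) (nat_lit 1) (nat_lit 434) (nat_lit 1) (nat_lit 445) (nat_lit 1) (nat_lit 322) (nat_lit 425)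 (nat_lit 393)) (XT.lf (nat_lit 988) (nat_lit 6529300594) (nat_lit 0) (nat_lit 366364248) (nat_lit 912) (nat_lit 366364248) (nat_lit 434) (nat_lit 1) (nat_lit 421) (nat_lit 1) (nat_lit 433) (nat_lit 1) (nat_lit 323) (nat_lit 425) (nat_lit 392))) (XT.nd (nat_lit 78) (nat_lit 836) (nat_lit 0) (XT.lf (nat_lit 76) (nat_lit 2849080357) (nat_lit 0) (nat_lit 1499703157) (nat_lit 988) (nat_lit 2849080357) (nat_lit 422) (nat_lit 1) (nat_lit 421) (nat_lit 1) (nat_lit 434) (nat_lit 1) (nat_lit 324) (nat_lit 425) (nat_lit 391)) (XT.nd (nat_lit 78) (nat_lit 0) (nat_lit 0) (XT.lf (nat_lit 912) (nat_lit 4873451227) (nat_lit 0) (nat_lit 1130656053) (nat_lit 836) (nat_lit 1130656053) (nat_lit 422) (nat_lit 1) (nat_lit 410) (nat_lit 1) (nat_lit 421) (nat_lit 1) (nat_lit 325) (nat_lit 425) (nat_lit 390)) (XT.lf (nat_lit 76) (nat_lit 2016319001) (nat_lit 0) (nat_lit 3039629224) (nat_lit 912) (nat_lit 2016319001) (nat_lit 411) (nat_lit 1) (nat_lit 410) (nat_lit 1) (nat_lit 422) (nat_lit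 1) (nat_lit 326) (nat_lit 425) (nat_lit 389)))))) (XT.nd (nat_lit 312) (nat_lit 2356) (nat_lit 0) (XT.nd (nat_lit 156) (nat_lit 760) (nat_lit 0) (XT.nd (nat_lit 78) (nat_lit 0) (nat_lit 0) (XT.lf (nat_lit 912) (nat_lit 3188313751) (nat_lit 0) (nat_lit 1911145337) (nat_lit 836) (nat_lit 1911145337) (nat_lit 411) (nat_lit 1) (nat_lit 399) (nat_lit 1) (nat_lit 410) (nat_lit 1) (nat_lit 327) (nat_lit 425) (nat_lit 388)) (XT.lf (nat_lit 76) (nat_lit 1169715108) (nat_lit 0) (nat_lit 4610306468) (nat_lit 912) (nat_lit 1169715108) (nat_lit 400) (nat_lit 1) (nat_lit 399) (nat_lit 1) (nat_lit 411) (nat_lit 1) (nat_lit 328) (nat_lit 425) (nat_lit 387))) (XT.nd (nat_lit 78) (nat_lit 0) (nat_lit 0) (XT.lf (nat_lit 836) (nat_lit 1476860493) (nat_lit 0) (nat_lit 2706303606) (nat_lit 760) (nat_lit 2706303606) (nat_lit 400) (nat_lit 1) (nat_lit 389) (nat_lit 1) (nat_lit 399) (nat_lit 1) (nat_lit 329) (nat_lit 425) (nat_lit 386)) (XT.lf (nat_lit 76) (nat_lit 310711684) (nat_lit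 0) (nat_lit 6208765326) (nat_lit 836) (nat_lit 310711684) (nat_lit 390) (nat_lit 1) (nat_lit 389) (nat_lit 1) (nat_lit 400) (nat_lit 1) (nat_lit 330) (nat_lit 425) (nat_lit 385)))) (XT.nd (nat_lit 156) (nat_lit 760) (nat_lit 0) (XT.nd (nat_lit 78) (nat_lit 760) (nat_lit 0) (XT.lf (nat_lit 76) (nat_lit 3258267414) (nat_lit 0) (nat_lit 254702752) (nat_lit 836) (nat_lit 3258267414) (nat_lit 379) (nat_lit 1) (nat_lit 378) (nat_lit 1) (nat_lit 389) (nat_lit 1) (nat_lit 331) (nat_lit 425) (nat_lit 384)) (XT.lf (nat_lit 836) (nat_lit 5601966157) (nat_lit 0) (nat_lit 555642301) (nat_lit 760) (nat_lit 555642301) (nat_lit 379) (nat_lit 1) (nat_lit 368) (nat_lit 1) (nat_lit 378) (nat_lit 1) (nat_lit 332) (nat_lit 425) (nat_lit 383))) (XT.nd (nat_lit 78) (nat_lit 760) (nat_lit 0) (XT.lf (nat_lit 76) (nat_lit 2334115546) (nat_lit 0) (nat_lit 1987442409) (nat_lit 836) (nat_lit 2334115546) (nat_lit 369) (nat_lit 1) (nat_lit 368) (nat_lit 1) (nat_lit 379) (nat_lit 1) (nat_lit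 333) (nat_lit 425) (nat_lit 382)) (XT.nd (nat_lit 78) (nat_lit 0) (nat_lit 0) (XT.lf (nat_lit 836) (nat_lit 3739729279) (nat_lit 0) (nat_lit 1429619776) (nat_lit 760) (nat_lit 1429619776) (nat_lit 369) (nat_lit 1) (nat_lit 358) (nat_lit 1) (nat_lit 368) (nat_lit 1) (nat_lit 334) (nat_lit 425) (nat_lit 381)) (XT.lf (nat_lit 76) (nat_lit 1402333482) (nat_lit 0) (nat_lit 3738223437) (nat_lit 836) (nat_lit 1402333482) (nat_lit 359) (nat_lit 1) (nat_lit 358) (nat_lit 1) (nat_lit 369) (nat_lit 1) (nat_lit 335) (nat_lit 425) (nat_lit 380))))))) (XT.nd (nat_lit 702) (nat_lit 3648) (nat_lit 0) (XT.nd (nat_lit 312) (nat_lit 1292) (nat_lit 0) (XT.nd (nat_lit 156) (nat_lit 1444) (nat_lit 0) (XT.nd (nat_lit 78) (nat_lit 0) (nat_lit 0) (XT.lf (nat_lit 760) (nat_lit 1863345630) (nat_lit 0) (nat_lit 2312041845) (nat_lit 684) (nat_lit 2312041845) (nat_lit 359) (nat_lit 1) (nat_lit 349) (nat_lit 1) (nat_lit 358) (nat_lit 1) (nat_lit 336) (nat_lit 425) (nat_lit 379)) (XT.lf (nat_lit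 76) (nat_lit 464070769) (nat_lit 0) (nat_lit 5504672213) (nat_lit 760) (nat_lit 464070769) (nat_lit 350) (nat_lit 1) (nat_lit 349) (nat_lit 1) (nat_lit 359) (nat_lit 1) (nat_lit 337) (nat_lit 425) (nat_lit 378))) (XT.nd (nat_lit 78) (nat_lit 684) (nat_lit 0) (XT.lf (nat_lit 76) (nat_lit 3176971335) (nat_lit 0) (nat_lit 24613070) (nat_lit 760) (nat_lit 3176971335) (nat_lit 340) (nat_lit 1) (nat_lit 339) (nat_lit 1) (nat_lit 349) (nat_lit 1) (nat_lit 338) (nat_lit 425) (nat_lit 377)) (XT.lf (nat_lit 760) (nat_lit 5372262821) (nat_lit 0) (nat_lit 476429252) (nat_lit 684) (nat_lit 476429252) (nat_lit 340) (nat_lit 1) (nat_lit 330) (nat_lit 1) (nat_lit 339) (nat_lit 1) (nat_lit 339) (nat_lit 425) (nat_lit 376)))) (XT.nd (nat_lit 156) (nat_lit 608) (nat_lit 0) (XT.nd (nat_lit 78) (nat_lit 684) (nat_lit 0) (XT.lf (nat_lit 76) (nat_lit 2187126848) (nat_lit 0) (nat_lit 1897783342) (nat_lit 760) (nat_lit 2187126848) (nat_lit 331) (nat_lit 1) (nat_lit 330) (nat_lit 1) (nat_lit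 340) (nat_lit 1) (nat_lit 340) (nat_lit 425) (nat_lit 375)) (XT.lf (nat_lit 760) (nat_lit 3383327962) (nat_lit 0) (nat_lit 1418210423) (nat_lit 684) (nat_lit 1418210423) (nat_lit 331) (nat_lit 1) (nat_lit 321) (nat_lit 1) (nat_lit 330) (nat_lit 1) (nat_lit 341) (nat_lit 425) (nat_lit 374))) (XT.nd (nat_lit 78) (nat_lit 608) (nat_lit 0) (XT.lf (nat_lit 76) (nat_lit 1194712999) (nat_lit 0) (nat_lit 3778620502) (nat_lit 760) (nat_lit 1194712999) (nat_lit 322) (nat_lit 1) (nat_lit 321) (nat_lit 1) (nat_lit 331) (nat_lit 1) (nat_lit 342) (nat_lit 425) (nat_lit 373)) (XT.nd (nat_lit 78) (nat_lit 0) (nat_lit 0) (XT.lf (nat_lit 684) (nat_lit 1390152962) (nat_lit 0) (nat_lit 2363358781) (nat_lit 608) (nat_lit 2363358781) (nat_lit 322) (nat_lit 1) (nat_lit 313) (nat_lit 1) (nat_lit 321) (nat_lit 1) (nat_lit 343) (nat_lit 425) (nat_lit 372)) (XT.lf (nat_lit 76) (nat_lit 200633602) (nat_lit 0) (nat_lit 5665250280) (nat_lit 684) (nat_lit 200633602) (nat_lit 314) (nat_lit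 1) (nat_lit 313) (nat_lit 1) (nat_lit 322) (nat_lit 1) (nat_lit 344) (nat_lit 425) (nat_lit 371)))))) (XT.nd (nat_lit 312) (nat_lit 1748) (nat_lit 0) (XT.nd (nat_lit 156) (nat_lit 608) (nat_lit 0) (XT.nd (nat_lit 78) (nat_lit 608) (nat_lit 0) (XT.lf (nat_lit 76) (nat_lit 2709391772) (nat_lit 0) (nat_lit 597558777) (nat_lit 684) (nat_lit 2709391772) (nat_lit 305) (nat_lit 1) (nat_lit 304) (nat_lit 1) (nat_lit 313) (nat_lit 1) (nat_lit 345) (nat_lit 425) (nat_lit 370)) (XT.lf (nat_lit 684) (nat_lit 4388905383) (nat_lit 0) (nat_lit 789033003) (nat_lit 608) (nat_lit 789033003) (nat_lit 305) (nat_lit 1) (nat_lit 296) (nat_lit 1) (nat_lit 304) (nat_lit 1) (nat_lit 346) (nat_lit 425) (nat_lit 369))) (XT.nd (nat_lit 78) (nat_lit 608) (nat_lit 0) (XT.lf (nat_lit 76) (nat_lit 1675077655) (nat_lit 0) (nat_lit 2567843290) (nat_lit 684) (nat_lit 1675077655) (nat_lit 297) (nat_lit 1) (nat_lit 296) (nat_lit 1) (nat_lit 305) (nat_lit 1) (nat_lit 347) (nat_lit 425) (nat_lit 368))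 (XT.lf (nat_lit 684) (nat_lit 2314879183) (nat_lit 0) (nat_lit 1777387815) (nat_lit 608) (nat_lit 1777387815) (nat_lit 297) (nat_lit 1) (nat_lit 288) (nat_lit 1) (nat_lit 296) (nat_lit 1) (nat_lit 348) (nat_lit 425) (nat_lit 367)))) (XT.nd (nat_lit 156) (nat_lit 1216) (nat_lit 0) (XT.nd (nat_lit 78) (nat_lit 532) (nat_lit 0) (XT.lf (nat_lit 76) (nat_lit 642286130) (nat_lit 0) (nat_lit 4537386090) (nat_lit 684) (nat_lit 642286130) (nat_lit 289) (nat_lit 1) (nat_lit 288) (nat_lit 1) (nat_lit 297) (nat_lit 1) (nat_lit 349) (nat_lit 425) (nat_lit 366)) (XT.lf (nat_lit 608) (nat_lit 244616210) (nat_lit 0) (nat_lit 2764997791) (nat_lit 532) (nat_lit 2764997791) (nat_lit 289) (nat_lit 1) (nat_lit 281) (nat_lit 1) (nat_lit 288) (nat_lit 1) (nat_lit 350) (nat_lit 425) (nat_lit 365))) (XT.nd (nat_lit 78) (nat_lit 532) (nat_lit 0) (XT.lf (nat_lit 684) (nat_lit 4956499963) (nat_lit 0) (nat_lit 385729758) (nat_lit 608) (nat_lit 385729758) (nat_lit 281) (nat_lit 1) (nat_lit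 272) (nat_lit 1) (nat_lit 280) (nat_lit 1) (nat_lit 351) (nat_lit 425) (nat_lit 364)) (XT.nd (nat_lit 78) (nat_lit 532) (nat_lit 0) (XT.lf (nat_lit 76) (nat_lit 1942449681) (nat_lit 0) (nat_lit 1796647794) (nat_lit 684) (nat_lit 1942449681) (nat_lit 273) (nat_lit 1) (nat_lit 272) (nat_lit 1) (nat_lit 281) (nat_lit 1) (nat_lit 352) (nat_lit 425) (nat_lit 363)) (XT.lf (nat_lit 608) (nat_lit 2822490486) (nat_lit 0) (nat_lit 1406661313) (nat_lit 532) (nat_lit 1406661313) (nat_lit 273) (nat_lit 1) (nat_lit 265) (nat_lit 1) (nat_lit 272) (nat_lit 1) (nat_lit 353) (nat_lit 425) (nat_lit 362))))))))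
noncomputable def ec116 : XT := (XT.nd (nat_lit 1404) (nat_lit 4104) (nat_lit 0) (XT.nd (nat_lit 702) (nat_lit 2812) (nat_lit 0) (XT.nd (nat_lit 312) (nat_lit 1596) (nat_lit 0) (XT.nd (nat_lit 156) (nat_lit 608) (nat_lit 0) (XT.nd (nat_lit 78) (nat_lit 532) (nat_lit 0) (XT.lf (nat_lit 76) (nat_lit 881110583) (nat_lit 0) (nat_lit 3828388140) (nat_lit 608) (nat_lit 881110583) (nat_lit 266) (nat_lit 1) (nat_lit 265) (nat_lit 1) (nat_lit 273) (nat_lit 1) (nat_lit 354) (nat_lit 425) (nat_lit 361)) (XT.lf (nat_lit 608) (nat_lit 697554679) (nat_lit 0) (nat_lit 2424121657) (nat_lit 532) (nat_lit 2424121657) (nat_lit 266) (nat_lit 1) (nat_lit 258) (nat_lit 1) (nat_lit 265) (nat_lit 1) (nat_lit 355) (nat_lit 425) (nat_lit 360))) (XT.nd (nat_lit 78) (nat_lit 0) (nat_lit 0) (XT.lf (nat_lit 608) (nat_lit 5153136023) (nat_lit 0) (nat_lit 174273651) (nat_lit 532) (nat_lit 174273651) (nat_lit 258) (nat_lit 1) (nat_lit 250) (nat_lit 1) (nat_lit 257) (nat_lit 1) (nat_lit 356)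 (nat_lit 425) (nat_lit 359)) (XT.lf (nat_lit 76) (nat_lit 2029524905) (nat_lit 0) (nat_lit 1398625886) (nat_lit 608) (nat_lit 2029524905) (nat_lit 251) (nat_lit 1) (nat_lit 250) (nat_lit 1) (nat_lit 258) (nat_lit 1) (nat_lit 357) (nat_lit 425) (nat_lit 358)))) (XT.nd (nat_lit 156) (nat_lit 1064) (nat_lit 0) (XT.nd (nat_lit 78) (nat_lit 0) (nat_lit 0) (XT.lf (nat_lit 608) (nat_lit 2977214783) (nat_lit 0) (nat_lit 1218567879) (nat_lit 532) (nat_lit 1218567879) (nat_lit 251) (nat_lit 1) (nat_lit 243) (nat_lit 1) (nat_lit 250) (nat_lit 1) (nat_lit 358) (nat_lit 425) (nat_lit 357)) (XT.lf (nat_lit 76) (nat_lit 948437776) (nat_lit 0) (nat_lit 3474612746) (nat_lit 608) (nat_lit 948437776) (nat_lit 244) (nat_lit 1) (nat_lit 243) (nat_lit 1) (nat_lit 251) (nat_lit 1) (nat_lit 359) (nat_lit 425) (nat_lit 356))) (XT.nd (nat_lit 78) (nat_lit 608) (nat_lit 0) (XT.lf (nat_lit 532) (nat_lit 814860150) (nat_lit 0) (nat_lit 2257079060) (nat_lit 456) (nat_lit 2257079060) (nat_lit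 244) (nat_lit 1) (nat_lit 237) (nat_lit 1) (nat_lit 243) (nat_lit 1) (nat_lit 360) (nat_lit 425) (nat_lit 355)) (XT.nd (nat_lit 78) (nat_lit 0) (nat_lit 0) (XT.lf (nat_lit 608) (nat_lit 5037527518) (nat_lit 0) (nat_lit 124841082) (nat_lit 532) (nat_lit 124841082) (nat_lit 237) (nat_lit 1) (nat_lit 229) (nat_lit 1) (nat_lit 236) (nat_lit 1) (nat_lit 361) (nat_lit 425) (nat_lit 354)) (XT.lf (nat_lit 76) (nat_lit 1964941205) (nat_lit 0) (nat_lit 1315580583) (nat_lit 608) (nat_lit 1964941205) (nat_lit 230) (nat_lit 1) (nat_lit 229) (nat_lit 1) (nat_lit 237) (nat_lit 1) (nat_lit 362) (nat_lit 425) (nat_lit 353)))))) (XT.nd (nat_lit 312) (nat_lit 1368) (nat_lit 0) (XT.nd (nat_lit 156) (nat_lit 988) (nat_lit 0) (XT.nd (nat_lit 78) (nat_lit 0) (nat_lit 0) (XT.lf (nat_lit 532) (nat_lit 2835300700) (nat_lit 0) (nat_lit 1184532229) (nat_lit 456) (nat_lit 1184532229) (nat_lit 230) (nat_lit 1) (nat_lit 223) (nat_lit 1) (nat_lit 229) (nat_lit 1) (nat_lit 363) (nat_lit 425)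 (nat_lit 352)) (XT.lf (nat_lit 76) (nat_lit 871702275) (nat_lit 0) (nat_lit 3420300442) (nat_lit 532) (nat_lit 871702275) (nat_lit 224) (nat_lit 1) (nat_lit 223) (nat_lit 1) (nat_lit 230) (nat_lit 1) (nat_lit 364) (nat_lit 425) (nat_lit 351))) (XT.nd (nat_lit 78) (nat_lit 532) (nat_lit 0) (XT.lf (nat_lit 532) (nat_lit 650416151) (nat_lit 0) (nat_lit 2236492358) (nat_lit 456) (nat_lit 2236492358) (nat_lit 224) (nat_lit 1) (nat_lit 217) (nat_lit 1) (nat_lit 223) (nat_lit 1) (nat_lit 365) (nat_lit 425) (nat_lit 350)) (XT.lf (nat_lit 532) (nat_lit 4661042208) (nat_lit 0) (nat_lit 211324745) (nat_lit 456) (nat_lit 211324745) (nat_lit 217) (nat_lit 1) (nat_lit 210) (nat_lit 1) (nat_lit 216) (nat_lit 1) (nat_lit 366) (nat_lit 425) (nat_lit 349)))) (XT.nd (nat_lit 156) (nat_lit 912) (nat_lit 0) (XT.nd (nat_lit 78) (nat_lit 456) (nat_lit 0) (XT.lf (nat_lit 76) (nat_lit 1773749471) (nat_lit 0) (nat_lit 1496574143) (nat_lit 532) (nat_lit 1773749471) (nat_lit 211) (nat_lit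 1) (nat_lit 210) (nat_lit 1) (nat_lit 217) (nat_lit 1) (nat_lit 367) (nat_lit 425) (nat_lit 348)) (XT.lf (nat_lit 532) (nat_lit 2445943977) (nat_lit 0) (nat_lit 1279547138) (nat_lit 456) (nat_lit 1279547138) (nat_lit 211) (nat_lit 1) (nat_lit 204) (nat_lit 1) (nat_lit 210) (nat_lit 1) (nat_lit 368) (nat_lit 425) (nat_lit 347))) (XT.nd (nat_lit 78) (nat_lit 912) (nat_lit 0) (XT.lf (nat_lit 76) (nat_lit 674894912) (nat_lit 0) (nat_lit 3616661372) (nat_lit 532) (nat_lit 674894912) (nat_lit 205) (nat_lit 1) (nat_lit 204) (nat_lit 1) (nat_lit 211) (nat_lit 1) (nat_lit 369) (nat_lit 425) (nat_lit 346)) (XT.nd (nat_lit 78) (nat_lit 532) (nat_lit 0) (XT.lf (nat_lit 456) (nat_lit 251335064) (nat_lit 0) (nat_lit 2338409568) (nat_lit 380) (nat_lit 2338409568) (nat_lit 205) (nat_lit 1) (nat_lit 199) (nat_lit 1) (nat_lit 204) (nat_lit 1) (nat_lit 370) (nat_lit 425) (nat_lit 345)) (XT.lf (nat_lit 532) (nat_lit 4068556500) (nat_lit 0) (nat_lit 410901715) (nat_lit 456) (nat_lit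 410901715) (nat_lit 199) (nat_lit 1) (nat_lit 192) (nat_lit 1) (nat_lit 198) (nat_lit 1) (nat_lit 371) (nat_lit 425) (nat_lit 344))))))) (XT.nd (nat_lit 702) (nat_lit 2128) (nat_lit 0) (XT.nd (nat_lit 312) (nat_lit 1140) (nat_lit 0) (XT.nd (nat_lit 156) (nat_lit 456) (nat_lit 0) (XT.nd (nat_lit 78) (nat_lit 380) (nat_lit 0) (XT.lf (nat_lit 76) (nat_lit 1477831160) (nat_lit 0) (nat_lit 1897084090) (nat_lit 532) (nat_lit 1477831160) (nat_lit 193) (nat_lit 1) (nat_lit 192) (nat_lit 1) (nat_lit 199) (nat_lit 1) (nat_lit 372) (nat_lit 425) (nat_lit 343)) (XT.lf (nat_lit 456) (nat_lit 1852108779) (nat_lit 0) (nat_lit 1481758454) (nat_lit 380) (nat_lit 1481758454) (nat_lit 193) (nat_lit 1) (nat_lit 187) (nat_lit 1) (nat_lit 192) (nat_lit 1) (nat_lit 373) (nat_lit 425) (nat_lit 342))) (XT.nd (nat_lit 78) (nat_lit 456) (nat_lit 0) (XT.lf (nat_lit 76) (nat_lit 378963960) (nat_lit 0) (nat_lit 4021064400) (nat_lit 456) (nat_lit 378963960) (nat_lit 188) (nat_lit 1) (nat_lit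 187) (nat_lit 1) (nat_lit 193) (nat_lit 1) (nat_lit 374) (nat_lit 425) (nat_lit 341)) (XT.lf (nat_lit 76) (nat_lit 2202868521) (nat_lit 0) (nat_lit 336777188) (nat_lit 456) (nat_lit 2202868521) (nat_lit 182) (nat_lit 1) (nat_lit 181) (nat_lit 1) (nat_lit 187) (nat_lit 1) (nat_lit 375) (nat_lit 425) (nat_lit 340)))) (XT.nd (nat_lit 156) (nat_lit 760) (nat_lit 0) (XT.nd (nat_lit 78) (nat_lit 0) (nat_lit 0) (XT.lf (nat_lit 456) (nat_lit 3299213233) (nat_lit 0) (nat_lit 703650546) (nat_lit 380) (nat_lit 703650546) (nat_lit 182) (nat_lit 1) (nat_lit 176) (nat_lit 1) (nat_lit 181) (nat_lit 1) (nat_lit 376) (nat_lit 425) (nat_lit 339)) (XT.lf (nat_lit 76) (nat_lit 1096268437) (nat_lit 0) (nat_lit 2478255012) (nat_lit 456) (nat_lit 1096268437) (nat_lit 177) (nat_lit 1) (nat_lit 176) (nat_lit 1) (nat_lit 182) (nat_lit 1) (nat_lit 377) (nat_lit 425) (nat_lit 338))) (XT.nd (nat_lit 78) (nat_lit 380) (nat_lit 0) (XT.lf (nat_lit 456) (nat_lit 1091255744) (nat_lit 0) (nat_lit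 1772097226) (nat_lit 380) (nat_lit 1772097226) (nat_lit 177) (nat_lit 1) (nat_lit 171) (nat_lit 1) (nat_lit 176) (nat_lit 1) (nat_lit 378) (nat_lit 425) (nat_lit 337)) (XT.nd (nat_lit 78) (nat_lit 380) (nat_lit 0) (XT.lf (nat_lit 76) (nat_lit 2170751) (nat_lit 0) (nat_lit 4596318275) (nat_lit 456) (nat_lit 2170751) (nat_lit 172) (nat_lit 1) (nat_lit 171) (nat_lit 1) (nat_lit 177) (nat_lit 1) (nat_lit 379) (nat_lit 425) (nat_lit 336)) (XT.lf (nat_lit 76) (nat_lit 1744316225) (nat_lit 0) (nat_lit 1077184418) (nat_lit 380) (nat_lit 1744316225) (nat_lit 167) (nat_lit 1) (nat_lit 166) (nat_lit 1) (nat_lit 171) (nat_lit 1) (nat_lit 380) (nat_lit 425) (nat_lit 335)))))) (XT.nd (nat_lit 312) (nat_lit 988) (nat_lit 0) (XT.nd (nat_lit 156) (nat_lit 760) (nat_lit 0) (XT.nd (nat_lit 78) (nat_lit 0) (nat_lit 0) (XT.lf (nat_lit 456) (nat_lit 2387093359) (nat_lit 0) (nat_lit 1072211864) (nat_lit 380) (nat_lit 1072211864) (nat_lit 167) (nat_lit 1) (nat_lit 161) (nat_lit 1) (nat_lit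 166) (nat_lit 1) (nat_lit 381) (nat_lit 425) (nat_lit 334)) (XT.lf (nat_lit 76) (nat_lit 645672254) (nat_lit 0) (nat_lit 3206235373) (nat_lit 456) (nat_lit 645672254) (nat_lit 162) (nat_lit 1) (nat_lit 161) (nat_lit 1) (nat_lit 167) (nat_lit 1) (nat_lit 382) (nat_lit 425) (nat_lit 333))) (XT.nd (nat_lit 78) (nat_lit 456) (nat_lit 0) (XT.lf (nat_lit 380) (nat_lit 195987274) (nat_lit 0) (nat_lit 2133953616) (nat_lit 304) (nat_lit 2133953616) (nat_lit 162) (nat_lit 1) (nat_lit 157) (nat_lit 1) (nat_lit 161) (nat_lit 1) (nat_lit 383) (nat_lit 425) (nat_lit 332)) (XT.lf (nat_lit 456) (nat_lit 3557208938) (nat_lit 0) (nat_lit 436703073) (nat_lit 380) (nat_lit 436703073) (nat_lit 157) (nat_lit 1) (nat_lit 151) (nat_lit 1) (nat_lit 156) (nat_lit 1) (nat_lit 384) (nat_lit 425) (nat_lit 331)))) (XT.nd (nat_lit 156) (nat_lit 684) (nat_lit 0) (XT.nd (nat_lit 78) (nat_lit 304) (nat_lit 0) (XT.lf (nat_lit 76) (nat_lit 1227547256) (nat_lit 0) (nat_lit 1942406823) (nat_lit 456)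 (nat_lit 1227547256) (nat_lit 152) (nat_lit 1) (nat_lit 151) (nat_lit 1) (nat_lit 157) (nat_lit 1) (nat_lit 385) (nat_lit 425) (nat_lit 330)) (XT.lf (nat_lit 380) (nat_lit 1361811180) (nat_lit 0) (nat_lit 1501487562) (nat_lit 304) (nat_lit 1501487562) (nat_lit 152) (nat_lit 1) (nat_lit 147) (nat_lit 1) (nat_lit 151) (nat_lit 1) (nat_lit 386) (nat_lit 425) (nat_lit 329))) (XT.nd (nat_lit 78) (nat_lit 684) (nat_lit 0) (XT.lf (nat_lit 76) (nat_lit 140473079) (nat_lit 0) (nat_lit 4051589752) (nat_lit 380) (nat_lit 140473079) (nat_lit 148) (nat_lit 1) (nat_lit 147) (nat_lit 1) (nat_lit 152) (nat_lit 1) (nat_lit 387) (nat_lit 425) (nat_lit 328)) (XT.nd (nat_lit 78) (nat_lit 304) (nat_lit 0) (XT.lf (nat_lit 76) (nat_lit 1752736366) (nat_lit 0) (nat_lit 794817913) (nat_lit 380) (nat_lit 1752736366) (nat_lit 143) (nat_lit 1) (nat_lit 142) (nat_lit 1) (nat_lit 147) (nat_lit 1) (nat_lit 388) (nat_lit 425) (nat_lit 327)) (XT.lf (nat_lit 380) (nat_lit 2415700317) (nat_lit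 0) (nat_lit 926401509) (nat_lit 304) (nat_lit 926401509) (nat_lit 143) (nat_lit 1) (nat_lit 138) (nat_lit 1) (nat_lit 142) (nat_lit 1) (nat_lit 389) (nat_lit 425) (nat_lit 326))))))))
noncomputable def ec117 : XT := (XT.nd (nat_lit 55068) (nat_lit 0) (nat_lit 10640) (XT.nd (nat_lit 54366) (nat_lit 0) (nat_lit 17024) (XT.nd (nat_lit 312) (nat_lit 304) (nat_lit 0) (XT.nd (nat_lit 156) (nat_lit 380) (nat_lit 0) (XT.nd (nat_lit 78) (nat_lit 304) (nat_lit 0) (XT.lf (nat_lit 76) (nat_lit 665648986) (nat_lit 0) (nat_lit 2905727648) (nat_lit 380) (nat_lit 665648986) (nat_lit 139) (nat_lit 1) (nat_lit 138) (nat_lit 1) (nat_lit 143) (nat_lit 1) (nat_lit 390) (nat_lit 425) (nat_lit 325)) (XT.lf (nat_lit 380) (nat_lit 249041790) (nat_lit 0) (nat_lit 1978374244) (nat_lit 304) (nat_lit 1978374244) (nat_lit 139) (nat_lit 1) (nat_lit 134) (nat_lit 1) (nat_lit 138) (nat_lit 1) (nat_lit 391) (nat_lit 425) (nat_lit 324))) (XT.nd (nat_lit 78) (nat_lit 0) (nat_lit 0) (XT.lf (nat_lit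 380) (nat_lit 3366632989) (nat_lit 0) (nat_lit 404145025) (nat_lit 304) (nat_lit 404145025) (nat_lit 134) (nat_lit 1) (nat_lit 129) (nat_lit 1) (nat_lit 133) (nat_lit 1) (nat_lit 392) (nat_lit 425) (nat_lit 323)) (XT.lf (nat_lit 76) (nat_lit 1140323020) (nat_lit 0) (nat_lit 1863546126) (nat_lit 380) (nat_lit 1140323020) (nat_lit 130) (nat_lit 1) (nat_lit 129) (nat_lit 1) (nat_lit 134) (nat_lit 1) (nat_lit 393) (nat_lit 425) (nat_lit 322)))) (XT.nd (nat_lit 53820) (nat_lit 0) (nat_lit 20824) (XT.nd (nat_lit 53742) (nat_lit 0) (nat_lit 22496) (XT.lf (nat_lit 380) (nat_lit 1203692783) (nat_lit 0) (nat_lit 1455065341) (nat_lit 304) (nat_lit 1455065341) (nat_lit 130) (nat_lit 1) (nat_lit 125) (nat_lit 1) (nat_lit 129) (nat_lit 1) (nat_lit 394) (nat_lit 425) (nat_lit 321)) (XT.lf (nat_lit 76) (nat_lit 2906061964) (nat_lit 0) (nat_lit 1529697220) (nat_lit 988) (nat_lit 2906061964) (nat_lit 422) (nat_lit 1) (nat_lit 421) (nat_lit 1) (nat_lit 434) (nat_lit 1) (nat_lit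 322) (nat_lit 426) (nat_lit 392))) (XT.nd (nat_lit 78) (nat_lit 836) (nat_lit 0) (XT.lf (nat_lit 912) (nat_lit 4970920252) (nat_lit 0) (nat_lit 1153269174) (nat_lit 836) (nat_lit 1153269174) (nat_lit 422) (nat_lit 1) (nat_lit 410) (nat_lit 1) (nat_lit 421) (nat_lit 1) (nat_lit 323) (nat_lit 426) (nat_lit 391)) (XT.nd (nat_lit 78) (nat_lit 836) (nat_lit 0) (XT.lf (nat_lit 76) (nat_lit 2056645381) (nat_lit 0) (nat_lit 3100421809) (nat_lit 912) (nat_lit 2056645381) (nat_lit 411) (nat_lit 1) (nat_lit 410) (nat_lit 1) (nat_lit 422) (nat_lit 1) (nat_lit 324) (nat_lit 426) (nat_lit 390)) (XT.lf (nat_lit 912) (nat_lit 3252080026) (nat_lit 0) (nat_lit 1949368243) (nat_lit 836) (nat_lit 1949368243) (nat_lit 411) (nat_lit 1) (nat_lit 399) (nat_lit 1) (nat_lit 410) (nat_lit 1) (nat_lit 325) (nat_lit 426) (nat_lit 389)))))) (XT.nd (nat_lit 312) (nat_lit 2204) (nat_lit 0) (XT.nd (nat_lit 156) (nat_lit 836) (nat_lit 0) (XT.nd (nat_lit 78) (nat_lit 760) (nat_lit 0) (XT.lf (nat_lit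 76) (nat_lit 1193109410) (nat_lit 0) (nat_lit 4702512598) (nat_lit 912) (nat_lit 1193109410) (nat_lit 400) (nat_lit 1) (nat_lit 399) (nat_lit 1) (nat_lit 411) (nat_lit 1) (nat_lit 326) (nat_lit 426) (nat_lit 388)) (XT.lf (nat_lit 836) (nat_lit 1506397703) (nat_lit 0) (nat_lit 2760429678) (nat_lit 760) (nat_lit 2760429678) (nat_lit 400) (nat_lit 1) (nat_lit 389) (nat_lit 1) (nat_lit 399) (nat_lit 1) (nat_lit 327) (nat_lit 426) (nat_lit 387))) (XT.nd (nat_lit 78) (nat_lit 836) (nat_lit 0) (XT.lf (nat_lit 76) (nat_lit 316925918) (nat_lit 0) (nat_lit 6332940632) (nat_lit 836) (nat_lit 316925918) (nat_lit 390) (nat_lit 1) (nat_lit 389) (nat_lit 1) (nat_lit 400) (nat_lit 1) (nat_lit 328) (nat_lit 426) (nat_lit 386)) (XT.lf (nat_lit 76) (nat_lit 3323432762) (nat_lit 0) (nat_lit 259796807) (nat_lit 836) (nat_lit 3323432762) (nat_lit 379) (nat_lit 1) (nat_lit 378) (nat_lit 1) (nat_lit 389) (nat_lit 1) (nat_lit 329) (nat_lit 426) (nat_lit 385)))) (XT.nd (nat_lit 156) (nat_lit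 1444) (nat_lit 0) (XT.nd (nat_lit 78) (nat_lit 0) (nat_lit 0) (XT.lf (nat_lit 836) (nat_lit 5714005480) (nat_lit 0) (nat_lit 566755147) (nat_lit 760) (nat_lit 566755147) (nat_lit 379) (nat_lit 1) (nat_lit 368) (nat_lit 1) (nat_lit 378) (nat_lit 1) (nat_lit 330) (nat_lit 426) (nat_lit 384)) (XT.lf (nat_lit 76) (nat_lit 2380797857) (nat_lit 0) (nat_lit 2027191257) (nat_lit 836) (nat_lit 2380797857) (nat_lit 369) (nat_lit 1) (nat_lit 368) (nat_lit 1) (nat_lit 379) (nat_lit 1) (nat_lit 331) (nat_lit 426) (nat_lit 383))) (XT.nd (nat_lit 78) (nat_lit 684) (nat_lit 0) (XT.lf (nat_lit 836) (nat_lit 3814523864) (nat_lit 0) (nat_lit 1458212171) (nat_lit 760) (nat_lit 1458212171) (nat_lit 369) (nat_lit 1) (nat_lit 358) (nat_lit 1) (nat_lit 368) (nat_lit 1) (nat_lit 332) (nat_lit 426) (nat_lit 382)) (XT.nd (nat_lit 78) (nat_lit 684) (nat_lit 0) (XT.lf (nat_lit 76) (nat_lit 1430380152) (nat_lit 0) (nat_lit 3812987905) (nat_lit 836) (nat_lit 1430380152) (nat_lit 359) (nat_lit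 1) (nat_lit 358) (nat_lit 1) (nat_lit 369) (nat_lit 1) (nat_lit 333) (nat_lit 426) (nat_lit 381)) (XT.lf (nat_lit 760) (nat_lit 1900612542) (nat_lit 0) (nat_lit 2358282682) (nat_lit 684) (nat_lit 2358282682) (nat_lit 359) (nat_lit 1) (nat_lit 349) (nat_lit 1) (nat_lit 358) (nat_lit 1) (nat_lit 334) (nat_lit 426) (nat_lit 380))))))) (XT.nd (nat_lit 702) (nat_lit 2964) (nat_lit 0) (XT.nd (nat_lit 312) (nat_lit 1976) (nat_lit 0) (XT.nd (nat_lit 156) (nat_lit 684) (nat_lit 0) (XT.nd (nat_lit 78) (nat_lit 760) (nat_lit 0) (XT.lf (nat_lit 76) (nat_lit 473352185) (nat_lit 0) (nat_lit 5614765657) (nat_lit 760) (nat_lit 473352185) (nat_lit 350) (nat_lit 1) (nat_lit 349) (nat_lit 1) (nat_lit 359) (nat_lit 1) (nat_lit 335) (nat_lit 426) (nat_lit 379)) (XT.lf (nat_lit 76) (nat_lit 3240510762) (nat_lit 0) (nat_lit 25105331) (nat_lit 760) (nat_lit 3240510762) (nat_lit 340) (nat_lit 1) (nat_lit 339) (nat_lit 1) (nat_lit 349) (nat_lit 1) (nat_lit 336) (nat_lit 426) (nat_lit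 378))) (XT.nd (nat_lit 78) (nat_lit 0) (nat_lit 0) (XT.lf (nat_lit 760) (nat_lit 5479708078) (nat_lit 0) (nat_lit 485957837) (nat_lit 684) (nat_lit 485957837) (nat_lit 340) (nat_lit 1) (nat_lit 330) (nat_lit 1) (nat_lit 339) (nat_lit 1) (nat_lit 337) (nat_lit 426) (nat_lit 377)) (XT.lf (nat_lit 76) (nat_lit 2230869385) (nat_lit 0) (nat_lit 1935739009) (nat_lit 760) (nat_lit 2230869385) (nat_lit 331) (nat_lit 1) (nat_lit 330) (nat_lit 1) (nat_lit 340) (nat_lit 1) (nat_lit 338) (nat_lit 426) (nat_lit 376)))) (XT.nd (nat_lit 156) (nat_lit 1292) (nat_lit 0) (XT.nd (nat_lit 78) (nat_lit 0) (nat_lit 0) (XT.lf (nat_lit 760) (nat_lit 3450994521) (nat_lit 0) (nat_lit 1446574631) (nat_lit 684) (nat_lit 1446574631) (nat_lit 331) (nat_lit 1) (nat_lit 321) (nat_lit 1) (nat_lit 330) (nat_lit 1) (nat_lit 339) (nat_lit 426) (nat_lit 375)) (XT.lf (nat_lit 76) (nat_lit 1218607259) (nat_lit 0) (nat_lit 3854192912) (nat_lit 760) (nat_lit 1218607259) (nat_lit 322) (nat_lit 1) (nat_lit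 321) (nat_lit 1) (nat_lit 331) (nat_lit 1) (nat_lit 340) (nat_lit 426) (nat_lit 374))) (XT.nd (nat_lit 78) (nat_lit 684) (nat_lit 0) (XT.lf (nat_lit 684) (nat_lit 1417956022) (nat_lit 0) (nat_lit 2410625957) (nat_lit 608) (nat_lit 2410625957) (nat_lit 322) (nat_lit 1) (nat_lit 313) (nat_lit 1) (nat_lit 321) (nat_lit 1) (nat_lit 341) (nat_lit 426) (nat_lit 373)) (XT.nd (nat_lit 78) (nat_lit 684) (nat_lit 0) (XT.lf (nat_lit 76) (nat_lit 204646274) (nat_lit 0) (nat_lit 5778555286) (nat_lit 684) (nat_lit 204646274) (nat_lit 314) (nat_lit 1) (nat_lit 313) (nat_lit 1) (nat_lit 322) (nat_lit 1) (nat_lit 342) (nat_lit 426) (nat_lit 372)) (XT.lf (nat_lit 76) (nat_lit 2763579608) (nat_lit 0) (nat_lit 609509952) (nat_lit 684) (nat_lit 2763579608) (nat_lit 305) (nat_lit 1) (nat_lit 304) (nat_lit 1) (nat_lit 313) (nat_lit 1) (nat_lit 343) (nat_lit 426) (nat_lit 371)))))) (XT.nd (nat_lit 312) (nat_lit 1748) (nat_lit 0) (XT.nd (nat_lit 156) (nat_lit 608) (nat_lit 0) (XT.nd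 (nat_lit 78) (nat_lit 0) (nat_lit 0) (XT.lf (nat_lit 684) (nat_lit 4476683490) (nat_lit 0) (nat_lit 804813663) (nat_lit 608) (nat_lit 804813663) (nat_lit 305) (nat_lit 1) (nat_lit 296) (nat_lit 1) (nat_lit 304) (nat_lit 1) (nat_lit 344) (nat_lit 426) (nat_lit 370)) (XT.lf (nat_lit 76) (nat_lit 1708579209) (nat_lit 0) (nat_lit 2619200155) (nat_lit 684) (nat_lit 1708579209) (nat_lit 297) (nat_lit 1) (nat_lit 296) (nat_lit 1) (nat_lit 305) (nat_lit 1) (nat_lit 345) (nat_lit 426) (nat_lit 369))) (XT.nd (nat_lit 78) (nat_lit 0) (nat_lit 0) (XT.lf (nat_lit 684) (nat_lit 2361176766) (nat_lit 0) (nat_lit 1812935572) (nat_lit 608) (nat_lit 1812935572) (nat_lit 297) (nat_lit 1) (nat_lit 288) (nat_lit 1) (nat_lit 296) (nat_lit 1) (nat_lit 346) (nat_lit 426) (nat_lit 368)) (XT.lf (nat_lit 76) (nat_lit 655131852) (nat_lit 0) (nat_lit 4628133812) (nat_lit 684) (nat_lit 655131852) (nat_lit 289) (nat_lit 1) (nat_lit 288) (nat_lit 1) (nat_lit 297) (nat_lit 1) (nat_lit 347) (nat_lit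 426) (nat_lit 367)))) (XT.nd (nat_lit 156) (nat_lit 532) (nat_lit 0) (XT.nd (nat_lit 78) (nat_lit 684) (nat_lit 0) (XT.lf (nat_lit 608) (nat_lit 249508534) (nat_lit 0) (nat_lit 2820297747) (nat_lit 532) (nat_lit 2820297747) (nat_lit 289) (nat_lit 1) (nat_lit 281) (nat_lit 1) (nat_lit 288) (nat_lit 1) (nat_lit 348) (nat_lit 426) (nat_lit 366)) (XT.lf (nat_lit 684) (nat_lit 5055629962) (nat_lit 0) (nat_lit 393444353) (nat_lit 608) (nat_lit 393444353) (nat_lit 281) (nat_lit 1) (nat_lit 272) (nat_lit 1) (nat_lit 280) (nat_lit 1) (nat_lit 349) (nat_lit 426) (nat_lit 365))) (XT.nd (nat_lit 78) (nat_lit 532) (nat_lit 0) (XT.lf (nat_lit 76) (nat_lit 1981298674) (nat_lit 0) (nat_lit 1832580750) (nat_lit 684) (nat_lit 1981298674) (nat_lit 273) (nat_lit 1) (nat_lit 272) (nat_lit 1) (nat_lit 281) (nat_lit 1) (nat_lit 350) (nat_lit 426) (nat_lit 364)) (XT.nd (nat_lit 78) (nat_lit 0) (nat_lit 0) (XT.lf (nat_lit 608) (nat_lit 2878940296) (nat_lit 0) (nat_lit 1434794540) (nat_lit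 532) (nat_lit 1434794540) (nat_lit 273) (nat_lit 1) (nat_lit 265) (nat_lit 1) (nat_lit 272) (nat_lit 1) (nat_lit 351) (nat_lit 426) (nat_lit 363)) (XT.lf (nat_lit 76) (nat_lit 898732795) (nat_lit 0) (nat_lit 3904955903) (nat_lit 608) (nat_lit 898732795) (nat_lit 266) (nat_lit 1) (nat_lit 265) (nat_lit 1) (nat_lit 273) (nat_lit 1) (nat_lit 352) (nat_lit 426) (nat_lit 362))))))))
noncomputable def ec118 : XT := (XT.nd (nat_lit 1404) (nat_lit 4104) (nat_lit 0) (XT.nd (nat_lit 702) (nat_lit 2356) (nat_lit 0) (XT.nd (nat_lit 312) (nat_lit 1520) (nat_lit 0) (XT.nd (nat_lit 156) (nat_lit 532) (nat_lit 0) (XT.nd (nat_lit 78) (nat_lit 608) (nat_lit 0) (XT.lf (nat_lit 608) (nat_lit 711505772) (nat_lit 0) (nat_lit 2472604090) (nat_lit 532) (nat_lit 2472604090) (nat_lit 266) (nat_lit 1) (nat_lit 258) (nat_lit 1) (nat_lit 265) (nat_lit 1) (nat_lit 353) (nat_lit 426) (nat_lit 361)) (XT.lf (nat_lit 608) (nat_lit 5256198744) (nat_lit 0) (nat_lit 177759124) (nat_lit 532) (nat_lit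 177759124) (nat_lit 258) (nat_lit 1) (nat_lit 250) (nat_lit 1) (nat_lit 257) (nat_lit 1) (nat_lit 354) (nat_lit 426) (nat_lit 360))) (XT.nd (nat_lit 78) (nat_lit 532) (nat_lit 0) (XT.lf (nat_lit 76) (nat_lit 2070115403) (nat_lit 0) (nat_lit 1426598404) (nat_lit 608) (nat_lit 2070115403) (nat_lit 251) (nat_lit 1) (nat_lit 250) (nat_lit 1) (nat_lit 258) (nat_lit 1) (nat_lit 355) (nat_lit 426) (nat_lit 359)) (XT.lf (nat_lit 608) (nat_lit 3036759079) (nat_lit 0) (nat_lit 1242939237) (nat_lit 532) (nat_lit 1242939237) (nat_lit 251) (nat_lit 1) (nat_lit 243) (nat_lit 1) (nat_lit 250) (nat_lit 1) (nat_lit 356) (nat_lit 426) (nat_lit 358)))) (XT.nd (nat_lit 156) (nat_lit 1064) (nat_lit 0) (XT.nd (nat_lit 78) (nat_lit 456) (nat_lit 0) (XT.lf (nat_lit 76) (nat_lit 967406532) (nat_lit 0) (nat_lit 3544105001) (nat_lit 608) (nat_lit 967406532) (nat_lit 244) (nat_lit 1) (nat_lit 243) (nat_lit 1) (nat_lit 251) (nat_lit 1) (nat_lit 357) (nat_lit 426) (nat_lit 357)) (XT.lf (nat_lit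 532) (nat_lit 831157353) (nat_lit 0) (nat_lit 2302220641) (nat_lit 456) (nat_lit 2302220641) (nat_lit 244) (nat_lit 1) (nat_lit 237) (nat_lit 1) (nat_lit 243) (nat_lit 1) (nat_lit 358) (nat_lit 426) (nat_lit 356))) (XT.nd (nat_lit 78) (nat_lit 456) (nat_lit 0) (XT.lf (nat_lit 608) (nat_lit 5138278068) (nat_lit 0) (nat_lit 127337904) (nat_lit 532) (nat_lit 127337904) (nat_lit 237) (nat_lit 1) (nat_lit 229) (nat_lit 1) (nat_lit 236) (nat_lit 1) (nat_lit 359) (nat_lit 426) (nat_lit 355)) (XT.nd (nat_lit 78) (nat_lit 456) (nat_lit 0) (XT.lf (nat_lit 76) (nat_lit 2004240029) (nat_lit 0) (nat_lit 1341892194) (nat_lit 608) (nat_lit 2004240029) (nat_lit 230) (nat_lit 1) (nat_lit 229) (nat_lit 1) (nat_lit 237) (nat_lit 1) (nat_lit 360) (nat_lit 426) (nat_lit 354)) (XT.lf (nat_lit 532) (nat_lit 2892006714) (nat_lit 0) (nat_lit 1208222874) (nat_lit 456) (nat_lit 1208222874) (nat_lit 230) (nat_lit 1) (nat_lit 223) (nat_lit 1) (nat_lit 229) (nat_lit 1) (nat_lit 361) (nat_lit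 426) (nat_lit 353)))))) (XT.nd (nat_lit 312) (nat_lit 1368) (nat_lit 0) (XT.nd (nat_lit 156) (nat_lit 532) (nat_lit 0) (XT.nd (nat_lit 78) (nat_lit 456) (nat_lit 0) (XT.lf (nat_lit 76) (nat_lit 889136320) (nat_lit 0) (nat_lit 3488706451) (nat_lit 532) (nat_lit 889136320) (nat_lit 224) (nat_lit 1) (nat_lit 223) (nat_lit 1) (nat_lit 230) (nat_lit 1) (nat_lit 362) (nat_lit 426) (nat_lit 352)) (XT.lf (nat_lit 532) (nat_lit 663424474) (nat_lit 0) (nat_lit 2281222205) (nat_lit 456) (nat_lit 2281222205) (nat_lit 224) (nat_lit 1) (nat_lit 217) (nat_lit 1) (nat_lit 223) (nat_lit 1) (nat_lit 363) (nat_lit 426) (nat_lit 351))) (XT.nd (nat_lit 78) (nat_lit 0) (nat_lit 0) (XT.lf (nat_lit 532) (nat_lit 4754263052) (nat_lit 0) (nat_lit 215551240) (nat_lit 456) (nat_lit 215551240) (nat_lit 217) (nat_lit 1) (nat_lit 210) (nat_lit 1) (nat_lit 216) (nat_lit 1) (nat_lit 364) (nat_lit 426) (nat_lit 350)) (XT.lf (nat_lit 76) (nat_lit 1809224461) (nat_lit 0) (nat_lit 1526505626) (nat_lit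 532) (nat_lit 1809224461) (nat_lit 211) (nat_lit 1) (nat_lit 210) (nat_lit 1) (nat_lit 217) (nat_lit 1) (nat_lit 365) (nat_lit 426) (nat_lit 349)))) (XT.nd (nat_lit 156) (nat_lit 912) (nat_lit 0) (XT.nd (nat_lit 78) (nat_lit 0) (nat_lit 0) (XT.lf (nat_lit 532) (nat_lit 2494862857) (nat_lit 0) (nat_lit 1305138081) (nat_lit 456) (nat_lit 1305138081) (nat_lit 211) (nat_lit 1) (nat_lit 204) (nat_lit 1) (nat_lit 210) (nat_lit 1) (nat_lit 366) (nat_lit 426) (nat_lit 348)) (XT.lf (nat_lit 76) (nat_lit 688392810) (nat_lit 0) (nat_lit 3688994599) (nat_lit 532) (nat_lit 688392810) (nat_lit 205) (nat_lit 1) (nat_lit 204) (nat_lit 1) (nat_lit 211) (nat_lit 1) (nat_lit 367) (nat_lit 426) (nat_lit 347))) (XT.nd (nat_lit 78) (nat_lit 532) (nat_lit 0) (XT.lf (nat_lit 456) (nat_lit 256361765) (nat_lit 0) (nat_lit 2385177760) (nat_lit 380) (nat_lit 2385177760) (nat_lit 205) (nat_lit 1) (nat_lit 199) (nat_lit 1) (nat_lit 204) (nat_lit 1) (nat_lit 368) (nat_lit 426) (nat_lit 346))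 (XT.nd (nat_lit 78) (nat_lit 0) (nat_lit 0) (XT.lf (nat_lit 532) (nat_lit 4149927630) (nat_lit 0) (nat_lit 419119749) (nat_lit 456) (nat_lit 419119749) (nat_lit 199) (nat_lit 1) (nat_lit 192) (nat_lit 1) (nat_lit 198) (nat_lit 1) (nat_lit 369) (nat_lit 426) (nat_lit 345)) (XT.lf (nat_lit 76) (nat_lit 1507387783) (nat_lit 0) (nat_lit 1935025771) (nat_lit 532) (nat_lit 1507387783) (nat_lit 193) (nat_lit 1) (nat_lit 192) (nat_lit 1) (nat_lit 199) (nat_lit 1) (nat_lit 370) (nat_lit 426) (nat_lit 344))))))) (XT.nd (nat_lit 702) (nat_lit 1748) (nat_lit 0) (XT.nd (nat_lit 312) (nat_lit 1140) (nat_lit 0) (XT.nd (nat_lit 156) (nat_lit 836) (nat_lit 0) (XT.nd (nat_lit 78) (nat_lit 0) (nat_lit 0) (XT.lf (nat_lit 456) (nat_lit 1889150954) (nat_lit 0) (nat_lit 1511393624) (nat_lit 380) (nat_lit 1511393624) (nat_lit 193) (nat_lit 1) (nat_lit 187) (nat_lit 1) (nat_lit 192) (nat_lit 1) (nat_lit 371) (nat_lit 426) (nat_lit 343)) (XT.lf (nat_lit 76) (nat_lit 386543240) (nat_lit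 0) (nat_lit 4101485688) (nat_lit 456) (nat_lit 386543240) (nat_lit 188) (nat_lit 1) (nat_lit 187) (nat_lit 1) (nat_lit 193) (nat_lit 1) (nat_lit 372) (nat_lit 426) (nat_lit 342))) (XT.nd (nat_lit 78) (nat_lit 380) (nat_lit 0) (XT.lf (nat_lit 76) (nat_lit 2246925891) (nat_lit 0) (nat_lit 343512732) (nat_lit 456) (nat_lit 2246925891) (nat_lit 182) (nat_lit 1) (nat_lit 181) (nat_lit 1) (nat_lit 187) (nat_lit 1) (nat_lit 373) (nat_lit 426) (nat_lit 341)) (XT.lf (nat_lit 456) (nat_lit 3365197498) (nat_lit 0) (nat_lit 717723557) (nat_lit 380) (nat_lit 717723557) (nat_lit 182) (nat_lit 1) (nat_lit 176) (nat_lit 1) (nat_lit 181) (nat_lit 1) (nat_lit 374) (nat_lit 426) (nat_lit 340)))) (XT.nd (nat_lit 156) (nat_lit 760) (nat_lit 0) (XT.nd (nat_lit 78) (nat_lit 380) (nat_lit 0) (XT.lf (nat_lit 76) (nat_lit 1118193806) (nat_lit 0) (nat_lit 2527820112) (nat_lit 456) (nat_lit 1118193806) (nat_lit 177) (nat_lit 1) (nat_lit 176) (nat_lit 1) (nat_lit 182) (nat_lit 1) (nat_lit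 375) (nat_lit 426) (nat_lit 339)) (XT.lf (nat_lit 456) (nat_lit 1113080859) (nat_lit 0) (nat_lit 1807539170) (nat_lit 380) (nat_lit 1807539170) (nat_lit 177) (nat_lit 1) (nat_lit 171) (nat_lit 1) (nat_lit 176) (nat_lit 1) (nat_lit 376) (nat_lit 426) (nat_lit 338))) (XT.nd (nat_lit 78) (nat_lit 760) (nat_lit 0) (XT.lf (nat_lit 76) (nat_lit 2214166) (nat_lit 0) (nat_lit 4688244640) (nat_lit 456) (nat_lit 2214166) (nat_lit 172) (nat_lit 1) (nat_lit 171) (nat_lit 1) (nat_lit 177) (nat_lit 1) (nat_lit 377) (nat_lit 426) (nat_lit 337)) (XT.nd (nat_lit 78) (nat_lit 380) (nat_lit 0) (XT.lf (nat_lit 76) (nat_lit 1779202549) (nat_lit 0) (nat_lit 1098728106) (nat_lit 380) (nat_lit 1779202549) (nat_lit 167) (nat_lit 1) (nat_lit 166) (nat_lit 1) (nat_lit 171) (nat_lit 1) (nat_lit 378) (nat_lit 426) (nat_lit 336)) (XT.lf (nat_lit 456) (nat_lit 2434835226) (nat_lit 0) (nat_lit 1093656102) (nat_lit 380) (nat_lit 1093656102) (nat_lit 167) (nat_lit 1) (nat_lit 161) (nat_lit 1)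 (nat_lit 166) (nat_lit 1) (nat_lit 379) (nat_lit 426) (nat_lit 335)))))) (XT.nd (nat_lit 312) (nat_lit 988) (nat_lit 0) (XT.nd (nat_lit 156) (nat_lit 456) (nat_lit 0) (XT.nd (nat_lit 78) (nat_lit 304) (nat_lit 0) (XT.lf (nat_lit 76) (nat_lit 658585699) (nat_lit 0) (nat_lit 3270360080) (nat_lit 456) (nat_lit 658585699) (nat_lit 162) (nat_lit 1) (nat_lit 161) (nat_lit 1) (nat_lit 167) (nat_lit 1) (nat_lit 380) (nat_lit 426) (nat_lit 334)) (XT.lf (nat_lit 380) (nat_lit 199907020) (nat_lit 0) (nat_lit 2176632689) (nat_lit 304) (nat_lit 2176632689) (nat_lit 162) (nat_lit 1) (nat_lit 157) (nat_lit 1) (nat_lit 161) (nat_lit 1) (nat_lit 381) (nat_lit 426) (nat_lit 333))) (XT.nd (nat_lit 78) (nat_lit 0) (nat_lit 0) (XT.lf (nat_lit 456) (nat_lit 3628353117) (nat_lit 0) (nat_lit 445437135) (nat_lit 380) (nat_lit 445437135) (nat_lit 157) (nat_lit 1) (nat_lit 151) (nat_lit 1) (nat_lit 156) (nat_lit 1) (nat_lit 382) (nat_lit 426) (nat_lit 332)) (XT.lf (nat_lit 76) (nat_lit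 1252098201) (nat_lit 0) (nat_lit 1981254959) (nat_lit 456) (nat_lit 1252098201) (nat_lit 152) (nat_lit 1) (nat_lit 151) (nat_lit 1) (nat_lit 157) (nat_lit 1) (nat_lit 383) (nat_lit 426) (nat_lit 331)))) (XT.nd (nat_lit 156) (nat_lit 684) (nat_lit 0) (XT.nd (nat_lit 78) (nat_lit 0) (nat_lit 0) (XT.lf (nat_lit 380) (nat_lit 1389047404) (nat_lit 0) (nat_lit 1531517314) (nat_lit 304) (nat_lit 1531517314) (nat_lit 152) (nat_lit 1) (nat_lit 147) (nat_lit 1) (nat_lit 151) (nat_lit 1) (nat_lit 384) (nat_lit 426) (nat_lit 330)) (XT.lf (nat_lit 76) (nat_lit 143282541) (nat_lit 0) (nat_lit 4132621547) (nat_lit 380) (nat_lit 143282541) (nat_lit 148) (nat_lit 1) (nat_lit 147) (nat_lit 1) (nat_lit 152) (nat_lit 1) (nat_lit 385) (nat_lit 426) (nat_lit 329))) (XT.nd (nat_lit 78) (nat_lit 304) (nat_lit 0) (XT.lf (nat_lit 76) (nat_lit 1787791093) (nat_lit 0) (nat_lit 810714271) (nat_lit 380) (nat_lit 1787791093) (nat_lit 143) (nat_lit 1) (nat_lit 142) (nat_lit 1) (nat_lit 147)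 (nat_lit 1) (nat_lit 386) (nat_lit 426) (nat_lit 328)) (XT.nd (nat_lit 78) (nat_lit 0) (nat_lit 0) (XT.lf (nat_lit 380) (nat_lit 2464014323) (nat_lit 0) (nat_lit 944929539) (nat_lit 304) (nat_lit 944929539) (nat_lit 143) (nat_lit 1) (nat_lit 138) (nat_lit 1) (nat_lit 142) (nat_lit 1) (nat_lit 387) (nat_lit 426) (nat_lit 327)) (XT.lf (nat_lit 76) (nat_lit 678961966) (nat_lit 0) (nat_lit 2963842201) (nat_lit 380) (nat_lit 678961966) (nat_lit 139) (nat_lit 1) (nat_lit 138) (nat_lit 1) (nat_lit 143) (nat_lit 1) (nat_lit 388) (nat_lit 426) (nat_lit 326))))))))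
noncomputable def ec119 : XT := (XT.nd (nat_lit 55380) (nat_lit 0) (nat_lit 8968) (XT.nd (nat_lit 54678) (nat_lit 0) (nat_lit 14896) (XT.nd (nat_lit 54288) (nat_lit 0) (nat_lit 18468) (XT.nd (nat_lit 156) (nat_lit 304) (nat_lit 0) (XT.nd (nat_lit 78) (nat_lit 380) (nat_lit 0) (XT.lf (nat_lit 380) (nat_lit 254022626) (nat_lit 0) (nat_lit 2017941729) (nat_lit 304) (nat_lit 2017941729) (nat_lit 139) (nat_lit 1) (nat_lit 134) (nat_lit 1) (nat_lit 138) (nat_lit 1) (nat_lit 389) (nat_lit 426) (nat_lit 325)) (XT.lf (nat_lit 380) (nat_lit 3433965649) (nat_lit 0) (nat_lit 412227926) (nat_lit 304) (nat_lit 412227926) (nat_lit 134) (nat_lit 1) (nat_lit 129) (nat_lit 1) (nat_lit 133) (nat_lit 1) (nat_lit 390) (nat_lit 426) (nat_lit 324))) (XT.nd (nat_lit 78) (nat_lit 304) (nat_lit 0) (XT.lf (nat_lit 76) (nat_lit 1163129481) (nat_lit 0) (nat_lit 1900817048) (nat_lit 380) (nat_lit 1163129481) (nat_lit 130) (nat_lit 1) (nat_lit 129) (nat_lit 1) (nat_lit 134) (nat_lit 1) (nat_lit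 391) (nat_lit 426) (nat_lit 323)) (XT.lf (nat_lit 380) (nat_lit 1227766639) (nat_lit 0) (nat_lit 1484166648) (nat_lit 304) (nat_lit 1484166648) (nat_lit 130) (nat_lit 1) (nat_lit 125) (nat_lit 1) (nat_lit 129) (nat_lit 1) (nat_lit 392) (nat_lit 426) (nat_lit 322)))) (XT.nd (nat_lit 156) (nat_lit 1596) (nat_lit 0) (XT.nd (nat_lit 78) (nat_lit 760) (nat_lit 0) (XT.lf (nat_lit 76) (nat_lit 1216971598) (nat_lit 0) (nat_lit 4796562850) (nat_lit 912) (nat_lit 1216971598) (nat_lit 400) (nat_lit 1) (nat_lit 399) (nat_lit 1) (nat_lit 411) (nat_lit 1) (nat_lit 324) (nat_lit 427) (nat_lit 389)) (XT.lf (nat_lit 836) (nat_lit 1536525657) (nat_lit 0) (nat_lit 2815638271) (nat_lit 760) (nat_lit 2815638271) (nat_lit 400) (nat_lit 1) (nat_lit 389) (nat_lit 1) (nat_lit 399) (nat_lit 1) (nat_lit 325) (nat_lit 427) (nat_lit 388))) (XT.nd (nat_lit 78) (nat_lit 1596) (nat_lit 0) (XT.lf (nat_lit 76) (nat_lit 323264436) (nat_lit 0) (nat_lit 6459599445) (nat_lit 836) (nat_lit 323264436)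 (nat_lit 390) (nat_lit 1) (nat_lit 389) (nat_lit 1) (nat_lit 400) (nat_lit 1) (nat_lit 326) (nat_lit 427) (nat_lit 387)) (XT.nd (nat_lit 78) (nat_lit 760) (nat_lit 0) (XT.lf (nat_lit 76) (nat_lit 3389901417) (nat_lit 0) (nat_lit 264992744) (nat_lit 836) (nat_lit 3389901417) (nat_lit 379) (nat_lit 1) (nat_lit 378) (nat_lit 1) (nat_lit 389) (nat_lit 1) (nat_lit 327) (nat_lit 427) (nat_lit 386)) (XT.lf (nat_lit 836) (nat_lit 5828285590) (nat_lit 0) (nat_lit 578090250) (nat_lit 760) (nat_lit 578090250) (nat_lit 379) (nat_lit 1) (nat_lit 368) (nat_lit 1) (nat_lit 378) (nat_lit 1) (nat_lit 328) (nat_lit 427) (nat_lit 385)))))) (XT.nd (nat_lit 312) (nat_lit 2128) (nat_lit 0) (XT.nd (nat_lit 156) (nat_lit 684) (nat_lit 0) (XT.nd (nat_lit 78) (nat_lit 760) (nat_lit 0) (XT.lf (nat_lit 76) (nat_lit 2428413814) (nat_lit 0) (nat_lit 2067735082) (nat_lit 836) (nat_lit 2428413814) (nat_lit 369) (nat_lit 1) (nat_lit 368) (nat_lit 1) (nat_lit 379) (nat_lit 1) (nat_lit 329) (nat_lit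 427) (nat_lit 384)) (XT.lf (nat_lit 836) (nat_lit 3890814342) (nat_lit 0) (nat_lit 1487376415) (nat_lit 760) (nat_lit 1487376415) (nat_lit 369) (nat_lit 1) (nat_lit 358) (nat_lit 1) (nat_lit 368) (nat_lit 1) (nat_lit 330) (nat_lit 427) (nat_lit 383))) (XT.nd (nat_lit 78) (nat_lit 684) (nat_lit 0) (XT.lf (nat_lit 76) (nat_lit 1458987755) (nat_lit 0) (nat_lit 3889247663) (nat_lit 836) (nat_lit 1458987755) (nat_lit 359) (nat_lit 1) (nat_lit 358) (nat_lit 1) (nat_lit 369) (nat_lit 1) (nat_lit 331) (nat_lit 427) (nat_lit 382)) (XT.lf (nat_lit 760) (nat_lit 1938624793) (nat_lit 0) (nat_lit 2405448336) (nat_lit 684) (nat_lit 2405448336) (nat_lit 359) (nat_lit 1) (nat_lit 349) (nat_lit 1) (nat_lit 358) (nat_lit 1) (nat_lit 332) (nat_lit 427) (nat_lit 381)))) (XT.nd (nat_lit 156) (nat_lit 1368) (nat_lit 0) (XT.nd (nat_lit 78) (nat_lit 760) (nat_lit 0) (XT.lf (nat_lit 76) (nat_lit 482819228) (nat_lit 0) (nat_lit 5727060970) (nat_lit 760) (nat_lit 482819228) (nat_lit 350)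 (nat_lit 1) (nat_lit 349) (nat_lit 1) (nat_lit 359) (nat_lit 1) (nat_lit 333) (nat_lit 427) (nat_lit 380)) (XT.lf (nat_lit 76) (nat_lit 3305320977) (nat_lit 0) (nat_lit 25607438) (nat_lit 760) (nat_lit 3305320977) (nat_lit 340) (nat_lit 1) (nat_lit 339) (nat_lit 1) (nat_lit 349) (nat_lit 1) (nat_lit 334) (nat_lit 427) (nat_lit 379))) (XT.nd (nat_lit 78) (nat_lit 684) (nat_lit 0) (XT.lf (nat_lit 760) (nat_lit 5589302239) (nat_lit 0) (nat_lit 495676994) (nat_lit 684) (nat_lit 495676994) (nat_lit 340) (nat_lit 1) (nat_lit 330) (nat_lit 1) (nat_lit 339) (nat_lit 1) (nat_lit 335) (nat_lit 427) (nat_lit 378)) (XT.nd (nat_lit 78) (nat_lit 684) (nat_lit 0) (XT.lf (nat_lit 76) (nat_lit 2275486773) (nat_lit 0) (nat_lit 1974453789) (nat_lit 760) (nat_lit 2275486773) (nat_lit 331) (nat_lit 1) (nat_lit 330) (nat_lit 1) (nat_lit 340) (nat_lit 1) (nat_lit 336) (nat_lit 427) (nat_lit 377)) (XT.lf (nat_lit 760) (nat_lit 3520014412) (nat_lit 0) (nat_lit 1475506124) (nat_lit 684)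 (nat_lit 1475506124) (nat_lit 331) (nat_lit 1) (nat_lit 321) (nat_lit 1) (nat_lit 330) (nat_lit 1) (nat_lit 337) (nat_lit 427) (nat_lit 376))))))) (XT.nd (nat_lit 702) (nat_lit 2888) (nat_lit 0) (XT.nd (nat_lit 312) (nat_lit 1748) (nat_lit 0) (XT.nd (nat_lit 156) (nat_lit 684) (nat_lit 0) (XT.nd (nat_lit 78) (nat_lit 608) (nat_lit 0) (XT.lf (nat_lit 76) (nat_lit 1242979404) (nat_lit 0) (nat_lit 3931276771) (nat_lit 760) (nat_lit 1242979404) (nat_lit 322) (nat_lit 1) (nat_lit 321) (nat_lit 1) (nat_lit 331) (nat_lit 1) (nat_lit 338) (nat_lit 427) (nat_lit 375)) (XT.lf (nat_lit 684) (nat_lit 1446315142) (nat_lit 0) (nat_lit 2458838476) (nat_lit 608) (nat_lit 2458838476) (nat_lit 322) (nat_lit 1) (nat_lit 313) (nat_lit 1) (nat_lit 321) (nat_lit 1) (nat_lit 339) (nat_lit 427) (nat_lit 374))) (XT.nd (nat_lit 78) (nat_lit 684) (nat_lit 0) (XT.lf (nat_lit 76) (nat_lit 208739200) (nat_lit 0) (nat_lit 5894126392) (nat_lit 684) (nat_lit 208739200) (nat_lit 314) (nat_lit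 1) (nat_lit 313) (nat_lit 1) (nat_lit 322) (nat_lit 1) (nat_lit 340) (nat_lit 427) (nat_lit 373)) (XT.lf (nat_lit 76) (nat_lit 2818851200) (nat_lit 0) (nat_lit 621700151) (nat_lit 684) (nat_lit 2818851200) (nat_lit 305) (nat_lit 1) (nat_lit 304) (nat_lit 1) (nat_lit 313) (nat_lit 1) (nat_lit 341) (nat_lit 427) (nat_lit 372)))) (XT.nd (nat_lit 156) (nat_lit 1140) (nat_lit 0) (XT.nd (nat_lit 78) (nat_lit 0) (nat_lit 0) (XT.lf (nat_lit 684) (nat_lit 4566217160) (nat_lit 0) (nat_lit 820909936) (nat_lit 608) (nat_lit 820909936) (nat_lit 305) (nat_lit 1) (nat_lit 296) (nat_lit 1) (nat_lit 304) (nat_lit 1) (nat_lit 342) (nat_lit 427) (nat_lit 371)) (XT.lf (nat_lit 76) (nat_lit 1742750793) (nat_lit 0) (nat_lit 2671584158) (nat_lit 684) (nat_lit 1742750793) (nat_lit 297) (nat_lit 1) (nat_lit 296) (nat_lit 1) (nat_lit 305) (nat_lit 1) (nat_lit 343) (nat_lit 427) (nat_lit 370))) (XT.nd (nat_lit 78) (nat_lit 532) (nat_lit 0) (XT.lf (nat_lit 684) (nat_lit 2408400302) (nat_lit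 0) (nat_lit 1849194283) (nat_lit 608) (nat_lit 1849194283) (nat_lit 297) (nat_lit 1) (nat_lit 288) (nat_lit 1) (nat_lit 296) (nat_lit 1) (nat_lit 344) (nat_lit 427) (nat_lit 369)) (XT.nd (nat_lit 78) (nat_lit 532) (nat_lit 0) (XT.lf (nat_lit 76) (nat_lit 668234490) (nat_lit 0) (nat_lit 4720696488) (nat_lit 684) (nat_lit 668234490) (nat_lit 289) (nat_lit 1) (nat_lit 288) (nat_lit 1) (nat_lit 297) (nat_lit 1) (nat_lit 345) (nat_lit 427) (nat_lit 368)) (XT.lf (nat_lit 608) (nat_lit 254498705) (nat_lit 0) (nat_lit 2876703702) (nat_lit 532) (nat_lit 2876703702) (nat_lit 289) (nat_lit 1) (nat_lit 281) (nat_lit 1) (nat_lit 288) (nat_lit 1) (nat_lit 346) (nat_lit 427) (nat_lit 367)))))) (XT.nd (nat_lit 312) (nat_lit 1672) (nat_lit 0) (XT.nd (nat_lit 156) (nat_lit 532) (nat_lit 0) (XT.nd (nat_lit 78) (nat_lit 0) (nat_lit 0) (XT.lf (nat_lit 684) (nat_lit 5156742561) (nat_lit 0) (nat_lit 401313240) (nat_lit 608) (nat_lit 401313240) (nat_lit 281) (nat_lit 1) (nat_lit 272)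 (nat_lit 1) (nat_lit 280) (nat_lit 1) (nat_lit 347) (nat_lit 427) (nat_lit 366)) (XT.lf (nat_lit 76) (nat_lit 2020924648) (nat_lit 0) (nat_lit 1869232365) (nat_lit 684) (nat_lit 2020924648) (nat_lit 273) (nat_lit 1) (nat_lit 272) (nat_lit 1) (nat_lit 281) (nat_lit 1) (nat_lit 348) (nat_lit 427) (nat_lit 365))) (XT.nd (nat_lit 78) (nat_lit 0) (nat_lit 0) (XT.lf (nat_lit 608) (nat_lit 2936519102) (nat_lit 0) (nat_lit 1463490430) (nat_lit 532) (nat_lit 1463490430) (nat_lit 273) (nat_lit 1) (nat_lit 265) (nat_lit 1) (nat_lit 272) (nat_lit 1) (nat_lit 349) (nat_lit 427) (nat_lit 364)) (XT.lf (nat_lit 76) (nat_lit 916707451) (nat_lit 0) (nat_lit 3983055021) (nat_lit 608) (nat_lit 916707451) (nat_lit 266) (nat_lit 1) (nat_lit 265) (nat_lit 1) (nat_lit 273) (nat_lit 1) (nat_lit 350) (nat_lit 427) (nat_lit 363)))) (XT.nd (nat_lit 156) (nat_lit 532) (nat_lit 0) (XT.nd (nat_lit 78) (nat_lit 608) (nat_lit 0) (XT.lf (nat_lit 608) (nat_lit 725735888) (nat_lit 0) (nat_lit 2522056172)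 (nat_lit 532) (nat_lit 2522056172) (nat_lit 266) (nat_lit 1) (nat_lit 258) (nat_lit 1) (nat_lit 265) (nat_lit 1) (nat_lit 351) (nat_lit 427) (nat_lit 362)) (XT.lf (nat_lit 608) (nat_lit 5361322719) (nat_lit 0) (nat_lit 181314306) (nat_lit 532) (nat_lit 181314306) (nat_lit 258) (nat_lit 1) (nat_lit 250) (nat_lit 1) (nat_lit 257) (nat_lit 1) (nat_lit 352) (nat_lit 427) (nat_lit 361))) (XT.nd (nat_lit 78) (nat_lit 532) (nat_lit 0) (XT.lf (nat_lit 76) (nat_lit 2111517711) (nat_lit 0) (nat_lit 1455130372) (nat_lit 608) (nat_lit 2111517711) (nat_lit 251) (nat_lit 1) (nat_lit 250) (nat_lit 1) (nat_lit 258) (nat_lit 1) (nat_lit 353) (nat_lit 427) (nat_lit 360)) (XT.nd (nat_lit 78) (nat_lit 0) (nat_lit 0) (XT.lf (nat_lit 608) (nat_lit 3097494260) (nat_lit 0) (nat_lit 1267798022) (nat_lit 532) (nat_lit 1267798022) (nat_lit 251) (nat_lit 1) (nat_lit 243) (nat_lit 1) (nat_lit 250) (nat_lit 1) (nat_lit 354) (nat_lit 427) (nat_lit 359)) (XT.lf (nat_lit 76) (nat_lit 986754662)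 (nat_lit 0) (nat_lit 3614987101) (nat_lit 608) (nat_lit 986754662) (nat_lit 244) (nat_lit 1) (nat_lit 243) (nat_lit 1) (nat_lit 251) (nat_lit 1) (nat_lit 355) (nat_lit 427) (nat_lit 358))))))))
noncomputable def ec120 : XT := (XT.nd (nat_lit 1404) (nat_lit 3572) (nat_lit 0) (XT.nd (nat_lit 702) (nat_lit 2128) (nat_lit 0) (XT.nd (nat_lit 312) (nat_lit 1444) (nat_lit 0) (XT.nd (nat_lit 156) (nat_lit 456) (nat_lit 0) (XT.nd (nat_lit 78) (nat_lit 608) (nat_lit 0) (XT.lf (nat_lit 532) (nat_lit 847780500) (nat_lit 0) (nat_lit 2348265054) (nat_lit 456) (nat_lit 2348265054) (nat_lit 244) (nat_lit 1) (nat_lit 237) (nat_lit 1) (nat_lit 243) (nat_lit 1) (nat_lit 356) (nat_lit 427) (nat_lit 357)) (XT.lf (nat_lit 608) (nat_lit 5241043630) (nat_lit 0) (nat_lit 129884662) (nat_lit 532) (nat_lit 129884662) (nat_lit 237) (nat_lit 1) (nat_lit 229) (nat_lit 1) (nat_lit 236) (nat_lit 1) (nat_lit 357) (nat_lit 427) (nat_lit 356))) (XT.nd (nat_lit 78) (nat_lit 456) (nat_lit 0) (XT.lf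 (nat_lit 76) (nat_lit 2044324830) (nat_lit 0) (nat_lit 1368730038) (nat_lit 608) (nat_lit 2044324830) (nat_lit 230) (nat_lit 1) (nat_lit 229) (nat_lit 1) (nat_lit 237) (nat_lit 1) (nat_lit 358) (nat_lit 427) (nat_lit 355)) (XT.lf (nat_lit 532) (nat_lit 2949846848) (nat_lit 0) (nat_lit 1232387332) (nat_lit 456) (nat_lit 1232387332) (nat_lit 230) (nat_lit 1) (nat_lit 223) (nat_lit 1) (nat_lit 229) (nat_lit 1) (nat_lit 359) (nat_lit 427) (nat_lit 354)))) (XT.nd (nat_lit 156) (nat_lit 988) (nat_lit 0) (XT.nd (nat_lit 78) (nat_lit 456) (nat_lit 0) (XT.lf (nat_lit 76) (nat_lit 906919046) (nat_lit 0) (nat_lit 3558480580) (nat_lit 532) (nat_lit 906919046) (nat_lit 224) (nat_lit 1) (nat_lit 223) (nat_lit 1) (nat_lit 230) (nat_lit 1) (nat_lit 360) (nat_lit 427) (nat_lit 353)) (XT.lf (nat_lit 532) (nat_lit 676692964) (nat_lit 0) (nat_lit 2326846649) (nat_lit 456) (nat_lit 2326846649) (nat_lit 224) (nat_lit 1) (nat_lit 217) (nat_lit 1) (nat_lit 223) (nat_lit 1) (nat_lit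 361) (nat_lit 427) (nat_lit 352))) (XT.nd (nat_lit 78) (nat_lit 456) (nat_lit 0) (XT.lf (nat_lit 532) (nat_lit 4849348313) (nat_lit 0) (nat_lit 219862264) (nat_lit 456) (nat_lit 219862264) (nat_lit 217) (nat_lit 1) (nat_lit 210) (nat_lit 1) (nat_lit 216) (nat_lit 1) (nat_lit 362) (nat_lit 427) (nat_lit 351)) (XT.nd (nat_lit 78) (nat_lit 456) (nat_lit 0) (XT.lf (nat_lit 76) (nat_lit 1845408950) (nat_lit 0) (nat_lit 1557035738) (nat_lit 532) (nat_lit 1845408950) (nat_lit 211) (nat_lit 1) (nat_lit 210) (nat_lit 1) (nat_lit 217) (nat_lit 1) (nat_lit 363) (nat_lit 427) (nat_lit 350)) (XT.lf (nat_lit 532) (nat_lit 2544760114) (nat_lit 0) (nat_lit 1331240842) (nat_lit 456) (nat_lit 1331240842) (nat_lit 211) (nat_lit 1) (nat_lit 204) (nat_lit 1) (nat_lit 210) (nat_lit 1) (nat_lit 364) (nat_lit 427) (nat_lit 349)))))) (XT.nd (nat_lit 312) (nat_lit 1216) (nat_lit 0) (XT.nd (nat_lit 156) (nat_lit 532) (nat_lit 0) (XT.nd (nat_lit 78) (nat_lit 380) (nat_lit 0) (XT.lf (nat_lit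 76) (nat_lit 702160666) (nat_lit 0) (nat_lit 3762774491) (nat_lit 532) (nat_lit 702160666) (nat_lit 205) (nat_lit 1) (nat_lit 204) (nat_lit 1) (nat_lit 211) (nat_lit 1) (nat_lit 365) (nat_lit 427) (nat_lit 348)) (XT.lf (nat_lit 456) (nat_lit 261489001) (nat_lit 0) (nat_lit 2432881315) (nat_lit 380) (nat_lit 2432881315) (nat_lit 205) (nat_lit 1) (nat_lit 199) (nat_lit 1) (nat_lit 204) (nat_lit 1) (nat_lit 366) (nat_lit 427) (nat_lit 347))) (XT.nd (nat_lit 78) (nat_lit 0) (nat_lit 0) (XT.lf (nat_lit 532) (nat_lit 4232926182) (nat_lit 0) (nat_lit 427502144) (nat_lit 456) (nat_lit 427502144) (nat_lit 199) (nat_lit 1) (nat_lit 192) (nat_lit 1) (nat_lit 198) (nat_lit 1) (nat_lit 367) (nat_lit 427) (nat_lit 346)) (XT.lf (nat_lit 76) (nat_lit 1537535539) (nat_lit 0) (nat_lit 1973726287) (nat_lit 532) (nat_lit 1537535539) (nat_lit 193) (nat_lit 1) (nat_lit 192) (nat_lit 1) (nat_lit 199) (nat_lit 1) (nat_lit 368) (nat_lit 427) (nat_lit 345)))) (XT.nd (nat_lit 156) (nat_lit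 836) (nat_lit 0) (XT.nd (nat_lit 78) (nat_lit 0) (nat_lit 0) (XT.lf (nat_lit 456) (nat_lit 1926933974) (nat_lit 0) (nat_lit 1541621496) (nat_lit 380) (nat_lit 1541621496) (nat_lit 193) (nat_lit 1) (nat_lit 187) (nat_lit 1) (nat_lit 192) (nat_lit 1) (nat_lit 369) (nat_lit 427) (nat_lit 344)) (XT.lf (nat_lit 76) (nat_lit 394274104) (nat_lit 0) (nat_lit 4183515402) (nat_lit 456) (nat_lit 394274104) (nat_lit 188) (nat_lit 1) (nat_lit 187) (nat_lit 1) (nat_lit 193) (nat_lit 1) (nat_lit 370) (nat_lit 427) (nat_lit 343))) (XT.nd (nat_lit 78) (nat_lit 380) (nat_lit 0) (XT.lf (nat_lit 76) (nat_lit 2291864409) (nat_lit 0) (nat_lit 350382987) (nat_lit 456) (nat_lit 2291864409) (nat_lit 182) (nat_lit 1) (nat_lit 181) (nat_lit 1) (nat_lit 187) (nat_lit 1) (nat_lit 371) (nat_lit 427) (nat_lit 342)) (XT.nd (nat_lit 78) (nat_lit 0) (nat_lit 0) (XT.lf (nat_lit 456) (nat_lit 3432501448) (nat_lit 0) (nat_lit 732078028) (nat_lit 380) (nat_lit 732078028) (nat_lit 182) (nat_lit 1)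 (nat_lit 176) (nat_lit 1) (nat_lit 181) (nat_lit 1) (nat_lit 372) (nat_lit 427) (nat_lit 341)) (XT.lf (nat_lit 76) (nat_lit 1140557682) (nat_lit 0) (nat_lit 2578376514) (nat_lit 456) (nat_lit 1140557682) (nat_lit 177) (nat_lit 1) (nat_lit 176) (nat_lit 1) (nat_lit 182) (nat_lit 1) (nat_lit 373) (nat_lit 427) (nat_lit 340))))))) (XT.nd (nat_lit 702) (nat_lit 1368) (nat_lit 0) (XT.nd (nat_lit 312) (nat_lit 1064) (nat_lit 0) (XT.nd (nat_lit 156) (nat_lit 760) (nat_lit 0) (XT.nd (nat_lit 78) (nat_lit 0) (nat_lit 0) (XT.lf (nat_lit 456) (nat_lit 1135342477) (nat_lit 0) (nat_lit 1843689954) (nat_lit 380) (nat_lit 1843689954) (nat_lit 177) (nat_lit 1) (nat_lit 171) (nat_lit 1) (nat_lit 176) (nat_lit 1) (nat_lit 374) (nat_lit 427) (nat_lit 339)) (XT.lf (nat_lit 76) (nat_lit 2258449) (nat_lit 0) (nat_lit 4782009533) (nat_lit 456) (nat_lit 2258449) (nat_lit 172) (nat_lit 1) (nat_lit 171) (nat_lit 1) (nat_lit 177) (nat_lit 1) (nat_lit 375) (nat_lit 427) (nat_lit 338)))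 (XT.nd (nat_lit 78) (nat_lit 380) (nat_lit 0) (XT.lf (nat_lit 76) (nat_lit 1814786600) (nat_lit 0) (nat_lit 1120702668) (nat_lit 380) (nat_lit 1814786600) (nat_lit 167) (nat_lit 1) (nat_lit 166) (nat_lit 1) (nat_lit 171) (nat_lit 1) (nat_lit 376) (nat_lit 427) (nat_lit 337)) (XT.lf (nat_lit 456) (nat_lit 2483531930) (nat_lit 0) (nat_lit 1115529224) (nat_lit 380) (nat_lit 1115529224) (nat_lit 167) (nat_lit 1) (nat_lit 161) (nat_lit 1) (nat_lit 166) (nat_lit 1) (nat_lit 377) (nat_lit 427) (nat_lit 336)))) (XT.nd (nat_lit 156) (nat_lit 760) (nat_lit 0) (XT.nd (nat_lit 78) (nat_lit 304) (nat_lit 0) (XT.lf (nat_lit 76) (nat_lit 671757413) (nat_lit 0) (nat_lit 3335767282) (nat_lit 456) (nat_lit 671757413) (nat_lit 162) (nat_lit 1) (nat_lit 161) (nat_lit 1) (nat_lit 167) (nat_lit 1) (nat_lit 378) (nat_lit 427) (nat_lit 335)) (XT.lf (nat_lit 380) (nat_lit 203905160) (nat_lit 0) (nat_lit 2220165342) (nat_lit 304) (nat_lit 2220165342) (nat_lit 162) (nat_lit 1) (nat_lit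 157) (nat_lit 1) (nat_lit 161) (nat_lit 1) (nat_lit 379) (nat_lit 427) (nat_lit 334))) (XT.nd (nat_lit 78) (nat_lit 304) (nat_lit 0) (XT.lf (nat_lit 456) (nat_lit 3700920179) (nat_lit 0) (nat_lit 454345877) (nat_lit 380) (nat_lit 454345877) (nat_lit 157) (nat_lit 1) (nat_lit 151) (nat_lit 1) (nat_lit 156) (nat_lit 1) (nat_lit 380) (nat_lit 427) (nat_lit 333)) (XT.nd (nat_lit 78) (nat_lit 304) (nat_lit 0) (XT.lf (nat_lit 76) (nat_lit 1277140165) (nat_lit 0) (nat_lit 2020880059) (nat_lit 456) (nat_lit 1277140165) (nat_lit 152) (nat_lit 1) (nat_lit 151) (nat_lit 1) (nat_lit 157) (nat_lit 1) (nat_lit 381) (nat_lit 427) (nat_lit 332)) (XT.lf (nat_lit 380) (nat_lit 1416828352) (nat_lit 0) (nat_lit 1562147660) (nat_lit 304) (nat_lit 1562147660) (nat_lit 152) (nat_lit 1) (nat_lit 147) (nat_lit 1) (nat_lit 151) (nat_lit 1) (nat_lit 382) (nat_lit 427) (nat_lit 331)))))) (XT.nd (nat_lit 312) (nat_lit 684) (nat_lit 0) (XT.nd (nat_lit 156) (nat_lit 304) (nat_lit 0) (XT.nd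 (nat_lit 78) (nat_lit 380) (nat_lit 0) (XT.lf (nat_lit 76) (nat_lit 146148192) (nat_lit 0) (nat_lit 4215273978) (nat_lit 380) (nat_lit 146148192) (nat_lit 148) (nat_lit 1) (nat_lit 147) (nat_lit 1) (nat_lit 152) (nat_lit 1) (nat_lit 383) (nat_lit 427) (nat_lit 330)) (XT.lf (nat_lit 76) (nat_lit 1823546915) (nat_lit 0) (nat_lit 826928557) (nat_lit 380) (nat_lit 1823546915) (nat_lit 143) (nat_lit 1) (nat_lit 142) (nat_lit 1) (nat_lit 147) (nat_lit 1) (nat_lit 384) (nat_lit 427) (nat_lit 329))) (XT.nd (nat_lit 78) (nat_lit 0) (nat_lit 0) (XT.lf (nat_lit 380) (nat_lit 2513294610) (nat_lit 0) (nat_lit 963828130) (nat_lit 304) (nat_lit 963828130) (nat_lit 143) (nat_lit 1) (nat_lit 138) (nat_lit 1) (nat_lit 142) (nat_lit 1) (nat_lit 385) (nat_lit 427) (nat_lit 328)) (XT.lf (nat_lit 76) (nat_lit 692541205) (nat_lit 0) (nat_lit 3023119045) (nat_lit 380) (nat_lit 692541205) (nat_lit 139) (nat_lit 1) (nat_lit 138) (nat_lit 1) (nat_lit 143) (nat_lit 1) (nat_lit 386) (nat_lit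 427) (nat_lit 327)))) (XT.nd (nat_lit 156) (nat_lit 0) (nat_lit 0) (XT.nd (nat_lit 78) (nat_lit 380) (nat_lit 0) (XT.lf (nat_lit 380) (nat_lit 259103079) (nat_lit 0) (nat_lit 2058300564) (nat_lit 304) (nat_lit 2058300564) (nat_lit 139) (nat_lit 1) (nat_lit 134) (nat_lit 1) (nat_lit 138) (nat_lit 1) (nat_lit 387) (nat_lit 427) (nat_lit 326)) (XT.lf (nat_lit 380) (nat_lit 3502644962) (nat_lit 0) (nat_lit 420472484) (nat_lit 304) (nat_lit 420472484) (nat_lit 134) (nat_lit 1) (nat_lit 129) (nat_lit 1) (nat_lit 133) (nat_lit 1) (nat_lit 388) (nat_lit 427) (nat_lit 325))) (XT.nd (nat_lit 54444) (nat_lit 0) (nat_lit 18164) (XT.lf (nat_lit 76) (nat_lit 1186392071) (nat_lit 0) (nat_lit 1938833389) (nat_lit 380) (nat_lit 1186392071) (nat_lit 130) (nat_lit 1) (nat_lit 129) (nat_lit 1) (nat_lit 134) (nat_lit 1) (nat_lit 389) (nat_lit 427) (nat_lit 324)) (XT.nd (nat_lit 78) (nat_lit 0) (nat_lit 0) (XT.lf (nat_lit 836) (nat_lit 5944851302) (nat_lit 0) (nat_lit 589652055) (nat_lit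 760) (nat_lit 589652055) (nat_lit 379) (nat_lit 1) (nat_lit 368) (nat_lit 1) (nat_lit 378) (nat_lit 1) (nat_lit 326) (nat_lit 428) (nat_lit 386)) (XT.lf (nat_lit 76) (nat_lit 2476982090) (nat_lit 0) (nat_lit 2109089784) (nat_lit 836) (nat_lit 2476982090) (nat_lit 369) (nat_lit 1) (nat_lit 368) (nat_lit 1) (nat_lit 379) (nat_lit 1) (nat_lit 327) (nat_lit 428) (nat_lit 385))))))))
noncomputable def ec121 : XT := (XT.nd (nat_lit 1404) (nat_lit 5168) (nat_lit 0) (XT.nd (nat_lit 702) (nat_lit 3724) (nat_lit 0) (XT.nd (nat_lit 312) (nat_lit 2128) (nat_lit 0) (XT.nd (nat_lit 156) (nat_lit 684) (nat_lit 0) (XT.nd (nat_lit 78) (nat_lit 0) (nat_lit 0) (XT.lf (nat_lit 836) (nat_lit 3968630629) (nat_lit 0) (nat_lit 1517123943) (nat_lit 760) (nat_lit 1517123943) (nat_lit 369) (nat_lit 1) (nat_lit 358) (nat_lit 1) (nat_lit 368) (nat_lit 1) (nat_lit 328) (nat_lit 428) (nat_lit 384)) (XT.lf (nat_lit 76) (nat_lit 1488167510) (nat_lit 0) (nat_lit 3967032617) (nat_lit 836) (nat_lit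 1488167510) (nat_lit 359) (nat_lit 1) (nat_lit 358) (nat_lit 1) (nat_lit 369) (nat_lit 1) (nat_lit 329) (nat_lit 428) (nat_lit 383))) (XT.nd (nat_lit 78) (nat_lit 0) (nat_lit 0) (XT.lf (nat_lit 760) (nat_lit 1977397289) (nat_lit 0) (nat_lit 2453557303) (nat_lit 684) (nat_lit 2453557303) (nat_lit 359) (nat_lit 1) (nat_lit 349) (nat_lit 1) (nat_lit 358) (nat_lit 1) (nat_lit 330) (nat_lit 428) (nat_lit 382)) (XT.lf (nat_lit 76) (nat_lit 492475613) (nat_lit 0) (nat_lit 5841602190) (nat_lit 760) (nat_lit 492475613) (nat_lit 350) (nat_lit 1) (nat_lit 349) (nat_lit 1) (nat_lit 359) (nat_lit 1) (nat_lit 331) (nat_lit 428) (nat_lit 381)))) (XT.nd (nat_lit 156) (nat_lit 684) (nat_lit 0) (XT.nd (nat_lit 78) (nat_lit 684) (nat_lit 0) (XT.lf (nat_lit 76) (nat_lit 3371427397) (nat_lit 0) (nat_lit 26119586) (nat_lit 760) (nat_lit 3371427397) (nat_lit 340) (nat_lit 1) (nat_lit 339) (nat_lit 1) (nat_lit 349) (nat_lit 1) (nat_lit 332) (nat_lit 428) (nat_lit 380)) (XT.lf (nat_lit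 760) (nat_lit 5701088284) (nat_lit 0) (nat_lit 505590534) (nat_lit 684) (nat_lit 505590534) (nat_lit 340) (nat_lit 1) (nat_lit 330) (nat_lit 1) (nat_lit 339) (nat_lit 1) (nat_lit 333) (nat_lit 428) (nat_lit 379))) (XT.nd (nat_lit 78) (nat_lit 684) (nat_lit 0) (XT.lf (nat_lit 76) (nat_lit 2320996508) (nat_lit 0) (nat_lit 2013942865) (nat_lit 760) (nat_lit 2320996508) (nat_lit 331) (nat_lit 1) (nat_lit 330) (nat_lit 1) (nat_lit 340) (nat_lit 1) (nat_lit 334) (nat_lit 428) (nat_lit 378)) (XT.nd (nat_lit 78) (nat_lit 0) (nat_lit 0) (XT.lf (nat_lit 760) (nat_lit 3590414700) (nat_lit 0) (nat_lit 1505016246) (nat_lit 684) (nat_lit 1505016246) (nat_lit 331) (nat_lit 1) (nat_lit 321) (nat_lit 1) (nat_lit 330) (nat_lit 1) (nat_lit 335) (nat_lit 428) (nat_lit 377)) (XT.lf (nat_lit 76) (nat_lit 1267838992) (nat_lit 0) (nat_lit 4009902306) (nat_lit 760) (nat_lit 1267838992) (nat_lit 322) (nat_lit 1) (nat_lit 321) (nat_lit 1) (nat_lit 331) (nat_lit 1) (nat_lit 336) (nat_lit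 428) (nat_lit 376)))))) (XT.nd (nat_lit 312) (nat_lit 1824) (nat_lit 0) (XT.nd (nat_lit 156) (nat_lit 1292) (nat_lit 0) (XT.nd (nat_lit 78) (nat_lit 0) (nat_lit 0) (XT.lf (nat_lit 684) (nat_lit 1475241445) (nat_lit 0) (nat_lit 2508015246) (nat_lit 608) (nat_lit 2508015246) (nat_lit 322) (nat_lit 1) (nat_lit 313) (nat_lit 1) (nat_lit 321) (nat_lit 1) (nat_lit 337) (nat_lit 428) (nat_lit 375)) (XT.lf (nat_lit 76) (nat_lit 212913984) (nat_lit 0) (nat_lit 6012008920) (nat_lit 684) (nat_lit 212913984) (nat_lit 314) (nat_lit 1) (nat_lit 313) (nat_lit 1) (nat_lit 322) (nat_lit 1) (nat_lit 338) (nat_lit 428) (nat_lit 374))) (XT.nd (nat_lit 78) (nat_lit 608) (nat_lit 0) (XT.lf (nat_lit 76) (nat_lit 2875228224) (nat_lit 0) (nat_lit 634134154) (nat_lit 684) (nat_lit 2875228224) (nat_lit 305) (nat_lit 1) (nat_lit 304) (nat_lit 1) (nat_lit 313) (nat_lit 1) (nat_lit 339) (nat_lit 428) (nat_lit 373)) (XT.lf (nat_lit 684) (nat_lit 4657541503) (nat_lit 0) (nat_lit 837328135)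 (nat_lit 608) (nat_lit 837328135) (nat_lit 305) (nat_lit 1) (nat_lit 296) (nat_lit 1) (nat_lit 304) (nat_lit 1) (nat_lit 340) (nat_lit 428) (nat_lit 372)))) (XT.nd (nat_lit 156) (nat_lit 1216) (nat_lit 0) (XT.nd (nat_lit 78) (nat_lit 608) (nat_lit 0) (XT.lf (nat_lit 76) (nat_lit 1777605809) (nat_lit 0) (nat_lit 2725015842) (nat_lit 684) (nat_lit 1777605809) (nat_lit 297) (nat_lit 1) (nat_lit 296) (nat_lit 1) (nat_lit 305) (nat_lit 1) (nat_lit 341) (nat_lit 428) (nat_lit 371)) (XT.lf (nat_lit 684) (nat_lit 2456568308) (nat_lit 0) (nat_lit 1886178169) (nat_lit 608) (nat_lit 1886178169) (nat_lit 297) (nat_lit 1) (nat_lit 288) (nat_lit 1) (nat_lit 296) (nat_lit 1) (nat_lit 342) (nat_lit 428) (nat_lit 370))) (XT.nd (nat_lit 78) (nat_lit 1216) (nat_lit 0) (XT.lf (nat_lit 76) (nat_lit 681599179) (nat_lit 0) (nat_lit 4815110418) (nat_lit 684) (nat_lit 681599179) (nat_lit 289) (nat_lit 1) (nat_lit 288) (nat_lit 1) (nat_lit 297) (nat_lit 1) (nat_lit 343) (nat_lit 428)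 (nat_lit 369)) (XT.nd (nat_lit 78) (nat_lit 684) (nat_lit 0) (XT.lf (nat_lit 608) (nat_lit 259588679) (nat_lit 0) (nat_lit 2934237776) (nat_lit 532) (nat_lit 2934237776) (nat_lit 289) (nat_lit 1) (nat_lit 281) (nat_lit 1) (nat_lit 288) (nat_lit 1) (nat_lit 344) (nat_lit 428) (nat_lit 368)) (XT.lf (nat_lit 684) (nat_lit 5259877412) (nat_lit 0) (nat_lit 409339505) (nat_lit 608) (nat_lit 409339505) (nat_lit 281) (nat_lit 1) (nat_lit 272) (nat_lit 1) (nat_lit 280) (nat_lit 1) (nat_lit 345) (nat_lit 428) (nat_lit 367))))))) (XT.nd (nat_lit 702) (nat_lit 2508) (nat_lit 0) (XT.nd (nat_lit 312) (nat_lit 1596) (nat_lit 0) (XT.nd (nat_lit 156) (nat_lit 532) (nat_lit 0) (XT.nd (nat_lit 78) (nat_lit 532) (nat_lit 0) (XT.lf (nat_lit 76) (nat_lit 2061343141) (nat_lit 0) (nat_lit 1906617012) (nat_lit 684) (nat_lit 2061343141) (nat_lit 273) (nat_lit 1) (nat_lit 272) (nat_lit 1) (nat_lit 281) (nat_lit 1) (nat_lit 346) (nat_lit 428) (nat_lit 366)) (XT.lf (nat_lit 608) (nat_lit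 2995249484) (nat_lit 0) (nat_lit 1492760239) (nat_lit 532) (nat_lit 1492760239) (nat_lit 273) (nat_lit 1) (nat_lit 265) (nat_lit 1) (nat_lit 272) (nat_lit 1) (nat_lit 347) (nat_lit 428) (nat_lit 365))) (XT.nd (nat_lit 78) (nat_lit 532) (nat_lit 0) (XT.lf (nat_lit 76) (nat_lit 935041600) (nat_lit 0) (nat_lit 4062716121) (nat_lit 608) (nat_lit 935041600) (nat_lit 266) (nat_lit 1) (nat_lit 265) (nat_lit 1) (nat_lit 273) (nat_lit 1) (nat_lit 348) (nat_lit 428) (nat_lit 364)) (XT.lf (nat_lit 608) (nat_lit 740250606) (nat_lit 0) (nat_lit 2572497295) (nat_lit 532) (nat_lit 2572497295) (nat_lit 266) (nat_lit 1) (nat_lit 258) (nat_lit 1) (nat_lit 265) (nat_lit 1) (nat_lit 349) (nat_lit 428) (nat_lit 363)))) (XT.nd (nat_lit 156) (nat_lit 988) (nat_lit 0) (XT.nd (nat_lit 78) (nat_lit 0) (nat_lit 0) (XT.lf (nat_lit 608) (nat_lit 5468549173) (nat_lit 0) (nat_lit 184940593) (nat_lit 532) (nat_lit 184940593) (nat_lit 258) (nat_lit 1) (nat_lit 250) (nat_lit 1) (nat_lit 257)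 (nat_lit 1) (nat_lit 350) (nat_lit 428) (nat_lit 362)) (XT.lf (nat_lit 76) (nat_lit 2153748066) (nat_lit 0) (nat_lit 1484232980) (nat_lit 608) (nat_lit 2153748066) (nat_lit 251) (nat_lit 1) (nat_lit 250) (nat_lit 1) (nat_lit 258) (nat_lit 1) (nat_lit 351) (nat_lit 428) (nat_lit 361))) (XT.nd (nat_lit 78) (nat_lit 456) (nat_lit 0) (XT.lf (nat_lit 608) (nat_lit 3159444145) (nat_lit 0) (nat_lit 1293153982) (nat_lit 532) (nat_lit 1293153982) (nat_lit 251) (nat_lit 1) (nat_lit 243) (nat_lit 1) (nat_lit 250) (nat_lit 1) (nat_lit 352) (nat_lit 428) (nat_lit 360)) (XT.nd (nat_lit 78) (nat_lit 456) (nat_lit 0) (XT.lf (nat_lit 76) (nat_lit 1006489755) (nat_lit 0) (nat_lit 3687286843) (nat_lit 608) (nat_lit 1006489755) (nat_lit 244) (nat_lit 1) (nat_lit 243) (nat_lit 1) (nat_lit 251) (nat_lit 1) (nat_lit 353) (nat_lit 428) (nat_lit 359)) (XT.lf (nat_lit 532) (nat_lit 864736110) (nat_lit 0) (nat_lit 2395230355) (nat_lit 456) (nat_lit 2395230355) (nat_lit 244) (nat_lit 1)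 (nat_lit 237) (nat_lit 1) (nat_lit 243) (nat_lit 1) (nat_lit 354) (nat_lit 428) (nat_lit 358)))))) (XT.nd (nat_lit 312) (nat_lit 1444) (nat_lit 0) (XT.nd (nat_lit 156) (nat_lit 456) (nat_lit 0) (XT.nd (nat_lit 78) (nat_lit 0) (nat_lit 0) (XT.lf (nat_lit 608) (nat_lit 5345864502) (nat_lit 0) (nat_lit 132482355) (nat_lit 532) (nat_lit 132482355) (nat_lit 237) (nat_lit 1) (nat_lit 229) (nat_lit 1) (nat_lit 236) (nat_lit 1) (nat_lit 355) (nat_lit 428) (nat_lit 357)) (XT.lf (nat_lit 76) (nat_lit 2085211327) (nat_lit 0) (nat_lit 1396104639) (nat_lit 608) (nat_lit 2085211327) (nat_lit 230) (nat_lit 1) (nat_lit 229) (nat_lit 1) (nat_lit 237) (nat_lit 1) (nat_lit 356) (nat_lit 428) (nat_lit 356))) (XT.nd (nat_lit 78) (nat_lit 0) (nat_lit 0) (XT.lf (nat_lit 532) (nat_lit 3008843785) (nat_lit 0) (nat_lit 1257035078) (nat_lit 456) (nat_lit 1257035078) (nat_lit 230) (nat_lit 1) (nat_lit 223) (nat_lit 1) (nat_lit 229) (nat_lit 1) (nat_lit 357) (nat_lit 428) (nat_lit 355))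 (XT.lf (nat_lit 76) (nat_lit 925057427) (nat_lit 0) (nat_lit 3629650191) (nat_lit 532) (nat_lit 925057427) (nat_lit 224) (nat_lit 1) (nat_lit 223) (nat_lit 1) (nat_lit 230) (nat_lit 1) (nat_lit 358) (nat_lit 428) (nat_lit 354)))) (XT.nd (nat_lit 156) (nat_lit 456) (nat_lit 0) (XT.nd (nat_lit 78) (nat_lit 532) (nat_lit 0) (XT.lf (nat_lit 532) (nat_lit 690226823) (nat_lit 0) (nat_lit 2373383582) (nat_lit 456) (nat_lit 2373383582) (nat_lit 224) (nat_lit 1) (nat_lit 217) (nat_lit 1) (nat_lit 223) (nat_lit 1) (nat_lit 359) (nat_lit 428) (nat_lit 353)) (XT.lf (nat_lit 532) (nat_lit 4946335280) (nat_lit 0) (nat_lit 224259510) (nat_lit 456) (nat_lit 224259510) (nat_lit 217) (nat_lit 1) (nat_lit 210) (nat_lit 1) (nat_lit 216) (nat_lit 1) (nat_lit 360) (nat_lit 428) (nat_lit 352))) (XT.nd (nat_lit 78) (nat_lit 456) (nat_lit 0) (XT.lf (nat_lit 76) (nat_lit 1882317129) (nat_lit 0) (nat_lit 1588176453) (nat_lit 532) (nat_lit 1882317129) (nat_lit 211) (nat_lit 1) (nat_lit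 210) (nat_lit 1) (nat_lit 217) (nat_lit 1) (nat_lit 361) (nat_lit 428) (nat_lit 351)) (XT.nd (nat_lit 78) (nat_lit 0) (nat_lit 0) (XT.lf (nat_lit 532) (nat_lit 2595655316) (nat_lit 0) (nat_lit 1357865659) (nat_lit 456) (nat_lit 1357865659) (nat_lit 211) (nat_lit 1) (nat_lit 204) (nat_lit 1) (nat_lit 210) (nat_lit 1) (nat_lit 362) (nat_lit 428) (nat_lit 350)) (XT.lf (nat_lit 76) (nat_lit 716203879) (nat_lit 0) (nat_lit 3838029981) (nat_lit 532) (nat_lit 716203879) (nat_lit 205) (nat_lit 1) (nat_lit 204) (nat_lit 1) (nat_lit 211) (nat_lit 1) (nat_lit 363) (nat_lit 428) (nat_lit 349))))))))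
noncomputable def ec122 : XT := (XT.nd (nat_lit 1404) (nat_lit 1368) (nat_lit 0) (XT.nd (nat_lit 702) (nat_lit 1824) (nat_lit 0) (XT.nd (nat_lit 312) (nat_lit 1216) (nat_lit 0) (XT.nd (nat_lit 156) (nat_lit 380) (nat_lit 0) (XT.nd (nat_lit 78) (nat_lit 532) (nat_lit 0) (XT.lf (nat_lit 456) (nat_lit 266718781) (nat_lit 0) (nat_lit 2481538941) (nat_lit 380) (nat_lit 2481538941) (nat_lit 205) (nat_lit 1) (nat_lit 199) (nat_lit 1) (nat_lit 204) (nat_lit 1) (nat_lit 364) (nat_lit 428) (nat_lit 348)) (XT.lf (nat_lit 532) (nat_lit 4317584706) (nat_lit 0) (nat_lit 436052187) (nat_lit 456) (nat_lit 436052187) (nat_lit 199) (nat_lit 1) (nat_lit 192) (nat_lit 1) (nat_lit 198) (nat_lit 1) (nat_lit 365) (nat_lit 428) (nat_lit 347))) (XT.nd (nat_lit 78) (nat_lit 380) (nat_lit 0) (XT.lf (nat_lit 76) (nat_lit 1568286249) (nat_lit 0) (nat_lit 2013200813) (nat_lit 532) (nat_lit 1568286249) (nat_lit 193) (nat_lit 1) (nat_lit 192) (nat_lit 1) (nat_lit 199) (nat_lit 1) (nat_lit 366)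 (nat_lit 428) (nat_lit 346)) (XT.lf (nat_lit 456) (nat_lit 1965472653) (nat_lit 0) (nat_lit 1572453926) (nat_lit 380) (nat_lit 1572453926) (nat_lit 193) (nat_lit 1) (nat_lit 187) (nat_lit 1) (nat_lit 192) (nat_lit 1) (nat_lit 367) (nat_lit 428) (nat_lit 345)))) (XT.nd (nat_lit 156) (nat_lit 760) (nat_lit 0) (XT.nd (nat_lit 78) (nat_lit 456) (nat_lit 0) (XT.lf (nat_lit 76) (nat_lit 402159587) (nat_lit 0) (nat_lit 4267185710) (nat_lit 456) (nat_lit 402159587) (nat_lit 188) (nat_lit 1) (nat_lit 187) (nat_lit 1) (nat_lit 193) (nat_lit 1) (nat_lit 368) (nat_lit 428) (nat_lit 344)) (XT.lf (nat_lit 76) (nat_lit 2337701697) (nat_lit 0) (nat_lit 357390646) (nat_lit 456) (nat_lit 2337701697) (nat_lit 182) (nat_lit 1) (nat_lit 181) (nat_lit 1) (nat_lit 187) (nat_lit 1) (nat_lit 369) (nat_lit 428) (nat_lit 343))) (XT.nd (nat_lit 78) (nat_lit 380) (nat_lit 0) (XT.lf (nat_lit 456) (nat_lit 3501151477) (nat_lit 0) (nat_lit 746719588) (nat_lit 380) (nat_lit 746719588) (nat_lit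 182) (nat_lit 1) (nat_lit 176) (nat_lit 1) (nat_lit 181) (nat_lit 1) (nat_lit 370) (nat_lit 428) (nat_lit 342)) (XT.nd (nat_lit 78) (nat_lit 380) (nat_lit 0) (XT.lf (nat_lit 76) (nat_lit 1163368836) (nat_lit 0) (nat_lit 2629944045) (nat_lit 456) (nat_lit 1163368836) (nat_lit 177) (nat_lit 1) (nat_lit 176) (nat_lit 1) (nat_lit 182) (nat_lit 1) (nat_lit 371) (nat_lit 428) (nat_lit 341)) (XT.lf (nat_lit 456) (nat_lit 1158049326) (nat_lit 0) (nat_lit 1880563753) (nat_lit 380) (nat_lit 1880563753) (nat_lit 177) (nat_lit 1) (nat_lit 171) (nat_lit 1) (nat_lit 176) (nat_lit 1) (nat_lit 372) (nat_lit 428) (nat_lit 340)))))) (XT.nd (nat_lit 312) (nat_lit 1064) (nat_lit 0) (XT.nd (nat_lit 156) (nat_lit 380) (nat_lit 0) (XT.nd (nat_lit 78) (nat_lit 380) (nat_lit 0) (XT.lf (nat_lit 76) (nat_lit 2303618) (nat_lit 0) (nat_lit 4877649724) (nat_lit 456) (nat_lit 2303618) (nat_lit 172) (nat_lit 1) (nat_lit 171) (nat_lit 1) (nat_lit 177) (nat_lit 1) (nat_lit 373) (nat_lit 428)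 (nat_lit 339)) (XT.lf (nat_lit 76) (nat_lit 1851082332) (nat_lit 0) (nat_lit 1143116721) (nat_lit 380) (nat_lit 1851082332) (nat_lit 167) (nat_lit 1) (nat_lit 166) (nat_lit 1) (nat_lit 171) (nat_lit 1) (nat_lit 374) (nat_lit 428) (nat_lit 338))) (XT.nd (nat_lit 78) (nat_lit 0) (nat_lit 0) (XT.lf (nat_lit 456) (nat_lit 2533202569) (nat_lit 0) (nat_lit 1137839808) (nat_lit 380) (nat_lit 1137839808) (nat_lit 167) (nat_lit 1) (nat_lit 161) (nat_lit 1) (nat_lit 166) (nat_lit 1) (nat_lit 375) (nat_lit 428) (nat_lit 337)) (XT.lf (nat_lit 76) (nat_lit 685192561) (nat_lit 0) (nat_lit 3402482627) (nat_lit 456) (nat_lit 685192561) (nat_lit 162) (nat_lit 1) (nat_lit 161) (nat_lit 1) (nat_lit 167) (nat_lit 1) (nat_lit 376) (nat_lit 428) (nat_lit 336)))) (XT.nd (nat_lit 156) (nat_lit 304) (nat_lit 0) (XT.nd (nat_lit 78) (nat_lit 456) (nat_lit 0) (XT.lf (nat_lit 380) (nat_lit 207983264) (nat_lit 0) (nat_lit 2264568649) (nat_lit 304) (nat_lit 2264568649) (nat_lit 162) (nat_lit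 1) (nat_lit 157) (nat_lit 1) (nat_lit 161) (nat_lit 1) (nat_lit 377) (nat_lit 428) (nat_lit 335)) (XT.lf (nat_lit 456) (nat_lit 3774938583) (nat_lit 0) (nat_lit 463432795) (nat_lit 380) (nat_lit 463432795) (nat_lit 157) (nat_lit 1) (nat_lit 151) (nat_lit 1) (nat_lit 156) (nat_lit 1) (nat_lit 378) (nat_lit 428) (nat_lit 334))) (XT.nd (nat_lit 78) (nat_lit 304) (nat_lit 0) (XT.lf (nat_lit 76) (nat_lit 1302682968) (nat_lit 0) (nat_lit 2061297660) (nat_lit 456) (nat_lit 1302682968) (nat_lit 152) (nat_lit 1) (nat_lit 151) (nat_lit 1) (nat_lit 157) (nat_lit 1) (nat_lit 379) (nat_lit 428) (nat_lit 333)) (XT.nd (nat_lit 78) (nat_lit 0) (nat_lit 0) (XT.lf (nat_lit 380) (nat_lit 1445164919) (nat_lit 0) (nat_lit 1593390613) (nat_lit 304) (nat_lit 1593390613) (nat_lit 152) (nat_lit 1) (nat_lit 147) (nat_lit 1) (nat_lit 151) (nat_lit 1) (nat_lit 380) (nat_lit 428) (nat_lit 332)) (XT.lf (nat_lit 76) (nat_lit 149071156) (nat_lit 0) (nat_lit 4299579457) (nat_lit 380) (nat_lit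 149071156) (nat_lit 148) (nat_lit 1) (nat_lit 147) (nat_lit 1) (nat_lit 152) (nat_lit 1) (nat_lit 381) (nat_lit 428) (nat_lit 331))))))) (XT.nd (nat_lit 55458) (nat_lit 0) (nat_lit 12084) (XT.nd (nat_lit 312) (nat_lit 380) (nat_lit 0) (XT.nd (nat_lit 156) (nat_lit 304) (nat_lit 0) (XT.nd (nat_lit 78) (nat_lit 304) (nat_lit 0) (XT.lf (nat_lit 76) (nat_lit 1860017853) (nat_lit 0) (nat_lit 843467128) (nat_lit 380) (nat_lit 1860017853) (nat_lit 143) (nat_lit 1) (nat_lit 142) (nat_lit 1) (nat_lit 147) (nat_lit 1) (nat_lit 382) (nat_lit 428) (nat_lit 330)) (XT.lf (nat_lit 380) (nat_lit 2563560502) (nat_lit 0) (nat_lit 983104693) (nat_lit 304) (nat_lit 983104693) (nat_lit 143) (nat_lit 1) (nat_lit 138) (nat_lit 1) (nat_lit 142) (nat_lit 1) (nat_lit 383) (nat_lit 428) (nat_lit 329))) (XT.nd (nat_lit 78) (nat_lit 304) (nat_lit 0) (XT.lf (nat_lit 76) (nat_lit 706392029) (nat_lit 0) (nat_lit 3083581426) (nat_lit 380) (nat_lit 706392029) (nat_lit 139) (nat_lit 1) (nat_lit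 138) (nat_lit 1) (nat_lit 143) (nat_lit 1) (nat_lit 384) (nat_lit 428) (nat_lit 328)) (XT.lf (nat_lit 380) (nat_lit 264285140) (nat_lit 0) (nat_lit 2099466575) (nat_lit 304) (nat_lit 2099466575) (nat_lit 139) (nat_lit 1) (nat_lit 134) (nat_lit 1) (nat_lit 138) (nat_lit 1) (nat_lit 385) (nat_lit 428) (nat_lit 327)))) (XT.nd (nat_lit 54912) (nat_lit 0) (nat_lit 15276) (XT.nd (nat_lit 54834) (nat_lit 0) (nat_lit 16720) (XT.lf (nat_lit 380) (nat_lit 3572697861) (nat_lit 0) (nat_lit 428881934) (nat_lit 304) (nat_lit 428881934) (nat_lit 134) (nat_lit 1) (nat_lit 129) (nat_lit 1) (nat_lit 133) (nat_lit 1) (nat_lit 386) (nat_lit 428) (nat_lit 326)) (XT.lf (nat_lit 760) (nat_lit 2016945235) (nat_lit 0) (nat_lit 2502628449) (nat_lit 684) (nat_lit 2502628449) (nat_lit 359) (nat_lit 1) (nat_lit 349) (nat_lit 1) (nat_lit 358) (nat_lit 1) (nat_lit 328) (nat_lit 429) (nat_lit 383))) (XT.nd (nat_lit 78) (nat_lit 1444) (nat_lit 0) (XT.lf (nat_lit 76) (nat_lit 502325125) (nat_lit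 0) (nat_lit 5958434233) (nat_lit 760) (nat_lit 502325125) (nat_lit 350) (nat_lit 1) (nat_lit 349) (nat_lit 1) (nat_lit 359) (nat_lit 1) (nat_lit 329) (nat_lit 429) (nat_lit 382)) (XT.nd (nat_lit 78) (nat_lit 684) (nat_lit 0) (XT.lf (nat_lit 76) (nat_lit 3438855945) (nat_lit 0) (nat_lit 26641978) (nat_lit 760) (nat_lit 3438855945) (nat_lit 340) (nat_lit 1) (nat_lit 339) (nat_lit 1) (nat_lit 349) (nat_lit 1) (nat_lit 330) (nat_lit 429) (nat_lit 381)) (XT.lf (nat_lit 760) (nat_lit 5815110050) (nat_lit 0) (nat_lit 515702344) (nat_lit 684) (nat_lit 515702344) (nat_lit 340) (nat_lit 1) (nat_lit 330) (nat_lit 1) (nat_lit 339) (nat_lit 1) (nat_lit 331) (nat_lit 429) (nat_lit 380)))))) (XT.nd (nat_lit 312) (nat_lit 1900) (nat_lit 0) (XT.nd (nat_lit 156) (nat_lit 608) (nat_lit 0) (XT.nd (nat_lit 78) (nat_lit 684) (nat_lit 0) (XT.lf (nat_lit 76) (nat_lit 2367416438) (nat_lit 0) (nat_lit 2054221722) (nat_lit 760) (nat_lit 2367416438) (nat_lit 331) (nat_lit 1) (nat_lit 330)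 (nat_lit 1) (nat_lit 340) (nat_lit 1) (nat_lit 332) (nat_lit 429) (nat_lit 379)) (XT.lf (nat_lit 760) (nat_lit 3662222994) (nat_lit 0) (nat_lit 1535116571) (nat_lit 684) (nat_lit 1535116571) (nat_lit 331) (nat_lit 1) (nat_lit 321) (nat_lit 1) (nat_lit 330) (nat_lit 1) (nat_lit 333) (nat_lit 429) (nat_lit 378))) (XT.nd (nat_lit 78) (nat_lit 608) (nat_lit 0) (XT.lf (nat_lit 76) (nat_lit 1293195772) (nat_lit 0) (nat_lit 4090100352) (nat_lit 760) (nat_lit 1293195772) (nat_lit 322) (nat_lit 1) (nat_lit 321) (nat_lit 1) (nat_lit 331) (nat_lit 1) (nat_lit 334) (nat_lit 429) (nat_lit 377)) (XT.lf (nat_lit 684) (nat_lit 1504746274) (nat_lit 0) (nat_lit 2558175551) (nat_lit 608) (nat_lit 2558175551) (nat_lit 322) (nat_lit 1) (nat_lit 313) (nat_lit 1) (nat_lit 321) (nat_lit 1) (nat_lit 335) (nat_lit 429) (nat_lit 376)))) (XT.nd (nat_lit 156) (nat_lit 1216) (nat_lit 0) (XT.nd (nat_lit 78) (nat_lit 684) (nat_lit 0) (XT.lf (nat_lit 76) (nat_lit 217172263) (nat_lit 0) (nat_lit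 6132249098) (nat_lit 684) (nat_lit 217172263) (nat_lit 314) (nat_lit 1) (nat_lit 313) (nat_lit 1) (nat_lit 322) (nat_lit 1) (nat_lit 336) (nat_lit 429) (nat_lit 375)) (XT.lf (nat_lit 76) (nat_lit 2932732788) (nat_lit 0) (nat_lit 646816838) (nat_lit 684) (nat_lit 2932732788) (nat_lit 305) (nat_lit 1) (nat_lit 304) (nat_lit 1) (nat_lit 313) (nat_lit 1) (nat_lit 337) (nat_lit 429) (nat_lit 374))) (XT.nd (nat_lit 78) (nat_lit 608) (nat_lit 0) (XT.lf (nat_lit 684) (nat_lit 4750692334) (nat_lit 0) (nat_lit 854074698) (nat_lit 608) (nat_lit 854074698) (nat_lit 305) (nat_lit 1) (nat_lit 296) (nat_lit 1) (nat_lit 304) (nat_lit 1) (nat_lit 338) (nat_lit 429) (nat_lit 373)) (XT.nd (nat_lit 78) (nat_lit 608) (nat_lit 0) (XT.lf (nat_lit 76) (nat_lit 1813157925) (nat_lit 0) (nat_lit 2779516158) (nat_lit 684) (nat_lit 1813157925) (nat_lit 297) (nat_lit 1) (nat_lit 296) (nat_lit 1) (nat_lit 305) (nat_lit 1) (nat_lit 339) (nat_lit 429) (nat_lit 372)) (XT.lf (nat_lit 684) (nat_lit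 2505699674) (nat_lit 0) (nat_lit 1923901732) (nat_lit 608) (nat_lit 1923901732) (nat_lit 297) (nat_lit 1) (nat_lit 288) (nat_lit 1) (nat_lit 296) (nat_lit 1) (nat_lit 340) (nat_lit 429) (nat_lit 371))))))))
noncomputable def ec123 : XT := (XT.nd (nat_lit 1404) (nat_lit 4484) (nat_lit 0) (XT.nd (nat_lit 702) (nat_lit 3040) (nat_lit 0) (XT.nd (nat_lit 312) (nat_lit 1672) (nat_lit 0) (XT.nd (nat_lit 156) (nat_lit 684) (nat_lit 0) (XT.nd (nat_lit 78) (nat_lit 532) (nat_lit 0) (XT.lf (nat_lit 76) (nat_lit 695231163) (nat_lit 0) (nat_lit 4911412626) (nat_lit 684) (nat_lit 695231163) (nat_lit 289) (nat_lit 1) (nat_lit 288) (nat_lit 1) (nat_lit 297) (nat_lit 1) (nat_lit 341) (nat_lit 429) (nat_lit 370)) (XT.lf (nat_lit 608) (nat_lit 264780453) (nat_lit 0) (nat_lit 2992922531) (nat_lit 532) (nat_lit 2992922531) (nat_lit 289) (nat_lit 1) (nat_lit 281) (nat_lit 1) (nat_lit 288) (nat_lit 1) (nat_lit 342) (nat_lit 429) (nat_lit 369))) (XT.nd (nat_lit 78) (nat_lit 0) (nat_lit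 0) (XT.lf (nat_lit 684) (nat_lit 5365074961) (nat_lit 0) (nat_lit 417526295) (nat_lit 608) (nat_lit 417526295) (nat_lit 281) (nat_lit 1) (nat_lit 272) (nat_lit 1) (nat_lit 280) (nat_lit 1) (nat_lit 343) (nat_lit 429) (nat_lit 368)) (XT.lf (nat_lit 76) (nat_lit 2102570004) (nat_lit 0) (nat_lit 1944749353) (nat_lit 684) (nat_lit 2102570004) (nat_lit 273) (nat_lit 1) (nat_lit 272) (nat_lit 1) (nat_lit 281) (nat_lit 1) (nat_lit 344) (nat_lit 429) (nat_lit 367)))) (XT.nd (nat_lit 156) (nat_lit 1140) (nat_lit 0) (XT.nd (nat_lit 78) (nat_lit 0) (nat_lit 0) (XT.lf (nat_lit 608) (nat_lit 3055154474) (nat_lit 0) (nat_lit 1522615444) (nat_lit 532) (nat_lit 1522615444) (nat_lit 273) (nat_lit 1) (nat_lit 265) (nat_lit 1) (nat_lit 272) (nat_lit 1) (nat_lit 345) (nat_lit 429) (nat_lit 366)) (XT.lf (nat_lit 76) (nat_lit 953742432) (nat_lit 0) (nat_lit 4143970444) (nat_lit 608) (nat_lit 953742432) (nat_lit 266) (nat_lit 1) (nat_lit 265) (nat_lit 1) (nat_lit 273) (nat_lit 1) (nat_lit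 346) (nat_lit 429) (nat_lit 365))) (XT.nd (nat_lit 78) (nat_lit 608) (nat_lit 0) (XT.lf (nat_lit 608) (nat_lit 755055618) (nat_lit 0) (nat_lit 2623947241) (nat_lit 532) (nat_lit 2623947241) (nat_lit 266) (nat_lit 1) (nat_lit 258) (nat_lit 1) (nat_lit 265) (nat_lit 1) (nat_lit 347) (nat_lit 429) (nat_lit 364)) (XT.nd (nat_lit 78) (nat_lit 0) (nat_lit 0) (XT.lf (nat_lit 608) (nat_lit 5577920157) (nat_lit 0) (nat_lit 188639404) (nat_lit 532) (nat_lit 188639404) (nat_lit 258) (nat_lit 1) (nat_lit 250) (nat_lit 1) (nat_lit 257) (nat_lit 1) (nat_lit 348) (nat_lit 429) (nat_lit 363)) (XT.lf (nat_lit 76) (nat_lit 2196823027) (nat_lit 0) (nat_lit 1513917639) (nat_lit 608) (nat_lit 2196823027) (nat_lit 251) (nat_lit 1) (nat_lit 250) (nat_lit 1) (nat_lit 258) (nat_lit 1) (nat_lit 349) (nat_lit 429) (nat_lit 362)))))) (XT.nd (nat_lit 312) (nat_lit 1444) (nat_lit 0) (XT.nd (nat_lit 156) (nat_lit 1064) (nat_lit 0) (XT.nd (nat_lit 78) (nat_lit 0) (nat_lit 0) (XT.lf (nat_lit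 608) (nat_lit 3222633028) (nat_lit 0) (nat_lit 1319017062) (nat_lit 532) (nat_lit 1319017062) (nat_lit 251) (nat_lit 1) (nat_lit 243) (nat_lit 1) (nat_lit 250) (nat_lit 1) (nat_lit 350) (nat_lit 429) (nat_lit 361)) (XT.lf (nat_lit 76) (nat_lit 1026619551) (nat_lit 0) (nat_lit 3761032580) (nat_lit 608) (nat_lit 1026619551) (nat_lit 244) (nat_lit 1) (nat_lit 243) (nat_lit 1) (nat_lit 251) (nat_lit 1) (nat_lit 351) (nat_lit 429) (nat_lit 360))) (XT.nd (nat_lit 78) (nat_lit 608) (nat_lit 0) (XT.lf (nat_lit 532) (nat_lit 882030832) (nat_lit 0) (nat_lit 2443134962) (nat_lit 456) (nat_lit 2443134962) (nat_lit 244) (nat_lit 1) (nat_lit 237) (nat_lit 1) (nat_lit 243) (nat_lit 1) (nat_lit 352) (nat_lit 429) (nat_lit 359)) (XT.lf (nat_lit 608) (nat_lit 5452781792) (nat_lit 0) (nat_lit 135132002) (nat_lit 532) (nat_lit 135132002) (nat_lit 237) (nat_lit 1) (nat_lit 229) (nat_lit 1) (nat_lit 236) (nat_lit 1) (nat_lit 353) (nat_lit 429) (nat_lit 358)))) (XT.nd (nat_lit 156)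 (nat_lit 988) (nat_lit 0) (XT.nd (nat_lit 78) (nat_lit 456) (nat_lit 0) (XT.lf (nat_lit 76) (nat_lit 2126915553) (nat_lit 0) (nat_lit 1424026732) (nat_lit 608) (nat_lit 2126915553) (nat_lit 230) (nat_lit 1) (nat_lit 229) (nat_lit 1) (nat_lit 237) (nat_lit 1) (nat_lit 354) (nat_lit 429) (nat_lit 357)) (XT.lf (nat_lit 532) (nat_lit 3069020661) (nat_lit 0) (nat_lit 1282175780) (nat_lit 456) (nat_lit 1282175780) (nat_lit 230) (nat_lit 1) (nat_lit 223) (nat_lit 1) (nat_lit 229) (nat_lit 1) (nat_lit 355) (nat_lit 429) (nat_lit 356))) (XT.nd (nat_lit 78) (nat_lit 988) (nat_lit 0) (XT.lf (nat_lit 76) (nat_lit 943558576) (nat_lit 0) (nat_lit 3702243195) (nat_lit 532) (nat_lit 943558576) (nat_lit 224) (nat_lit 1) (nat_lit 223) (nat_lit 1) (nat_lit 230) (nat_lit 1) (nat_lit 356) (nat_lit 429) (nat_lit 355)) (XT.nd (nat_lit 78) (nat_lit 532) (nat_lit 0) (XT.lf (nat_lit 532) (nat_lit 704031359) (nat_lit 0) (nat_lit 2420851254) (nat_lit 456) (nat_lit 2420851254) (nat_lit 224)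 (nat_lit 1) (nat_lit 217) (nat_lit 1) (nat_lit 223) (nat_lit 1) (nat_lit 357) (nat_lit 429) (nat_lit 354)) (XT.lf (nat_lit 532) (nat_lit 5045261985) (nat_lit 0) (nat_lit 228744700) (nat_lit 456) (nat_lit 228744700) (nat_lit 217) (nat_lit 1) (nat_lit 210) (nat_lit 1) (nat_lit 216) (nat_lit 1) (nat_lit 358) (nat_lit 429) (nat_lit 353))))))) (XT.nd (nat_lit 702) (nat_lit 2280) (nat_lit 0) (XT.nd (nat_lit 312) (nat_lit 1368) (nat_lit 0) (XT.nd (nat_lit 156) (nat_lit 380) (nat_lit 0) (XT.nd (nat_lit 78) (nat_lit 456) (nat_lit 0) (XT.lf (nat_lit 76) (nat_lit 1919963472) (nat_lit 0) (nat_lit 1619939982) (nat_lit 532) (nat_lit 1919963472) (nat_lit 211) (nat_lit 1) (nat_lit 210) (nat_lit 1) (nat_lit 217) (nat_lit 1) (nat_lit 359) (nat_lit 429) (nat_lit 352)) (XT.lf (nat_lit 532) (nat_lit 2647568422) (nat_lit 0) (nat_lit 1385022972) (nat_lit 456) (nat_lit 1385022972) (nat_lit 211) (nat_lit 1) (nat_lit 204) (nat_lit 1) (nat_lit 210) (nat_lit 1) (nat_lit 360) (nat_lit 429)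 (nat_lit 351))) (XT.nd (nat_lit 78) (nat_lit 380) (nat_lit 0) (XT.lf (nat_lit 76) (nat_lit 730527957) (nat_lit 0) (nat_lit 3914790581) (nat_lit 532) (nat_lit 730527957) (nat_lit 205) (nat_lit 1) (nat_lit 204) (nat_lit 1) (nat_lit 211) (nat_lit 1) (nat_lit 361) (nat_lit 429) (nat_lit 350)) (XT.lf (nat_lit 456) (nat_lit 272053156) (nat_lit 0) (nat_lit 2531169720) (nat_lit 380) (nat_lit 2531169720) (nat_lit 205) (nat_lit 1) (nat_lit 199) (nat_lit 1) (nat_lit 204) (nat_lit 1) (nat_lit 362) (nat_lit 429) (nat_lit 349)))) (XT.nd (nat_lit 156) (nat_lit 836) (nat_lit 0) (XT.nd (nat_lit 78) (nat_lit 0) (nat_lit 0) (XT.lf (nat_lit 532) (nat_lit 4403936400) (nat_lit 0) (nat_lit 444773231) (nat_lit 456) (nat_lit 444773231) (nat_lit 199) (nat_lit 1) (nat_lit 192) (nat_lit 1) (nat_lit 198) (nat_lit 1) (nat_lit 363) (nat_lit 429) (nat_lit 348)) (XT.lf (nat_lit 76) (nat_lit 1599651974) (nat_lit 0) (nat_lit 2053464829) (nat_lit 532) (nat_lit 1599651974) (nat_lit 193) (nat_lit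 1) (nat_lit 192) (nat_lit 1) (nat_lit 199) (nat_lit 1) (nat_lit 364) (nat_lit 429) (nat_lit 347))) (XT.nd (nat_lit 78) (nat_lit 456) (nat_lit 0) (XT.lf (nat_lit 456) (nat_lit 2004782106) (nat_lit 0) (nat_lit 1603903004) (nat_lit 380) (nat_lit 1603903004) (nat_lit 193) (nat_lit 1) (nat_lit 187) (nat_lit 1) (nat_lit 192) (nat_lit 1) (nat_lit 365) (nat_lit 429) (nat_lit 346)) (XT.nd (nat_lit 78) (nat_lit 456) (nat_lit 0) (XT.lf (nat_lit 76) (nat_lit 410202778) (nat_lit 0) (nat_lit 4352529424) (nat_lit 456) (nat_lit 410202778) (nat_lit 188) (nat_lit 1) (nat_lit 187) (nat_lit 1) (nat_lit 193) (nat_lit 1) (nat_lit 366) (nat_lit 429) (nat_lit 345)) (XT.lf (nat_lit 76) (nat_lit 2384455731) (nat_lit 0) (nat_lit 364538459) (nat_lit 456) (nat_lit 2384455731) (nat_lit 182) (nat_lit 1) (nat_lit 181) (nat_lit 1) (nat_lit 187) (nat_lit 1) (nat_lit 367) (nat_lit 429) (nat_lit 344)))))) (XT.nd (nat_lit 312) (nat_lit 1520) (nat_lit 0) (XT.nd (nat_lit 156) (nat_lit 380) (nat_lit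 0) (XT.nd (nat_lit 78) (nat_lit 0) (nat_lit 0) (XT.lf (nat_lit 456) (nat_lit 3571174506) (nat_lit 0) (nat_lit 761653980) (nat_lit 380) (nat_lit 761653980) (nat_lit 182) (nat_lit 1) (nat_lit 176) (nat_lit 1) (nat_lit 181) (nat_lit 1) (nat_lit 368) (nat_lit 429) (nat_lit 343)) (XT.lf (nat_lit 76) (nat_lit 1186636213) (nat_lit 0) (nat_lit 2682542925) (nat_lit 456) (nat_lit 1186636213) (nat_lit 177) (nat_lit 1) (nat_lit 176) (nat_lit 1) (nat_lit 182) (nat_lit 1) (nat_lit 369) (nat_lit 429) (nat_lit 342))) (XT.nd (nat_lit 78) (nat_lit 0) (nat_lit 0) (XT.lf (nat_lit 456) (nat_lit 1181210313) (nat_lit 0) (nat_lit 1918175028) (nat_lit 380) (nat_lit 1918175028) (nat_lit 177) (nat_lit 1) (nat_lit 171) (nat_lit 1) (nat_lit 176) (nat_lit 1) (nat_lit 370) (nat_lit 429) (nat_lit 341)) (XT.lf (nat_lit 76) (nat_lit 2349690) (nat_lit 0) (nat_lit 4975202718) (nat_lit 456) (nat_lit 2349690) (nat_lit 172) (nat_lit 1) (nat_lit 171) (nat_lit 1) (nat_lit 177) (nat_lit 1) (nat_lit 371)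 (nat_lit 429) (nat_lit 340)))) (XT.nd (nat_lit 156) (nat_lit 760) (nat_lit 0) (XT.nd (nat_lit 78) (nat_lit 380) (nat_lit 0) (XT.lf (nat_lit 76) (nat_lit 1888103979) (nat_lit 0) (nat_lit 1165979056) (nat_lit 380) (nat_lit 1888103979) (nat_lit 167) (nat_lit 1) (nat_lit 166) (nat_lit 1) (nat_lit 171) (nat_lit 1) (nat_lit 372) (nat_lit 429) (nat_lit 339)) (XT.lf (nat_lit 456) (nat_lit 2583866620) (nat_lit 0) (nat_lit 1160596604) (nat_lit 380) (nat_lit 1160596604) (nat_lit 167) (nat_lit 1) (nat_lit 161) (nat_lit 1) (nat_lit 166) (nat_lit 1) (nat_lit 373) (nat_lit 429) (nat_lit 338))) (XT.nd (nat_lit 78) (nat_lit 760) (nat_lit 0) (XT.lf (nat_lit 76) (nat_lit 698896412) (nat_lit 0) (nat_lit 3470532280) (nat_lit 456) (nat_lit 698896412) (nat_lit 162) (nat_lit 1) (nat_lit 161) (nat_lit 1) (nat_lit 167) (nat_lit 1) (nat_lit 374) (nat_lit 429) (nat_lit 337)) (XT.nd (nat_lit 78) (nat_lit 456) (nat_lit 0) (XT.lf (nat_lit 380) (nat_lit 212142929) (nat_lit 0) (nat_lit 2309860022)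 (nat_lit 304) (nat_lit 2309860022) (nat_lit 162) (nat_lit 1) (nat_lit 157) (nat_lit 1) (nat_lit 161) (nat_lit 1) (nat_lit 375) (nat_lit 429) (nat_lit 336)) (XT.lf (nat_lit 456) (nat_lit 3850437354) (nat_lit 0) (nat_lit 472701451) (nat_lit 380) (nat_lit 472701451) (nat_lit 157) (nat_lit 1) (nat_lit 151) (nat_lit 1) (nat_lit 156) (nat_lit 1) (nat_lit 376) (nat_lit 429) (nat_lit 335))))))))
noncomputable def ec124 : XT := (XT.nd (nat_lit 56628) (nat_lit 0) (nat_lit 5320) (XT.nd (nat_lit 55926) (nat_lit 0) (nat_lit 10488) (XT.nd (nat_lit 312) (nat_lit 608) (nat_lit 0) (XT.nd (nat_lit 156) (nat_lit 380) (nat_lit 0) (XT.nd (nat_lit 78) (nat_lit 304) (nat_lit 0) (XT.lf (nat_lit 76) (nat_lit 1328736627) (nat_lit 0) (nat_lit 2102523613) (nat_lit 456) (nat_lit 1328736627) (nat_lit 152) (nat_lit 1) (nat_lit 151) (nat_lit 1) (nat_lit 157) (nat_lit 1) (nat_lit 377) (nat_lit 429) (nat_lit 334)) (XT.lf (nat_lit 380) (nat_lit 1474068217) (nat_lit 0) (nat_lit 1625258425) (nat_lit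 304) (nat_lit 1625258425) (nat_lit 152) (nat_lit 1) (nat_lit 147) (nat_lit 1) (nat_lit 151) (nat_lit 1) (nat_lit 378) (nat_lit 429) (nat_lit 333))) (XT.nd (nat_lit 78) (nat_lit 380) (nat_lit 0) (XT.lf (nat_lit 76) (nat_lit 152052579) (nat_lit 0) (nat_lit 4385571046) (nat_lit 380) (nat_lit 152052579) (nat_lit 148) (nat_lit 1) (nat_lit 147) (nat_lit 1) (nat_lit 152) (nat_lit 1) (nat_lit 379) (nat_lit 429) (nat_lit 332)) (XT.lf (nat_lit 76) (nat_lit 1897218210) (nat_lit 0) (nat_lit 860336470) (nat_lit 380) (nat_lit 1897218210) (nat_lit 143) (nat_lit 1) (nat_lit 142) (nat_lit 1) (nat_lit 147) (nat_lit 1) (nat_lit 380) (nat_lit 429) (nat_lit 331)))) (XT.nd (nat_lit 156) (nat_lit 304) (nat_lit 0) (XT.nd (nat_lit 78) (nat_lit 0) (nat_lit 0) (XT.lf (nat_lit 380) (nat_lit 2614831712) (nat_lit 0) (nat_lit 1002766787) (nat_lit 304) (nat_lit 1002766787) (nat_lit 143) (nat_lit 1) (nat_lit 138) (nat_lit 1) (nat_lit 142) (nat_lit 1) (nat_lit 381) (nat_lit 429) (nat_lit 330))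 (XT.lf (nat_lit 76) (nat_lit 720519870) (nat_lit 0) (nat_lit 3145253054) (nat_lit 380) (nat_lit 720519870) (nat_lit 139) (nat_lit 1) (nat_lit 138) (nat_lit 1) (nat_lit 143) (nat_lit 1) (nat_lit 382) (nat_lit 429) (nat_lit 329))) (XT.nd (nat_lit 55302) (nat_lit 0) (nat_lit 14212) (XT.lf (nat_lit 380) (nat_lit 269570843) (nat_lit 0) (nat_lit 2141455907) (nat_lit 304) (nat_lit 2141455907) (nat_lit 139) (nat_lit 1) (nat_lit 134) (nat_lit 1) (nat_lit 138) (nat_lit 1) (nat_lit 383) (nat_lit 429) (nat_lit 328)) (XT.nd (nat_lit 78) (nat_lit 0) (nat_lit 0) (XT.lf (nat_lit 760) (nat_lit 3735467454) (nat_lit 0) (nat_lit 1565818903) (nat_lit 684) (nat_lit 1565818903) (nat_lit 331) (nat_lit 1) (nat_lit 321) (nat_lit 1) (nat_lit 330) (nat_lit 1) (nat_lit 331) (nat_lit 430) (nat_lit 379)) (XT.lf (nat_lit 76) (nat_lit 1319059687) (nat_lit 0) (nat_lit 4171902359) (nat_lit 760) (nat_lit 1319059687) (nat_lit 322) (nat_lit 1) (nat_lit 321) (nat_lit 1) (nat_lit 331) (nat_lit 1) (nat_lit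 332) (nat_lit 430) (nat_lit 378)))))) (XT.nd (nat_lit 312) (nat_lit 1824) (nat_lit 0) (XT.nd (nat_lit 156) (nat_lit 1292) (nat_lit 0) (XT.nd (nat_lit 78) (nat_lit 0) (nat_lit 0) (XT.lf (nat_lit 684) (nat_lit 1534841199) (nat_lit 0) (nat_lit 2609339062) (nat_lit 608) (nat_lit 2609339062) (nat_lit 322) (nat_lit 1) (nat_lit 313) (nat_lit 1) (nat_lit 321) (nat_lit 1) (nat_lit 333) (nat_lit 430) (nat_lit 377)) (XT.lf (nat_lit 76) (nat_lit 221515709) (nat_lit 0) (nat_lit 6254894080) (nat_lit 684) (nat_lit 221515709) (nat_lit 314) (nat_lit 1) (nat_lit 313) (nat_lit 1) (nat_lit 322) (nat_lit 1) (nat_lit 334) (nat_lit 430) (nat_lit 376))) (XT.nd (nat_lit 78) (nat_lit 608) (nat_lit 0) (XT.lf (nat_lit 76) (nat_lit 2991387444) (nat_lit 0) (nat_lit 659753174) (nat_lit 684) (nat_lit 2991387444) (nat_lit 305) (nat_lit 1) (nat_lit 304) (nat_lit 1) (nat_lit 313) (nat_lit 1) (nat_lit 335) (nat_lit 430) (nat_lit 375)) (XT.lf (nat_lit 684) (nat_lit 4845706180) (nat_lit 0) (nat_lit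 871156192) (nat_lit 608) (nat_lit 871156192) (nat_lit 305) (nat_lit 1) (nat_lit 296) (nat_lit 1) (nat_lit 304) (nat_lit 1) (nat_lit 336) (nat_lit 430) (nat_lit 374)))) (XT.nd (nat_lit 156) (nat_lit 1216) (nat_lit 0) (XT.nd (nat_lit 78) (nat_lit 608) (nat_lit 0) (XT.lf (nat_lit 76) (nat_lit 1849421083) (nat_lit 0) (nat_lit 2835106482) (nat_lit 684) (nat_lit 1849421083) (nat_lit 297) (nat_lit 1) (nat_lit 296) (nat_lit 1) (nat_lit 305) (nat_lit 1) (nat_lit 337) (nat_lit 430) (nat_lit 373)) (XT.lf (nat_lit 684) (nat_lit 2555813667) (nat_lit 0) (nat_lit 1962379767) (nat_lit 608) (nat_lit 1962379767) (nat_lit 297) (nat_lit 1) (nat_lit 288) (nat_lit 1) (nat_lit 296) (nat_lit 1) (nat_lit 338) (nat_lit 430) (nat_lit 372))) (XT.nd (nat_lit 78) (nat_lit 1216) (nat_lit 0) (XT.lf (nat_lit 76) (nat_lit 709135786) (nat_lit 0) (nat_lit 5009640878) (nat_lit 684) (nat_lit 709135786) (nat_lit 289) (nat_lit 1) (nat_lit 288) (nat_lit 1) (nat_lit 297) (nat_lit 1) (nat_lit 339) (nat_lit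 430) (nat_lit 371)) (XT.nd (nat_lit 78) (nat_lit 684) (nat_lit 0) (XT.lf (nat_lit 608) (nat_lit 270076062) (nat_lit 0) (nat_lit 3052780982) (nat_lit 532) (nat_lit 3052780982) (nat_lit 289) (nat_lit 1) (nat_lit 281) (nat_lit 1) (nat_lit 288) (nat_lit 1) (nat_lit 340) (nat_lit 430) (nat_lit 370)) (XT.lf (nat_lit 684) (nat_lit 5472376460) (nat_lit 0) (nat_lit 425876821) (nat_lit 608) (nat_lit 425876821) (nat_lit 281) (nat_lit 1) (nat_lit 272) (nat_lit 1) (nat_lit 280) (nat_lit 1) (nat_lit 341) (nat_lit 430) (nat_lit 369))))))) (XT.nd (nat_lit 702) (nat_lit 2508) (nat_lit 0) (XT.nd (nat_lit 312) (nat_lit 1596) (nat_lit 0) (XT.nd (nat_lit 156) (nat_lit 532) (nat_lit 0) (XT.nd (nat_lit 78) (nat_lit 532) (nat_lit 0) (XT.lf (nat_lit 76) (nat_lit 2144621404) (nat_lit 0) (nat_lit 1983644340) (nat_lit 684) (nat_lit 2144621404) (nat_lit 273) (nat_lit 1) (nat_lit 272) (nat_lit 1) (nat_lit 281) (nat_lit 1) (nat_lit 342) (nat_lit 430) (nat_lit 368)) (XT.lf (nat_lit 608) (nat_lit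 3116257563) (nat_lit 0) (nat_lit 1553067753) (nat_lit 532) (nat_lit 1553067753) (nat_lit 273) (nat_lit 1) (nat_lit 265) (nat_lit 1) (nat_lit 272) (nat_lit 1) (nat_lit 343) (nat_lit 430) (nat_lit 367))) (XT.nd (nat_lit 78) (nat_lit 532) (nat_lit 0) (XT.lf (nat_lit 76) (nat_lit 972817281) (nat_lit 0) (nat_lit 4226849853) (nat_lit 608) (nat_lit 972817281) (nat_lit 266) (nat_lit 1) (nat_lit 265) (nat_lit 1) (nat_lit 273) (nat_lit 1) (nat_lit 344) (nat_lit 430) (nat_lit 366)) (XT.lf (nat_lit 608) (nat_lit 770156730) (nat_lit 0) (nat_lit 2676426186) (nat_lit 532) (nat_lit 2676426186) (nat_lit 266) (nat_lit 1) (nat_lit 258) (nat_lit 1) (nat_lit 265) (nat_lit 1) (nat_lit 345) (nat_lit 430) (nat_lit 365)))) (XT.nd (nat_lit 156) (nat_lit 988) (nat_lit 0) (XT.nd (nat_lit 78) (nat_lit 0) (nat_lit 0) (XT.lf (nat_lit 608) (nat_lit 5689478560) (nat_lit 0) (nat_lit 192412193) (nat_lit 532) (nat_lit 192412193) (nat_lit 258) (nat_lit 1) (nat_lit 250) (nat_lit 1) (nat_lit 257)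 (nat_lit 1) (nat_lit 346) (nat_lit 430) (nat_lit 364)) (XT.lf (nat_lit 76) (nat_lit 2240759487) (nat_lit 0) (nat_lit 1544195992) (nat_lit 608) (nat_lit 2240759487) (nat_lit 251) (nat_lit 1) (nat_lit 250) (nat_lit 1) (nat_lit 258) (nat_lit 1) (nat_lit 347) (nat_lit 430) (nat_lit 363))) (XT.nd (nat_lit 78) (nat_lit 456) (nat_lit 0) (XT.lf (nat_lit 608) (nat_lit 3287085689) (nat_lit 0) (nat_lit 1345397403) (nat_lit 532) (nat_lit 1345397403) (nat_lit 251) (nat_lit 1) (nat_lit 243) (nat_lit 1) (nat_lit 250) (nat_lit 1) (nat_lit 348) (nat_lit 430) (nat_lit 362)) (XT.nd (nat_lit 78) (nat_lit 456) (nat_lit 0) (XT.lf (nat_lit 76) (nat_lit 1047151942) (nat_lit 0) (nat_lit 3836253232) (nat_lit 608) (nat_lit 1047151942) (nat_lit 244) (nat_lit 1) (nat_lit 243) (nat_lit 1) (nat_lit 251) (nat_lit 1) (nat_lit 349) (nat_lit 430) (nat_lit 361)) (XT.lf (nat_lit 532) (nat_lit 899671449) (nat_lit 0) (nat_lit 2491997661) (nat_lit 456) (nat_lit 2491997661) (nat_lit 244) (nat_lit 1)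 (nat_lit 237) (nat_lit 1) (nat_lit 243) (nat_lit 1) (nat_lit 350) (nat_lit 430) (nat_lit 360)))))) (XT.nd (nat_lit 312) (nat_lit 1444) (nat_lit 0) (XT.nd (nat_lit 156) (nat_lit 456) (nat_lit 0) (XT.nd (nat_lit 78) (nat_lit 0) (nat_lit 0) (XT.lf (nat_lit 608) (nat_lit 5561837428) (nat_lit 0) (nat_lit 137834642) (nat_lit 532) (nat_lit 137834642) (nat_lit 237) (nat_lit 1) (nat_lit 229) (nat_lit 1) (nat_lit 236) (nat_lit 1) (nat_lit 351) (nat_lit 430) (nat_lit 359)) (XT.lf (nat_lit 76) (nat_lit 2169453864) (nat_lit 0) (nat_lit 1452507267) (nat_lit 608) (nat_lit 2169453864) (nat_lit 230) (nat_lit 1) (nat_lit 229) (nat_lit 1) (nat_lit 237) (nat_lit 1) (nat_lit 352) (nat_lit 430) (nat_lit 358))) (XT.nd (nat_lit 78) (nat_lit 0) (nat_lit 0) (XT.lf (nat_lit 532) (nat_lit 3130401074) (nat_lit 0) (nat_lit 1307819295) (nat_lit 456) (nat_lit 1307819295) (nat_lit 230) (nat_lit 1) (nat_lit 223) (nat_lit 1) (nat_lit 229) (nat_lit 1) (nat_lit 353) (nat_lit 430) (nat_lit 357))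 (XT.lf (nat_lit 76) (nat_lit 962429747) (nat_lit 0) (nat_lit 3776288059) (nat_lit 532) (nat_lit 962429747) (nat_lit 224) (nat_lit 1) (nat_lit 223) (nat_lit 1) (nat_lit 230) (nat_lit 1) (nat_lit 354) (nat_lit 430) (nat_lit 356)))) (XT.nd (nat_lit 156) (nat_lit 456) (nat_lit 0) (XT.nd (nat_lit 78) (nat_lit 532) (nat_lit 0) (XT.lf (nat_lit 532) (nat_lit 718111987) (nat_lit 0) (nat_lit 2469268279) (nat_lit 456) (nat_lit 2469268279) (nat_lit 224) (nat_lit 1) (nat_lit 217) (nat_lit 1) (nat_lit 223) (nat_lit 1) (nat_lit 355) (nat_lit 430) (nat_lit 355)) (XT.lf (nat_lit 532) (nat_lit 5146167225) (nat_lit 0) (nat_lit 233319594) (nat_lit 456) (nat_lit 233319594) (nat_lit 217) (nat_lit 1) (nat_lit 210) (nat_lit 1) (nat_lit 216) (nat_lit 1) (nat_lit 356) (nat_lit 430) (nat_lit 354))) (XT.nd (nat_lit 78) (nat_lit 456) (nat_lit 0) (XT.lf (nat_lit 76) (nat_lit 1958362741) (nat_lit 0) (nat_lit 1652338782) (nat_lit 532) (nat_lit 1958362741) (nat_lit 211) (nat_lit 1) (nat_lit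 210) (nat_lit 1) (nat_lit 217) (nat_lit 1) (nat_lit 357) (nat_lit 430) (nat_lit 353)) (XT.nd (nat_lit 78) (nat_lit 0) (nat_lit 0) (XT.lf (nat_lit 532) (nat_lit 2700519791) (nat_lit 0) (nat_lit 1412723432) (nat_lit 456) (nat_lit 1412723432) (nat_lit 211) (nat_lit 1) (nat_lit 204) (nat_lit 1) (nat_lit 210) (nat_lit 1) (nat_lit 358) (nat_lit 430) (nat_lit 352)) (XT.lf (nat_lit 76) (nat_lit 745138516) (nat_lit 0) (nat_lit 3993086392) (nat_lit 532) (nat_lit 745138516) (nat_lit 205) (nat_lit 1) (nat_lit 204) (nat_lit 1) (nat_lit 211) (nat_lit 1) (nat_lit 359) (nat_lit 430) (nat_lit 351))))))))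
noncomputable def ec125 : XT := (XT.nd (nat_lit 1404) (nat_lit 684) (nat_lit 0) (XT.nd (nat_lit 702) (nat_lit 1824) (nat_lit 0) (XT.nd (nat_lit 312) (nat_lit 1216) (nat_lit 0) (XT.nd (nat_lit 156) (nat_lit 380) (nat_lit 0) (XT.nd (nat_lit 78) (nat_lit 532) (nat_lit 0) (XT.lf (nat_lit 456) (nat_lit 277494219) (nat_lit 0) (nat_lit 2581793114) (nat_lit 380) (nat_lit 2581793114) (nat_lit 205) (nat_lit 1) (nat_lit 199) (nat_lit 1) (nat_lit 204) (nat_lit 1) (nat_lit 360) (nat_lit 430) (nat_lit 350)) (XT.lf (nat_lit 532) (nat_lit 4492015128) (nat_lit 0) (nat_lit 453668695) (nat_lit 456) (nat_lit 453668695) (nat_lit 199) (nat_lit 1) (nat_lit 192) (nat_lit 1) (nat_lit 198) (nat_lit 1) (nat_lit 361) (nat_lit 430) (nat_lit 349))) (XT.nd (nat_lit 78) (nat_lit 380) (nat_lit 0) (XT.lf (nat_lit 76) (nat_lit 1631645014) (nat_lit 0) (nat_lit 2094534125) (nat_lit 532) (nat_lit 1631645014) (nat_lit 193) (nat_lit 1) (nat_lit 192) (nat_lit 1) (nat_lit 199) (nat_lit 1) (nat_lit 362)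 (nat_lit 430) (nat_lit 348)) (XT.lf (nat_lit 456) (nat_lit 2044877748) (nat_lit 0) (nat_lit 1635981065) (nat_lit 380) (nat_lit 1635981065) (nat_lit 193) (nat_lit 1) (nat_lit 187) (nat_lit 1) (nat_lit 192) (nat_lit 1) (nat_lit 363) (nat_lit 430) (nat_lit 347)))) (XT.nd (nat_lit 156) (nat_lit 760) (nat_lit 0) (XT.nd (nat_lit 78) (nat_lit 456) (nat_lit 0) (XT.lf (nat_lit 76) (nat_lit 418406834) (nat_lit 0) (nat_lit 4439580013) (nat_lit 456) (nat_lit 418406834) (nat_lit 188) (nat_lit 1) (nat_lit 187) (nat_lit 1) (nat_lit 193) (nat_lit 1) (nat_lit 364) (nat_lit 430) (nat_lit 346)) (XT.lf (nat_lit 76) (nat_lit 2432144846) (nat_lit 0) (nat_lit 371829228) (nat_lit 456) (nat_lit 2432144846) (nat_lit 182) (nat_lit 1) (nat_lit 181) (nat_lit 1) (nat_lit 187) (nat_lit 1) (nat_lit 365) (nat_lit 430) (nat_lit 345))) (XT.nd (nat_lit 78) (nat_lit 380) (nat_lit 0) (XT.lf (nat_lit 456) (nat_lit 3642597997) (nat_lit 0) (nat_lit 776887060) (nat_lit 380) (nat_lit 776887060) (nat_lit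 182) (nat_lit 1) (nat_lit 176) (nat_lit 1) (nat_lit 181) (nat_lit 1) (nat_lit 366) (nat_lit 430) (nat_lit 344)) (XT.nd (nat_lit 78) (nat_lit 380) (nat_lit 0) (XT.lf (nat_lit 76) (nat_lit 1210368937) (nat_lit 0) (nat_lit 2736193784) (nat_lit 456) (nat_lit 1210368937) (nat_lit 177) (nat_lit 1) (nat_lit 176) (nat_lit 1) (nat_lit 182) (nat_lit 1) (nat_lit 367) (nat_lit 430) (nat_lit 343)) (XT.lf (nat_lit 456) (nat_lit 1204834519) (nat_lit 0) (nat_lit 1956538528) (nat_lit 380) (nat_lit 1956538528) (nat_lit 177) (nat_lit 1) (nat_lit 171) (nat_lit 1) (nat_lit 176) (nat_lit 1) (nat_lit 368) (nat_lit 430) (nat_lit 342)))))) (XT.nd (nat_lit 312) (nat_lit 1064) (nat_lit 0) (XT.nd (nat_lit 156) (nat_lit 380) (nat_lit 0) (XT.nd (nat_lit 78) (nat_lit 380) (nat_lit 0) (XT.lf (nat_lit 76) (nat_lit 2396684) (nat_lit 0) (nat_lit 5074706773) (nat_lit 456) (nat_lit 2396684) (nat_lit 172) (nat_lit 1) (nat_lit 171) (nat_lit 1) (nat_lit 177) (nat_lit 1) (nat_lit 369) (nat_lit 430)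 (nat_lit 341)) (XT.lf (nat_lit 76) (nat_lit 1925866058) (nat_lit 0) (nat_lit 1189298637) (nat_lit 380) (nat_lit 1925866058) (nat_lit 167) (nat_lit 1) (nat_lit 166) (nat_lit 1) (nat_lit 171) (nat_lit 1) (nat_lit 370) (nat_lit 430) (nat_lit 340))) (XT.nd (nat_lit 78) (nat_lit 0) (nat_lit 0) (XT.lf (nat_lit 456) (nat_lit 2635543953) (nat_lit 0) (nat_lit 1183808536) (nat_lit 380) (nat_lit 1183808536) (nat_lit 167) (nat_lit 1) (nat_lit 161) (nat_lit 1) (nat_lit 166) (nat_lit 1) (nat_lit 371) (nat_lit 430) (nat_lit 339)) (XT.lf (nat_lit 76) (nat_lit 712874340) (nat_lit 0) (nat_lit 3539942926) (nat_lit 456) (nat_lit 712874340) (nat_lit 162) (nat_lit 1) (nat_lit 161) (nat_lit 1) (nat_lit 167) (nat_lit 1) (nat_lit 372) (nat_lit 430) (nat_lit 338)))) (XT.nd (nat_lit 156) (nat_lit 304) (nat_lit 0) (XT.nd (nat_lit 78) (nat_lit 456) (nat_lit 0) (XT.lf (nat_lit 380) (nat_lit 216385787) (nat_lit 0) (nat_lit 2356057223) (nat_lit 304) (nat_lit 2356057223) (nat_lit 162) (nat_lit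 1) (nat_lit 157) (nat_lit 1) (nat_lit 161) (nat_lit 1) (nat_lit 373) (nat_lit 430) (nat_lit 337)) (XT.lf (nat_lit 456) (nat_lit 3927446102) (nat_lit 0) (nat_lit 482155480) (nat_lit 380) (nat_lit 482155480) (nat_lit 157) (nat_lit 1) (nat_lit 151) (nat_lit 1) (nat_lit 156) (nat_lit 1) (nat_lit 374) (nat_lit 430) (nat_lit 336))) (XT.nd (nat_lit 78) (nat_lit 304) (nat_lit 0) (XT.lf (nat_lit 76) (nat_lit 1355311360) (nat_lit 0) (nat_lit 2144574085) (nat_lit 456) (nat_lit 1355311360) (nat_lit 152) (nat_lit 1) (nat_lit 151) (nat_lit 1) (nat_lit 157) (nat_lit 1) (nat_lit 375) (nat_lit 430) (nat_lit 335)) (XT.nd (nat_lit 78) (nat_lit 0) (nat_lit 0) (XT.lf (nat_lit 380) (nat_lit 1503549581) (nat_lit 0) (nat_lit 1657763594) (nat_lit 304) (nat_lit 1657763594) (nat_lit 152) (nat_lit 1) (nat_lit 147) (nat_lit 1) (nat_lit 151) (nat_lit 1) (nat_lit 376) (nat_lit 430) (nat_lit 334)) (XT.lf (nat_lit 76) (nat_lit 155093630) (nat_lit 0) (nat_lit 4473282467) (nat_lit 380) (nat_lit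 155093630) (nat_lit 148) (nat_lit 1) (nat_lit 147) (nat_lit 1) (nat_lit 152) (nat_lit 1) (nat_lit 377) (nat_lit 430) (nat_lit 333))))))) (XT.nd (nat_lit 56472) (nat_lit 0) (nat_lit 6916) (XT.nd (nat_lit 56082) (nat_lit 0) (nat_lit 10184) (XT.nd (nat_lit 55926) (nat_lit 0) (nat_lit 12008) (XT.nd (nat_lit 78) (nat_lit 304) (nat_lit 0) (XT.lf (nat_lit 76) (nat_lit 1935162575) (nat_lit 0) (nat_lit 877543200) (nat_lit 380) (nat_lit 1935162575) (nat_lit 143) (nat_lit 1) (nat_lit 142) (nat_lit 1) (nat_lit 147) (nat_lit 1) (nat_lit 378) (nat_lit 430) (nat_lit 332)) (XT.lf (nat_lit 380) (nat_lit 2667128346) (nat_lit 0) (nat_lit 1022822122) (nat_lit 304) (nat_lit 1022822122) (nat_lit 143) (nat_lit 1) (nat_lit 138) (nat_lit 1) (nat_lit 142) (nat_lit 1) (nat_lit 379) (nat_lit 430) (nat_lit 331))) (XT.nd (nat_lit 78) (nat_lit 0) (nat_lit 0) (XT.lf (nat_lit 684) (nat_lit 4942620304) (nat_lit 0) (nat_lit 888579316) (nat_lit 608) (nat_lit 888579316) (nat_lit 305) (nat_lit 1)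 (nat_lit 296) (nat_lit 1) (nat_lit 304) (nat_lit 1) (nat_lit 334) (nat_lit 431) (nat_lit 375)) (XT.lf (nat_lit 76) (nat_lit 1886409505) (nat_lit 0) (nat_lit 2891808611) (nat_lit 684) (nat_lit 1886409505) (nat_lit 297) (nat_lit 1) (nat_lit 296) (nat_lit 1) (nat_lit 305) (nat_lit 1) (nat_lit 335) (nat_lit 431) (nat_lit 374)))) (XT.nd (nat_lit 156) (nat_lit 1216) (nat_lit 0) (XT.nd (nat_lit 78) (nat_lit 0) (nat_lit 0) (XT.lf (nat_lit 684) (nat_lit 2606929941) (nat_lit 0) (nat_lit 2001627362) (nat_lit 608) (nat_lit 2001627362) (nat_lit 297) (nat_lit 1) (nat_lit 288) (nat_lit 1) (nat_lit 296) (nat_lit 1) (nat_lit 336) (nat_lit 431) (nat_lit 373)) (XT.lf (nat_lit 76) (nat_lit 723318502) (nat_lit 0) (nat_lit 5109833696) (nat_lit 684) (nat_lit 723318502) (nat_lit 289) (nat_lit 1) (nat_lit 288) (nat_lit 1) (nat_lit 297) (nat_lit 1) (nat_lit 337) (nat_lit 431) (nat_lit 372))) (XT.nd (nat_lit 78) (nat_lit 684) (nat_lit 0) (XT.lf (nat_lit 608) (nat_lit 275477583) (nat_lit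 0) (nat_lit 3113836602) (nat_lit 532) (nat_lit 3113836602) (nat_lit 289) (nat_lit 1) (nat_lit 281) (nat_lit 1) (nat_lit 288) (nat_lit 1) (nat_lit 338) (nat_lit 431) (nat_lit 371)) (XT.nd (nat_lit 78) (nat_lit 0) (nat_lit 0) (XT.lf (nat_lit 684) (nat_lit 5581823989) (nat_lit 0) (nat_lit 434394357) (nat_lit 608) (nat_lit 434394357) (nat_lit 281) (nat_lit 1) (nat_lit 272) (nat_lit 1) (nat_lit 280) (nat_lit 1) (nat_lit 339) (nat_lit 431) (nat_lit 370)) (XT.lf (nat_lit 76) (nat_lit 2187513832) (nat_lit 0) (nat_lit 2023317226) (nat_lit 684) (nat_lit 2187513832) (nat_lit 273) (nat_lit 1) (nat_lit 272) (nat_lit 1) (nat_lit 281) (nat_lit 1) (nat_lit 340) (nat_lit 431) (nat_lit 369)))))) (XT.nd (nat_lit 312) (nat_lit 1596) (nat_lit 0) (XT.nd (nat_lit 156) (nat_lit 1140) (nat_lit 0) (XT.nd (nat_lit 78) (nat_lit 0) (nat_lit 0) (XT.lf (nat_lit 608) (nat_lit 3178582715) (nat_lit 0) (nat_lit 1584129108) (nat_lit 532) (nat_lit 1584129108) (nat_lit 273) (nat_lit 1) (nat_lit 265)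 (nat_lit 1) (nat_lit 272) (nat_lit 1) (nat_lit 341) (nat_lit 431) (nat_lit 368)) (XT.lf (nat_lit 76) (nat_lit 992273626) (nat_lit 0) (nat_lit 4311386850) (nat_lit 608) (nat_lit 992273626) (nat_lit 266) (nat_lit 1) (nat_lit 265) (nat_lit 1) (nat_lit 273) (nat_lit 1) (nat_lit 342) (nat_lit 431) (nat_lit 367))) (XT.nd (nat_lit 78) (nat_lit 608) (nat_lit 0) (XT.lf (nat_lit 608) (nat_lit 785559865) (nat_lit 0) (nat_lit 2729954709) (nat_lit 532) (nat_lit 2729954709) (nat_lit 266) (nat_lit 1) (nat_lit 258) (nat_lit 1) (nat_lit 265) (nat_lit 1) (nat_lit 343) (nat_lit 431) (nat_lit 366)) (XT.lf (nat_lit 608) (nat_lit 5803268131) (nat_lit 0) (nat_lit 196260436) (nat_lit 532) (nat_lit 196260436) (nat_lit 258) (nat_lit 1) (nat_lit 250) (nat_lit 1) (nat_lit 257) (nat_lit 1) (nat_lit 344) (nat_lit 431) (nat_lit 365)))) (XT.nd (nat_lit 156) (nat_lit 1064) (nat_lit 0) (XT.nd (nat_lit 78) (nat_lit 532) (nat_lit 0) (XT.lf (nat_lit 76) (nat_lit 2285574677) (nat_lit 0) (nat_lit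 1575079912) (nat_lit 608) (nat_lit 2285574677) (nat_lit 251) (nat_lit 1) (nat_lit 250) (nat_lit 1) (nat_lit 258) (nat_lit 1) (nat_lit 345) (nat_lit 431) (nat_lit 364)) (XT.lf (nat_lit 608) (nat_lit 3352827403) (nat_lit 0) (nat_lit 1372305351) (nat_lit 532) (nat_lit 1372305351) (nat_lit 251) (nat_lit 1) (nat_lit 243) (nat_lit 1) (nat_lit 250) (nat_lit 1) (nat_lit 346) (nat_lit 431) (nat_lit 363))) (XT.nd (nat_lit 78) (nat_lit 1064) (nat_lit 0) (XT.lf (nat_lit 76) (nat_lit 1068094980) (nat_lit 0) (nat_lit 3912978296) (nat_lit 608) (nat_lit 1068094980) (nat_lit 244) (nat_lit 1) (nat_lit 243) (nat_lit 1) (nat_lit 251) (nat_lit 1) (nat_lit 347) (nat_lit 431) (nat_lit 362)) (XT.nd (nat_lit 78) (nat_lit 608) (nat_lit 0) (XT.lf (nat_lit 532) (nat_lit 917664878) (nat_lit 0) (nat_lit 2541837615) (nat_lit 456) (nat_lit 2541837615) (nat_lit 244) (nat_lit 1) (nat_lit 237) (nat_lit 1) (nat_lit 243) (nat_lit 1) (nat_lit 348) (nat_lit 431) (nat_lit 361)) (XT.lf (nat_lit 608)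 (nat_lit 5673074177) (nat_lit 0) (nat_lit 140591335) (nat_lit 532) (nat_lit 140591335) (nat_lit 237) (nat_lit 1) (nat_lit 229) (nat_lit 1) (nat_lit 236) (nat_lit 1) (nat_lit 349) (nat_lit 431) (nat_lit 360))))))))
noncomputable def ec126 : XT := (XT.nd (nat_lit 1404) (nat_lit 1824) (nat_lit 0) (XT.nd (nat_lit 702) (nat_lit 2128) (nat_lit 0) (XT.nd (nat_lit 312) (nat_lit 1368) (nat_lit 0) (XT.nd (nat_lit 156) (nat_lit 456) (nat_lit 0) (XT.nd (nat_lit 78) (nat_lit 456) (nat_lit 0) (XT.lf (nat_lit 76) (nat_lit 2212842941) (nat_lit 0) (nat_lit 1481557412) (nat_lit 608) (nat_lit 2212842941) (nat_lit 230) (nat_lit 1) (nat_lit 229) (nat_lit 1) (nat_lit 237) (nat_lit 1) (nat_lit 350) (nat_lit 431) (nat_lit 359)) (XT.lf (nat_lit 532) (nat_lit 3193009096) (nat_lit 0) (nat_lit 1333975681) (nat_lit 456) (nat_lit 1333975681) (nat_lit 230) (nat_lit 1) (nat_lit 223) (nat_lit 1) (nat_lit 229) (nat_lit 1) (nat_lit 351) (nat_lit 431) (nat_lit 358))) (XT.nd (nat_lit 78) (nat_lit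 456) (nat_lit 0) (XT.lf (nat_lit 76) (nat_lit 981678342) (nat_lit 0) (nat_lit 3851813820) (nat_lit 532) (nat_lit 981678342) (nat_lit 224) (nat_lit 1) (nat_lit 223) (nat_lit 1) (nat_lit 230) (nat_lit 1) (nat_lit 352) (nat_lit 431) (nat_lit 357)) (XT.lf (nat_lit 532) (nat_lit 732474226) (nat_lit 0) (nat_lit 2518653644) (nat_lit 456) (nat_lit 2518653644) (nat_lit 224) (nat_lit 1) (nat_lit 217) (nat_lit 1) (nat_lit 223) (nat_lit 1) (nat_lit 353) (nat_lit 431) (nat_lit 356)))) (XT.nd (nat_lit 156) (nat_lit 836) (nat_lit 0) (XT.nd (nat_lit 78) (nat_lit 0) (nat_lit 0) (XT.lf (nat_lit 532) (nat_lit 5249090570) (nat_lit 0) (nat_lit 237985986) (nat_lit 456) (nat_lit 237985986) (nat_lit 217) (nat_lit 1) (nat_lit 210) (nat_lit 1) (nat_lit 216) (nat_lit 1) (nat_lit 354) (nat_lit 431) (nat_lit 355)) (XT.lf (nat_lit 76) (nat_lit 1997529996) (nat_lit 0) (nat_lit 1685385558) (nat_lit 532) (nat_lit 1997529996) (nat_lit 211) (nat_lit 1) (nat_lit 210) (nat_lit 1) (nat_lit 217) (nat_lit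 1) (nat_lit 355) (nat_lit 431) (nat_lit 354))) (XT.nd (nat_lit 78) (nat_lit 380) (nat_lit 0) (XT.lf (nat_lit 532) (nat_lit 2754530187) (nat_lit 0) (nat_lit 1440977900) (nat_lit 456) (nat_lit 1440977900) (nat_lit 211) (nat_lit 1) (nat_lit 204) (nat_lit 1) (nat_lit 210) (nat_lit 1) (nat_lit 356) (nat_lit 431) (nat_lit 353)) (XT.nd (nat_lit 78) (nat_lit 380) (nat_lit 0) (XT.lf (nat_lit 76) (nat_lit 760041286) (nat_lit 0) (nat_lit 4072948120) (nat_lit 532) (nat_lit 760041286) (nat_lit 205) (nat_lit 1) (nat_lit 204) (nat_lit 1) (nat_lit 211) (nat_lit 1) (nat_lit 357) (nat_lit 431) (nat_lit 352)) (XT.lf (nat_lit 456) (nat_lit 283044104) (nat_lit 0) (nat_lit 2633428977) (nat_lit 380) (nat_lit 2633428977) (nat_lit 205) (nat_lit 1) (nat_lit 199) (nat_lit 1) (nat_lit 204) (nat_lit 1) (nat_lit 358) (nat_lit 431) (nat_lit 351)))))) (XT.nd (nat_lit 312) (nat_lit 1216) (nat_lit 0) (XT.nd (nat_lit 156) (nat_lit 380) (nat_lit 0) (XT.nd (nat_lit 78) (nat_lit 0) (nat_lit 0) (XT.lf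 (nat_lit 532) (nat_lit 4581855431) (nat_lit 0) (nat_lit 462742069) (nat_lit 456) (nat_lit 462742069) (nat_lit 199) (nat_lit 1) (nat_lit 192) (nat_lit 1) (nat_lit 198) (nat_lit 1) (nat_lit 359) (nat_lit 431) (nat_lit 350)) (XT.lf (nat_lit 76) (nat_lit 1664277914) (nat_lit 0) (nat_lit 2136424808) (nat_lit 532) (nat_lit 1664277914) (nat_lit 193) (nat_lit 1) (nat_lit 192) (nat_lit 1) (nat_lit 199) (nat_lit 1) (nat_lit 360) (nat_lit 431) (nat_lit 349))) (XT.nd (nat_lit 78) (nat_lit 0) (nat_lit 0) (XT.lf (nat_lit 456) (nat_lit 2085775303) (nat_lit 0) (nat_lit 1668700686) (nat_lit 380) (nat_lit 1668700686) (nat_lit 193) (nat_lit 1) (nat_lit 187) (nat_lit 1) (nat_lit 192) (nat_lit 1) (nat_lit 361) (nat_lit 431) (nat_lit 348)) (XT.lf (nat_lit 76) (nat_lit 426774971) (nat_lit 0) (nat_lit 4528371613) (nat_lit 456) (nat_lit 426774971) (nat_lit 188) (nat_lit 1) (nat_lit 187) (nat_lit 1) (nat_lit 193) (nat_lit 1) (nat_lit 362) (nat_lit 431) (nat_lit 347)))) (XT.nd (nat_lit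 156) (nat_lit 380) (nat_lit 0) (XT.nd (nat_lit 78) (nat_lit 380) (nat_lit 0) (XT.lf (nat_lit 76) (nat_lit 2480787743) (nat_lit 0) (nat_lit 379265813) (nat_lit 456) (nat_lit 2480787743) (nat_lit 182) (nat_lit 1) (nat_lit 181) (nat_lit 1) (nat_lit 187) (nat_lit 1) (nat_lit 363) (nat_lit 431) (nat_lit 346)) (XT.lf (nat_lit 456) (nat_lit 3715449957) (nat_lit 0) (nat_lit 792424801) (nat_lit 380) (nat_lit 792424801) (nat_lit 182) (nat_lit 1) (nat_lit 176) (nat_lit 1) (nat_lit 181) (nat_lit 1) (nat_lit 364) (nat_lit 431) (nat_lit 345))) (XT.nd (nat_lit 78) (nat_lit 380) (nat_lit 0) (XT.lf (nat_lit 76) (nat_lit 1234576316) (nat_lit 0) (nat_lit 2790917660) (nat_lit 456) (nat_lit 1234576316) (nat_lit 177) (nat_lit 1) (nat_lit 176) (nat_lit 1) (nat_lit 182) (nat_lit 1) (nat_lit 365) (nat_lit 431) (nat_lit 344)) (XT.nd (nat_lit 78) (nat_lit 0) (nat_lit 0) (XT.lf (nat_lit 456) (nat_lit 1228931209) (nat_lit 0) (nat_lit 1995669299) (nat_lit 380) (nat_lit 1995669299) (nat_lit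 177) (nat_lit 1) (nat_lit 171) (nat_lit 1) (nat_lit 176) (nat_lit 1) (nat_lit 366) (nat_lit 431) (nat_lit 343)) (XT.lf (nat_lit 76) (nat_lit 2444618) (nat_lit 0) (nat_lit 5176200908) (nat_lit 456) (nat_lit 2444618) (nat_lit 172) (nat_lit 1) (nat_lit 171) (nat_lit 1) (nat_lit 177) (nat_lit 1) (nat_lit 367) (nat_lit 431) (nat_lit 342))))))) (XT.nd (nat_lit 57174) (nat_lit 0) (nat_lit 6232) (XT.nd (nat_lit 312) (nat_lit 760) (nat_lit 0) (XT.nd (nat_lit 156) (nat_lit 304) (nat_lit 0) (XT.nd (nat_lit 78) (nat_lit 380) (nat_lit 0) (XT.lf (nat_lit 76) (nat_lit 1964383380) (nat_lit 0) (nat_lit 1213084610) (nat_lit 380) (nat_lit 1964383380) (nat_lit 167) (nat_lit 1) (nat_lit 166) (nat_lit 1) (nat_lit 171) (nat_lit 1) (nat_lit 368) (nat_lit 431) (nat_lit 341)) (XT.lf (nat_lit 456) (nat_lit 2688254832) (nat_lit 0) (nat_lit 1207484707) (nat_lit 380) (nat_lit 1207484707) (nat_lit 167) (nat_lit 1) (nat_lit 161) (nat_lit 1) (nat_lit 166) (nat_lit 1) (nat_lit 369) (nat_lit 431)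 (nat_lit 340))) (XT.nd (nat_lit 78) (nat_lit 304) (nat_lit 0) (XT.lf (nat_lit 76) (nat_lit 727131827) (nat_lit 0) (nat_lit 3610741784) (nat_lit 456) (nat_lit 727131827) (nat_lit 162) (nat_lit 1) (nat_lit 161) (nat_lit 1) (nat_lit 167) (nat_lit 1) (nat_lit 370) (nat_lit 431) (nat_lit 339)) (XT.lf (nat_lit 380) (nat_lit 220713503) (nat_lit 0) (nat_lit 2403178367) (nat_lit 304) (nat_lit 2403178367) (nat_lit 162) (nat_lit 1) (nat_lit 157) (nat_lit 1) (nat_lit 161) (nat_lit 1) (nat_lit 371) (nat_lit 431) (nat_lit 338)))) (XT.nd (nat_lit 156) (nat_lit 304) (nat_lit 0) (XT.nd (nat_lit 78) (nat_lit 0) (nat_lit 0) (XT.lf (nat_lit 456) (nat_lit 4005995024) (nat_lit 0) (nat_lit 491798590) (nat_lit 380) (nat_lit 491798590) (nat_lit 157) (nat_lit 1) (nat_lit 151) (nat_lit 1) (nat_lit 156) (nat_lit 1) (nat_lit 372) (nat_lit 431) (nat_lit 337)) (XT.lf (nat_lit 76) (nat_lit 1382417587) (nat_lit 0) (nat_lit 2187465567) (nat_lit 456) (nat_lit 1382417587) (nat_lit 152) (nat_lit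 1) (nat_lit 151) (nat_lit 1) (nat_lit 157) (nat_lit 1) (nat_lit 373) (nat_lit 431) (nat_lit 336))) (XT.nd (nat_lit 78) (nat_lit 0) (nat_lit 0) (XT.lf (nat_lit 380) (nat_lit 1533620573) (nat_lit 0) (nat_lit 1690918866) (nat_lit 304) (nat_lit 1690918866) (nat_lit 152) (nat_lit 1) (nat_lit 147) (nat_lit 1) (nat_lit 151) (nat_lit 1) (nat_lit 374) (nat_lit 431) (nat_lit 335)) (XT.nd (nat_lit 56550) (nat_lit 0) (nat_lit 8968) (XT.lf (nat_lit 76) (nat_lit 158195503) (nat_lit 0) (nat_lit 4562748117) (nat_lit 380) (nat_lit 158195503) (nat_lit 148) (nat_lit 1) (nat_lit 147) (nat_lit 1) (nat_lit 152) (nat_lit 1) (nat_lit 375) (nat_lit 431) (nat_lit 334)) (XT.lf (nat_lit 608) (nat_lit 3242154369) (nat_lit 0) (nat_lit 1615811690) (nat_lit 532) (nat_lit 1615811690) (nat_lit 273) (nat_lit 1) (nat_lit 265) (nat_lit 1) (nat_lit 272) (nat_lit 1) (nat_lit 339) (nat_lit 432) (nat_lit 369)))))) (XT.nd (nat_lit 312) (nat_lit 1596) (nat_lit 0) (XT.nd (nat_lit 156) (nat_lit 608) (nat_lit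 0) (XT.nd (nat_lit 78) (nat_lit 532) (nat_lit 0) (XT.lf (nat_lit 76) (nat_lit 1012119099) (nat_lit 0) (nat_lit 4397614587) (nat_lit 608) (nat_lit 1012119099) (nat_lit 266) (nat_lit 1) (nat_lit 265) (nat_lit 1) (nat_lit 273) (nat_lit 1) (nat_lit 340) (nat_lit 432) (nat_lit 368)) (XT.lf (nat_lit 608) (nat_lit 801271062) (nat_lit 0) (nat_lit 2784553804) (nat_lit 532) (nat_lit 2784553804) (nat_lit 266) (nat_lit 1) (nat_lit 258) (nat_lit 1) (nat_lit 265) (nat_lit 1) (nat_lit 341) (nat_lit 432) (nat_lit 367))) (XT.nd (nat_lit 78) (nat_lit 0) (nat_lit 0) (XT.lf (nat_lit 608) (nat_lit 5919333494) (nat_lit 0) (nat_lit 200185645) (nat_lit 532) (nat_lit 200185645) (nat_lit 258) (nat_lit 1) (nat_lit 250) (nat_lit 1) (nat_lit 257) (nat_lit 1) (nat_lit 342) (nat_lit 432) (nat_lit 366)) (XT.lf (nat_lit 76) (nat_lit 2331286171) (nat_lit 0) (nat_lit 1606581510) (nat_lit 608) (nat_lit 2331286171) (nat_lit 251) (nat_lit 1) (nat_lit 250) (nat_lit 1) (nat_lit 258) (nat_lit 1) (nat_lit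 343) (nat_lit 432) (nat_lit 365)))) (XT.nd (nat_lit 156) (nat_lit 1064) (nat_lit 0) (XT.nd (nat_lit 78) (nat_lit 0) (nat_lit 0) (XT.lf (nat_lit 608) (nat_lit 3419883951) (nat_lit 0) (nat_lit 1399751458) (nat_lit 532) (nat_lit 1399751458) (nat_lit 251) (nat_lit 1) (nat_lit 243) (nat_lit 1) (nat_lit 250) (nat_lit 1) (nat_lit 344) (nat_lit 432) (nat_lit 364)) (XT.lf (nat_lit 76) (nat_lit 1089456880) (nat_lit 0) (nat_lit 3991237862) (nat_lit 608) (nat_lit 1089456880) (nat_lit 244) (nat_lit 1) (nat_lit 243) (nat_lit 1) (nat_lit 251) (nat_lit 1) (nat_lit 345) (nat_lit 432) (nat_lit 363))) (XT.nd (nat_lit 78) (nat_lit 608) (nat_lit 0) (XT.lf (nat_lit 532) (nat_lit 936018175) (nat_lit 0) (nat_lit 2592674367) (nat_lit 456) (nat_lit 2592674367) (nat_lit 244) (nat_lit 1) (nat_lit 237) (nat_lit 1) (nat_lit 243) (nat_lit 1) (nat_lit 346) (nat_lit 432) (nat_lit 362)) (XT.nd (nat_lit 78) (nat_lit 0) (nat_lit 0) (XT.lf (nat_lit 608) (nat_lit 5786535660) (nat_lit 0) (nat_lit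 143403162) (nat_lit 532) (nat_lit 143403162) (nat_lit 237) (nat_lit 1) (nat_lit 229) (nat_lit 1) (nat_lit 236) (nat_lit 1) (nat_lit 347) (nat_lit 432) (nat_lit 361)) (XT.lf (nat_lit 76) (nat_lit 2257099800) (nat_lit 0) (nat_lit 1511188560) (nat_lit 608) (nat_lit 2257099800) (nat_lit 230) (nat_lit 1) (nat_lit 229) (nat_lit 1) (nat_lit 237) (nat_lit 1) (nat_lit 348) (nat_lit 432) (nat_lit 360))))))))
noncomputable def ec127 : XT := (XT.nd (nat_lit 1404) (nat_lit 684) (nat_lit 0) (XT.nd (nat_lit 702) (nat_lit 1976) (nat_lit 0) (XT.nd (nat_lit 312) (nat_lit 1368) (nat_lit 0) (XT.nd (nat_lit 156) (nat_lit 988) (nat_lit 0) (XT.nd (nat_lit 78) (nat_lit 0) (nat_lit 0) (XT.lf (nat_lit 532) (nat_lit 3256869278) (nat_lit 0) (nat_lit 1360655195) (nat_lit 456) (nat_lit 1360655195) (nat_lit 230) (nat_lit 1) (nat_lit 223) (nat_lit 1) (nat_lit 229) (nat_lit 1) (nat_lit 349) (nat_lit 432) (nat_lit 359)) (XT.lf (nat_lit 76) (nat_lit 1001311909) (nat_lit 0) (nat_lit 3928850097)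 (nat_lit 532) (nat_lit 1001311909) (nat_lit 224) (nat_lit 1) (nat_lit 223) (nat_lit 1) (nat_lit 230) (nat_lit 1) (nat_lit 350) (nat_lit 432) (nat_lit 358))) (XT.nd (nat_lit 78) (nat_lit 532) (nat_lit 0) (XT.lf (nat_lit 532) (nat_lit 747123711) (nat_lit 0) (nat_lit 2569026717) (nat_lit 456) (nat_lit 2569026717) (nat_lit 224) (nat_lit 1) (nat_lit 217) (nat_lit 1) (nat_lit 223) (nat_lit 1) (nat_lit 351) (nat_lit 432) (nat_lit 357)) (XT.lf (nat_lit 532) (nat_lit 5354072381) (nat_lit 0) (nat_lit 242745705) (nat_lit 456) (nat_lit 242745705) (nat_lit 217) (nat_lit 1) (nat_lit 210) (nat_lit 1) (nat_lit 216) (nat_lit 1) (nat_lit 352) (nat_lit 432) (nat_lit 356)))) (XT.nd (nat_lit 156) (nat_lit 912) (nat_lit 0) (XT.nd (nat_lit 78) (nat_lit 456) (nat_lit 0) (XT.lf (nat_lit 76) (nat_lit 2037480596) (nat_lit 0) (nat_lit 1719093269) (nat_lit 532) (nat_lit 2037480596) (nat_lit 211) (nat_lit 1) (nat_lit 210) (nat_lit 1) (nat_lit 217) (nat_lit 1) (nat_lit 353) (nat_lit 432) (nat_lit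 355)) (XT.lf (nat_lit 532) (nat_lit 2809620790) (nat_lit 0) (nat_lit 1469797458) (nat_lit 456) (nat_lit 1469797458) (nat_lit 211) (nat_lit 1) (nat_lit 204) (nat_lit 1) (nat_lit 210) (nat_lit 1) (nat_lit 354) (nat_lit 432) (nat_lit 354))) (XT.nd (nat_lit 78) (nat_lit 912) (nat_lit 0) (XT.lf (nat_lit 76) (nat_lit 775242112) (nat_lit 0) (nat_lit 4154407083) (nat_lit 532) (nat_lit 775242112) (nat_lit 205) (nat_lit 1) (nat_lit 204) (nat_lit 1) (nat_lit 211) (nat_lit 1) (nat_lit 355) (nat_lit 432) (nat_lit 353)) (XT.nd (nat_lit 78) (nat_lit 532) (nat_lit 0) (XT.lf (nat_lit 456) (nat_lit 288704986) (nat_lit 0) (nat_lit 2686097556) (nat_lit 380) (nat_lit 2686097556) (nat_lit 205) (nat_lit 1) (nat_lit 199) (nat_lit 1) (nat_lit 204) (nat_lit 1) (nat_lit 356) (nat_lit 432) (nat_lit 352)) (XT.lf (nat_lit 532) (nat_lit 4673492539) (nat_lit 0) (nat_lit 471996911) (nat_lit 456) (nat_lit 471996911) (nat_lit 199) (nat_lit 1) (nat_lit 192) (nat_lit 1) (nat_lit 198) (nat_lit 1)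 (nat_lit 357) (nat_lit 432) (nat_lit 351)))))) (XT.nd (nat_lit 312) (nat_lit 1140) (nat_lit 0) (XT.nd (nat_lit 156) (nat_lit 456) (nat_lit 0) (XT.nd (nat_lit 78) (nat_lit 380) (nat_lit 0) (XT.lf (nat_lit 76) (nat_lit 1697563473) (nat_lit 0) (nat_lit 2179153304) (nat_lit 532) (nat_lit 1697563473) (nat_lit 193) (nat_lit 1) (nat_lit 192) (nat_lit 1) (nat_lit 199) (nat_lit 1) (nat_lit 358) (nat_lit 432) (nat_lit 350)) (XT.lf (nat_lit 456) (nat_lit 2127490809) (nat_lit 0) (nat_lit 1702074700) (nat_lit 380) (nat_lit 1702074700) (nat_lit 193) (nat_lit 1) (nat_lit 187) (nat_lit 1) (nat_lit 192) (nat_lit 1) (nat_lit 359) (nat_lit 432) (nat_lit 349))) (XT.nd (nat_lit 78) (nat_lit 456) (nat_lit 0) (XT.lf (nat_lit 76) (nat_lit 435310470) (nat_lit 0) (nat_lit 4618939046) (nat_lit 456) (nat_lit 435310470) (nat_lit 188) (nat_lit 1) (nat_lit 187) (nat_lit 1) (nat_lit 193) (nat_lit 1) (nat_lit 360) (nat_lit 432) (nat_lit 348)) (XT.lf (nat_lit 76) (nat_lit 2530403498) (nat_lit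 0) (nat_lit 386851129) (nat_lit 456) (nat_lit 2530403498) (nat_lit 182) (nat_lit 1) (nat_lit 181) (nat_lit 1) (nat_lit 187) (nat_lit 1) (nat_lit 361) (nat_lit 432) (nat_lit 347)))) (XT.nd (nat_lit 156) (nat_lit 760) (nat_lit 0) (XT.nd (nat_lit 78) (nat_lit 0) (nat_lit 0) (XT.lf (nat_lit 456) (nat_lit 3789758956) (nat_lit 0) (nat_lit 808273297) (nat_lit 380) (nat_lit 808273297) (nat_lit 182) (nat_lit 1) (nat_lit 176) (nat_lit 1) (nat_lit 181) (nat_lit 1) (nat_lit 362) (nat_lit 432) (nat_lit 346)) (XT.lf (nat_lit 76) (nat_lit 1259267842) (nat_lit 0) (nat_lit 2846736013) (nat_lit 456) (nat_lit 1259267842) (nat_lit 177) (nat_lit 1) (nat_lit 176) (nat_lit 1) (nat_lit 182) (nat_lit 1) (nat_lit 363) (nat_lit 432) (nat_lit 345))) (XT.nd (nat_lit 78) (nat_lit 380) (nat_lit 0) (XT.lf (nat_lit 456) (nat_lit 1253509833) (nat_lit 0) (nat_lit 2035582685) (nat_lit 380) (nat_lit 2035582685) (nat_lit 177) (nat_lit 1) (nat_lit 171) (nat_lit 1) (nat_lit 176) (nat_lit 1) (nat_lit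 364) (nat_lit 432) (nat_lit 344)) (XT.nd (nat_lit 78) (nat_lit 380) (nat_lit 0) (XT.lf (nat_lit 76) (nat_lit 2493510) (nat_lit 0) (nat_lit 5279724926) (nat_lit 456) (nat_lit 2493510) (nat_lit 172) (nat_lit 1) (nat_lit 171) (nat_lit 1) (nat_lit 177) (nat_lit 1) (nat_lit 365) (nat_lit 432) (nat_lit 343)) (XT.lf (nat_lit 76) (nat_lit 2003671047) (nat_lit 0) (nat_lit 1237346302) (nat_lit 380) (nat_lit 2003671047) (nat_lit 167) (nat_lit 1) (nat_lit 166) (nat_lit 1) (nat_lit 171) (nat_lit 1) (nat_lit 366) (nat_lit 432) (nat_lit 342))))))) (XT.nd (nat_lit 58188) (nat_lit 0) (nat_lit 1444) (XT.nd (nat_lit 57798) (nat_lit 0) (nat_lit 4028) (XT.nd (nat_lit 156) (nat_lit 304) (nat_lit 0) (XT.nd (nat_lit 78) (nat_lit 0) (nat_lit 0) (XT.lf (nat_lit 456) (nat_lit 2742019928) (nat_lit 0) (nat_lit 1231634401) (nat_lit 380) (nat_lit 1231634401) (nat_lit 167) (nat_lit 1) (nat_lit 161) (nat_lit 1) (nat_lit 166) (nat_lit 1) (nat_lit 367) (nat_lit 432) (nat_lit 341)) (XT.lf (nat_lit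 76) (nat_lit 741674464) (nat_lit 0) (nat_lit 3682956620) (nat_lit 456) (nat_lit 741674464) (nat_lit 162) (nat_lit 1) (nat_lit 161) (nat_lit 1) (nat_lit 167) (nat_lit 1) (nat_lit 368) (nat_lit 432) (nat_lit 340))) (XT.nd (nat_lit 57564) (nat_lit 0) (nat_lit 5472) (XT.lf (nat_lit 380) (nat_lit 225127773) (nat_lit 0) (nat_lit 2451241935) (nat_lit 304) (nat_lit 2451241935) (nat_lit 162) (nat_lit 1) (nat_lit 157) (nat_lit 1) (nat_lit 161) (nat_lit 1) (nat_lit 369) (nat_lit 432) (nat_lit 339)) (XT.lf (nat_lit 76) (nat_lit 2302241796) (nat_lit 0) (nat_lit 1541412331) (nat_lit 608) (nat_lit 2302241796) (nat_lit 230) (nat_lit 1) (nat_lit 229) (nat_lit 1) (nat_lit 237) (nat_lit 1) (nat_lit 346) (nat_lit 433) (nat_lit 361)))) (XT.nd (nat_lit 156) (nat_lit 988) (nat_lit 0) (XT.nd (nat_lit 78) (nat_lit 0) (nat_lit 0) (XT.lf (nat_lit 532) (nat_lit 3322006663) (nat_lit 0) (nat_lit 1387868299) (nat_lit 456) (nat_lit 1387868299) (nat_lit 230) (nat_lit 1) (nat_lit 223) (nat_lit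 1) (nat_lit 229) (nat_lit 1) (nat_lit 347) (nat_lit 433) (nat_lit 360)) (XT.lf (nat_lit 76) (nat_lit 1021338147) (nat_lit 0) (nat_lit 4007427099) (nat_lit 532) (nat_lit 1021338147) (nat_lit 224) (nat_lit 1) (nat_lit 223) (nat_lit 1) (nat_lit 230) (nat_lit 1) (nat_lit 348) (nat_lit 433) (nat_lit 359))) (XT.nd (nat_lit 78) (nat_lit 532) (nat_lit 0) (XT.lf (nat_lit 532) (nat_lit 762066185) (nat_lit 0) (nat_lit 2620407251) (nat_lit 456) (nat_lit 2620407251) (nat_lit 224) (nat_lit 1) (nat_lit 217) (nat_lit 1) (nat_lit 223) (nat_lit 1) (nat_lit 349) (nat_lit 433) (nat_lit 358)) (XT.nd (nat_lit 78) (nat_lit 0) (nat_lit 0) (XT.lf (nat_lit 532) (nat_lit 5461153829) (nat_lit 0) (nat_lit 247600620) (nat_lit 456) (nat_lit 247600620) (nat_lit 217) (nat_lit 1) (nat_lit 210) (nat_lit 1) (nat_lit 216) (nat_lit 1) (nat_lit 350) (nat_lit 433) (nat_lit 357)) (XT.lf (nat_lit 76) (nat_lit 2078230208) (nat_lit 0) (nat_lit 1753475134) (nat_lit 532) (nat_lit 2078230208) (nat_lit 211)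 (nat_lit 1) (nat_lit 210) (nat_lit 1) (nat_lit 217) (nat_lit 1) (nat_lit 351) (nat_lit 433) (nat_lit 356)))))) (XT.nd (nat_lit 390) (nat_lit 1216) (nat_lit 0) (XT.nd (nat_lit 156) (nat_lit 912) (nat_lit 0) (XT.nd (nat_lit 78) (nat_lit 0) (nat_lit 0) (XT.lf (nat_lit 532) (nat_lit 2865813206) (nat_lit 0) (nat_lit 1499193408) (nat_lit 456) (nat_lit 1499193408) (nat_lit 211) (nat_lit 1) (nat_lit 204) (nat_lit 1) (nat_lit 210) (nat_lit 1) (nat_lit 352) (nat_lit 433) (nat_lit 355)) (XT.lf (nat_lit 76) (nat_lit 790746954) (nat_lit 0) (nat_lit 4237495224) (nat_lit 532) (nat_lit 790746954) (nat_lit 205) (nat_lit 1) (nat_lit 204) (nat_lit 1) (nat_lit 211) (nat_lit 1) (nat_lit 353) (nat_lit 433) (nat_lit 354))) (XT.nd (nat_lit 78) (nat_lit 532) (nat_lit 0) (XT.lf (nat_lit 456) (nat_lit 294479086) (nat_lit 0) (nat_lit 2739819507) (nat_lit 380) (nat_lit 2739819507) (nat_lit 205) (nat_lit 1) (nat_lit 199) (nat_lit 1) (nat_lit 204) (nat_lit 1) (nat_lit 354) (nat_lit 433) (nat_lit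 353)) (XT.nd (nat_lit 78) (nat_lit 0) (nat_lit 0) (XT.lf (nat_lit 532) (nat_lit 4766962390) (nat_lit 0) (nat_lit 481436849) (nat_lit 456) (nat_lit 481436849) (nat_lit 199) (nat_lit 1) (nat_lit 192) (nat_lit 1) (nat_lit 198) (nat_lit 1) (nat_lit 355) (nat_lit 433) (nat_lit 352)) (XT.lf (nat_lit 76) (nat_lit 1731514742) (nat_lit 0) (nat_lit 2222736370) (nat_lit 532) (nat_lit 1731514742) (nat_lit 193) (nat_lit 1) (nat_lit 192) (nat_lit 1) (nat_lit 199) (nat_lit 1) (nat_lit 356) (nat_lit 433) (nat_lit 351))))) (XT.nd (nat_lit 156) (nat_lit 836) (nat_lit 0) (XT.nd (nat_lit 78) (nat_lit 0) (nat_lit 0) (XT.lf (nat_lit 456) (nat_lit 2170040626) (nat_lit 0) (nat_lit 1736116194) (nat_lit 380) (nat_lit 1736116194) (nat_lit 193) (nat_lit 1) (nat_lit 187) (nat_lit 1) (nat_lit 192) (nat_lit 1) (nat_lit 357) (nat_lit 433) (nat_lit 350)) (XT.lf (nat_lit 76) (nat_lit 444016679) (nat_lit 0) (nat_lit 4711317826) (nat_lit 456) (nat_lit 444016679) (nat_lit 188) (nat_lit 1) (nat_lit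 187) (nat_lit 1) (nat_lit 193) (nat_lit 1) (nat_lit 358) (nat_lit 433) (nat_lit 349))) (XT.nd (nat_lit 78) (nat_lit 380) (nat_lit 0) (XT.lf (nat_lit 76) (nat_lit 2581011568) (nat_lit 0) (nat_lit 394588152) (nat_lit 456) (nat_lit 2581011568) (nat_lit 182) (nat_lit 1) (nat_lit 181) (nat_lit 1) (nat_lit 187) (nat_lit 1) (nat_lit 359) (nat_lit 433) (nat_lit 348)) (XT.nd (nat_lit 78) (nat_lit 0) (nat_lit 0) (XT.lf (nat_lit 456) (nat_lit 3865554135) (nat_lit 0) (nat_lit 824438763) (nat_lit 380) (nat_lit 824438763) (nat_lit 182) (nat_lit 1) (nat_lit 176) (nat_lit 1) (nat_lit 181) (nat_lit 1) (nat_lit 360) (nat_lit 433) (nat_lit 347)) (XT.lf (nat_lit 76) (nat_lit 1284453199) (nat_lit 0) (nat_lit 2903670733) (nat_lit 456) (nat_lit 1284453199) (nat_lit 177) (nat_lit 1) (nat_lit 176) (nat_lit 1) (nat_lit 182) (nat_lit 1) (nat_lit 361) (nat_lit 433) (nat_lit 346))))))))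

set_option maxRecDepth 10000000 in
noncomputable def Tp : PT := (PT.nd (nat_lit 11650158) (PT.nd (nat_lit 10402704) (PT.nd (nat_lit 9276462) (PT.nd (nat_lit 8445450) (PT.nd (nat_lit 7852572) (PT.nd (nat_lit 7496580) pc0 pc1) (PT.nd (nat_lit 296712) pc2 pc3)) (PT.nd (nat_lit 474318) (PT.nd (nat_lit 237354) pc4 pc5) (PT.nd (nat_lit 178464) pc6 pc7))) (PT.nd (nat_lit 651378) (PT.nd (nat_lit 355134) (PT.nd (nat_lit 177840) pc8 pc9) (PT.nd (nat_lit 119652) pc10 pc11)) (PT.nd (nat_lit 237978) (PT.nd (nat_lit 119106) pc12 pc13) (PT.nd (nat_lit 118560) pc14 pc15)))) (PT.nd (nat_lit 712608) (PT.nd (nat_lit 357708) (PT.nd (nat_lit 179166) (PT.nd (nat_lit 117936) pc16 pc17) (PT.nd (nat_lit 117468) pc18 pc19)) (PT.nd (nat_lit 177762) (PT.nd (nat_lit 117000) pc20 pc21) (PT.nd (nat_lit 116532) pc22 pc23))) (PT.nd (nat_lit 296088) (PT.nd (nat_lit 175968) (PT.nd (nat_lit 60372) pc24 pc25) (PT.nd (nat_lit 60060) pc26 pc27)) (PT.nd (nat_lit 119574) (PT.nd (nat_lit 59826) pc28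 pc29) (PT.nd (nat_lit 59592) pc30 pc31))))) (PT.nd (nat_lit 828282) (PT.nd (nat_lit 471354) (PT.nd (nat_lit 236730) (PT.nd (nat_lit 118560) (PT.nd (nat_lit 59358) pc32 pc33) (PT.nd (nat_lit 59124) pc34 pc35)) (PT.nd (nat_lit 117546) (PT.nd (nat_lit 58812) pc36 pc37) (PT.nd (nat_lit 58578) pc38 pc39))) (PT.nd (nat_lit 179166) (PT.nd (nat_lit 63024) (PT.nd (nat_lit 58266) pc40 pc41) (PT.nd (nat_lit 58110) pc42 pc43)) (PT.nd (nat_lit 62556) (PT.nd (nat_lit 57798) pc44 pc45) (PT.nd (nat_lit 57642) pc46 pc47)))) (PT.nd (nat_lit 301080) (PT.nd (nat_lit 176358) (PT.nd (nat_lit 62088) (PT.nd (nat_lit 57330) pc48 pc49) (PT.nd (nat_lit 57174) pc50 pc51)) (PT.nd (nat_lit 61620) (PT.nd (nat_lit 4758) pc52 pc53) (PT.nd (nat_lit 56706) pc54 pc55))) (PT.nd (nat_lit 289692) (PT.nd (nat_lit 118482) (PT.nd (nat_lit 58968) pc56 pc57) (PT.nd (nat_lit 111072) pc58 pc59)) (PT.nd (nat_lit 177138) (PT.nd (nat_lit 65364) pc60 pc61) (PT.nd (nat_lit 118482) pc62 pc63))))))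

set_option maxRecDepth 10000000 in
noncomputable def Tx : XT := (XT.nd (nat_lit 19921668) (nat_lit 0) (nat_lit 10032) XT.nil (XT.nd (nat_lit 6111534) (nat_lit 0) (nat_lit 0) (XT.nd (nat_lit 2906826) (nat_lit 0) (nat_lit 6536) (XT.nd (nat_lit 2015598) (nat_lit 0) (nat_lit 3040) (XT.nd (nat_lit 1421004) (nat_lit 0) (nat_lit 1596) (XT.nd (nat_lit 949104) (nat_lit 0) (nat_lit 608) (XT.nd (nat_lit 652080) (nat_lit 0) (nat_lit 304) (XT.nd (nat_lit 415428) (nat_lit 0) (nat_lit 0) (XT.nd (nat_lit 296244) (nat_lit 0) (nat_lit 0) xc0 xc1) (XT.nd (nat_lit 118560) (nat_lit 0) (nat_lit 304) xc2 xc3)) (XT.nd (nat_lit 177450) (nat_lit 0) (nat_lit 304) (XT.nd (nat_lit 117468) (nat_lit 0) (nat_lit 304) xc4 xc5) (XT.nd (nat_lit 59826) (nat_lit 0) (nat_lit 0) xc6 xc7))) (XT.nd (nat_lit 237120) (nat_lit 0) (nat_lit 380) (XT.nd (nat_lit 118872) (nat_lit 0) (nat_lit 304) (XT.nd (nat_lit 59514) (nat_lit 0) (nat_lit 304) xc8 xc9) (XT.nd (nat_lit 59202) (nat_lit 0) (nat_lit 0) xc10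 xc11)) (XT.nd (nat_lit 117624) (nat_lit 0) (nat_lit 304) (XT.nd (nat_lit 58890) (nat_lit 0) (nat_lit 0) xc12 xc13) (XT.nd (nat_lit 58578) (nat_lit 0) (nat_lit 304) xc14 xc15)))) (XT.nd (nat_lit 299130) (nat_lit 0) (nat_lit 760) (XT.nd (nat_lit 177528) (nat_lit 0) (nat_lit 380) (XT.nd (nat_lit 61308) (nat_lit 0) (nat_lit 0) (XT.nd (nat_lit 2964) (nat_lit 2356) (nat_lit 0) xc16 xc17) (XT.nd (nat_lit 58188) (nat_lit 0) (nat_lit 380) xc18 xc19)) (XT.nd (nat_lit 60840) (nat_lit 0) (nat_lit 0) (XT.nd (nat_lit 2964) (nat_lit 5168) (nat_lit 0) xc20 xc21) (XT.nd (nat_lit 57720) (nat_lit 0) (nat_lit 5700) xc22 xc23))) (XT.nd (nat_lit 175266) (nat_lit 0) (nat_lit 380) (XT.nd (nat_lit 60528) (nat_lit 0) (nat_lit 0) (XT.nd (nat_lit 57564) (nat_lit 0) (nat_lit 380) xc24 xc25) (XT.nd (nat_lit 57408) (nat_lit 0) (nat_lit 380) xc26 xc27)) (XT.nd (nat_lit 60138) (nat_lit 0) (nat_lit 304) (XT.nd (nat_lit 2964) (nat_lit 4408) (nat_lit 0) xc28 xc29) (XT.nd (nat_lit 2964) (nat_lit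 836) (nat_lit 0) xc30 xc31))))) (XT.nd (nat_lit 474786) (nat_lit 0) (nat_lit 1672) (XT.nd (nat_lit 238524) (nat_lit 0) (nat_lit 836) (XT.nd (nat_lit 119496) (nat_lit 0) (nat_lit 456) (XT.nd (nat_lit 59826) (nat_lit 0) (nat_lit 0) (XT.nd (nat_lit 56862) (nat_lit 0) (nat_lit 10412) xc32 xc33) (XT.nd (nat_lit 56706) (nat_lit 0) (nat_lit 8512) xc34 xc35)) (XT.nd (nat_lit 59514) (nat_lit 0) (nat_lit 380) (XT.nd (nat_lit 56550) (nat_lit 0) (nat_lit 7372) xc36 xc37) (XT.nd (nat_lit 56472) (nat_lit 0) (nat_lit 6460) xc38 xc39))) (XT.nd (nat_lit 118404) (nat_lit 0) (nat_lit 380) (XT.nd (nat_lit 59280) (nat_lit 0) (nat_lit 380) (XT.nd (nat_lit 56316) (nat_lit 0) (nat_lit 6992) xc40 xc41) (XT.nd (nat_lit 56160) (nat_lit 0) (nat_lit 7828) xc42 xc43)) (XT.nd (nat_lit 58968) (nat_lit 0) (nat_lit 0) (XT.nd (nat_lit 56004) (nat_lit 0) (nat_lit 10412) xc44 xc45) (XT.nd (nat_lit 55848) (nat_lit 0) (nat_lit 13300) xc46 xc47)))) (XT.nd (nat_lit 234234) (nat_lit 0) (nat_lit 836)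 (XT.nd (nat_lit 117234) (nat_lit 0) (nat_lit 456) (XT.nd (nat_lit 58656) (nat_lit 0) (nat_lit 456) (XT.nd (nat_lit 55692) (nat_lit 0) (nat_lit 18696) xc48 xc49) (XT.nd (nat_lit 2964) (nat_lit 456) (nat_lit 0) xc50 xc51)) (XT.nd (nat_lit 58422) (nat_lit 0) (nat_lit 380) (XT.nd (nat_lit 2964) (nat_lit 4560) (nat_lit 0) xc52 xc53) (XT.nd (nat_lit 2964) (nat_lit 9120) (nat_lit 0) xc54 xc55))) (XT.nd (nat_lit 64584) (nat_lit 0) (nat_lit 532) (XT.nd (nat_lit 58578) (nat_lit 0) (nat_lit 1976) (XT.nd (nat_lit 2964) (nat_lit 15124) (nat_lit 0) xc56 xc57) (XT.nd (nat_lit 2964) (nat_lit 18620) (nat_lit 0) xc58 xc59)) (XT.nd (nat_lit 58734) (nat_lit 0) (nat_lit 456) (XT.nd (nat_lit 55770) (nat_lit 0) (nat_lit 4712) xc60 xc61) (XT.nd (nat_lit 55848) (nat_lit 0) (nat_lit 6764) xc62 xc63)))))) (XT.nd (nat_lit 1008930) (nat_lit 0) (nat_lit 6004) (XT.nd (nat_lit 473928) (nat_lit 0) (nat_lit 2584) (XT.nd (nat_lit 236184) (nat_lit 0) (nat_lit 1520) (XT.nd (nat_lit 117858) (nat_lit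 0) (nat_lit 456) (XT.nd (nat_lit 58890) (nat_lit 0) (nat_lit 456) (XT.nd (nat_lit 55926) (nat_lit 0) (nat_lit 10184) xc64 xc65) (XT.nd (nat_lit 56004) (nat_lit 0) (nat_lit 12008) xc66 xc67)) (XT.nd (nat_lit 59046) (nat_lit 0) (nat_lit 532) (XT.nd (nat_lit 56082) (nat_lit 0) (nat_lit 14440) xc68 xc69) (XT.nd (nat_lit 56238) (nat_lit 0) (nat_lit 14820) xc70 xc71))) (XT.nd (nat_lit 118638) (nat_lit 0) (nat_lit 456) (XT.nd (nat_lit 59280) (nat_lit 0) (nat_lit 0) (XT.nd (nat_lit 56316) (nat_lit 0) (nat_lit 15200) xc72 xc73) (XT.nd (nat_lit 56394) (nat_lit 0) (nat_lit 16036) xc74 xc75)) (XT.nd (nat_lit 59436) (nat_lit 0) (nat_lit 532) (XT.nd (nat_lit 56472) (nat_lit 0) (nat_lit 14744) xc76 xc77) (XT.nd (nat_lit 56628) (nat_lit 0) (nat_lit 12388) xc78 xc79)))) (XT.nd (nat_lit 239382) (nat_lit 0) (nat_lit 1596) (XT.nd (nat_lit 119418) (nat_lit 0) (nat_lit 1064) (XT.nd (nat_lit 59670) (nat_lit 0) (nat_lit 532) (XT.nd (nat_lit 56706) (nat_lit 0) (nat_lit 10640) xc80 xc81)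 (XT.nd (nat_lit 56784) (nat_lit 0) (nat_lit 7676) xc82 xc83)) (XT.nd (nat_lit 59904) (nat_lit 0) (nat_lit 0) (XT.nd (nat_lit 56940) (nat_lit 0) (nat_lit 4332) xc84 xc85) (XT.nd (nat_lit 57018) (nat_lit 0) (nat_lit 1216) xc86 xc87))) (XT.nd (nat_lit 174642) (nat_lit 0) (nat_lit 1216) (XT.nd (nat_lit 114348) (nat_lit 0) (nat_lit 684) (XT.nd (nat_lit 57096) (nat_lit 0) (nat_lit 684) xc88 xc89) (XT.nd (nat_lit 2964) (nat_lit 8284) (nat_lit 0) xc90 xc91)) (XT.nd (nat_lit 60372) (nat_lit 0) (nat_lit 608) (XT.nd (nat_lit 2964) (nat_lit 2584) (nat_lit 0) xc92 xc93) (XT.nd (nat_lit 57564) (nat_lit 0) (nat_lit 7144) xc94 xc95))))) (XT.nd (nat_lit 711126) (nat_lit 0) (nat_lit 6308) (XT.nd (nat_lit 353574) (nat_lit 0) (nat_lit 3344) (XT.nd (nat_lit 176280) (nat_lit 0) (nat_lit 1900) (XT.nd (nat_lit 115440) (nat_lit 0) (nat_lit 1292) (XT.nd (nat_lit 57642) (nat_lit 0) (nat_lit 1292) xc96 xc97) (XT.nd (nat_lit 2964) (nat_lit 8284) (nat_lit 0) xc98 xc99)) (XT.nd (nat_lit 60918)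 (nat_lit 0) (nat_lit 684) (XT.nd (nat_lit 57954) (nat_lit 0) (nat_lit 7676) xc100 xc101) (XT.nd (nat_lit 58110) (nat_lit 0) (nat_lit 0) xc102 xc103))) (XT.nd (nat_lit 178230) (nat_lit 0) (nat_lit 1368) (XT.nd (nat_lit 61308) (nat_lit 0) (nat_lit 684) (XT.nd (nat_lit 2964) (nat_lit 2964) (nat_lit 0) xc104 xc105) (XT.nd (nat_lit 58422) (nat_lit 0) (nat_lit 0) xc106 xc107)) (XT.nd (nat_lit 61620) (nat_lit 0) (nat_lit 760) (XT.nd (nat_lit 2964) (nat_lit 2356) (nat_lit 0) xc108 xc109) (XT.nd (nat_lit 58734) (nat_lit 0) (nat_lit 836) xc110 xc111)))) (XT.nd (nat_lit 475098) (nat_lit 0) (nat_lit 5928) (XT.nd (nat_lit 236574) (nat_lit 0) (nat_lit 3192) (XT.nd (nat_lit 118092) (nat_lit 0) (nat_lit 1520) (XT.nd (nat_lit 58968) (nat_lit 0) (nat_lit 760) xc112 xc113) (XT.nd (nat_lit 59202) (nat_lit 0) (nat_lit 0) xc114 xc115)) (XT.nd (nat_lit 118950) (nat_lit 0) (nat_lit 988) (XT.nd (nat_lit 59436) (nat_lit 0) (nat_lit 0) xc116 xc117) (XT.nd (nat_lit 59670) (nat_lit 0) (nat_lit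 836) xc118 xc119))) (XT.nd (nat_lit 297882) (nat_lit 0) (nat_lit 3800) (XT.nd (nat_lit 119964) (nat_lit 0) (nat_lit 912) (XT.nd (nat_lit 59904) (nat_lit 0) (nat_lit 912) xc120 xc121) (XT.nd (nat_lit 117468) (nat_lit 0) (nat_lit 2888) xc122 xc123)) (XT.nd (nat_lit 236964) (nat_lit 0) (nat_lit 1064) (XT.nd (nat_lit 118248) (nat_lit 0) (nat_lit 1292) xc124 xc125) (XT.nd (nat_lit 177606) (nat_lit 0) (nat_lit 0) xc126 xc127))))))) XT.nil))

set_option maxRecDepth 10000000 in
noncomputable def Te : XT := (XT.nd (nat_lit 21164832) (nat_lit 0) (nat_lit 9500) XT.nil (XT.nd (nat_lit 4565418) (nat_lit 0) (nat_lit 0) (XT.nd (nat_lit 2847390) (nat_lit 3876) (nat_lit 0) (XT.nd (nat_lit 1957644) (nat_lit 7296) (nat_lit 0) (XT.nd (nat_lit 1362816) (nat_lit 6536) (nat_lit 0) (XT.nd (nat_lit 947466) (nat_lit 6612) (nat_lit 0) (XT.nd (nat_lit 651300) (nat_lit 2812) (nat_lit 0) (XT.nd (nat_lit 415116) (nat_lit 1140) (nat_lit 0) (XT.nd (nat_lit 296088) (nat_lit 0) (nat_lit 0) ec0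 ec1) (XT.nd (nat_lit 118404) (nat_lit 1140) (nat_lit 0) ec2 ec3)) (XT.nd (nat_lit 119964) (nat_lit 1824) (nat_lit 0) (XT.nd (nat_lit 60060) (nat_lit 988) (nat_lit 0) ec4 ec5) (XT.nd (nat_lit 59826) (nat_lit 912) (nat_lit 0) ec6 ec7))) (XT.nd (nat_lit 236574) (nat_lit 3116) (nat_lit 0) (XT.nd (nat_lit 118560) (nat_lit 836) (nat_lit 0) (XT.nd (nat_lit 59358) (nat_lit 836) (nat_lit 0) ec8 ec9) (XT.nd (nat_lit 59046) (nat_lit 0) (nat_lit 0) ec10 ec11)) (XT.nd (nat_lit 61620) (nat_lit 2356) (nat_lit 0) (XT.nd (nat_lit 2808) (nat_lit 1596) (nat_lit 0) ec12 ec13) (XT.nd (nat_lit 58656) (nat_lit 760) (nat_lit 0) ec14 ec15)))) (XT.nd (nat_lit 299052) (nat_lit 3116) (nat_lit 0) (XT.nd (nat_lit 177606) (nat_lit 1292) (nat_lit 0) (XT.nd (nat_lit 61230) (nat_lit 2128) (nat_lit 0) (XT.nd (nat_lit 58422) (nat_lit 0) (nat_lit 2356) ec16 ec17) (XT.nd (nat_lit 58266) (nat_lit 1444) (nat_lit 0) ec18 ec19)) (XT.nd (nat_lit 60762) (nat_lit 608) (nat_lit 0) (XT.nd (nat_lit 2808) (nat_lit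 684) (nat_lit 0) ec20 ec21) (XT.nd (nat_lit 57876) (nat_lit 608) (nat_lit 0) ec22 ec23))) (XT.nd (nat_lit 175578) (nat_lit 1824) (nat_lit 0) (XT.nd (nat_lit 115284) (nat_lit 0) (nat_lit 0) (XT.nd (nat_lit 57720) (nat_lit 1292) (nat_lit 0) ec24 ec25) (XT.nd (nat_lit 2808) (nat_lit 2584) (nat_lit 0) ec26 ec27)) (XT.nd (nat_lit 60138) (nat_lit 1216) (nat_lit 0) (XT.nd (nat_lit 57330) (nat_lit 0) (nat_lit 7676) ec28 ec29) (XT.nd (nat_lit 57174) (nat_lit 0) (nat_lit 4408) ec30 ec31))))) (XT.nd (nat_lit 475488) (nat_lit 3116) (nat_lit 0) (XT.nd (nat_lit 292500) (nat_lit 1976) (nat_lit 0) (XT.nd (nat_lit 173628) (nat_lit 532) (nat_lit 0) (XT.nd (nat_lit 59904) (nat_lit 1672) (nat_lit 0) (XT.nd (nat_lit 57096) (nat_lit 0) (nat_lit 1216) ec32 ec33) (XT.nd (nat_lit 56940) (nat_lit 1140) (nat_lit 0) ec34 ec35)) (XT.nd (nat_lit 59514) (nat_lit 532) (nat_lit 0) (XT.nd (nat_lit 2808) (nat_lit 12160) (nat_lit 0) ec36 ec37) (XT.nd (nat_lit 2808) (nat_lit 11096) (nat_lit 0) ec38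 ec39))) (XT.nd (nat_lit 118404) (nat_lit 912) (nat_lit 0) (XT.nd (nat_lit 59280) (nat_lit 608) (nat_lit 0) (XT.nd (nat_lit 2808) (nat_lit 10716) (nat_lit 0) ec40 ec41) (XT.nd (nat_lit 2808) (nat_lit 10564) (nat_lit 0) ec42 ec43)) (XT.nd (nat_lit 58890) (nat_lit 0) (nat_lit 456) (XT.nd (nat_lit 2808) (nat_lit 12236) (nat_lit 0) ec44 ec45) (XT.nd (nat_lit 2808) (nat_lit 13376) (nat_lit 0) ec46 ec47)))) (XT.nd (nat_lit 234156) (nat_lit 1216) (nat_lit 0) (XT.nd (nat_lit 117312) (nat_lit 912) (nat_lit 0) (XT.nd (nat_lit 58734) (nat_lit 456) (nat_lit 0) (XT.nd (nat_lit 55926) (nat_lit 0) (nat_lit 2508) ec48 ec49) (XT.nd (nat_lit 55770) (nat_lit 0) (nat_lit 5852) ec50 ec51)) (XT.nd (nat_lit 58500) (nat_lit 532) (nat_lit 0) (XT.nd (nat_lit 55692) (nat_lit 0) (nat_lit 9272) ec52 ec53) (XT.nd (nat_lit 55536) (nat_lit 0) (nat_lit 14972) ec54 ec55))) (XT.nd (nat_lit 116376) (nat_lit 380) (nat_lit 0) (XT.nd (nat_lit 58266) (nat_lit 456) (nat_lit 0) (XT.nd (nat_lit 2808) (nat_lit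 1748) (nat_lit 0) ec56 ec57) (XT.nd (nat_lit 2808) (nat_lit 6384) (nat_lit 0) ec58 ec59)) (XT.nd (nat_lit 58032) (nat_lit 0) (nat_lit 4028) (XT.nd (nat_lit 2808) (nat_lit 11704) (nat_lit 0) ec60 ec61) (XT.nd (nat_lit 2808) (nat_lit 13756) (nat_lit 0) ec62 ec63)))))) (XT.nd (nat_lit 764634) (nat_lit 684) (nat_lit 0) (XT.nd (nat_lit 409032) (nat_lit 1292) (nat_lit 0) (XT.nd (nat_lit 231114) (nat_lit 760) (nat_lit 0) (XT.nd (nat_lit 115752) (nat_lit 760) (nat_lit 0) (XT.nd (nat_lit 57954) (nat_lit 380) (nat_lit 0) (XT.nd (nat_lit 55146) (nat_lit 0) (nat_lit 9120) ec64 ec65) (XT.nd (nat_lit 54990) (nat_lit 0) (nat_lit 17328) ec66 ec67)) (XT.nd (nat_lit 57720) (nat_lit 380) (nat_lit 0) (XT.nd (nat_lit 2808) (nat_lit 4332) (nat_lit 0) ec68 ec69) (XT.nd (nat_lit 2808) (nat_lit 10868) (nat_lit 0) ec70 ec71))) (XT.nd (nat_lit 63102) (nat_lit 456) (nat_lit 0) (XT.nd (nat_lit 5616) (nat_lit 5472) (nat_lit 0) (XT.nd (nat_lit 2808) (nat_lit 13756) (nat_lit 0) ec72 ec73) (XT.nd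 (nat_lit 54678) (nat_lit 0) (nat_lit 13148) ec74 ec75)) (XT.nd (nat_lit 57408) (nat_lit 0) (nat_lit 0) (XT.nd (nat_lit 2808) (nat_lit 2280) (nat_lit 0) ec76 ec77) (XT.nd (nat_lit 2808) (nat_lit 9196) (nat_lit 0) ec78 ec79)))) (XT.nd (nat_lit 125736) (nat_lit 988) (nat_lit 0) (XT.nd (nat_lit 62868) (nat_lit 0) (nat_lit 0) (XT.nd (nat_lit 5616) (nat_lit 5320) (nat_lit 0) (XT.nd (nat_lit 2808) (nat_lit 13072) (nat_lit 0) ec80 ec81) (XT.nd (nat_lit 54444) (nat_lit 0) (nat_lit 13908) ec82 ec83)) (XT.nd (nat_lit 57252) (nat_lit 0) (nat_lit 0) (XT.nd (nat_lit 2808) (nat_lit 2204) (nat_lit 0) ec84 ec85) (XT.nd (nat_lit 2808) (nat_lit 9500) (nat_lit 0) ec86 ec87))) (XT.nd (nat_lit 114738) (nat_lit 304) (nat_lit 0) (XT.nd (nat_lit 57330) (nat_lit 304) (nat_lit 0) (XT.nd (nat_lit 54522) (nat_lit 0) (nat_lit 6156) ec88 ec89) (XT.nd (nat_lit 54600) (nat_lit 0) (nat_lit 14592) ec90 ec91)) (XT.nd (nat_lit 57486) (nat_lit 304) (nat_lit 0) (XT.nd (nat_lit 2808) (nat_lit 2888)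 (nat_lit 0) ec92 ec93) (XT.nd (nat_lit 2808) (nat_lit 9956) (nat_lit 0) ec94 ec95))))) (XT.nd (nat_lit 360048) (nat_lit 0) (nat_lit 0) (XT.nd (nat_lit 179244) (nat_lit 304) (nat_lit 0) (XT.nd (nat_lit 63336) (nat_lit 0) (nat_lit 0) (XT.nd (nat_lit 5616) (nat_lit 5320) (nat_lit 0) (XT.nd (nat_lit 2808) (nat_lit 12084) (nat_lit 0) ec96 ec97) (XT.nd (nat_lit 54912) (nat_lit 0) (nat_lit 10868) ec98 ec99)) (XT.nd (nat_lit 57876) (nat_lit 0) (nat_lit 0) (XT.nd (nat_lit 2808) (nat_lit 1368) (nat_lit 0) ec100 ec101) (XT.nd (nat_lit 2808) (nat_lit 5320) (nat_lit 0) ec102 ec103))) (XT.nd (nat_lit 63804) (nat_lit 304) (nat_lit 0) (XT.nd (nat_lit 5616) (nat_lit 380) (nat_lit 0) (XT.nd (nat_lit 2808) (nat_lit 9424) (nat_lit 0) ec104 ec105) (XT.nd (nat_lit 55380) (nat_lit 0) (nat_lit 3192) ec106 ec107)) (XT.nd (nat_lit 58344) (nat_lit 0) (nat_lit 0) (XT.nd (nat_lit 55536) (nat_lit 0) (nat_lit 6460) ec108 ec109) (XT.nd (nat_lit 55770) (nat_lit 0) (nat_lit 8512) ec110 ec111))))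 (XT.nd (nat_lit 236730) (nat_lit 0) (nat_lit 304) (XT.nd (nat_lit 117858) (nat_lit 0) (nat_lit 0) (XT.nd (nat_lit 58812) (nat_lit 0) (nat_lit 0) (XT.nd (nat_lit 56004) (nat_lit 0) (nat_lit 10108) ec112 ec113) (XT.nd (nat_lit 2808) (nat_lit 684) (nat_lit 0) ec114 ec115)) (XT.nd (nat_lit 59280) (nat_lit 0) (nat_lit 0) (XT.nd (nat_lit 2808) (nat_lit 988) (nat_lit 0) ec116 ec117) (XT.nd (nat_lit 2808) (nat_lit 988) (nat_lit 0) ec118 ec119))) (XT.nd (nat_lit 120354) (nat_lit 0) (nat_lit 380) (XT.nd (nat_lit 59982) (nat_lit 0) (nat_lit 0) (XT.nd (nat_lit 57174) (nat_lit 0) (nat_lit 5700) ec120 ec121) (XT.nd (nat_lit 57564) (nat_lit 0) (nat_lit 1672) ec122 ec123)) (XT.nd (nat_lit 116610) (nat_lit 0) (nat_lit 988) (XT.nd (nat_lit 58032) (nat_lit 0) (nat_lit 304) ec124 ec125) (XT.nd (nat_lit 59280) (nat_lit 0) (nat_lit 760) ec126 ec127))))))) XT.nil))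

set_option maxRecDepth 10000000 in
noncomputable def Tz : ZL := (ZL.cons (nat_lit 9500) (nat_lit 6) (nat_lit 159649003447911790042) (ZL.cons (nat_lit 9804) (nat_lit 6) (nat_lit 158435781857558022088) (ZL.cons (nat_lit 9880) (nat_lit 6) (nat_lit 158260347270663118404) (ZL.cons (nat_lit 10032) (nat_lit 6) (nat_lit 158084981454676444788) (ZL.cons (nat_lit 10184) (nat_lit 6) (nat_lit 157050672158901480366) (ZL.cons (nat_lit 10336) (nat_lit 6) (nat_lit 156819128303908412092) (ZL.cons (nat_lit 10412) (nat_lit 3) (nat_lit 78395096916364539462) (ZL.cons (nat_lit 10488) (nat_lit 6) (nat_lit 155871880053734408252) (ZL.cons (nat_lit 10564) (nat_lit 6) (nat_lit 155699885360700188954) (ZL.cons (nat_lit 10640) (nat_lit 6) (nat_lit 155585259689911541294) (ZL.cons (nat_lit 10716) (nat_lit 6) (nat_lit 155527958090125018742) (ZL.cons (nat_lit 10792) (nat_lit 6) (nat_lit 154723508683748111054) (ZL.cons (nat_lit 10868) (nat_lit 6) (nat_lit 154524783011860368808) (ZL.cons (nat_lit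 10944) (nat_lit 6) (nat_lit 154382891742641127738) (ZL.cons (nat_lit 11020) (nat_lit 6) (nat_lit 154297779232455399912) (ZL.cons (nat_lit 11096) (nat_lit 3) (nat_lit 77134706051924105264) (ZL.cons (nat_lit 11172) (nat_lit 6) (nat_lit 153380175193327868614) (ZL.cons (nat_lit 11324) (nat_lit 6) (nat_lit 153099174836638783360) (ZL.cons (nat_lit 11400) (nat_lit 6) (nat_lit 153042996797632388702) (ZL.cons (nat_lit 11476) (nat_lit 6) (nat_lit 152265613039291499160) (ZL.cons (nat_lit 11552) (nat_lit 6) (nat_lit 152070783949205477348) (ZL.cons (nat_lit 11628) (nat_lit 6) (nat_lit 151931674861735633164) (ZL.cons (nat_lit 11704) (nat_lit 6) (nat_lit 151848231224298645096) (ZL.cons (nat_lit 11780) (nat_lit 3) (nat_lit 75910210156949719911) (ZL.cons (nat_lit 11856) (nat_lit 6) (nat_lit 151180659466553599122) (ZL.cons (nat_lit 11932) (nat_lit 6) (nat_lit 150960137394101638298) (ZL.cons (nat_lit 12008) (nat_lit 6) (nat_lit 150794821464618536320) (ZL.cons (nat_lit 12084) (nat_lit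 6) (nat_lit 150684646848328025304) (ZL.cons (nat_lit 12160) (nat_lit 6) (nat_lit 150629570339498226620) (ZL.cons (nat_lit 12236) (nat_lit 6) (nat_lit 149879177732274919272) (ZL.cons (nat_lit 12312) (nat_lit 6) (nat_lit 149688168820425878282) (ZL.cons (nat_lit 12388) (nat_lit 6) (nat_lit 149551787362122109472) (ZL.cons (nat_lit 12464) (nat_lit 6) (nat_lit 149469979874438787840) (ZL.cons (nat_lit 12540) (nat_lit 3) (nat_lit 74721357138004097215) (ZL.cons (nat_lit 12616) (nat_lit 6) (nat_lit 148827481057975584306) (ZL.cons (nat_lit 12692) (nat_lit 6) (nat_lit 148611282947728563890) (ZL.cons (nat_lit 12768) (nat_lit 6) (nat_lit 148449208507058856068) (ZL.cons (nat_lit 12844) (nat_lit 6) (nat_lit 148341194177362276642) (ZL.cons (nat_lit 12920) (nat_lit 6) (nat_lit 148287197600078160284) (ZL.cons (nat_lit 12996) (nat_lit 6) (nat_lit 147563741538341221648) (ZL.cons (nat_lit 13072) (nat_lit 6) (nat_lit 147376477899273534400) (ZL.cons (nat_lit 13148) (nat_lit 6) (nat_lit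 147242770587211015962) (ZL.cons (nat_lit 13224) (nat_lit 6) (nat_lit 147162567167913641810) (ZL.cons (nat_lit 13300) (nat_lit 3) (nat_lit 73567918094530059431) (ZL.cons (nat_lit 13376) (nat_lit 6) (nat_lit 146545133791711150636) (ZL.cons (nat_lit 13452) (nat_lit 6) (nat_lit 146333174860096424738) (ZL.cons (nat_lit 13528) (nat_lit 6) (nat_lit 146174278349635926874) (ZL.cons (nat_lit 13604) (nat_lit 6) (nat_lit 146068381947972613710) (ZL.cons (nat_lit 13680) (nat_lit 6) (nat_lit 146015444127105832968) (ZL.cons (nat_lit 13756) (nat_lit 6) (nat_lit 145555060253820064554) (ZL.cons (nat_lit 13832) (nat_lit 6) (nat_lit 145318890251080790956) (ZL.cons (nat_lit 13908) (nat_lit 6) (nat_lit 145135298448073254442) (ZL.cons (nat_lit 13984) (nat_lit 6) (nat_lit 145004212848011961852) (ZL.cons (nat_lit 14060) (nat_lit 6) (nat_lit 144925582044779242098) (ZL.cons (nat_lit 14136) (nat_lit 3) (nat_lit 72449687601382992152) (ZL.cons (nat_lit 14212) (nat_lit 6) (nat_lit 144333226313556430850)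 (ZL.cons (nat_lit 14288) (nat_lit 6) (nat_lit 144125423439424346636) (ZL.cons (nat_lit 14364) (nat_lit 6) (nat_lit 143969642546816015396) (ZL.cons (nat_lit 14440) (nat_lit 6) (nat_lit 143865822545185316216) (ZL.cons (nat_lit 14516) (nat_lit 6) (nat_lit 143813922720806119410) (ZL.cons (nat_lit 14592) (nat_lit 6) (nat_lit 143375796512645883884) (ZL.cons (nat_lit 14668) (nat_lit 6) (nat_lit 143144257294274047028) (ZL.cons (nat_lit 14744) (nat_lit 6) (nat_lit 142964265330541168088) (ZL.cons (nat_lit 14820) (nat_lit 6) (nat_lit 142835750036363430258) (ZL.cons (nat_lit 14896) (nat_lit 6) (nat_lit 142758661013586254026) (ZL.cons (nat_lit 14972) (nat_lit 3) (nat_lit 71366484015610157507) (ZL.cons (nat_lit 15048) (nat_lit 6) (nat_lit 142446225385682126312) (ZL.cons (nat_lit 15124) (nat_lit 6) (nat_lit 142191415241585041764) (ZL.cons (nat_lit 15200) (nat_lit 6) (nat_lit 141987686933612410182) (ZL.cons (nat_lit 15276) (nat_lit 6) (nat_lit 141834960568310124652) (ZL.cons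 (nat_lit 15352) (nat_lit 6) (nat_lit 141733176252985909770) (ZL.cons (nat_lit 15428) (nat_lit 6) (nat_lit 141682294072221991332) (ZL.cons (nat_lit 15504) (nat_lit 6) (nat_lit 141266523617807256734) (ZL.cons (nat_lit 15580) (nat_lit 6) (nat_lit 141039524384109377460) (ZL.cons (nat_lit 15656) (nat_lit 6) (nat_lit 140863061674567339288) (ZL.cons (nat_lit 15732) (nat_lit 6) (nat_lit 140737066288118576706) (ZL.cons (nat_lit 15808) (nat_lit 6) (nat_lit 140661488814807619618) (ZL.cons (nat_lit 15884) (nat_lit 3) (nat_lit 70318149808204820096) (ZL.cons (nat_lit 15960) (nat_lit 6) (nat_lit 140369219720343132018) (ZL.cons (nat_lit 16036) (nat_lit 6) (nat_lit 140119405853581284420) (ZL.cons (nat_lit 16112) (nat_lit 6) (nat_lit 139919672218313998556) (ZL.cons (nat_lit 16188) (nat_lit 6) (nat_lit 139769940487625483332) (ZL.cons (nat_lit 16264) (nat_lit 6) (nat_lit 139670151943189978544) (ZL.cons (nat_lit 16340) (nat_lit 6) (nat_lit 139620267452244960468) (ZL.cons (nat_lit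 16416) (nat_lit 6) (nat_lit 139499151665311309134) (ZL.cons (nat_lit 16492) (nat_lit 6) (nat_lit 139226970511231845532) (ZL.cons (nat_lit 16568) (nat_lit 6) (nat_lit 139004422242900591344) (ZL.cons (nat_lit 16644) (nat_lit 6) (nat_lit 138831419586486828428) (ZL.cons (nat_lit 16720) (nat_lit 6) (nat_lit 138707894697811570998) (ZL.cons (nat_lit 16796) (nat_lit 6) (nat_lit 138633799135742005222) (ZL.cons (nat_lit 16872) (nat_lit 3) (nat_lit 69304551921597483286) (ZL.cons (nat_lit 16948) (nat_lit 6) (nat_lit 138361868382417002196) (ZL.cons (nat_lit 17024) (nat_lit 6) (nat_lit 138116952826768132004) (ZL.cons (nat_lit 17100) (nat_lit 6) (nat_lit 137921135537290400764) (ZL.cons (nat_lit 17176) (nat_lit 6) (nat_lit 137774339722889895642) (ZL.cons (nat_lit 17252) (nat_lit 6) (nat_lit 137676507816580577224) (ZL.cons (nat_lit 17328) (nat_lit 6) (nat_lit 137627601452908990874) (ZL.cons (nat_lit 17404) (nat_lit 6) (nat_lit 137523760211399964278) (ZL.cons (nat_lit 17480) (nat_lit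 6) (nat_lit 137256915942694607806) (ZL.cons (nat_lit 17556) (nat_lit 6) (nat_lit 137038731365899260562) (ZL.cons (nat_lit 17632) (nat_lit 6) (nat_lit 136869120918434787116) (ZL.cons (nat_lit 17708) (nat_lit 6) (nat_lit 136748018086400221006) (ZL.cons (nat_lit 17784) (nat_lit 6) (nat_lit 136675375378488882014) (ZL.cons (nat_lit 17860) (nat_lit 3) (nat_lit 68325582153682167157) (ZL.cons (nat_lit 17936) (nat_lit 6) (nat_lit 136712317328309744702) (ZL.cons (nat_lit 18012) (nat_lit 6) (nat_lit 136423974321313715408) (ZL.cons (nat_lit 18088) (nat_lit 6) (nat_lit 136183861031461881884) (ZL.cons (nat_lit 18164) (nat_lit 6) (nat_lit 135991883296679792434) (ZL.cons (nat_lit 18240) (nat_lit 6) (nat_lit 135847965831581258000) (ZL.cons (nat_lit 18316) (nat_lit 6) (nat_lit 135752052197944671316) (ZL.cons (nat_lit 18392) (nat_lit 6) (nat_lit 135704104782580370974) (ZL.cons (nat_lit 18468) (nat_lit 6) (nat_lit 135617801318852364262) (ZL.cons (nat_lit 18544) (nat_lit 6) (nat_lit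 135356189290709857916) (ZL.cons (nat_lit 18620) (nat_lit 6) (nat_lit 135142282842871282186) (ZL.cons (nat_lit 18696) (nat_lit 6) (nat_lit 134975998090455131748) (ZL.cons (nat_lit 18772) (nat_lit 6) (nat_lit 134857269823754576740) (ZL.cons (nat_lit 18848) (nat_lit 6) (nat_lit 134786051482665028706) (ZL.cons (nat_lit 18924) (nat_lit 3) (nat_lit 67381157569212638032) (ZL.cons (nat_lit 19000) (nat_lit 6) (nat_lit 134838080789035079328) (ZL.cons (nat_lit 19076) (nat_lit 6) (nat_lit 134555391566489952570) (ZL.cons (nat_lit 19152) (nat_lit 6) (nat_lit 134319986380360704018) (ZL.cons (nat_lit 19228) (nat_lit 6) (nat_lit 134131772914888067300) (ZL.cons (nat_lit 19304) (nat_lit 6) (nat_lit 133990677360869896288) (ZL.cons (nat_lit 19380) (nat_lit 6) (nat_lit 133896644386716379930) (ZL.cons (nat_lit 19456) (nat_lit 6) (nat_lit 133849637116751379596) (ZL.cons (nat_lit 19532) (nat_lit 6) (nat_lit 134084506959105069518) (ZL.cons (nat_lit 19608) (nat_lit 6) (nat_lit 133781153820478942352)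 (ZL.cons (nat_lit 19684) (nat_lit 6) (nat_lit 133524671439947073388) (ZL.cons (nat_lit 19760) (nat_lit 6) (nat_lit 133314959236183763848) (ZL.cons (nat_lit 19836) (nat_lit 6) (nat_lit 133151934969109106556) (ZL.cons (nat_lit 19912) (nat_lit 6) (nat_lit 133035534707637974194) (ZL.cons (nat_lit 19988) (nat_lit 6) (nat_lit 132965712804609005536) (ZL.cons (nat_lit 20064) (nat_lit 3) (nat_lit 66471220939441878922) (ZL.cons (nat_lit 20140) (nat_lit 6) (nat_lit 133033172430031332750) (ZL.cons (nat_lit 20216) (nat_lit 6) (nat_lit 132756026133418463378) (ZL.cons (nat_lit 20292) (nat_lit 6) (nat_lit 132525236735252533426) (ZL.cons (nat_lit 20368) (nat_lit 6) (nat_lit 132340713729887203312) (ZL.cons (nat_lit 20444) (nat_lit 6) (nat_lit 132202384755359584670) (ZL.cons (nat_lit 20520) (nat_lit 6) (nat_lit 132110195565013000008) (ZL.cons (nat_lit 20596) (nat_lit 6) (nat_lit 132064110006223783992) (ZL.cons (nat_lit 20672) (nat_lit 6) (nat_lit 132311154069111654112) (ZL.cons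 (nat_lit 20748) (nat_lit 6) (nat_lit 132013749031242901990) (ZL.cons (nat_lit 20824) (nat_lit 6) (nat_lit 131762295716995971630) (ZL.cons (nat_lit 20900) (nat_lit 6) (nat_lit 131556695517228021104) (ZL.cons (nat_lit 20976) (nat_lit 6) (nat_lit 131396867804409729640) (ZL.cons (nat_lit 21052) (nat_lit 6) (nat_lit 131282749901006658698) (ZL.cons (nat_lit 21128) (nat_lit 6) (nat_lit 131214297054899826678) (ZL.cons (nat_lit 21204) (nat_lit 3) (nat_lit 65595741210917929177) (ZL.cons (nat_lit 21280) (nat_lit 6) (nat_lit 131614815593264643822) (ZL.cons (nat_lit 21356) (nat_lit 6) (nat_lit 131297549044360712532) (ZL.cons (nat_lit 21432) (nat_lit 6) (nat_lit 131025836988857899422) (ZL.cons (nat_lit 21508) (nat_lit 6) (nat_lit 130799572873008948488) (ZL.cons (nat_lit 21584) (nat_lit 6) (nat_lit 130618667965788036612) (ZL.cons (nat_lit 21660) (nat_lit 6) (nat_lit 130483051324094292848) (ZL.cons (nat_lit 21736) (nat_lit 6) (nat_lit 130392669764930974548) (ZL.cons (nat_lit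 21812) (nat_lit 6) (nat_lit 130347487844549390220) (ZL.cons (nat_lit 21888) (nat_lit 6) (nat_lit 130607145310031941202) (ZL.cons (nat_lit 21964) (nat_lit 6) (nat_lit 130315571743493948924) (ZL.cons (nat_lit 22040) (nat_lit 6) (nat_lit 130069048886389115240) (ZL.cons (nat_lit 22116) (nat_lit 6) (nat_lit 129867480063087202956) (ZL.cons (nat_lit 22192) (nat_lit 6) (nat_lit 129710786226990838780) (ZL.cons (nat_lit 22268) (nat_lit 6) (nat_lit 129598905929536847658) (ZL.cons (nat_lit 22344) (nat_lit 6) (nat_lit 129531795296098777050) (ZL.cons (nat_lit 22420) (nat_lit 3) (nat_lit 64754714004390580523) (ZL.cons (nat_lit 22496) (nat_lit 6) (nat_lit 129942267081694106128) (ZL.cons (nat_lit 22572) (nat_lit 6) (nat_lit 129631221445513781334) (ZL.cons (nat_lit 22648) (nat_lit 6) (nat_lit 129364837077373768482) (ZL.cons (nat_lit 22724) (nat_lit 6) (nat_lit 129143009512815973448) (ZL.cons (nat_lit 22800) (nat_lit 6) (nat_lit 128965651760638608864) (ZL.cons (nat_lit 22876) (nat_lit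 6) (nat_lit 128832694268781997330) (ZL.cons (nat_lit 22952) (nat_lit 6) (nat_lit 128744084897053253900) (ZL.cons (nat_lit 23028) (nat_lit 6) (nat_lit 128699788896679151616) (ZL.cons (nat_lit 23104) (nat_lit 6) (nat_lit 129302653622787074830) (ZL.cons (nat_lit 23180) (nat_lit 6) (nat_lit 128972517722251522078) (ZL.cons (nat_lit 23256) (nat_lit 6) (nat_lit 128686661284469176710) (ZL.cons (nat_lit 23332) (nat_lit 6) (nat_lit 128444972208876202508) (ZL.cons (nat_lit 23408) (nat_lit 6) (nat_lit 128247355715442955174) (ZL.cons (nat_lit 23484) (nat_lit 6) (nat_lit 128093734307505343232) (ZL.cons (nat_lit 23560) (nat_lit 6) (nat_lit 127984047741373979390) (ZL.cons (nat_lit 23636) (nat_lit 6) (nat_lit 127918253002709204284) (ZL.cons (nat_lit 23712) (nat_lit 3) (nat_lit 63948162144826359002) (ZL.cons (nat_lit 23788) (nat_lit 6) (nat_lit 128339202258521578110) (ZL.cons (nat_lit 23864) (nat_lit 6) (nat_lit 128034255556384004784) (ZL.cons (nat_lit 23940) (nat_lit 6) (nat_lit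 127773094411148698066) (ZL.cons (nat_lit 24016) (nat_lit 6) (nat_lit 127555616406680271564) (ZL.cons (nat_lit 24092) (nat_lit 6) (nat_lit 127381736257486776872) (ZL.cons (nat_lit 24168) (nat_lit 6) (nat_lit 127251385775274412622) (ZL.cons (nat_lit 24244) (nat_lit 6) (nat_lit 127164513842207017104) (ZL.cons (nat_lit 24320) (nat_lit 6) (nat_lit 127121086390859858002) (ZL.cons (nat_lit 24396) (nat_lit 6) (nat_lit 127731026695318565142) (ZL.cons (nat_lit 24472) (nat_lit 6) (nat_lit 127407364047734689896) (ZL.cons (nat_lit 24548) (nat_lit 6) (nat_lit 127127112638144155220) (ZL.cons (nat_lit 24624) (nat_lit 6) (nat_lit 126890162564033396202) (ZL.cons (nat_lit 24700) (nat_lit 6) (nat_lit 126696420903804722342) (ZL.cons (nat_lit 24776) (nat_lit 6) (nat_lit 126545811680336475342) (ZL.cons (nat_lit 24852) (nat_lit 6) (nat_lit 126438275831188079416) (ZL.cons (nat_lit 24928) (nat_lit 6) (nat_lit 126373771185438299902) (ZL.cons (nat_lit 25004) (nat_lit 3) (nat_lit 63176136223573813540)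 (ZL.cons (nat_lit 25080) (nat_lit 6) (nat_lit 127147752532421619246) (ZL.cons (nat_lit 25156) (nat_lit 6) (nat_lit 126805740918713918588) (ZL.cons (nat_lit 25232) (nat_lit 6) (nat_lit 126506773563677081992) (ZL.cons (nat_lit 25308) (nat_lit 6) (nat_lit 126250733225211095016) (ZL.cons (nat_lit 25384) (nat_lit 6) (nat_lit 126037519495340088640) (ZL.cons (nat_lit 25460) (nat_lit 6) (nat_lit 125867048760836662472) (ZL.cons (nat_lit 25536) (nat_lit 6) (nat_lit 125739254170432383796) (ZL.cons (nat_lit 25612) (nat_lit 6) (nat_lit 125654085608601603874) (ZL.cons (nat_lit 25688) (nat_lit 6) (nat_lit 125611509675908310640) (ZL.cons (nat_lit 25764) (nat_lit 6) (nat_lit 126589151034864898482) (ZL.cons (nat_lit 25840) (nat_lit 6) (nat_lit 126229150238682859186) (ZL.cons (nat_lit 25916) (nat_lit 6) (nat_lit 125911833917522197178) (ZL.cons (nat_lit 25992) (nat_lit 6) (nat_lit 125637077633609908282) (ZL.cons (nat_lit 26068) (nat_lit 6) (nat_lit 125404773639383673948) (ZL.cons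 (nat_lit 26144) (nat_lit 6) (nat_lit 125214830835237915264) (ZL.cons (nat_lit 26220) (nat_lit 6) (nat_lit 125067174733798457420) (ZL.cons (nat_lit 26296) (nat_lit 6) (nat_lit 124961747430711794748) (ZL.cons (nat_lit 26372) (nat_lit 6) (nat_lit 124898507581937501106) (ZL.cons (nat_lit 26448) (nat_lit 3) (nat_lit 62438715193767440347) (ZL.cons (nat_lit 26524) (nat_lit 6) (nat_lit 125677365893649342644) (ZL.cons (nat_lit 26600) (nat_lit 6) (nat_lit 125342060390014341998) (ZL.cons (nat_lit 26676) (nat_lit 6) (nat_lit 125048955139978227690) (ZL.cons (nat_lit 26752) (nat_lit 6) (nat_lit 124797935200305691436) (ZL.cons (nat_lit 26828) (nat_lit 6) (nat_lit 124588902131804704794) (ZL.cons (nat_lit 26904) (nat_lit 6) (nat_lit 124421773960722914434) (ZL.cons (nat_lit 26980) (nat_lit 6) (nat_lit 124296485146601072594) (ZL.cons (nat_lit 27056) (nat_lit 6) (nat_lit 124212986556570896202) (ZL.cons (nat_lit 27132) (nat_lit 6) (nat_lit 124171245446087275382) (ZL.cons (nat_lit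 27208) (nat_lit 6) (nat_lit 125150171497595708762) (ZL.cons (nat_lit 27284) (nat_lit 6) (nat_lit 124797229540554493764) (ZL.cons (nat_lit 27360) (nat_lit 6) (nat_lit 124486135108044040818) (ZL.cons (nat_lit 27436) (nat_lit 6) (nat_lit 124216766202247679152) (ZL.cons (nat_lit 27512) (nat_lit 6) (nat_lit 123989017188300390590) (ZL.cons (nat_lit 27588) (nat_lit 6) (nat_lit 123802798752863372272) (ZL.cons (nat_lit 27664) (nat_lit 6) (nat_lit 123658037869099197916) (ZL.cons (nat_lit 27740) (nat_lit 6) (nat_lit 123554677768033842356) (ZL.cons (nat_lit 27816) (nat_lit 6) (nat_lit 123492677916294338786) (ZL.cons (nat_lit 27892) (nat_lit 3) (nat_lit 61736007000106669189) (ZL.cons (nat_lit 27968) (nat_lit 6) (nat_lit 124647360307621544350) (ZL.cons (nat_lit 28044) (nat_lit 6) (nat_lit 124277127709986001556) (ZL.cons (nat_lit 28120) (nat_lit 6) (nat_lit 123948396824069334258) (ZL.cons (nat_lit 28196) (nat_lit 6) (nat_lit 123661038735798633954) (ZL.cons (nat_lit 28272) (nat_lit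 6) (nat_lit 123414940755727519980) (ZL.cons (nat_lit 28348) (nat_lit 6) (nat_lit 123210006374844199742) (ZL.cons (nat_lit 28424) (nat_lit 6) (nat_lit 123046155226724797428) (ZL.cons (nat_lit 28500) (nat_lit 6) (nat_lit 122923323056017109352) (ZL.cons (nat_lit 28576) (nat_lit 6) (nat_lit 122841461693242426614) (ZL.cons (nat_lit 28652) (nat_lit 6) (nat_lit 122800539035905543456) (ZL.cons (nat_lit 28728) (nat_lit 6) (nat_lit 124168735142868036010) (ZL.cons (nat_lit 28804) (nat_lit 6) (nat_lit 123781550936806681652) (ZL.cons (nat_lit 28880) (nat_lit 6) (nat_lit 123435529410295686558) (ZL.cons (nat_lit 28956) (nat_lit 6) (nat_lit 123130534868618771902) (ZL.cons (nat_lit 29032) (nat_lit 6) (nat_lit 122866447706073319290) (ZL.cons (nat_lit 29108) (nat_lit 6) (nat_lit 122643164359066173640) (ZL.cons (nat_lit 29184) (nat_lit 6) (nat_lit 122460597265500469406) (ZL.cons (nat_lit 29260) (nat_lit 6) (nat_lit 122318674830437553372) (ZL.cons (nat_lit 29336) (nat_lit 6) (nat_lit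 122217341398020538118) (ZL.cons (nat_lit 29412) (nat_lit 6) (nat_lit 122156557229648475792) (ZL.cons (nat_lit 29488) (nat_lit 3) (nat_lit 61068149244196296521) (ZL.cons (nat_lit 29564) (nat_lit 6) (nat_lit 123310304877183914710) (ZL.cons (nat_lit 29640) (nat_lit 6) (nat_lit 122947331742247108052) (ZL.cons (nat_lit 29716) (nat_lit 6) (nat_lit 122625046559975865600) (ZL.cons (nat_lit 29792) (nat_lit 6) (nat_lit 122343322944024198636) (ZL.cons (nat_lit 29868) (nat_lit 6) (nat_lit 122102050414542714348) (ZL.cons (nat_lit 29944) (nat_lit 6) (nat_lit 121901134354853184702) (ZL.cons (nat_lit 30020) (nat_lit 6) (nat_lit 121740495974343966748) (ZL.cons (nat_lit 30096) (nat_lit 6) (nat_lit 121620072277571723536) (ZL.cons (nat_lit 30172) (nat_lit 6) (nat_lit 121539816039557328694) (ZL.cons (nat_lit 30248) (nat_lit 6) (nat_lit 121499695787266266776) (ZL.cons (nat_lit 30324) (nat_lit 6) (nat_lit 122863204728741378074) (ZL.cons (nat_lit 30400) (nat_lit 6) (nat_lit 122483612369857697334)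 (ZL.cons (nat_lit 30476) (nat_lit 6) (nat_lit 122144375579160643318) (ZL.cons (nat_lit 30552) (nat_lit 6) (nat_lit 121845361322614648558) (ZL.cons (nat_lit 30628) (nat_lit 6) (nat_lit 121586452339726949918) (ZL.cons (nat_lit 30704) (nat_lit 6) (nat_lit 121367547097563081634) (ZL.cons (nat_lit 30780) (nat_lit 6) (nat_lit 121188559750930038268) (ZL.cons (nat_lit 30856) (nat_lit 6) (nat_lit 121049420108711493136) (ZL.cons (nat_lit 30932) (nat_lit 6) (nat_lit 120950073606341870336) (ZL.cons (nat_lit 31008) (nat_lit 6) (nat_lit 120890481284408475902) (ZL.cons (nat_lit 31084) (nat_lit 3) (nat_lit 60435309886686648367) (ZL.cons (nat_lit 31160) (nat_lit 6) (nat_lit 122440075158087525654) (ZL.cons (nat_lit 31236) (nat_lit 6) (nat_lit 122044189442393184048) (ZL.cons (nat_lit 31312) (nat_lit 6) (nat_lit 121688333427749255950) (ZL.cons (nat_lit 31388) (nat_lit 6) (nat_lit 121372367562777449626) (ZL.cons (nat_lit 31464) (nat_lit 6) (nat_lit 121096167939295423190) (ZL.cons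 (nat_lit 31540) (nat_lit 6) (nat_lit 120859626243725340554) (ZL.cons (nat_lit 31616) (nat_lit 6) (nat_lit 120662649714617958550) (ZL.cons (nat_lit 31692) (nat_lit 6) (nat_lit 120505161106275588006) (ZL.cons (nat_lit 31768) (nat_lit 6) (nat_lit 120387098658459663286) (ZL.cons (nat_lit 31844) (nat_lit 6) (nat_lit 120308416072171040894) (ZL.cons (nat_lit 31920) (nat_lit 6) (nat_lit 120269082491493529210) (ZL.cons (nat_lit 31996) (nat_lit 6) (nat_lit 122040750232057395156) (ZL.cons (nat_lit 32072) (nat_lit 6) (nat_lit 121628890637136915446) (ZL.cons (nat_lit 32148) (nat_lit 6) (nat_lit 121256741265682326482) (ZL.cons (nat_lit 32224) (nat_lit 6) (nat_lit 120924156176763646076) (ZL.cons (nat_lit 32300) (nat_lit 6) (nat_lit 120631004944855808076) (ZL.cons (nat_lit 32376) (nat_lit 6) (nat_lit 120377172608691397644) (ZL.cons (nat_lit 32452) (nat_lit 6) (nat_lit 120162559626177801288) (ZL.cons (nat_lit 32528) (nat_lit 6) (nat_lit 119987081835361092106) (ZL.cons (nat_lit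 32604) (nat_lit 6) (nat_lit 119850670421421341974) (ZL.cons (nat_lit 32680) (nat_lit 6) (nat_lit 119753271889686417662) (ZL.cons (nat_lit 32756) (nat_lit 6) (nat_lit 119694848044653678020) (ZL.cons (nat_lit 32832) (nat_lit 3) (nat_lit 59837687987505672752) (ZL.cons (nat_lit 32908) (nat_lit 6) (nat_lit 121665073352640778684) (ZL.cons (nat_lit 32984) (nat_lit 6) (nat_lit 121237553091812320442) (ZL.cons (nat_lit 33060) (nat_lit 6) (nat_lit 120849429841131593374) (ZL.cons (nat_lit 33136) (nat_lit 6) (nat_lit 120500551395402252102) (ZL.cons (nat_lit 33212) (nat_lit 6) (nat_lit 120190780939547540020) (ZL.cons (nat_lit 33288) (nat_lit 6) (nat_lit 119919996994957318024) (ZL.cons (nat_lit 33364) (nat_lit 6) (nat_lit 119688093371849393872) (ZL.cons (nat_lit 33440) (nat_lit 6) (nat_lit 119494979127626470338) (ZL.cons (nat_lit 33516) (nat_lit 6) (nat_lit 119340578531212381568) (ZL.cons (nat_lit 33592) (nat_lit 6) (nat_lit 119224831033353631844) (ZL.cons (nat_lit 33668) (nat_lit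 6) (nat_lit 119147691242874590282) (ZL.cons (nat_lit 33744) (nat_lit 6) (nat_lit 119109128908877029808) (ZL.cons (nat_lit 33820) (nat_lit 6) (nat_lit 120870023340715350172) (ZL.cons (nat_lit 33896) (nat_lit 6) (nat_lit 120466239424126644572) (ZL.cons (nat_lit 33972) (nat_lit 6) (nat_lit 120101387099171165196) (ZL.cons (nat_lit 34048) (nat_lit 6) (nat_lit 119775323286505792248) (ZL.cons (nat_lit 34124) (nat_lit 6) (nat_lit 119487920117968696170) (ZL.cons (nat_lit 34200) (nat_lit 6) (nat_lit 119239064886434960454) (ZL.cons (nat_lit 34276) (nat_lit 6) (nat_lit 119028660001617709124) (ZL.cons (nat_lit 34352) (nat_lit 6) (nat_lit 118856622951797406002) (ZL.cons (nat_lit 34428) (nat_lit 6) (nat_lit 118722886271464317640) (ZL.cons (nat_lit 34504) (nat_lit 6) (nat_lit 118627397514861450666) (ZL.cons (nat_lit 34580) (nat_lit 6) (nat_lit 118570119235417588272) (ZL.cons (nat_lit 34656) (nat_lit 3) (nat_lit 59275514485531180157) (ZL.cons (nat_lit 34732) (nat_lit 6) (nat_lit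 120526157254531848964) (ZL.cons (nat_lit 34808) (nat_lit 6) (nat_lit 120107019743915713430) (ZL.cons (nat_lit 34884) (nat_lit 6) (nat_lit 119726506753052255522) (ZL.cons (nat_lit 34960) (nat_lit 6) (nat_lit 119384469061160744470) (ZL.cons (nat_lit 35036) (nat_lit 6) (nat_lit 119080772535812987526) (ZL.cons (nat_lit 35112) (nat_lit 6) (nat_lit 118815298080332377728) (ZL.cons (nat_lit 35188) (nat_lit 6) (nat_lit 118587941587089314834) (ZL.cons (nat_lit 35264) (nat_lit 6) (nat_lit 118398613896674683916) (ZL.cons (nat_lit 35340) (nat_lit 6) (nat_lit 118247240762935381202) (ZL.cons (nat_lit 35416) (nat_lit 6) (nat_lit 118133762823858175590) (ZL.cons (nat_lit 35492) (nat_lit 6) (nat_lit 118058135578290487784) (ZL.cons (nat_lit 35568) (nat_lit 6) (nat_lit 118020329368488957906) (ZL.cons (nat_lit 35644) (nat_lit 6) (nat_lit 120205819983816254658) (ZL.cons (nat_lit 35720) (nat_lit 6) (nat_lit 119771629930035972130) (ZL.cons (nat_lit 35796) (nat_lit 6) (nat_lit 119375763345145084288)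 (ZL.cons (nat_lit 35872) (nat_lit 6) (nat_lit 119018064987345594704) (ZL.cons (nat_lit 35948) (nat_lit 6) (nat_lit 118698394582771699656) (ZL.cons (nat_lit 36024) (nat_lit 6) (nat_lit 118416626770480428992) (ZL.cons (nat_lit 36100) (nat_lit 6) (nat_lit 118172651053290492016) (ZL.cons (nat_lit 36176) (nat_lit 6) (nat_lit 117966371754450049534) (ZL.cons (nat_lit 36252) (nat_lit 6) (nat_lit 117797707980116419024) (ZL.cons (nat_lit 36328) (nat_lit 6) (nat_lit 117666593587632999060) (ZL.cons (nat_lit 36404) (nat_lit 6) (nat_lit 117572977159590972616) (ZL.cons (nat_lit 36480) (nat_lit 6) (nat_lit 117516821983665617326) (ZL.cons (nat_lit 36556) (nat_lit 3) (nat_lit 58749053019109657703) (ZL.cons (nat_lit 36632) (nat_lit 6) (nat_lit 119384770682835011880) (ZL.cons (nat_lit 36708) (nat_lit 6) (nat_lit 119635238576675118692) (ZL.cons (nat_lit 36784) (nat_lit 6) (nat_lit 119908885906109463104) (ZL.cons (nat_lit 36860) (nat_lit 6) (nat_lit 119459938457070212934) (ZL.cons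 (nat_lit 36936) (nat_lit 6) (nat_lit 119049019329015178098) (ZL.cons (nat_lit 37012) (nat_lit 6) (nat_lit 118675967377188258580) (ZL.cons (nat_lit 37088) (nat_lit 6) (nat_lit 118340636306706385000) (ZL.cons (nat_lit 37164) (nat_lit 6) (nat_lit 118042894615188976232) (ZL.cons (nat_lit 37240) (nat_lit 6) (nat_lit 117782625541188378390) (ZL.cons (nat_lit 37316) (nat_lit 6) (nat_lit 117559727018401061826) (ZL.cons (nat_lit 37392) (nat_lit 6) (nat_lit 117374111635641619752) (ZL.cons (nat_lit 37468) (nat_lit 6) (nat_lit 117225706602563871992) (ZL.cons (nat_lit 37544) (nat_lit 6) (nat_lit 117114453721115631196) (ZL.cons (nat_lit 37620) (nat_lit 6) (nat_lit 117040309362715937268) (ZL.cons (nat_lit 37696) (nat_lit 6) (nat_lit 117003244451145809936) (ZL.cons (nat_lit 37772) (nat_lit 3) (nat_lit 58760693927333494616) (ZL.cons (nat_lit 37848) (nat_lit 6) (nat_lit 117532795801187633424) (ZL.cons (nat_lit 37924) (nat_lit 6) (nat_lit 117567024114454083896) (ZL.cons (nat_lit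 38000) (nat_lit 6) (nat_lit 117624086217334288282) (ZL.cons (nat_lit 38076) (nat_lit 6) (nat_lit 117704004487123493718) (ZL.cons (nat_lit 38152) (nat_lit 6) (nat_lit 117806810264319656754) (ZL.cons (nat_lit 38228) (nat_lit 6) (nat_lit 117932543864913834708) (ZL.cons (nat_lit 38304) (nat_lit 6) (nat_lit 118081254596200378242) (ZL.cons (nat_lit 38380) (nat_lit 6) (nat_lit 118253000776113125214) (ZL.cons (nat_lit 38456) (nat_lit 6) (nat_lit 118447849756095178660) (ZL.cons (nat_lit 38532) (nat_lit 6) (nat_lit 118665877947511237428) (ZL.cons (nat_lit 38608) (nat_lit 6) (nat_lit 118907170851612837224) (ZL.cons (nat_lit 38684) (nat_lit 6) (nat_lit 119171823093068253190) (ZL.cons (nat_lit 38760) (nat_lit 6) (nat_lit 118746146569754250712) (ZL.cons (nat_lit 38836) (nat_lit 6) (nat_lit 118358042074763184200) (ZL.cons (nat_lit 38912) (nat_lit 6) (nat_lit 118007357410253880686) (ZL.cons (nat_lit 38988) (nat_lit 6) (nat_lit 117693955052828493386) (ZL.cons (nat_lit 39064)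 (nat_lit 6) (nat_lit 117417712099601757440) (ZL.cons (nat_lit 39140) (nat_lit 6) (nat_lit 117178520220003780010) (ZL.cons (nat_lit 39216) (nat_lit 6) (nat_lit 116976285613297463854) (ZL.cons (nat_lit 39292) (nat_lit 6) (nat_lit 116810928971793904530) (ZL.cons (nat_lit 39368) (nat_lit 6) (nat_lit 116682385449751335938) (ZL.cons (nat_lit 39444) (nat_lit 6) (nat_lit 116590604637945427658) (ZL.cons (nat_lit 39520) (nat_lit 6) (nat_lit 116535550543900961688) (ZL.cons (nat_lit 39596) (nat_lit 3) (nat_lit 58258600788888568138) (ZL.cons (nat_lit 39672) (nat_lit 6) (nat_lit 116939646840957458466) (ZL.cons (nat_lit 39748) (nat_lit 6) (nat_lit 116962690892929159732) (ZL.cons (nat_lit 39824) (nat_lit 6) (nat_lit 117008788033755688422) (ZL.cons (nat_lit 39900) (nat_lit 6) (nat_lit 117077956340747172590) (ZL.cons (nat_lit 39976) (nat_lit 6) (nat_lit 117170222938729883404) (ZL.cons (nat_lit 40052) (nat_lit 6) (nat_lit 117285624010683421922) (ZL.cons (nat_lit 40128) (nat_lit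 6) (nat_lit 117424204811930122872) (ZL.cons (nat_lit 40204) (nat_lit 6) (nat_lit 117586019687882239860) (ZL.cons (nat_lit 40280) (nat_lit 6) (nat_lit 117771132095353871754) (ZL.cons (nat_lit 40356) (nat_lit 6) (nat_lit 117979614627445987822) (ZL.cons (nat_lit 40432) (nat_lit 6) (nat_lit 118211549042014310464) (ZL.cons (nat_lit 40508) (nat_lit 6) (nat_lit 118467026293731219414) (ZL.cons (nat_lit 40584) (nat_lit 6) (nat_lit 118064164403481185260) (ZL.cons (nat_lit 40660) (nat_lit 6) (nat_lit 117698427195807734752) (ZL.cons (nat_lit 40736) (nat_lit 6) (nat_lit 117369671244354917518) (ZL.cons (nat_lit 40812) (nat_lit 6) (nat_lit 117077767625220203040) (ZL.cons (nat_lit 40888) (nat_lit 6) (nat_lit 116822601866396087506) (ZL.cons (nat_lit 40964) (nat_lit 6) (nat_lit 116604073902879110484) (ZL.cons (nat_lit 41040) (nat_lit 6) (nat_lit 116422098037428677078) (ZL.cons (nat_lit 41116) (nat_lit 6) (nat_lit 116276602906960296922) (ZL.cons (nat_lit 41192) (nat_lit 6) (nat_lit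 116167531454560060846) (ZL.cons (nat_lit 41268) (nat_lit 6) (nat_lit 116094840907109380524) (ZL.cons (nat_lit 41344) (nat_lit 6) (nat_lit 116058502758511216474) (ZL.cons (nat_lit 41420) (nat_lit 3) (nat_lit 58190360230155948012) (ZL.cons (nat_lit 41496) (nat_lit 6) (nat_lit 116392356565762953098) (ZL.cons (nat_lit 41572) (nat_lit 6) (nat_lit 116427269445294732582) (ZL.cons (nat_lit 41648) (nat_lit 6) (nat_lit 116485472790232541054) (ZL.cons (nat_lit 41724) (nat_lit 6) (nat_lit 116566989425417530600) (ZL.cons (nat_lit 41800) (nat_lit 6) (nat_lit 116671851318157616896) (ZL.cons (nat_lit 41876) (nat_lit 6) (nat_lit 116800099590763678410) (ZL.cons (nat_lit 41952) (nat_lit 6) (nat_lit 116951784536675952814) (ZL.cons (nat_lit 42028) (nat_lit 6) (nat_lit 117126965640186954724) (ZL.cons (nat_lit 42104) (nat_lit 6) (nat_lit 117325711599768649240) (ZL.cons (nat_lit 42180) (nat_lit 6) (nat_lit 117548100355013029182) (ZL.cons (nat_lit 42256) (nat_lit 6) (nat_lit 117794219117196660978)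 (ZL.cons (nat_lit 42332) (nat_lit 6) (nat_lit 117413724514264242828) (ZL.cons (nat_lit 42408) (nat_lit 6) (nat_lit 117069916019647278600) (ZL.cons (nat_lit 42484) (nat_lit 6) (nat_lit 116762658806485134188) (ZL.cons (nat_lit 42560) (nat_lit 6) (nat_lit 116491832381753040122) (ZL.cons (nat_lit 42636) (nat_lit 6) (nat_lit 116257330539009924996) (ZL.cons (nat_lit 42712) (nat_lit 6) (nat_lit 116059061316748830724) (ZL.cons (nat_lit 42788) (nat_lit 6) (nat_lit 115896946962333576486) (ZL.cons (nat_lit 42864) (nat_lit 6) (nat_lit 115770923901507528846) (ZL.cons (nat_lit 42940) (nat_lit 6) (nat_lit 115680942713462520728) (ZL.cons (nat_lit 43016) (nat_lit 6) (nat_lit 115626968111458142326) (ZL.cons (nat_lit 43092) (nat_lit 3) (nat_lit 57804489464491901844) (ZL.cons (nat_lit 43168) (nat_lit 6) (nat_lit 115855797472435006660) (ZL.cons (nat_lit 43244) (nat_lit 6) (nat_lit 115879302405446141952) (ZL.cons (nat_lit 43320) (nat_lit 6) (nat_lit 115926321489089201218) (ZL.cons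 (nat_lit 43396) (nat_lit 6) (nat_lit 115996873162220515068) (ZL.cons (nat_lit 43472) (nat_lit 6) (nat_lit 116090985092162880096) (ZL.cons (nat_lit 43548) (nat_lit 6) (nat_lit 116208694185555489388) (ZL.cons (nat_lit 43624) (nat_lit 6) (nat_lit 116350046602827124356) (ZL.cons (nat_lit 43700) (nat_lit 6) (nat_lit 116515097776298283682) (ZL.cons (nat_lit 43776) (nat_lit 6) (nat_lit 116703912431919348214) (ZL.cons (nat_lit 43852) (nat_lit 6) (nat_lit 116916564614653306604) (ZL.cons (nat_lit 43928) (nat_lit 6) (nat_lit 117153137717512995700) (ZL.cons (nat_lit 44004) (nat_lit 6) (nat_lit 116794571827637063830) (ZL.cons (nat_lit 44080) (nat_lit 6) (nat_lit 116472262071310772424) (ZL.cons (nat_lit 44156) (nat_lit 6) (nat_lit 116186082052551248424) (ZL.cons (nat_lit 44232) (nat_lit 6) (nat_lit 115935919543900154766) (ZL.cons (nat_lit 44308) (nat_lit 6) (nat_lit 115721676442412922390) (ZL.cons (nat_lit 44384) (nat_lit 6) (nat_lit 115543268731187007286) (ZL.cons (nat_lit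 44460) (nat_lit 6) (nat_lit 115400626446414085564) (ZL.cons (nat_lit 44536) (nat_lit 6) (nat_lit 115293693649943265882) (ZL.cons (nat_lit 44612) (nat_lit 6) (nat_lit 115222428407344559684) (ZL.cons (nat_lit 44688) (nat_lit 6) (nat_lit 115186802771464006694) (ZL.cons (nat_lit 44764) (nat_lit 3) (nat_lit 57676401598807301788) (ZL.cons (nat_lit 44840) (nat_lit 6) (nat_lit 115364672025174681794) (ZL.cons (nat_lit 44916) (nat_lit 6) (nat_lit 115400283162297096868) (ZL.cons (nat_lit 44992) (nat_lit 6) (nat_lit 115459650574133661512) (ZL.cons (nat_lit 45068) (nat_lit 6) (nat_lit 115542797542022350844) (ZL.cons (nat_lit 45144) (nat_lit 6) (nat_lit 115649756672617238868) (ZL.cons (nat_lit 45220) (nat_lit 6) (nat_lit 115780569910675421614) (ZL.cons (nat_lit 45296) (nat_lit 6) (nat_lit 115935288555505941504) (ZL.cons (nat_lit 45372) (nat_lit 6) (nat_lit 116113973281087163452) (ZL.cons (nat_lit 45448) (nat_lit 6) (nat_lit 116316694159860491858) (ZL.cons (nat_lit 45524) (nat_lit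 6) (nat_lit 116543530690209759402) (ZL.cons (nat_lit 45600) (nat_lit 6) (nat_lit 116206463538624500354) (ZL.cons (nat_lit 45676) (nat_lit 6) (nat_lit 115905230976700829360) (ZL.cons (nat_lit 45752) (nat_lit 6) (nat_lit 115639714874022305768) (ZL.cons (nat_lit 45828) (nat_lit 6) (nat_lit 115409811106627094860) (ZL.cons (nat_lit 45904) (nat_lit 6) (nat_lit 115215429516175041652) (ZL.cons (nat_lit 45980) (nat_lit 6) (nat_lit 115056493874591459064) (ZL.cons (nat_lit 46056) (nat_lit 6) (nat_lit 114932941854173765300) (ZL.cons (nat_lit 46132) (nat_lit 6) (nat_lit 114844725003149247538) (ZL.cons (nat_lit 46208) (nat_lit 6) (nat_lit 114791808726674366752) (ZL.cons (nat_lit 46284) (nat_lit 3) (nat_lit 57387086136634076200) (ZL.cons (nat_lit 46360) (nat_lit 6) (nat_lit 114883176488644951532) (ZL.cons (nat_lit 46436) (nat_lit 6) (nat_lit 114907151520316309532) (ZL.cons (nat_lit 46512) (nat_lit 6) (nat_lit 114955110985632229984) (ZL.cons (nat_lit 46588) (nat_lit 6) (nat_lit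 115027073692226170110) (ZL.cons (nat_lit 46664) (nat_lit 6) (nat_lit 115123067860767382438) (ZL.cons (nat_lit 46740) (nat_lit 6) (nat_lit 115243131136027843916) (ZL.cons (nat_lit 46816) (nat_lit 6) (nat_lit 115387310601644911584) (ZL.cons (nat_lit 46892) (nat_lit 6) (nat_lit 115555662798585494096) (ZL.cons (nat_lit 46968) (nat_lit 6) (nat_lit 115748253747318979918) (ZL.cons (nat_lit 47044) (nat_lit 6) (nat_lit 115965158973707617478) (ZL.cons (nat_lit 47120) (nat_lit 6) (nat_lit 115649169016524978842) (ZL.cons (nat_lit 47196) (nat_lit 6) (nat_lit 115368600370682308256) (ZL.cons (nat_lit 47272) (nat_lit 6) (nat_lit 115123343009259667414) (ZL.cons (nat_lit 47348) (nat_lit 6) (nat_lit 114913300752899635674) (ZL.cons (nat_lit 47424) (nat_lit 6) (nat_lit 114738391232089914982) (ZL.cons (nat_lit 47500) (nat_lit 6) (nat_lit 114598545854861560352) (ZL.cons (nat_lit 47576) (nat_lit 6) (nat_lit 114493709779890168508) (ZL.cons (nat_lit 47652) (nat_lit 6) (nat_lit 114423841894989476158)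 (ZL.cons (nat_lit 47728) (nat_lit 6) (nat_lit 114388914800988934010) (ZL.cons (nat_lit 47804) (nat_lit 3) (nat_lit 57217313487038959950) (ZL.cons (nat_lit 47880) (nat_lit 6) (nat_lit 114446733178189199682) (ZL.cons (nat_lit 47956) (nat_lit 6) (nat_lit 114483056538054063060) (ZL.cons (nat_lit 48032) (nat_lit 6) (nat_lit 114543611298127358994) (ZL.cons (nat_lit 48108) (nat_lit 6) (nat_lit 114628421205373822116) (ZL.cons (nat_lit 48184) (nat_lit 6) (nat_lit 114737519518580607898) (ZL.cons (nat_lit 48260) (nat_lit 6) (nat_lit 114870949021399954298) (ZL.cons (nat_lit 48336) (nat_lit 6) (nat_lit 115028762039127084588) (ZL.cons (nat_lit 48412) (nat_lit 6) (nat_lit 115211020459219930974) (ZL.cons (nat_lit 48488) (nat_lit 6) (nat_lit 115417795755568725950) (ZL.cons (nat_lit 48564) (nat_lit 6) (nat_lit 115122469714467087722) (ZL.cons (nat_lit 48640) (nat_lit 6) (nat_lit 114862159809880299886) (ZL.cons (nat_lit 48716) (nat_lit 6) (nat_lit 114636763959492838212) (ZL.cons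 (nat_lit 48792) (nat_lit 6) (nat_lit 114446193772775138988) (ZL.cons (nat_lit 48868) (nat_lit 6) (nat_lit 114290374516320646254) (ZL.cons (nat_lit 48944) (nat_lit 6) (nat_lit 114169245084538593544) (ZL.cons (nat_lit 49020) (nat_lit 6) (nat_lit 114082757975691027112) (ZL.cons (nat_lit 49096) (nat_lit 6) (nat_lit 114030879273264673400) (ZL.cons (nat_lit 49172) (nat_lit 3) (nat_lit 57006794316335172802) (ZL.cons (nat_lit 49248) (nat_lit 6) (nat_lit 114018847579703168458) (ZL.cons (nat_lit 49324) (nat_lit 6) (nat_lit 114043302112007953618) (ZL.cons (nat_lit 49400) (nat_lit 6) (nat_lit 114092220766630192478) (ZL.cons (nat_lit 49476) (nat_lit 6) (nat_lit 114165622727356011408) (ZL.cons (nat_lit 49552) (nat_lit 6) (nat_lit 114263536779268047984) (ZL.cons (nat_lit 49628) (nat_lit 6) (nat_lit 114386001320033718688) (ZL.cons (nat_lit 49704) (nat_lit 6) (nat_lit 114533064374963127710) (ZL.cons (nat_lit 49780) (nat_lit 6) (nat_lit 114704783615842521874) (ZL.cons (nat_lit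 49856) (nat_lit 6) (nat_lit 114901226383550677414) (ZL.cons (nat_lit 49932) (nat_lit 6) (nat_lit 114626159083704921936) (ZL.cons (nat_lit 50008) (nat_lit 6) (nat_lit 114385710690153313268) (ZL.cons (nat_lit 50084) (nat_lit 6) (nat_lit 114179786909408184110) (ZL.cons (nat_lit 50160) (nat_lit 6) (nat_lit 114008306987045712844) (ZL.cons (nat_lit 50236) (nat_lit 6) (nat_lit 113871203676037522030) (ZL.cons (nat_lit 50312) (nat_lit 6) (nat_lit 113768423210379294732) (ZL.cons (nat_lit 50388) (nat_lit 6) (nat_lit 113699925284006066938) (ZL.cons (nat_lit 50464) (nat_lit 6) (nat_lit 113665683034985927578) (ZL.cons (nat_lit 50540) (nat_lit 3) (nat_lit 56811663463292149883) (ZL.cons (nat_lit 50616) (nat_lit 6) (nat_lit 113635675254777805144) (ZL.cons (nat_lit 50692) (nat_lit 6) (nat_lit 113672725081839965786) (ZL.cons (nat_lit 50768) (nat_lit 6) (nat_lit 113734490937114727642) (ZL.cons (nat_lit 50844) (nat_lit 6) (nat_lit 113820997042506120026) (ZL.cons (nat_lit 50920) (nat_lit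 6) (nat_lit 113932277321977041524) (ZL.cons (nat_lit 50996) (nat_lit 6) (nat_lit 114068375414852774850) (ZL.cons (nat_lit 51072) (nat_lit 6) (nat_lit 114229344692934447746) (ZL.cons (nat_lit 51148) (nat_lit 6) (nat_lit 114415248281429151064) (ZL.cons (nat_lit 51224) (nat_lit 6) (nat_lit 114160042492618574754) (ZL.cons (nat_lit 51300) (nat_lit 6) (nat_lit 113939066168709298602) (ZL.cons (nat_lit 51376) (nat_lit 6) (nat_lit 113752232652319397402) (ZL.cons (nat_lit 51452) (nat_lit 6) (nat_lit 113599468675403228056) (ZL.cons (nat_lit 51528) (nat_lit 6) (nat_lit 113480714330518862654) (ZL.cons (nat_lit 51604) (nat_lit 6) (nat_lit 113395923047334973994) (ZL.cons (nat_lit 51680) (nat_lit 6) (nat_lit 113345061574367960552) (ZL.cons (nat_lit 51756) (nat_lit 3) (nat_lit 56664054982971074494) (ZL.cons (nat_lit 51832) (nat_lit 6) (nat_lit 113260016112694115620) (ZL.cons (nat_lit 51908) (nat_lit 6) (nat_lit 113284959735644996480) (ZL.cons (nat_lit 51984) (nat_lit 6) (nat_lit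 113334856763359680118) (ZL.cons (nat_lit 52060) (nat_lit 6) (nat_lit 113409726763300015428) (ZL.cons (nat_lit 52136) (nat_lit 6) (nat_lit 113509599096250292734) (ZL.cons (nat_lit 52212) (nat_lit 6) (nat_lit 113634512927831276854) (ZL.cons (nat_lit 52288) (nat_lit 6) (nat_lit 113784517243859274054) (ZL.cons (nat_lit 52364) (nat_lit 6) (nat_lit 113959670869556256104) (ZL.cons (nat_lit 52440) (nat_lit 6) (nat_lit 113723937150388012310) (ZL.cons (nat_lit 52516) (nat_lit 6) (nat_lit 113522051090833964116) (ZL.cons (nat_lit 52592) (nat_lit 6) (nat_lit 113353933519890364836) (ZL.cons (nat_lit 52668) (nat_lit 6) (nat_lit 113219518509098020902) (ZL.cons (nat_lit 52744) (nat_lit 6) (nat_lit 113118753346687994138) (ZL.cons (nat_lit 52820) (nat_lit 6) (nat_lit 113051598516910319830) (ZL.cons (nat_lit 52896) (nat_lit 6) (nat_lit 113018027684537634184) (ZL.cons (nat_lit 52972) (nat_lit 3) (nat_lit 56458088684223131995) (ZL.cons (nat_lit 53048) (nat_lit 6) (nat_lit 112928772663203639472)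 (ZL.cons (nat_lit 53124) (nat_lit 6) (nat_lit 112966563486807043328) (ZL.cons (nat_lit 53200) (nat_lit 6) (nat_lit 113029564659187300420) (ZL.cons (nat_lit 53276) (nat_lit 6) (nat_lit 113117800886686520652) (ZL.cons (nat_lit 53352) (nat_lit 6) (nat_lit 113231306771746860580) (ZL.cons (nat_lit 53428) (nat_lit 6) (nat_lit 113370126826480108574) (ZL.cons (nat_lit 53504) (nat_lit 6) (nat_lit 113534315490123414928) (ZL.cons (nat_lit 53580) (nat_lit 6) (nat_lit 113317672035310399092) (ZL.cons (nat_lit 53656) (nat_lit 6) (nat_lit 113134501921202652818) (ZL.cons (nat_lit 53732) (nat_lit 6) (nat_lit 112984733316382878950) (ZL.cons (nat_lit 53808) (nat_lit 6) (nat_lit 112868307488064873654) (ZL.cons (nat_lit 53884) (nat_lit 6) (nat_lit 112785178779061061242) (ZL.cons (nat_lit 53960) (nat_lit 6) (nat_lit 112735314589877714730) (ZL.cons (nat_lit 54036) (nat_lit 3) (nat_lit 56359347682965420324) (ZL.cons (nat_lit 54112) (nat_lit 6) (nat_lit 112604024183311015800) (ZL.cons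 (nat_lit 54188) (nat_lit 6) (nat_lit 112629466678720914278) (ZL.cons (nat_lit 54264) (nat_lit 6) (nat_lit 112680361646989891588) (ZL.cons (nat_lit 54340) (nat_lit 6) (nat_lit 112756729046929033602) (ZL.cons (nat_lit 54416) (nat_lit 6) (nat_lit 112858598826538316456) (ZL.cons (nat_lit 54492) (nat_lit 6) (nat_lit 112986010934750920258) (ZL.cons (nat_lit 54568) (nat_lit 6) (nat_lit 113139015337099477406) (ZL.cons (nat_lit 54644) (nat_lit 6) (nat_lit 112941087827732763490) (ZL.cons (nat_lit 54720) (nat_lit 6) (nat_lit 112776266679748842628) (ZL.cons (nat_lit 54796) (nat_lit 6) (nat_lit 112644487257403407398) (ZL.cons (nat_lit 54872) (nat_lit 6) (nat_lit 112545697882491616454) (ZL.cons (nat_lit 54948) (nat_lit 6) (nat_lit 112479859814082131838) (ZL.cons (nat_lit 55024) (nat_lit 6) (nat_lit 112446947233324596890) (ZL.cons (nat_lit 55100) (nat_lit 3) (nat_lit 56155293471811034765) (ZL.cons (nat_lit 55176) (nat_lit 6) (nat_lit 112323434144274592526) (ZL.cons (nat_lit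 55252) (nat_lit 6) (nat_lit 112361980784350064458) (ZL.cons (nat_lit 55328) (nat_lit 6) (nat_lit 112426241980177926690) (ZL.cons (nat_lit 55404) (nat_lit 6) (nat_lit 112516242932227131326) (ZL.cons (nat_lit 55480) (nat_lit 6) (nat_lit 112632018934988678054) (ZL.cons (nat_lit 55556) (nat_lit 6) (nat_lit 112773615390816591010) (ZL.cons (nat_lit 55632) (nat_lit 6) (nat_lit 112594036847573702506) (ZL.cons (nat_lit 55708) (nat_lit 6) (nat_lit 112447204882064120282) (ZL.cons (nat_lit 55784) (nat_lit 6) (nat_lit 112333061913124899404) (ZL.cons (nat_lit 55860) (nat_lit 6) (nat_lit 112251563178807436256) (ZL.cons (nat_lit 55936) (nat_lit 6) (nat_lit 112202676718823763204) (ZL.cons (nat_lit 56012) (nat_lit 3) (nat_lit 56093191681006551169) (ZL.cons (nat_lit 56088) (nat_lit 6) (nat_lit 112048345870709471668) (ZL.cons (nat_lit 56164) (nat_lit 6) (nat_lit 112074297216027568118) (ZL.cons (nat_lit 56240) (nat_lit 6) (nat_lit 112126210083661924972) (ZL.cons (nat_lit 56316) (nat_lit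 6) (nat_lit 112204104831599849826) (ZL.cons (nat_lit 56392) (nat_lit 6) (nat_lit 112308012006801318336) (ZL.cons (nat_lit 56468) (nat_lit 6) (nat_lit 112437972357178174218) (ZL.cons (nat_lit 56544) (nat_lit 6) (nat_lit 112276382996409624352) (ZL.cons (nat_lit 56620) (nat_lit 6) (nat_lit 112147187484306256480) (ZL.cons (nat_lit 56696) (nat_lit 6) (nat_lit 112050335155961363398) (ZL.cons (nat_lit 56772) (nat_lit 6) (nat_lit 111985788030069711814) (ZL.cons (nat_lit 56848) (nat_lit 6) (nat_lit 111953520794032912844) (ZL.cons (nat_lit 56924) (nat_lit 3) (nat_lit 55902046990135606222) (ZL.cons (nat_lit 57000) (nat_lit 6) (nat_lit 111817198124936785898) (ZL.cons (nat_lit 57076) (nat_lit 6) (nat_lit 111856515697813767270) (ZL.cons (nat_lit 57152) (nat_lit 6) (nat_lit 111922062117558186746) (ZL.cons (nat_lit 57228) (nat_lit 6) (nat_lit 112013863088648375474) (ZL.cons (nat_lit 57304) (nat_lit 6) (nat_lit 112131954611465153138) (ZL.cons (nat_lit 57380) (nat_lit 6) (nat_lit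 111988001704102817624) (ZL.cons (nat_lit 57456) (nat_lit 6) (nat_lit 111876096832593777548) (ZL.cons (nat_lit 57532) (nat_lit 6) (nat_lit 111796196112674696030) (ZL.cons (nat_lit 57608) (nat_lit 6) (nat_lit 111748268210729918528) (ZL.cons (nat_lit 57684) (nat_lit 3) (nat_lit 55866147165751890212) (ZL.cons (nat_lit 57760) (nat_lit 6) (nat_lit 111590582687904741026) (ZL.cons (nat_lit 57836) (nat_lit 6) (nat_lit 111617053060129199402) (ZL.cons (nat_lit 57912) (nat_lit 6) (nat_lit 111670004185116243396) (ZL.cons (nat_lit 57988) (nat_lit 6) (nat_lit 111749456828012926746) (ZL.cons (nat_lit 58064) (nat_lit 6) (nat_lit 111855442146718424628) (ZL.cons (nat_lit 58140) (nat_lit 6) (nat_lit 111728779879950416910) (ZL.cons (nat_lit 58216) (nat_lit 6) (nat_lit 111633826616867188398) (ZL.cons (nat_lit 58292) (nat_lit 6) (nat_lit 111570545120894980962) (ZL.cons (nat_lit 58368) (nat_lit 6) (nat_lit 111538910575760864326) (ZL.cons (nat_lit 58444) (nat_lit 3) (nat_lit 55697181018066298702)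 (ZL.cons (nat_lit 58520) (nat_lit 6) (nat_lit 111407728263691482326) (ZL.cons (nat_lit 58596) (nat_lit 6) (nat_lit 111447832188026003324) (ZL.cons (nat_lit 58672) (nat_lit 6) (nat_lit 111514689536165311192) (ZL.cons (nat_lit 58748) (nat_lit 6) (nat_lit 111608326526677303696) (ZL.cons (nat_lit 58824) (nat_lit 6) (nat_lit 111498615868335107542) (ZL.cons (nat_lit 58900) (nat_lit 6) (nat_lit 111420281829198753112) (ZL.cons (nat_lit 58976) (nat_lit 6) (nat_lit 111373293690037206542) (ZL.cons (nat_lit 59052) (nat_lit 3) (nat_lit 55678816512064614005) (ZL.cons (nat_lit 59128) (nat_lit 6) (nat_lit 111228459220345150268) (ZL.cons (nat_lit 59204) (nat_lit 6) (nat_lit 111255459000014097812) (ZL.cons (nat_lit 59280) (nat_lit 6) (nat_lit 111309469147500882684) (ZL.cons (nat_lit 59356) (nat_lit 6) (nat_lit 111390510843255499706) (ZL.cons (nat_lit 59432) (nat_lit 6) (nat_lit 111297419408860177634) (ZL.cons (nat_lit 59508) (nat_lit 6) (nat_lit 111235378726534484070) (ZL.cons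 (nat_lit 59584) (nat_lit 6) (nat_lit 111204364466599075604) (ZL.cons (nat_lit 59660) (nat_lit 3) (nat_lit 55539587814252288607) (ZL.cons (nat_lit 59736) (nat_lit 6) (nat_lit 111092809180614639836) (ZL.cons (nat_lit 59812) (nat_lit 6) (nat_lit 111133715183435851254) (ZL.cons (nat_lit 59888) (nat_lit 6) (nat_lit 111201909678537945280) (ZL.cons (nat_lit 59964) (nat_lit 6) (nat_lit 111125111600953284074) (ZL.cons (nat_lit 60040) (nat_lit 6) (nat_lit 111079044797853728614) (ZL.cons (nat_lit 60116) (nat_lit 3) (nat_lit 55531845601913149340) (ZL.cons (nat_lit 60192) (nat_lit 6) (nat_lit 110959818945584727648) (ZL.cons (nat_lit 60268) (nat_lit 6) (nat_lit 110987358720847054144) (ZL.cons (nat_lit 60344) (nat_lit 6) (nat_lit 111042449071283574716) (ZL.cons (nat_lit 60420) (nat_lit 6) (nat_lit 110981624872925051614) (ZL.cons (nat_lit 60496) (nat_lit 6) (nat_lit 110951218735733474686) (ZL.cons (nat_lit 60572) (nat_lit 3) (nat_lit 55428218070945508093) (ZL.cons (nat_lit 60648)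 (nat_lit 6) (nat_lit 110870342365043280060) (ZL.cons (nat_lit 60724) (nat_lit 6) (nat_lit 110912066487920915710) (ZL.cons (nat_lit 60800) (nat_lit 6) (nat_lit 110866902955470371140) (ZL.cons (nat_lit 60876) (nat_lit 3) (nat_lit 55425925206153112073) (ZL.cons (nat_lit 60952) (nat_lit 6) (nat_lit 110782620227257547130) (ZL.cons (nat_lit 61028) (nat_lit 6) (nat_lit 110810710798025120158) (ZL.cons (nat_lit 61104) (nat_lit 6) (nat_lit 110780900859602005522) (ZL.cons (nat_lit 61180) (nat_lit 3) (nat_lit 55362078953325754004) (ZL.cons (nat_lit 61256) (nat_lit 6) (nat_lit 110738342254266817162) (ZL.cons (nat_lit 61332) (nat_lit 3) (nat_lit 55361792429503924760) (ZL.cons (nat_lit 61408) (nat_lit 6) (nat_lit 110694932476824925034) (ZL.cons (nat_lit 61484) (nat_lit 1) (nat_lit 18446744073709551617) ZL.nil)))))))))))))))))))))))))))))))))))))))))))))))))))))))))))))))))))))))))))))))))))))))))))))))))))))))))))))))))))))))))))))))))))))))))))))))))))))))))))))))))))))))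)))))))))))))))))))))))))))))))))))))))))))))))))))))))))))))))))))))))))))))))))))))))))))))))))))))))))))))))))))))))))))))))))))))))))))))))))))))))))))))))))))))))))))))))))))))))))))))))))))))))))))))))))))))))))))))))))))))))))))))))))))))))))))))))))))))))))))))))))))))))))))))))))))))))))))))))))))))))))))))))))))))))))))))))))))))))))))))))))))))))))))))))))))))))))))))))))))))))))))))))))))))))))))))))))))))))))))))))))))))))))))))))))))))))))))))))))))))))))))))))))))))))))))))))))))))))))))))))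

noncomputable def vl : XL := ⟨(nat_lit 0), (nat_lit 0), (nat_lit 536870912), (nat_lit 0), (nat_lit 0), (nat_lit 0), (nat_lit 0), (nat_lit 0), (nat_lit 0), (nat_lit 1), (nat_lit 0), (nat_lit 1), (nat_lit 0), (nat_lit 0), (nat_lit 0), (nat_lit 0)⟩

noncomputable def cp0 : Nat := (nat_lit 268347495124754764361686077546993714318491472269253038714386639008782224812461716972386564400366100502994806319283058057067094957239246999946590660566685251930091535152373761274954879304014030044004286440976083807365457155532556757171636562315984086228903513104762879071908092888382864908973660013956373954649479359559093896651725948450776155083054442328337539543503148572169395050740662323813219398119261776161413608737068242725049096344063617056687312259350750691497023085489307005345043101782458019243009986168129898818788474367839082895372227737409923864594653165634192312097852944440840583834178130838936061855216342363471769980179455976926326537021912945701510679144543745135844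2405226804094919395439580715361781209829970472989275004332484638018178160487719417894739697921914087487151583919145640452974107539944678051831144918598116084165588618117791740867043739965525083248663197313446840271153239555660722475540783236037996482111133668784335243009888594527053045757988411958918560497484441893828562777008106033657716764290708770989573793600617482166956884930759629058312961643203832661596284205720601024986007152657364011110259086393114386653195887462185751963549418634074062712041819632883237957400970251421163226872271150379531978089924827450563368165569144040224867082262827975912466238607070234081020797403523807749483718864713312077721908099824885775039524976849255107181240399189419670393226169532322634626788335288532460896777491821635515934684566347394250088821532199270160287298764263942222122774294141541642621576192670286105524172756929717485080436447911189726568390807013162640441878234929603022141804339037350780277405937911544773709120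7600618213713005907182638210399261083733457384340886874397150823169070113518401107469155955403631077262048095051076639526668910176264468930850908936309915882417961546376762594743436878530310779609984384848310595795325972902134816113111860316836549309479738783392575037560795765148025047344474034679361522535623073254307806522192675363186297729326293034135069195048526897688529475545202460994877486830960980652932269415318615900714332029393557866232290138156424389228642764099058824301480709222294699016758971266232070038431271498743580406111494386246635732088304044548011073362926059467171329457433381836477973484038628326980990978676577141557161354841529689196926159193093212520041276564388553276134260157356797258867854111459054561048332645331825605782231442816793570558928331882292532534918921270402534437842712706092613881063478493246200248178387393159959466664292586206358886972146170360594359336576139037842445256226522559451320305671126733775381227355710202077182685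9626457386743381011853080166921065183952317761651249595631142824900975031460027770287763574142576872871096561673336565222206605879036010053999539128173295995954156922964214284535019906968896728711185047039040052931215229855268496317274861546588103580624155985606411318717374259838532098718457935441590839946644145525423231877654636949072249980339523996699972502106478137251210981674407629606081566297077901444222216294942469266121577495308353632870709262822545116380114620200147210574902991578504177099030621552370785265482950086882633646554295461671309407922911071939125394478016549660968928843253505340177338261923615196554541678361130638818855344065455194141317052158439970703069652929066860812489337759328318524562995988644601580437520826246489974305116095966379794184620983664188643345589979456380480091251194239312897795494389027263950254857602236258676008152306156767163427284865910235694181446854382040799040585533278668824367649737595366606395024423122386488827971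4543440328738914916599379956290842333106572372936938183024238386552574953861266106876305874173097989415398788712776241455396955213640647411108781267760973554592876997029710087812931181209661769946998213874132630203538470462154286698092666855471566716374841171914596164320460560222484968408043226249709799145849974611622137509660934944600190865768120475188934405176043123953704692715894943355087273086664475677965750304288133102543428617987451995759136336488357808068901022107799491662501448004811141001638866821295268892042273062425574873585123265725520765752856426712245482629162362963097572508989100895650936199846526527128791227423314278567230165954976418895191327694820119553804886642662982076993027369228304157402711784475538402264330639286807322179960081118533794821540344469722290613221206031189824350476454998171880999891051952357566459300651186006258987771076851622501537355036297032696852166893342407736363115140803713325607694677185430947644588308920567640995966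2564386221692847206738299339594448872227060199302424929275250519267129416373602229620140745322907919025894441076294214243168403655821909566942731344127036933041375113990780877808766083034691481461978279021531928300055093448484069345297576271056020297803531357080228868581700321161906221213347997709796677697619870316627135939589075457755295096828910461241904946877175648600173940143136905318493000153133413709438096644557708266558536009451691159341815597135856930571613410027006551994734460171276924484035039205928381765876038668377599698699117517184246902927054557533770074235138532553601632191860547564167321770681718423012185417041954063657054627177222292190505104442170768181319317058680389871899619076668130282831717791199492299828034195782300381666005709407154258531908714435013531940707331524950410945392365776068027397422558203801182907398666568696371680837704037903893420332058727537899214347771848857788440036440922330642548010596428208800695570340218064057278009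6097790774719970878993905422167667069157907146456327153430446625468921004878232512624329936783314674341007034357323674941080221109136447897756455484005854368527277801822064309943788711920543900511314140826756594152060102554819894249350685017437546041184278980705884767233994560987620641037860257327380216260114666196303258467504896653216905556625139278883154189754592855272560087584861339427961676616392983692729964405960939013893996783663712560266121402148517028360353321743678867288562397403686836593372905392280384551719988379405618957993588440162255849838697936871242317657342315890660464645034405118801512165161000491386173358529149746142311167822750918806514366947029507198267731632839637239971261406396169530647936097466341573127569223799028296206544809553471586235264380945979694336409203765196583643764352917014632456006831599824177646395652563751098350745688501674202545263671783140625552880723996167448884119259488636312090510995849009279972555409413477577967299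5278143412981403321067863790695498054913698603570512500482072707233324186003550309996776452251594247836680880016686849940117829986588833558847436540453180913127178162864641420869336984945588823863377267589333186416146885981167652719961967281749367515110649764913787141329196731374683256505182330316876321263136148396215453460121307844862819635032690061593196934881135094064561504814672538677236342890206676653593067266978984870627208440976318018750160343508070773043569303874306366990875342331635719270390111918973881800399679807730624002847032787333973110432684470661167579045959811226008660551020831821471742639933264107370950718749630220931609115645815910214904960980747863577243345401068647499013140427858598104204414338909066290820792547752842419859938562103610539437091147330141772435556510426317633543518080787919825964204800308940482508357051643199197751578925042181552250580085011345809455073900042831511896987232111413780132295113751792429386562049178058773377311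6046646653437105116169855884743405082290331781322171993105762818322502050068693903462593542851030123488006550454589797344751086438010241376357618480696522513141790872571585127829705554751849436612176585030128328240463242030969533926618506529580804487363821810907627242076279651606566643532917370777109856210754968425401411198866921722807013215202837022088152436287606908215583356191570773461338201187283215263203645202909315724112069388420557970182303712709198264454454962182045825020862388525939446715842487971325915141968655108446255658017606144600656400603847131874475669143128548224235937627482684778891027252444378331985811724753034002828765690843877202784551633872307133242221759680078220063039380564007602516772912886125260159254582054995978762842394604307958490345263758112530274283141844941327634501897323283126002094418832426568531442366136134839362775556429861424664410752397381536265227663638861273431463186116262539735817279287029398520041838164901807124202419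2271798396197921784047279048286821041168662849468968502691983560453213235718772632469324010220423197171882704666196522360742125517820565879214008425757622712416289903404049963749705295086174534760373500576574625639956913976231724815400265078076282416023523192823288467248370184307984431157198197979955741761736563604567665642504563905786802832662645819294298076852960796284235808433508254216324525184597336882022482008764440092504971961448216635036603719702207035345064843962551684238789964902734377713223779649993937928012696420411519239782157927856826010337429404525431936439042027166876164589580821416747229242763342175765399029066880185999982747809546798284797465972833307075040680900116353220666105122118810821568747147467756353076015925528515191521587916243775791905750248467821823497606080721482765068400021319651620250154717134808755855778286842534240627697418476343959470700723799293210389078798888539122556289580693768162911064029143620247401827272295372399359153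9522192435590714282485545564560319566466269118382839292015103034360996974418904665878275421298861699456064118634655461183039621839125587592833015344925833070026159501639237184503254967342690248398280398659495103201094543018135930045765874408320166842099656011505300455130542807677502101933090691137939067765301260735910162361160057791503020767220164935446952059550507112718085957873944592394349355178131317143047256719135917427657735100541251569561345520291842550955111185361505237793710013191672515670932568342209121590047996735919228980936381092779177011164431620396168902951409666235488695935438625520218170959747018793279473399784771371269983753075752410710014149260296539690807072453764043262295584297522584282859306844954943065579902307145453741888210671462890900983847704808955581433470753611952209303887514928194551198553546762471005015724322082921333861638172685669983726208780697301152794347180328458766056910158666571717890603402968882272101557681485254557298822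3591440967365921084209819807942199731039725926241067385481119732451397611914667706248005978773613555384985883717970918396698858869091512284663333014729292697250058139128193421258821766610921451872323043198459703734011708885824155978382976830113704232524216195878129184161360513497061104686776965793256550683179799439235707345452664011116565311765741995199830040735693172477471723526038682779160776408602589326203437205320439193826553104990280173123638412904974358234515961378327791418533778521893085345106184478437430653407517635218913066086017143570797963121326879877644415136525222025792481830168759563192557920416537122433733881359132206103916208261025687883936494455211931671213120118569195035655329871746496006071529564783572102521604189131971395744951840493977557535919964741691737999665118149141838910085571832530383940473313526076713655523858875297301984341697277181680997765738558811408879641670696305207930003429144408945681482729170958656228012009848509275230666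6693356732809483121899706305706617091034875099584592812080374635880569578465097129078342148417214840405725983899648014918883228619694715814504944234660409455727395432254587409394111002447235343101923166785195881581003923712385268138326284241211586109359808078865298215004989503947769734565728850365457932468099902343941933492041625894155495779884719672541068783007698522617523775190576712424954514421464512775837931263951604408671234595708616288512536376625874532538768359709323177718961745017930535260653368297013161494289804911409783957536913352814450069332933885608535485806154099942850128275319665008183327204705344762667674483918980241991268187790314352489407975440068878813350054584042147973127198850807465737599890687870873537531587315703045681729981981693647812877820605488702942284797165550477688643647416644391989925736200631633719236591197978309990198925068355245485889688829013362713007482536575410073454148608318763687790529077555286312374811818948553219203446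3505111638660302447103922057659646738914147011942946842955855095338605212471516622515470427562393236147574639693659768864854671442025753528402312980481756635150786878978046092687736533703703270707044607193677139376684024850236273480539954356607120421242761613448230870127572132725752600132503157628413641601144520266387984679780344492080462594663483422802226752016664198767100461931087379704515672225902533602570220578513061053536023521309675882109321337243897383664319342540545338318315214115753555495343654304384246002265991379596722511377073906026265028501294144617619782751682021508339550022271459898557711741539059691365030325243348098168465770960687522592816137754763478659379583084380912445432782762777607111373891204911917157555483897898630390158157107159440927300500034731185419829797590570812122170460141995398516814512479288746998182375106300889129590634304832117038872437804890816087761564151013166444585557789490107468133781782632494592219652322554438340604661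3319891603432550212375104479287069826066710081767012233343802483309532967297866025084035435725291237126629749029472089495012891801228813997592961544177709021684220673637105910487095143482108630604109479894727518909014908615238237099905824014098808628145544242315402096777701890888334909221231885633496451858990193913694592555857189422626139508147454309091703373015495582156855749995246745604351460579608587523050295626345868320047628803916181330353246287219356519304179712370779325767286478525304225928672585913340114937418724251640881872382746433428132286750062927819424398411267528245235782235949535940388543861590946417305463113314152132162704602523998283900534411782388758849216059400248446590888742630418678734382549377177049993440984097586713684576643507333485422784653801263679295392999560470050997756019948536350482035975023857150536982377300239056314441274375683857024905262802967139383028158386851472415976673837913041739914571929478811572875401974854902470180309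1031233977422155050184327770483399675636360606304817406297970041442522702707935812567148424950314697878686192894709909493682252780754499898226970578263512735011923050619255671053581241207936254492436558605626228117065891058448061446948806640802046049091353788380015483682222653162139682463357183056055362052040709083754086808454863396846155525989419520851818551485367881485242972718984832047340758690644760453148621782701297044073508070736199835390690287937044017053935384048971028165767959610884862455271203198403920596271803273053446056515905737922481103772347927052230883777092232327831348997528159429493101900361433640897077081047297298598537961757258585831239763909441132610577090591575295910597408143443595514287226520670789276970212827485687894314742530152735443863635430369749461556850561848812146937599013422309295730680880423171315670600976113421482590567412683925445207318617638970782407122629013841916001907649592776314440969904571276216641505233814592239807174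8160670573778737426924019081325782024580403086110179916225681265551921259210564259165981608234008480264411176257207465497477574431801152453975115644791184892143159537151148632457846888448318347147441282862183528184020655851454020694270958247739689736277177499383647902215618797369934816744898699612151902610196468486262381073499914219305751863289057088198961284022232361302527593841174402764642136312155211287662970916229685159159409124012501995681623439335173224912330577907193529980295559233760103727192086137128022676180648077713103683954596334113137885633915062015924652410691719320908642240033026634197768994502236087608487724667067669543804666425935789482831379785262314487914829300233816414437434965902699714500340109747225358642064678318286016258212662579680822035355311278875240131275751990306679542021256027967311688156088561203966335061791984975742214599229736041438219316723519254160808310552678979001542824099202311143350598303074935328545033968458138372968025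0627994402483779817372787937372137078255730346809288630590859907923771913166352469479899123249240915811456938183910305749561822439001884742445453640924800357380569226456661105549971721541169489432756115456182577568445198061257280227995188846474323605435626571899402360335845235929824997852142201752576905826919549204001016559475751129196082220323075698020845354890461126387805885078720794216471507323442058505306815108593245385714322439054070033453955344126269937731899924957475036991322194473890669172837810876030892646428307688695598908557827499332624870732140873051320485874532187161260257623472707757015559144687939989369635656673381819680352848416605666540460582205511567144209127149036776464084400875221023025199127602998620986637062488440465118540609195235658273770992214407093827042229074632565929978077044053458352571211336924058663469167395391487814965754358646042040721443256767637873114909115305803838357104298904974406878175906342003560657975639237838381545425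8283462388407095136624252512176198137445142443502966940024695907060865616125229166810355973023521398388710305698519293699685201671491464531348780707747463436337774659524980997998323489224222907598088739369994902156184118784584859917785133789670968587022305913776237442491746821815346842398724432018800695965459325606607190934326077425398767606205735010257609128869136082796575651208686776681679658756960711387647820414181382155580877780658301801318701636856775368990086387460372586766459183921673446676612469574792221490854661358000847179413866356249067463078052938952308729429791305627159364913955543332948962404128718943124733101833049024091049157398929182285378273507710192790306595206175446359479693487294916461488411879303458605083358014485452916577634364201338206607543899441749199941237389263054061808036860470759498304917836642092252319571426134060024349708398192817242993580997414150215950786736702129292266723845168329944102961628307172094184122391375035909257746362274320134699396799903820708552702413061112276161457415601501291903215964916656959417415103227964835597105622695147158188403284579540300476029722169108752776368398494607802894062144881891901577219827288832973848662165872326123488141854140655905742158871471341933514368873923548705959518826603170298682774390925110026932676722688)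

noncomputable def cp1 : Nat := (nat_lit 2831266104077048634545814953546031918031100068744320126488382143152394669227809882146737056030268926657855163840085998160790307790397635721837332175883479535532550669691499748464009255578140223366262725382676598838988007942247150525631806456829859574877853527776561431944425875258075107867191268236251909866102501517546820066710131904078179833748245531282024736600003725587470023055551006799766325426002581648630113488055396451845361896954384903887769228705527403149518264124475781334420456568136435809227599151630760929979911589063664158143689335221486514892798212714108244014748226318419411374217223116385908838244295477237810003223270158820108676345171657132972741028471334112891348734047197198589163228710340761696938624547173031865032137653955732953634032434604444497157650335034484494164686631099669224846256646435221789982802589832113488960584105302336909204150244864819733953254722846300637339210587243417289670274267928993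3000103936454466462929071008130408518287100673600469052459390443563823731524301104166326350389278617753924947987355449751414450959153333521918770101484301916677850336302210402014115169062603940836999703239257260117635203658450312652268002744702987180491959025687933227521569745634128843941478740775157244995307222802195571121765344608207142181427577101627217202066537569527809791089331661680537418531154041948840642427847630971719665895711568686684907522485491418155733883967951170978750155025794569781769197987635096928254843889416367784235304086675680426405593361289790840056415240416898159486041638628301847306118262866987458658601897320212590334922715208733641643824894591514708747793191208789576022687279568750637917163840106127192622440590499549137714046157963615764058943052665183987584303426536793600288214048462035448006798418780114324579409012111344805544312260538062904094578522722508662273783409075266672451999590333878067523584655936973227709333344506729172515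1899250169813366228275090296831647069882897533415411423288826776377136750172766122092033527614191711719728748984429800823213366653284117918989973022432965767705019578298399795461247615756997927930250580199088251287148535134128872771304474355881167139051165776480574834836529692316094610255452295811265920663877771091565357876160549067783685089831664798360279650307181778818512864037996475544003659562980942363742268924195116598791996318876768272840393520820275710550793865233508744968695035565617317109134119124970680536260905116104489999733318417834442324660311026877872602926737985445165282984816572156380877823423700921119499542237049645324119015758437904995522305974203609313702935656970666410689984100922866119984089556611601523231958762507362245547006379231039610397578217340288356908029700000642944870183227563861183598644335684085963516608903802496134009564456072477209033369754703218091868484410128486702140503881730838585011341455450031881733443322097988946252497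0721491715929731138699565457278659772921868529087265010279512015202342219755516362217047122885238710033082189487924025820701633987699962994351828232251551461244021011460587766084691929509174252309407246832129071016712802425286407116571424893735698852434911017841031526374895953662462832977650703324698729142665743495114345166261407890530191194985906557816461216952854868762531050822966210435206312632987367289542934987454685114562558522526308829729922571383703627514505290475373734253859783993383289498292668080603195226722891093401050172530843933298528728328135606650835018127389317762944594093623209738977054792840114897345831140419908077390141430996016602715726711586784564917961062288584354099039516703693125844815766469941982765038040768231968192171126474802095352767062649817452418090898354182016050681540680148962433921575463860099968989854476526104475632087039860806361902370293261921304857682619632395453125639276428921241278428519087141231115881641564039608533294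9015917332804517519380374015620770191002390712364792915233431000704056485070045352289371895029142853128799569022415755732893355435409931634748531707420342632658797948934742979636096765627463131954586889923259023965105578925528411975918745421229904734856285900122064215221016270769670460442916601947612095437096311963958679889449571414175951721062110674550329716592284483159840998460794558179237351749610106162628048398586029791290781428050925862831819395883816451316386268138440122351874870216543587554620468952515233538024268812319626333850540408090659969822188568862096016540382771461725033799764822880264784415235270962923931284347475968750588261953438654228476294869435552667454584039883336067349697875236091324583202008503081521181038729556511420800106007968714050992641956507339347778752274890059598327854116009091307995052672695440067259021799487141778418435832227185399102293449913257804743713842099651920108401242111185280524551468899722559518747930632287187114746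4166641524483814608801992873064307883772980750092098600020450546665983960445994711261461116974050159139039192296207816607490718301325445051907834053491405241166661217298826665109846360831331044808834431079198890239374118749075508836354228452376764883488566639412382967912974799184920179060645958794963746792271192805924245673763069733280209972030320318765997369140188546084926813130143724442685325326541736740151589504652771017169691015388926733436815299434711075641916051682654688943740696610790524029063404284851909512786456123008842325763128714256627588377789251406646754511746115880988286276524301547813192038634956202648828073211483109041287314432371208180106475738528580074418093292337828328861593238743298409337393155138203120525893191933519841634701534008185480921054118392541144572413539570338309619895089619720203826198512176820639403675014107427112021854367355393646686627767339987010199500611271180736391691606149960702476558900003851793535663690551438641128900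2508580546764568628916929173161300385593380525347995361510156936613343189897370120722445550819506870779787908054303379777307987570463738782141171935483374939140772180103976100264811389793084172768338995596480185680104408102478907534483824119122583788498661146880484133398661212675585515861592863961909650871050734823702693213580221340323621437423928553565107369693895256701974219291578425323171481130880187219663862354556044515032990542644329192384163169295040902877890665688831872940741394784987392619113622289669093696607905885290476127775442140678279814790010372281573226821249161284590714781855590001157888828491621334549063528827269812921780060312454858818249063531820296933238726529192196589817368420863733257863419737460589344193238547341976630154135675950488706837235758911070084943031381065047003248898935585641225157104365269613888196371981327353402701262773784948847852543627478643095767178211733261602142846194710050583401011196905196937901174103635007846374157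1063403538751868001801735286347968672050455924287352712338238567488016764372244287849290455809761048921611666847305865706887946670574427564549204562736872448447143650075311696683603441765363591515302258586424345033026291199896777276716010324864796241405766405748806196300065336750426131857582386687198669976349197621227210178435170602866762707692053014673633147231355044784000469694352464954777274313199078827237271313494690501948366265258801693608329128753477055995080231943023141384648809800553015834998753631624803595031387804013492658122714080089285199012285677789383692827929671495834941907882439219090498035674738125704134250619698769973676404878356671636064261378732809032281834463075913640081652516826352240967394232506393093504640860330670748690806951758762921207332223907924129592897388196285165681286757649399658313498906143923620953760851524882491772135858549877502032511094726796433251241430491241607166944250688885967381218442563289029669467872398279665472275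6626522807879280053085828228447568495824470086919031100891851542085758481449581957217134421938919615387853528655204574061218591477105563459908099473825377033747850542433426850982375763112290868037164232657142789409382280355244348005016713508514923200575068682618229797577878236374930116363709180526137524603563435596373101866502991128247218533746118685688644635916877676859765477673099716490901207230124671910871524298575317850956242737833611263398574607822866513390433387217182200818001836744911499648042726260197797551626138034607187809797553635447223742174714331524555923067758068169750665896110909714007157564114931624442907934725414147812686550518499393684335523003769389605581119337083975880971334457425946006988380309303931047650890182614491254625685611509998531605127070762744571277750942225444819653516901596360428237283295048313159886166216654018103593303980778570713362239925060366144014347943705491430735030777091584688944004284033670116136146134091897308828705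8001096307583060817994308231760118137379416675931023269334948838014758661060369702629191264299929277544600154610356619713128296634113562649525641501643815197607579620796065630996028784150412406241960193709000567183305339606188511073047168061444486654749456791574185205061464830963330751486189965776008633190877829841583678084711259914823819406916949680075868371447311706349987662542363192902472419090453295008056666162398414424487085840575159079592174066045660178129761200064708282891287122186665710509811372068449950494164610355300690809184191632110605677688222596325853613278572072856985878428730741340284474558238198288588742716169140256710590011213871357001346727433059873660394400793597754637905644508140588972606876582094604145183979506008717775574095833001402680465929527594769152849302545435479305276243312761845535611542882705998848054803001653372699128109912848663496125342500218066038874059955566595747992398958322320191802526587193315425667617958422796545399141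7399900767283468361656292624847463145227154274208758338824160169927337917422177576547514418977190943373430186311639252260723674829598256109356449875706078995425431033732656244642597633860131402081740805516901302555428078420816782720719577218958351902440295978497221567094308237713058729843417027677260960974568044964017955478658687613765009904666126430301039863754392466687479402525639363893691030489820042524183263881501568777759623798364235037244647622367985710645304484224104752491981403277264295427247536489637393886822430206365007506241032029877094541077126652816192349326629066345601731831572814824895077913058278541479692224842381040809970985498960609818428158070472084321882882973210586296031077312936751180429726907879275449685716289379318401832565391202442876828488011364030257346370339246925181504591669864411264086660989385836313814423308709307117465931586667833404462976868601885612675930678145089076690535475327549343067328630987143124170235356070930811038028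1838171794361482257869822954163955906912746521191043184426716702928291563556496975957590814102811909939936634566589297276075709715359049811720508755100860324396924058344417606601686325379723297254269254661669188050664262611722660575841769600169725758590683243199991469556559019893605714441666647129619511960110841917737796678566598798992035295657438368394467492914713389070916471181803158559493532175066873753027764505923674784528485933867469445274377532221904467152410659699984425786384290459243825286040600588572663511718215121437977956543549099670583840102448195594774670161470891751872728222138987638668123478409179555641797554983537395539929774920482284154523175310574287054901461417680208508503081027298294348073817534126132540570564620260464036875459191261800578499940207383249661396741988602894768093912202814174482397184820760793710678469244131653505321077167560745170290440352676201369926327405504416494241710659566763701000564769260455915932667925927039511423079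1082597635935057608221439684422273355620183453244140546926168100704844103652272785406271869333709739049341082333362429262599984058193348409960708600677675556201814883182467704840611074217977612681775801034827761876020460278142568026436918043753733789918095198703287629796869033073271536224355291291771675464986782581315281289336276905496339730577915041958201449052426363012661096331182444485418421731245313816284068694014510185700349373432781666213073823561945074601500828455867911508671936661934353153549454173590376154836922420923784336741343718067479396334681964843689714237020987584679855085336737155482390165329591545975079532091795764531668447479897469358790838474153136158632837445528974349438924053217994745269590452204737392184026060833036507261274509527769915158237610372128823855223628802185555969562514311438093171231908800972569680000829782334726750604610277596267632777884088047157417413080265018270133086490516257277835539037189259174337702220175259368729892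7809295361713379687158968678297088440506930047746322063862970135850066040437136591327058585687048102350935537782344571011449448703412325423540880316667896378506279884346923950276811366015619643024125186409526461995128287635486060206242265454546345128729721158163864484339937949174384971788426270468614824353657521398322055113735056435678253755809245105475933577858051810694443035740860813347237013158299254401273420591954800847145484186871443054720523617408678009514405263129301310196899009679054602617600636988077368863823990452764945788296977239846235992889991433431018137021010601283129363940251226790559502721661633744117956505995047459820239469825208649075064195029509420951285498688759520844486530855793952652549096957646092574326773066777088137799201896340618957578887239606100378361955695478717218161020720320676544076455983897884504148861544490142153994632533698766945755106105324949193633612454601244045626217564235813936622000098300444480411187391867535381445608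1436065402000188804396702859934852460627467364759509230052772796855790834152090741745864244377066476643085375241000787179032475643054172153040570661533756729665874043665309777641539515572421727961836193974327472264310808309321981195667396611577508808862823082070811842097477266534537364221533779354020401261744695488989598930947167877654312356119593142876528024740086066580705786430227755358621300316820970982117874070518889254483046148075171982729610199670503602806317234158141941540464606465987756329959343727834524381629147252778836233143920624176365253397105257916839420450944458216672578534493028157843038884630596031694819306586810676730093438743790044458193356384613143706165291164350742475791318460300848201799654321358899047170275528249366108508861382920682362215369923641794657220576288241742074057846760658820636900716660066659584142313646777879993059424554415044058603377073582464926244075369697256479109477221439855234538717457498296545700630187922745198196202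9379029053310649456479721758550941520935752398654366373287115283654758517362564344729578644855094980162188292107313077998421200293547296424593464884519964686626416502375887175848757045115361093671640797016355937883806318124667038773893799770524186652106181380439791601796578429509231821896022086826653466797224405468496810446207017875875473864198611188356533751252172860417366933679802471724531072149928812524727234138000661956394094955969627265750222413936379560927854273164048715964516476780737868043798856370753605901340605663670020672128263423089721198994189506437932352696609514201245064578179057387135955533202379687794588564625554669241558037823355236635124502474196843274504369043653514657869628584439895903818640582661723166733475468782172764764832767499685567089242702455152412005504027569416898168349019968150493308427802597503909989162069847002846759240433259530774978308860168017977043633170139224802744838763046440546568396707268658442494365475997588972003323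0687445864145443870662474840479849434732887120631999837811242719696344740825380093936106810149067327772259690302054800812968083435149188123032066750475709124906751054215900608980526077824253104261094226803478340232222265111059103411156001991255302916629027210957916225619336291950897907417657622999924959977377724077205766432620604890918819175232003698161265424509350369874168406579565341863670173325874899286021500760224786936026919629177816910891756275014115480126182853192962312127053237922761290462633181690635896470421657216133826647445173400011091476315373555058862296238316602948425569330850740744009110277475086539109888443063155825150348876892002019465226135040774052925982832195035533469048821389268448573053004564690485290327676443367616576287855668569725562717038768694816352787345723229662994063872643216395220751733094956605528142179659042241660305250373473937690416180129688870500658873179360518157552720131868244534295520766410779292675152217091598497533646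2301780097410701398929291623369670978928639365918019713561483171972067817489112248421308669989599252920016224120288393951714441549411526440554151784138861695940897480848774792264328616131080438187670708455742497768081844531017247656006593625843163982814344984004790834316728919255561811288975491867199086261758873389307550574378310062271965054045319600516097062599596879851213950825335532979730531150283619537834545254508417842531623911161649260774814753395174890960476214614569083098998643282489322902531807219950255540177483390857910256755016916133351538116702366535011956659941294481263253194418753022095542285008017092499723260471666552801337345900801386403637270037216735048095513189309543319272241043003887961626214409242186739458616679039672439910701013031569284017537026230756460334654186888720446023758291027938689540949971680378638414223541206133399886265737122551767952407865093272457195930771979346586953039231454103590957508746040782377602460871959401577077915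957546415066456809185365113155725757529504600102265710013998373548377177939798893724824942649592422213843610725041908069629838651996345690963292443890076385951181971272018925333355959683044667021320358115082190612217879512654290066498362372802912630858925070057021287124086554635764214159106811029850499227545072613630972797650323441929273179917443088713182703209659625190194807863390441686316460588472910106997065326576967188459645904943868446109956547712305941579593333087262042010705513377245703557052869113237869014376435520161765492584086865870740087787901080823021590979055356829024835541417881214062186952899155110309946579203470464815802971175905179296009279750830924016830509871821800883763061485500483679759746130014822423259661296810395447372688788528704664202560131942933360868194180839799304070692040567048979078718422091638577385915896482003155522744553825901380559575810912568349854320337050062870142471665831421252073769202817314258056202118933473432674691782071008126566126323215621016168073373966028619975090626968392166849080071643201536)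

noncomputable def rc0 : Nat := (nat_lit 2690596938504200193249782561941986225164668757969520827704025250219057681842835760430940485592682732115223509102923460971221478073557577985724629503784652140834970254790928961895573654521935569263898755691017868088554506162193689817170392138765594140311505391105309305821241764775402709502424445467406733202049503611716913540688331416201747800350652893497023616149216016825412117931602875267325984348399800415175556410865460349678267981713456279242134522581191757862944658244104841032472342184804908405755398955259240418299851734367484199343390071431967805203577243186766926932364235866153354723383631919970719936952130956890305250364626351432549412117088897097432817410125399659284454121520550498831147314472670599504806408908344377130899612366870565720435687660685966988214530383335129182194224635270953286042249359189897380689884859362232120050156820765546781507952832740659816126799983386562452088873275201118538987485344084006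5292003623739341206227540846839325713494883816852102525233756339081898748802673428430031961159332142393189414626388379081612425677573700398217819063836734870593741255486629713533506907306529453054911529666811255824188096800077208246650214256550404656305576964756284778064529480904363143361943533527554827875781907363687176073516584219854008227668091566857101167435698743958883985962683295077623744677420634665915720921050855852301229526830873554030484179950976750982659181047944426410376894369309146633423549251627197916749631201196221470011934627265483719471091395722512850441264624559312340995273309499050259743717436610583302607457743964781674365307323110493446301509603737212596502972742273705788812774455533303144208941696582623527695951175974386890647284479676625167154591288694457858095739171726477832170214802379814419461986059823362607773487611961825907647454623120105688462591438262251421482724265280792767263547360532929926290614313030817242372703419184668811236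2397241985166179678308319862313401990275638532805466250149142218465001258976321896411833491852957065092356402871738140741023348827182217680146813920114320802453226642925211782554129511021521573578674442062633851567887820486537547318197699300818743478492005722414252433303478654537761346920267112448198468444200884033881494991990850589199082643578188802337944047451535162669075405558150659793107465961932207972580535339686307987326146136077755180683761471373695865858156164073389068215953566720853457851654040933581318812957840374051645907396029091241743786924535936488695380186817449995890053801015553757695106250239729129894349060606043586999071960103506399366104388636433268581771777705630802772059706081121834133907886055605833009041001393349358368761468018987770132681862259927476757934067832608246305928243168859201503223952406267505928837109562878187477547429420898924482505123326067730096222196117804800901056337039452627263512422903136447430884154670120535867527941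4083358557498263599431700639206172630273573994415627208200411150935391887771544830880974804775516741345124843136026872169815566708263821755358399557930112011680622416460184649384737367062904907544440841664916473094765262743664169249312052022131071675546109474867113396598471804136431244157722912500411396307644608084640233940077297265129044105215036890864477421776244742489508834941822108089076603198928316718706048605727352494440945907853681837309817083140449281116933276273741892437240036161935308628390652280307009245349025000445804142069720994256934595951900638532438829582362250962512039663486585811124004983860783934923707796607347742148473189263351816429403810447420502032365970284002713249245687022591265066060269669207366253321435757240252348567520019169690705416932612218675186698512938531403328849952953352435104213135966826578332564742676707402970317160860385926736679048282822115303024713032360843276527438676846089283708987004662781552151546580016309229041618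3820038793812788861307641288305799476629134160603505162505649075232611302556639136498953320352557285982252489765195685729190080035737548492859814160463167141214239425084880778431341125824236872563405539657847918880590791709010335816296197114017554553378060487064362646667146457417813509824961222144084954139113124160005329495331101945060241403467908575081701221120078519884029227770654868115706974704758473534692439465273938052744266487826012173282998904773138281729614637516094904538137045581579879994153806128781977447876114335673868061114778543102530447773998113113428016345599903965513290189493661247775672721892266356875490331798095525849035311785578135509993106587629879441786603560161593391511515260411067050621351819999555941289973520079752502914631463513396642561122568634505227897037332340275646399901980276349493910765325035943806015789706967021498674909904965085522042770856582187279629927026143924121002130112855010954758770343837729663644980784837021097191404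5321447826687881040411797425402354151489855697505678847863476189219012062781916902494402001707841907748390563218893886789643148305998625393595044328659367572900479386411576703253552690451168402168603657388991373467576909951831661048197346103503658308852772783193215339409621549157112915401435941782605202548430163708605531315299379187015422584795310356649673050386355798824629026619208700526332909018528639337317326378924097234249925069787576833297977491098005222547921713679135095585358339288140781569427808328133537154971696500734936605353626995238619469181522481653191737781323675766827354577622684066631272423423930629700991853352493766797053136466072857593869926447366331992643314012800208853669114614718675078201635711671181476043659117460651584898730749083529998854846906945065633646061053636684778093541140664259691589200278514625514629787778158431752930451828697296426215658583605409254076684641969754029987648493708469831199016007712868747140238953194153584262766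9052838269932646001659558474290266648321300994522815689296783810930965099755859694115458484652351245120676239162957022393174339007006055470281791949530031003375954818238855761846982623659445851104294185264829244660462253278624503399150843522292322602973508395871273197401574647403326184448825828277233826717857118195858291185780300238618549511716053821830801395817452017826609321459642823616961247375333914748000840717282246150306740661391577709574718523203432704227085841588148611155655147605086232705901451505612942531260309553635485684280018497699451661484431113064395664867732027216238345309626615251653564141553301174430163904623775322970490696896904050189243912594617511095858386355080344773326318082116433346761128740895487230446032121616560810869977053526975841312375666663870950082573566556634070654540316976988863585300789343256923472357108641530208212173619079153988971779061490730645117700011566174670281108382940969014416890261639942701782972123440018837899902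8809532663702857707762241486919085726804781159618371018057629960539534863016815212541056961658850469851973516174900430580991329242418462865963567326560860791883706175669345487192251645419586819937988317442343462896332483800148733406658546934986365187847135810560370128477846309601959282335452501470014199627204606388254711176935426672578991676551340425938996722871960486034270647264529156758260983306122705140354808924386358413958303305621946541394430139179165454522067557492712410735902415021980867249890643103338313083932008026121022725041462701231932088282928976841107408836319900591112039246765817779935132246840579388061824044375792097246331015176178393431565315548061809700386197395011552406119823346143945620346761518993515507257102385697151970863335071597514600922853334281102139557511213380956554283956821142272840799709014765709930011079367033558143536796809703791834285307710576333317244769553540297077218143582041098649693058769188424424792223237118196019227378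5169437425819009949368506900139999531937387410577913353136679845731002078887972526930165137403659516729584837747036531888467218361942479038831642376710343156074611779260882889894201167252431197223367033145446267877518944718076057213540277764670872494427062704272292897554236165252801736905777489478369989024721948441621299898619354336603917393390110552958467076710722008505572524705314098165078159667083694757429454654470101146029440012735761704696999946707216375572730768204030410081423605796352076959235496466849684038707864705156763160540564945250832280408136547704788863362534079638610060297089491054979177080597078024921513056580528663532900954228792936865048975762788608152717452944484826794786238579526379328271893687881518118979249598208159157531387386896521138752424675275129229987458145691093712933101075799454521718969783330896446951450139912574247554356041709483330664768887963825281092376200127011918967552036892599035935528722266122217460385906802210729996576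7492655547577129532822436388930730223657751038227959382790127191652355615706879359617984778524138844490623707531022549118065677562065426965057904591921552298470812847234988553540960642967266141545826612587395535253191767374987147141787889527826457961778229998012571314103621756920804396931562698430030119200471658360428421182568715540161820377879689543451791199591914584819912105040976988026620593353324692785943199716826583341170977145281221557176042391940473871890005479951587223197111141490646142683172157359187779690736767359099868824610253605119309135015923937815899487116106369383968091099341876842539776926016665971673331897052969459959256226886733259770322817015915117920537160513400105861759228922876787568695055237098640088878888753214293540425963707963025182974402863055102385144039832898309847303949203436273024135990732892127095224065218961227690805113006221852222744912942788888718090613053629981212264543623231564394855429490150797964526740179360662379268629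9933982871621621219949794045853837411780468373974804250971033424753694585753468477025493263309122398532566519207188192893266917159217509635934029174548692972472356889626800052933055059685579927379753034338516685058142279777342155295847182664255088637104934248576536036906864724925043291996881119354952771390122014633236003867244103978840667386082296104172758936616479135689015268414605990893215158991651702536012176633029009315190491090945595056637101286182821384890058495983221996897593528938388893902525115863765403753785383336807979276912211113763336686185254524139823288684537753193941405492702074945071180107489758832399196173122622319006238546537275045213003077067522920044974829738803134021733794558013455536241238619926170618374814033540947395893663282585072761461351518230478356082965674583300024215979820748427119036416841383806264066517492770439366995805457802367511445282811297714873932593895308739200572075907472865064981700051852294697306179740974643542694989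3723497961750282301866694596917853704637901317522178767260391157093302488862004562152197094229939589316544923773080831180716858082786254872668202365505760919424294105903012849734929540162505984147963411184999733862534716246611441552509577173936031841195273181112883230579665230215765136210636163064696556701370271572025871448726492202678097594399161684668096507490690292149642561779058625596371286962060127643601623578741330362405183802707158861328080065718599643528373870315414284801725623574140426284566064715347640196538590715772526768661258385650952976879104614689964009668229430413185320443553651912508544199355743108758122036622823784371977006177884083512592265233305196431020764675143936687686284672643589395029275121278112898934618969748819461004489380703566776701068450937634679885753362452536389043909228607932090609677184356980923769255656361103476006226956653475932206125103603877039475408469993231402103510647878709258015151036879442535218451772627401594284510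1726588185906389874074500165520689740682632322824947039473699980778441358939737113090162953538100779441572965600235732537612683423830353792448708273583960652088855243517694600057116605523376213247387417589622267988308066321480686167752200300492284724012132371600431550425066435316999139093124763185650704722554284024799383553283289955078912202307523901865143587055359826479634930201990385889393895195886964571089777558229785902156632434350027085892171867125058828125182096835121541761688970033479431709906351349434678875508373000434376984821537987254290072447485425073030047696513804147714410580794681075488912606134909210606799271898205067740844939843552437357794864362203839798207290660958100790242858050070675172377369499007864112427008778776921946423577926688646223301997087914861299629917347618984683360737878297490810326669790103122047058881215835660378006513542207495790798125088961072383643475229052859042066367360841386231395098828870107402162299737396278716076059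2530331944119634047149159392115369523785338382189836248353923083494074101421074255484349514357432836473209250401891668016091961119756857583903530164810626339682284500008095124640206580674033814615105250239347107314823054036937181366428260946565126584179560756163961570898240522988479946963435178357925044104811193863312539797098759389651289840556494850869499235534877783005262663281388617449338680253952987757837688548189580324489461506664829850419283063397976273555397647258847650335947519111879572663273149255554570770198324924094215844052952374575271847281430531225720386179256036225365139149256349146249426399427994811935885772875146039887199191047714094052156810752135130608482024910998768530152275074271171653855065532701758481131422762924260577860780908366677869071074083399529433409484640513437107561550760876884779143696992370474583928901713728838732088627994988771587977659432248626131216013500654872751261651803486377021831044331184196734042245471785790991076965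4265377729977946917652324614841281364888082416804620085149878764019093135877345254210003900644114133088660833347364684872692924192272914631584416695575289960892848085785544854381934007347612922806417120166246348380873784931544980931794089540884701405538977632746875406125513648356621036373548209136558128046797172664646232450970672326983633760905846347000500924373897763263557081088765195842116055081076544384709715868160364248446942502107801926237348425678656678935444812120481389180058880833260480722291433123146816866013788018738692367827948514721506184273748424041260409850985396450077989160199849338783237910775843345314109900487985672073055831628816154771789185680674673712441825375311386042694213691997857250736972769249411635086246912297958747465015339349257537461384936477823666876761760761237844862069846030389965174887495778715847853062314448645425041283112378452017540498141364009553382500772213703056260866644414588202633252684216771552144826814112101735133413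8123351680013026523084570182343589318823198860089542578682537647539510097423024011494047018018597808178270437132929115918815084629974898306852232334202299596717358559310541517201625391355967632059642489307138391869669337455651658334444089794750723520285204729342891509166726839777420901185765760186147711938811553751155260021619343628539453355795498119007908657761817591826559888879322170935321862232980081911845028024973634651167788059787417795529081868443643961741985716267194424913357772685874036849688593726212059374782367011717892629590874746865618985632321641008512599744475864475966530706287895639592223044063399478638007532935820350664711730471889149824057900478992919276830651145990194695066414146905723002000125885525410821247196023707444925366699932190785901688460692665694622951059457488082753731888752404249355056205220643863992241567181166365376919362206022275032597038496541248664776740564752562010982528995901768284546706846641485858080470516752390341550923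5361330961337678340425259045640169108971475409193535905125852536323646920936640052632336653706758207168447143410163406430207964714749503320932710528074829076895304261664053861457920578833531737941904163437377316123820143432966826413957586934434026610509913458708509223315271836309998113859367864539075691508376925918568352801763836084936540486305508980649235016422118601996487720544868190778626710779604288577145859106025136270634836113731680822352286556643807571191144079407496045995765811775235943181607394562542029153285295917935183860481286345697253836288336252363101127670187415900314104223066146561330681250380643133257329079359408587132418163739515733969234642693563773244536500874022510886719463710286196668203502136728788966711504395256248569176908319363451328530071554631222301772128777483955143280013198686163176583971237658719688148877303943518952982857396327752702447998726161113170768083032320188120000295731087365643135083225342123415239445275672391061924166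2767058819175811001333314475774996751342457937382479091405361215318298091396017928682394608159202666217636563455252439956108997037734272739618069625167877951960225601673539834181662805181997531814885472664922729881365768723121850043424599841047946541058876902680858770279037431798619277321346054230853973123757224781637243515884934713562745123714638721071846526539097904347343428679017067119978761299501250080352918564602999290328417155803400103882394206853159739654780900453080565946485857158179684747542778168731878687441947743474192415748977253904098468933974132518131845526038525668052620066820447689665807899899572102934582129125047034559985332982209596795119035620532394906494762398388211973988621883804990064622428440948794935428376167510493940474712766729816335576254837706290747302882088253321806084302188665229227917537612675965940113800098355206558296906854035789237385289976413168777230070326605381709577571697520320629041612646799846539291073759907500143751938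349653256586129214113635471737528312500573108390158051562429389422956248566585535345028746345679665685712045498169093717535125352365496619569645613097987674824262008090037347762988106307281285667570374450304770592810070447443707979894265312647141154330907257722709517292320894381321350449221563918355835704679297356317124719341709440795139571371041777589904995898886552503251894459723024262356328816732213591247744495613746803354046397789224490398773072978109318585133667660970056527970943979892226253939471769136424075448778556625192132224117147698285541844450310403713717324512583129670050443770161107928900725152760524913521872293533418251518518386816136494517526255851975264325219248897382823792211346221995522543428404573443117890850058047096242794613084775471227965121566859334560976927850509230533656187908213219906474636637284868537812947279664457735709750048900253230369750012055638452468135054638383750014269564841985782082415938018140605971723897877335097817422776378622136386855221032179738871535811505918826923840972968498778270794942703992832)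

noncomputable def rc1 : Nat := (nat_lit 2697561047804984943575049218755959625406239516980147916947162584048904372665633400045625571090986480361021445972042641612748753535367082953510323814948724744244810527345293632784816066651997912632699394484695927750603022137809908997404586873179928354487599773125409866943547613215003145206860962228032725296355415905765093415040448902634703647386899838614833056033408489696939964342506324727071301697543829973319431832159296615324330921682192199390737643081744048826157616729448689491119383663143916633658293636847929694874238550575856670951288982036861411669909577735271904110053135819995200817773721593478700231336771159665607059809207312190452962871377013669822275093228558268243058213023593372143119554971876619083787577885888067230948087266494606095812194117371051132751935335771194249060350696096869282435304847591457640865245360132612464445901704124182773794129420903361891330421732239809532138900420831801764887346051719040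9490089344754005260225349808950604117274957645244035091903724827832614921816313723907948701758263487336176657867274775953991827899346200014731794956925667740307162802197934692525501828806021979573781942762847057977136223636055493147651279066231194365115487815572098654959944595442958610858304400297176474347689764656312718383347217646338984819059268348921997860419046845217033578396933230981494086906911793425680108651304556332892278437694437264662062138591298479091406555295542813494036210949678190143289200808989550845159472912585779622540646375924414771195679467105111741759139220368540989048179748944982438244728808585340549569630966031011572277238798786012817821070845998926186159821013714430006579558520850191974274202902033674439001596602589896866088443071613420945104898689073282744580657023324330148906935170550107003809473798845906612000202055427131557170802168248012430476112152010062499042732703709310615330117862010602395690699060589804982731281182817529132141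5592709838672138640011567434141441929400265760503321199574711937028135584905556412381758078331920199654859888104801521252374993217403001412714571275893185820598588717670921938797300411858261315855013014852995575929070074454263651274868003625546612708742746475154742716753636718204857757679905737742601689609686034116456545775239571901233349480488851756410009410973780404500495003650681821719139459829094228168649950598439038904948675767772624336516999076478873095272804906745177050678299749116080146275006277536560908796577433340231460462183089885784380454996707944208432516087411134037785249942452673614595130103719143884718504994334259165383112618587890643464492651139606120991441867498233713866626277246130671896845516750845998584805050066862237239099634046268138681779014796997555194288974828997203545295686510750498752609535578812808585212868419921109578589607031694763435498127908514285008561667802362615223525124848552266255285323572325014058095316481330785327856129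8477117839743246915811797034978183250382332650418385155871781508402456145968626035103411957432134964832364490891407794566650419775902395617394218957502944280918039378319023272174298182425268574647938348925118191054265024438455830264573764995269158603289830760589246562669119611761469082143527074796178607019053490386321794887374361372218836613414302162337424989440270673716372326920646849485231207748269089640254211300839733965357661129853886979966492562826938250588050202331188978175776403347120093509968815897088544260751025629146581741428777278366444218809774012645667530767969343953290058115008459382246109503871289185976466418826818217400715461242014690171141304643630910482306324491258129348545368080420970248991182968501732349311766290286498419987982216732101507393566839091320167664411119007635239850591470416401000292906935747074989925581615715504212148980669966860730105149875214505053737688121270568049681257932600882576830606804850952611903664966553651187176321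0655106541996791378429983584489953147926643986295910803827105856763242444961480012270978386547798274053933832291929554600153168833176951043537551812504985268581111278687587478648701482193203179809835594575110008126583207442975187932088280520126363978511794863871631697585905982983489217051614769312472625342471779478024217318637201815022778726380119230718084172785628807522477432648727949045719384966856389957837413128641214541815710383492303490051878917413191639107823855437555870564329872331636867312464474036704375415582693835641245077596665417994292081489642852579621950235747065973902267745005484229072940800148045938756271063500942237787319260578817710093088654488604271783350381917055991864137039960832334849783634749323499586010167805783507917910120752043821177947046340703114973955537483196455185603410172628282866446049861476769834232622422158923570626483930218822618413674589725669519100413374908923548854563163440042728215990496370574006075711272584978806720985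8561416849535996713775620477531695537833783975050815608166375959330383703659351861459913150753034022318714026938649527997928990491554705241442006434196276294126084272208782926197260820646688766078048807931409918674473923659384735377144980260192592264301812573683904738094889597349000631343151103216358120820668701283584703308219773495089394921209571142344087005411334502915346011770904767487304321365142827345389419921904207752002068868302911071247558074418416404163066941855085087503561866730757215870901159882728761737545658301852369666008245051686903050579598769028960705298059256408426031360403204777527331629592328772028772089379621739292863391603484276145299421312463011252874092292277540411238839743479228601381466197818906807830972638039719824461383608653531521866072261052613677983610539498284022598832899540724896396961778483038953835162331565617772138764187082046571714957177211853802983615894634492448142489984783410060486256284752796432974371041164504713509512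7688563669741608003400065956531346696824153128424852948949770733709812480784780255542961789542919675734525495367102616744171441544068900647421957995444962182083229380859878021215774706129247925790512836829139250807705216273488715807319334362384812832282329688017015570291202720473981306472544251481559525217350344970631774092038890193729629731666463432577225419108145682458590626318492086479562958772297298598240869149035614078002867535887594186804012214343814167608070059314714533058326032882086004696069412097012766670895657224101692730177847508065694561899434458714633305466671888306098021865469122643843184690599400843474334120228036488249191190179403275768873287031707247923733451723614254273335369392187634274180369254086855885186487253187376040516778192615253247768807871338602333863621024661199053377050188687027670499212225441466685376441746897676139698293415120447077269190896347941991872140797541594932154891047882703681972613564763361752796062807774824952993753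7833761948184870829274972841224449468465925831522058270725485051745803950177852409348853992390831354322606703194246013434068736514368262655091861240679301470086020239260758778004302141548241962456715545477740540864882019977605899328365077410273644181865455264894255782249059111984390332926798296184674770037764099987498147448921802522291093775890753764231012222040907025011069404387737053945773499572836957697606736584863637789166514185375294325831491418655935856652164512748785715835519420093012030728578451458532574405649932995404630778450611276349283786295728516019944593633141739278939986095580961931864561831763725582092720069750883355515385970137375793894972563266794176927323166690305996580932232674276556016997546142268839323461486805607253648918264388582960014363803398436438535258901967251380096251543109430984267305211408763197328609475535849142664567066639290432171609210432124182370778902824295475204298213188308302265514468279441225679925092460078456301940989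5331745400160521064190953173138837752114896882420959885814788187720039881672972638283739764104949376454772566522718813585616064204175408361983689116231305076038039925310172053603155096901203614810610891874614941055591277064906442973988853908988555188315727812567732542742782113777831647815937479061428989401941816774637734650721578001154012315986496835447627523463014286598833744026002474993726902167288577300010171879537007075332224889945882266280833082066496072460413039533563856803241545868806460648829845941541180983647563999990774640612891979004393757319552216233424815607822367793837665833472677813193337531004072308459578885621747568258375660979561210356769561969825558317339363501928781584218589918208901916044393056399102894174378086830066261432120295254501241867031262139020374968420116431707573990720948822513695433680047969014266864798770271379397693058795475286545829079442508650987156882325237309459770793903495374785338219749212821792525679794937894482587054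6393113470825741762216284823412590300995578566064824037586273198220001237341937951255055556006031305380869018380288055251345073124699205072143093485899390672051064367571574879928778863186948807791981529359194793365898007071741540836931661603157058402896333277432723472417485852524430105179164116594924698367051022361904149657727100869986084986899110334789142614697845367999406192376360239902646602610547996138285894452989501190880847738977413544534759465289797815581014764561249969478781887651117025715052836813506356690658827083610021040600202872255352320545742640702780944955312794301704361290243013012963947118645428401007393256345902438895570639261821453410518109554793913472153085213107848608754667874925564467460910197646906811874807641675795292773071750754100576191335899167241113798211491691296814295567922784873876055723490555011482803380830039744144881583819922241978608195223599351998360692013760694607635263318558736470937019415315183695464199027877321674341857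9250541596164628366791508234923674616499849585676215460095627362863811142168352768413015642583482330417276887695333631462275868591023447292842539833262303023979635534411228859387464248893960679864949121931793300628546566724647619836694497807674906360112077536541881510474840493181939432612302536560146333477919646460691122947464701846965093360256224374168891290648584446155412082592749813525010747034140812980718992928167562082663552939193418466831816521025629493550115144289720549700935806500256133929550653400382021304865145308886986851394290367962039796121112770680763149365190167270368250540737893635619012276462717290773283656517682693441652450625244055508320928778957028250402632488247265454953281115993469596965367278285964569277734202793318367783956246024637116138819583053383027413393829138489317613608175353759925451938862486787670441585126530698158084313460391140208756962370055973400384228659581760943432043562537345286601526287983891601127502866062582484954923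7058892379370081739680230196899539053870545342402967742715430070663987210512903543589822997614003997858979234666574799248470797891370824763030815950731678611571528435022316425108758483643797126060269258910751241419742614288538717446820369376152733456871197268969698567670764871498388543683760113513983423344423553974920674619859527467905610956628340080300419370375634543226067847221648699503766647849799835662257486958917345219209995424696431301135626197410890897885117276618136806052175333467385001981694249456607019006550380639548884248068482674251394609367944681785259626499294338612895467240916000118427909235858691030101479936688363043683548967451125459748136827960559695814289099045333277833495445441856669136534079616087370727627408379730089806423695168596261186464718503059882210872625105158291332544685788841748970822730825416653148772558666391491076470109499784825622152377124327101377693418093108746035201055912414804808922983127101474437460591413193171266337845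5507789440218658479037124748414875884570484458242433878708014460777385672115242098211272314677647889025877471447262876578730301909500929388739540487738574061827875158833823439207518999971168877322054497572043314206982785029657436744756549701429106264087385683786720718525819373445922650577300110247417888954819640738608370422199070360151061311480035438285045513555311906513372187365019780375031179079205028938648412376010901646110718049312436248461744079042164335129784878649314920883583860911467993999159373048589511484919686231418508905330340958899262431850834360040983726348557481655501642452143519233952972814833500839789454042227076327770900877643600702520848600829563368660999372277417753566569602584262578045295981184139722039061324161679492703306855461760701574436559135304192250695572813676105014160999478690303242954785079571789306826461732571313457123196799749105229932852848995992371841708661012805358974923864509628620460664722054047698076093678557537127061078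2420472134249931194400782437732582544129546165008709201980476224550947974347376802837913644529889591926785784105212738449587318590464567744922974333615705668421754150736193714928115608717835313622371337713084021779913053995126941858659622905346545976629446105352540716035488662712470167968865577104056827588473037651323917256471597878898400387172239114104985063735782055644908336028157316071342031458413139227102175754766108052753848792433550913703449213243353461813047705314599967873661812093808599964182962137870526624039237359996972758326967918347605940467642161667306748949700231205819012851902808738205429061192238642373158843018226831650499490874780936062754709404168242047523571318145676767245586123419252358395535139639055722883630644715841101534093394841492498833704380689193747457262118597413792651248797480565112994587668615288799259474861013570610388840796192818111411339936545656590902083727846636189176935248695761287872015983103723315779090597432407965328469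3089853486225072368202659758227750177743679840612799818719134810134159558561108878723282711899736425667842754256438988775939906147952171414905130085640321957682050874161309367880580737538101150863937684450638123255080639133870148204488212829248006997249615346970559165789226407855142091104299000404202265276305239669068776168639224765234500364209379245157704791501958476442989390254386914272954595210971306127716954224806363640921794874334905246688527413055718760770040802311863704669786279210214596699351175657706481254226824179468797648232977795480491249316500274966268346946512610853032412790509603041565824256261595478074172325064233599932281970065734265593365717027175598534216515731880632994751040509284390494413020760261919911509555988352311910430628536297977017636376319890414400885307522139940319179984879004136456011886214140802593863884266249653197880305639474263147494831300287451448420539783555503067763937122280253049613157161528182917352931927792099364038991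9461058707981466386121864036002977914991062789959460454029161302773936267309024907574012298636994568321486935033874439103313094860281016987791343992879078616232806367658743422841960104673334739773185302524512176239644002511468125738301298135902772655196700716112271344800122513945854524756584770309355535419000037243004936804905453108949869826294942711018236228616229620956365181603458065705806798154341367542888139163769133658004528817092389727179119345900084424844519798969105150648923884585819687906464061481797304846696708850135745597091030054233025166376011961755105801320595553119995116228694498699166111381611668749343354300738685191900297718323090967490777876568687673948434293607313004197199142478233990821702792080621497130165541711542499342489540699269673081686417093477601049817163506726012558439965658124562600483521184200306020036662876656535857609600171988183517628745474398161447890669707356380436511890471345852969757011346972555442176745331870111804671641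1527837222078403745998545634861295997544476401937388660771717104070112642729152169150941527313133046863129092700783285957315944953112714553569053010014976074678924894818734938744225670220974729677960511367600721920657743437708057448468775769476912152935733071989994108518616682231025002034126744952790531212849848203392855851514188185128586941905193777007169396165473572111977226329969846709911458260115405196812988121411223978082245777206060062675268027746284520525505330624658219896572264897305820930577846684013764677997467391665132397538475173844352993410598137231904647945380152327300939120893614804348145308237437785605808606189354774290152377155760448815876352889561812602036721662683625872575091457439652733553365451367571856380713830172543467839471758146609929939439563905753881355703883441032894379636492694100215350542471351610787888014439527098958355800169912251626032682851815600241814944128813716363321201906058643425398155935119263582144323208929248390942998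3996565353626319152387382897775507165304837794126510391152131157939942324265228112726775702861368280324538732325098865139678697636192069615440927318739130370755592843222892091202373911018100939067496849355849419540668810171363292401825501700856687224000508188745171421272907324381359278426049863934871013741556028371049643482141919991612386702526341482072577462011522124879052596738044586139452892234947663495728624917026177408601518463969305812535900961821839121265542231732737434083749846580231421893363262046909167664053415512010105438671855875556706929156877696739376543119708543159347630893113976207210206128557932047635840530296581710894041320797660768101476989489675295322973037357775641343701801953158730159004124058095581017104544465434652298458663043137606184238149666993966827210778569572841960069441656415247806354499433352565823819184896394924947872225187222270209735814984303149659039967881791576881357982171407797600145231640122904611021792392745934636060867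177534429786734834403419594288595388858187915656354719949843240650827150049285023061245737253741526586486523695924817457675791537918721672691557807310388588855797165489655280187268930616245898791298223194591359129821637479782769223037966672431992710157569471353085887717825224411677903870683807837187066240433164962592220042318297999102960185943282908993088810271504522867600249492286736647709994409924128959496524139492138265394553037192757309132849007438094550886537233892835609931323062064819019437545933776675589781696162973015581577959801085327453210884673117452287712872258551213719650429802975766483828759809080146996786384335608897926518969578289724872319705917077530724518676525813628714521871684780955295826765366385233759564119934859068581780084390807005955856939375855073747235463603390344965442560525032329579911206784121676987293942418140961962430371344181679071515370355684187282535175319799945513141347398773218225312929259705317477254001765516666567980302459865837647522920376218719752332811781864128280317346708226017184451054920750071808)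

noncomputable def rc2 : Nat := (nat_lit 2704361012973538084965508547358945769872414841389980389288936943487491764765187929057347456804459036910476026007172234295067481331974348279704696601123069630804774267458045710480984339533016648873390788491102974849831372802257494615178708311910532696715104309956897515184610717214418586364560004236700247069667681755321172749079389570061439732329206436922441862087169362216044612414041513242048918428045929017928870247868654578389455896434113759819664154719211101736729469772716049526266751282988518765370294745389356906284984315836421642865836780529940326610250315164487682396443115882157615188130528180304716488447389944220987662432063525311252300028188557057355196911548705296290016784788467107792099040917481103715040586367761622888418991205857933372729415310490611769250872069749207438402985327661149677395349522506583214193324669285712517880568311842588583379866931713875594112465272414899366379825197671874478350628103385086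8508009741676389735125808595935052692447942351062489355964060327817855909948230852079353714316525984893117883281587248778131739728128459194798898282233308093010958615102038427196167612748991214619158252199366641402594833793849328190971211361321502024994038032426641272369770849938265185431321471466617595048894160595320360610786853797513366923431196520216618417872391679044140181412257177484181156623463294543787759031188976481961298005366540309299980159515077562845371290428817022254053202126753983818896164952411312502794421449273209664914633843647424532254314096225541666492479712978876801754493272514239947161178160387428350056932494253095539745534553564912296906987848448087513352724017042554888184829173803001774671316839314829323732668844844818041187980445689265877494297763254586990568328289240278670089147755715430641101861860365101687901536408249272543725189977791035644836280243505830265821949357342215228315508996712768022887955490467521555326332696680798328210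3646158186014870143779452236989331235028204065795651347331697865618516242251716436760508215879106835343621001510152439408005916137749959557513239120228177803388586420683945738764614051006833779127993620364537656364965301183097836104170947850830038062722910213030850301011040076691461393910404550697483649402198713104756819473836718181515838464747910957778335749725478741796366676892453277882502865830862772609235719284373403710876738041232710399535813627552044012418888742426617798277449000616515475673739735022593828648484881070361004549018653056949128200340182014924944966314771007906477182129963153655556534522202117029854807191612216408292332275490440519235422972480831337000661314139601370096521452483361944663534568452735413921840418329883113654374049016350459520667651860204583216032169751477052880924380726176260854915848144614324848924380361448398399166337442026757555553546657201249117238722479972996214590109102195663098090299897462581278658837282827440220801156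4899190312048738516460720378936392592032562673785997758625050939340287195498596944249494007943520607548165048977333598860865165653596468750365936586616292575189339212974827819601281590389233696688282028863688741226825276709104527349059230351598781537471349333573929614291258130593605723591981400643634613473153582438732424760665671945760855058056266924611095749896759184142076195483616197421037830069143707495063336339251174503836785966243423859528503158644915222555879336890864381696813461033667408638273738443981960776077832768512133531454204750492566607150588224580713389275838783082716046816642353727180472558789057653173349128170874885786619655802241611184976673782390301941631173849418870819025107827831512153156789740891012841206978958250078218654333094231378066949521168716010438259972801623112035739875840621317739281943074783672941568379895027462542498341536801865730439243890311989010521572508485171609116442358371812830265245691532303847545452708579593632057162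2217572316192427562982127619938576025039335849016422055775854294089905346279002531396582411165589154077458931686617352643102809269838969344442662771218656277053835558602379803477262866320806607235821750698674116141289385740935090989116682278748847138733364335321597027000523109512125097542385207298856217585067621228932207007450950817182773112616005233423071904725482773814201996879243946933539262566694089446483399274454061142828402195892486845125787453738944969565526148895024228094236948247504383182108317102011918416459034040956212038160642926310759139202070924684705462697726953165128133924386915862912455395144329006479701421231595728101908844250121428343634258122203434613370942565792244909100352373655366214027017426321481341037374256880098075764571021016331529706598016950008244286963115922754442562506150978145564343459875884509266751374665149351432791423924070732258888077949995818316032070765500653916995221571990213432263990387407389442756631930909235588795704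5574647053140852378354262892085158515034000564002431896824362080998460652952780530562748174863585036796594908543083799385112014279342050431989345352882338074880144366025340982679090721192848752924526581186854310973295352710656681791677426155683728392344841150201242135344812704385260344037027949507376337590823642653478413062802367165687510278162100514189242479322085461790988929484484449285326689738210200977132982427216148773069613484767324275095591931666469241493189728604144905123334267026134877890151744199809272269297621869719726878976592211767041697435128160590214794627538241486244567757616199078050201811256478295761193133401624342236142367527316769370257406454557257490943182873048215473585926907318799650092161998794144449863062674804796538148490389595389886665478838768671217608383704583544252830952021626030615444473334162267219358323386975537165285557253399693033354963334686452453306468255104986371359983225785223466045507242459967393127182842154793709637789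2229378654814139662588082611437126790670380825844618076535096128676332351765807225635375796046391036004901079253131656454793038205306895775259452143208421091580113695854720599007343246909736119660989905530249865773240784891621915471623155921437012427406553494320482145589825776427489959956643474734486043281436226943693657323311982534969664510820549251748236295531190248822187424855312498196809624608822830660314506315315747803516249126942972524973011614893274265830226480423583983716728481113012507464280739776037012025435868806524088114234910878316396804162129625919491860174719201148537118853535463320237202097166746832279965107934497000939283530871408543801596080205856055944858191544665833840000610728991181471175874109196917598752264634458130119646562249089234563623889429532056194024064343064759198300711332055839454687379249488679177346804474426848228781232550406400445155910707776164346776750648702083131639092824379914823684572774922427309964438462131893552737431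8170947942181015149421469682804765345740217034564623517479976890288965642278024803560026204855062739282594229738534489044010044988435695506448368740604566229908066201111744026261732819182309208222712574080481604362435189620393205605321973600351307921468822477107373798269828476205584351321439325635740869579087765916549151402437603365728244533290627714187459669719790461378924455597197536514671113630668909144365637790515278687539249728240649000449998640555056200457712531381389321593442398177302334558891988589422095601886486955469780444731629439723809490981122861419456269741808134446589344744768104488015819090959535220052489282806970644782256355829415225800048884759074714001017405977621943660300899492716515982087699455622047101540264665528103687987414038872008941926433837801165636214033487117526713278021395299355133736734396744291178090917959479905907789519232046846292958833826794184771186057704707192930761568262871860963251229755776846408886001490506730764721854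9716415383074637841698121749301877578589791958173651581628447530616563584430142492292878668569667236854426709876874465338445538795616971045512142611590478740125663778878735606614451414647018324560832243413672601884817913906217210037376781020441835509125640167691679935049206269527997174897541170899154565506495186391155657173458131503427375778052445483235451801892858764078308685702846407965226909648408587091301120984406506066401682795089982503501319815529110256098139756343307943254674598829473844036764495876460217884007488572812968247055568366497881637910980510179284406056005668616377981337777357564325624123857083199862313916600648220706673626710528367431093828240176869183323874394260117600385169480999681071920202363166679044355523246022896654102185823008125097941565588244803660954299858021195568521243091861277120862290834659296345252112174245960903882033969588409489566173223695435436401241807679790610532645451914287626191987143542869963077898389140170014246596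1574858292575848728151245503385109720827762385715433919050474822694876226098627214282643600119628120826028818403554613378137241085481621507445126309143888030572201372045333597580577271576776417620888209872372676692753184826965023577663824805005264355266391625178037016786274667566850814706194184756488851412252051926312131743873124880335875389171952843137973290060097084039483032368259595246093017372234331379197655361265151986012692255273612365151760550245070517686160662410042439724181163178804808654432874333822312830917507560845566010322331990629712159790973878724985871355420576611616338751799818100471609327583541814691690755323366857590431001557627333287063495537696345535403435732651223338173189616313138982556238516668686452419998450910333170672540913806164298399008999106608442399076696963735707239252868058180490199605524164915925812855139990886971349055982757193635293882624171666870190730058129072040173091231953850194104682884725767800025301689492183825110641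3701580500988728291312052513969993822319801559680010358058630328839166690460541377733533544796867438611777617366424743780720914956028991294496037101744598130790191211725700128938534469933928240406934222836136634377342947337099802674314189841888263963183747659900221176327974669398087847013839586712414732278485013028799510735470482429291995259936002230208378918589168085702536992106933739298944501410917369222379431452241086247036867058226632748043690941397156180206913482290533638991519124391209220752652503827938675966950076911649650114377335442760259005459553124367830119762840456445371751239855746893040960831387989669808720511543355016313530414255038079462348346554922184366529908974141475251760892091844318800249654310558907668775910687028455101121982057457622082226644952929987242800908308020543962247747366866819177805251781724902961296005502935694913586338075728182467635540209134791667370721487371540017164380795085953422269210955898692985261697082436671697706018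0066023614526323044600491375282415480342083856708617530489306575164528287884496646515035931347437871763886280356569471981250233441093255079022026590221997098106158599009416538062968645783041971089730361285419043859269190686289104426066098407379643216365642054931452139761274397395102324662214526604125841155824966979732967995779137321594227882202377595403935532156786100901944363457747324102236751023432183159505338333681911287887424872136784688406165167113591804760815375509889612913062328679939738617392600628712855862494429192529235008541680261273431219219752144415753288302938409559927702929145837012919630361434000722299493168894673452870326489370433816184068021316490456934456498117622539063182653026608274646340514149092605427632640039699516239552556895891942193229527188296134157627789246851202171969120631986874425494116019640904547142406104074506940690634531834486678887497947173183325551492606305160857193901886770185451908986302855317953302996101077268620420340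9742781320907193312803449939771213890944493653546277294760172322550691725772193828650417350738954588238767431136080214210702396933843949827779465580874473551324966122860259299954301238810904048775571004174883980288165283562980319588293266784366688819087893530670309099969427391667180519325521863934529550190059234891255025869966731330307513290071721420122562883483891661120957899427432910550459910327511977125020508040201896161837312474968205867108859552325400420270390798094874193603725426054197597115048165204813477407396992351213507845291370253878644086098165618971385027699184529946919132300363108957871406196220890525727768031213649190089260332094489123426360250407051736896459917028053831576077759002455340597569825296640384914058450368401431648093260665077329895051175206024608428634316067476872300165168293822756627189031524489993587328170704079696787648920108376549705268044153457707423093600170801773428458287717374144540531325789314547527557179813139012480065097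9366818546504982401003742347614165247195184807769055393528342634757572334405435174435780677595980717122778616635010363587870417533786819526734911377855087516885710863517205625581890347339146948701032618353728020412660729037018306578073518560702650574811514889465339692850848415869001925701551613565744302923906957426943239924470920207603604095796452668779343014201358969081472322692500072590035654792410601745584082287640238182179383906582449958864305692122024092496064909447457714460428476118463313133444916818862734560194692269046681424091622154677568051092927192965525467534599070716979922773924013440771432071503523908122780885159658636144122137738489272874567225802797648023546376802115968507119547589426875118954449366162895292813138204218299407130086627309457041123214710692980337675715721444522034485164416475761301295682705370408746981844515908578775111924362420581766418368556516099823367679185176389391294755363626697585819958479457090319019123325798410140564319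2807829349723333828916290077426715769935101844125781860773559350947669487869146880726100573364352688591428230945991177994662121782722970037767599324627858124612211091042816259775710306764399907539156510742169614427463471500576996661913339128612013578388981198624343465788491523860716127358211303356959389516805465721359199272269717567799738583847702661683352930413482890877846981286026744342087217652458517315489134929997104438473845546795149531408159040604081547304681648166232732664844202386088288302093519661815153072768866350635995488524066620425678808245782333062778991520955620661549342512835824178180961937020958123883413070231009744138648197820890124170600539069938002024686871733081480313877432058071586441710032363157806316698130658168938813231813577712451182180597067900313266718203925393759027714698669715726150340047307798550883236083906042722868232782879372874340300883252673932027489955191763726581430107839420398696992967687905577617894852666676840930519807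9968106425026251500423672979809536363231348303382139204838419936568615752878470187933947339515112073964909087226046603798325244852683316812875865329502837846743790713832850267690487559487658621335980026094638713021342912931453952635730320641130472292889546283768980720014026713216725027078186481008026116967032564757705751003741259415890852846294519998542427389499821016346464416815299604560368787784540439323453225610514915362607307175206056512452612516352091908351334205791057856869860493337204318080539431374851718609949329196481365667273711833663050072695507730351352668698819002161296142905816442845247291540161123079347767443137236694930241807530817098589156141123844869608551448910069504434598347568371166564372157987622745022949629052235762695483199169355720736167690339754652764856705333728019134477176818176137521374252156881449758968791410956608212263097723298198527930367599161183945138451205331172943002972250759029349168831784986001174824461647782548045801706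0272816032228069403134842414665583030082601097625740520919095731808439789405624606073990431902477934779885758344762704823182062202809086972408255626010206689747901150065791958594545023250774740640068508707048036247902386662179108239945844073194079009362225172856295034861523057004687319800190206082228610846454373344514321611078493915299715483340996768084318309211540869197165788487073679706850239173875604789069378553206102452446206651994935142653432303005515859680070189656252801006839490616574176463347450527821196418826612363372809412455654896346524540932509163942542500880937770024907592551375641199332189687099891202577460842478639075110351700665988326185977278573098676624261883210984931925280593587400168587716026162988376457434049798238702906387426387998616237261313962454499619073305342775702328806360753634097379231192934601452536312861511914339624924181599480979395037910840058241827725533790541091589546948989761089184556037025760786050566595849990480244078245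1559037260072049990448436419869657215939603272200349335278367428129536152888139072967759529052613545895410830101870765759055127537593613193253551240428158831541786396952324530951764545790812893218299288009438772124363693598821777959805553732174883796255328598592443732699740414605309728392019220902013754872328812441726186312325357221687389792796589781870315234757949100101814934481778879832962303233596980103209812316548462632966681781451571398065556026459584927961815300227503155811459680491016150770978012502482951666847905554656667485458346902329185074768078624466737765680579691447585792940480812336804886575386716637490772216160118273275225768961280118177318418073720534170638371780696874842567030377248213761488653001575565086309896604946906474774994277089896409695057873332185852210039585526620605581297746762302415977073610181867881920584511899037555991122613383181104104291125978381578555180658818917632374098523325303107528355554238427944033736264364426251206169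094580010936613716156770703332808883268473336540450698874450467438709746910892705627592976807122518486257610867316242834246842496044244927255536496716048345439041678142010229307103800322755303966274668838897839169917372847674334223016196262850733290174776384311907757874475614109081044443148676300007917042009563112070276332483946103841243898100581419250735253393382696433437854159727354217022015268720235881053460774937258759527936253596711595328980069551402182513244194883908879348369656622693062318520989928376398908096282551224360001664901493098685035876331748799391781208747327776898559514923510593324189617164206285099377430335030574386475756492010296100457405727744136587870068094921943002862904737488825653723636863911536457471103582341856123130628149496193129848655899648151853589542385933784790432066649338077335631602923456487803860658036838467298036231782325150631229452926577424428470328101750362594576135031339182994668095261116517314158180982776696026024859778108322688664426184661118348113488759821626737898442848718339170551649069223116800)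

noncomputable def rc3 : Nat := (nat_lit 2711005875100512687841135900503715968449640630447798817182259861970045634539588345447144736525151785634200036093348328981216914262680940407190507965349079988811103009854589115200272471486590245432649975255243401518784410194516937871754373864013699053543012079537329769878339857981234774159733708929734930943400577562736783268474413889795781449626568232062292547289139311971405559776572868769459069692560442032587894640140659519321003318643484003681807690067982653428805897711992356977004602224863471848459525064203924770253736026720699727913492242326185494808626152719882032781084615609309536994415745319998591651817211359277245978258468842346743551047280399817083731860254302888992596503613205371649272586036843695798868696984218710701083560987459164859439494681545270821164265612681678496936317292520814392369638288898997109496358840751613638624607766788851378584369786389016143505136271057972543951030251668475452746447597002475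3997183861122659694757238242499826586970937121607157660768682565434683076270142697543453198470372095296065692188296310456154048567954398144541001011495829482613327232763864713484402644692282489086408900402956576071053356096660909867783457093764199968888182966811674006130923994882899393301060629624303370817941330646760164812485375419497075918189992914043393536166123898290290979731755174058853750973117485636405392014076000375758946042589518768705660288999792332147645174244578680799873253292405199125753634484720146778952680347813603506944702571003602872020102983542738614857060821739332316398474890426927132972815375107397600732636807137721113317178362910438040231372795942361035207968679634935093588516891067736576461657262981078409517957370132275968533486892575236493347968528382091769387582813462413382492709023572301156554142330737377070082723847085225120901994965672108863217262742702589173695609222963937873404468175702035942477429309511126263564713796741862935096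5027168872546672834233419144598361000972189351069928405308996160265609388282996030126607621112940614676917163746965383743291800977557180670001396857587107887886160753187564454649106056600964747595494622110598218662861289948639851516293531803186181359768808677175322269439682210061126890064222608890584340061665193097194459770145918623928425974434766616315492607182088084558150065647477109283824963882235435658313949414721470450911025736180071551225236158330359398081042058296237308728751431268831075800919878819141588629768980354462362283675990984758178208364887328928581138369498895709912174774599632531447305711100542074032668955580303015997456857628875400978444805046692186548732311894625425831925578590234707650030671613884860113334779562467136890976936556920804238304782503813566267739052894108905966800688262804653367654133004060007563102779382841066024964733036913777625584323266484409127368915535710898399982558042000683476709004145375959692563538170970606869838812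7081832898610227050684681143126942887268558247738596107066754148985139234043513561252902138412492095093118213731847851230696153449047099986277416875025638123117120550147214868675463253281291836601420879131337536973496740264282923965022416454196630894098773586492845463803329195687544670794744721566408906031626408166297905329743658332244561211759122343134762466834393630334742115077967386027763452643489086364093500888650067535413481897412185099065033719277931868797490782367288135287810438055970091757524029585321639172260485757400125093818784787735537149056231424828569787328906089864973312385532051466088324126689904975395206316433932537543501322657383096089719586877804366865453946332292241552497666075055442075998651316825400922782859896781022109202950371546071529302581718551875346786184852329112885593512829385904283990999173345723049416102965394197948418748028388537805305450103239372889904534262036812199861608441482435285358264290757710568768105863923674989457717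1673271050144957538654906929003420992713941412018086656183085194815584011932638431759078942449364369734855621356096970895412582966577695237217648866395596270164065331837134256173528365528493995395039108732220497578854159671696468633561547765753093957112331689896273764213744803086564892501788468266987510756290552934721623819465604513473254879295096572547296734192641882423643389614089926509387005920514362443708965455784150617875704545419463998690424673868012257829340066514749836696590781557217823458069521706398717600997438126532683521707516213585844470846577699787008687066245289493165941909217442161720113957743321994293949438155104764441847475403036996537995897251900958570912123624417263795731647510463017826815914490357000969652048614170204660776124040707987937543778695423941353003261466664862650508648655323340356966883778122939178595503382856359249881606081655949566662212019509329669795524117105960257751842608221176983357450857713679792432833446616546715334957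0119396931390568390722061673719287522398467584104929361867280973220893241016738310600603994494246109396004729731676630155240035688030695465069462541609614360708677756465218788980937863019261243464458446044349153575341823087580598014896791033400473238541118739765337349908728877131284436160519868248935486837063167769171742612977121373538201916856873095523778107874051392904940922014031436024890592754353211252871712264070916371244297632874359099285465047401482700776056189547527639884005432406520665599499645119903850597805653362528777358711748844234872748640386396478005490663548459998326037944626113282711964061001986879918523504301478682577412226061264169555321675693534230917050785980265584196091228566507138167140446709178846444631594521724410781584693710786207824400669627805214355673457232786821273618636570337243144165697373461578069026439602214048650233984721485653092335916280091084037032079173599868677914002453299331382603930476399299965968117919494660256378531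6953769649629058551167120878677419532654597055593438174594492095960294178965441995676336276606773738833013173202651753546501899902495940190301061697567136585908713609485276324051658236467042560260514265362928651781887453573057860221887696717480208167807576636001097745164901684101806830177492773381254062677165932313053972600597751723912705892981139590442787033498879730878813840064585709648424460172746689845422562049673018140479611141260659690555219930510795316789751834073453979683369416188710954687584914584191877855088209035771818117256290094970924979046448981588989335934418096880177463535854095285503806495173453751904973362578231651631958420939667753243758121770841182381482972999139166832796700257112317210869810245311717917254245793404224025152716355111857794926877332501126582725851259892033715910154764796040272807905674232625383777919092000027713797874984278366037677903924278476152044235210470073174402239120132346622274682417696530637182345941411692598885650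3860385893004784483834856064023783671335585904942265526577422773997603607640855901005806918995399198969014468281625897786601552973009071493160102705743936734677976966498481777081094868656313929120973589545516816451701508777870950374249976204394764782821611633630284390299393173960487948072844054019369205987232552798809056179104018838899187283598248890628768729410049084642975110614167028076138465718999038520053068036829879344651877526518036169910898258382923743355777423084042272111629904193315594183015620190008103234558980117373701738272883378433818919769709887811470035601235488753781668421268181309342032846332860082027155911973559999042987029347858004863136563382572153138535628395826095315573476136585514833984638085756805877927996990221910937795296450684748099540377049667966386367233562216197208022571038497606987056146826692262252571906495669787770842240126431636424291047558739485478611025392789039111432141576283370649238693894659272331531854017726223373239650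4251122680740925227090102560365747939281734371776137820372048356511176163625518104875544351695905095781491840140910755992011477980844649435403033116198961135795631715180038540252962433745266377432394272529845879096041837122084855606641058511146543133728208845159398579807870843263735910633142151268313430850023539524406965745475971745337940814238870202456773181122072684722857846030441782277379949125931601384587104257584568977995382501903555769693572200578829345607156614648833594549491593310671107699163589226726915778461151604340772325150075777498312990722976354017179767289829041927442457841189350032337112548985508287689119218457132531764489998593615582701983465423195368604800225208137725770694113925849911176924423376102000899952082595010454700191906143731319061457107176208535497716899792099504123678868068777303348945908846165328075918273540727723144297845009114147064051895782305294664243010039600345477385495987178171732027784530269773228434245839784471670879608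7567685083310134951216903899527136028024806493846743359424039915363133634351469156407773121393728784335065325303276011803438824424221421174481905105306557787716040436438903017870421564607561249589676666971929780006759116006784131880182781844727387985261199349151125684042281055816844501233264621760195281497591157427115947677075453396240475767209902389375176638108876315159580577331880245891748654837326833222508848466689937223986550974302913276288634965384566449589027116847199497262609788813858002574285789079377693882085545087663107323468357174971746339297022931394871810296928547123123252291269594059474120582788224151679910617025088933121162933144419037493130309369368485682085482015380438445908380256597214468598522950365292031078295740199250489017878337309261086825254457664382150555432790817109638279069298021917932747937869142665380555214129782887850314605284237321006296317004970968030139859053715909420012864657205278546709491669735336638735696351003547118640385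5062047471463241757260161795504413832673318239451544432267962554765497539951130170559748157787763307572134658431300138419649225558840166511201210679267527871274632657968472256238429291806648275203346605531491315728974679749955780739786743862540507188156536166966337260395740884037041199569022488244399780203294592513070364494050227227229042973852659948516543513326895962580612624869075195182191055340429239554192940852414172709674270743924386130151623857653606074401907796581821079334544807472743880427128660604230357784577565078747705916382975401806756823162681249425073388272454158470123794744878771407786097253355780718136388422064564844017391170357813887504627560251897098897343616915224384168423719327887801351491362526366454147702936573986485612080959767724572597776380502476136734409102304876066974966303496709704690867181602703875148085703694551755185267936940511683506913906547144858771060981794780217951737526659321932057342789097976778175467088447555257809758494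1871376802684818184528359418039637295932508932819189780979584363089207043843192399783910638737888958272377385603853656943313090993213379915545039131580152337942049422398268831505390316139307018747637326710543432928191929965186555413797139506611513286368630785976984456039418089583460415699912997393767220602334752533961135080053672583023772601946201317777060738535726720899169201462416347381387381859332448521799242654353489367426206540681729055201025913358385916724505945248447326749327501121397113190467022151727724210013392673348974964966408507659693945200634183658201603192672991194171304540511393699061719859110037741584686847240318913233625940129037577216066685958770127899523120632632468759609418060579545675255623058794343420705439740693654194477416320120354150826800720171683408862432327762465031708797721987745713472852011046779590258155975850609862875177427655803299042055331901221740712368681712608350226591043940411689531986225121530061289747461195184029162668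1264727933392293637683421884865346465007947025416080927221163848851050568012117741510542606572967616689669932257066899966140333072554958928798262014397473489744033222400046042977990531976630152384465011549509205292213910857309770526584808982519059724754766221823023787834783308738619958558541515992241753759818116529918479578258632730819270898872828836936181574747614941834597391979825430294830866427793870432776568226698434644474299339316917590933493418495590365711622895636955945905982277667569572393740963305555480812623877445183273605482069668868474848037745118449428018199135290754404445114714604986749667248872739189058314547101473764926186915531570654207941049136482980677263328393842478185759984941520148877668265325458539697218342114831380428137562197329679541610707344315225030010553768294444198379562074990716968859540044019608203100591605183987908803524255954774341668628133018930245423127512460126327363469851325669335750979570475599413157486548034704646765024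1789705281780726470905417292173453903801240496318132222025716627321918239816312837090308549702263485168625257948801185427952021639618494695247057565207754706218965763562212774184206674215769938205861414179203455232245172371597597946489024777161427346578697169999093818202505656287243499484802433578779710811144347851087072926127036435372156680967999225659389044604943814506159730041838752435889126313867193741977904795544832621024346945374161478526495961578996672642767640021107737677836363916301543979502513734376876656062017825119902607230431981919918091653458861342320140419752732052173890063578961249950675672065082137930913682803573876800469759674909922600799351079113935565168372843104991388610421298578712251341745164577487376112285660774558442036242175995301381964709249649453566033796364215590440745533489074116841795184955286286844585056557755692952869154973459035176582698047527468463492670467630926376990371186583117597282495912758831814195967828140015406372608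3869265287509611414155248673908281643860439409904982340548434974027503069775111091543488190883498824844515185874931099035247974141145011825438112647320232315456691491818587738422861152642860033645641108611077951908568864537267036350157781844583871913468228103164254869562535206490336819259003608212635357216057698753823279242267862764641101051586557147947883475238882448127687151127851226763741886970611706338774059808657248624998515691303216488349920746583392214484030094276376283733502857784045872332067905394963641409704614684544326606108124491444896486258506421280289120566311451103694153317314111276667098278848673054131217629638986324842500182803586942740756650336314323172472544442006402087733855226247903670862543912468664438531367134646507864471715347589796606294576539726888474596962271760142285711999001293052070469899169706316463300026443769625603862463753988314222222543883614649326461202458090608856086830560228715292219378489595091381087925240593327320057649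6277838756051678698100600568547076531945429895152963589128036406109220887467627765690927629047863038558875408869746375141944071352313185898460205765413807976981772842926184836654593618367179418072723898243471134976681156018729559369603400331006221852573420996322834630393388746917262330354263214594738822352290088033746437798143374573650941832341762158410370633329142995197743709685633055353076452081147607508383784288769002000242529254862239663445368753446329702583317597212428480002034795233961216030413365108094801239974379878028153249857864740697722808690330003610814319792367779855734924435231742898441082519157085405577796447616831072773642394753210269223169078023307595929833574847851964817385851306014166253350197420840590565428730068339309338953662351843970404095072079654642597377808880517875133834771886500035494797626875464291956236843070953926204674157801570190340067018171350500387498993981913647461703064757168548324494983419524840015271555480890111867480703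0568226276272424348814650578690674583976119696069461559702756129051841147548952754349701431679122405365535961000694980133818612984944279874591112972384954537293870297668764007775184411722232633857650862051227852276498702259115739324757941291626639565883905130872962135051991941724076111623847398965267021075303753233166140681399155962201272490660725274619422961137743405555739577770944542078137146173153029036396103231254970062237769412890756866758105214467038446821559112865833552403425609592082608704846609985401881343023089691282724051206334093322773291719373677963804689016892006358622259459539148407058938207860514181668157657502216634009621917945539568107206991624407064717585175061668153816161819465581710343562027020584352520761712677635611751042988122305224740438125166158681275586713860744789156148917637288752879606131362746103893028425504166087862098583858112593430864664411920313804965660857828115396298321131477442375072399942172718815412820722574604397900749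2589756249420152406562329794112313930813410357977827987229943635693506204940983336346203444757326052689793738250891822126087003831334889229080812820028340003194889445640346685524012513401046535028257802377078329870504410714825015117896264179122769381567360913913622327975342495460895564967337021278517986962138939695941434118436934027196488275081918994206612797988533264941941967790946030604294876608232719205892570449238077291830171951566072664665777611987491916072514454544168624933740208974501263557909761053959787347453351620316491783404414588480689630635068694057741492579189515968406228615395817476841935975432577157440107742270724652495238719244546075354041795548329736077162802082867295964626861590649772080530917700433724117005539961330888600872545967706962748906638034411688280477333584256784968214833434852686601466029647185808817767056196758006958479302969485965266590247431339656113089115611994417977996726611253995579642597243329641199825647591911928806280570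928694576285381142642862260580289111199956932556480184245650098664883209459781608996933020056761257674517278281941717073471227848904474043305387433585059877400662808663306161747572633746319346137593469309883099466246674779552132693244395152296040564154792319315717799190911767805425156252973566363631374230798708591854525875636405246658759423152634140424107361441634567279838906815705298368111565222229786761666428403924093311612842071038575084391881918112876170509824676719756021635966138504646892979700255020204814083837431443545099109049381719709581941098266835529211686715286341464084522641588833109028868075167306725597889397951277830781973757673288931185742873259746798658946307585784664631902797735096872068653228064737434793130033128650657775689796054304753475379017845687975420589057589308714690773654063779193531970628332877021239104282974810359336919932291954341675039286202169609223417652717402392452815558654062126622715603086172650935075344561499318875239303545735685798033595429657214488551980484969363892457189142493144100563647184016244736)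

noncomputable def rc4 : Nat := (nat_lit 2717503191851731690364865960977230980995322492923841040801081167430443986454191463878958022478574188344854145195923942446902462356702869106295990975236705564752300033815845591149070643178969072617622633382925215547516888956264314071136253836519073938118432021426064441801641806593274685046918774230089272080289238110706093088463891049417189395668051762504529676902153064668964623373079056593418313458532385062805995130745332551015045026908466347294336672411159761695784893749676007028223820495812685298256113153385693118220005394041359333461471305650299454989065090133289985767125808098307424170743338300996408355133849977022635102005682852142780161733306780309573538117106415421699431666257485552415762313784381122396306838596073457666386077954699566915134059585289049702112076548660331794968056534194758298941287382296847171077145069305315561627639963724427638966706872742505539268976804422696616679090760455699947988852994785192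7437032873845666265274259835701044081975855309532376995270905842203041919094747154684719778215386508320628549141693340515384201228525703060946400350775601912305224011131629853156234078393185915313088809321270382948949865543685244948840626375654431035005387145227514130916078288689730430199013967008598094599508587326382376257253768020534143371011281481831311355721862324807916769343620123901643142556070679975184719475845929189737088615960721712205563974730306864765866768484412766559520859065029425487629780799346751851082626349639696131250048812384441711432411610478456740438860937986485885855147427539840130068975072308986603056241120477992075715513961772994524411649103536403240497894345287241094561358134481103091791995610361330933547957161898031988131138406602134293167717429030928616846097052286336016292225882032214967194613472611842003809640277068113364959518335119849798023709961178187417404276097122836262248550275345286929668627845905145815473886508840757168438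2710018937351825793463202381801794541987051968695936470981101854219916854565108413108751221149927075368967426601244354464948514197763336504495585015510348890194441948565101064789999053230372790485380578835712443472807579516811026502342331570030348154263314374228299181589509987883079101987374445413641902495562105638632580379599922947445451001211530066872581438789647596140356486560999026126552656672394809017142799763189699534599229478042529404714788485389858244527241652416685593722913434909523775897829171209713460535186504180344500498073983117861449946087452433535136304807835581459511256897391778522070934026648666366603279228512866488688579864825753298216652455095117082809856073510509135339024057551821560330972065704313206116847185234064153635071898629143988263221424244628788081753463194077164832495710546738756562442164773426656808638127935615928131945069515252084375012460371625082153964691711480800642432437294034154899004695349984637800055779065067824414740653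3362055600806674582146633649673141532381885256397452153980956204079670112250890234358786004244789716609296851092759988450177494335306042570662101650857563501691255080955830541668975464160778646682545358393767744469203617535020531296734349285003707079200882775887368836683088368484961380710399425463878547682992521506869531324195361545835425429988393029586809724356943000614477054076012545010857295268973962741767792681717469559257445374726569225340831784852750244994923960405175953246795302612565959811073968427494215380012542539728464381156376219552386195789550447561929829737576235910117899493264660068366382567842998209795219869230971581438053769839927810200864806696852109640244268707709115352141634229031517526893814931459992455532655135051286108822418439120772181798347014153533253343711433370395859511106628251208450561587699684942674923509777604377311305907801338542655143219358305003920701680584127027042771006322467093730631990851529699942500622905070206359994834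1161699603307252354757451534719275690571377445020703585969813918081450468031503394887021398984345913105557326345680730993046112611536849465017369122926488869699899640132534140129747260212909472368995489205297583922272498400585615371935261388287563310371736443895940395035983621639208185514729579023355274349996574665435634962117909249951358161110512388397899992104832001192692547256359654778718870299635414510767535257731453202589455853572161569967101547449325576872522963402889746119259574210595762811710880045114068936759336534157591989526257619447843319401943764888214043338610125079250500069544765006287597638192455494919227762301704842233401366926772721940167876016436518782571780150377848367175139455604249780388217209965102323255651383871536255758605213148115980721962273971201835411588319427467990562065740141506338493492602557990026772327019252735065721167220816332316406357286209790508977180622637254258743676030571768223140370513753179630155528882914443207466706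7307846484084250671388778354474158007523297367842455908492897005184993705000978063047941653110273732718062272199448149926442977234411507130430010332518632695939157207951720545231308140135704660305776558726948759060545605120697215996889973035756183059680723544494810468859386165636230884946594138267410427735735880873070525024512136073190224538993269708365096227941937724104640326375796514337052185374683967924319839318768383033166597952320391632205999160430609217429151117575808843896022128544020474049102486146276798362708555525968501229324403359059779274890892062397696276582017226000625224726568885845190229993571761713731521955706209747204140476749371163247831025767206596491684933823461291684037557886806561281157522085139500342941880715439801073282255180013518819576501025040608135198524442654629890917457104110558451188237265696659845358359118408789849257571929555089855066881935828533043232883541349617931600532063807973373241339530534133478162800837024138653034672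5589152336095010245212497140885571036383051538004249801865774944612420694051248817148966055087010599266358571949807531310968820084941134963127683542999493291912486088033340429258759170990023469498394976908188300569588923169842993028803011286060153519239371787779936767658778752343691597110856197241821118970861297649843402717936196713020802115096711083529661261663254595900676254837874299614993606645359100918939335453087688992785500748292676915964715669562988134522533462640892591167413624192923223673451338330253019554554496594185739833366963994198478676821730532560146336622997193895894977955877656486378938142289446679239402920788132101483050165525232941691039618318993920863471999096043304198304174464139968015743846529975880999130593246021539014804920061127353936596539036813535601125663581381808286994791907423635757490505632986864891709132087115141530636105157959339853591962847559062688476865918775967429901684156637647814716319163804303178046124193291149251565584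2299028861582124148156159457284281944832779663485908426132665021123194797690941416491301276295653965252173062361165826172468426592038598313370090829826001793661720971163776304684047620941658380291668143011838185144920214830922799864717944815240469597403361080378694224932816257883902492919356687419363045249085193063228871220920864473984135709813704945646881288709676234024975441622805582554041800687671593574891372380228140090523403521534167588482541222206333723182214672362653443770498580061180021806422835058673551895706836790646449839792871078961814318921749177688118641090141862003887649988270779191519565738293371204410230679375280409048925095296639726592799278724132712751265618880196333798222683061226714395861806121781421418969062143982580331103874579030252655587955640937000976412263688159625509074090445156717578450643639518812992981965060348528055233908406842274236704277991625799668164692773783889245548748249164715579071217982376394894932485186208474872559344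9597681609713034609425769733986747502979027138815512861552050657353425915610390030697060989615812598323725073742004784917722728949756492016016325670652933109949076682322134384006714432384432211817185580783317500944568180551247580805899600987202470432970275133019055804364487776408059338446103638506890534269037639140958620141588576789660059222166727068911765408020590983965597292906819829657422202783250086649961434649143496713722764091559791934981763429835666626517570360220455714241895272089028119412009289156875186568717393074614965790474573945774520329480595085690218118190368821874434785153367135282031172820885737767089148579523018710669603560617556772954398893791992100251926696316491435063512929629015051347365424244315776158184388367855530843044159947988668497382425849050338014043319167309686583178312797214201609137174016089476251727216083543429461677485650219350732591339085667271157902059644263971098440287782197779156208445949863724243955040722915367404710557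9843240019789240651982096118936081302509191676120913391213208971711605514604511583883196574496006698826065603831871463630109901391584436373472744286120409592013194218814826905858136871637537583856971105711958008977785851301570514040044370028755626460284010734184109417738566516115028736395396198543879856441786291705067346992631868242637072788481718538523588155947257615224943911622736413020250366749128735778864472658692001120241153693582293628031857466636957882600137043750211568337646891491735625022109722686113546110286639264718786229369413590566374605912159149304488116707362170942465142937787361102917231243672611817149999010506248025933337946116978386348233739687541109479010971591607469396607568891226412645658649151330659451860550865951001136785598630965107453942643002360146512472567447753004738837387197234284744481517536074164240927546958451485863725610672405536756735068025759138010392573795961494199389437985236988476145649139769977608244091318360298324553655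7148140538089369635701005602806903263943595963003022473964578832432884076566978736223210176473897786070342205422834311233040613935762030282805133236966036744430912154249491880556886285552869602269632887690326446199575218636061610458174867576840358656173020084435529807685077582013645857663668942566990488843470759367817253870687910265439686962992925721436995578791872527437644639803549575911447629073882196761408181775297526677628128882929865913788522394377542799647848258857749731957928757190366831877182392326409069382888696735286819277674874709269348228168829759604976147615660486367091466933527904843403835953489519866490828913235126475620156235747505159160196605364754982282527827650523518505559327513399440956187288070571815294132918317745498926002271583472050265954752403525922090681423444664178179925496338396282425902552140313075889501769141363278168578686665836085198145957095369283800877682325320829128435260539856426359154046250644713882363276386101419839357844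1815216363748070468797719724748304409403675225905437846288805540427400618265518093265496145441929374727255219857956969542610197515967045534372614090395878396888617412761519494304916151436613351951096817442520426134995511183411348527952231728363027453311393544239978910505650312737482323601406810431546967369490132433000199290319836879845219326684089406216337995973338861644104324480777949831447879834951126540313821449476430611219458727482918119664813243639164490704448463723773736698285345271972292737208686884997064494199822371505319872637364363038872842573138834072779300336380797427520181863188901060805680660814638215373827266705586670161510633702416267941088069430647397538101504261941855684708604229897353988830819611464125539062941986845832214525440670836518116220929382957553860645020804283308557817499106274254748795795690592890773061736745042962613237370913234699317830866828578821433865240391131211346214154600157184373931734204537310624068362035233197044936649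4098400044382048868320088345808371757143513081086111989315124457504927753457813315946579071326767859185324354610143948793817666850188509983777978221505012700612966316117572359434510470410378325466692086138402739702220047767884521648814588358068142742224910167945428161127079236795477133767282175210434767686863037601872328238309004962113080310041166133304293413121893922600759352342807551203614316339987394856926269171466497664426950456287519181481174805072275245625847205897453125884742724658574188328072756931179960265169625735401300585343716816616182659064994069193746400280520288973804801550562195472272452611625395476471786482105043849480741465282754771825732915075888265362172496357252806645661012876701783169356556858114518888645864924320542701971158874393264904728518497240902366232171934117587065489783436816103554620848457834271200079333991495773748194411247678932953485006808518419730982811074060126220012008648125443222549880026347784250056939443020450873337410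9469558049424067388532623798298222636293057585142973463591504380475610620402644674228429408881221317271301472946354745432782223558090885258716488048759526333726318639028084246315630713444671851680477734688076340547560257813410115165843071374693509511002610547832724672044662515138177012632991488260334273152913884619386271805666114484462591738507404947306913804586039868247095394749384639430770178705643600065922646181262473674326596395679326849824004592934958700815037021564149720999827222028271301573660331457943723097734269737252495471715130271602628355363058975764267069349298480171364560217692346541330555348427266780650923128153552704636602725261385854698613485767000265463513197282826356239230942162856262973005889700550064723531436809160382861548829459306872986011517303543595744970130289145302222833897486229972707536166610753458726032142012885914346741690655865335628256477227026694122576254277881091568304030885710974251909095427126334164626366628549203332383287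7827212875330018741797566068443609807243682844445744835812457993295965485112262343507132886290715372054271163433977591741621032564566557760211937458980271177313836385148361817875506805016925828012061376740687146334351803148974265455170522080011449218834069953174875372789906923267121477467324781466052372511635325072224247248871440188949389120044092406299325705437403557407149788375345459123681379824606361971718584439806377033243571813186127158464839785612928790923927427785416863819884425541680647420870950645682359789473530577187784838168532148893069552843025771544408201055365838657092088332771487581880444457057372827471751455727460034516071313202110835230186687733306138931881080568607572498558850095067836767843255859433258984715582956003356870663167738320141391448801724517458943879658525396894513631564581753529300127746001746608922878188464148798687531407635325390154845094828724651711617590390001379128596810080163785899327921834987872911752654427596255379974604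5054787631630947089424928129288383101348421898705066593296551684049952999805237369075983304029622689025498660709135115194468625359728943028400285422792841300746769259265151783672310175574647617209987023179818523519266008414751161694373905816305651110124428382740435160750005476829247226747917489261568342194378218607704025058549423770718615402660611928968369685815608254907595176697349338972554842693300464976274980717951117601760683841832056799658399485336031594166850507681664505829440856823111802676777507886578860434123633068967544609417478007946206278677756306109140445443858415550703089442098404875014166183198451603622237245993912246485231156071995646689440687642144064776930092222773534431017451603847881927997124574209351648767839402060023504601438890834468956536660226347280420025982034599368283804449389531054203023143180461892716079148519336469313122521877964716125456924593314275032338252351375703654952773015034815463591126340344402515943047069561412174108383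3959025524670275221670593282697426579625797644110873938142628459839484864833225417958807159833768565728062183178834021554507224756322223641317709959690161850731390819259658480292801937479789185300618591621576387538676478828692649346512511302309650203605580334539915614812443325526587040223447933694693591673504575441555430482726984044693951142894360328320795139590007685844235660295888399104939385534762603110422525298438083328293224677828431514383579062894920860920134615294060728875654675561484548259332268878274963396230239160294059201290505034175296890978615047701161006245436968409634099658291902850044487444872093027418453575786511131723787242652571859430036282795298616879595278260102068550947208862073087079413702073887399262880311269418968689788055371569281116157658451423313643301339808155160371008148726402519663169046488305601535833483327027250811894779774338530777897742495846564153807766606603867858060136085771084452188816174632642828094029939486334935653266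0578999373097112776639314547786204223371083186772499243253540068307314448612477280693194921004179437481805462725345049487953432951222830417558098239766694526892293021518418878635592979369739535599537815847508798162112010958335029476608127209160430820886657530608834009003832204505062305307669858680428311120765300335300319381254727782316072362729185248483899580013163606461764621604893641256932105421160157934548504316230175562245212430576078210795725847625271233936829110249164327169082726314783484645834243083778370845344647620558281363790525327996082368558886869317179338303026528292557833204563103081375074609507318573382192006886561859185402276568238962755949992789345125538888155653027170147561801004203308184195972492962178325010863050927763419524823178734091975860965408135986007421640255671387005868383707108177049998417061689876561908471469548097329472176634516237668128868014049128285005274684272246137325231638525225735326926641321317748055216449078193821776558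154632831163907457925998571217714445406470495282428799551700066416725920423057966618841033932591663189878685221278265926805441013821246788249238383150098182687088684323401731746359146866124189711022291431710750647210847508089501170402040250832706606250983198517841281342242736670403165581515524423216466818705711400356381949931734046946966874398646684483683734474481254741126663249508131113792319582083539030865640624290051800485658283556898031503222341398105763177937702573876557478163821997075235058657376448788012874148894806879963637374474484135277218844134874403214654977830103124290882299570376756510748217891287323673480168660592105782497341965626521280341200227676100129168041364907013897798275082978906145548974643886249000957848957780916081143538942181294090637880604640074465904124602414886988778328044549380389946691490577506570302319201429156520505862632457244791662653741009943029608924074513588885268464164474967072683983332152140314879819647908663134518754701853864690010387620706824314250554514788269574744963961900359654044604083090751488)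

noncomputable def rc5 : Nat := (nat_lit 2723855841051626389178595701556355428247445237010050630154955523720643359984473677789194208178955288127963283986654823425794440205629805981407760795580369315878057526526267294404287827370701019712958824168899539123227069295944447859526969755670958215862044300389511561533540321165332388029024270115912079247964796652227513410393871166203598739842756956835013329725367471954612449377745982877281081856640754707225586013326538482162625311111632467007547860124134315812607723141947278606740588503829148798322554845510480600448214758535977268886344619648092254108875798280934099954861459518238560073477435275717446563638925597101542578049991440618735536873554724898934130719444976123282504108010202257834794940292592934636278210573370443874626830712020038015636937012994852163757516575332164645238688026140187576798416578555501839877615539552522738506672469956738738337361920245948601624174096290613183868231509113707707960529259790587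3124240341431229753512149291051617729147309454826828874666682225580954363827275190274449794789338582190353001917562002813421734886875844895251174075922091140687660940407681293107140729326146919871941561778397414023276554810815917594201355883411758086127011762256184537671187778881352692682651555467699039397815042118937984390150212852743408168489216139836488858136590409896905387932743644158516400622640142821036067237830845994417473112656653455023413317442329777968873831399846982138118258502905566731263734705248823014591037681850098870241492685243554454377874402960543128626465115984102147354353513808962835104265955379921263253446061711963007570030232108022699019212559505654503992657795082465171287524447670469529832436826131621003979015689674498032138980655886812849655937048466962033569888691166376700414566274625695794702477911552614193118289608533060692140311963389580693708157899566790839617516320778223642165216511354917551667984604671969650245889901219935919458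0485319963583243856691405963993146323022468216019607804341272826029609389031102458011541668451711335339615222338880453998782162295075618753496076854865099813195518179958965517702987755282292135080520076286685332106730067498967949457816312213609633994811534502780580512060656203632380244214975264979790198968160761004539839695602874001662619167089744648732386506773045523612277997069405345917622747260306856589091304470551960298120603954915137947273985681313558628441147854681863332255348568526888555290244661672015364267323946986731722005374371693704309609132189021939292943100025211549325034411065614545499317515067643178604959950054553835785821776054131600204082699983415086274875543266519522560276206648695089402283318053306885698161252031181405480787369320351571552029390453438314799666311364185321554897485792863256862703187631447165286770704286688016685977207530122791535970386713214409305367862664116256038313989512661226123950663354581088488059386184405553171422083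2684016498472790887331731792254678301540359434663355906859285448431145748947269365599506102233683885987549938370084421423953618191155917777896772543306438663470210408941593371521561798468389927666612358716122457578132824176782861496772603603429637900063977284177784399581938752511213721665596126702729104523154268179753439908504256767165066215508470679527266325323258679108779121647484738642566257548377121133596780022652967204378132393328094355081827972512423076492212515170994185248398402050501208853533968866361531549326423821102952740190059482420602965131144248331663642288941028643755999285049576244209633423725832644784285886113172604236658761203126882751752534780860991274771329222274399406766805548715252968217866678908391440341102985974226165218733195271185307883835658328256616827371167878574110137714143396180070047337130800770895271936365301571269226354849336555959302002216082169341137245437607229743538951979985551714624623872998798788016283628065035898128531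9431417090084060523953673025511018502456223281786320079781355293932087985826523322905316223426082290877984900862591984673620372407131476458310291607695691951492340519957362152084108978978737528866141526468794054948802035603861224742022361656297319699489150648266603648608565966435788491122018790530702238167879787569352631432195462816509780928109147092110022116269566824818746523067326741175862165677824196371432184386549136248069596729424349908992764728936875835677412956361072080347796310987870147939441806778684155561501289108785044513234974650050165687104408840059540791236032962620250495931051705655214408028293632540831595121623964440118834544744341870681024884421228680809756835488117801472588370273420159345360485651108314847795780057869617696886144464182150425858640105233661408524051899842679016560986184813805832694798595123606410239619838166174030747755474972754640092228327639786820938901854560136903476320048188121860097850359909350090773057337643474977467512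1208331323480243723137176255670546807980881607259426253551566727089405611040648331922990020206054883791089559098086460656957047221256316582912444253457297590298550713079743813525292120696365241985703344209300896692219959015097851145684577134426962006503458685194635856270318591180760153901561283893109624967929325196989389275720053424203302773205174258568129650102830900854053607521960319765426146740245787023509510448842979674194091446918674168604123019883713493617541414174600152910688740741682714100827710384109671560442456573836543510301244667162143831574384513297108346269943350227383106306593395426592579286684672524379149818210672736376884870049829274566475504237979713911041541395448136580743053882427135442532003901233749397155146976423478459299738544176929177020679885323907998902861429174009680267930440804491657334053933939891490284022233792549889473637752766882483861744651335251866531117477560975382559399036754565892403057939585650247264930759908382894766392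7937784483694664346380508851216219256068938796916533808300290881667215775432194649425190425621481070485205492705020413673860864768329063365984733569388823617918673941369053018051299767433453064992152468789357273724564841187183119855364369632510998992686764253635545720068579849156384647960379341506662736478174346819202435163366315289715612072608818784988046906652639424371014221251768850005962562594522334294016523636525245129401372352597162810726053257817930694073236744690401149224417699206423289268050763655678247707321602726807718268782996899876581576486933502227586948562961593806639912273103817506721482770640125150246351981893236803079835059463430537275085707440562409530779494453621284777747405100171580279239000066046407530464241857594380786453611972511811322398901801353238700740631695313875463039636477711835084185929964346563695431616612832921048452883604941765189053366871507027461810469262293400947854894724920157589391335962526424757298535581272724385660148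0627898505819480692305922385498850042972088095087937141836052355456275939464377597261405462187405062925111722306005958106026196437775682342182991359334754300361760288133863319463508742069002394393174856180233628197489314013346667001058208026731446789013273658289248487315598715097231885179164785783721860162262563265184581868155652548939009522565578846982478106719982191065186209023668929092293579678116421562286815176589608531522617161914423905059134637169916121004184482749192824640965673882707481625508655953654141530617905558534368288278836181415768022259853844871353807983957308440035339587608963259470521064555612075828312866407407222976207444855857242455320230163127645929484794025699031901452604937718580597494344722676954782621416760983198817942891031681531025571658216335896867887519480527003085123487977014279877699091438846537650583913655869305750971955193793530713073480372667249189704892102627063665969032623767494344569882374652954948037012890793039501735490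2221698441027486927269190616754189505243206820705922990125229595571352595030838087681986135248657587243519146642293750101938125177519570043753002687858626274095204614591099171327961685367638369867138195014517395384663912895229094802241909462533208531043152970149524110943140329104495876758397115911934984161105914261050008207284603110639520005806077633164779501818422208491881789067937027428341926737442292701378723854398015255351965796378292519336807589499868684664839100964175004058346500857951553987605307642006188253967648495723495740865332658373245850123798615577160952968746761234250748480064565989948744321172467522643334975985271766486074018552170307523949997592459510178863390179251911531057101339003254993495689224936042121667898870668017458063839370941659435719709764391050708446527113931089564172700792779549243086654676645402322333493752561804490826011333278813386049886412282787555766483534328520006980475327473508077109780417690440572868531929675641903052418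4946809900648065854083924424827083402855970609688913764648652454236561002717374610419270062600616037064855299348170735278559937234407631739068971305979667440605872114566755915790688888412180481878697194030606241904591350915879526100208644256390084878724674058915274030195686318117837039320501275839412305758622776177729346087323700847656500448214558185565084724789197275728930736934757648821411695955818008600565581353840618886759743846074411930171076558509368303539277198481915793398744670967280940010798426753430468326886103308151679969230467091414305492257181673858599203092668677692523259872984672631919267600473913072138213042478831721681146526252556745434746321535875598809129565568968750845832172170540448035726622018789979951643911652437121674576389736976636359211162334569446639763470223443165933257161666329982905187360521985177702079888139838055442759191013086702341778010173649870696136829283448640715371160720527310264413573461298231147097304924925853265698242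5445225868373005468721011809609396336942658211704223070935871769038009045879739386173930914300630362937114784759743957022671403593086066957203086637125498282248683158804565946707962987542186957047661377751187360722591332967962990761896842209041191634816908834085877037947716281048062192895360234931707754872895645459902213761626908744679143696960671546002384470396336580432185351010460822891583516291150174445416045635831284641283380895570793969943874124376396312417702239351448219088809448646848166197363289802339151185416961527614427303818238242246058450166618654345436024246119281953105659563114428332636984680175386492528930691530054615396347031371458006015851923202404345854096825066305296772784940457439333029567439141005486171773561764037223240992726637230843166645742173388854409921695080649262930100201981770500694621464080663757266630223139280092869351279950325541909219659507586767153011037053188342279375088646050767973657132950518317394558380422452811209738966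7480990310794728176122537303944415315812850258989042241727888367033068744457562670337314226011017261935991862335029688500839080810631165918653951011967292040977951303918124237460602182431806954517424417013240735976158299123754549272813385486983446841110434595767024810522410751091124129871867461501209531085982369513589076569535648889239319481882930879615192801809341741738907533020185659421969144554788057985801452236361529620186128217608702159207543170931177901456771652580613023873553428811783313899706791788758530148517121997020816705716729804851103099159665596772425655690383227777665216535558490841290939284795315841148470644688622654273205411609854579569402981145156386839274300396473021016887019386565953163942828658431393150580665587655311816802992070100526326280623066415743164405551167190079906672323806718694635940620708664624591478782299634134642727596030200078696089651334453078707847526104242184709884277856458831179473766813684163198418523064105783658950105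2810191494299130378234556856197693906704493432680919523108293674411720223145651096205188331050597642827518099617097368711265804282534945126192303645315455256488708195448805424879245862439979192444160483472273679060370980910445939192971613932140338497717546509713042528543759546284238242538613948291182808604013946093031166880642779352009776599822519502118521466582122605233271024266121296825539162663115314182406914212285262914563599137471705485300220554201100024229658446295986325523423067340234793375464036384736910198808061758752353409220257004571595121732687696912217096687577282534086250402698918960418568467393777485832391293632937776420204417544290152611723936233929703178653841938633715117583581868562138236925509877022308175385858681609857094977907406103737930623328520966878805488095538961683800960784196438867902958912425528839243546134880131483164903141843490355718189193510592455688441400708917033520656133225561898532354574923663360149765456091609631453073042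2118770253254583190407607725682173777706426417128501218639373667627179540720147879326277962679909575957196345347446314769417814404541314693667170893526537918600681810371051759519155254419878297898470962436076675544126625421055616793628370020483282202382945538488122152175033307556475151823984439894429966766961656255038483248289374457967701287787917292212414204267505917636456599524463005595032399524168315037433641512603202549575785056311023090432759492778982019755918917213512541295759349969374447879520428808984573774185170061303704864513206795467159517837176384257191128677965263555063250239876148825532013579380578064126199634889939738025296657880192539270232094103206835093969720246215834230400131264426435312738127017516693424466360874781127652549286021841536284670634934966137166952552014836529594906328154909293673948841298875562720770147211278527026259534483981928820360540584147519965617872091276010659489202401948077354892486972406541817547185980797256212070658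9168079426130097152791932738676189852568026145112826013442294405161878878099637823203013295435345282964689052467828073234403044614052893313226041754175292167698999166196398838217503650868500070045646914494513627524796504358790176860985210855720357320970495299210379914493760208773140893223668268855728294506322953272873964013361656648308688593602080763602594656411759676282218292175897009852079045373797627120805045998332510775474878283270473544610648448985803770596761918371319616724879219066523121153076107303062039862189812704242602684023678722379011637758221972298711265556510971090571921858574085503984378392830960320919996502646340921797597313692892312475574529854688674049721628632602520889898367276897150352819742578633173714899222799037140047649766605159410007338650126626654451464573888557424456395663141242377608831624876581862496418405994038659339826503719891397928960803951785953489421100800727528698361315152520959513998498766992897973676166488299911067356384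0906232555872943622729168450658850598937268555113287129611001916673950409705523840842039099133516523407304283861900365529285630973728823703066011588998532217128729032263441238255856742261787918876423356178650813687700630834950982695545224570502572986404646949150210186558603699892199425796055286275039215236330046741851553138819606428075733170055422317029949708253975162702062050892819389314320852040863587787015704393855679506481094390429244381309587394537950617956704021766086612477402748811047890530908904409842775708477436964577669196862003727696071954580490730952015096951969083008856521278189218110762032158496687667149474144686454154423276771106927991641930805337298627750966370250432930321886265703190310418448568117661879676606273464953286945278380531765473214561330615584211953781880433903972436914433299652074655231119095281460641322667024920876616600486054917122030634255675717253707515359926675017247750480460975461337069662086518800867746231848450334349895589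1180144308827501280403453573584413669387559825164911940430086005637573381294879708286495879151517653320164774366084128403583172741187442827946934436907047081077972189280631572946045395777604363025893309191284611881492415893463006864477081987791065894310414592430313549640967243144197909675206083396821769817514017876738457366878716747223151183821766914958778862904514641770919664922658598555686518142857680043329287700887887064526808163090747527995224619992173673849673803378863070051096470125917053520219073396323985685442846878263296517991492299983136240889073555794887662282432375174733527843655224980423564415262554256255719981099808280163479137425918805796342068355973666820718601353838139997441243584668400686332066759846190253968099261118610761844799254938126140147287463777602207789558046926781926133688730063441702781778477538825631811004827099955949642717617573936976748944750577902456311721250009643041207858060982433670723612754033104150384941004037322450611191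4853009677282951730871835996034054410921369292693974834677421938201318800172389549163086635061024674883002913051122855517093842418210842502018826187236471479288092386806325143383566909185664155997523708687751589839126440970361604606955809161147553134748015054255621437475178907005648530423598930817987648556976937134904975948687645877648157990677309222340773301662633067644946009928856737941258253626040232286910384612753355567173516224858351401595816446066494161327039638297161624946747621356565165238484276072802955471191127354339958081240938185980381179840892672681190593628486455887192808196265960882310320245805839168577281155839767734742217974556917602351378013894735876833712485947689337405537497940613794969417872920698188419568999012931477873525617320030189816322161296607264144123366906672369293892362963537647220247494311002020157305667835330780068757038003215662142153706030065707098342794529950034312350332795939928115698763810146416931101923864644013783735836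287762967460444091489117331419894604977106139412977323883022849478804829457769787165745407719081164657214872664837139406497952331181153571862944934286024725032206739760497780458541626629361423397264617928545210258439343273150819441904894825426440692173463785737528919929677732441400504824203066505845874051312609879984301044331848028256921576741315051172246514820584082806656642128989062592052085741361909758074441953305178131913408835184778929687306178536234727579677484635905124655370492010968962783062667855706334965913404604941163892254382290779682128969367450276553280837604622400103622785484071866541444204586261525476887241047789139582672913979356511322746849291503060333463767946001057433503230788036049264084665422674544746275846757673683448437593819713860832826121138783903427711905792983637887509268882600400802265280879032295764186410949233403339587582866120790252466158069850065312455299489528185008151720757454016781319018694207210859293848205974024052260657418830897134320070073969864240088668103876904429500301289531564548270206773970862080)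

noncomputable def rc6 : Nat := (nat_lit 2730065716119175366102086919081400652280410200157107638952230933648034987593810582800290828902722458535287996820815780895489105304890611231033167135217300652565058884912877031129836477298282549810468622842912786754806808583273664877055604952134475019672332554401435387894954480488996491832013086806337053876511903179726942442888753381932829485597389287774454494121830969694112802662152033166859836640520807732107477112339415969696087714439575744407813463032870181461512890103441580578685374650682682101336107614090204006869367510070011167864014817068517881601030659248063480713559809133087000040348566207933811566599854607347512880072495695551512272549489201845504096659123498853060992950966321509092168189076858314291342746373287591988939998662192389991473608026858117365298351832682789980755127513561221855796673559852562004760680491230523740721514748688466425387741496148432592918399320122186622007917305903930244914207886110282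8443832002426785095737897385235057372564632792772979726274150431406448233252684420971407009962865981131287155514240593158294398386476235927333881640853129746534472814863237444776211839009417731495610064500366085138939528683585294489608008891255946879350122673670866566871685866660994618295537569602840599533026541082348058648689689347556144672151468193340396151368562877953605368715296901846815840060650163791440331323873104207816105296891118368335657958984266505254045497866233674898021623031469798704666410510892944125573074487752800629591061627500454340185983057936302758547616299700132385996218319492743050536863182723305741051260125714794127678232949781365995806308740251975774853740716914558510449512716592508010406014319212934663558127123337590178646025457389829371984227097211605093825933047223017779500245714562481577734018438702040750232041834016224585057048705004919213001788636482013107922621639403079154252026206773041994237310611071961295981318636877207017560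0791357317561179830540227216189220208467152618582473058908464246418203647791329529398757733292037149663153843636838676505077012330887342822326290519114738695631123868875272922720817401689509484279073186681409467403684898819177042737266208765676770221723449775926600696332803811548994527874775692975557029323633493553945408317508534366897149436317218315839538510433026134701772235445184499872680182124295303350224345465188756572101810699275325885083985735367053212764155352248745416906893560373806376742980153062848738147186422140501997930005795728563140052608685045931066256157126744897893116348655967127848264747522559263246990423928776536086844333525233083029942043905913966986368392908140210643014326045246989125244378799229421590163646112710199542436306877847021427977426616311135523485537018804521052820396597327462992705273083551769751463641057238828554218825874838463303440440119767274091192237554543168948514848857740704264138169873221676566919591292928949487615900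8985239576438452515303360762935395305677803767046325437711397949277336660427999410113384337288841580187106783946136767845371824380937000442823189517292875816596727357707275574120385490399425615007063640223829440317588172358685058397842970358254425896424409307356468908695871965517275342614457964891096082218684898844485174870244115873522868271444586326253084959778317117006772217940313302319176369866554775673431612573031557459840031147044482593315721863177626873893076382970574806537317516950109459629114484322340631006432016448040589818301300118386359791510991194929710892866334173362002883969308763243977755827334736710978252869446916735026535407046902430632078717652091429775287146983914033206252999854906820626951013066531690674160138768095751884055257015455017484338915970714998394852891533046358144503342348327568021001821615251964935925536955001861721483784417145430326751812595361483486450740979206198177606538463759066430331567083490454726347929544792936085958472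8226347784510216675504840952686455683970329298617322956952047696307509329684563612278665299185995447853716234791292314911157526388622147889517512453366155386642879865758453963413974086898224475813244949154231178784177335185027074149327989463645275544751357833185703862175865538686461706380138505146613668194034733101080858432803138302575571551155339452187814016743954941879037857089924989595304882422508841322375648973004263513233463300023718184295234697090948224297258117240747822988745428802786062751082291079019378677337791838733490037455056777832058058986160877176269242118551501481917788889530263018393355726213082677453822813382641168541530563219997125966839607194657625186019187420269605415745906519202859905443246992859977874859675395556105076354433413700035144381534129701206836881431891004955188809786612209749457577651039933967605307174090003196949609250664874394659684753642338410376095467245487529493675191599977941218740122813744781289653644138951872937001949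1159148423216127814992799667670720596243628565695625616483835059042622639242347600620996352480395833506853839146109923594781398369058052137444582107511852721092524930449232915570968287906136443118856402749101135669858952304404315730976910101250624596137036394250738098996868751457373864839557069276007640514279274139525412907439503611537337081661956604704556091717058291629297456995084226013975399706505626032358029711012479825940133761611995408317142262208060629915366650841989420562550213821940525444512263393732683030132710641494044982559021716952774503873059961250778005134594369428219707999323301960378168654039828008426362291085752804634711849052031897596002116171142573115201215974265842881243945833898646875915547621009583431307139232703552748157748901490816003718611640360522237772839182976533584262590603523737308553742019933804436384517144707248361589711464464024452782951396184369256626479810265685847659031323829380960515701907654213017931952087211373447919651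7095924907782979679958604571801944191020210299827211141269770453111766831929147157040159977063762500481078384037930941712870495014066472944095006025477335326835161650231327910818966243902551426956487063401336931308303816536745092122763133695618191790902177116482686174676180561209704938591538028577726510616020661687860862780413419217081537805673600199017830996452535625964225518533093677278029184264387158692456867470883745923128873161807943168983170570534865737255390723534856652722866082496682571798157901580446902336741552129647953139844034115096004484690165903403640357329700099259985187792267289615198289282499704690658892331282309822966423358324044985253641457352696297917077626681809755794902647538631596861721294672061210869035354382276048567573693873422696159439249365261890895109973074718019309945838992344601331976959382394597619339691363117540468477087553565415053554085475440949394300552362858943248639310345919372197575878640904336367045941595271524486548431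3381918948193890583623325794792844025211755680557663498299497268245589070647041079512709300344328652464697373449359252544130246870263721657209836941292525975916472617327721620205274724948595266237555530261077338420356867390125180923818270084419077305119004552747546883173839200635977718201492932761372962078234428327498714440532328800490175982155518999860227440190357102911133224572628040845861377428351886191546979527724789568066789952799441268539445888891436623946309590020192489833612754658857984461666797623974003059989394187054023467515439606806136022642344821273992851748436888274894843489011847643443149422167204345288408578060631558134869441322611854909075567789310840149602923750538556024254030338182880875184615847736702849694021716584421831732723784867234176513955275923414472219588572514978860255809340324777566588010960753912712319372822398446635077488891432573759120377127090979573665398528189079803560185917379965467355459315613901739546925607640945901314010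4096263829975379531846618744371344987738193197781187956385242995501597534612334221130149851980166100895469284671874678185709042327973495060416859662723464737240427763025318422809274345202401370273053056288689371921276373057553300269126474559466922384464641708020718732918091373658316142560755113573609417928134041362701821473203381939411031864233857904774218021800483287517749818796186060419504087236480226149376070448606571317527983455846671970702810821543590883116634965459479206061555664700959282918989067539104927690658905799098924487241927684374875616211734540799033805975665064404826981930266752651911139934568205719055414255058980090338700180051689996943516772692755186626637595621739929178209861077010137935018080473483069161109194219113501354399037687931725355843238662454148859707542931511320165554581692269067000474720351788885830628931045577987859911225582881809903034333037053652511915223064088971182120413969385729083412460968986761847166890469158219281403155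5827246222450045138449111778746420351491145884274737403787767572208034984295443875803688138615757834793292464375618343138565620091483094458375830669362303651248452760129673046146791818145656533524096355794592752041986402831831701017455392725075092491147252475468082688448679970272142212896916273877902156636076280284935989056541129253726518703888088300855431378157802960177967861285518342449401908128941904598866725470553253082516310293324140083808708542034715205517560683835604964301966349922458397874854105931774600139151291170116535108246572231441165543592916587706884570788833572909989655736485932461160967310907541335775723496032579435473452216464333511617099889257956885147816924530015727223280764229508691303465883855883781656424171484447710548285505545924892653240197595692875074174295745508984807100452810309105731494688511627999899592611918501839798483262044532924290777621782128547530840055389370256493459352030255497220407864706023383036986317424055765061707651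9067395171987489066720012852561677537557540507010241626010364242671636264582474227101666817310756513972882442939955420390843106330391333679480250869037748181345434323012031134646644984397387578570017731638047057995971335411371288495755999344569040358969853459027891436895825755349194536535209805977755908697262212932432556372454888083492216093427723982068972511005416263615144573973630648797156576033033645217331127288737574958516350298948929876071839567092001549419915402014326004810841774094370273120659921486884710053163725679572698036178419089929753425578446241392857457361740872752225231079168705488938480488086936462620626312107494438978523116904808587391128862480809349601401182978085026345816357402501327618535896684281331385102242214794503040207333477745887037103257210067071227413358669864330171298836308667832613044145527931265669026057407694583558424966458686925794981375357185516257730084017845321153244841754381531995894414129476404827890307539076582565248596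1183604371723797655388062332612320398567790851171123947234455722668175567883006839466010234380809893117186656268915067613788882402733837019617587890192998586684038334039205979862645262017180422843771783043349522376495983853236311618349325187583632501573460798034483608455036318526730029065373305780925261830135591356535318013393063011848632000208730228044475143695322018657290617613471971009015234529885562728415686766785679543614866898882401640856220639883175353637550112641526306868497786291019211582338704565870224602437666000520529529940745621029947644574861027177376624967559087483160265364240753578032571683711744449921991848373418200990892558138022908743971787872634545010242538092908973141660522751608778577469230685622213775245695432242220331899773376178009317910943611893747903367910521166321847090153968873086639346766944297983463518594211180849380473077051212486734429445113968356631681981398612367810426550457513978510216967227881267156362656580625239478193994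9253930535782946819483673732332042364635258754636406764143162102092682454151269132997342745749630526359694099667369151888641790765020888786695279066978922445389936671171023774964436305605224919758162077484418071847302486005115629788641962585571074624035876028382336872419394211644328190701502113598410155841719713190938818967534723111808663105255567956849230548406931263344316811993378586917876163677158520624433956930648966289812586752540975412417144711865134201246781777630331705881238681521306451641918202612760271089703837251805107841447148357203710939875533051501236822133392905622303897729563459341129543037691979581233477983240613033271626276664276209082634175659857158941857118223302391205803959756620289799605790483776128766915808241131347469116426729447618401460624714288446690734819454675043332377475358275905223198916865302956797172583886807450988531527698766047927941512577208587914279560057636309587290303174548241330465612714510028594200432692777153581504518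1613465268454231001768534842691598452234607444853557627386404401404948627400802668681246267633635533313842696241103239722690118512507459346564747111799005833641908032122803568293974089317530141617413544007706207260082960391575313051129877521922479813108772762710366184938558584420776545194554404619394055424800383122478506728049445598277670717781912857435275701053736031698242789697824968967290695209730791772972020073312231095394157410299132000902758127829568083666818268773848892476766043453874356206710228678581128856248024145810351295921120254733205477249454310943784096165121375999625533443720273072566465380618531984237708768678308529827848130265141202820194590304945203986032072849859825590112259692362312080529211044688684089485148203356063212158367683393911035709075107433117214232745607984542802695145524731562347801189138598160738426073158725694332919020621731887339926344705746977782426543214991633334805208154430994776428949675682390821526652772380729509182368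2041664438212644782140541994511627411070856244576641723200890634335050999595217237672070029725223682434956861755474455630364332417068104259636131471332590453700740409536079999290036169485876775978054774662374220935415017077247906045033627812930171158603807874138816567682054678089693525798433820800990660249779407104695615426951266750774608433597571388250288519437193840831655886045100160945488632013011222564083351167471238126255840051863255027294276268609406960847782275108279831406234717462188343671940804586344811521421096700307525827285991140642437069592526723066795722050254609667373154664330675338734552011774572219251353620060922911310371428062506285316596392252220788753056751363995544401462408396862989447269583414267263872784471308644731054537120438497819104469075628566712748771465097434053860663450787297027671368274284013179449005477305697263311955638159557868955574814240766576007350965430666951755717065840539956518102404509612880223355576069007857262978770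9071104685150477190930816052733762763347372599114282294685684314434983750458434975945745122198246042203420335056896345112863103829079891005363814105822901214017455888368628276277030254966301975700553853237762951218478254512956635234742952529388519071629342166883820004210346204800379803520503422051140958156316144350961325037849323577260254034769489703766889491270641600975109642109289774051769608695584943003431179459812290667050155005836656146601684698813242869357065146948125410608472628341252206854351545926698005538237381145101196251522244739734538659458529048534697306239907518936089745223710475979549532181267895372843073128850827819957671503188019856279401310345968255406833163403071589891787329734359698790663398062105156445238888150997262316612240189323084172837064869804308778230520132498571096283002416301178360316392339416894650528202826278516078661629920556172675444211455536494918475071405244592850288849245124036811706403977102465139689717910879715710736442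7096739429763494079592016157726655111133272787047040990132805801075229438060043950843068858142566459177386558331422210772998417428492462604029899681947380325553403795654170854115499873518587512579811404567815015055010766265945343374425396638471475940716892809033938739609052484107431084070684077727526375261458238419582065404451664927236513253036877973880378884241482502328778053960974874752968935691428940146173079253343924067417092189005103331077974668489376086746821003012655300745153042212876694665295511902303657439383687123765676332219980130459280313577407361111668118111396213234281295957029689735661421051774483035063380034546361892983229398821384300346222358970647522512158254837552764717124042567185681192217559468076453518175240849130477664729796660779958806655576021948052984994270400964106757529312919947288565136282132459014362026797049559135648871283125035647448946438983267119519806101303916118503686672104502479283853278560817718901369953429700324436680451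5408202527827299196381547808569691406912936207376634008453429900234620164737769129847995284124964432232379546313795190232743621754927465976917853747332682775437968810860518695671292141979041973732816549834928555754926038448864957198980797909683741369858808391667594002775402559450727788032536785254969253576620791245322961667111455581961523803200461216138006043527537359593200059730333539700572434768007497595649626668508143838324839737767107736616281307359590463692021834306693891018825910356611452460785594734356252553069016066560814586103279172028490032412376817988126503174265385064558627394840658201529131315188075921178474385472087672612551928555988419863726971285435921658656248497517192785761254068217057177081504598730529860664353481151799159929690425057078689934160061589371295767508396207452248044346189934860768446965087371086687692925427079124765328142157535690382628693523278261246383972528050094654458688483308890078247567524296105471922703440323641279008923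604963610841196180050478257045678855422086925817152840670493268427217427218675768758391911929357021158942026449025599174953172231023568192741965727127392464924513978331537814418662637839586534040771783112692367189389783585420928531182275556086546713954213226543397710486308931384813003430567674124360789783501581891790256587201472024738124900913314489812077348761498819035651090349444158301459385182052663601561268124435978230332064555569233114237085366007909400843364224357703242632312598116660662483379959583740565562505070450082940491503712782642438344366982139045992134483741696975805462406556312201708318640537352130772629083573740569647007343341659196745642075011818253455017915379808913190254048957523181725921358159294698571294909474782083980597756938304322267266287250201558818432821194328089391318825659247390761967822702224732565485537739351687352610059785141538627597901821095273335912305992703192482170173958925192142989473632628385600257873052744424553309040876567193291984632226203771875345897638647163352368864533565525594595785154741927936)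

noncomputable def rc7 : Nat := (nat_lit 2736134576157822933887033278336233177608919104268196793829316303314067295547395608174684104145207779936744904600077361175026020494097755224133591817004038293479937246439908870628207886953808069720803182247157775237811408723755532686749821881845726485126922338748274277519294970969222875074527929846461211410629869931502541685475734396715052196401070653102846232179977269732909060206471934915694393373835265132535470160384597498316067560725748756840398143120182837575513277930417516388886835354027944701660741749104777464733967947435976611136140398697620526115290826033274446185376072298863406510562930468633307759336379784751998165496188107818417113224378559900411721869457347919268973735026982248651241391136655670353839205538792547471559711970978937032255415822113810839379158146027096342110597389299492802015406116479022257683821121503479400746183216718240621136490944834002285397302418593989862788284945483718561413381109838058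8554615374733360672526658834935741430262466173399886954152016578693995267172243978068940845177845891978779739498889544783618103516986565626534607009507329299265734707782088589846368957142551822009917026603674401644123908088043900549442987716989804793807106415961601717876069481468734029090583229481868919612260208376136586179198727415958046259494254639367445937471956467387486427124357769778210020775740464675655891619864787256264378318879266231826014912041979715470669600505727696375797029354546522806994577915145862425669065688667919660921884351097859058926010797285173509977616763492922445248047030496533147868059020507802137256307740513456340060366219665376930110074744260054444651266693754696327768925834563077105854058135173180327511635174140911092231777060717092889860895543353735347170826468586239777750087335053646978783895189712685215680707510435525389347430313900838771009013119024012105760126571540618682621067338346458340837474761422138670911957110169019264449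0944838233592149088375228319017697243023035505255629348012310233429502238078615885902550284533494700110353118763814724806685445250562267106707809717318164507460805991441900513956730946538610609458901993604452307832590070557680831300927776202129344571909926192040504748860292710661622873204292426921278336735817523555882904537976099976538901810107169615893754324308952004438224316917047452731144559195598062351100407699006458801984088346474962102771504652936244386041252585325123784578756437450835159014082645807282081495423314042024254512157241836709138074771048908227766217188920839080887584315237065444290517661843622625679034470096496296664718010896937521079877592316152770314704516690927820221805199125882326596895721395244559301616320509612732284122386865578832487415237817240931947616921332981385896589023209382793194416284852300587027302320783075117940452698378573006669436554151312826031757332989353281559262901216333762697297291633103757443316419275728118986791968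0502860000548902881493754160108373638247395807462374585460934291797313731005243961153128192789303297962173857691551746172098648635722116775494957413153261950999049632392702919146232029143818853222699701786501472321091057540090491857227942643369621119815069791434473056140757724774437802501158681394765374634062849126020637092120011020996228266826374997449407988452437708178551291959184515911636190190525638142159152493360504061450838816828597970804346391748846172247600381111569346302160707640654652637758293793629579035450273944598663512586456103826143032729966937116725645449229898068574788084899494253828647608229483804052549100860849807874167596489638891498699736388177068436758385974182031711903457044888336479930992122962297948403279043359345214985804071189653997733226253661092794754648975310556314229794929118184566625457599095161951813408260497296104238974902967509452554200980850254327439162567112914789141638043113320948653876109804258790312408504029018603702431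1976766475431699812216011370831704521848632085037734904095376374488017226155272627890836450803007413287091969565993775339108669983966666815244940131066160897915292269537889617557220466000524034528325877215950116010238544022566568522904078890718529092284276863090051880716958954925698829021181465370907448968940012255530637548578067695933136653461083514372090542394813837343757936238345034344371718324115948427571384945177027998377849815465975723997351093059106014472862784038305947810443519953009686797750383158039914013460103416463254972995147263101899617062081470846963439761318886854878624397526083035657070713445580542529949630158405704663996756023078008642474373127148693999862475353848179366585405447190952518183122514626099222121466591086196633217832197276206583060897864054428321096364500674581071967425685536327742549921460882721449780265658723866199090756089341815138719230325789288196620546502973628223532441558320211025039348268935080598136824435376389915020639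8905505427052302367267209732746106724755196145104906846389458972288554820534549468664475799746161944180373345747713861049367826943024817110147614272454440317986819855778097268280169173997184153344537239667711303339749653991282458781982665412061701693944820079118572362482054254985228465321382798582404850227505599228344826270843232811118113108606099336890692736427175092673628821847608288453088857520633136197903640736028709758842826250733904369342378307533142039275685001996408936462056689917920776264521802790709713751114787988930780222363636087300807429193995859183863945415360689976492224240430536790353241764733407557594860443482737847341019255937540027927755954329511332245378057385434276907745302173710978465589849932674685499502310194599799397878544210700494706023409326338957423808455102449037050846344648679005276248789309412248789572877626728083048339159377721687908258188480997815835396297227939978319514231491479914849671269251417325940175204720009231499787527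4407498576778975577620554820139692454637173916453384430729729388145396619515693321823668254039313027951604984108705295360124305350613907879068310444043842354674806520179488191788444097471668702133334213687381014385563646339691436567138730391851681053986274901898333664033414080326699138730941919967942460248165770723413535861347676854128279862681120444415293468651327622605025030566135800747038932806138534059060031816611915229070495278570843959244541210288801044677380180536427347125208460876459632668958118229035529663795831371374523032093902849654424054751991269510663336639080272173765592667555301315792728299623825248886558183887406412162602226045375695170167917522230135050943941518569891122940004660517112189475469992216128309700943002158674367480762178237913780126467185748339811570884635885241635594872106275915046738487715857857187182472151938284391815593469232249495645533780998224903436223087741665422667998789552245574364105011446665607174486366212398757947108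0399161291408789706321175741769377903650831294022545258826668276780193748456550698029286160586305084448034813741349349925739530978780828454114041923435973509586007383667250644270758780395708997943043251797595036429410253904684102347419965573891879101347437230439153981254162432648544616680338327275420032119071982631044950377594281511573757228296847421931167566142504537897975973604739344376510707534997571954153668349039201363783087094233587643800617161314860486618877930953078308328548121296725630336600116628467361557170838324672926770846839261200935769152845933014550458782265594548205161493324686601712724974479890331024878610039829523283789300359572165516142209884290788208231254542325053189375013337447221518177380462927269587571369914634503981912180662699349919601200635180416563977879575756204893145400915630744327851215481167617183505156731184653987640641844723812455903571019562219692634855809555086940086120081543204672579642207635628689719114912537752088345289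6559673404773452928960010905090215773081033345972877604738796532475476173671785508417911008359636686831290599755640035477594869244373177800054060790643788207199971643049671043612689485683335074145320211773564615971708236913432122318562904978638456573241807995934171220564304391719309140697374182878382888284964962293470887972157562327078987956383862286358546834575310227788871693679993386694260682623795723597235450730274355487150221452040098191565953883344775481426775126017769550070680900236432884707761512587028773447311960768004375959973727781330446416248465611607390367951098213709874072334235106837758039712542351436391008483437502855202290633737789286619120542313664010654655649284919487432058933606420713767045417661586144503497524794688847812340769967503108015999878273334573544041314198874255147265912026329645046568888159575508502217884232660880514190389518055277364051984804688161535951524046551502503881716990980176006910746659374817641992511901134441188136270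2107378360180511649771301006376215100989019446108356391271771056226162055502784469228437188241807839342217760039966341496402365726379429678347922203419214228148990025575518306250280286524957465519061096031280091996259854004905170379906881223179429163220716501834900498855962282960598673417658448520799553935749444878511801308100997185516441627324916824877177236599716433994791044830303817231972212818116571940675129144472451297524733677448234261644879035938480339847763233581953050210877905711027539693612118761539128187330409652738073525427869579639229622937905519977016209366646879216775967219149832269216368817273922603796717650295441331536333625520500846586341226592967950369529644426833609505527075383168806258123928113275098058287869926022373728593695099022132813871159048233128759281682673055435152833952732493108051191591782474041509701433588376161871111178107841260735347677946614049757357176156981209113921527342914525815074605130037645921251700247949287069171939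7297382812804259421635389659554215644435303326444225557967141342817829164579316870839922857226718472045096196484949879916141825363053317633808814893641086362967326451513815302794174840020256032468510857508370262002685639266585663159795887086981073145134426419802727268369798186844827948553235121810464348790295434033936333083528696704717937382143503816230702776280400112778823560704125735547351226057071423403464690216472166415807217608200811381168923813024975331938316734571559220972403331239889842015086163568085365060664897242912116894327559424696971028606679343614586653083597411591442064347194129886911629353368740226898445542106156823188610247343661914277068232643415423781651792350442371820222163340838158599400979507064178404432291453701284762130631359121142664581172631588733094477987076594336491424068815734121129370498974159279503830543149662703880942226464079100676820877525394859284235282401227669466322198174570700107700797221470680169721149106741024833384203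9064964774021475611486295600615921059731473884819280838101392641763729462676410097973593988949614414647450750062166218798329364457275109489731515030182218787653701975375265815443906764869571187555653869701936583092888638513528666032616885370299698761596627784945397550975462618516706889480415353534445100502233228742537773686339357835790990837580756802972657645952192840084615042382183823656055698894297389254274249545725528122095291463190761633897377126274022264982606969473285889170416456855946064209904156973602811798215189054028601171387689797577869076938638154560027165348224192365858621034680164242434815668443061348928652157741969400014741349771450440480362542281661931016886055028309878594275503443529260896317875260651551449305911698200220391753222330709608583732591137821966510593147556710510048641759824344069222613393728629347037516993285230913660277017273193410991221590434629503576907720704158908637257090370055857741596486917869164785853340235474630566278825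9492251781593052670263002039864334411403198751261491432949271230524011016631952530913933858901718179566711340703113999294109976249794444794663109190611632081856485108768437855349289269950098602192534936829646373988572961431623255007636426333249960955993492371016956472941064461952028773412704609217068084045324202347286108606886217827828445852493713182132772522246839633232765999376349860840879868607128571974551175202288548956793894369640487247636937576977669873644342147798910014478417896324411046085485975310215016138208912887005696383712033732072420805725548377174141189373428414949673962397967483999558966220862751411302123266946478006379995596145443812408897086148786003603975100869131329913987164962335045840741233237156569261403302206921508077812316763553207021648612835538715636892733024733017463907932806373954199595174794696003573872717578578569007028318018428632575765091220090871123079193274460478950400089033888154487624271428990054694458231085363379191972131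6581482741501535425986893062939517238384018445565537042998354600191013706785924034846372555430017246105992992431626390486687228023749170808386309500776647864343342677982295216871122732298126646161301462250651606376731435730478369482789090923115511309617040370572244073867614799257102913337224041392551204641815465892686897337860948706132180981874821521182198451738411821681640128885898939642911318231692452241775401475173253002789171714049639026887907581423866935192053228509085146095370286245853317456249695795465835971537878305918881413260778990431467527234992874748446001751489977548669430899536258143361556975299048992614623904237191615252590917234100004940596677047482614949959813477703035179148718241235872801542446929927822413344752254028954796006076178580134277871392575807209835066767402086983358110212959285989838969446687470346569039824813019955043715035814237362577797247138848167037755615351281472865060667474366598064142595502465403543975528343612026634092353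6168132438341247822808543897844091815722277380354357149440308902798960943306748291606180206254697528056449101601671737339140905226158854893840931781964528844181288833886197951548186542481668532647857301490722283589912453013817024791670074453160684976698919218553145114202706440002226203932052368213618822433211173257128216139259089967551992559261545516918205529649271174130042472825397327950976366224054756028190691206760688071544856171275352979898109009469219127514231151812381423844395518672228641098470359515213673716836851703965006156185212111962030739639628840065240482960724886472615457475493896540780707832607036934882047996149943108816974722385661266886326087844571581277527288173725160223761673230743936076535345598130558744035279817657542594196945583889435984184543564151587079504819891260876684578056756177037936798910183350181192857702196742198198182029638109732207786975957761520835835961625209776243919023709271522042115136872988750260780493303630907205727445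5724680190317422359567593726642883842026477495944554856501098275224254488832389383011356258004037572944989067440124978965545583104045647043205453307089597916218283499065636348908854677802665222329908918852062300474133748519005599091786758833314424174069743149432863799848604904677181235264245963808475471616218614557614395410030530058184166722071368081316767498536988602171870967307914922890600241795784225715876385591257192931131328463965177071217581729989490592863708373787313454573787274847948699994705114650243212114042057969334774688366591252610029360492955042573641774044617582136252510001012599311233779448992558502755881730303402306747103313656393882594744197033166368711270718898742533666611579666757396682354054550161261760114312572152966585603364118364277676162094611630006612084703275246900080649348974026676515824615388036610285349500896361490442148775075495520879422029216837642979887227840874527448208495954729617689083620305116135486616311877653082806828437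1758765345343667186101486409747785209276486360542281462368327820615351251181517393546362678074805565373703725529676632322983683621808474276943594180722601598325411401326689423103309450027414081597378989309910982387927372552852639732202083631554438251488192328509411844955494350841583559849850825697802240494919573751638026412316396540480932019712229444714793444806955760682198617017411402602891541683795718258671845288030511424269730579712490308564770402166414577243436428364408260734984502913253244946093835540482337421319387254583076100323022509156066955621973422816903096281486899429867342456108617965410004964766404854983734237806167796858797911059517411211043630396400653974418632976718856471263094876140572666774244544604744240523258609200776535116414602610587667063592340602214904069912526019011177044772348441857737461961669602700453241566678082996487195316253262408790599873224579465919468141966635346604961656307646046630416952092912250985058755247788506007992482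9371672384355322517100429948233256579523370975279054135359694201071835907368845541125708383842582322176493555041928679917759224378348610152739451287440337813856733556557270037238687320196601499795573892176674694679261955947755947998544113838823445656531843884665505632119033183060089723401674494024427520130298568107771144669776011976179060739691599755465468654693057589902137478535127829871884829805588687606579699977592421259956212765202903247648999768762923844061211006950670109933891245224598655875221376998197189853247880146465114136316022190838834966138880930708925776198239360997552950153204655516188918925145600224569915759883249991870044290024896005001222864233102766496885736328284543425041988361692103857915977608566149191745653564729916756880211019368155044179271221406211641245484163977286023733363108796060339779147795086724822308886200481048415853972571622132107301533616894822369698937148940927479698549570791371128355431400763203557928731323092374031098241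136994698191997066433301816829162413574883098473415554963614179197147104841646825517638345517511613348277031613877866662981538699024651729681318522466985516244704426702565636276627491528477149508976938522603812960395449368243186696611990151117069005081417542182986995863670085752574588177418480777930417353303008537582912280597993365182784315893588157402640393030056817567908574341605773607824816342206288871412542776491216605243820228430739858852277239919038944816857932396169562161095186483257940665468212705608752122042619119263912543628941551041556571259276959992175569849709685385041692488683706087042935624760433954413016245843755045855575783908301448149532806101213098260963338840587657822626882264198438157405507535604813102540301905400295124966142527972404448980483086884895614781683443290479857378178538594301132046214303580369769610002716126606108859059723170049852298586481148170093776992423393832102892644232835066158498413840213689007746533115460355074890941626236593143867138650888890955495029868654304961319386346282374258727269883225047040)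

noncomputable def rc8 : Nat := (nat_lit 2742064266444712760379335789948713526435850604307633447272927080335180865101908949674708320301949244693236879692336950073397111070837363834931372621006609135595386557983505650403461379207585055759573101942717414558907804761305463527233386871732117828204516549618648641041847162736907831165742044064606605897573855328669570025582470434143633635095714285683819429893082861966209650077573658234651783746052141691244316677624218530697845629575898420389205694705330734123648726699166100818295136090346060388873676245599943015557127315767738548189854447601922957943363825175778712079007659364970645070313443634075518079069888472458131234936409805377378217786369579295221057996103262621426566957379585893521246744145285604815516587594092749011377423582458853430051207640387136798479804915580086378607567101948933918567004262190097871910585618253189737371391105180063310842527553318495250400300274845111779496821500158398705826397948954288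7611012729322183549767745088266339721735294682671144778061610522816787214530897595763432361159759312416705867295225668590855991726257083398688979414561576466802132158669158544001767227308640309615778205227595424999609408529745755368767192332829743780112217878752680278341250313305109097923939405450151076966101431225949138500070467287353613201354240122212523623915026109525628585199157654907999129312048909462923930462015906840743973316306204083786714678328713343144473536097218897609816050613511312308848245864913929666542729452478521848469483523858269047875597988097869874810836720165864915724034753398028279627982299284819898772034828768436703337590576750050198210681133271013241433304730729626241944407044997138168097406553062405537007497323770375750270383367841036884364157331641611526881304164551666711933030515219215832023676376945078521226056833715220605710029169433423336479236654876558642383026424930153197328111122135873210150736555588581545120616545798363498143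7202097094755915055095441250387137933628751929214168006813958867758851339019383331527707899775055924957109742376595370539789448631035833996293503934767486114097809592912009965746591485673523454086327159275629098063163816510284383261022408748958463533765371201512715566465618866260909371993429790670782179637890103307825834921817878039961013979439261140477648129523739781031137320864864637183987875917713633428971534250373361258330618801391673845712997016864318896331639921309708586993614407297369017302222606793170776657581177088127847895637690383404162699307471673268563833316966749847527725064392616758771491230763837514393560473531152494272975188798519499933269295566266145047076063678427681378876297248538537070961276598038977200393291043787857825373363072491577249983099678369022091607113881217512821938130093825933226717067371154744819666680897328601844741955729149858692476047113500172387513464168529641143339008235489629735040701316523758320795409435989026334572669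0184752598388771521954706116958076222817556911908340734443111710210464673649883159383709521799183983416784864323196193318466385895579297269554223830271349894547972876063863844002883530258962230172016690492932518603961806750969638804649331108061426081685079352636693417484951891895650082362284465852649157827642584813776788400991744589120592710400111316388216696342467394779916251890786883933149358172588516673450174286578250595732651608771111187027289710971225331977704017027919884366359072503880476051039821044194917250724890064238686140974855458497944453304785286204565533641690694221726694096374240563246083298271673141349261598535842940842131873044829173319353544208558961762953097985575670234064006501557302618244416405647046596766200430785566769681770987417803431753661395072519259301086889597262409400114664682444305064825172148873952029557231844279100699733467841480842637710611672293564724922670417099309704362243393143684160467540423764611852050308977615174726111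4981129874756596935373070062456662228429984561939837923402820882457283577206841685682164094277586406253640994509622784931762575944670811154202446384491277289784200649209968247630522314366334077132545098463222410125914737806362714976339360578303136113774371513582107223913902434036485941528099475888662439034994286568775223743243148091524364346347365028404021372451417762487584874622926369893341086248572819275756724370594511410800503530452367885665448611800580422336802061954514111958911274656043716175158697607786341243141961898054976031167362978967631026110737297518905317430862830613708988023901720127836994956118844824695692302331751900844919949473125718806979723347268152555954931306306591697108556685723356815200903414647568350403351981462169774840848764973001000816037047682849052526236917238419018527117216570072434517767238448392760899667174186285843111394790731339029932400271637149138960516041606809202784935090898571403744768730100436706373983362639866215266200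6232235148815173674074844602420756480305989117332260775774922969824698910852405880902637979110633620450253449274439908382806669590332601178498918078596445378678612152795751266623802395266466322150365547319029698520236897106166401766129580305451048074244765576157487596929483142369485649554768298409894364668994305652023930971774612777402529870010469745472887676313440742848172144160645973620673313817292147766380975290148611937677221578999437709032019653463914721552796667325100591503877569523805222120425296853986268988890854254469714040038166570202281860015846562433905413491026463547733287232637352471985574149168047858474571710541648103707856661160706136713610535338993878263915664286729636050888864818490715585793923212801307585990582383421086194865377734205072627656277807389638087724729520801441971318454295149440734025405515923190436420629317582201365098331840117663085866616499992303035879735263435850862547786612459451928017013857021774620124295652611577333885868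8819287338023584502824908550933115250232495251940906874350781859381805928554341130256871766238753293477644296506861055037899677043591171781190517029585712050798469581489755803634387325098075924866023470421761355556082338196712170878262457487797996196754443224126632608339355062371940463136759689815962313945518501130941184698605299172126600849231533621481435014030929200524565086652455524869393324758054134133260560432836002611450529619128232860536026772657023324375824607627515262533917141291579767675264372656870056914157465511638869601594988699812713759324430694134169089958279294722113476483001244456345660205722785199022399990795283749556560499935860212565148784616130706595265703997861312621680347169547961998612606179411117877631774448673075115747764284041526889614578242542138438236521840291657130444011795077909504111395519028688380060942410841489991528468423715270822632138985573065829486121495005722608557094678099760425749854633318300081087477818992005085597250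0881176319551569878422345598795608982918145800950989189146828704316299495337050854731853008945079557274517692955844419107111929936480459309867687711667935328097396976960472620875699781536681636593635760533276893855136223438069539534604933423464143173184542303738116474357406746553881444518186859166909947857827201989949802877946552956798044809350024239928758292266234208145605218449450767198766847716983804483773056200213728380832886249805289412867699663942213171387514404352470807763987137927963853764647191277463966617333344262312362936462437617361790724828779553867043620961390122123126013464929817878258559481061355239379325046916816462488501659165513592898771024507062392648770903277356173412522395578813671105591060853605144478253706517925528881877834095838850579435884389816391839210292139668243980161907826817673706248438553133830186017118439068098570437720502617549522728483142434338233772683112567726280197311279521891694392264404997886586936379778329471550409918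1630112743976597263780019746809882249696485223110373418946005419096805256573750330430304105157356737333526238522903098955694682957008672477354230432454315963445482856547183352851452221734992522979529935290878080391914709555458840672918223316182025803570938932150572563512035028451591423924938274944984835753989428819054416895585616288807005451658644697100768381637840522962961166627948903296284528368091794973732412248959057366374254841313480932571512716329985500348884896525734439202952356706375977797136921918249584264122388428024694262636337546520367369226111591794267886738046524451497515598834326004741657152361839224790299659813982072265081552723318040482024309439942607774987362698194562260177174330648720574456313598067934787122428301120389448715862304675012996429331032743801256437915614704540809747378306228543272586513209501024601362770097696208663335877234134936789890580288597669534376003076869580261755547619422544617035263645152885883201265343680843169167650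9907110710973517445897525068788537086712042484147094405528652778197607253805034235397660851081946536091411115339663280277549945432138599133883529355801405269398760012690004915309891599817178269383629642615052450151000527773506343218218714507777063660630675855850774454974095973376664485310304359194569149384276107299635116830747208022410055006198545117431921911556035897104323229936088495589799957230417258040341418843934702210237395202717870019764818145001215404834518935416203053421923201606512269800484833711543577610277420478580060136027587021423164066255981158578427226266331665047945209602547855119479086753606936387270700180673134124005637768557797704307658202306296563275459673080683026404185335283226975150824448050444675806205280533086935089470307604798004059603820948135325574292560798865770288801716777227098929311918189950814077902598268432522188192978323288489145895690170318078012432279963932263761447347985392712166680025858531170925148290022252780639808538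1352649985667748182027819335245032489026257670481877964791522871504296476372168677396072541137119765756820696368650538652439521026498581851388062249587218445490742361138621616240390275166352717666612321861845102773715588863426422575539265038516808826507755089689210221177410065627042970996150691833492671877490923317298290904587992769418998785717627392313201286867883549886659804792655950906403759906421148675434604282266717804306770821062073397910946910658996367093701654312921357487988613142812344281144036229004999480328092437518898136263677149264349053514412674827759935247082684345382494250042190134873642565166436526978636279531034165405748095467614420849537019415307114968309308185149843275322771436848831729955841888521423884834730063763217852296830868224738070468178735280747894667790394126768961938965114051487071686029669615292461019811499531767161399437685199241228975617503914165575138680797529061359451604641624465042659135910381232564829155183337426942052464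0466762950775866019052271708200079017989622858262684958751034049765895890413468176501468944690733757983420113905767657690447957387821607514550155509932349473073725476943248322895839499328430422682610755073768833505018610773779523042999116006659579772907746163918995283531635410754757667258337171747405521026307335488160858553134741973465147980945748452883579452931408594958596777953752132343761106077408132159236918993009481140193992444755391213985762820579881195103444828146432311034366703618023932151276954363394684866298885750398403097191421347714780333535927702512557837037165953364222273147249756295584723784466923970093512762896079268732167255246395822294635159412023421584993487496826097233389784826986304867964859079414212027326132605136296044690417488334789321307479475434895623273738784266052916434437896952455419518911999174837175951777670824688454503771748419290611008165452319747360297900876029402147513207894099421956246754270809747014000978344566912656077012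9154770237255440218467310637951994734628059429451786264117749201845256585283609969599513745714201781039680862570740449995711549033211416568296043479514544487919086202833565809437018856907874666941700895770558464869670792542735611171577409094199652538619339069666088961929542334157879082441652972218296205760553788057244717190156933945271423165181549865041349414635719269044805433867162421681500172040786120515027004823124152862366629758419046563256373187244851764719691479552860545674616374211605576176978097643949024838566009154673458253291653224204766203531275879485449620168178347841295602272323957733767687171356186755152625698110587238729458640723562257732876246247570884132843553816659754244848821458597312499071950346668393514969773055007606486742280620901947325902166179857121832931429852033258505494794643324173100563421911650928423666183305454141629447024145616058431130954708873941687463561264720013602486334345260829213607165091406638898459571512524200944643380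6664061961010274875165584923192630016049300196444659792649602121840579317999109175918215463284169601168215966068040837185298119846712311462547671926537371280605119843801339353357893648988047716575711127098885048922893143919828539898347449594821597217231249883103602137272894240536225509078382870648656367221916588708322125455670744612783166709554775192947181288207664822977987666607294546948182685917259589006858160646290740423612629574373256045232062847651346350939185204204591461222108026391478566342394665862235439018048973061805907428462770773778686484680933587871500869203443715994204345812498983817793658821757246177748601086003422666649916719721769365188785790913443864380117924416472289046675032237566974890350910974599398296485100086389481415783941080721730497913115824265320188349105080007576782289113763376260441564688055910638546616983267082256429621985659908022315067872663870487502228117718984082444489449911908868866352424320854852643371520887110807219209372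2134950593656700484293615927501776492584717270570185110276833552233846444502369576746048094585323592905852454149356459840101240971521431290118750618678564795155556459317716813081945532107488755687073580470291746217461287324239167127741057830986627883084416232851311144012188122349077995005630871801642279100163771242135098206837467884196096304566054561288627385836644721801116714868626305435261933152460378872486634252348734993555848441066285848625623278128478513331658298601965686126660985667179173048627320716282666486630025990152857637218144257988017091435814075024361606237950848821806730467569100601801224883718987408422116174912047719172077372997425845841602063029774332410195197265898022310537596403411938830421435858091127109282676657734907554263072775042010844325276440656122891317326854247648624789612270985426710046891215240835893958410736434753163535596280504689561424640398669263390675850513028746440505118938204393029537940826002666654987899827620346135891039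1110081295210686881443949594849775645828542798050420540541814943738737702260640905045228676779940511755415452370263051016036464002900674927258867476428020793359221092772785911152989177268143474999498107922816963588922084383155163452505330348128835038927938245501777736791410794850562747387631367501200485095444539259932066017450225889724088545970903596497281933755946094143697932500860028817361675428871074054838554264684687154232582645543110220552332368338823029205091280885871854636351714792887093058984327587153747836810694334327653824835595211834227034158034018867187800437542760751267985735166504653014412278605573154808134852344600811487328581720087895145762229147782553482674102534894562666696281177422924092468040324082661077683198471278402035897102172592089310972521265412829269523806097183418686479720373577479128526307586234333917076247435914708421572985590359381804788070895558045937474586692183808427990153676096728453494754807248505540506205102868971305951804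9851102466340224742550304068019539115660018847044098299444321836317528901078020446399695405159182716404287762229387706355393610822600034020702335517968757759541878872466745907302770832547497481204142822212427864487012736664473041900864197367779178962386480462670546518659845398749321741313588446747876650120155684645861997251143384309942534356835002019587590676681387029411721712604943483824451355111148719561705749322007827966974091376535618774869076159314521184863401364076071443948181597368415410862774968208889902325178252259356081949430927832567584536053586875405605224910434000175628463513309946637754092895905314622797441457397289043889527884364891429256248811544154458482728510810750364346129126648254433174847249961561418593072875874000993180199936312019688367736171256113354329675208323586994708446192956155784536274255583213270946168141097665774233568880045645882943164405750038327977163051622166200927752721129122336100790820970476501205352233221461856006325029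6768909458007660651013664113556963273610419652843422724970283219270094637833994652191508317577852474032952636718559275603098639405239605303921815186036789931177417682006407904388759885105553715572528566851606397466941244533713221223241225624626497484782128772835867595539452306905354995471657732861818544060732594166202993087676966989323854946175939724934985814790185839236256358133847641671816672898780956954354735801545335842321857001757491842089070830069038342840232917178487563269361380853303278435498728003158909313674833871616628603856257620008192457513176137392127809518872633883867437990781504093016164653676824892720897047486110346702152215930898022959254911469217976616617986018781211541324985631829691732824216429204028767778741539947646007905101713762786976445616644020751238111546362581459001066990297059099137748955391551135936702450225167299605909145197611372733008614159403789931522521730422267798689418679551673176187599021891308377125969634800993560109513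958153216793584236084674025563042488337525471846150698741900304086274957545125923496558658385037261633173913957744293497761870802022777211380893825500829393555730551965635434247878163161349561155337764364726341434769272039653185181007525556999791782979801801260311104975094194895612202185910176776858408100752189253314176100172843731952512633108487177311267315631652428582489487472020236708499596580506135713021472320675533922560392232511829356105856534677424529416049549668505598251129393557443689527520785260642113173679157188661543782153149378137536755888104660736440889615780770970305670696088149846999893877152138114349308742148247959717295394319195792740385474600423005857670733131001644769961544548273122788026002146975462439394433170069718230960253469765875656531850074305443782407131557384214511031463869917901818464282678823496404353747110333953302198539044611014114176158137267738069211849317788944240111811166111839591294139130480047487556362498702868145128557656148885081186251141953463731270815171590923206899101654500364844850816414625300480)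

noncomputable def rc9 : Nat := (nat_lit 2747856807603822942862329392369425342722505230400943793066139245177688524829512272957412803546793682644361794501124337926585310716473275605446438930963833761615004178022478807018471102789493981727000175490360376855116820452496757206057509420513066233150583945564433737057404922827637980623007933590844402749068720542067096004806457923333993422381321653812966656637345880723425194812738868491087979861667024854245774130631463293934728330231444657265342558527834075109949962442461800360171026159249037354555108445515857169391832343056262940093458045044062641737151636022315153417206501683305798521478995709994506395786647658223354073610313754382723557918690821169028113090873346454948117302951830062871166552238772532640381621481383631503044167005051591773413405381715985334014152709241715458612672534044569651461441129740045482606653937012165428875512150268091322193377338765594415347200290254479901421797002483946751003729819309882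9769113971122967297395174129332514608225743188161710869207958265102323542474325370227871777111313920132414858340971390521334361503679025755934644537482442245990304289916004797629360951734206630767005042666280037058185309733366684474515997426807120202267913287003112265682981431921511379511749718505107182067934466771921328575306231085453449011220100336653542818676156710804440277307531586484864343015713732139630019981896128093551654837769518166393240182138572209352193482941004270903301398780711473783983088813349687250216891713699102477324321530954978153711697336829348517392531190091760010059073588330955265772284485618650458134799089400534490851656838738821394965364555267247414059708454441854880706361514157326867448382454658582868606011021842695116545324780354328587088515763784311343060459934403418616341366027739239580888293569574311486881185864658530392944733039146915434596976839674637766151037197119185439921027911018142268426250079151719863674048528952759744022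4481686904551577269938995977378436381368693058299361395781973474009384981714404783732562638220301083377483163018879342675288268420768651960317625957879073359508520433172505610827891565991564992278690241978715496678223051157840663883219823321927147400532720831447535828498638691382801444364749850553221821339487609282569232994942782557321935091854569243341169764135104245176097408307758027649339333726206904884930771886317453988277399298476959790884734589097310810355951700187695411972596617794880705315203662000668071828476614410176427601801043959681337886835330776785349939192112531717578126313735306213132694854299784505173878955841116677768575052850578557110457255775511443468683052902313852486189997883462636154561099630159267436795419752648530896940772534923893158227085236547189262541404351710725272036694938404309728664737094339445955546852628027650070797057190135350460023097939369971391231370710642951917654480092549894209297891398335003946977602106860456261399578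8186168819978068923058805521177380926581302661588335971487484189945737566148890498212016527627244465794762559828067564980630914623451671594081709577364203596510384243059378187435574803899850120785755519409712426346484913073676098967932033150149448151428834129981813974886937711383577558267371269341661828308144843064607763859265877450616743257271564998386989510410671174618147919677981127656071025538901649456241842038791291622312560412791229871957117058588077604421644687564780697826199093836216817140805011187099814466922704307103957903346953606715087126548454704323558679829065913987536406691266300588054557961392445395922542759726025653172334924914301817865021609617444207602879976288180787966753660217030223412253353546171723080738819895926043906969927788047863808036523509404524664150733711407192829002344298339597835174178298117202747366768032307119018950720467684138385743232206010221953763440461034583145448733746427214485059927427408075676010744181698654681169106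7978103304396022038247192972694983173877108180186134789067542500988748600103250038322729944058015073442267684827762093012093107508779922052637588100004036644119132799643872867432819249248285638758296285157608069754638335642309766764300600651435076045922064082237138862915338346012861714498711527168707809767183551260210726893074790242709091540275081534210121204438250925782556294234412295826381860303729276114756441530161571288626372713061094495181889750554210993603955998342590507699227677746791323126850296065916968905529822432081556531652463752219712940346496772570544280396924201019587023923097845622463437158937064622496796034435111649423381696983798807425626288781846623467081454076633841155753028392981964336957531642451073526423823742125102437287668235510470853880428575639163779371021468520224784010482284257080072964832175189671807876770700080917901520938250602930082060404645906482162551853793465832450001363847170642882960558241524959266996666281905895973034903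8415387677649068254732770954952955286220793870436421439220975090877565836164810113316907934782359358832605512889052980580405805994019339725796381799734703348786515053362252452850875539420298586010522289929095744535785722831435669173733677639793126290125712993957677774654908111271671069835743342880736394118932593516577521352495857732903793088102199716984342882977907956489351312426686362608587661341426198770388560814460135113570404711855191705093686220137943759171421850422964673830427944503951995065621621083224739944204304250424003009645384456199161638039329680260359276140538395783678695995150279597609515056716407876087852192670575288958616461388998945035781840385093073639497094549581756073072659406612897142041770345395980649495493633565560098475266826410581980175579665449495286943834601039699756950487620853243772398433411214781086941758215022946057849148330823241708587053249428156329628841342656329069629269112325047363288390740249557132105951715626641837771060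6109025907564725855571070027983823644049984024735190507427446640971794564587072728337803720596670322643560459949609558536018478549570809589604554529654597254841400203748268681920363488814711316569328594444530342265096367301055995769249319110207783126994472020517821078718676279727476820857773840449542419085374815830110609871853875954985199829865054630415986099260112758294420544656802343143038807637763404771988377568257884878350874043989620678542732409267911873681875372058425887298819749176279604304151883618250725860495666126643683417516876196482073473923198566757849865120927878865851051603192620164909602878330140759427158769365951273829473989958229850973768129870225509053808148372017163986836453176349427819486502565246150280099871151139766698572221183613962989012741488075884420991763198253058335475502764156191090674895351348705621888285144835265991008703889872418136464106382676185338124709483129111575469206778467292956324222361200545401499014620476023052425672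5923475508085357007069669780058949245364728510473764172336298355548193985970371953244733919217456095724399926325556998513295843749082303828614957852586586636518879411820877302112914459937774939914415547339902757171445392614463177180622643013985219802865060031160199948074069181274630279026885970704456245166679055243288457871356805070536122053569081192943687523056088115731446914337109701222813461043610622647678950008194081770430037940396171367169860690931054783476811977519661680366187822412824984709687539711498706279023712370704719489674429104135970359200590490091593828794830423016509784991653634507954606126630874534059487381386675535851109828159556918875685617163886365716966388674279489825126640291926372302866371274478466660318131313139167022172754430323868892768106961654492783359425927248107080938898053509612110386487105054923254470096616764004127426795430681988757338543690372788975568467801798388437611390629425324414697882615026898200954536732999225027826159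0110897063595461811694542046101323377821238859522192229440722934244628356119935637861646085314852399839554348690369849134834044103665227062110824284250354181809462608280161251244699365022240980938937427380047576955184120545809056026905734997643471375347705868114285182952891483594403146078875663402613327300134649757722463964730340616204868042353485839411384208806217095276469510296932909250713313997676010114284347093063855532838039471403282217895113876925331452899150357903529964459779867139440102029062840669007733801484567941347531448509868255336372702805924009317798225840607549505552730290774225275475254596430554563388032516207985607937334583672043460839872931032713209911003084453375793095463748921230085656309147526396856969046266088314434070267626435380157428062281710102640448080945602266047728021567634351689432282658063082266199608396136194500006638988067537568985593014675306170049264598154959785969171543493904302778619238480233900233181370858987730214117323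1096262144526065079331625596311625171405014636095371326236084882505585745819760466837956649286906543939667629889071352941879962598462508934778983934434175171408348775909965696646422617177481066511579500680899394941536213902262596342826144344086020196518691375814619036796640091823925804933823242548672230908948946343353332900533243995392925788335809676099192251778463956024325484174552786385772968618963631355172196975579638310654886036342769601562877057233979551182591112029877103142778113996649757527924362670691501772481884375327448301223848712901633616945338938851951525054967338027801428323742616766808337750693411327891585004867682459142776589172830947678090730151435548508931275712708575850943797315820075988819793381924336972916187028612102854644469968930104593259921879658804925374033988757182082426677346485219226734974628400983755201549803719960724764077782739416479385987404370513870492787713736679382497309105566556080802455779292090187230912370069338808010674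6151973041007276169868900759657308840632265033359152972688951099923690249204521066470193391006740323169673496653241267124222277165484217320232418881629542280344621634789230042544149070633936253466270337943787877462329260459715862258870049719188946883916055317106634776660229462868371212502012395682057660681382936996548276445307737079158041871743467980162677748705436130520132329365831518424028968526201076151890638902274468694652031662191794397485252451345040248975329324862605580670081378982544831756500190616746255322186002180975576105719500520118974906982036229103146063086114908149971558978060193405276959958413087863413046695327081106729762094419127561386991748939714128507827150244160969840548502830548931108352405468257068463624099074903908355207894419241963599714458076454113540856412252738970564989321558195575631757404163467368899486474030043234812549141185627229887531909890752348366310605591860545442630408230645314362801592200044482746599435538528506763616485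1686520675362611552995617923843026701480400549862209351559951253994273153604346668546603159663099260056355359017123109326985191428643785872260845348838855332844564341874058546729721589671826088497564677202965198785497175013673047984706380571693584204459207891126554812510468913001425609226745538079024353174503581709490929488340038338112026931949213668771325046429617025667831828862222782439286634351723257747382287555728233884139019411377749759854760261306748551015148144211883857516900472804197787388690463707184519121606429616455699592854986210953975268784008742564174681056374342731834048292333346487419387525819212736070531135045356744031393737088812051550626769571771113366759906355403394244655438119050182547485811068563871972308679197199242929327435163070669321746935850898255989144110387609819900169862653173166659687839797526065876708358620310223823273645973867821937201664708817358470493050161184357892132612684364466072223509936036479854074236834437225566522574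9618327741564544681521366993361329699572385056952072816692628019425015974866959735326163141095379206681777567052157690841495208174029129955914167496017278988071390512849919264046657787799513151834272562098228528790062325158187399049557545782340309825206665231538442264404141538099605959560390522259111693451450934731990512955569400496161308045636177821182593334027084814444505312416876966603132436962580173194308074419452687558197895488904260426942801421100222819576681276950790019634535276971629480973126862204568825449712444994818585740496047340838894283712998312961840858267431288759563640026945549662231844566754860880739829950455741503423400014585368034735010149591900467584283281681252316149006787219098071338581044910144698738915127717035835311888526046778777729236765152318498118138306931429556076649150946136688662624750030909622203876469782366955745980563108295676913217217396534241013360738585802011953417475303789516987537656816864271281104554830809495765730911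0278917107641187825133428709527520438046890544568272562496107211294290861379304054737945303532087362556417792961802874873419890157603127285242697791318112984277460199166386007414001188948420417572314371293074584502602357482530049652263546088698491962331925640548970420109725064843400488650948187244605861702348884619508466695830247826658295447506139966701887841457816747781755075110836048958113043168087598500528560848418703907314165815006194934833083819700913621435131812421141162550048261889215922027791022030583809978853585693039252166001595884779775119913968547351026341128024820290047985503958415170209421079014178443601752443942581378687105029373439595419785167141397707335465042870799464917393494725587819906174397516873686058662863883133430700249697370108217518302899668987536614536528321993863570479842766123521127705040320011052459384333993268194415866189147940628169626465600206331977012831034159445549458645203382754128821799828286701293378840286584367893150049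7317174377010650810592273396882627153859541322398543880462450266298113824420501431378600116433185836077576439176479223797963236442297053135282071195263741023149866369318134309479535924942568251354057145343668793901627545477921659278829374418499826069213640023017850554623784749738820912009597848495749156856330528394010230989530399039815932898304441749140461309008411217007157612022916359931297663570272372164025432008280764176194570208107856115038925699571280641121771875082070932578451811119801658134124044557602328420801995083687433755938068297495683546619929063319249016204600642184957193333737087194853773476303629924761186194674899707201985397687712629311414833789507054602692542013526430410803312806641166092415795592985904536312223413675684947834602502025532265918525925829882394208974583796125604555657570944779464544299892591928506869611349255051736005026527294667343143064342859909440857927773995428123872812505525226290008261265137650002239766151693086435147645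5889108427678581143132201844412653138205902800185003075155243738043734110213866079890170394463180732747977220197823857755634369715032149471661733173475459947865760212151378395510939210058244258461179153673543854838312753053931398483690564639633126343555595442467616047156094359318213619881916115610879989310848707675750091243568450919812826009474830103847529237174768732902664212780027648043928520040966800834066151786974225430015660096950368601717342661708457117861312054713349034650047665138859114662368850070730356976104527409087158564128352629776357675175434910739546898963799421754615047328963274063697944503736170572299646344726149414408436639424672984203473308122058197220463527580366276332494084138539731517752277936574169411432595758011298158015824432334773396766141113471633833814098521988589816945684008575617738882156281206263823225747570668035876167869677449620093887805053149732663624812930635203556807044037323807026765375818422338926193135336159941425759487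0725736560179576715796420005785223966664863112231831946350328749535132187754386104683260515391470382225514939277372913347628461472503319233867988871773252477092825031418966735970319383283685551802351072873970590581035610404194081506661040255811529004733479584843294159974493632382473707391795321976029274525948173917155500580528849551114754168271926238866536758411428153615178954902672232346873434220139508513282760511965669361545072768600505532444769438409343716054370533563768457665384427441875229520293663634876063717791636306901083901744249510631502344637739933353673873230879033773945802243962839648067733587899899947428291111162697397902561865670634535298492244872486507055303223517154382853437791918545431265977305122816429186828132080677501262425746292849050015992013713172725651335520806490839756013997337839625147211870873872072732586472717591390093893027846754253404647151399574571859811596677024382482703642392052066684645128655727704793736306680820562579266818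2755855945603850789089872563765815464997715339895064536666049567270479993921440970574258787843221664674389439409427232651809835547365891642241278170048915251620576756301047447097630677443760225392377856528287697175355261548661420570015583877898940349386797740527906352387631062718334461051573519261559113269416193249936262889637195545045963324634832690937856262446555897162976170408829169715774334028702021012566427912426176167983459977416788384312546279426976500689350244372282606089906805668662501036838318443015878526247214191994115391425000807297392312582364794903053728661671169941459928081401832173245297841249853323873871896573130526784844015821290559992368840830536342611214383877098877703855105241873485301669096059803145854875206968224770903341438607027139602095287719228377929612957751362565343321216157909723642577545103454098140387710472051515286197283341835444013828285966208520689113479420319196353099064473361164495950233883817221510315746392111427634381466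597739950914554748137275200268330925414289134009061096515473219499156703799096075758877242881769648688064650697324422532209174851297064772827138325234140786754755057276259111851132399987082162206011812066355779856324614294495182640477740797898354172183394077935286789798506521485268553349346268288482617372998034395375333021481582720761317916488036860715090193386956509428454234208682933790997751520795457434708869251827558927497248685524252179550252551587414668272373516876368026955908643153728119694314032162737571600772157036202647616288469504768653381531447690313206423363409094096616684695387017456680482684223574022123530861348694513926200218611074188553215699527617587749006584418140324612308460786721848550608057130283469348125772978091503305668387522977697135771823732102624276319259836476526671944637267823544938539162350265254834103346160338896606792243770369987334804981267661648813959049733552500428354949605731769563661164183138652280669644773619033821293131753864900914100737815150422160485732551942849144209751277755645124890116506580418560)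

noncomputable def rc10 : Nat := (nat_lit 275351509510782153580147255473322872383606045159021502840848401949577183716229614611842289621106989881359467796252179801630029575112671821331911411386272627860679490368939564726175073458622032516492579936561468559862914398279802798995494794157440857600437827186285677474614124968248250466338027518129023343571999673646050449435614185657923219174930463562284758568643508611208823276074668210389187760393031033816834514984891582828894115589242248755136968321030620650131667768739909207011916456300869193455789615025413697717790063216017739246250331198239896703949038023640304052717851705047062660545568353198516416305327281021998642301302967298863793482571444752813256938753054094540610445436314834267180656703225988011218380518785338456061297564724213666250657187466327731457533923355766570867519267600217939606286029097694087176287304091778168010276333614863206346982666903554319443218709826608363925524093650434534621053020768185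6175145058742459667338243076532424582484961541526536975333304824423583881134645652184908721015642233379726637324524004100747495712710799592674249260870876398317898177460271836389988582795723641182186493171954336797985425408168966328759518061010389322842806332845677191886119565012271457139960372696167812349932120470907776228613783965294083282781794212508780931450103001274396409764488052023622401067989617424256806592557769404708782410093249929668447043052823749231928273084720933555570598066252533002372185258945891724329943569721701477674942848293276073474490691821875188806941372517650747264940514752124980829761385986622404473201587486635402416883069853053839781030637467006424671507953499232534495279296489316663828646426824262055936857155759572839928346975610491460802599187220914335213033946875497218442444354665474094489542825667350395813554594831296944819338643659960680364018714570152355375669156913151620900868292239670379130902960831317783317098698415686765357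4717222932211633437411773166044429562372994722577709809532340172654905119111467578758999064096737293523766669772218916243985968139317777413768468601988836609557940584690649286020068948590523387451458316622717560420552292646993446978220308395430730703924872191946533448059724071784227512488179137855583719925629999978894706670090796326745417081228948611222362369603850154240515285452776714266332004819731078594050126761209292284326508006143086506215837939228899262473815879919541980652782085982428066597272941859088329255712233289220864321591795265112593599561026065612898959164635299399833698038350997867748714776043023000143694885902432879326857666405626121165455730037276055038693012499987978830521846029909026742640488885737854331460642972836755770072304600528744038375245295078233484981593570971725602734442453660511205217815283587388637440892939702582884819469206678617453037384974261919873225891226736142184435426326471749030722711034223511204033639951485984296296745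9906767523665450399638898684455649689079703065169974331774483818386411914781384817724998646931585889919961002133515948810195784613068000637644357721597145289808621393440324511837981828193950844734730812947490079937711959411259763203989974480918081608990523786615702846382486797364518422703820157390621513364873553474108325717500818129351215126651684488811405677250512049392373541524466366534535975036907608487423367758652057286826855248690708305216521014422785907818344302264471090592339328585062342839683491342471239997756326444224422656497883765711933962712518587873978919774846526756149556546629683072177958538573831132918097145453602614808568021945694220551834265410444963656393762904762981480264099395513902047435376363899853672896803876908225090556208614879561883331598364792852962635336761705589850182775401779394213991106462085625794735940063143089204600024614524633098253471665327861765587061702875078369908792673694286892006414951044929349945874170538719935773809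7796705203327541240912282634402634738822533615707163898017269882591207397761434633474498568920930389781259201911819246592877822410967330926552900624886271512236139861197076418245828412054337123271504960747810054971351105044074521122795586158835286207374660399127045343746375944484763090757175964797776148974300774896871699820692937412237648587381481207298550504146236321835887585505800706438143001864640392960637240333287672920097550063682745287032912943994821695584546177096215516631723162310242231969381398758479916563332976762047640885956134804510155401305192820245074632372282538240295250852635913138048733813635691055624286322879433926741893858919676417932274567442915098674198431130744749661939260613177725408224058869953501038241653793315851894229611438397631068707863140899798807986562623189146983692886156032688421192400272708186273992698629272365858031015647988488521582655246338749523710669221329923284233378001097675673040610936785257941034000681264918623789954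8076925732243143798506503276469626219046184427479253235177726388293530002098819447838570522981286937214546031899330294265726737022273854346380541656738097569215393028829985085865328168377149747845220811835342090393360641983005188391013739772081476030932286306660324706501503603461603964405331444672529030625890136149683580194516347992452002782808517815037617978762518437610450384242870010450840711463642083200528716258814109208605683894018284865261077521798121451489777235389710286614251968393498520314861037381376927028529937873544538059921321764820260070809630199141148702857554676282094632890845995663677192067648281587359457552634457437692869825529138826800848338662100353800488849067230683006732846232019405526821047631234468495694208924808193123211031753206665281255734849502110529742160904557408010601972253287698668081040382764768899149488811714118198723429750352826163822417347953109445081361297479882201504900718622763594815967803404726543803424108866481676352871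1137747350924283449725640591851944809546660293503718142826466506375199317645625554447423812609249573808241532904660877698740898225174796161576392325611125800060977131714259402916697124834614635049824242515908502680408465093568280094200194807330894489132698221340036696291899403365025421013341678067135328788444820167907793540690050843386250765569485439861237010442208301530414488423968276284699629769484208271749425762231374445471718813967762996481848834911905681336158204387467276781221006153957625416154733819356575772506675955808522039332162456567340013228119438585491816599558100254570838892398603181778076979201086679210265481432612641370871070502596046964173462368294964067260886422278658830959195693509959043554960876662682304196532881915757372916527535955385395669569077213126482434208130087990646521963505881865958959476993692110341171894974394421577660332689424831120959996969313983863733110007104105773000391942874640950792674557326236019408489202183264629780512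0230856971268586382643724172945141372327633781581718244041310433168054039698205779508398374897423442118530735869619713807359987047056627523345244471582522912520483127838210926311814807586327905891087158273208381542003700294161346514856713358746867787166505251265407963008615303659252934350904403914140101905383338930227002989896265558028573117077026831930924231289787048238166186230017766373491109985339959475796945176770180462735229620673873099331930427582152881608547797131300921227175061913242125402890734083867344356042432584328027161225804339736589735503061252852582535923092202963649445543749997599287416816911211048045859262877998491729518736959641153725985182694666971143377494873596828132579510692932235227171875238674496861644770671761269874269527458154833126107672857969224212221935606953755590014549664108748703309862995205260916051992598764371498469521398447648532652976876222454450375143840173602925239535039685332558629408238244193737060993378713218326540506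3156275233351691829329206054619840551643347875203383426154436478993402085558658926797048151885230400953329504358507277550442764812575730750152437844254868965580249918955137531682333414572717954715748156806353598927003904409989261547853980867581816946810080770795041721103976685075857619346998711291862502474386690536832920840572625583349284688210784459543382202585197158735973396308690949349259934168810931872007882079405564184657444988072363351605474701519024656350101831742159714004640660507943863824507399163684758328571850933629868734998831637388034688470858153343954204633649786597378195738006852760599262229962495074181411125558795956178088105642927107032699879232542888737514779554395525734535831467309634182506068743937655914161632217047303632288551941331209037852769647337419300653350512379240950913943114363173440868527588791869993412672407180321201066888268529532835075639788123808809599729995165782221119217721302310580226855436127061794419889554185382827425275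3987321919716386929840628405787532766823521422475717448512481713487748998702474750741820106642067240009828384380283690705688864912576984956090368179176056218208999342602187340598814853508923984807316866873253906058746768814920462506110248997148857190259187755813893609377394495296478550400539722068215883279556673074528164002965766938249688883406991425149624996288780833967575455859656888895022616374644467919147772771927662006251212209943661861284394437458964006114031761323084408811600242496822394460378146183558469354346719188778886848510682634997736590812286610758633340552792277754158079399578243207547845563638001947267491281945010548870198704637267398519354055170308494628384831115364400039776847207173353117748120270910557034796787242566039955347285202060539429522159225948480750791332307725121663793913277155951455353719206994448145576148398350762827442093813334987338708701217986337791591081290725792159293128336344633072909595707270735970334367490356050032621340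4410651549491429848269328226744960657774258917806223782352610709148193664707993164197065812553859844571349904365662823977417253302769971763825242327245639393814121136201410633659679049920111407179571071733508230967190300858460202360162299216768719995905665611383714747100018734528111482455308629473737868063010665459542044083043595132851729207630448511631739236320963185361323372005844981874229438766705896716461217032129406929673825590329335630746907815984911009428330673346375395222946566805267958575721047392623265669052590199196778939729169784780580645916542010166089089623207362494397370981205175118688445373428347714329205439585674505571205327984570000120287215372029481916489969994418379414621772818601164073647361235378154097317464766449461808422746527813253275000081407331559716993220696945546969613072079734490743786310957324966935188693407742601808895320633290362455901108823494340804019968676012056891626801330760586835928900858449733759672694524850166475221073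7058020132133741330906167407122878565198846045226740102096205284821352689671442801300007168987399872412352644132453943187852468507119136210394246582789338905924181772500632292680744128215443333015068792324614271219855573070848294840193926102669552842627044075611600623163778842728145886608618671730587681454189130681491520576815266441324640414283177594320003165830222911885143322317015076710593959023754423773867113446444126849877595723779065227138062785957488533918715843482701200309257563513091190273785804002026126365337502536689244455059378048669602715743930821361710417132231000884360350971135319384480707406546533409383693778109808767687126549564292924882890292789298502282118908209544760567143943339095779691179048888854355174020770537589590766794462843088763734098297357348463885771260339127329824617267772187500793182242096810825154505414595665838316517079390994960085757626939508897536274335382337525883646217860043433357746750328105036273489059446368874284516185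1624904205082780289134627276566808150303982446448256495543089618629755794469630396279043770313583269021567620072722515975275465961169124950538800005382109901753922465145224333945930735975919584330134189085586150279096628518826157249456041630888241129253346972477231374346792556545019359362472453263921538010786492905199080670656123214662414927976069063059381110909336173081721927652195371599581581709797667488358502684667682074587137726945251854906989537268926366043037085490473844411022554337162948874554089893844991379462005119927049572388583198321482224325324802669877253408691765474511819653113019999638878588437093442462708653661544675062564615985439155240385425553653530432199888434992628192863392293342187972911814347583875186364828587172301593329363569167790149058720674001851430593437938741355267504043456269322742127149204126405630736795404262727251958914075835925223095722154406254728345704189090423169759451262913846389933511949123376115568434698275075897855794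1992906215060457818285873621223070164611432724597604007746787948318143272901470353708780133555170992253500578448108112485211398700650509981585862763744887422868488636807796231593023369083718244199425334688642733443498427716223621736952926573261286951484648940106982296771044621397134590566527280433089621867184907075321950363869220352769484832085333816830710075692212900549217404136325525537953004392787828868473361611194552590612100857318735891767075691135198707488652796213219170703240724675978136914715390357504128750133582877074012806598324605184497922887676971322518843942724537159661655914287303119037148532126298198264377283536893511685920395071211903436659319361019418302012195514023423706754203000802868159709277769687965464443335225880862423434972554106910919061366481119425689141181419818181732357861177562518705007832456076689013966285193923422340329279620171737263949517033565580481333559937311624295313330161508030913772666643364979177843719917509947052779607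7868175907905920081949640004280549366306449016889545387177277395284547401107491021038469664837498655299675542553927365134466147811793450258259746696161305048409478766733577800234039043541733647166727504791718529115872338001610206862856204096644968768235474647842025477668947156487304159020280679265239885876381112570194355933162759290726734031387472283925848941864464776142333803126856246537500539371939642094622674825588557003992966053197869145509826717170799944646553920104893592896032207307154083465890084982474388161937802439095218434617772064879973778553378637886166825840217912734172688285823313481403052957856074498431786931354971851944242757248003288406584148172899652831129739822402544900051197658013200711513693738051273551965739629968456604978431360848664051280724944039516450577305725906981495646808288865361417476983965994808431720430891929807864617089399875339274857949685359719398272891052200262835370917088925373277501700546048658599603393041163244239126801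6802693285661843683996635069622292496785531478375234522881220288975343473667392403364778309493822758696538804322528180720032267469003865462092470948450517780234280213059755353844115718774792878703055687360197249947966251960835655138572801408516980261773066405643005029121242720362947808438130528156304800867789046336152437892364579166045375634109998360056973892553519960968357185096076848232950748173888250276171729981643137291915787303664014625881839863503969571995406383349516705731618378938505232479288746926519690753664921059983061836801001612597632297779400868034936469595328690487616703704718929404963481876150155052706866822772158702658192317472635588951079621583325973502308851043052404641524797109150782066255039370917508080708465819850585805352258818257729420161122088947211239750872594352570571583287788319888043297504921382836816545042621597883266465946635026962902479201502703096664739051536299196796108666934549490550329013041720665355060029957842166080709170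6423906533302905959516247479684005936265579612754989947671816522924178795272719039719918371317250744376611244802737072024718103442451262692832796512395021466475285259836734085231363495085378390927626235862132634881457037794151515247622702245181743162228699984271048475240691512487935408744339397477154145794630953513442758254294592561385304888672484430195708961722532970036035250016425157420961943361351773041755783557129117709349566276653069739054685305412015816975959334738069813124030838102765930571863746055984656467727875662374617064190282505893886271233726490723163421818674055043420203841067772297821988553579458332757523088503689991692867662151328521322809343780331972971567569946663772996841669087316340171024076222332287031858426439261840592476263609237288218321397036230737500450180261143632333782503260847226672732128441578406500394835535302200364049852185270979793775158662969146305260563967688524525743468428551276995652551622165149597760256261970881376217664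3835027577137562136766809404122786155634735305737759135353603836405693886936711740955074563573345606534806444627956537327918922587302156315331356463667042690563944154040367622715644763502957625412170227673441138474705778233802856875157357177279788118955855936420762748819497739065629136647397684709257560989810906071043234035812558715716865832494704086538686478831965637794155975177856361112843296243180409456813994660948929166681670314231328730147390408876817685992702598361116055958037027787619611486155822013677559446681006129890741234987400562632153723788964564775808551045225166202267809642521140124753864495936143176974249030344181248361323728739808557942371184902439532045128538881671915090834930130740582794772958594843325637011643071283091885438008469664638325947278924698502502607533277738768157123026437124207011566348527420995796695615862897541056915134199657053096917788399509773393126827735893827686017736202778835420548054729133368509539698142941007503346265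6412784408576414583986845134029471082626975320765039693859382539443203289160708986101142077562945467558447113333051033215744283542988375119020934778842025726558954412942669577965226879038688717785391565617730139736609042309462343595521709575176742180966284222886450675984606234258615511273824110810604752003764123842426797381627368814950819659315255356552620343127378257094658550891913633894704693773511800993193779646687091953937656763066146843665822595139911385249365575645581915262402605781365810769658326381993880628246575663697336363278830629411545976594953227113736093621467454347295985762649157861314756686835829525420051310159534622354992864424462910155663670233310364413549294160460376705352855689769427045827170267387490797814586226795403660646829784492222319909941419239526647315937550868685494559945734663214780184641686532243685179668885598926305248497277815970516965279600936123282986916930854439604390570110967974301070351918000187935454599891040666004300894703850690517305481675625484641361684252367448282553165946419772402849927031666245632)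

noncomputable def rc11 : Nat := (nat_lit 275904130859134601987704140317325885300437265205439469408561221681348858562443377361630509162125259749011434039668430380284035045986505109515810335477362567669418913958356811815606599234007798281036228395063531042066607737299327982039051872352162965857894411879823740370366470828859492779326773394453576832533754194366460237331911287134287403059267973579167958640167528846438271343851622026595202782178580509128617688961066827296410610370503648495426458155579697301289103408326178913544036601576528901019662124062814555188274154217815626875430753383749408911773640266053067243255779018037480624175938724906377874223753891705008996850799029523289439031408653348677932896474967001079820528195137091420149420331973876584467451369905346829204009850996228117854166252103201834904161095865796693446047929953792655917377668192633661790779101989270830302319185851698641275147641809316305289078615774420633291238627465681328704632137442315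2902086321712634558758240453541320694748406701542714810695122468403682890935767474203192639606356426279821496813475837950932754413708690021741186187634368689060580057316752312146255300370297304096571971810991219094021388751784892141493171130081273571107130381876489856004040976474430249473593846132086081733285804666572655102997984712419379301105947045324908802224858861610565276113346904825621136412833653978529327922525265895186983804806529216128319577936184573766703849586180208591069911365592881515698331774894421389279193830132540862077839996201295004129804720929076453245616688087635159409582844907527602590663837262127835501587167335199946818675301193507056257888181117303028309827611997914177174995755670106580851825068691744942432606434794735667591018005608395278047592795572073486680892497936836234522252706750855156232042696382064494995716534395987319519048161095975692087137561740142367657112206023062782682927502686437146677994145674317907940097165230235371688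9096542200137416222879900044378927734155126739963330195760420791214372698585555110998480263199739228547723877361365207882174534146411067825692524635778013985511239948997858220433636839438395735465435852212833586136661626877073214811712766048732495211347561543166371713698103019286040869649114559979403538528452722814217694144934457166665129168000613866548898745093722727409563418509181112226323230146362121450620105273696986981343105937499224778713058944844455767443686715345917086282320293570669223377246598750693646367370528434330766776106451592596981474450941717769751880586621328208759174039932651355110877333579049524938073765864968584307827522998129708344238080846152038577622337710477007946925711403962499075009735927951131116040208178723543026851943203067177016601794033012757120574640541113835136589955771173469972049003134577683640146585860300169441256555569676972771498935578475426737378851337557253816045847450671619514077932947873103998845243423051252965610652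1598191443948103387178832215928496791584530617025432212892015403077332453128335197409140590153897135621397362921799331554067280397155537602267085824991089517557425818592527093795429633681617746393539129985870042388600367085239503707410900055173541875914423857156052996918483062140583135582603760978439237800342400163394703031069755050581921160527489160792704531174766971364303952893133672697620599332723230597079184685625315762342982381987454290313416563885300766985351000709829650234329254197491652890085682881675871434079645743447425126633440742470669318673214703078982290134617121882275322841412167854178252782315470762162128805890177332352989277109922214221736859627851023043150308077411750739069857947106794994399598117302578392382540265220842052507984558906040604829745849978691550520982797550825652109680610782859198875254634784652599160615313532840498483207394126467145759509918421056806858870220561108651819139293938910779411376907021031204770310943146320611967564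5519567119155811347395363379954603148678374685765264601191341228918322145169711308718108095687396137834709555598926549875399270178958012173673578151043181816190478608182556679224535875030669951944398574749914091879392456727863353831366741379301426560610685777777732799872906421472016374508496582897451847569213358888446504303692108896544796526012445492925676106018317837224807481592747686991079592625441969247659095269908712819070912604068149655715553703862455305136335289466389962805844790026514387664773166465431683050816594630208247116086973996118967606797371268387646415311925522026876844168888095893426100590338580996780597871427203545735613157323232224804575208698370178305315029777616823318513337404344700895497947820709881259507145485682682744127816042078139041434601984643221910964582205259024642559575525722510360018230298262422899529314995820049974811397594007339897637841508446538362441135265186536247220203794203692268201689814470088420717955232016791086229301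0955240410268176289047898225280013997525528475419231277657367354692097700953637452613781288553227458038471448110711102009977362886900980694171396786154467166943722558863331675560624126928880159796304823821562071290314033721881300762904948700998848292278762330981665886091856153624246600225636914972139747008638781206670201315059198075080754581273286866915410690286470812255852211734128201373844748626508509591166304511404354510907905103273349922891417633541247082736819165040570279398368358096446748353094554498414661639219752895817699223161972485808823235647737035123397135474225166656571381380125651747838475523820274666915533228817569174175341110615370993931470901458264912011978082329292976831395042624518878438132098829310847183072246020792837258620494505096052606158465315582189604713711722994135458449566689487971686912218170896857036767427225515282886291184647780595115880127170960188897657150073573525753563460323871411798842756904696185191163132467368205828823256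5746973129755659934220754514956568079233650261836976537057763453141245113723294098239135491664054094342246979042658134499659513297841632791098153056371061234828703972183991026809648060517928896690935167028491367941779065015763513223945773864691562819002518579150458098232290147266262019205832027862965274800579920281697345009600047227761919195041221471848879668346133895716545622101089919400577774947131378847351219934634293193201894813171587346339833170634681683233613353945309635374463891192420634846948567696447248975666870439478557711876522895890835184644446347215355793695587617911774141860813156173276172358423642497592212381159441380025310780560890362328967482392977219987294068213714453162663366558018781512308560339543038100445393802177558925816390514186035598986015558077006294349083486470189564085267234493071331316009268289174470129901867064843896951475298853676089894318730321284182354593450148822226837522546532056377866346992063086486221379570507506350947317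3446394354799542568780338651380361111504234064489540239622059339495902288366199845839539196694595481290775361715678895392554594813326757082530330174824959399238180214570029715145081958698756371531382511117652572370083675630259186143039563790101431520116516806687917966337135876534617839880449183899404689145540543869784417072445859600907382517993731211562905992454341500280230180857597793068961426755955864345889853169665677559226494044510689851271688001898253830501735854153563155774361784551235530045077080901805887373293588877054657339297650538075245975366997211752542774408474384365221480146833907254953272150100866047357000858869268348887705834436093428930718870341827320030317723329453724424478420293313888630192066061926029116614871583271305795936898410321691822130272459090815422415224581489359850300515239223999519847110340585700275735887870599196249942880270761017798431120195877693059548803745253178298807654920592623652159471780152955367986501710823321462708953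6248011736128079158721047054051774992244663291882759592889894015498057538388569872906114503006639024339428391257428944792981769990550226740817518700718681555923039262643613914027957107629650212118655816861885987874099459646904822652266417378320127917502386104523731174653024919407082994471998306769452998400368413087243453150068300822633036811752982513562339710521214651316345151907194546788491338545300792160546811099351926204757870982119076098917285478225071472402992792811169904496160919264252511073573106150463383170854526807923908780934761905406926265693400446619005604404405873813343413253070622044559144038890936584307650548335239871736832921423943585284654888776208457829061537043821436935281076021087119053262938050184566419809939431966285096860946705261184875855924112624561286401542501154844500124253066788548736881230356114092977191140324734173837712029175218274418321448264463103691449049499610425256444083656918062579917231162422684475729457893984600838077743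2209387639083845224161170929232874611109944551658825340143934211352608238561931679166711807672990599309269044856066374762063277457469764829737484956501633721833589251060000575385062042815843147241809623841284520140980951928379196125926738616308083622902418337554928718136791493761352999240789738106582021920578590722704368606084469477494395925728896530540446006280373065080809535629917597303743370205335892687939491376208164843459775692662006457228265977668974333929468979996086773514327117448806201460175425275701413032470749153352677578867373752591916030636916690931430454695555334609551982779593312122935441293050957110574317707850864273247943971622234907600125786901283323919259296004370848599384368660515882630720377458177440145619359366849650033424321082719142463371475953537421805388307632075325414930885159606099790889842440801578402205941463568722464679624876223266662205799015111381401616467743230300845912356718765978154578035174626218659259904289912326643289492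0562851264933818850144161438062897217238401423893395127748285054693318281406281014072395542130848627347925035265299541848715622792512377900944127003425900366753456286845660829669733849978031004437117939575278389724918415563573725980016419065042175529337474164730718475433894034944579769513993254164731805623059138768622928974526085910609095703719564733942754797777006340766647783512439105591585600081712356896184800284968630117886531901020581787606364186351504068531203360839975069939430007044271425173189917186283677487986129265905171181456952255166869921877830619675411916680988091402985269001568482102018332636383545040169428065679225083669118413305075489653020715883716517749415075630763313734692227142159344645528970801940190758632681153091278948682122463744999941068448694476652559727112851294383532689376913039598366388915614157486630393933211877549050276533871553607734927285591881930844901814914552901898356466149260133944833532656470324303029980661021558909104802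3022862472136303016119386124209909729202089806637842177878012917690268172024415069415661360403943471578417845405136889482256358070503325950995181707580954637240374695737546271849284895169146566971154105657012936761184720753999001346602567900653253475945336544298335026849914865734699356055353835585195790827584081008100454017619667388743603324733861336672689430838691858961584060385521664616026108746180695771661111369889117418853666187601508903074483499928905440956955878120343593138352404290876475327080378045472561873181769198049280128929612702633808489971348149990126175029095924329457449268529708619847255950596781936176079520169213726808929130834312260316695304036436554572327472056165035688531545331954609118564098296800749660538071106284326829802760911582851194298186523671531600885878913147172869404740445179701129146318432590042329173339498126076580311729582062564554105548649659076543575231939560859665166588969412461446133064889849708091668403607915599388290210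0170347217303685837471075847193885477350719722354721720546111345405708040667164313745909594494640061941619023565261452142090513076398217849445550463651120296171298626567129802268076305910160952295605188278799213235377183757259347397939698193438467905871736786309864591051370681419854993626404020716184591605557503334133753802385944216589445292589173535114285813289815562076307889800556067116051308612305446600564311270146821212809548559796447958087507342265769946712132264279392039607538142959568451347434628015170399935941960242817819479771460071042004891502282195456030414721168971545926170121589180340853487780437444540148431970273551517179438616957821533350950488076425394953699325503193997911934208329488146386502579187024410311452339227255633588575438743833877000242604888691758901219584192445069593566697618625957444616865468990393022407925612867408784131921011588292926687931566104868897240480560667587561305674905762623064905151842164153970872361953280590145184837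9359895055306523753609265285672573594587525420205584047773296431756875592248180437877907407922081751923019978161350521586144585547319895156382284739551918724623185125637036514487042089416209475969033403711401179993574548732488593792887854551045355709886222358495992225505105737257049954926829230577814289520009237231034885664203817931175020914624987732223466060806373696274295632741661387211264287209903775702919777626559112917824489236434992075586896079447864956517556803061780582095038231133985474119674454352277725955838719606772676443869434860520909379762910339225370215986720655419388446204924547817057294267581837606239636474363410973845883218721624250440868516609048366489453234718171609033590953270622463680626750160767300556613951471736613389048065820457538840178526949010554055963021876904844277587373845719656623815898246041219460716419915796371019251926476385061601283316690808510719201187688234581312248717693728462030207174095618893043949965668995465942760458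2843533825817367426407106036690933647847186715475658305429189581897350138681518084219874893314295727701361826931594477255526197308849814934506107608094704986610245941257989116967527078872789938181305535334737643753314090313194844956704370115356180228213618161513633257235407371541544754617358553946937982800103479364435738594647014464033756840790868452720215727823240924448036195163511068001055894259923160129432133036114265008240023186337604443221759565753786904772138270812791930000466930936530059145476734726170637963286506478707941813545620718348326649820207200731691483755219228036559599274348361532536435556905422429443706961817743793858538638498285352011620704436667914424856908958099153943538745661795243592563314248902317561711919734416812815634203524907572625052957138251094519445456945922826909906887774745871756223293080063517822544498385798507020660670032999338137881718686114726219804394973780692952491700028270231073366214964990693833151540223523408673904513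7061034865145153116206213893381216913560278665082617145643710325702823608533359131804771688017919838846287063382771897282384122799760856098899939958507278006714895079116328046515291882597898207919761333594505701695721001226912633709481523006155047641559308309611415681899229318719983427310649084240042534834601600171876112215940127761618731710118990030044101525095001988243739647822586033410206361731657883956183253732188459776191839686294318124836745130394822266971481983275791836692752308058413257180273593238055761537898741417861877867138591256725444766449465781797705900191126872331631931662493906046571569730570388652865789398397503591205320401251814859193266632132398134014787610968082747279920849176696779414828718083003628243797079265377197068014563650927959982796604681017774600280888355994950591028423647583072903690221003449228042076362987977898663831102195700990342501582317784785834365259935457038140292549309161614789250195827679852142697695090799430338536476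6533771682268966433875057076106444414936814335209034829238221709758504711064157727164988033638545939510821377071368794160144800283716578877797505650760342938289970139020049685506908055380598294515142111786179091366282215187759912054885260412225890362783651891752614428849492039633956935848531959589832622119277412079642782617097725147645984515033227422645660549265680899762115443491282716208856739387283192614125512323973271204193233316824202336987521982251504333572102878054268239272501240131465651130155063913974870804614445964454160662404537525445037072176800053667994417873618009214072372375514449805684586652695750689547248812291404067425296749572513128945132511404587983971933033468118773524847248808891270414554955075728232615312676792877703833706449499147474796108602535334368991083587753751161544775783617424372956981052904108744097569411278709099595656827060397192480312754283630391095917009911654644864221316212760691373356320285129266931821375774164640577544163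6665857484372618834725863211889155376017346861672174440898828636168101166246102976386532618602520481109881170507568747397629452730486764167564158784946711354929725744744586378207940396811605322102279951412877980526213580325994025907667561215131606846384863042113792630834389381211137567323148296506795667874803612600110764777996654163177007752327898131959188696390548673448520970779864157788696633879076823481798002265130514452173184885302755617500093309417469823353157095506861424975396209344505196089076832904313833489219066800978403195765101638477165284106895143757050556673732712401978436761494754470648942198893652234322772437124342885835740680163897357653324931200480536953089825829186031512712244603808975697006187870729015030377062367787596240527283432448867166690912280317210815851075961686357624543154384122212933060296833991057446361333543359821149191967896383184235508212745731159315940464483420266145791576076315133411424828946423822407170067194430018504739312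9309533627906611747521199683641222115000218910303650187606216407983206408317297381530531746392336818914421933171920648880164919653273261753950386221918328425843848643378194569700425539356593869604504158198349019033493338075664965485804667905262127905987360690508060574942513501582614445419987128451403825101762977547838210439193389011165271606170810002225064730687500833148475877475787290654029426211342450206019694422534104853846462551893607080909524465102378979116891671632977741674558256270591486061882428789612995458749590450954502347886684857694279089484089644398039073794800769317221196197334462731356940712871290308322191599328620178854003297499242111775030867524775086149999325506094092212813440795689622737362031677566901857191937883866628874012309747318306247768013132217739054075417849909523419692792796008464559001996424792317400268189146767082207742648313530795691974238422671255056964744465550945400410117901060407004050558820544008135649284423056392520377766717271463407945764220759144268389969336335371880248477120032630613208529689970212864)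

noncomputable def rc12 : Nat := (nat_lit 276443692216243361727019592462729583709400509319000221729358737515939906782833792526108383007884969109844410989527024215725530804510666489814249220205380664777051539094066903434695744296837200515316070951542244269155559286588637494778923693249701037534882553297311556788290282305209147959612717072643671384998931278810136985445161856564610500502288158497220350961118278768475021288175517741147124910439578470073608189668478232809963106785396545409270328232937142618413396197414936311636989325198511236616969472835904788796367671344267936164695300022190524355906319313088776475303407848910613179659116144517586573895195830756656131897566713659011168498261570582854002737632612760807896300994327681666009409133061229823058254723318062899913934267798224280587665938299735116981251250505570177428286445541905062515279441308045246703694472545796815803756731338813831114229833819168738017715021766603807613624843500478630836597750066216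4521887366592670313999977704916468916980881684915143865313416705600550975391316470577376227662166851876216888291305537854106087380831242092631178321705698770586449730555836315331932226492797276459248778828388559708191928991130007435905531339991615295350634889249971367277755330376218725000923333578835866064124377082981230305178885014374373463516047617287448708256148367363108062739343447635241499888243986097692241071161057493575243935792693340345432400811104490455018208063221625728792941674337404777502950724330680178676311468123141351146969265298247866744527903357496455678336129034158155411219337825177833762996365603775300996942450597913701608859235511181857720990740475621565735030345407000150800770250084099535763430086067242053991648712730064763291222356969345320877826079748873257940889138792002079237912999265992089831057397877928475083059802669261067793810850650333296549200223609770857334251584707737449598818383764364798206375048310831035260096483824914058268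2153083419387247439121183326032243919327765384173613948017675648028987662250170319498818212473898581401079371217028613193928799877968606778203606633368247496354173828580044677338580221572393987980697623517239469746783258082488514392382277030350642487888861267374371462087677067005649392622512221236500741306255760456495361300621356585511330325067753599729773997793557394504854144914997975285331396825291034842881823171438039637882442862122849819003553060593688810477684397657956128379471456048694718844671979513150699701202813489529849140034061447813231567302312303182098594482529655982966363587178293398052774077293415806962436676605351793800226890510005401708127274934895438964799072095760953684834016115226242438526952070126004473836845491753058759578893042908771185458865049740939586628253451836806560835393969708800762591296251978822453024327273927763810895036049520688023383622659558015823450692208763147081475297911357147734529418834459936806798414106762931693017261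6869211659895797399282843067618908833947321780814391351790010521957574219791124520466328824693768330893999089558223533678787812858912142453659662480141757393634723609728647172320035223083313783150022126454473964008536494519853612613532066860621868646154774382709284043829284814104347569779675362769549727231737051950338878941290385512541430049190692784102802911802259700421280094706313030684026706677053693567900889257467342938741246648499049619787117936215404873306876375812029901659987167147111947284011124489872057914213699185360208688584899185406546397928138605147910140679150440059795423281223470886991107476180135433975306204899196950996914158422084182377108582121963245105375439800722156482418009211613906213723598103866181282811455833035991130903120785032308853328383251524930159141211499785278186912712190028623575236370975349091693397401848984973938724960072222195869489603028147478623532774075192610697616439412323093624568831344185513836573643351964938721374831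1334845184885496965138839944169009451128044181607365518499784475012866171855156242330642120990549028212688357852747380825618456824231614059125781834138532174145823167050847949345330754293475727065882444443124627928733313027528936123825469556675272211511710586198461788607499077012897139123070097614776706505496381288680846613609847001113360072945150883561172616861728092406954893081643471752540398358156437539620200832330828164298923170266018514364043241147299399541643050548198920988581826995992986966290370189210426252493182427050831879686016253412476685642361305502033304801159664042765739916747390515331844433993596717265028821845759621557149484687510977385072118463983651658952783223458131007540913544436855032301875448266543294119602565680345759041043915880990459197449673654251107379050442545712959524228565686859872277661726969952304081786910530666945347293169644789773783539390762616702018156923615009464652732781510650747525179300569625088152036873361032016976380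5168684634546899831548372587864739342275924633276764052481925629131164289049543367424111967160216985929190853752289977082063597676787029554340520957937914234632063489638562142132676829193215873649985245632881640207097172956786674974371768694815501844647530384036317274474684485257074545721436693988525043363501815452909919263740390188914063247883897497349678333934686910700117668796426960680119464177667534969408015121681359990533952852779378361191332572068335589538570825726108555266767508371319866817623662346373017499589133237792249903963873485663196121928543298908890534596317641205554395304297564113236815323482457203287100644969377281662295312445062097403284335502728350285292377235076150696794227706114203283641338419624890655411348067065331971603757150322445135622875010254282452490614228724705447804392310411102736475261727809177194297325595510978486792145533981400430739423559047235326659493151539592645437734291551614831241160703513516275367950341770574259078690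7264852093295545177213999690216759163416978238134636216760831880379758835033290808849540412645974807748136047529169319506263741336661756442815467691817969608693242610155394815620476421339781328308536683437220256641771769245498704710886850880372825948852014837803040470213954786272606867220961050274478321301828051384016193669357739026932739686251170688136459389244554172431369935616642512986055969965105217316559080223970168987759459535682220266549843452708336372080143558911641716754231063451867635341320976447933012705511515413823589480541021319870861177107753043419939283006191769486226598564406443373564520167533310687678278932607973237481622207314126419521591348630331361629714844404928440254002275806741686301054355188828769459028490114289888680411679866471702844770556133612762546903604932843697201245140979600431209772210084650201420966325419990268429028886212335274969859514609466933077003852396403773664922452296273643225489642501505484744682043096633099215615640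1639508008599995057389545130210877759792781162634127862128594569220959593692296781043448973336759446337923054129613209089443045395122245853171263300192273258282307254123117354680892570471327381982562001243401214081083555199520920954109717730924315283219199767906305375812527374067909204346846181822884449460560081044574068292522870692816192754216937331190382869585763910739639674196322027918223704361859139726756598534720639183536070979944971596688345333921627533229134954304439320065905677472835529215854176250896954360271971558026056173560899602628396933308529943807941373624385998087548355003736768765742323258677238946423165815715224251746487148852483322684475247431146475920689886032458403882972569287279202608747126904592489357406002788556686708073447726774639629521371272395474575331169492469663610167812673110190784599882757421178305551852491340543521556135706254321190671936556792870099461718081089762210230403207102422769603731307167155379378696388147250359041434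5669846179330754048127923927182182840154255271125755863335828317543165392209052006820721943976003351965251012257882762894274087877832729549874606174866423600467346937096792325329212682921367152455254661588008245156261504919374774864125308177296915701280333784830709553114442837327352599276654667559060427942223980302416648222493136799817170949917418900479805822970523197303879021619434291118741709922154585968131225139870017481139156281720167619010940708884180514360919807049100327676543285777887589163933734020495728487223646430732060067381192425613507041215514771378721628362624695579977277350723381617656293460134500904923562879259818428730833164653187681643149278863581561291852550669291985766678752799289771269990540662788578685156895157288982092745086626110022977523877360605692124661318571815086205442355992533516131792928713152145214883762609297384290916280988754123394910963367392655042245491780751884934246295208052742713974795225070198247901452211788733155892765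0943951555620053961627187176767732644538000441802176241263604728579256593562374581935510286800344009661239584213291410568613640251979274000148684795466693241325968690101278175728925604781617207338701072440388145566695953629608285208391056914817300725267564787189919767661944083945304342572856814853396560769036388577474512659548568715552154566502165138943307496707197197750543757469813490820194548890611257214431575074670521147254624056836164883754977122583727771956600506586968467574692819622680417558355261878805616948678014486709447261203469920535658521379336701894626569267758762894987097496271408654905282941367012542177714628168928941004741483401381214542292214336951477597202192966533380887933719434759034120085559689318518508021731195367726440986927417535166887939506364082417884314358003943213786726348645791948370840036454900317597661341377033917130957427209103012628491063130131059219985282197965823455189842302194425772006039700066298144944295540033122068579044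2863739289494144361036277487460123120257282757853322028281540453664947152754773866614232091432763296986076348566263101818179106787711187503321374748519735510622437684928323645464083669684230635226851735793296999916887351580345058459651692090294777847363572569277984700045908387761157531769708352353751973070596763456446188988373253842979971289955103066272412388094290148094267949677670335664637679560112809983263755907109224449118211091455565901298967359680896815709757404175780105023370581270919168367304817151974878060201726456581953623208766958639682966538160848188698233137748632160023316628376235573663121564353450251646784895345274819274834255877628734722298359960228419942934890077770519851155683278505834321381029524735696628304497025399789189354692043936665357390924980468778764666121023882752886893111679301604684550847134291758669616144685321930599417641580076563177436969836944865615391669223752362257895116888712858904185296438879302273261996959362695263583204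2991677421169453033804626343964797237702249251146595880196271390940218513578712262294422608072015101446500165417408934369943833243894126279497504001821486699642906634311849857828840946829913159321578064167979704528529566406301898086188059437296891901218270719328873749412715155813155127095105334916216919772524629404760000566727299949932246532402193853808160160274690457879009831746748340521130780693573907981838536661000160667190353989375263136704574399474550906659364086746406398230439267277070357746317502012333562701691676165067580392079559421585987151954767838580343745393033821188412520886597943774132462218240959674542146892500597993437158930176075597022950144932789450116079212394424657421140135822084762933892024310684971912132809783073011873550346444128955507037521928189604852864561419204855047812039164738812024314408515293128597183684897832908652326592033843052744694087537040974238367110903309995801185440541427610380919849768494929545881436314667482921769993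8691566629289514275965075339164989829784083569550075242508554852299572952652815195691584488591199609922807339267633123431587107148528487116154327463355693909744210982602185416705864822468807264252290448069914049574699600382354659082922032884412962664211916997242224441949261037050291089022332016962911285134724439850930641778706695495726751076624128173950931638412213304458842477692654203557258253532019729804216002855669203118903024972319431257791180236623588312451352399611666853996458401313693455262039633081959266502910212350800096068976877000338387573418376886768255961694244699559327753995891316076086015400224941155759876150761882612497809512769665724070848287468994841978795492880351950591818598873806988317783497674883717073570852668857478882605650563282657985201801233788176583266251484010387793791121245838969713030546923116569564574375437520129947818395414992846722937693912535162072564888720024211327464649240798744523958711952277416072056256928673725521650948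7976846675476397200600761575391042367893892956187524132054544956605317504008439006707933386082130557786140863007822661996074828932480384219238378408178944207354605913340412245501656991768740064948714377539556385805956768715981921377103626485088318960848867566123137295464932904687088069243849550742610307950346388019911485742061461973164847762136568059666762511572861173877128964716856185832041347036956081727582538489628098241990022001990222759540378034099774735735294639690548548752693238159597206261618185185585514460961469742636734727230508466164939232218567653893486504678765874573358087120994273180802949574196686990746769213989802486793138606750785086089371088544572974498071597158557396254175970421651603705067565590287691217702983949712253156925375247625382977446811867630719611864590762838211184769711250731644803195121600619166650561810208432474105655912375064574536174701642988956545528628855337590387966987720177741375326884457854747590677851258302231392756072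0977261306909497561346103598748294077210452379455639200303051054457483004276594776344590171248518591460279955912697512690379820228492544097702699498651167528328740315013448034733125282341796267516837904613387331243908516969483425754423116120335254943995410344802989632733786586890698592272805955875371872597187010522317817950308557804800750251075623110496497259702952607597802933936943275117558891645361853994083053031922926127104325720872675167228622363896584828062951563179004680295790978077268788932725243231047924369773419997622562828341010384810027099973198239089988662201082477909333720578410298417343525515033924008137523261337897959602043386449116758240627008226601272958374893464129455482354142876349796045752853967848249208061510215018620763772800791118557589397975019265860427128095062371463506793170599508376397497492050572815609027851767455434886392432956583663598061083283581452781787672832119997494921514481274655308191426623948447401605600320766000197638165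0550811852079192691421771536844368475811957729966731415875115896760878056079369771743669851214392062998580261998217232765178950231087619034345387933703351228993497840683989453145129115725468917236628113562226814210603634643730313971546217893586449063094752546935870236782094302810707046244026842887065349781037828325599264569615071601037234521573204661568802169891998529458905421342843401827809632110484365518193590917523623193022372528273960992328562983936371012425143094583645945086605316054926833210324164326851323063732736708681642551873271990203788044657425628942969787422620289057439727778231431991269461334429059274988739316884135966140979495550222867190697555919918028040111026836381562342793428866559037365684322946663119680993174487287276936898715768391202059713530139255919787366127173800374938034940675509579763009171987086148741808166384767668907098918493188651377464620707709964091199283707586996630883898849682542297573960953468586083357823787889183625538515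6641646158078900153934430764637690600591634409515236387394922795156679535426484423985251583544654102838896850620457936980223808503646375592548588471674650636539325948210493236003623654268014302629426916520084351061123431527844331492546616796776055991521333733086206902304990562270565703927157437766339243265151619402545529908427728679662307682595819013119341204140153414917421916234517675134214045235095282213923071433862031343226491491473186825476762031527683186840970958505873299587922374232341258035536653686151917312868720751285113867456239735893715764109936803388729425540584481393261568995324044086143016290845637130644753246195640875086527704427429250164127426482779286908762751389833357230659614849430004980528825261280459023476791504487810744644305498173397589048619062248907766367160418187198335100556288537760468458264577595062758672181689659451398060162002046465652575174401285098968409039957881714513267278787023637029774809675253372201042104442565232589334356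3897085357151836000520892052618383947631962541961099139948750263511936813287500796870621687672632597729969176770028871815602900122882398758027394694221207413358624964693521689400414991938204106496487029973613359835814199133277206801214653079656022777787804285721787083074001645307789545920429780670636708537738813266886657288206082168004642629736848416243417749809048959254603763859696040423653325923563961571626445396361888057312143148389739055242813428299072124140916985495342886088877590363619639218366117284232396935050865043441146205753410517282029440834255946610059435530775453252007363080632222961030875625092756231339624408626047490273616872486281768681045056514540924541233074466339091288708219375542252911265378131316564854213647104498386896100881020267556525385028548372088700967004899436431743220849301102819258717505714625769407081191196109248333571291087190430743605367899661870497801863682349315365731738884317388886715912141165972900815195610770383168909994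4025041040964778880353695851550504733905420751922357997081569603632739330442791856953584961805893750069920789332396975349773841288890710544403537664569902464482126495971191153993271614264368790353265541240831169398754264070878140118910080402322919907531382579664595523435826446443074998682709827982419371100305950341612284544862665353735849952862088395600502586308546555120332626234815663844173758522056596396100468833651438437215235260257590468366983635835129164996787382571584058072460579793020812020381044376894928460420114931492488043770115379362896574347611684135546559702336838083129764540218445153636652488979320061327765694995253615096214207119482774945052706544729813531402088404422020161025797305854373215032508417112873708720211125662709699184518066119458702852543150864451276188162499416734138492761300766109111121682485114164626101301509554565241425811665022093667906580660135779589973458738650333024091057675975529897351773799149493899834276763022809656409014996681170869043978770334491941385587028054646574858936230772921490330191549922541568)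

noncomputable def rc13 : Nat := (nat_lit 276970453974505266433233741858682492361037006965971028938408979853179331533087694696406709673830024490962975038298238910975832378832844456950999419976408223501632912901967486785199788061671660587757406750987430985980991444269518292248805246199238817365285594800773584630998011511626161261195999677305986271483965204468399115358734701980923263429835299782932972613676028362562312739174816047112927258140148139142521303097507277460468660763688590898156557997163851321079298065180902736059179778937271803016907295119910141006476682572831974020559294857324016746131161980222026334691845424143968102062757428377783589399597105620577759144381148382687949681389180916426326193208599444099738945600231571635351855228983101333906631470373631664687256933223322892976877375653251366228787161067050437327908437826834966334548728339377538082459939717234130612863875752514481992140539433805153153501940477297173291669589072932847689806457806173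1363185983111126077081007143362162062452318803983775033148888599874495658529879320949878989052746126074451528587770667785244100146038530637163015191020508026102542452817878609595499773125971284996150084089508599899022655213709145538244114033750482655425862233500836487308476288134638015906942566940950488900781199061887131528049624423453707225883991996109238373613912274324589667093129654030415061049293464240504155219860552102570252543381234000932881876843159402631963257772730377798789266704736987826379935035239839681037839471730332671222087359306211807384074344887549333304076433784575149500010187244034766849437101380951703227363645953199792799937617910526716940727612456957386266508990214329723079314802276679764297801399964911056485863793573257366837785690847278159371245059449677884800422586023863025636308641901054334209352706485672569425812383285788269704174191479704418078904665241598049705535480886753515231378726284381839254915641368398785407982144039408026922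4337127427273848886338913063519213446576350432504409338600875352663925219711162790617048098711613183010996593607416266494163891185289364323691332718679514876808779756387845000985786009841644907742075905847707755206035774932612325367089535539714275743130296562896229952253044486541757465671269122506753583620490856755914468840842978289290765535137774672852977890018039008359003313520520477566701976695790565198526044765883976343326216876425302899176931975990906732642183391149292264083235430646901191702314998623061781787948695699883681206433417351730147548167433664020410306353612047084555621125869572874971305423445436886753968549068287500099554167634529122049593428463258732328857446326786495425166077369559525137286823904799278289490154087318077877313248258544614207221796505455276104548616990468688535154972689759843575264832326287263999070808290366853171158037552131226625936073910501512310371103958763053212426540862031814109467550120218088478609918681638675223985560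9592772473882660994375059950218428455956055468103939549625743793802997174532813823256227569766181169551750713073202347583903744263301237018193269405720847594421842865265458161663836824299206800184304742890245008722537619799396923297288473980237384527360791691454818547527662629347978573957321167656352600654623312673723705518008775383893478057314486565021983683736919875401517956771118522187666360412346014082942888799673227245836912069926907578498206343614153771197865215225011403904548680583341846391642735731776919324382671086457721210469582337709924019640969108198891180774276259289973290722899093790909623184819524431477065748104745126967846595682986000658443197784006528093232271132235872486153649628709496699357016844236286176034505642422477743432724588562622919676959453458429430683160135630834515218587176568966476679962432105584385346892063214436924908543033539153455585198213194271728168652136200677263131272042720554402657248923832995369714887525278624925644026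0868919459723070379436562726086454678393487268795509743059607572881876701817935125062369676958421267042374829730968743037772180626764158096727304485625558847684215232335918317966890581487816362872244272995652534507039695643782933636533087385792943858680148391565915749863603997565881470526602438352359977232393286338719225387237010482705570789953280418522240501681208960410023152239809554686482717499127114809038601340762765322428121346229758458209947391223999255582954006303123098050004338828409221342153364742938703187730491495266498526480828898701033013871953830715263412753541798782458142961968360268116403952697572881715535195530198775042198674037923435339632353297989815376354127570885171416679200893521327842946818220716457198017645551207525319519141551314828345539392142424213463729942231106821997414504260384142952992742726657942632864231098338746604411590421168336808621863312346228127775669023982412940031794987618624461145577720745595494367934350016662305315326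6356006423544080167955769550560063858998294997940417481334222540970759369251119677911376081641087779652376160753621210128313246472185486631171326569514988610789585878621922406295061310855987393918939172155771641875421057064961732526156171727681114192987577087356599247276007309373172492287589631031745385206854760682837816255523000371691555027531699572025668282684293670746284730089847024451135617294946686386558154288978717532338549594785275707989975868433811045345643561098316786683091154188003818088979036432585388143655091321322285186522741071615697932882366607745854490591676943025236274306370688668740632436521496329372216370335260993970115905631080533347825425798626005991269791572071190074957909907691523177280572667807881725931073279445109923736137983261187630255916742881713020295634494434112509491732918033193456876151408737603032771679370133235485888709105178424717958475262825390130198444434944586127037797562253771735757358001889032426982924969716502288450376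8213039029106931138444081022802244033937536134289539464396690206686571846223032233965573220137220562671928337884091156726571798409552889744493299988938345525987606479111416042988478647318134798606738474225759913299219848997502998223024864089114697103429039206377456617569403296635706836770872139094846550691749349421798153427948330464826144737068904458080233284961143952907309502009272301812234019404729782624435614807675152582766524607401028806418378078705915055293953320599040690169211164977553604110484689839113945801777579898863078550796778203365542424860435953448284484325792468682097178171886262806454958647236243259259228920473048154438000318547741122382467417295531594822713030059067754667632784055856411835184765038305897816841421426736738313911574245381559045602510352227445254911146062938862610598218900121079152024030616630270284171938912577204146887689647133363825342063035870127253719699276206587708038542126275244162112594893502659331888458454335066510159975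9350231098487262058017706466118221486927773949380024695035238859306465544045221263051082725277913707682902358529077951976949029352282024503533851302995834630225902133305481997966234319403426106350788289920268033467578507392074108006769978408160986666908862219847034838756323660281206326190555060644453735652355610793349559292540166185252944757594795889166896049227817013046534442837559778359289931257449197041736951578065697359216892279797408008312821194691587084794663520633463956201957335110075197268802698706032876555976993665795378433645368282335239050116924945072845669896660175234932113204136403562652209775004198138526752940681593881747232050953925397913418842203790334398330706411194807643480064076120906170425891243733530649235723076533836940550993871612494514761250239366835665970115893838210380730683102781076621921443673258000756926138144030630127076316202525418199099635343283351190157243572632468158090097837173984258531840317850526609234181711296028897409041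2287787474716836719926336940575642253489417397004382967546500499786458289885870976235694384158148483523083926562221622816311124640554479439742973550559166584941832787093570421134291987676806137390609647840160295876082691974613573566488066647289571800122739434569519434238411707236773528570190014852596408206234136577507730663645178564980954552443363642324765938805631290231123995074246343733606827392304754518474977011488510701350272523023544582142700828710225809484275396164664905577879169726688784285034129734956509915568804831990351405702236371577727071285239261794276836921311324333650438901584929729598517525251354583280304369555881122775817393041218923107715316336269586745912254765820764741423337371142547725698429268874416791827683996388756111135795203925863884566693749242837083717848622340853224149663030284692028504649062806253215372240163135133259972990517872998874193659829354587096961100888761822118822770687258079814405519863374979393371323217583497326725642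7491634263400701690608699451942810721065134270489505173946997443176894022877496807747839827598286049650773624101238108204045891065122278440808671459374784676148195052707788446771086904630116441155883054092917877914337412509872152495851807897832337554990996887619296539864287642094634950303665682718918651644377676945886502805227420825680426107864000778806467746370787809141358999028353307679587816674432755167692810680050406626030387832497311148826168061834184548374257847343852506059449262525298564904347274284163332798062932576907466975440502905050214413037328134923462042204244909714803534835633386832581859872090874994043014242502277410573392347977613757381760832785334115665381233515356251954954350124609283333661104344722624222035924088700322733392510374216215231442651725118781709366164565414962736623537543311893660615101874271435470412564659722764441408176157990756240117930814770314433759735927964438287705907937402051487130013427692675669615351936124202408575486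7763275786884090458771597393486711646028894568363315403530514850735682809218390667145573801414512659705821590876877809958655453233801393348809810724304330629306318069381156593894169555455060224982629138013311309323048439322306662112990884546796200103487505074429344161788388428856391439341348926765987042280490823064632312439781177454125241708246047527893774503219208401487180314483013665013126485848656528883442265554372175320613895717208933872355543307263776344612741996359855698468793368098517136032692545262069688682792374228734267785974196306280477475584985067372972828633825867472280673025133038049916606291501737677919932200608665344480542002416663954981795233280322798020292892800078969030744564795119285462186356944034211294357413920764206707107802389108235587760899446796234271890225675401916363980744001120688994929366154047011093377793462556302661797959473922665075841815601286144323409226705424800047838930793858164778734322441882213503457536041381732081365252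1771048693646967583151064617742801600470174885361910447529447178141394320179326839751546903291850749143220990882834567483265596980986579215655676454436470303533321939778586740230564877854038827643990005614911068213378859228758203469066770875534210914607496667182885124681023496572286579930628871072197065261953719386895531756833698250388744327417754306571804054295535659497555595545617667443452506885666324906922737976975642966653663229656652366109373720729078513894538093489131760447064853541826537982595977922015077849784146062081687196601734692918450977813223414077465405547840568517479515937251927513154832276357429769678512344902060379282241199007249231073108333243837502179977387317024992695277099545981867329375173248753466417705761436956272443714140601356430111333383738480997438950358499449462942205995252104961896090414612004662988556704027513113375845015966486010435939373878309162079462272123005187095659645882489823634716556212184209561656712836351667832427680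8181990465337903612316344656811277797389881290644631409735541562067639775557309979418819241474893842262635684121066591564819978832699001376492893508941769411855846418309328542150191458614148808150048344352048173784403625744875254835376831292705103462827913070398143374886916212186344182894022852816891022129521441313741589606498148397604559538378348790230676101167876852332640727116202991178975752727960223850334773444792721426024454572728686119978441889314851503378472585947803136818993484430460589779577556161414882907580498984265559745091785947480830621175063228732074621641786052708492499444131334595149961273369106581824052626607699255345856656292816210074873049077606247915608090596361494658941177547901740926245847184011416713623680545857182759830128380611513972006991570716936708387280643577906864973640489794324606117172138014309964138860735387665512312383914721110818330118838225841559925976800871768785520052123500049220457317484563771811731183087023400084776367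5608755138684285625671869039985537099335210888010986470463912494199896342595872264643829958149852978390335996641477467142353290400857577797519306603285098390409520579939407888871812364660179006333359578256785553999567101829968927274020150403210894614708299627918158669000597793468782670152997003476601379526051373841864491897978032391512767907302540182968608755758781029570790998017440646519037443369227342202978536748056123024712481391052565608442565534219684744082252196293198865626588083270374690189797728768073107003668211133739974666826985400185481336760724317580679298092793774864188786531485011687664478020748897078942458779115044602353065045038829508435177075864099125896458738189676221020894346095987304187833391954407775760683657483714658595622321226024648209233164903185917563735818499314007238155940041752471643576213345417395669904030559551180970124579419725234440523719465092211236969175931080664565158297867348908086454832124034541437602757111040401741984135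9268921651834850812196715262502867010688826075389945470832006091058249716289516082381452892829153595941977717744364949328440184989217742031011576193215779678691971255424930006719602716883120418061022475292501264442578519763455081814979511446666082131685633453691451159410327944505635217161410440512096567507813022217042779050910962900907832367446054100118263848162091489452311023382414536706859750372283082325640766012493359089805916449038904865566094718378229415942704371552862221080558152208428283932675745283140965357331403998858062156454946136268420923379222807044118676370373656096928513445811723297192098806035748498217966464776338728872497736097709479500425498489016477088187188110694714296241645748752538747003372999391312051342803363946610788367644601159831672744367341385211022947267924854060559626339155662145317284305884014456883845676198210077775792709962870021695221606092803268804984171739404871797658658782402933441643784768990087718357895059081568114471795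5376781908043375642559009506998287855900768300587150810413637340355954480609782691816031217886330603024138640765586314100686022965016600169717407303003182959335452465931455320411251822230863280756817412293806243378318655367383848738508422024240772869370777982602400960438040559711422830504832317440577142000290143935775298126463983884514642465388562581137876005557274498078883761751697185653249987574884723889605727559889246268480967266898873372765473875400046506003140475494389491055439602547497722990226709036731659063643426092730096027848793845389812353189757507945062344263005570010819831491205150037148125200668479808779787211787142194621200981387912957840026517610598240328791547022770405985740391209069437896194573950533912758888431364400422617257319312290207685427208124973905731321261757559191093907740135869119130437748697126524442458286675746711080381209043072747543503689969814553516420693707721582083252783384385138376334845999018925315967197948896324713910390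3288549609277630763746049675604084848035561815012199061875834868832841675498330822160657576860850021088574306805896323184335057873138936941051375688338491897364490951356726246404753055312863007713139570721447138549357893330960275934850800851423574181061506506403854874409399753353804983417426904166299886635648946346183455141146807070744111572479419150372829353187115310593453831670123159641531858799103950007179237476669609943492543326366749605563761583155677823272972952460749149592044969723992649739271609561129314085309894843707591811096189546638140499534460273167059183343714370789928166114429055708185446509238937373343288968767640810412796890020450341783542670293483976727662192270114433971467022436061595256350205320860618257410553173119809912105573598205128545968537658660823174616008139724435955849803440501997751800980472843963624547215654682517445590155162786970950039223027718836526704766797772248216536239280649817747630647338926503816422153636073500324373369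6898372206218067901092770670220664200329854786680776673087672727960534440658329425098819460078941410890511163912619272296608171387147069209854946972054553006067994810881563532537034065588253298899376856565727406686078683253107778508608484893475512672572840956262109687057963094446068568917859783616717999414652321743425642503743601561667480819033874845262079613132008475641781865157078226120930997469016133419449803666492673681409391273686815796381129747518727540679919094647054668824472222857098726229176275885346935874805815847119473939497492018769099475701556263578924817354209950163845009821833250970703348557329858544695640464073098093860674854120654699453682178673054595993465405468754178402564093232345772398537540200044919829811688205173988606509331523546513223863984023209349741834464569132170544107279852666453939881996857645879932393650717389754534245898683967509626426359443289316104699276971114773003773221686479916514759659829431330223722943142199872992252574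8813122841506698040103605136422060517333640533371944193769471701081089924475781729990905383952626774657442715170096041631684104646976518874317378232798780734013310446502229622062028632117634040507365321985661346056043419384752656675126950380263261998761394452210784927351823390901936748273439731534579766030356316516706206125901931226058763972357038295771394098352082561068799622144362841791078640586564607983147944128286871533467335384163317780851189013256041103225631416802226538977811518548867674223629358996059432574214861590728172478168389785641700849550287779451159951047608722000296640453081055210086662448234298935317751247504405313538543041654283752118367272319043388040328882965203472199288809146667029268320830659955755050904668194787355657764285327989338266209778730797857408901000226102348379642647186227503549322958339009652011282248722431151502001363090040091390633693233769379642975167094568783623546206121504149719719166507075697753411719191965058807683532043455659610231724009154075840152224217939218227952875991969304952484815070939840512)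

noncomputable def rc14 : Nat := (nat_lit 277484650873911990863425369016942497052021450200524879141315023358123682101070211977820476391268784171191125340096828895592652602755893641823597536014536300023330757373427725245310699467048222584805306436114423963275755658584930690178374974863267293476431725844480791952110113422026206269658082335919663592678839965946734665096400311945356575271072595130288464524086162905083796868946691853366062038647813127907637578851192737881044482373505257977294708316285812252362600306388744051791754531131581297566516972783394513559638751041209609313715129765218988907235967852848198804022412672606838313233762936501241086692136523149741693761247986094549345362957512699676176881611246654562096536926110275863620226207190616713936727539024643462366754862027460813064038833484040587701521009371911674845625396243342037827116665682493138695274198999304618861797640359196003675679901068859687617428792810199764240797684297264909296872885696050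4523493171183075565079989192853461635353606342994229126992588878269261480872542047652065552424693548055807833771114022967003509317533201229715131202856995703359962851109105259434837266506033954359854118724280479739207449375434641562955206438564633381298634640732988993822399759892596790691130586819032264485535972646062959055204368700262252075152859337509039097173779644630067654589137993762787105504568996779222494954136827208813289505122303667240057504482586386746212098641011008687827302159261095021817506000889851660391641509885281757764386917553931412048665838893108878800374830766666625001854034878444328561813843021488891913139905629801122878504197451179575096043464133132422609595787226462091816068094491163868455241585187791660596772070679659887307412838663745592530909507485367727485866456169507615288340628355917883790921256744661275093920127207483400350686755287881724608596680195975788433718434301125766704696731805505484016872343864856185196533382900190975040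2391036946637154734691266028222836176121245774520236741721917235298534793350335074957928505934968536724663683019682511371812796070126293558820091620212959448528542891747064625135605643059030505469516555646735251990811945375329185405112065769035232268571867829807045638390327553705945079386478202441927330917430627917036939225108425692102691314814102860869279777296242391470226492339286541458283891716049348336934430985924658469981565149890911108835398814049618276035258412105304180546472898059113290208337086902564856169267685984233750410289345826480108372886679807095435987508292247591460964140848857151965853280762347466927768831994911111194686873735698390802244494896252236465229803104946014210843539378116830602580494904065019151396845685731208270098288384733795966590222972509314618368315598214974881172620523385556535302916351864380467009757692987926523943860874493138279554636386846912243840913699999567370295685491151068795212832364792532798538478641465489799283598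8610818725528116302179209799600998402126841315496231009816305839891279746329852444935147554888663315711477990935757667328366820242272306404492936638019606339356033687177211519321499022451097536116157760230633843243014746921450797881463315166314144930571384649912818655485277754066326344438077055317901628027844205375396721277727042180481143101802623404045841440580359876195046737527989843104793684984662787310654742173462412230638903194301148904886112896774386457009221731679690731063222594273932766152701218690263438247802458448043622609699707953915340033663308525184555462631715174055079379814028272475150345566604164419869245121783558994433537289807014130350582898957022469577249208295982841129403961982074482309047483633090297707196800129236902738086141858638320406775801485456184397573785429704188557393242023324637433805238543248006029032156548837773240107677507180631553635935147474117849016600846503640078993036674844797594836751258494108350921753008806344059830437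8809209617231324977572529007696714364030769178602201573991993216643581968551639192453993755979469444850606160962516249131858695553238768730194894839745394534941236576656013333412937361124479015161295307614801435612185690682936712535308645075551512551342872997719959067991292351741967187384171209996025135859508195573268629713002652031484679382436749621652640940522568033283723434127140619605057612116961006424057242439433720593562663979162866113641195495982560016133340943923323146171647520328186743423887896744667448942500266607373075879388151708729598718929413206627553524724711148037199922393541120664941333882170877070106033019682140728562828333165738453041866303410675834661000498699918443035321304184794979246553859795365581530421617614680138718025317600645147460731133492793195617526931568995261497627796373210212940711723047895032319287593701232630050566762560059653103958697918910393888867909955749559276963638228307543195813446887233830304441466458416612954464392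2094101822993290897184025306387244518952500859781918171412276042434473037784635570371797472378400011328995948652645449815635898281607721746474673668071357301775368062602252254590017475389406761217606536732047480738312226956943247599635906158747782151959571588101845007291045668933578118015442579539705798804483978871773033276780389158267845968058355269545142257461743045842533707640043316215985312531923179298165389950049378554053179415448099120836693797338896722709193895960314814091279645568385881716016695548990835957407654471349346298737305685388321160321934073014146317324691783617425883346378050123743446772193705821421695984016389250386525017012400489512832243043770108190993017844965414522419756458443314699895219957478748773645159880835712387329290994058741816295802090802126302493360062428728737658937069130818805096292205237011755679645917688286848029366346585931890863294700485897963786364678488195048330950244175821629795297654794425207244813331431632851885164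1539352038889182444814127304822273556119412132691021713646949734390188571032653190746565806457731545566495476838053997595110610253905201256479113437163723431811493450998525424082172340856141105383116474004474163533766908287712338275898760494562484566789399712591849830556122471709269562726189633113674792390841330221497176890080654180029306451417654016853913486162652857350057255428076913033996559098205532669361792745360086596860003306979643196646281769495878793854808968895528481955707265989283802751910642830431283640732440336451146792599212019727703160981998515107961848231372752198960585238785692729980665111908701009455632079076239177299535456301885640020347321238506081220488789765249886014244193816905331784062101736567809903416423240572234552375994391928941410899184605964348272491048737947424484010713693022259916202309960337185668797739111826354235040333611870422314894803006521981123134777598214886368775188586096583632368492766849677032877106631132292158204976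6061803717515409036718119000834915190716013286938615100938414216272389924254202329756791459347828063552426071567766753207624817330536370524824459733151986857624018298713363424607989689196154055637764038070096017848066228546921347827620874452210467166311200168306216617233791297044274519946379801738593365218705446539831709980574150302254492498531193052295787287206099825375139188185904633713011278254668145485440034856138247998658736692614200026913517068270319958908448070189194385011884563968532162460156971463002451505915086933903733801225927372886424984334266877901588641448025337086527541539487650176394654649585541486217099474023229179527370766412917583898491527120180317900570303429277383750275481558559136572235105996103262566782169181837081809327412958908445860517239714501367927996641988180839378461982696111493003660771158909592072720450353366347846333240858544305474138523455609051411587949719206876949228737461335871486221184540520515888519783472949945688504658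6873318400016917530223688321095390526445870918020923723593560227566403790571553595302161254473501231490078689201727009637808591538894002391384970100396821149836446952548174669774600222208628730607815874986754533849701153022597634407223522243544588992669834286722660562180213419841811408666973122724650528136737438857298976405020893255226206905074182979302830309332767152964425697502904566596908238665947294954703953189961601526326924848081125371605696708993989460563333804968934874849217211005106212343569638353129702843797719723118635860569116101914015909106423204391247849978787553244986115829088928267534438216338139813437966447980677450627520509131355871315439437056587854676192400801329986543386629089025061972810649597039300597418843718450757299682833301447299752936718834640016091932223465524707518441444048716103973803859143242089879125478922413247543904894701463457194017983962721715338353215776687881805711371832294688599446384948269610033174183529815813413015403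2655846779951551127702269256385028670693005101097060372861854982496392047335830776986143467648659190145716888705157948114407497080499554038395836065008580578494838730423876038898138683377345479968885567213950047747322711869198489244186553139379646611842202342270746570745207971161640435315273673536600948192259751544448371442849912433882193699312588283127552193121728208067149342323520947925867324920464359823153573085636757489780024873051732867380097319302248946033854136606426740012812008981571071201844385328716121326308230279578204990206903716732502680770669706080424655461672476924457559824882768739943503891747555506501085413408335399113012334902709531472523945157893939679645040653185078540988396911640610127141871865015298352392354191309862952013009878908120058865088738704562677393708973838066873922232363940489484339098158644730816405851403853066522193456539302219958639033000447815845406411053039820285137288958118370151263304311263197269525914224489862903014424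3550442656419648125321928623115604157107473188304845437732379638153831069114225069396576139648136307396804141005639331916371072872109837615593927518541393299933195996824705897330943505939202691081423440417971190785221154251491429677175904779659830404673634549367128993328167243468662491138008235565787160744418164518107503150051075676646297750096122771510662979680307664377144323130223066497693052494337280739128553418144891235779460182626929704768169192988263243161768596595461914828765652439040449888907983872580406751395803150732611255802527052429864153927961085123243498070668787573314502262268942555232882924874285723170959458707184558561230821118314270042949807451513610159103353880642494120098080597759068256719280829955951581815715034995118053370658664622507052565277199959628385296767878567406278354033226597998523011163711333282630459114215404256614146311296676619490259963504084303112299471057145187040050098547075860763721436888940392916219830624789103618518752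0991889059653459065323937740970671607545913345996347747720334388192744093341575970681495541866123053604822000603639723581906507000460308983980665274000306708633245187682405528418069011482681073060394787720818006293758760987612896021643595904046618543570243285736968076574155413922510954399970816846167933005189844121489535426913130766268659636284596553363111971659689063676112922748204531946705727461372243416810458606991838050521814371687018906101412281555721260029275180416476099516558781737112613368782844724293344808763826383003492403182917716587091804719443110921218677818262407542797872140644043463529844428344600026921892845934236142578713433416103756437527459530513067167679700121917345966158941597502632596341918583714090618242138223172904129715044990229666163980186501860666357485753683499434323215028972401539978974698693729708450931797236616947415914606518251056392663515283035047327048246302216934784590468916300450586065617964456123610735288986015849713578691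7425582259294537762780674440755312310712780311638025068684708755537210414091483612177119601012448970827345764472864292503140535662465389048042985566747645702807919535764237181819893446256690159131027059540835290090571078266645516288463869435062223981401688094007131478781231997038376837632885139552358176038420136506455750245193296724730670973126002322383718637437919464554997252121374769911630211206426709803849445882976573564339872591473617005024762453722985471245998034354131515715785986871379865662094262979758561862835927227786462335955160628832315956699602795449159474234158921313353081638612932670513179563074572703670304440884534059777269550290304514418041173107166263854967239056528017893333769177355022037242107902375203925414337994580724298923004590037576542639738708622412897637068845228616799406152526886623372535560050913825654322639907239810007285182420708457258861919062955839350205516224656073450767078195026208611354261449418404418094250852431880812864318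5660549716281617343032357359173398134174711987644570918524826645527199418811012471882151515541423106674289346776407005394983740811258724440874043297347870356380615836342152069616482574613961376088459716971104515982017166660584879463226782568533755231852327468806997509241966115071477678736624268715363617301967929641829285861671898286095817517180316897781306735651024157515116254640295485427401443706530698714780407206889198399273950932763773779020126705158197230261269245988401064483390194241887814243489037422407675728852442273854532000528300801602505742443351116116114198063340093476506495694423588525536448986006017117774875239025657044261765146634994453760809434005956769182422100208916051578866649542841843848193768288344666967204781684116474534425921646042016779265322882567299163508874084720396267627438064968495443922203139838671240381885233079178560059828818996026977591730293945864645793098710900776097903847392684386726181218664414760055933819888833431678802461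4802514831756188006644408367844348160267374404971574560328778333087550502376441322712876903806875450409531330777949393472531839632355366515834374473105231488319171601299506116118600127513922196804311401581947856691295317050172885822494430353225085872616765148548822592708483385569308635442096119859239232296005585099726744213481841978855404030248780649275611553116859841323016320346122647931954597244980228721921502923271161461429362617751743920475106791826744724486817799810030615662344732754904455059729165926121241173426195752883772476213050918756325642750618286630697559920911885291040184566529445228723981625009655396260384196635703680843798007623921363380133270325203516810860701837646456529048069818529261857037744026713863228237646210071446804725119322282933762035525425247475984275641565092707662006387024070484126993065339472003176773038371262560535830367493372390242338791982127373705780209542232541463784141510658563661979310600789868457697369319102883394870476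4732078123015588374198130279780714720707507183503061499742333566234833036676624386159981244967363758232595068575199356425896039234090083979278714651873858997052555178394674943322791309182546877393866526314091997195438008474391209614335464704848484456156676401288950154216379458939891268333096171348345315565744490210187450762039890710664904570987409660387860102038473326493787813061751708497115350572557080151434257870615913522219629058753748754396982637035908346766969822809481996583450903792245220914624119252845968787311461171348109073023302564973074570469147697468935377533408205600267083416000461220228282805164475873278492661287111713775708977556175882205599392467978045050040605312177898900251094937588528643344713602630007417896496582064893693829693975037492918199387547133464002407652462306314289321769814440591406180918913427500230949406143026870396046788757384653361835152393534208493646589725750787672605956558813398216792694976937718268273634282687423845464723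1664623452026653766307073668186707748836618936484156671825270909373491904805871318569826327921604795192197719485139728779958172388618099646285148351749407624653737360368271228564028637380016494976719650417257455520147117277071093435885339813951163883386264159247793457835885928381612689280562535217660022554364243766836658344464800080767102962662249444186904963658474051307598660111913407506649966481668975772748947857499395387355937850001328212771312968480896033509803988655834821309037453859045920858852495444326456361437828176643002762074855030457527989996509956963597465351576722778695176935442962491212656643904527106335580249302782382066611237694191177862329584375812813149797608634377729504458461079927791978513984254908264244885651934725120802062819940278443153118202030239107770787249006157491475085939554355839818367238623967852548446514943126774537483735399358389426988296533725394449057411516861961938306555931917295590614901655943754356714826205417933797126546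0955253219388798460501884740141409498967703868514835218972083079262733599875667025481281275413345516541410917157114637052091627830437010526659414744034825468429690400203417491499473114046568876648529960429471366169254052288725986171698921641342821666750124307720288859204642097377790946237991486125997080319125844367310343729060546310225603015091320059772964253912933070401051028798270326473334667946516137485338976265149461358515453024475044594287455401719590698745777330336391164215311725705162608088666940365860712672114361506535585626037486490304877449527162061031956365038210058622473450530644240972544740160022653929104291813900824969433152728666681487145086532209513337140721779299934627935360470952179580857281224099374817132569935534484775929250982535805554091204806979229241657855488528339119639667530888587127658430049651860581251601230170263711057632966541102720188772309934268497619720043285360001058833610712258451924755902973987035588132065703313827774605142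1427003462480269524254154117159234633166010557185749977735619436818803360662435635034911566030129581414067373214668836426055276226699883697545871559134878271334057084273337761407868149627553754773586070952562230220079420228162470782275232822167332676418281127167503984180864308947711218149084364887963645487034992041383744416993394842617652045019059155031658600432571341876179798915607571022251563497436573584715376543645248917715975839603036968038261999879218241977799461858217173230260120348616707143201891869292965873818719422402110500502294086755876604572686041766915749357855462279050044126470472455412350088096322267157574745571970113986753880868657438584819345981459242740865591272133142030722255323455337779893785163629228387921344379432845565243243575373683584298170134568490482413552652362620322435944734674278566905778026445716608018676085166501439628863080837048277490763727462443345566626192934188814972493114337718596706167803823741856627927235402648037275213716404196432753599147749910563046879565306177952326403411404512383021683248784736256)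

noncomputable def rc15 : Nat := (nat_lit 277986489236656647379734819839638368241560686415020204036473247799923794276864126977246868303188378678914906372753360164231479773049916519439912106562812578398457732257857671172787630828076647642928130380477754182927865949006099875619072525163743325334046097883054988221924450306022782890193636240824253875451279022979581130083841471087820131708424211698626409454411700735668705107313517462640689974731530065138378563149397939853669247866603670399674286568965263002711657521435084259383247615501349416109224020187139179782959631878633269243192276793656197189550383010367836518048286337744887946992929218471653185983158271866705607122264710633265041865998081169936380475182707688829358375353801607734464898595383603609696055725362896248134033258628812982546656588368969112381992519362103206197123900991101135695176571838529876782698090209544630773683111373256942355691943778316816463988437106322665814242089819055355969623004618684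8931365829767303945792570248449110977233573898209161675181680377772787488563821979603346777546940659963331900138028343964801122272560535435484361094308580103887837848993504271843175467151726374479137197105023871078177905393141123168011309695796973051926701893384432735936394029695094761034049496676999311871812708174116286095975896338556629246792297300162586269440380665501671632983750499021330882216407505443531291926324795158547213054580757755376235852850455184628170532931324378119149084187182543562385447760463389408828925142809340367580195170159897789373262871715901268261559643475533133523372155448645656567812939272645091359906529131991063308524570189750807463311391180829455611719944285636350612801179505723232565995691935109266356273789343859740000728131989859436140414190872465744907533673683148887991788693217678972478724277860664337272157182538114062510136228822170284236472661467433321097282806945340205537839290639730368901769853768203696943036264185070119491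1619192034318604518881652075409367479460671530480621587828191862481907600962063693765926408335029557859657958542793284564481083230006214405986166819008792021866559278990856819411972640657989680621355847422738065435099493604644692256461331136132618699197944112983932372714670125703806298349079038338421613018860944688543480953221450042169825794414164579809160319961578808174367601874110949200621085724483067506797047026551265706911802030899972616539069697913406256832310744266320804234272706982685762070200770886440313330494472810046022099957426422387248583832542059227699424675691204902236849041793695660054022250921062918581850912222934959889824917228964689563788789449339766159490926684559640478010841800309408276461581630722456511644442328122208789026746940507687118503333933682015275461223427946734516629568893085394837347281991862523056182767161017762710753430588548116910620765995338914754352704862659332869689697264454063159401295964860868929527463813816793911585649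7491765451742196754799430317361230076534468101138300329350146081034949759179794577452001162383771989194098753348308252989488200597300479210855470001303036108408093904694534540265721761365956552693844469474193405180998074594053813296221242732416568923628276924470108004760363888261481981871163684632408325297210900005654413525441076163914523876520473293258206848181954492254510245590208932083977290733778610327052344090566283728089497206019350637129861235239499577665456512484025599992058356639586509103245785735767798612391885931915794556181686530541925884044179479706455489551705564115089056746308735610343146186198898522722608792576920174804075716870272570486105267736062265009711065098786567001043474976858278708849712772397659417269837543890444761858136064693013232506166067827666152744489222601798065483177240761617565669874293589802833493442933299648157880109390695769335236302826633865755479619838764762575917577866728534464339974046291097917576894334934507423990531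6191518191333888308175887426422231679892656593029111269117885871220190500352196437018817492276054474860086345901611213313034755528585068797281220898708376649211600011854498833293956133604062844445144713306470278637402403739587490450431115636327493076937614134914783136760047463018930718698345483116611003974355543518620948071839468058193066099555093201790497277623122062542685068949611073693768487563782186838112491521541197097081777139373254110899381291022607469689275981532107443010826706109982997068635296346028873829883544173310154520539958705758198261977141882493836747321982841130965352106352799551812937821172308993404210091295060375038868024234728814437043578214719342218425570698173187076423512116089011593018198875102526773663475973285073388250288286985202862378285410753390953181615891733605002341550185168959189394320907921698549345606001827508717981782991170932669251166613060969466422717646298536208940806103737736239243358159472070495071504660343846475239900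9095182072440627526182751361050085443117416934322234736605419971550402444178983593290580582397195267199937271489722895451334672310155859243868899458035854765314463413631837110465927212453344922381863418439921606165797633132982977915176361062135502938949545488112552613253440526137945811335792051303948203880934966269029038003943404419182424686265701383357515155557490399493416598931240025263856161134978888898107373523502924497567992972454082757801040569840465676229029080958748306082213998669172573295083609081355620876029148925510964580258885972086211398147996658177577565497791772850530823054737725124310228549539847250442019506067769058867441723603187285921560501559297076151301974842450862458648946708415304859706227665599026711724970103649712337124331827257066964975951974750479786489096291292129968483944152705268366056084109108929767689986715241701531525768858221330978246620483066025236757395495674369161049248154421819936010860235106895417323129705446330011835976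4664522056841071876896278521079112610997807220227813454241481355628990023530604995671699356736264235973133710498346720152025830384400475981473401158777312384538762677459378433946811115866670494305870850537494029129988175791879413202706759691031850542678268328984949684460146751374110052432997148762903238885991521465790795673715762780167285799085009822726188148142781554109408396622168436748139319836193223132108923649429713873550453364114046330668495229126406167932034492766971715768914692559647961489212789962553694688617194841951150181305969857008345304901694204940899337134660718204514944099276755028583184195515549693629553999934435906447617449957543035661224292563450661932376883680837147374904814689040184691338026857093740099072922516246250183033949407171590608698280355733480048436387145278222760215259764587923881513196716978815260566243317048649362784395131666195153561156953121859862164174612253638684236764294230226038303888218859242894776790690771466997260831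1266618632448449355351313353271936417337580240075112494686522515638269468001380433318612945979837183423036662940766796500073833553813195863369542829754919479693559942692062580724976444111809069921639684906387930040229662817402172671505119757706512630297350457674105465734524438968622350048354186910579862917733537933554708555426619928862217142127377431426163993429821369819243692426114552139853041400331195976837341375542150876755219418960447310377392356491615401360777422843053920195780988736137729899540625616153319313418216560659920901627112088848137762726357901206342932417325442873598559012213596854683296036527421878945095505522862449521747697998530942540475071689324496173673336293589221927525846659695449409269535721700746883839200911901540292817485376091618757949270000789539013845189841595952131903818282629229282462734179200982530737681531824043826976962074207048483723092273765427238791115561393152515698354639519338892759634166529602319613160561039736932777717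1554666782652560931681015945246074777498463096161306073338498352178366801457749279938711572805942559509199082183478754225456064730551819135151967544643264070748149362179977355536869475273566931750525008461238670815852866199183625767990110425005380946691190702279597808401470022748014452655322186671434378175760857567602888177649655216448754075772036216749416541278156865370366832554362903264319260335427640360195042852286585208609490683661097173351495186736906772026342100715119636131056033894442791737590919616512480293223633133859460146951932296918622455296656155256215667179039113131551870673181695128292090368525144796055512036562827780911282682649834002712823197449502970967887870083582550252731175941952318497848054167586121341669599010285989140285303550242984443876869079478072872660340883628312495363220222561930876266145128823467174192918689389172132666898660322520608268051789339519951567557378957101340727076086931990545534605980401053235800944865483028829200403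8346336054926309257033501581275738295863712330188147253768445240600508094822569763649172143816221187509971564851626647092225980483439460499232727544991211754722504052780047817971260566117293973578557087655896859852304236866567604996651267016722072899501089875450771578520966364566877620247001188673518543800849381461201548008743515419323040849497405373101674502310968756706599859584204888336320681991228150885968192695534954958814746004217477470500731776058748110323589607783573069377742047780891631995693687015834631544549796864269513264213745140585508653256149762062656077562357369224006269003088445966069969119450613764592330479938744283846350853433056284249228573070555133674715883945175179003754820900755821591587268842618606996789751085647616221184025544990225712575311427741666968359101794738246503882325403540812572830767442667777035302199679242438600743114424906689387099391549048077102387324600294304147745505877796783854677689865869563694154196289250638890474291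7443586187604698683168880382224235187950496186458468562981341749198762213650617533466733704849159160009068686817374881595440276364281106193996839397466929509525938479637062346044693343050037693055960121868111148858167850325046571745842268106999446342571407863027073356438522167009060393208298509466704624427824603968525717871909803547816268987867254154305225231996340506554927063785190529369815444829163530068906640045601993585642284990386679974260222613489301447574999268192226276591457967442625541978927028608898561342002791630177809371054725106722482638729769760764581598109504058496521018466613128492160534556191898487186320560006654865590499028199684025727041561760847885321434870219043365458138825833842133268711487709451357519258740170754204106031964390039574887498359408582521985768019739943170874964093965599518918486808200910651880797809507052241181750487287466233246164822180057187381139274684376007959855588879769362561849822264605226232734646837455338704590851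0503177487839272783392134966725851368354484310824334483794128206333771612196939331787209710319501043365592385300424280805219646666516405434003152951722083492474349004124331040675113711595033934945765842075516172583221083891802904784801840981111205285697306435783011117700588068581406288772790105055565375894989075649413825990843647320429019032929541894745716243241161531421378506424293195234971792533684744324850668846622289080914055341841093434903599558647219840908121789921963362145148595711700692799706133947906361961635302083672614662613935098294592822678702189101600905701108295735087807403023059328666549467684739279039576574610161560894009730166515375450728758342012053868564720283097273220937328618261460589470900254747109677768294272438446644604982409581946224589119652349582204301668634306833230312126805114371376593625454976647569385676103347015431418743261831274381267458599864650293390451849030792615969798140921891177042657059246139991002222284063012728837781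3572548264041791329569127713296914206092836147000942528693404960029661152261755675915661216725317598747313417813523794921021533077117236746094396255304129298076372294290947690535944468850852212656646773592298255151480743225741135067260023916083448181375023533876063390321623919478892748372353482079296192940917656553003983972222960620089066371473913167145093304624691027608166675286739795487538024941743704218160596189600528917629649856937231854695699496193406433729983374996114002174912653192364873642746686533646518312799439739685523970159132260173435797360523056420455746730540312203538375801234606921634064897980383564752993286780069363629638665636096161581472014535376500285805293793750043508816745080698362930662607240742152861518013950580111722723878870988095182842044708803820811797020294237962518431436380203432498564956169384657851460819762855267018668311578603300263922848060105284940320486368089585762122518857408066051836207343298263680036377613418963331824841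4901146314855526596148205372525641257818301558084742461334619713224534072965258650194161277326025208754467916680538550799341966985730577067760259975429580672874635270084586598332534343169428632277315438065981251959061299602508584526792329019356230896395061738908872516772435367889779585125260297959526813726174612402983159648937837205238941630138542228003131321256112934205500047043115779319094522844894701690024091808318454172541697632264083451415684910843484856239194081454626434115799465022023224681580532319057982757962115229570074433456868100777998978245203288605232984290082481477212085922249295205440380827529889656009029218595579511561959589872861884485279555312676637736061476885185336447885355770163700572041217758286548198561763615093220990576034365399050020542716710096664642691042689483087670387102246168514641107010886593662835537293808882736428380165152173289848961856946538938200488895530623450998249899180654152949464810570999921768621739070154927563175713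7183493356318659050139746988178977441275873968245649504628814656774142706092381482475821588103418106015849049107711809255570986314590433091010518121164642680880911387784709162056412295247541582403487365827779191291511363629065246746849246808376617011088690282770158644657523414119603023000756992765345100294372053228483509659189259021232404280566318268252162817657560957848975094147015658742425951488557006747865687597984631266767861766068070447443067871203010443291802235337383105329734741996454538568676705642622174663302952052037986771346248696952423398921241560114147281692068129442368637194927264188849058068645397186726648122914520170760406858545982054114910917159966427447896938482652171769167620887280406479953166822438714074928874240808308939908803485930695004903597310895570326709446061476280591234772266023318310952736550728407850621354911969329194718448100423375463828219423780399304231556704225912796218328051803962974258916378839998569457793895507504909417902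3677728575816115291162022757030223958542353045457939856799832080521067091168518560885747257913756922589122220227352221365363820859067658032039511895949548842478961447655198739347217800709355110473492942928612875509112691266089097816808926651482583245278643070455363025051638881043815870406587569030081653141781093693133750567330096715491798782022137411869722351452761829543185780804586823240763770894116188754932022544702109367900845309735998812883760171700057866748314870453807737977911217282842322350470998515907763384738276348757694017734183661542594938708745869607270592839576102193391784070583128275572103710313322941469297149473067778460650445987129950323644083597686325374875801109982011541632039343774820349094661062383330303676265831984178453189264938312622983336397860398881634201920665176361466757096690951363862388626390235001375312020074787483049391627224735543225057838807864480930554685741782517372451485913472522749919131266367042226226747660741062735167809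6581914800735324131951868692750875993822763877948446176043372171080840320427613460001157303139400252970534777297991177966496441638905936852349692664466043647561923031268277497262275500390998695313922444865721846654987670747561243186885100459282629872463537210989616092890503174412934633719241230067654261536163588706714868511386747843805851917530203631866690232813933873222564485415781874846682165428179996234365015865555831523858748278586375980872924457475584722563777524135502861788301119031765666160736762955557276687526418227440603784616868298945292891002066917572181180798417576853171055958550026099287783199316006886115757329159842716184352935439612414076491311541548149111347990638143455293657480492741836680032402199421298215957658950127348808449017359437371608850655192085371730324590262706898754517856729162228481004768580053500311252525905447320680926077569465437439875782945228230859808216807415013654240811918551338658723710731155054514495684762218964862702062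6621677785432579548757531165405401609590155336087537030968665143474753816757788639717100382811047015966751215754274991084038346879138966929168488579124115054561842979442335390389198816277361008440408520994885753591273547098429617087154466096099910990763298221133466501268377763342282751150311340761677198405028353488427504455183389748040848066721703675783415448040281472172100544365198091265483206737021251292807052262734341752861171568042042940537476329396870115112146769653957935859720294707563326871854936484761844001943369486816917388848556092816877307350071926291749686106920822515260613305725479960263941421312534747796876952482912037501531895289010188085410420872297030889115304269813668269981006567720272432565983169850739647240618568233610474730741289247330297433868005143968290080018427019057084905265626487858646037718575538560184757788730095594362457116680775515922380425829879051031706429492041763423305861112692293202886819666866878126219986547890652128986308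4170475284751892003644395596435148202883149266134102985194551302265144953322755236532839481047052110100787775306034666354027003860118815167250952100083377780708062454390914657502514696328182986924063449457412026560463992223255412006393498057180320217246734035016492142274593828256409549649219503058528674177809276800669935919287701627807668652904858129099109592323416193904080348812081320584222695923967184836325540679331616607711444545458813175524638245112771265510747244324113103900352065115790886018580850869631446999689283751514846881602081146809765645712570016552980630357514341312815915252679550907495962287496012275510705765602654730434049628842654463401156266168450395855589788923528990076095102108197808067149056339692099590480030402903951052593253171703652904521353883574784295004206500416464416643685168008766945168300757760150293502184964457131665982088490459742937405327110808491749185152612854998526742366262791789162777903147839504971007236260232039300395690327021955321994404922162855757255774633182658795560544179031004089560184652094767104)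

noncomputable def rc16 : Nat := (nat_lit 278476163233453069554094231515263467857819434015931130511932391683676002577874676197646945984715390405070342357160130826431544099936618273542771554399072270445848839482858868465042978286487626986158708511606508967765761483607325811017938689289725020894109623624672030091246932579443192197128247380844531258883633782295795882217549300283970058887150663591753601466413341681949367637373562871520662629230853163370184134858742548930035597259692560524577553660476566928538023641433181164298738333015854563952218783545238608453532876203673781284391287991029666892545506533896758287562540318489082315357142450949872779974768486339607868988265738165978505900008280673062268538980603530961591036440425734198182928142632656427619687425736781819624588443929433766100725733666704946580113636006197905840572069158076873791341892315538196217474514935809815547455044462629131849695532500509493306896282418322744719167794606623478444589258344599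6097142192673991928697368725564285698498067700100256476116600192887232005939283488864942236903143698980595644771584361968990187202385196118563125932012204054675309825396345609268577822151430521998197619147771422302132711240465305325585896085809710842926237601687247721254177688762822006718326678199800672326994384772005408682097527567503409104826282549515200675697948613149861756403720404394097098444893612270913331435995208397769057407310965667412378088697376407180264222554280175492072713161355357505285840057336306612917262624369142497319382652993311333867062013940120695739071268378928110210785491961555778746640230307334593340936666474510865156004373451585241841320013091037836523513323850941956370490029260619893722741446710184162584010670864247056494809656132700072221512747935122462486783310305271859431642651960543446358440956222167183423471839806685957709119684876627605657016493254589679942318753017403224361169950354619533398397767700516722821354153811857179884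1594135222566896870367769690756442592966616680887526462958422059280367692318645494135859446617932770685199817482557271431050697964019539017722063157194953987159171574286078196190257494630914306861958991454308891531656056123836013710077660349149701902110809005349313977450078673858401829783651179133075347473651042991448841638056438621023684643021193121062372655293889469134480015135913620370724588722511960278654712082756473574856372703569421078899670403220749527749511187008557120412197397757349370828736570963485617098835570266462365224152892938475699854134800325806854284961433624677239435492011563870412778939518593236675868468471791611818791439873952912142321074081678369277150426243664511091819038413100520143078131029239102208215482803263323568365609071188700755722747135640823715730842463219038899401728999624085717132086245561323040727782240257042852761546946564006198048628503812646393252051030839710056785705467489971753899192459574373938692594930850715106263970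2600015430017771598887813279680505669456602718153227750416425136827442172271092781850705668680342237000456528392651053380026159074559523544179785165047972000579880249956071208025960017315111163982913088792438954168441510905373559234213625712634929733649937123506320272219971117574660370658293759596084906607534044440201740231477793948624469983364898118196645416742552189532917297052027750736500210373947209404069536281056916476316525042529414677182659942409970426997156201408442697065089138041013617554769472012721980220092287448865929398358850423824459605415774716891066111689281782483873292795969867537010709671704784964327616264019155903342940722320737203715689635496063756021114181243714023277050604798954560090563686968275709268893157585085111193326022347726140090504403532727972993333430174344085560334662031419938421104931366561644146851015705472086189111827754548548999175015889464750896571769297589063057795608206965052616165979991979590109179981601734152324711958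1976639748296558744351788049807234986578107285421306944151499595151803758983327895763633726095848788964368117025044968449753417938404478908765490228966916551720367586351582075819286541350832571144426011029107331577984845697397316077130229437469817201810070226484768196272248756509608739561812349465860433603693817509460157928747229822364493983343386449571010350999307202532406612460369684266452033287468977311473900259868483841951829505523413986976476880518499252029242780569785431348424018165053677050141940632919090793992910721726162961309898183893561000499277940634523510385397662754796330175442045946965653884516900144196400035280205568752626032954278538883071933102088355438623543863811704871532048636217095653045940539771559592516377320763078212965228758040651756675066349700152336934411842491852174446375545310431210746325896994436858273797126308165481508434953792085178696121319394513033364200262253875817967058728602110597754711171653550097264473864719698972949334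4491488919026553429812724744115186346903869914178237011291390687688346378611423997806936930763318307113545567713750091329749563951051593869573305682077568779438440163918278369642103474814756367556090840363525467348683383852253908233695425078501751176525224093739943763864037679656604632987483662645550178802908515540636961598200158421730332285814476673592932752789714626384216855350353188291828943771975596931888329176817597611999959784128533752506824924693197966801916011336946408019248554979578490577151965664021720971235884510668196642791343549685991189160816071269134402481024361874013650831737232101075738429577238289163391729291614164353167013452185797141137561399703542297131326573540921506057499904501452084815037608335803393234900932744358961041598856690069979455772507335255513106390338399730916951467272293205966904659868676590475853047984726316452972982509673385042644393439539373410014880647361875633191717415911241261353728932556958912614361510681114848503133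4412770259430787951359871575823804450177429260811973876785986491577137250214283975222215879289762233271248422338613962522949009744175639796067602542107477319633472266262935394759695193133967717587158938772689481713616265564548923441496912909064806915325971210377559234106843534604931071939573938346680080936679351188190220847653280540402895524256347074533052035435183999352585810727442255630862249164820997270673500687003365799261554221246538337582060169666149643971167799902596016764769065936732749688631847601926433585854038103331822260605852499975785542522946614298427170042871922297476385489875690015973113508266032989312750220182222488972370131335930007185166033310417726131942971329932357945555086997773840938080075722865326988223578595660187819114289120010376558505436639214706773315639060949288320977272089189091379429718231737818336268044818223465619229910846086754403984763763210066736065144159525521012451091034416962552586263694113236578220688858064521295046618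8883828402678027829532444517070493426447010899428431878113668582120181006132433255678073807371718405490001489555001572681306135293684623721506175118914508717265904893801960050659700331214547765784212656631736857934513657527645914955739268387047606170700851241691893883567255494553009972125465053929380862085333775145995836914541267348083875385933582551693813697714703126808761962063216602450381785267516027185039365579091343721538122279073238576980754163233408024127187877540300240136390454405093803235969380318379431088788099459416995221758334141890300236619517095227322717908879379010495153231000645453883887044935141794828922783304887582996492034316805702458709408981181091181738540557070757532197257423525902042315782515397700333318150923840322181123672324496396204785799664386517456080156167638695415156848233568965613864186243025083721641470453478163975644646822271661640112839351079683423340253557771532344856866811208653517490888332364890847365707480407443949059777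6828062440743481368628636695950883381321816493558664071436890635194412132720265976088303404094133102022001292428762987236642230249205992915854395976704113738386530649829750444053478788426456561321301840172592348263621601833779768791861772275752414485238727611294259977389766455087183240154750152471890363722252383681478680332567725067746182342522051857537845463233812542460873806162070331413984975584043094437185922254750547898567541676352489892217505304759766497895341660341731908075029913844922792209733428612829810801192204664302753800304320612583474753154332688397367634205912558023123149049626881775762322986438395518931859627900554509624570670482169215133860486482317328185059809516208422942746674820768631689664741302313493844954465884511688773668543580339388156111186956429318553974004309106473031381456577203475764093532859336515288672786085768078078981879873498856532577721615864264258222247227816064587609433684745971956806558247464232953517252757009121335887939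2424830231454954131308453241172507389853445822906082124863980876931759542904687732249653269365080514234787912854533491613423982068305119399233979400811667698799310124898695584900333091398452280724088416384635527342112111330217144641901446892946257071523739576531300396720463103738195700158513271708422175673722667378978477906137731404914687022637361367217342231381292484255985466158580860022001716256891903996599809451367905425535141505360407563356372624510412462220025072829830512200799920603569425859639191325384337362882319654866790275238062275430471310894225327744397743800697802317983110168997944268428892203494730671249585680541551538576584647567541856604615438795243543329414598802756337272867190023332576431195152387507245207173242649738299250865789168249183238115670748850763020683445522512375670747145913285766421529662501190666239566585407683017612929665287958352832140090922387050002862589097934907902702779647091455238946002841933582134698442786985098627794447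5715033939266297366161656658349905256959696812774485231446993388198772993234013822204401595529882886117389769267081053640160989944886401411813086823465157534665238577437056650625783184288411386827630294283075141330697828911412078723549852443798176905951250705841057158192082247417972413591780144261227897607215371650521424676369989007319766423820512336849874593481760399923008262158587509317451304748545230675601060392626355955525246620366015416673801557594786913004845582215874061420394803333621194724861485909173438237292181562467322148800516888184749641148701849087407601604467968077087426064151913257884871600881877989420906493188819299485557890144762103346781379714679327404166179736998718601999293760521417263299886637097463123089655616698383616853440791349745008971920820841789608989457431335388305744710261963331691476380497368680096279516423062911849974090529749767236070496869906908816194648766976791571367453736003438929513024252283623520915137014387262103672140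9842032677909351605798605996135496809278730164608759048732948385616035558559936834540932286006626538348849436689200582832484529037162143839643393398847521190307331167087383715169748298879895354726770169878411509647716125072049521571415557384077889068619898578564180486225656531157209823224418217495120677294519689896875121121865014933627866038308893105723990828238663910207008598127641892095348487428365498251211432357529551406646114045976398765973487985539132611432168511024780466033802370902142911582918362270120260774707872699552628742782528919749635843302896366362919374774828127139220012542771889104044741503991297611788480372533443259865742414638184560112620502120214960341195442295468800830633827422978717241954858419239823320176719288170221971357950315911860348952259537271150249635545221455245322073960791604412291140967596061535159897380545671373297298356917550399364102046973265864547521942299186243858207257520260248790741987760289370890329406035420796344099136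0020315693926674059441564131905750813199592996103420840356302690702142406565498264378402428346770053570157692053405737282517226709170742661768798269080410848475543506583079984233687992310940292176469837637364981556787818179176926776037660655438103448263546551483890383622676347552101955856675661479120927639575712342509511353218401186645063446646528877170073859768406561140392532867934561484321998894235031653722795520247132546293911549538682433090820983928310607138720312079127768349685108552155819696173426184601484713805779948133827151943659647690858789150856095191192117578164337112726576938143715790795936415330950952773050040667227042365472138114606932577993933602941870351815115607027873100518893888188980434890064645501043349848825735130563444691469093062324128296839259792722487972103654460198035214457911686300936427531879969892197429357556847092002108472328922774316610346609179120489173620591959077825445188679016787417888278184599737553830912839681654971517269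3064141209680410777570429936001823422821381112547559658379873398908089745620957568225692808050154858542768755727796381705724369799499796626618908194962070376667737689517993393283448408219784332786293338486457217417133656605469723173288754641387236691723092481302440032862435993057012431110170484326270447757135797022045297274074864305570112143839759960867987248590172111650276920289424526514840668787790440255845937989357055566438696016412886363231859831288629424699537381334169658954646757716027964195489640913291939416098071328513762245219165469153019267310449152975205164433250191082809544205513322377009956202134296659089589383099616729101365414554141491345824714759773848269823104183733287122705089311516942261647407741123748869844196081571299508162449963042292395026696400775088369602198678058691812340109197312701534931288207663243739040402478472390836510576336104948006666636006532886974737604524212592091619862404953497131304052369659678228655561529706053385230305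5430613985326546565720510805288621522281668761774245916338632494496752835626739921651767498231689878016403604672916512996526062754758964914709187846851847429390067666152740345168051994173480691656117841914006316188994051629730125377197575695029996533196562538142664654982443937156196546122746280384998098674122501437717879561739771052437723215369748536812049969660025597652379409824871290763555007339466028113138160673780810528786144525525469230066903393848762407240920466526265013675015972801612005970579334778096338433207071946731752041266035331581976988393564183157082666520662864665235234985900936841116054603611975128186811334820812991918059713682075107266358163466786278396673339135316305852674425509216367077950879149945089322014243273267258610820388713480472562114359894898364134525660591652636679515031463845049149185428530072210106193444142374503116990281921840382568250994938830382483621295539669260523242493086041470054713795845853270461426305214849567163429281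2105018836668989891604915329122717917938399360711984033978816036860608935923135811069761969138905271487358262121147942391737899292108915381648591078394466918639603038770403141884981944950132646135434462752432225023553301634805664285480112184013364383480220961864811735175803922769983026895400967172054714658187667430689614996950593652971351464812982990758546609577835485051798361888641325984820655275053846966631148449179448416576374364111932858689702534323823528170980806369482959747252207190463161236908353367602162204979802739935383009912498311584428499413620350731393653817890937055152052016411906140527245971181333664670493567021307661612496853538217183898352606282458642069437509621963871245275410438800989995840124176042324198003452512362250580221527730244986202420718491618006118172412599839147717759874452795371431544528712145685028994949037816839887882066606638595428667109587830310600229449487716152172595074131270386054720104987499668722378222545532454022388301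3450395985395612111160629994237378419133947839424953183379481427548597813210812491228691363297333205384443706809227360099537026038775716909618465155816488898187744851831110120607194982308291853620400192007245799883968841515969909382654309746514695137107969418492747471348393806472670538241828586330561839503418843555580817077633291989975921002217047325234978064716856905783765610581426875293796994288903591571443663184226378649965427826308938355119132754265024218968501048820344201645465112582126306985934952267462176858044797787971979901506825166202705377350652534101439801346719975932941841549594337750332770700763556581550973221217542280976916110083701488886271906723071849079856863671194090001491523333065934791315115320496376934467465247215625014356798720715408956997171293816023598110763697360205205287078663713668952474422203452307912010071195426301579309738460953564960803818234607812302802112775478627883850391543093668885166946648988957328045115545172219110003917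9224909439140968166607999532985226550464124233077533927183358721011231964951722675482736369735170194532791633051450137534262698357152415349320373642265836098451634921591631056243865046346646422145589519116932780287961775950820158265846606333725763246933461756355586255940368890173972488324713501675584238173422417100050967746564060561128174591649870884238931685846212853987036587999052722957157164153870307986499145655537437446732875187383834636091552611728915060723436652984856946130049941164146986960893679033758935786414159603648393679373358771903022784461256226471680748048911493984335474399806753381953997328766964305473414010050973816595960729953964513716274110912941822399480041440150487945953564064366849657775222334317332778168795960354146221224218436879560765740006558334451463337994034920539929872229589235313566245741642240007374406209287591715297769658003378197858830165660397029478594132883646304146043961727119167913960652013434769391832499937495911820587415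9673897485599304014075856564362159006228898055772178078139307018963464629632029626348780524298124646505046914340796081196874934224062896865081501123324091162920070486744329210444983420886597480490251456946982020436709114532968123517950610508177397820802797052558021456297211358387295253036325516900546261807515043491673601803772934113663742416073788187632373205189132495546234548514027480253872431118360147472280600476520554656844745429641283484626192537692591820984347635630659439098530163365446549510375398400071964993139000347585664192395895640907213587300925175615120318084630651989449352936737266840263013852261803494207666465981611677873155239128914071332880004425367976643252105455509210470759828894735914322731554654722020180705941797666213795176446851355095405776841127257747767374236036608695930542643498015357544459986563294461218069286445121244184799638856558211976485313210382037905187793052421751636686428358344049563334742592527065572590990097536026326812425322894778982045518627675803612636529030028912787413622843578325550330095532893011968)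

noncomputable def rc17 : Nat := (nat_lit 278953928722338300210907665188002600208604445139091590904445176433030253094317078590927699940612986382475753168172694290711695064755330362911118810358423345176315198407570884246097296332111897135302258598172590130760172290444987890891768138931552947487414559506184102738416633380786014108862650203398849993978689021703086766409475873201984149751780563812507151588665078594751933111048955187219128279309833920726434513101424405751994731357045254056553961365445053814992119097797233073857549725791464861828766867192442754065654506515557082475936202443100384453374447077628622576690275753559437858908937105945755665185606372911060633223476945592674581105636976232972188822267831964117353576947023155696311983370927120796941494563759811224540397278243346520302577880162692387238989434434411658416738784977766456651585760866810018332396760271685032994644160802069702326127114296262681664667048333971484935752131251107540369832338918222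9624523571242545301919158592904459745675190179112948622231179462517653233827762574424984738127892151782976998846910896792962869034330556216093926493967650458253735277098746056790462521587123482676153932101852627226788772087297838624205576375481260533235875284944255293816121856634483899844239529751919011666040146345037805933231794089430380301279716046269526463646527493883526628465070929982576007889133833095845862811583852238917915200551091662147086491260005175668885836366254143133959386144916954434048351948207668857576126289217327346645423035838517029894567444783209839892711208336739985025803421205747668342281131622230241284684197066186143939531530590101702673302098350847043398087588386508871242145486598612267354454375884972243552557960465428512738365058104483320558250230756900853894202751994419513903325345672972147689357104528721535615334768562725509915679321536385789992949633505793455714909258741762843739134336411906270075625075008514034700914458427538245919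5215037540789524946719313989633448440108074960423880222528871806477537646670428252975444466986338237457607989149506003248649677240461684585729814359945438849531948894876723812420687074213795557750943363797683078851393370755465240486082154933636757113356992484112533964213659739717643170996159996411386884372202293132883681053240867348510888324438487446188573003129005738216901475187305247980907728778925399777497544023615565358146912650538780385585146829797487794040550407287659414969500769250476936289212590244478600784266250310534964226556615257779954539388321359234621543820850067845373775272813354681107736976673956572395302682726237493539098700736015747704865367597870486920316174896207501653729861372250534334049374899447284789660827426223272242089666613926153451168443048992933651273012299006186056041632631729699379098131104363800274295359293723048256681516765871817719289627859733912568114322165210594893841187811405871648146297240510864256029364369083314619096683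3632534541481972305048919627099979236088381902031055648231370877464942358482554093565542042153028731215233267996102899390572933651265406094696449283172455137911807052294347750292296062545091267166536524676015507592363618904004252686966572210037555536185178003222017649645638191618660992002661474338298628105752998456317449147282182073087611323707656828499770617812615531914881617211921714513529822616329917119661776867642835395052731467345105079193041343404804474464200638061154697283178537078924117263219861185833443964002761476462007587627261835751135694204008187733443320769087182896250186503615479733086370325011366572509743257894430327650484725182419989707929606151975705045059394804240143864034215406056830400820440965753496189123738540546806921447603646903741068209046105009970779126525358052828626729307949226737373427165473784838705916551203036453149186093277437313620654506608060127723575726500727741374064674587935501298733895138194701635461831272667745360454302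5741003189261823078317525667063397896756205931392738012153556518780078091051701958104376314946451210060179340356829756268257433065789984502568143971701628322801683863593093175236401244759314344818099405637275445412312274455501732595351990273402538841348294679739902302749967559848845337426865122741132172398421233182164954929694371835676265955545193461587447194161394776028876180705367718758979240820203269408475743810789873352655787381418276954182994398381389849733569321004609794577782752363787242753238874620614634536352233556073101942758507824981579328366531132024783781657547873057320645415626468582411721831693571923927051774737126892726089849094149786956124837474362981992380174610725956960608837849981871868268639723127712659879397601804632930370068919764122385315812910482158358494354987308971233867482990782989804896618296602199693673571575115171159281075033705983349136740191791751861360921888597722872486189999407750886210522489455921689395438343405845454709109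6049196733920412247231677226963992390048274852389226247714780385768410205626328900315437392269672625149656669906384154467125933046303825412054962682379326068573886650626570769043364683710531951229054342531879164002472511499504831776939799599288673727555966878428800208833416309984017391820025625811797792960805084797283798265635655135744579339452650466422584156056045000170729574922658277120647747628185381125083210198532860827535352094401388161152707838759819569571488081668095632052178125166986256293014689767491832932669849006571970613506514208971315825564487562730309508190812949169595816832016547553352163053575505494886715891480858030444602104300598032158039543118001838399614256479072046409150061727284240861163529552707030106415281909093754267150489989851564725809250275297213176200669773032662986485162840245685427682929835527479133816109841081493236186635875210597887021242393973265104940606026978601204132037000530351043797451090910382665840141215106389638643850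2468982497002348938547444091411061079973057873312837625621033082922872880707390298890816792967409861908847276128217179200412215563907426556697863988901068625811854095377998355241444657482940891106445034264707520402536435851073705851133467985967195913373327215307840408344776810777453048370803139986811490588397340308997928287278690844015002766654153642533542477354148233186038771487882112984991738287901413012191585913405092251058815604426486444578397908509262562223517081708859578473469939246514371656601536304014079338615938303302072857900043390820945311652105862435833146620255188566155712131165174577817093255510423287769970511716139283205628365607747534751883649157278276706735719785216929537405592391320726346100289667154479172406440716339501540160682709588299655873897848971642548019092977208233210528773639178805014931609546817994783475593405299963771343681359100661674710677029223215937047281161724934413948070351648525917545808849725834131748416912994041952076473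5728773984694347748774363116964613243191398271154602480910582832269289658783522281769705705711049756578200124202352506053620550295723715961446771307896088689595905858426952302002660055082505958474175608581182208311710939199592025273035237157301241553223318369752106909912560841716927518995704357611274782311765852491220327530696732653604623997556788185282212538601745696777403071547439217386419594253762259593850679691312271475323242686439011045176475231862725944648284126478406565072518166853573614027789163539458383084388620808700158088903982325003606963385082121932483404101287232271947036403791302295011074938737830034813159684682280160467542724909857041117344610741444674647546855960935688220834927164568084425207808557720385187257290871397418787385882171006482089908449704618442424669319452397624418266631123230279110202077949054681800171817345006998530253739140714296201338167957723537049795276909134530826611270683099560312148808005910995928308595105185873386615717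4487463861900975795650876881351224321802723201047991404242964727615650028957439749692592853308875555236087047494648758994106932115167194674789084847106575166799252090924996427019448758831011375861647325297575432270630431663273926572464544850736644851064967504100818141874145763870912588160466234195902715268276102318104494827507928522803454544078501380622478654914525419060463602169955493254442233260615635349799880913619816106124532065078499729514265502629616179767501152534590454117711974488862092659438385581896900213507246654855881187974230128576298644345919576694372775881646580626243246222952220544458218317304630430648946580169092866226291896965891879876029803012328164211350150026020688259626414518896330546466675305304891286060282260638300562423363119578633486186261698127942826513467555748924394486604039738590718314125405159732511575518620146973335084937469051063493731974714335918043802205797257642856004677260521511159680101930163015972258619825119456358987483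5037231146630320508454978133002528735766837718958739382871644599380640981009271332123011099524809019783058618488576429216474712482887706991778253840824945395942442924384814316899451291728218798521016469364307910473907959933001783283194221888914068254778795591672352750735963356531434978822457164992081470238673049977818932173268656943599997807963945232043161364199945181106540525710345450110728938605602571009709842269904159979058723674454474211428341508146052826654587863976836753596197087795191085090945103849810100335522632429517251769759276670263388237473281258700750928570557199056140261911679141382465655270278488918858523158996716887785167012504623806129380669527900375745317050860534821727232401711528570003102903918413994678876303132562366492388865021835650388643338015596997469685590717814127621569281716654926056728452473169716845729789530111519272040292664086352124454308650681158245155653063387129282697008126868100065994038795977763235790235098740750352265516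9631133044798973925136730222855090910996829171787740854912947173509411605958024639829489892518000834896962925346094687346040261860091484481148901965901281558093881345373702747721788532079066536629873772312438813869255905390249704663501134897826313489232539712084064184083526730268750207684570325669976954717995997184187998088706662239261078318198737739983703058036358612849849003504777263307467569148033643235250103625157870658024453441398671755941216697364222917855570883950939081146290686580617208910733124631183525171152429947161752976322885445479720425680222349858176675542774954034729780858550077632904289383465149057195351060310164405781192534467813819639708889027334901610994333569228625307885768449282512710795879432259984435227245935474887877951037039670979577830539546126085970992394069874195147243285584710229892566222138031282030175411198560445397704590983268024389569557943160216498251176601532601779140722976346639683841061175829637075460284784436445283333895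1247124761906699073195634400622517903088690491946377669564431774857579330736059484686092214891937428537282566560923761027922341393131654476408577530631342023307805872315546320667555010964441438743648031282612707873526535192618011507744474063915782859566469976235744472420190496635161080585223736081946554877397845638407525820483213480437788939139643047540758404207617932726444303547259389788305809579119720402602743995698859512468915383889129436168776642466141231412036346080263459164097478952640858251781819219529701089240478107133321145256047157633703230096222496873498583095094043579314704485187871145512195609277420800691758672653728355859938362854831207032785739410873857385465391757132640244817516853320666818664893562169401822831939740451636331368684077282081440189077637197757158506369803908799098258694571873680314315717735381670101186418490855765669648372009677073896377440436459918983549761231442183721564772765773310908098657023486380871401637354258942241625321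2281102266507580306144635833652586197807551137425217331823827671800742665664528270858357362375624025232682199173878027920710165681950575188391263590912168555660186425021310853167390934464110461163068853474748560854305102280599438256774699851712836882037126783824978879714402648655452995133408255029299796762782517138485321486724098097669751327873259749667470634107304713139845912999971999718569927765289698500804091869454638139678724522213127262833147120711409229060752257831427166441424289745395012039062894057106761656754669430053616935954062826049716222019546214432254178036245171065469330949510985961125059899930990025644053092709315687440910653273709439859486802769538180822942143121017535280936339445416738125379765849525593794754150054597915882662366418712976597155105562330307333712071554164492634968153114379433755143964909949157387984816220415564919670106303158915838135859174559741634055395181928342747294847872206753051272013445903697229904247180766046266864750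8713331262758056329448036406455579171348928148169483812690901794020793986384846635950356608711629971700798289815131709323317864158255475724961645504909607161152589823748935532186089939936605273754684149411259549909262549277290875159094727471355574539431642393896140877567340911625444112659683349508151840680169756397277730956814086397972185213001633411531355063288697634088318490283983840893656357259941016198406001310794610488943761861477156085140387776877661986563568746432616819865688687636576225782223289269480277476361073097895390354531971558659854811795273421349389713158507623773648531589064183024631917425698008613258704496338947606853492304663837900147791947082416799609426993293731677868372906485842190845201576362164793925641331413159933549413904419152638364311973540704018019616807932951922709818736065569321113305779918870491284036657509853540899103824473306080195530804995104220828036935363740417077772000588472673317542420485765510871482508262668483294734906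4072134948606956047395457950418632842996429486882880488449693513481084598427128020407420266101856062541339051354893855989375177476125043494157779904509166419665003844334918581625603523805285862604575952155649599164077619290971380405720163934559891746206712158526382190472184072593841891177999701290629671541425250398602295541959318975499555200548000667581404690707793969006125760496842295550364434055195143719747379226371498442127552452745684255707495004954689175447356903223860449678068992871479387198639245138765346012481925339039206440754175036890496856756166475560536304672678402146652897616796958761710727557118782529547236915748357008304646343545507162434189411242001326582302804048387408255087469922595927117048375539491227931626998816025447737938610140330150585685829460386591438904375701054185536080382238276260357360467306527635313146187350140157312036713217943388233437884192055103754319095231580849848106514779649594109300005594570929319110685756802702030783283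0979663988606449845838888507389615891168682101986399153654390659805123408091700765501532540768112451949108384753732972720292361223395545318090244457279562123976265895841542243418370854736668588795355574713673129052427653124487525413122581178935494628883912168302676093742781013620788066927081088359788379499469930842684534407264674050621352460296917262524245678540001764454212794087809263729625111037247817801700628719809048527648830208091891987091779534959534950785750910701198650535955866353802645211220148036647227201602991980813853429301723897616206714261898725353329786086266797895909228609600607497095320674318539134642059669614886670272771615819693210992854281688898397583519898792311606273139312395199444680622626970068848374169827645055182399412555324424334621238532887879294319713311469565773993368836821566794629101873939956942347894758115258994370405920032222959602143677273269517811159282786738086100320599950812230931710094249533095590195162022405867262414130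0856446081387663628838792776353547331392277586303762372255358060776880543332161010979626514170681630307949951534115328305047634632919250787606515070913906344764191474497690887812658475278573373743032718237936916828609662840698275250389814144937116145727850718921588913158579427545000586291703013773325335237251168128322881529909220335002254538328191293276307436221734011961961406680434431055313617808006536311735583697220792138090200695125105239962248856331668964526523906855118116730359392436627731993141326968903952708306165632995896533787744284081409121648527124535798061721662710630039939815595696146792386602704722156221172332906759219278639762109846737500948209757345193423112239031361527135737605579516018663494215372034775251412570690201019516221175074056109972759899844701753730899220543072098871677871099149997017474588393632503535770777662473173449414851044352011074373119956444311127510721598497738357702419164880258450766444174750201302279392607929011553383558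6438778584665743249921452808719814002381640267288854725783443724986494696824468069005660959549218087431260310700934565428424504547120807549907073319384780909453166385470726566585118877997735544990398554098300187712332524259907449492804026203648318267082505104097198474557560082944504077044093631878120761481815228243097778236465320424226797788344770427235118980722343834034461654251318567371312121642707242564453967567300757989910347710254935975779140822874057925328355311950770178645410177439494041729392063903623384432594863095320042129670835680374070900004623455626365795730891804230666166463298384596277634867984654061194951270734394309362427142491838724414962022170352697061282304049498129534194124173277129731837648153649224788019055076959038673761035961913181087462235109291946760392045075848600930460184192013274661626160993349787219005785204107093266249505712860895534094983504959824871467222369347604282772043699922725086899051588846433362966276683010683612635530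2557138561023910759110494186489270802392148258829460161483138745652422429623055089013256452787893299589481529171150370278524802799999976866813043432792851121198121739079768082564013832553007196675587795035741012221349554485579412180736906762162514315218308554352470955590552166326351253729431806891657300624558005640642751377622080902430753465420031680169470377552663125987568265084527942015958698048078068884311751825155736248873563225019956434357509342765624347396501427444160041040197146967852553872952868801641888757955662602650960457542023052548529762908302162255311875254334488983194887046805665057480493566652298588588261099310901554990161191287051482212252897873361152949074069961914615800921948213614087319149134632680683522220567906456358407283639095634254181103030362525111435725460092813694000953634573465616241965055193785752384046129505127272394194405540563899231925578600617099186824822204632364289656964380482834511362366986746866762348758877294010761067314083751492857884789458022681461113520851461915856663908949315497898873608438265413632)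

noncomputable def rc18 : Nat := (nat_lit 279420046750385682501330462471673878293038268699486556572137359497601060248209457628385390157800166052926475128236520223502578418290558371211668968889736130262906859484269382447407541651318004356962156885436225474113599566906295709291602112097696890755586540220677472561560226468529559139075843662488872613892024148617178643678225907236910707572397785923390027044384955538551712818194641275481415942982104111144436471921313140485962527712544242437956845684524739922954752353239999647526149002551362585845375856087781561637113081666999407466856502292043625107657530285918381138821677975243825961391649704814227675898015176682292955422503873639405665470764297869858603441788218551762995002853170797364569877486498813746890654623256066250230539907692364538080418280366730097563018235504041414103572485851754717459180061729049348021856604210193216601107030146075440498556684949062539816597141698957344951085108664060140186781281474257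2151266142693658018946822050893670585921337051411104218983748751924037740796926830515246022060705362986927939553005404049986500250661486433521454175354874141791081824752322649594125933151812359206537818894553447312660325321373126323645666880795375644771515064895565015338285691351549198462876904451966979955996457215328680454913508506684597162791608687116154440750503547490146248667470465360180133761336495299521691789989358902486897636697293452136673944314060112486948626277154457372855964394102541981404136354022377507171614908791876921561408747297792014667305353586971421977675343581302498103006440048946438352560773995702346953682959965545445410371722441525646263607526812091497208076170880600206570099390149418730575221524726979516255652232652440611751009837528476355532341555857966256518186490752904029366141550370112757807458852025406489204965847183098771552456137363762981576537063036864645438078440649948215278657527556491168356846070335880573316008087750385505563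5593460797190195649404859213020686348659119079562257530583641358161234855188991966207310552594494956205009456377086437264427327863480133317645507713263877549367030544071002960724716271320488547572796891533667882366896912415202730237058071993735809132742413011423781062298753202788226263373360059507767725178946134185985573867310643080333265770041837058891670692997163459195255238814474685773335717612350945801529585716321360363795332345213404505148178197899229515794908891685943877186558879848881305211388004103553389644416281010363722208844041681793994282559366601972958320138952469841886445083275128883361490924377976580382576728828587296032869638740560816826320848942822997930991514911258693561668982726134786888735931125735238619799995142035060811052217868448123642172216932270424748376714488606039850723146194171375714578174740111206529409757993582347793306191418845146967212717967230039260556987156392684872527040820553591775875937875047202628099203672059511757780180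2665600002497190901178325590989385045858219557642419733578053946961084760570796755738092310439055614405338628555982788526851970598743666157721781267740404744863671549265218403360102237143323131564232072120704807367158042469315255059355161202524484319987758141311754872948917045306152261581663677793624876487216526773097240041896885960711069549616190353489062851313237627039356839844462165912764374853312933532173562692228505913661693962802714200730886720536751805392155073946241914315160520968007391596586485081608858841393892646162162067928573645732385546385793110463685881782887377023733571033405975652871342281133612505346605939402616798297609688781514746607638012690429562256502712867728390276182945902235115216303348436825880568570412694109945919476546116406745446040249387449596754063362121241837959051357570336498802613844187066280396091265050681458459936599496323237366679603780280793821878997589255041332203690191464558590396571859740873991767894932095467153895078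9762843260606194936700382111659025236770248388255193405647083061005344437542538171593602618322614701512543379900105115526485209912234002947446128040675227017889561482060271244743720261699707878469994644193506731507997738096155306201866892183277505520103265202210528504330895338883670177438772350901100288671608055629127560530439948328010324208252128748595915553508784865854145424221367750508200658726016729268891647140155161463691461628003253032172341230348254895632812866132344273432431649409724047335922911937138315460598154268025485370367521872851502631648196172775947868478437544088849684646313470044397650049253073227038613518974566271858511829922420066332100016021872371944614255352369097337298373578158001029488870351715300130056437831688424649588879407009929844872426300824597716773366442273776717921829153598816445953720527819738365609022207225439716247926473854980948360718696808962327379730211070591854759837497798951825598574894774525813447082723513879514935018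6241246721891540484223884722994453803965368617617088652678101804096786228972174528691793639364106878235253942890813435316205254874488390761567872649695575853190832809828271929231179955760146331050894979912229750006933667675562050644387518120248812211745197661380008096250228549440377028844521391370500090523214215763266106375012182249637257951673354291799870388862564163210971906728908124797628878769999920459860001971820044436184103967688664401252453897583853190919370216403327855824435518521023174760086122752145279091022094621198843060411720712752713718707369193236138179796508304978866747241124170660382829824460869269030449958479481750008947668040620878516603592376360908189887269991520488695988354741341245787817714594417875308788508717615632039694314072075488079009896014438172751793469545606232744394291275343239164549893556061270213515562933477768457938475246050464514299901002898951794532718707938433248851919953660844991153060064967516255365665758823306436821111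9375348571334914572286364780750990530725126188980800052243425880791107782068823799495213299284815568000171941164031583029289094815802553001160272915215020677630450439373221740810449241788366470714655985423120991128020653876634628545126552116956264228622912413616059615704271949700103711649881291545737103471021390406090643205094852518586780369439950899616837784046992969086966467539063819935495225102023904256995127067086147746904797748807724792221853044593761872543978535513298152104618206973825259643927920198060260489720127677670222933755242262545229260647484100540788301057261955779141981129119725136189767080247404046464452435855322175125996753191887849141373386161104151642860475615543860237015033115038566925110628855622703789439703311117571230890755480582885060267691388247628850434118944625880632977295616997765141320878259571339024046847515024206656750180707777736930858883371911833867674243288145875618058199777658047564971206778324025715723945173681399232671245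4830270445284621291474852780128964425977867932555299091413637157111285047891316766826322874512507085631733543798539439073501243885476355089421926276322547081165974568213677126124423428903457716907591690671272416244725196392670040272381929349975836701092243636779244486907187740328544123853087392082184113968587206836775053720981605060508581827062296166688166986938386241464978089347418059205549415917378868367901624904920136808707952528267299336038612600910923019814587535086299993950812293035502727217197810812732729557049830646013206612190541926368405616493491871852890511531373843487210066796208322297108170924463811204835488503716146119113598030201164060464402381908236026163942363796439224725939956037287800683909225599781234557817582785255549657587473967396987251174046331499845664155038894353886552807528960570507030068648522696036108809056003218838918366019292843306916589178517516473448434287527997143847490983016737131539811814004388983782547135068145708106977980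3444781246435222211242259054302298562604167327633950421736455444074660933022152545324578909866687046071354174972666706559155910121439406660182089980889895688640445930071659519362623999031116905111726740613707842187921929124186587409208095061478105633669015511385561402596806605298207556408536154215175225469899133712525088088178120413970937054690665953096233542301022433346731799981304445652324898905646707184176307346057801857362488859504409564558321536747346088098135753013798021151275215543218597560751562744751615461028591448882529588716219293707981135839544821443455651371029371127058049234028962046787804117720811396219724375166822796304136788878332438144279482981872625089483882893720083416598434308168543212368269430305072429812228592629323670265537862874471936871115629515965610415632708057411574062723413294482946600356036174022413131251065930002692745867958110668367337178320406320541176338921392547839094684346121214104259973944943147206391772957507157335681957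5902153029901024471006752673468097026088941376233274806172119923330154009459010560117085488572901894488788318892857778618505877220155901882366389415527315805530249405909131200642154119728730365480493865732694133718555794033515897052230348854680106730291457890818988380954861892554849146935699858949421588702841198187193246285053176030854730532075896985494934867478756640181652088447497404624488043753576022935665767132900793649216013839790494342532344826695148613798941536172751130958412773997878307423854596357161485972107982436177934181003220467668968718381510018595620971243940872341618804421498893873157945286801214039794889839795305065704583641578159307544871030498568123350699309179246056914313283906143296634075291469751878707205241054490935573792423161698937150714232015253629891940305986764382190910627944056175919064858242363424727778144651884161923975756829301849571168731102382775290382753742908840519944036130088381041129466660031635753188338266384004894618546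8895644806745892500136833971651561267216335462933253450677994976253977817091772271708527908641450050209755271791476076235654025404285169905400708232902289331537448348667051167602283417902375786132016828495811426473059961196783587431211547204588903185181391002622989434826803530804336153348364182000303444158259440102839773973006311298330113469841736999954615070652127477649882417581584917239354415515743613030768230231680170595646804084744758119397182733290379848903081650430064336927510763436982608981316722594286778435136675613323417479599815876701634255317236901849415016236965738945978773558099886757172568471136105471263705577801907620664663513355257008788294256033777100622852626703072275310634152686125251560778360462766264832399907834063820389561035412884251262897443062162044129089115197467887817878275479080081007958422935490848448301298434013259508624809493451162116266621720995028262429915560638755461284278766070536334869506376187321791559858880809994098156166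4413904147601719001747156702824353782007395401507120931809974388818683132601745855436862179286162856888336565683800947334864504374274348972589995845331447136915513492769561222967952639778754158978990339815321066447894785615981176089860184478196996059137073622237881918726292533332770350948263497030806851058994060726595999630573637711949812163339464945309157917594156346466139108016423186102808108632850391920768856834460713994279272348024323986489746979185530258361079755246585992290028918589611289483852020008195859410947369993339289335244955994839842449932859366849614074061533732614042555971550349049291897302215298498879986470882749087165878896382733416436132640184725666597128426014932116270456546577995608519371801970559535338074610505412383798593096121666269176323934049095699105211709329448530550773258149435599637734455422922564498778202238423596396885306078624885184511974809982030228066005467204663423747035703646397783281385926163579613937858104680439021564615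2831710335433657728911264402916614085731666283313084402413752428730407827778376158368582489811861789376116106681356558021468452349843015165578855167753790497036707270283021560218707227396048954093746919794971793274893413497477632487356018725173725610331210579175277893133920613838733207366720125893587084826240331755407411397393604074920026967789776822328510028049411962207353154981160119106744961736548514220316804238892089832139385712927414610289608639437986706806448995130239376981424069711236650696622201170259325423078185780038915057222866525428249352349703208376835969727167188124711154204804137961016930854348829059125038639999359120266051969603353961306973757262524357424528982768111134087957058340077594053790316509796797569970715581249505505574199195672291902395633357723233150111659956648420233087221889059415872480601435881826935979018970199437251074081099474360165897754004489292964012231513942829233984821472915317777723273029210134841316458258751548022881165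3142749034387384737322567381131923606762219086671502139953638467589554341040049161152010364317471797592532047841459947796470135946421858679554295464765479421750990646696151217928246132860477164541378659543767807116329422169136594620108152740748445891274771535466856270220881868898090622976621164054322095135402899324142094204793116495892807529346518997488161157727945022054333226753128848963983601680796639149734715168940434279137309953139343237522057265763959167423218088320888129650289471951621115937565892561918813316157718851398838996453493318261170959846811903347421928410401483753544388580526792711944924800414229256737957830557080286061175395940800441757746089188701257981746528566696902224526483936707228269930893971784497003855309339257892243109880127168233675278136041940320342425623481572661575700257893453734075367591330550308490087455972872978574198004596155959518120493820854799675239405379449338574581615686915645069441154333363095181316229721356987610629988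1915664672014666690852510448275061925650440558532483308655355396442042231659876996459456906758825248020953864104947614251377444912409867088930890053252666827268568177109479894250937344796007307510288609317455341114329072580945276110321438470275028547273168461752574950761384192503253518638116735726176586362212076447398471867974091320026417324863884579124031682673457448836104814551657888918029987074557045297830958425308617167877000941642563105376595900444276171186413609016360600443828918756079281769176516604495339358880772638119787959064950409248889352449476886048939397523014243341331439061408609922025656649303513506148891664431548177916343903991780149527059201390969800318261559407455531020406823500049658033560361953970801993874083032864391256138443039599268355652917507840852692010173065474317966667150418179457200183501276656013298046588436544529086894869606693713096694842910077532596401819522634591135988740937018477815946687402718763628076749572690570246614711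6009073335410060533118687896478575474714406390954419192561770710651737099142961420758092237982237314387867754562116832650735174023405718776991904887456510187418564514308351590223049985970702424604967970325983264089712676402170448826521128891532561449673230602133591727667637894909030842118347323461425130651550412037759350993103495567452972639121909156798728832186135865924710895173169798407482905554155366440011870454310679935648667594671094010469037587256954300394719109961162487007623414576816375730834217957062601038649388209156566494893355594705787535969726464295279180496693926981680254296184561707768211989189488227227542904584946996324832314983028176353784480441054437253253974508273375238337550324364693508103227381587873740484046407060719060974145069420228257973333785015121070003034860269759295059434986381666846782075485358079115789596077862689063191741854249303610374323181028694540546066002959584422671552919536060636363524271224599624733552954874162958998580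6313186679837507355827521780073099228295717612544978989958180622870489019833936216561883257338282970694275085624966120532099311016408043378727154337122619863514351445809438785198681439582488050440631493244339273828043047303633532508189469874961889104504984965595144602457582634218428247166362088701221031587282193511601927193011741343804178799877473264941848591235379448596956600719519217487827780097000369786820560933158002397054799959798467450348744137912763161271321539783657847705759007030712243440216654512527833110491884902357234681889968413504550171035484252879573040285885310504814056062643615554019611338453775559101602718595764585105605781925116340964393898023466164610689249424694314500401386201861108359307165490990505822066406682993822229778910531828295177866712263973635986067226165625147269109874466717780858065562706162508128783436506385072379959637106274828017127326169338263196378464628271188403471246319081208744208966108619759229104791250240875772581609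4056005284762712618073157506340788252696910467097561738372676481433393043859572365319976216387874552089269159391323984051196896384703911198238228743361574369772435385463515992617868310673350870813612058694005182647087886377047035934710232532129496746064047951849087686571287601689647665577682322503909906891014308378939386772303048731552537830549766571463532724901427473502756643991059513770800343428963789389000516830494426881259725989461379507039890833741717580825624349614103116447591272796691371946774239185429999031049166815614592619715656033859229622062484707838381147089803706859572008652807541211199120892661602446395996405657647878915114859554525111025341374361420160448022132466679364825710795536497090189938118613190594171162339571748230595238902871877851464206482888674618277151078005471674764534407466761545780183435764291260726898194111879029772670347703158886796669359120126227880017371339586118945828568500759638859809696821676521190988408670881811182157323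6643551602329219429062491499950023610049502029889854238369310651409758535549435490907163736399896391302784893923325088548127298263066607929953123399472962792453128877586254111591809882721552745169919652193615059398000397030122745587079196403650899765338097378684368943743246723297301874380482800399079345317418483167314865029116276667897399982377746439241358331776258486739110305226056096163986130077494335187863858277054195046385639744026974217188379304052156529497397180974279524016668195252188298039960562666050896923836712696245143720413977718065393550328476935207468603751402934529742536139306761568966000753950829656264490331808195826894923724441466156574601055610225690239072453215295045050930190383604020838776593249015324279513251532073536182221662133063126827021908754496934855447186591138284017248767079265479862659997779963084958261358551156952191869003691926569178903081370771427297738017039303403072055377696110736785611657906966960562513567259769277735558229371139592685026613920799793126523552021329469645747874822951026011798476116597932032)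

noncomputable def rc19 : Nat := (nat_lit 279874750349225471424675423932859102733342902000040638967363072591712150859966327244450580423154443747696894068821126341081679939925108039638222611814836307119744447707427883484316694974365136299297996804019932446123466257559254241842051884647515391321049159572477710851247591130319853092597735086440166897886278601357992073723510090322500093202705387449673358297720289110332909452716665369792938072606916406202748977869693469273592300732862122552957631487371300405570823183969185023544728650118164492428344763209819708074635117893394851456091919927366411730288563629691023482654242381016715844811042300314408694028985572030760629079881610631474469145575875046277582659647219790417647104383868760177100604124817445644530836700442705403888149328558765876121062848435961153506205606484820864811298335032718259118129655012869112284955214007641792224340610860322579349209169360899621360211704258015252421642574089954689551856908003279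6413147177976812841740228602306603919858997567417661177101161969117828218396721560225279426559973657940673999898326875345726943076594070515026087738108979362783755817009644252987671652994843340340175306103109235068181484450381005832312586673289662324581436038004903943919641421147619417251363489301973825826669182045621930044136224291837691989203684696064445121749653148511714770116685516101434503026918424851463731885729974289478257771678350768737680232423017498341038748307989961364412410842319137050027210079593448962306294866398732978396121049021325650738959917065545076214851426882518439876018825231128495107075250732032181280239083610424202987406835059246221689726580314253946873154630987014842428615707627303098193286972844637205928518024643132288032919435427929202107941439207605123077559072856679176865246978634101651553576640584788447471209733707244023271986960905709638113443807249986980235933570231480059402391147099649809082887929232216959166698819960424222271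6329354202164100429781251603527785373295191650519507708044773300508089537867238538503824458278756537430825592961604933425874408676587962871354727578629122987352070027783889170590871161775219617869631489393175145839725631192979020764583668634063488845693105799789113136853536869850183901964061466196679359799501572937159161345570442428681746461114591047729354976633179771870986539634068415658676862796217974687194473049643620204312822716137001383818169718830120186392109779598302266855225110534217619087291832895780035532290478493678868103531042417350346148186577045849935425258886273577198826610622287716499985468452520246313227265695585991330877977319104998823316616453646147728290028804297278793370830925108710018121145286858211925195490342074401870427723236007924450043192335354610599654215556533324644125511804968158939542377034899270543085700520530104092386039234370721306530076150215755260692427833952502835110650774507817833680391576869489186634970671079989234766871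4084454707356267067797836378768365460964180333230210814331432619121853041451180503445974811178181008038595717759597009645900627086323316591642948565953552392420268660351059496602147846310101111450477722821639467963606138185081942728991715190118847730470132148566807197371416789830362693324278374323519200119372568049930522705599281203409776726495975544135747142819566603211639279089709036077122997747725172199468585640492792341450992477244715950243403804438026659427909693236765274870902781160086967837265878593554286234153790995247606056303147176843300541193647313059517383423727724147011968464107350111294598477440469227640120412033251831922798226877013036905611849819428055627324075257543410616634973110543234780783228833058474400490015426421127968708361927937573319452740120293694646173118968226636176564139818382267336537566952399901428716145201146914960049190747898180116690068817108192614710274523121007362943940185923221822712793477072120079320349937602730125307799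6532594220957650955753081980241872934619530351637542790712113242177542541531908838629100337787349059203855915645059099947594005751526925057355450238981266113665681349817672683899924929769933235733647970663612105926662509347279274885263430716628437516190956332030976927438508780922097025412418460120370343881779923206785611488064371777009375973926080063422844318245146386364754126781200246642991383296529762510386260866194279655192995237039647614308758489081294733291462049632769408359034871023574952069844474302493268705677869535738403039335636698739789746600719093338362781703552878442774784897074960750170556723264395373634765191319151008279622472268131293163018408373509790978056711704624029985212869534143834714027967274544494919902515498411198863569349871445619689823899140102623338525860650765302009326145481863881761688225420356122489984254621262443303565751592907530653515801380907331892316477600341676935960628740853486669651801274039398755051020431026605273493400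1684021305563412000451714105300474930997366672898880338961339358194704157578174715824990575922156049438385922635921050088536553686812820141446305832855551155546766421230641743043418288757975751975965052696724831511153256440981647383009877653999388119743139383386008325197629157450320755750096027408867510102056226554678683536812666313207213285103975431390708869049426290975619344376258201311815520442555440124485776163050131333849644447950234149701281065775669213654810855342987426737513725105666341065735054908794049803862951468294390409682766298091809405716587838892019502839146817727992103870426337655028351402588529562899661203416154500537764237420159467475947916010199143105312083350273756027780247384384711845593358903579824718689745984761099113836721813482229795862682874991820564035023977910293018020156770311203432842743398307893151331386082960893142321673791557267279793270571071572415504166069974523562606491267948473426172764907478228834941217925032635235744843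9061076885099921673624822124167141479385800259257469270947732695795682565814456806468952177401712182147095517232517971527219054759188778424186039303528383810539030201831109568246945695492873867193419575928720099639555227760857229027747065226174105401048476944680345522517326176623417436703811220011194831580641264517613414741014867644342629150613119054700803872842696920385508418148376217762289115850213891953767314245973407487869091103584034389661458949168840703931925637856967732775527636492992412411962189508753154371224552972290963044585307464981630608109049379784922631212752328098648058705957992661522322384637976351208833182724564537332757825305016983618174066884124326797357613363519114611101973210902965972101589452053029271902072275968123333081534223860160080915881447070064512121401261527930408637810344302541335744503063385202743020762985753586874200317709881721548851725444577597709360762117152221598173109960212637191027269970169355223806342672228258722515994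1923876152630513537272431838511371514090087177294165040429673464614921256231708422397441142096645040499440140253134034418144170606102039988714470530575991379431818337851068031192320465729611300112266632858283796258190943271558470908441864717614277467553486774560292443623885312130165600318000028329601372064545342457499513815470785413797659021292870866271228347332265006982814888464130344678897852523668366717255305487962028910005801759710013236624739369769689040972226929090013455093903868814093893112589181420410944555656539380667389102125535012220540326807392714422424959586746164714852449276559585685598074549546692231430391426341975645930787137672475500127922690840529778047320190563925624456237376454607731713984441795223507868256955676919697858997167382678058153453709308535611673398396175010313226974119572873692554264059249821335851860851508478923043913092740496790775329694797472529614950584960542345870187294206308445319456208892661382424763957629332573241940978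1876287563714912714839101132851570614655001250355824864130790039905410959752157553764325364326724073818284100016380662677980426979413151816441314543251533886095580450342063113787925789037852144607663900599881150929021083791062839200063521075451029157630063686969467970762691553615575525054736466050142990080196526338946527282330412075936518870311134888632153375225013164931578465067060946848213465759648484006637525340955537170114712941334827079089413319215773751547761881709819875780904126181399284809948375047918348596756533933468675516089759501066639027119896503598999388204021309067387992435073273436551562772340680222790892234290973003418297904027877819095079385608898360669999581660101852566614000714085146249114086235130243006835971912018010139538095639149615778480472282830978449308287955930271071824286383988956278914278738377407427091595594122659324852841734982723527881137697971361291396332210915094370320654874926770421582336112190992683588571915386086440250428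2561150546122957378088236147636108487738216962962555896643517770432642224514044700224770387976092762379901166541636028213179352363321279729024904336849581993300952535956211396890247966931095447494431902195914990950859588623072892176469711214399818200454219619408906373956135705280001916871450521846554307335981956571937069056470827513102914738118183534728088796407366098607681470425433959765989026240771242963506793933377527354141374949259518357426044076529149026083685134733406722862666417276522940382179595387718219914334449238900896030653025202254296067072951030519680854729632552011019158467042946990834570571330958606326603233347972617563000236252908547393976419381924578464917586025583350681100633108019915544995259770903643299636463581153335376137128706290098876525210821497971458373666428659355032033268804710664609507152780072221701745832381456670462887950883977532775002490113594045470699473008685957597592245464740302921123379857136341797233800795049109230578374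9712778932848832195971432524927786639945553220082570944590103039226987730350359795567290238832193380798844992662165537613063608136941277667386034388236756657011873597297919202559113489930549299179764049319380784597586738458660451568700668788178223532918496561607732369556923570819469967612100715543279761158451427067908199985306503305134552264286845340731399030662226580880300759042402080862082116683897740507324876752623844907318467508422311910557908283984896353269943091746811521102978211073414480219928501968986774624598046990777472337788669107736887288843604130080368109507058333025202736649831665917932265741347448004605819406281080040716179871457250483607090005928185997866718362408648287136402848790989416987043200273621109179697418554710368579397582915754107965835885889785486030887615300837176192722656683148611691804341677572053371616370426698752594854134654411133117411144581946502989682910973514774555958170853578212412336470210398575565599150774329227323011183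1493659239535305532184742644433502904986551050200348226006728333824404463248788603681979917575438964016203062256574101995291517575298015564269908125309191091446543845403496939031431545779779159358881484637031551943807745990440341681980144763346953858788362513502847067997428521604130712781492173152339732546621960667660082291723206019491824426968077972779638283295915458404037544590977772485731189715527895975093789584459325480794816773578705306683782484191174811153838690546639852620646191349403743673292552657126313576097900469261908954285646271030007236862599250186327489662450073471771991708653914220077024702529735685783578337185874516228617038750826392648491415506790097096384950688345397779074271963931286912107972741674693788155932545301378457376234908747758770730599971203294429270124723756739886662404576497088522478793141587632404551891006440421700852345448605317544045863924944779647830884971561065144385279272919153522661107229925862623775039005408165462707574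7751264756743199482453293728957287001148300807686279826175783501224048109347341755111811592126293519309601600084893747214622555974287509199594379183662527706160893221981836102822844726068618442894667637984686979475747847198635394445490799355402637455106145790005177114025009727445194522506214812326439641818256137133396401957434006693267880593823609246463050157517477097221524818060097647944321466171677785623945666128793365074287714342396691572423433984045946368949063000763075718234026635109730019700638306890478109399235219100345684054889163462535916869558257101713118977662400706346367786893887740693138167513907324528913753194711037401572081311182581855069753026761319448976903310157776099615119872379212804131250868524199975639048231787250429095363301580590646318267558239103399895111254237727606684580682450053229229990986692491584752326775180116575350591388188121592450478205840199804292786825302400402272776152434965344599817603903959649383643144839584240641385762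4707148841603606526391033103480027142810363566645351286380096366998591447219109634968148305518534027961884016600414617649443653751690922127087822617038389326380496705829364177357946584437892493587735779087538739507437323212994876433281460691073717992395038270130337597898297058662592370666273317019025419864979153887399504378222886221363953921902571593423267829909318527785380153806416284359932228365733269460596887467810967923588711236931008873479986175181916132344524645250048630736121799685274998669816681258797663907367711233406908748742255364124562465511618530231775250636463870791224202173836154813142398746769403782879175974796223267079257089533691406961311951602113576861768493655893629640925360218159330930148976782922588625034650429212937400099903234027330212208997332921589995131680503417581269886383999837756515975474325734405220184687178181742212247129393643370132548808403654010760039285075119915333798489623305109721352780714987637832664620066504997070292540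0683607091773999661129257708545391845580418133859399071170621821762221129385731297341203460372915530395101600075277799641828224872097066512627424479742316411668711189380170579732013925975242871956304960609700248129500983084172386645997176152096601739974815766066198502668176984817484027035184789113594109158586287703281196560483581076536236718915196848740234964289213312593572506345080951381671686632124546236619947012323365075203391767675475783774056263979999423597099664077789924578290195155952006827110176245530797333328943783589361328332989680391483279958303893080585129410706707443539904312131000453001847100437638113199521113168778403182993492971482236072238052134870845658244509548279225693397926355087842087860945561331893778214435974846324898677962623267601717512446129725862492952811511405245676053734403961849362721905657824320397449381967030235596725728034431760876650957388651159354155583717006172284952449503084375076347278407935043995360932905878373017236163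9133880646152150534170261826961955924258665107159907685355071213369832411725936021780219837140467066125085944724399500318036670789458413076939231619299665819698846524943932974052631391656095632954583223986284411505269773443801778534985015557911051214824610081322122812745497784015937058924058053887867496864505900475389326249306617438920316900599261224769255327598603574224099127305097939394773502182491756184247519610583628722149590157692037484819685350243342699501672732689829693137571659283312546813433346304366034675828533433124002881609232964308105796427351798911341586879427061054639907461947288989013031725460420136167188526236637292265412549022382447947266301790671839977251181369232447808711278260222824870778186583784536487485049682538057245175693627503817867779188969638121293533404480838589814144980939399198351819198561479268884891408582206785010931889589677046367493149122881782355204022212294242975583202225174045725342742487011187960173571990786935527861552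6722411875116069072133414961745409223711548236307570399985071736482637217117268819767721206606297117530622110493680466872883660940537092632095211394301319126986077167255901615805146003104395743613214178879354845183152217137559935215935611701153224037819090955459848641632449134943190594816355681417047644642904150088257453484893233696386593787660445234930257817520857292650351661161749373700461993110073531794611377358772832162453424292403408564742519331617351741264866223290550717640662591955359321372420769575037156297679142763975938987711845790584778075850615723717971556848612008691961516209909243794759571005953706849010843045652191396654491074691970877880834949818748264080268844807760835312608533980341602195015574019828218928777285809435573688614038951145533023771721479899422115888268631317987130918228191913489302728050278591737440440947947294976639674473111912288211178742437064744864140406165466185660619155118030197034569818515530216177630865207315068238171911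2898933905884033561506738061599389625701960517304154950735626686405510683046072278512461259336962239364262637642881503594157911069188528588901237286631529139345764831538369664697284795499115220091178898211069399709511012851676211028063967040241564205942923596419924264118835514109952729025994914044826128206694829037741074485696491981967275842619359476782814456192361272657511629134443368274550096868396781121139210344958543063973161258843356636154100413889585743506104036841101755270658814328222327648659823168655021095316483215510364161783527790330274215918371406491710943737831523489886862156145707037261615303519516648856141409463573817768160002046112123761524769111906348945963619378930540497474092981828402531830126473050428988236644161481962539081258971635293650484545968080647879549399865722061374976567070534372997055282423000936877169427606307702591739276194754364959993134564114634765190581168712998514519995591642831671123102917081774191471844098589473198239492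8540965386179911704848963286382215428054152531041274428928927756198297964264436732788829215753866327954907573826914670663233468841537928939619603852104774843947795413163628234847868481190556623650801060762177065602469387126100657874523911017295430931462343862483797773300036379740311810200440651248311652818561228635810521556760983931273216860870768027229786635652842454674112178561300990388707105294263731452074707177449414819617737142965803460074859463160784308912557572992133269426716388168947098664971335404062800466077192980124903293861773552183357968388199447750780875690207741081982171920103866985740326360006077472193527898306667615032176796252131578507752522396285359600766186958443376254248121570353950255476962943104775789157986028449526488601515109275867159404770469618406407729049435151744658189232281891467526428108630078817358522295840076083606511663296380711006813839108791212675174300001677761879833699644144565645878313721315035802071815337975156082750813530799652901358633896621762992273305259269483642204284071957951916603936596358594560)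

noncomputable def rc20 : Nat := (nat_lit 280318218072043720198895444978278183848708648139768239766172203458973009268123453558620622791005210085651758577598069945295547926563448544139508292017211237826108403905584292840213730240480630244487326340998284049481187981036411624947056223431049495273602942861890584024148579694258021863088859231390509770553962908540663623285020773469934558794445881035581583843729028403367800613457875337558752446838377740357955238629765382923602101899469808244906771027357518456819169176147979655611897463364438472825674488011039861087803632698778048253714135462974268790501998324296447327369628336502191608642174338290761782465498373297463525237447528655938683783166699449655562186621446574127644044025052460069132399895150506180040712618710964345522263115673406072231936544916248154618813073418335478073050759594245057469382161873461081242753186875319111094713304825231877864552722893382905561756783788798713810207859934110536531846478325893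1703180070169044183704410723723746106003888640295493166002266130886005922057130984132953560001859863917932960806080228156949646930146677181833205322348612380206527443878970176668725911278631337296042030498826164335003610798141080342899552356462586879603949039076121775320316519358625554285412710859244919973566673783363082044749527627385980166137326989748193955719956343786224816235909861484165540045587723380153669783874438901464425421007068352821587403622903621047989113237599879720716594715956063051206933403664556581318894765013375223508512944496535720750350925105527388552545861128840090977526873849011250796887517558897043527041220798882323518861597256689248577333767166592470266466416903566910559611736807999890818465894773823394239776838565909296742426306726860462655142042419358157450807082641997386248006274946263127776358364743999386500191640404444283783342132958864355265086066361816388784562662689186108930346936358065367872791356064326445030345153259665290218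6956335238834962370277799920878746536739976549513879510180398623521485830261184415754125459901054764072308212976636624539744597690710291886290962447650831728855623232105948856586406856144996943267905102972145587258639949267525571198002606582536658661858850130857299705041623118952420961776511138147984719627781544296602732330761970635662920614197319593800848774955169025146254761216976489490857557343900062860323658511095726258795092955438533956738382615624045450047799223868675662729203388463568729288148213355644055804903636628228345986155456142922174753760652083695828666634895611328475521312483777242214415832072650598958290207367620230609371848768575072596287749358933964162504435523249904813204428061049597150001028951258678226257553462713713794549116690283651565151920712899269876575470677286211921737950084486931059952171560374095003587419912499967013829587289415910878341387909778419292271313046484141183128620647033919997736398576233952971613391011583171789678402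5503202968816074809526218199878793683552639836291502309308413877088508206550296404822759034753308112470540757682770593840415814024687128055605743423853498682068324199767528262862192558633264813277444614105513494075290920375345359083783427203325156637410930811394551997484960285303746885820168577677992041399189964388081280868026508668865873131083511719243158062869002110980441224031444783391188270815587771732639969678967243633213514904604051714993184310414495148404775525466683454400443220675414931833213535884861651818758442552898011150964801900316947448442987426467182986220525616205587224042650518661297476134419226234745322297437133906086597584446537463807013692213359743664413935878668476442198779253041690794863861757783781534106353332121287239280887210507624555830587623411724729232917969581280819048621098244175652404392679962260192850005306954671697965528914933212202609985876143454315067592301379454887861848828186003336028862014801916882139849192146051931096566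3340409762950615620064574643640534520072963227636802797716478772779570203916206299395280247706075909821580162774081383580925349585407910526281379731580016937544601286895786067520986961428134829248357984445015593424537710282931483875844330135027855941435455149538781781706509798032806046006464104809644875171603284539069678540147702045825806217021800241603051114798110847975433819696958618692811024437056276579977265550750589474895041581366982962195534038685216756762825466179804784776837746546739342420503442558606827869251386548174037821206854260140186435359519471005906809350518908257898369823626669029676400274835072181906769452713292561623749277932017569315440167716493412592906888898397935064648599033808489788613237022855828907071076763621366641030572121997859363389897298104640387543828962469864400655100030124222559578499354387674402526057320392416520530320058044136824539038355107512160989735124867671151733969701309802482328945779655306328578774625598766617827470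1743054021817946393671503394031167274071970483182323401551992585797778833869566075411747920591137190357725410056903890301419019958106519814970591029039189763624350946997583593513410109870930132645986159458229622675502107538643532555011132661417630984150698632891352275674200998097302372104347526221143263101702520276898894631350784285800848465095510512917309175994966103544247551978106373404740060347666040661060332677423432580357159569358808464416240802716512479571492783177681953213588378535906624419836546901411385437635055701496162441635127952707506977461760277159738023289065526225047697961762615133193233570124649484691077873128137810588213825586244411787741108844253619181581760385984967655708571290258535052630034292104419674754409749830611337534276127573456807871216307427804280599301032097979724395892756515455995229181938771152737823365969619027096676241355771837304625433378502511251960972953137431849955104636988129319066493762708424467057479238884144046486034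3420849918947654648216941196098141334159097948227666466298799822262403138533733329179461959281716337663612703040346306545249897576778564376207144278546641599905307179681875549942437788999242386488021679212003112231505505269641051235884419410255820404762885325153292633130422957920475206015303437923246228249362626189041290780093748740157231254887798429434873296969886317131087363269071865003691583993355460781561937990993461487441573471887849352014231053953000764219638425258821999834918839499069631987661058089261202650468818306427108291075349858851398504708205737892354524833941227799097907941323417132841207209234104183785742426126357261755050034027761647390336860836558134184931489608418812042142285971320919331634440142226009098162681432829479127017968240270131554867585332658843725247625334570845657235810057548243739339681708693055240080032568797481436191495606818215609940998153866759531713533018474059838332534764624941599896043596045814403913696261719615426930641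9958764026163790283278676628259533524294652466834245479978373698626266514295283381080335940565018936890963758217257520525444668317574519470127775553977483894667085154015870513967974424943566466921207363759701866680542682897017155495604418812205188912069947673047224058324580127174007753207625681240313095830558170518595899593211797638433541716316451326339636412517754974314062841144157663512086437145118584751866282391716590169675241766202886776614144091908650549883638766774693967374223017238882219169781000070568131576485109309566783003243146846683410442467615873872822400090259285371534769590112624171098183261107088445062099037390339024549608936190375416231595163705176055085993266583273662221636326914335382736770883426236844236657127850939741457437437037160400892522110442185108967483595636374371338158745395783405296589053748936699901802058674019347736169928964776309961510738487361232953580122051771666762463474169689227734096091096194040035618019957171426847404259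7556885051389343903535154518721557834060935036674387468842551736674105994470417681173751905697054073228700005306793200078097173418305230900729541357267699893865708587652965815689830934681408378706643701343477022551647981379396617583017334726510676242301890505078653384991787821258414071272352984547933447423751198887573729777414637850159327776955780710416468710303587348306835335028812910028738602993541598634194655085037263699456501251253747573170857064275001769171169142267693616131818684322669455457479544256188458705075831010506449317137855559703365276427355407321060013615038087546869224346458363272499538847833148354576520646373071494020234415682922342302511448221795516453018438201439630756464507045417800123188016182201752904790854617117286785143270543632666733771037285200737048863324518583564683010303556394503948114929377810693391613452739876136870602289723251459711633867486925771526503824111637601408682446516640495830658943197383342913180082743470455146418287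2722550339057143621862726835426251542649955077493062480953191798899277814339506921698662293904047880296398688657534272324829354183920542811104417757227413772065515697631396705831462762206458554723919471917861933320033402332363988413765921085250899285411484759376019188566460351188840938780836617636977029532603522610365364259648333720740208797082397299317185709576857146954557985262648509357007420617693929165835965413696997430789458652504882231948517312376396603713562066466080926470548400578819426328221848878842099716734981311509506759230090537563608371046626229461566423387935423164495928028443587240494424902578101636082558992947955620142164018576410235477430850017533534713760403941581027602516942037277490375479278938598346478306646066793479885634622618547486144851603965017543070496328302196253625890814670159138499519505894301463425346465711573647536219535390544983374574471806982792550675709031704400732347724561060734538623037976194263815972931728826113206977616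0591121271309111414364192287160153109204838274233541887227355027627855932418991246203100758117954913993999264944431356990036441456145164924462247224731803160868124875755762073465979314895110717317360607581167128939727614049841216422949305912567326078851241282895356650018226714529593577736453300820910549878600875549811954339536454377319471673293538958302308654005500508413460929361955967594199208432990862805989462705251921680060042921390496671085583306923654331439515219164256196620700097165623531523282609754396562942901752702831297873880655838263528941899517398110750475443992981255445857638214967598451165107144297309457151313909072333145761167682840111121023406066632735230271941729472607599933744742181399853180224990384061679438087019549820080433405565379625570888547454414843181323793189894218173302150943927758126995569975479428197125265463054730186423435646861785212327129315785633358040074586910003230390968114916778544467469324163453157123690757907890934882871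0084668419272366715704522836396067479023497497537648422221591848781096023193370001827547872377840878389252183109826692610702158418104937231038263876315237926168910147001536756373503452284237403624084584586977232280135488826035066901234559419875260656475962974723373648289817327402503491898688978516867896842638587732376772832575687408492454579298096516647998137011513274909954761050672864136278035660307548915821861879159574229670501990504918424827536992251694690138227617733779807530700411719894573316987555576068211347219545131381503796507009748467883370516161473642818260713539610642416225592670130460306323621093183543395324372175527825244753756916111663043931021516369947198497128495666522903806026950466640032285446612763950199051466047329917756949281470119941723232540686798975839725880513862332441889463053250507543251733785921819654055266982851123188367402385738005187858395616448133464017789875806131842353986688993302131378471636035291085812361018545977868894739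6988797533000482263898014311963676098773457954826103696975719117587079488090112917746960985818091359061811953730308965329858543066006588556208319635291411719400768624793312220217463092128711154661017431218641433318788715649212377219600630539551229629959407230580585285884343079480546697170831557980390079474744803175575546441639972450337338395379048339570503984669579536362370212194613325343664907104355720967501249205340805000836685648343838229353911752581530133877741873579468132002039538597139019932611841388831322708853126221468077292660073857459855531282708383891312640153590127218993302175122687145586569371439117861952581931210700103771487648604576423333406669973131580524320269253778705238896814457412339366476933282803628637128664150663423381262146258557698259091823213801419270457967534013345621179583836677423663501514091232227993213810142185392328982985846262245658096194397405030374901127182080467499752157803441920327775078223152084041319214270454806099574390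5871898730335630895790395778456299571623765023140802683839482980462446545362212028413109728545109831034538113415881257214729829153638290200541658590111007954826782629395523665476415939610285142426756958724376484108490970967345834479043020354273275286907895396947914340671038089334218104642600717683339900172732739414347419493111367230269899963798501320131054556710828802945401703008168601348285242556582046176501745253488580131233606216736051378050933488378274047066327011173241236853147752047415318219318701165118944013022000905908746993130855395437182119701856565319141200403685319092035126397940172584189389685299133714890339218136708570353914304534904854351763996364809263278817651903366571503995326250349222317401064188824823138631653415285462063759365835292121036582954324119680638364364653381275741243054194532241903977361831357239540001407698019541001647696714893453027473053096935934279605288772746659276105668546592160493746593526666538423957645024306004288946763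7840879558260240269037916806832315217205882061641539336939550678436706339866779252785106619176852858561724568715744135202182583257119941750266280430753818818900020839810478738678328376423904277909559075270967858386190607284398153393529800390350551198754355784025495841826592198946699655871182681771541313703758346712803969284165193348154689407370531206284331321381817738190102378268733517116919848241778332665951026080051896796635878355003468103851250380764593201289642849266335481152687850172950321084066487031512224347381014187576582514447430515039084008692554866235486296394477569482573157017559557054241274481984782215025366499127858800426251947653764993500348184038887633979916905992484835820751923367671003858601990152294967327847142822738528287301010214489989404979797524113695695501601398876331608112135593926282935315428977982815752243511810276688753513338343782736806810510615084948179510184190377688169245752708275003614275160031924288734540535212850760375581271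5772990858364046201812468157852941869582984512506556674367132510915960373512712225782835752930912313469745490308347138738761146200000185750796918655435503129011249067754736486142500757965025008244514019325087587216121026641489667765780405547624478447517079297284105431009868225904464252778132040370677418783060702472765004495745697102973234930957923821214901523499800353823901343725367415098435256485541605001819780565309023666421136162002020225389668773152541008651438430781369474713464011421022309441606351989571616888345603647994682124468027325957823453544929858667980199375216869075863999096587581739302745768376495210534652940240459821653843798035698360655040071607696631152245802261843838046254176225703218787131636908998827753614005964932161894057350124510744787760002777777293682802439489651842695252007533112322174171909864097003164458152020676023157558718068285567305329153124672841914084277625518263475130288976262719853893196110308943829987196925589744229003145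3217304376589682316276219312618429923822593597703301703815750027004161166797691031714870632719687919230513992952445429447911567786792306935481200138108976903731071791697032982461297570493394606938110889728596349226665954875030454386466832326763572475212877463023723036095372609596768275454850948964601643888372407926220813937793296093385306062114967688473385306059186511616173365921459770338063298293827456946912491247151377360077778043786121741866998660980952114276505466367600890797994310980269261616866511259063849894083528497977218727943949069162442091779986581000504556831514898470510568056627158668567650903725111829250957171050938371324783163922331336033885124931729829321089242102994880018796978443275707028511568816015722331759442460270335657724160973192593451719854233834020483294084082711799977930558537058543317869300410515493102231821971008943316550147224336918884732428873261503036319813186764061279230498068929687681159750296536686675612136050295817020430824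1825082307689450357292515440513010745093366604155870551708037670598903813440420269767347457625438602112634769661533498236176187371545827088005463328813944520588587009203522267628701994822245043265435589508651522086775238852756790753753959020050513221493362178785909994230845700224872560361667257018309231344829691317720632386903022582217448833808583665804457846387526622729273147622867332385453956032809617934343022524198421098570405950484965318004621274692367761781964451875594112505881005306729691438374966124581577821274887387706420260087303429541563295759837345341310868087626725479431211638814629469691934353825032968552391884070266703334553100972420733119927752233558975554610537080851799487557339502668966642063595113578585054467820486521625754700884620156597134746943764292907362026623442461396801344789972931679935506367819004990202460458332914705681203994825180258454035052082914872831112857273528917447094715736773281041631289840503958747488835383524317864214574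5429579272298082041971898193244880944987623988709150400939424458771402281313901108716195795876314581271629381875238012979462578910446472280537104449100935582774095260871633718383990594027658006772767514642563733291590183915670758311353184606662761911154984821699025342567407331404319745251871591487597277547718653799247559206668794974008838090534469991816507667830720757232714872512659668521072019877613732738684216899778394324741576689596260578322696584206568519989820721061508926727884508492949331966875304699930292027076778125862358274653133390391912719070047532487473964217430872240210565741183740516153829896079403218135499208869222385575402591517659087436090399313520498522208146560996637820747716750020503672227409534822254871185137458449291660814985118539169664992558417722675610901052277495162209863079184902171928936941942418821248815557304427128907787472783707825955901949803108030437724969642801095191584731172189463015525254343961335285854535479634820012400759959483364495212146202687575126606650786731671407996283694651815421554222380129189888)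

noncomputable def rc21 : Nat := (nat_lit 280750654853040095488008589656844933610362780856826716955451495331361116034061832178571992558000701239181593458432449931341170095171563220422224698211669442235916874831825837663066875586100589045695193720453485883459596812817725506290747773720155576425832873686908990726492873058524353285973104937650405844668017457600102472055008988986420915205947106055308767067905426601407948309162442391535026419349680830683040997862206617837831594615919335024111274314809183595572451629195933447000323682822363203196568138971871997975102735102775840265864831308775192788981024290881072762287431593301587221684743598187392872653101364955746983169062623578650501564741025815157406698823251995321228327470733227673051739104397900132906510271699714367210829948452889639908745789477690282487757331224630783293275152135806828625905052926005522350108162140717513289784937630386510117707478336407065542115398124920157865514710667064412265155472091494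0728106193853931677481354469042425428577381710820086288461317061737480806682268731445829396739846270794789291978398198840830929983217656566224118411005912004594218147063687035046706310998437830405978418502541997947052015264034235356513226702121478031425341861244941602598016583925193308527079730100550866300228524240784359194368774476280583037290895198127468444006689986184395998295703167372876114443596289863249550359381788123146525205860832079702706634681174813948971918711999000355033809227209743338453731671105352311426327678093782536616263796729177777355767022499383373443522999374761266623028168904626418473736068891213817267923219289511337370508037385279953060253356234456427824571909604044958101268152434793098500873590610256345073656492207546169557585598989638816737711441936646402286850774289203030753534877061338623566236527774015329720846366531045561461692907735202651603956686837345538320522779857567250404964609161001297294063990105687860963459440378770164051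4346172357006907177598865751553605480673388590753358720887863908933726709621036331451689219289056489322983077820944932271350159913723661797452405685450155729765954830232014448165075133873804435965394082701677576976978476945612235205786318305022367544265928152799189894708960990244325658026936049516657386221385806086539788931536230288333626331200736807716217402849792325717326908206289234177417781078827617161620543605722785579507559545017973088206551447725186553472149118690827017023737543311040363637456180131973404067160629353225359958515074470178486031824149009595464967662377258638449015893094338976981543024899775420532094292667515809852577874206300523013190648496366186338067612223137120201047430469155200741229454552805779400811248423769198252120130991988353802733670986192891751712855664594859203755420128918981772761242136128241600054160209279516379523632743758762509927137897217287433888381430108711840867386216138274927923589869505497599565018618939503272815267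4565179152286350051946139129888652180203022962731984748536124543393303453159166197055018473428466990900963562323918550289468133452187545307166752981410072706634388273126508285845407453916648991293146898152548576373186096366792444064829785634273382477130021847214962733168256024598994138467577529041776671422067179619612123457112791646287549009524520535116589465396527464379353749176895007875669958878666584754370788446495858386819012225086457445828281190434671942948802591244543519497033893540074899502360537896219095252380326560741181146697883933248187951348845882651049103010692537023088188630438611585962830605974327618241895734270465994029648789239136365383307579089392101754292989781378409300272496796599923861692544733656558479495632182451036779959080405711901857515244914038117447077590560071148836544461018656206216403620702865296462387289064667531862812079955610228048176224208426563754019897757538534437102849653385820825663465624294662836669276567183299604371321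2157291148826193257763766239182161674283629231611389056687501120092555078286194002877012879153695672499181085790235416500517791347443490485295867865234653039003263456448437434838848628036431181793208889909218043296015427521589723232912683952722624444471437460639288144357845440912231398574722435478274198618797563164560244690743338151818283623538696653694657821463867384502276778207805406506444430938971865018367091930639390192426793994177442395294402500132940505307241459533203637164071770818610333746600870232799013921988527702031836175149644337462709713824911837557009708283613144773300351561378016570016409067130241811810172531149064236210108861556138454267040837628204456266247619537978057263045766997939330111687021398904562337187092613272309849329511629774400127257050544773199972144534621091978850268349767685622446923363633379937050288608240317078552228374539717412083704806754896517466487230507989086987393167495941683709177642661466164269192922710662683291663517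3174978285986832226245548169869037333632767693789901596847368287579504330075932257316045776112573466107906115517626183722161365468600475269042279850979595665613357375388565913615237440820779014663041978108219766805014739779709385318795031539326445798814343014907898183654559429720236699773503061282466134396946729490408824511141958153389501245560185765930646940980443419094022101666850250736696905134679944434064739440228372383345133048384483142733674499481443355032744657843520658344304119830759496827176828053983391152827308124948504991918773438481338559262030018349147346641112638955304927114974899719347760697597997745803140440967775279527373969997226339311679627083107983854523912049548469654141650592988607431164646708020975468279644310269176281950804928139736251402041230636077728676081181049934734870447143219438028840705042666013887806588212728806793426049075179499963165694954609030550547892954343441602522579731164648054417892316098595457759982316641844539513585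9013479345930874804917422320895213076601002687899920478954913457051328945857857408431252993907826134311920054106160893550066658044426171211828523336941129741930393515594866501940741650083468745263849492884788707570029232946417653038308898987237557238904585071986062854594448598628481293861203900112948267489352843650369021863131454511008329169325344284725446770839105228004194214546080727546356459135489617990964290860849020238646673422607467648636087366966044349384962454528020076692369675951261624187428536230317082396321279302141439966275386809045270342284819113569247704356467813549877610439086793099166928624616239925369281188235893565093002788007998605181702023688838804648415503062037418820203185700794419089274007741090691785337350295626630288723048474994982155350784992755775965443555433027528701209727557380728585499802480080022321756086925531289492595060219852042358519156692914596175459944516946153306418144099774940469487289763629232719380256181714217308317780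2907368523923677010162974343796730754082253237566752006078541760024176078212218801377511332142307739863988603431842027076813026801759173185698893524936648935134725874408959042070372585514483766760569530396557711061328745678950848571284760639109415673593859612432497978931476278187698549561029250732288655901589734516189410559620686854414852457887196249735277899441397167848811788276920204543004666953943762580038833968208170863182159354592914069477069462304462606487462033053786889097715297773983921077331308323759078938948711071534045917982368382352574007208467282522869780200940039589221355146973577440273493411851841629432611503410636731808310829236056302428666030281935005213296911730794273917017371349001358300344522505218296296648167479737480740608684722918587669441891932983111252427101280856957627957864125250649076161617741575736349676958601007380324143624407820667563077574044408622575989409435587890464499870487820478578107855837680565270748761608485675180381582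4899822103442512988930014762904361105595137467320860141455040944587211703623973511419123514806545683971423029204156151434390332196829231135837367370737151495216041211497750462704711212694454263948935092972227283966734567163225452013370756246883722782060127182667087505406296939741812452363275859158358693737002080995432405378823553018396032656864961190190095231350097958841534461580575668802740153717901883834681028801329729350857167008739261541777459268678304473333946538667044807785801076123863060953951220517839866588360698783795908888780505277988089346603496720648991587418144851835765941140877817025912953487434887114894408781227706493585212983259424804430692859855531688713154262004522537256978078634881847730606190740134865235119184926481738939012120530051343792370052139486644801998160073600716074047577743568113865910114997244731652932810647949230845857593606370505057457708933520465601905491352487854366497855802979415233186166244950842351338119934838926721965168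5489328752174768440019389949084309230097380515785646196563054434328381871166401456823093142711822999057834636407749852477790667039889057750437755969541866780411329125229122305159642988227965567531338872030313296693757467263697868722986861527283941647204930338973093013639566275768292081676981410261956785194998571830327496328776123976613683550856175489909705921283757039960009606668503554866294132821516796488775616452539653384647532920446792953545119578654731612597499303322212154675056402317774007673554135964903039836237755061750775773694790869729883622773645593978773782186955193572084942643650297393129918061246821406384828528023699805407570043500144768160716370691658342893680911576932366066664884210372262213739673962888802047066270844146471216891131535092014322302745394916283662987595477369355726806101986386366406007704852863512119597234558555581268934951538644365394374794582332886405085112391502952524441904061137133964733118693822858949319661194892493965376768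0103240888899967190515038466134887678480171232526275948236990828188454833351293894215987616406477389342950755972603732246116441857133545818026103409114909028224679254202387168383797829048184021483477755881819585970880399898956343309796182952718482043846202286153199979674414707672713335617002346367142958587899853535084383883735024243512247329862559957398534135892297110757827079691464054335217971938266683896892327685264892215692191518822118217822738300919965917839181065035365963308504506271276944184746776805135043924299287436014557566080886604337434128999677437891986242747261075539980970853222177043799016058307397370438974811258510230743368489817071775475278773507460215380209858470998608798963578649510678214871707924390077303608540749706888829497166564135729227285499894515244804562800947096037580843684186285619670568888521546602931919436774917467110302500063988451034518223736783355026563853430935526300166699607138278366968634715061332281962493620857028969237131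3156396918232003813881572121270218586125651099441937582570671917670941481313640157664840713326355140743836114765316910407230786564459122721208371414699042823920264973679549940377925215065356850244868691667784164904201414659638510793952434296936028414531758327189134872045286257621528928899010862635007860944053868276597599042421966148595083446919868695020570271953304719114786294218214426283509235041154040097780812171496333575042708363660440357989294806556255064525908929647219992995740086052210292217539246174548170428891443562867290286160161653252402136601393852821366990211031248402379659859069303758944162668318601158942873204576757869770191340979353704496301180916433587048044946405510031415044883416100982813592740734681673017278313855266662826170479277110839778579524255710760857148311193902893027937364908839264325764633492042907009973782530163621552959066981757185400744683530694621415190917439110451101998302377090697835761761097541307242121604666876873199568191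4863208866355929877211868980356541309591831579676581140489473685470936023110197823284411156718588928036453311567498045873473581237078375869036798974800683812347519215638313863799220117294075470532210972211885707858288527935628023870945195202633046950416827375072515768146405844787706001033352379751465726178006652402414723076150838849523982753668803188484608886144025479716912623314607317629091789020222394453397341221087721699539160985729116588974075195100822803033516179777629670948632369760601627490364007556510967796919532448230014239003646719246297482387189812891456889856242832923797947557894380241671438977629554045060133804683225894681253858720533596170206307920728815470427690675639630087942184391710144793297721107743649350634656210635456412350087248581393542841855889929583816558522183767944231872948602185827142364459104959301846203812636585977888752660221793824846463022953619802283173425635243079090649984539700967741642615125348617549210289912615264623099486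0912131625649989651967988547369046721347964685578463135755389729514322534877377185913428835576396900202364580378556385334495610430051601260601136566153640949168747068716328781556094059370764189518441716540623561342066218547321462372547167261942347592736748060166494751156785980687116654088036515061493085694005703181291713221704977220006429550090557952829748446285851043429802637288526102245943818362123666182243561754912661521950091757234812569075939110187586164190097796124065213497929100637095180610282944781827918020597692119319352237497287708506534046506578644635093696759141822342848050247658591774406071128428958334414759018181303362886269947927602323790371023686289124812340067622710116395551670458590822986924146184025692906811832012987732243996275106943173046950084934144364810083450534485042288377851547373002135579361844671251687196935210382823932497479286586718260125530441608410383352422856843443077971430768796126347211777158493477400222820358662212397710642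9240236622600035350187868450501913071967372501558473366591970171492607444324489688663114193019956279968072201967644228903123909023762501597428562858079552433852753112865856050714615714654208285388538159682567537372831648221042400721886578192772785578765347229087066854781236698540070619584184759487175259740893613148708048100843016221960075246190011698800875734755880107698771486608636558367288057302792371974884195667352040855491865902787968870140800279254610300532367643251634282131590414551741920567085359786064102423865802727126512770813205806735860021277280082380827168199582689741498666872132981122691914682302545360144408726034269819136471898903088949816869198767714113912365671924611177415936838207042187768838414588023071010313922345040551148428238571946770204514009933242715834831650398642082969538918370781486717201141370564845628629143964096527984072450981901048173721534073191853043422325964098356254300754369442244109751599966099669723973868514739664957215789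1911233341112572252287841099564640978258499720109166666875802760847453762473186809005955576460812695286689587918222417232258316767147852334934675521721073894564839150196643774558846188232874421128213698578342606751817277830249955179410525918577828820722267371361792820952774489977338557246838222518412863391970996119031920252187287665057763571560231722429538354792649864486054729859541798746995091228354410172277719828778469188303864318140920930290964570067046074538631651588998755787085065048174242330858418028648780828049364304635027561879400650386861572503481411398309935841015579626939785617197947173447864829470666705920697056310999615477400271896964377106192401666831156215818460474629759208298301730492188371459717082247034583562303979960364547403686895049209245475714375955745073963811707460066805793250952288376317569529179417726041765002669151299696449886958391911712576186626440314672028110855724818636872041177202327596677530058978524038589140200409281497790240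9452778736386721357759592173311748112248762792114059509024051322195473249897617573958775855790490303268816435588616686025263179195351330009229736920126436020441855947557216280733146648757153069162048818572512591059848726334244788669265805327130143335488218097311419180248960286539675228579131579440867115027527471321769279635687703488413424663744107802473272137163768076667686496887752821261937426547330065098424923638431250347999929900162497289325530350169574711676454079392051472512651870645745396462567056387423915412564316272008621393927292144360976963028907084188246826537383148194156587179003853565867171119490664379490733589755697882054569601409152670385915337559601433847150383136880206857143594782682227786517416604937815251782954557612274233576481801606055933706672827812880253930628849610990181603996063065867828560096410800075206127791873875807313851909730643387072441616703345006281820858705019116822082339510587660849418813460501717936902327687597384650525274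1395751675109079554966156042171377235692738288904313714939088072684883074892568153961915706736915723466192407301098923442106059523122043727036351246763857512989989754795753043369474885552127772122182550864386538843703359392160997770863608042790558355055186778355140707569362433352870633124894366444352904585589996720237163499155118642941266514767118317996871399536568666602501074430975256352555067246680216798968197861339816809220278658729377342956696797110888808472588881123411452976886098102947821326659450350346965627290911932254436733358321890409851502201805864682397260148611454746953511839159300755218508676386875601586584725323212125336020270302041840304031949346310369968137971847333879704361588617922702474028450768873215998659029837833346797195368441955531614321054345636021609357134678878086160607587230382559349139856464535683052691550952925007087983242546743356046834797061244211858097118236522382260943448208438735175015414012706066742446957722408887359684559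2420714057598576041199251928252407463938010243883133639032134910545863485471416854049842543731625840101681396438286091458058279195498032964568828382832474024422447015851600937097893962668309629419493704548785911171467933768053743846722509110688925369270078098414735578360235905558070106941771693403690372424138478488929354911835931077131257252379867995245944463068676653624431190306727523825276164669045656216195276996141461603097739456786030199199260345988095924746855184670764708257364908882382013976424800666672569942442030243189013041656234636466384280829794835193662480039689982875074623151887500697605579038235470142941051230209252747179111631764228922099106653263214386050183935904240435832003657303839778433707573374700710762169098284335798117537422808819436335710176689197409526618606271655928389732049605121726612117727619668687031891577136981342197110235249497380127874998439027554907192704352833092500225067135135896590614596442302856505742709496317535149948215223814609235153182552040390949378205877332541401761021447706944123572234870813884416)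

noncomputable def rc22 : Nat := (nat_lit 281172302049015288745674166219230110781464876458906062309873649281046146810696532638379281182384408355990779062845051151944123902626713138833767230391084157975870069982922258167317969537881449803070317903054163749922859825639464390315396888819649352466595184870997813182303407194218890707484119997005610561918712968599360866743357468212201674792260960263691339024087822176967174367498930280013004205626681015044021071645109013181737068226143246713796740490257843468666940370422912464416694926858972324915317658107254336224781798907486916361473969049977799461488680284394312256543477500090545485006207686322308896416917713521764684714916272117071394466136729692575162950655828263285530139555288819997552686870066418871805052618595021053271636149322943945871453683738943573690790255240153724054086659072855960370777232803393455262315958619132777218140825478535848548826249257769676565583082713485562578963806684153505301878955453372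0970274965154233330825655094077280497470584439373264128208445507116583045153974693695001129496386216224563193676927114359140696042724448630976683491491526744643384289845230569900233233951057678071391286915418629923176567129848565713621424335434782325618072237356817637092108953856230406622690180229104656073533941206300152378240183309836201657276330114301461194071364189945737409173066272046350378494572500764572734228782177965682692227216557595421112416179179382769163833847497662219550007325121622017696516727563581877103617970251842901089946864039993693546332521945554636930993320797593553807333646743680638423264618836161036551873893437220688186655968546463915326944937203018912638090021886686779379116908809088520478848533566194674442914794789664082739995748293186697607724410871438599036179549623508165641401502259411485717358390310537885620461423010237868301250087052829606718053828790744623352258683952775901213201287774045707996187760705778106287365658983518932808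3414892029707237314386191927280108184438460197779934192731434111933688677824850807028061274125601013767342297934703926684850420419066434049220408347638091091932826053933627688460829209889950068691223850906385323315191924209716017989699820467160369260699440780453737290717527622053215786736611628634501814882179885398125044727264162050254027706202591568411767321970391750610232424828557796392982951372209662035301705926281443205413646601977404206382487469654260975221516280141874845430920633881728109412654208338013236106432997889393948612954164037503478711559210508356028374593285803753153813093989388171508259643768794955153036068695341351053082300052799487527342878458832221176926754003382188175729282814921702944237581233306021272152506953225605150171394709485285871512351856741483413372355649888548519979717939008704710879341740447547315782904034354140203950961674778910897231767101218711007102278910976298537544189718563751672949216494056292673910906100425277847449387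2690030563545938641298745326872474534025542626605677625083686146338135331974456445837947650727562524348443047210348657527690934915463543608660802080537656432890150211831538479029820291204288893897339403436162407178284274575608300649847522942918491106353775131070816433428454032760132359132802437096057905943422453590384577537873187173195532932058059637033348832742641733358695806177693769227233005857362846878182630220708079792449305447780531304955205843797810372725003758685714442291629764597722090253630758491119934125407409144250530169234642038510410792354755954707428767328189297564860104951852890160678905893470219436308846038132814453226049521718024925062993149316798598977219875252982626171609483479307025289748912939898319388017856773961756756932393167455830896359387157265920288759163643612915417847046309039168423806672145645864538776400596064602918100125712744506194042145917246381441440006258838036488116338091986849257693925847274856654872835820813215317530854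3182200833401951644381210475537011672173985424182583417075555585478983223995063956278861920381171738987224185081183513240322459116696221772599997320472899831939538545608712932933606541276170824767802523068728569728765900560335917533912369187954187856762845595415847912036231923268923494700048317443737616365230007117068230467417132334126243826825251753456338719883526812490434577742474340327929690904188793682064376478855903894705269804066533501092734709560215682995725655533578658253634414559917890265338531697869140760937733314866087302298038626507305042841611658157610575747502928248677955014684965904766089042708204189956659482626455026510290127832783987261847665110790070298265455623799701610902241490463598271658907760415212961702498741025648128585632391569742479558220105071507192468353150685279970703210221815666027612519747001740032908024393653373437132664594931937348813980262308150179877987221121714891459673341679578234207754438289371702207886870079044728991314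2116748705941978453212405428516070497298723999437077829950005253905502140348207174475198330713583239004541693218554158402135054646159991404984761280870005179164249742587412717332091683812137983947414936274016316088047684274752803037729359643723044779820630923886930251521697768394679299728850155446861164816510983786848690794344206784110785736438196000970152098797200422813366463944823768714028562590244044093978042927096405128327613393482096002624076910518010766119803312081477281372773691777388027781197684308237229475579752438860452453838236729531868729140616477868814444011866733895151356663031433841824930108172765960858612422837337403357601426263142116121707741929242634291339164052365380051822165726609694164854945522334693404493944373408970357172021875301626634991759737649606950734247985413534826161315184410446213901787092823891819007388197669419497604803190397569151433964832181085922804879434006717809383768347480346614243178962127306375859657721659030228077950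1480037715378227012402242157716159412316019953097771167672199051475405550357012357479434415905656503027658063851090267296762426803749162791624583965517179809748264659269301966732620461091742893861351690943464430315386649815054532629106776420451570055949427805092293188514356242168061079831704989701242799556516436674872263735988634461114036778476999100789359854669142993755128637613703771747628203532631893746676746502765315295039874497440585616884316227491535972322350631128213103818294519324061857853717924488557458723574804549690685824607178562249843925451391437550525317321967309326630534690577563647691362386300830074374837020619655769603991585667981271158584583517366704766752856759631193822269321754886575426318228063386970500580365577932317475046724088760894813193266196466377603906731591580117311273619032238924665533983142256270215554168820404500744480420332883936652993863633970520879399444943842260856892384463553461706248390284316981747910748613016506751300219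7455874321026603709209328577162414607977215165772242102819418321553067597178266754755332392835234353714592763257541251675777815014869303321781768201523825981395647070909269329103103789354622237857445890658613731174191466534943499519285545503449128286058045028276779666202470505145613933276081911931135494916801414670435880165356049805726680890997932635282257669416207743891014517860555336401314214408891635592797856021360487577729402638543750153109839336455505354470710942776376338000188784369074857084069381212718376665594074563822903460500680328536549349125001677383281970712482504504670806878072961826838773423887090825317857629125326498216271284231179815153458113937818693532766163521317692203803580742078512638735692083172909963457862456370484008020259923976356454958386235116400527247370142321017408055882685702149691680830439333033289984240079777342248699894455861677477750811053654111869636799323954212326847807604501763128543455727386475234566960573304699599798032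5567431272387753462055990053033726639499494754464308087053990307462429480108369255210661962149247813451313082963844744493135021213708787424059952730703493181905761572742541670307722563000468940465648741925902973479655051860282814478411736079366543817810101923447246630062717023571703309834747701777289643440149376026375241491615921661081318646348657538279149470590374201434016380601491404901584440390068431424467813620022821520664407446055880156680966806373500864410269548309657832618429031098455523832805651306684910386710953023556613249223824610488939486236661415915750612462763930872301124612013735762113582789304657515354226134608506713030071250421760050872251141513434950376850991746875810126315562843465758527762382899375962074943190760863512520836659696402704604070644926155219123649837820313033041319058502466617168813335946362033661755546044127225052093354689751199432420808579589351286333385793860155508289578259643937731418581605708581207681854238226465334116553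0857489114708851459288504337990369116750581601279957046349728989204856385279808486479460621372341336222174872941697097798499541977924540744602832304242083628441864551970775814117605280429936396972795422914821275314694662776205996474936398176102065605612780737574183624534203993106774823382055194059196437283166469582708561191429796179590994421239807618887329626700408589541284918828904179996994321509772461761366189838009939664070139858194453540734108466847247492439254924789868270456982278082254247455943486693180159468429001982212109529371893741786938859300649105594725704655089363346052454736324031361215446428690316374017396093811969874925685867334988720094027543644452346657881071896751936403503083299684148278088133023042645909044869236622877665553225691313680859889932443498336871018543981543006340183178440747422346669957678127771821433544019288991702236938829119413901292257085256664823089220668593370901378395361845614598624405505496012092181877713646005626962099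7373056275814200546209696686150284575368901363629350776734729255437776026850661538786081820636008080002657623863774129792337990834123044360551055996536079891044633644100264671463164198168320589708682901920700989833974682544072171052508995018315499991352757552050398451173685729595988746661255826221002998347804983687461879381184850909951502684654256983880871750193983751695548488203828739870545387177068260219140556605840413241746948320935363273696929421300796386181376184477715327822041338591285266342923849669921445539756028885783050223109278339297707767964572593256924239391861493758924892503464393923935563897084505994835805319886397424927842657921538643698025339865830747578785310541354777292572599467165418381740286463385892282159584989617996675732104916615808236028526921578079396801782010890564077018673477777699232220920189949745124665767843544948072748472990112153378988705910099091596772123433712721001660431692206114404988607247194042760183061928243935738556114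5506635319151794725263995363397686026502967417853334471501904297901165490781578995364660235221501569521032058875366085387741103701882338887506775451016317067809618962527354256843158668650310119612493910964348596900613152410948130166391989570141373472530690634605988458887831678869879381102415771154823448067022506206098775909250524428940914417005279234565285394980728311587259797208444153374498707938978362489966528733092666696976559461803930340080293825629324482474937560901404937821460524124178700769924493328469548747741368681899149315893393514153717289750968463672558764734176315312872368600357007927997498123509778483167446718873547415775142573228177222756776690350830842559022980609655081164047304371282721731295821376996370289350045944347369551003494543948069919281288681442661508186139313563952628255465593000588720904386454554077227425564163855799058579365500144948587348383510052676583986933268240569970332266867942533223597560028925501007924578273630026186300567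2933146207220966158690733915151184828528326935377836713298750978670029967086774249139413460783580091329174161726801856934869160340927323249194147284817244252323370157725806493945242490540782496511994730867495827586838082478802508713700601909134808875946337344457666546302878990465270647107280788797302442313645152410554562656643055106799259386519763826354294307803514636937576171929057929257955716747239563756855676792445644571974937131208553891448626310187182698454349451963033416943070112536742783366387067192064141946849298811391775164632703991518637285224163410264341264483307387390932971283113544501594448153884960860687769860030424604014763015476258186441379624008377962076218568932303746540762934603649257017852500070474113756554143898266623348779869383187294510363334534023522496930668901793745594340506881295010018510297208553921885276824956063866452697371315700944914791187144459078776736006507898682513799859781059563627530345213383391299388500807116451894490545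0532510489024558882119572976917512736837466426186151471158884643916166958681566272342371645237729503057992339779053148329825479417664020282285492052929917707792563940119801227262253650456300579614270885109649880810517163751747975852409033568836708216527385719719632577464585998890961121076878062101503945371714509992897584983527647892678475699562419902776080009668297600641205783081885146982031731828007571720969757493230136687166978791520457003644593943820996999114756680021329194627365001961962206546226057990153156014413687293123004659259622008939127286745023635224395079790129414769961508586413876808041482199808581830481709620539464196156617135991422276836098204694949082886448588550861917244352271589509954747493013700362264958887645470372459585969534339950421217519961067808692716972359160902222809845543098952188752680626390962508916314717684103804097853220146417244931074408458354317263354822904872639915297931236921544856598831814690711099750875591953035907509199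6012837393277126823879029625714951394514545060608308546489979487095825819288687679074436401222393076856483728381005104781376504958080570228406429711147146396228071230494478540868677094201895138825261163390279054458600832020927850245456344337482149246864767654193728444713349752029984610269636916984458321184967608022036394806088669928304797888897835433868653107444426918599592841525165451569741811025528425829509304790140480945455289967235520845538005245899316186985763084140977217063282399827768012399553776357677933335793777348138173311055192661641170590459252070098889755147798795235539625665244623968718306994811165804046755709099889131431074943577320149517443968603658658436008975013531263234419620157358394364911769768183114734332614294773468711689101215913055400845715351728878083734697930181198745017255656792104808489252970119793695006034088780632702966152613071297398695500306898822184490849323744994747931244113734625120055690832587220484561632333829079714521721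4716101810575426890102079646655810029890391179479170038459648788815439931574173794319486247364523623995398965802805542468315256144498943187963068828789026073310896894565562497556327124263207477937980197592587144578389386635517030756042101751695560586780528387529473527245378468172940888757535015430750212425618159366062638617898728833014397278963098136842276059317561903971924594514443572513912678800808793337701714779809572786215705303094958760940965286742656836845146788137882533072819443461324094549770167172758546387593151127332269874540135222293858445915105151737546656203883085352306884178191264513415267390660461150261296726830456031346605482514497986579140648025874873806291793542257348256284479771258140687934457898666209577515183577008529289697594605150162943050004356661409945531270192654313202561591073119312808322312356775914402253368411753648639015418439304099375709533501011332361151213482643613167452347978784723230920784414483850500729942448878201116927794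4005183183260887919469291941161921473071797423959964906106826970186698695640643882665155028375813168057607035737179385869924842981800604053179837615928415490809677039173419221168197497038939440150294652445176862609319588696799513033857380536142103861285676927416360163287268113087945471378595939490465390852630437479730969697701761638193004412803134631962109766926021678785834931200650702140154115612167188255973690917625619566397462741036070034828659137583721567060736782366304395449155094245334165118461083358841680206478812363421352234471958103743837553777428142783015396560137398626673459657766258987432191133130528761579741966255338383306044618602364500797248545475068011307805239722823004436412383502299431318231992801754557706239510742177860261187489963009744631557367493804660456124416141067199366862735492128825282991938099697545910870699756821844141998678800147033948387523714440972538364224304140873216886261849886299863159788308764186783928956721881059813819259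3858959074770199703009186248113491186241635409885108483421113554718250043858135898272347460116648906054287225659277708202448657048824149200709475224919990184413998198080716287622799783769161334067886449552411828011809570800976620548367647303888687889912651336282432118575420254642521595806520829960585999991423096702671473362461516967636936115155396826012237408563566249987828233188164418109321627213044649822263846574199449162186880296170638535371943199667347082403701244955807420409570745812248778234638079490281115725897428368132349519667146411280059043351392923486070861950502364114911220719593293315999179983327538757920374337994849246621458914937734128027423529815603280707891847596441964843004080785754043243235278023179396846084986755207660260202105617589881187723122774212726135656398872667720170707144949243179326955197906510047465923358759600475192681067213024905826922542761082730633100909313691150967775661528311470031302760297267027555767493897559453827310922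7064431688290520093794018803594074329030573216204461132549871670824146580073951697047347171085148630086024539787636606818031830323113626317551789682177399997401619000123962762121555747993296753991406621912195372648271557305565930140045890681905300562333518995610439218793935500242584985558668233081452109453364558663565926434675774500950761953897161516676154337257405511409101337915856508569265174961737486615566156128601190755599201587194448145075040605631974505333222547423435273947407819112905635565140467039293205862417648864492063154945042852984902361080470290667282062910525474033443360355615941348021603024155382190482526737022196408032329157294101341709335743484935132486311617680702411559650322732821948066996123393259856232721932863405734676745099963557142435004934364248515028462407773395513328700128264739423268447216310933461262538434936329727212318834421697979036734849854837982767117412758179066064757340070930152925415790740511629480142351549379399104752956359034358696966915513365134428092523275396108940682926765153160695745626130614321152)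

noncomputable def rc23 : Nat := (nat_lit 281583404550998535734434572925141865455590541985919071165970003127315387770152519677459993232069576780684974846638731882832061161032974389171701130665099496228246426960404659366574894493460362098145966619558389618738872121772288683111155381809170887808145700502919128779815490667140169338455279561869477084144720154520185435879214408052522396836817352087434988259013334370662695865934346393593439973480232981128028926047800090131501576759335640411716084355865791107596139368456564501815513758687177892061559727775743782930102888966378291076419788636290795457353894651000638714863269042942676205151560791905821548739829312721573163586077335561177953351666338628516936937757119114652201428080397146481942347203350070074322129427655946049094459082960207026259400853030816128885162019536990453030114072099668891650424120364912393865499086733305622254939206892235489981267389918237199333736740374225260530333994558037698277588897755946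4341338811927911881147613827496634763201427452771271076104335270910515822622894061250436249867982834306884577068526210891049793363032717685260813159627597161471105159935950806362216918397723468720242359888870582961866217842691471285678481811518364089992015900622336715781152993332378249800150868255488088218884734539879085632800378776305217742444886062555414626373720756117916204614700012583860696955899907509706285979815400630169695906008131679463436789906580946435128975976290418369047263797177682845659017699167207637109695750913750705770597000990594366789232662513206956077763850050225413779488199388257952445723152710654935819268495827439301011000623895831284224402112754732230183048922295009773093229832644072607583147923461490793797184874814888418494626013818160066999001170502652761805048199204756531900252259424129333352930987967852822602802772144921895448358870074118852040543541514053618451389157792054519407098487963837244597249754066304510569723792609273039373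0451582748278807094717660531658402646483980894311528290470602105652174574098288638489444905688048407380232988861122286297250468141017695544454630333805240039677167578440718784169719046815956084223716626181872999757225899062435850238021721176001607579728985787101973119270203051436496124419744740650352391433392553587507383594694503389793330145271013870480571069278294135879175905861746478492137421710443979581540773345807997104034366413144627637795672424360554728980297786693653431289611099467011238484836816510359438187810932796114955424990398869202434269177247832337174502651464931508246148507219723016551144922582846565082415386370142667036006518941747436354261421484032443886160585775387757263917938553881462024792291291962363119487785327477835239560178474421303075715037321661778791789758693705139392756894067914160555323556425117926269759070324051572827895408233502536551697500218977152275748610416539752508108703897764005632420708575696853932194454441161847947633837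7733488032713648819648313686655338687045059168466267511733957180985173311605716490957948636530401160936377915932890142269448718427942118585052740985323964003219788364573893904752207060858217122333218689120233804623059056768712615985909874358921118088052603487991075021115159722287772280652227376438911090645760008338539759286923886409151299463417001155833207535157153814373283350092665629747630922604425837557706834875043002424833828969356718163893064707251508347335369120202804617161250888095215370850347238996793684049464842181000643273567442684664106611924798959995664896543686239784229533152410748171821927459967664116814017574451266953726052597746392737470016269667763755922502823643708997563261581234453056649581255912303683840048732451529330674360201306528480842055338080179638550298877906756821269720538563994910899258840457817714539848237683136682159010135259059695630923921232086067671077927496538247713964393633543595073894188126250915943371088175213619221180578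7075624390622383187542164780391750752640441683733026961309586921059095631285456312401244764689334810417254295203400895641871334792651450655033632937387651671975495292294751643059825078465105312304525169044393764475830503773289612858354482570251972993566996811345547160859283262965947362368078502564307149865983747077200258645431380886994040997404002257255240189155204091001902305369261371478340021764503555564779634990961850923570632600918054318103684860584696578551533600862907969515265997244174446813073502122258886374888766815628203834658675055236297913677441505600654405958342422273218194787196580581616537472447980573732693738966876923004010952016494127267612822112566798838510249010252013025396782505894572544217648770121558069046183699765664170170177769890932675456990028343916567537718979927948856706808726052085138762048111301572484453284215156709618745585772724676282802562939245763019894675347622326943198958189171835715784958080750556723944704931489283619785194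0585674396591992931263620326378421951151381585622745644665174006972159604066637932426458584501988761646601235096987034796759420603013224825369833465275187843718938869728363126628035272372513678384411648620685527116694989939778447799483150004115362559929309630929859404637833296671297343973442138058594552461272132071000992120404754792465487071269833186749220325299920542878110602474870078853504956591860994951229976154915964890153037866496691315602688646463591830120998254591719766128498683894232829104558804294233759330096328549512212864606535805642989636660106496509399560055521596296477961879744198565884287858469077658074101145775685615245321509425941177639393135276422473009126770700655544562072169096969991795066553133902210825636277153150049127488734434669158215825983003557335753278896731002879545751472178094700470676523954738510390780219608352381255747051215330692055339181503620113688534307337047319073856346242190018841123581697695477032512847202381917689325449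3080885035004596284611697691051385969610038849264729483848020879073670285232121307514117096687514478285356861776210405146771918768355340367054822292542198068963349094592401508467092438536341009971613066280723739454532662168614966856113558618992755108728695538519968546753319549859966485934994556600578219571418307227510785124495935497218778352784106766359055940205981344991724551923323507215796311333124615264746617175638831884295445019499088439895171139845351253723254135889191809478293703114134482929110275006852632309649652590227035840666641638187719008382069675412331529892113451891045088693777320072449384035960729452708770560032736978040726441642463754173420769295669597969875873127548791276841782278258412377759541006041247848052207222488005232199224435423088787662609456437901140146241411123575681081497954685232374322811234216571466395005770041195467842458439559494617814717178906302530643138859274710139673560836699148908666696136446071532478692871862557358449825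5232670756989218499190903589097770401062656462124682526922713717918122877351706006497585313924916078863141614167696672797634162624805334129678982249866156152906866074053332403146374468324110947095963755317621595404118888253915065462605325192561071545527136431742860279444057365249189714194705688796427110376373633826156465493362895739026519077998635500514542254999231970152692592949356056823760596149348232394951072720867631513974152732296736163527380036630542296056427399525710084943003298830102167185150636506941712781212565910430577236669133382552786436443437492422298165895012327516333260055983606701271152165359675053778774468905594011237310103781983551614445515894625105889967707933335376236627272559061778237375950273632486513101186435134662788248964989328832971930607974737021166348621636505949380936481343174837387542237516813296004932715081266253602762113158146627206015416497083000142295185652048473957925060669903054331747553044207234090019637920447814168823341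5645322027528016834089409499350321561683542877739488865694054690619674083301614814674729385039163304948781970412832648194562508266816556562835889490313411834076080678222115764997296248905561153272850103104776643516523837558559718563873099671094966040405784603819588190707300438384504145638202153582009841127114745426172661169811584461748865983004644632615419400544064045596286668791735688343424694206479947084744097761145264546005773822422134790864109311927012745340248350397052790362416668816006158949003606169523440865653739308239219629039920860126724403479398306907792759357448963667477278766392721945916341921012674056805433712274814730471344769228830048511641329352756259944984088375734565912865079453420074355895698384956043838971625934438228552322956796907306210986656232272028476653404715347315749876953559062462977256726225607181415432327727534439217840774713143447577244706125593872354753279872101145826466327938755575210079758348395076861687015065900256397848831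7867446295380879786349073624817029504735097367757915689863955185928286215592103887758504103928240337750156896932485123411335940422049896633180549693162255539077155369308898654807190803289815889637207881492981634967554953232455629593180016151750499643948425224299229561515068973538039912366894059705899242726556457633392655230645573943481062532861666882877565142663916197902780021372536215446625858598652658378699325562869020628461010245268459050820152683173457806553390334827637257536987776339102008705280792679998901196661591108726969253501036432961076852929325400314148642627246898622138254139123920833109320301106147204426178054428073593104850364870719147180546321157261562585947817768940566994219091394179935440771532736330469883494692533531775545186522512353511844369917251222767861216914174799813062223920442175174682573152648698061305973388584933883106664098700598440244394387140507166626052486406593007717473175438390990624878302424542573162702673023909263352530121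1313430321622928310177817032236394357918697606586282890051903868519512297742727587339393184826316455021472369840267160482131781705590726441229003385431906730229999353681009550909730267575601413771698528463544286957293345718002980063393946514016157920052564629279355400416893680385612421624169448654410894948057250397744877238762254820813605301337650558470357762976408978655849378272567358260183349017136213446944677124281267513646022283429418386984844414329540867671414013545000450718198419636577885071458693500847537852521496319284870231824293651904026025423570902375586883697203314643491629792454629305270202073686252411177150664386490926600047585036532519757145638009214426264076853132987215879004706408592701848993418935677096256118911689185508845671113766142352326248558663594555502578063354044487519085397867169694748208927754600495787769719989228665577443628957907430195157707377289998748946226914410036170429817057663828651157020711243394343337913159474570485272161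1154118736086736342556865477002614141729104681356572174282289514462521233424603216649007391542375648199574739008102967856034178149919997601863153319308957936758490795850323254260768184184796599112633394975338774261295251587863945325102753472963771261281628675032460264308184577614782821173917677582673089181603377616588761204730367346003840598852298433178638723925212336046624189729277611731557677147495721043776942979136913737062353858996640525837373022251899181650585088536646745291127739676655032315849567297364677072460373339557907100463266831970069152001102929863849006504299338570228247918385561895672957908890489572151732919311700488035050144824778195367771672669817987205186886400806073524212484001997424661888719519919772677847448618997676865229299503626468726972672364808798173962271241618257169015219191675353136988830340780922459941329197527294352304583252424802713045362182377582138070399054894736961876332675638256001546744541808423183811646493282524195208307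9477829551070872177489748887177658241904270287733220969575178361614712597488751012713743926690703777548353508158312688794699326208174839104478684025862337772666638987195817186973179012620901462291565495698641309060762658922526929125633635850689163037582524393466419815621156317780688309040063578858881448766123673009730023907956244301323361338106644933722835837293965964461487076002331177925219662363344067088472744246904640807893205174855062571940391000576211953365867216472020832204019176832359089839248273049776678630286847140407226918419004337237592746549123210860483737743753103653327694898952331598247035358161251785073196191865818342997369474076733796865518955270191660973166712958447694339957093516635060169749021223638442379527316749119486079167621288814961410187372466202818388655115865608941262652219489597480556964114404344980302341459171949538399736668685770234641313399810737661378240460838090466922370382749207973934728408043430376236549845631976064034246990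6446132731641743099857939657035703480325437646064420388960429306842216398118810424639061499627674548959345667888740720696400348820710686764505097657567197239153890299297020814587773841629621459939534998329550577543690148529233328863213119829388024959857399895254930272693645309162967313425575744386509156863868405430164504959523192685246651292851817919343262278264723320716550869222099958062864410444557964667051492143373149515261041069583979138922506652631648249496266094237456216785608956130963234980082506113250346004398291184545375388364225853020035597555047860093337178808155634121187335090567464669478071587590141191740080962696088392596762151237058659628615243785371480682717932105800020175122170329158415240814201891740167129745045790050312372016603157777988955700962718708174999293229512614547491017847566393906390585216176573907349356470690998254240098688898664354907057067573327425312430750967108102222523059988938407828489894043761511406117593379502042426522967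7858193797449301181369209831135071443508867330599477920398236858451883968673777718227063674417869482014721760236550553350421376231046905668201969871749380943505933894578518679436775959122273540572683733624931511820751378685285815497289446672808229772557687703542445392278188384392932700968469936402086521481704453026015332190381359554552856490116878777049107556568171293861048853302053988234785426898769671883486206744801457192498810657578152672644366994284439185081051428993635504860914128102791552999736000340342122081679439367133326361255080768502488103818357398166563348851026543090671877957237121550849526403742995551932861471590448966562521791068317651580645813994821797232105651902604651472457271987686024925362991891037238522380711683407852599871773656718005509164001621377934239631621369547019778476967574348355190216347552568476079472700470484411942339431685219776589769661316813486249188249982696214525200336358694026607307429848156756220608194443483380061842921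6197460501165863826957988682441865785483479022435462639359796385150088421159217286550551878114403143991696609825921486237419922308685382177683203921722819010808821278069218901400103297024771049004589947000621655609236920409049724078985170331818823332536190024933554141259398055790331653347440719372775647977420900247073441649012500416719610155150460949015901086983342307959429839763141761599298726676319808378949389535040897235386053698003158513006794560881206642067408113429337048603224707709226413758850230706255420255974432676938098002202530663518791465776556183011741157417037587839842790089313393900592049933691998654248809079515488584894597363877893350737507775693696084818901413305289495392278660975305477984424342074795763398366787269536428284878829638524110282272994736885943471931261279198068051420202542914670911118521595613178102638120718670925988123428242681832265448806615058822141841213180217651998652957653388437826969893970269985156754208405568820541858697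1100346479516796188097780783042734479035822323386910940961025769440881995131257401079436057054922536564838930163107177822885615565602078923102562648223759992785895938865061439636951929335993630588859746632586365261128813312901876278748804648622902705312706772376953997153399557605039277006053239823897421047867813069581497707396423654701302699120184027863701023955769800324789293642630058817503342969942019600692024082778918423300271199396300448661223426181257188263372901776136650581647805354909061158421479331321890232536719593340846849073259275917171943938799643129375119522278375793688489955743497427724534010368380185067424485506324508016705247937900834463920426878982201574318206580369970038882650271456943862131289689824035149308130441742527528824150570516068922972267127276037141213115762114199422074769425330106108045569045649087021497146735401160557505400549662747440439768467951588764361991353309263570797008399495189844178195919782795035154306931160465752391605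3469200275243875815243329154705404925824324486060575461445788574217177637571192784160549531774328491266097412595151331541290184830036172920945010838519054095199477735330579547526946257092682161636095774299249881981375335426142773251587760823367369146404627673765597873098996859182868963950932909101441922516538577411149579414162678418555472972930153253885497519980538147753527703013059700737109102762046694973929562213056118561074014162170962452425975657332544234358695141198673415310787973156865776330714274781679022472530908605420601902348348828602400461389722873563129632585451644575646022296927653421299672813527342824808115862278744283971930579676989790582411826874726347405297978561069717664675752376410438994073288075776201968245671887214302604392792281156687956846051017553397945431875944913176852905664757874196189939422348460199233295715205282447461103916830441011139928790947172571211733611129929829593485698029733378657550435458361874121083898797985998748727810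5446443257781183203010713594045718961580438266403644087327271762902358213925823895682801903413733012597711248783974373230797030887450451966170151128176402878217387045606807310741130618325765007609828449376770327284316474129123100786993332488150715675127613404609687955684857537814496261586237159822107953856402241820072731240403129541886560681171150044224125539753028448294421040944100416843018995677212174914417811084333565721866544950841053207089288835973449124990705764372931038413506190325845595993814896904739378931223992490574544820711532465550420389826916015179677436780216034778812846548755004006543140771562458466829131686634745279416438367259891888948939312981873800687455021799138129076140504308658907467739235941708057810515615133596559396484850090794190385211005271972300303334519142560371445998532464419730033308894143634615392106810721467298025768129459689669840105998131586654427204169735165060127612780711057825589386055350050912138890766314614788635746024448229527298110193848905034344908597519953818538411152173571738210918650009006112768)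

noncomputable def rc24 : Nat := (nat_lit 281984154173395781489582395755174620189821020847337034130251234685337038861511997519697235756023635492358722076602602320339743251502063225412358599637542920661719061384160968184119725635198439815970143973259301136423685477669716203410124696525461741308515509007904268325870532795752102068123860287851125240818645802587487318714198517873617633636691734300741089088590059703257887691116231124204212782302322588193380104269908474140656154311763501322533351302712024676676496511740904694673433544207196011584134812621052428333806167503265892026759850626038636771048545499068449865573647204653232700977693575887140619401142114671248434726678812435565234397480385610192121716884461084966770766790674200611913281066979616215153983838978858702336712206681407804712447749125622053602132401040093819404150360130844876589046850707473914850747636161916801832060615789310752189958969460275811101371765265620527985055798994249510034916734857989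0246776668184570206866555185593852896321478434367435932290569686903607285073673504416650232171744246148427896995660178449667101721782228951401997178890011353600671358227849360237526308079529726940688034684667880466442428989118313771870790273274924848260843758156260839767472396060850665108299489952164156335356465462146574613278967061998522083427246668510193315639768979811607473120475382070495530693999692327705245869558612573417713016502802881475735140385892167002735086036341473325360137990356091905135451334114140506503795653914562819836613280155215770511769975743036352032512916224612364910851336852321490670656094362121053816449060853569777059550215455060349445798504992642927206844289616340149438242466410543719544742233912150386630869627496457643170931129940233441033629201295678154465515813688210164439367453407039766130038192511793083862502944477759120869889028519540630490220687005589620669150259413025111558022737120796133893417123700480200797893594200192225626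8606650594419413575233515660997974794422331018806026261600603257597360563494718848524310071627252129465475323264695237227701118487589562889876384327448894071739880790007393097011330795993274506162581792511732544524125564924934145804911070052186855167027713307316658808083937264267676453634396464517791766174137986452327043285763206961495492782881425074823264534565492986514267551490296772401223236083358493329355030115438441159763765807274545839090450205074261905288013030620672459904465239185170121850245097484003829846430702816420966804905928046235293229935606752247676965304910208035035639332780219501665657826411472021457772089775364733900838269138833889453812472976970530207006513813997466336502820944204778888712689227931471009713077062336556974869001201325183848538403228840923423088753187217928638607337545925123682328394381717250319624280486869034267777249507656018671999553703394861657475364146161898586446417187216180715233348456446009983049429179631321227262760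3111054576028300350591177452113471209961525985012072815773108245267477187574242247795072165722021786328926570002122719991910576742807006606350270466038202206998965473446541189782911917783481156043987595039037911197045799598181686752965233102075636662254932799823191319849673149988321218810715298576819726866762636439884115131217361692132156324008282310261988415587641741176602753435270361933686268588348021820207015163739869322049847321072502326761445775856397910966772749561183832668139056607338964707330647380127611319030810675092199192498039294944428474743624151587951157517121173820179923336932787072862298708362767345190646871928405148139913948362992211370415736350777783466560532277023773491171416405432666195858057759752725413569305768691019686162754049920369006470892355691897371711152738499569016652489440506548400812668587606760869975450065303870089355091439245967440225103623057444096226694076265747524433805442146279067091943158082100254512380957442933908059599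9676297671148950989793721040484448279787680726272251826586362811247194015958465244441963496769916472044015559337150070227630365337323919345293506151476236658685900822523436243282384490243124298135524453756581616873769998218338945300068382897818187938283496327832019847202684949700721567133914172627149088442809123707392519289639617454077246422727743057939534321743210198415998675469304464971140552946039329163166116980821908021192640025926315604626141281235429502774252683704980310962953047717194113151237883752379375092467327020319665913430972418267187582546533488542376781299709569276706180944267145924209645050254970261381351128942853198066627710809115396833923932688417121152819195333256164248255222446321203843910808411353444678114352800550885239179256579260526653655200440399375055360932444292621894527505007417140083508768885156806916511655333938259638453153693281614081352087762363335894930414885309601045274561123012896191422701276709251656302638618469207758267067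9250560571671878954780838008423642461377612184843035902867367848295386357944226522371885995444908020687411247647868778418170485983040938159684434044764224690529704647908693589393839793740135233200045603036597842919885862308458119254676805040544234649391625796414818536928863679638118299518998102912899440271477309918968116371756202080697476737955935560418200767680090454166156598475369489455502389540558701055673369868440965687849480564124461883651003288785770922002942071128286615872933035541879511817468063648860283269330860158826611341424788003887925868688163446234799507962792929548547710581695531352815786656149102293246386054647754370784222851421686309154566708478510610369035724910944845881513043729497374578070793070069688972357934977421685040043201944962934459541620623422290317852280294153808297567165799350836638248770523635667564367520865921107478730529346174381722595691382998740129950432093983635845536218120102533400523608649843841589437885425389191138958858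6896991092728337813642768831934747680074639040892659228264016606814082770536062129400245676414591571925870690357144641386836490699546545126539879427494060340005273898989369326565781977243960881672521020656587831430212119967187425416800090834566819959548712227668152077178382380523067296233056591636548858500490983021748538267760332347329157208710756911527126190021777510695578967425314039543743533406738521630914779958490210304682399166451489684416851301086226724600252884355952019972651554888384144443658066112969237822041029518295858303049734137995452750590662427364849298028044656943418462922383579654898100028408163556197426248790784982511854797857877121589051050408478352372882298612423737574457715200442075996947006082220829825090015960255515174187252885527355603338201581337320468188906248314716676556595027854856591192591855210963136085371215010300293631149933730604168747948359766728566358378505929394796210690197559357002720804410573876113856505353370273823359476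2993387538254974194143408905497287204089208448637424752770670349350199534556431764546791185263630849748256306565837110576886189577615417268747095631406424835369007266745912277696595502465983377781461838665332155817210754010189587717695454285807764550844135967369772569284400102514934056748465570674320694163234827568341654022997949599838097242323899133826975934426993763737665688299378530070893476537644593818962472814011818074070722856158450220922927957002143117009222995444183114644095912868249144692129728247373000157932874115571290238291492025012435835728494272778615063855615127619091037633547496856630019610304431224139644814016834282329578358776218457217782113497922730251967432709730725090284524299238298497078606654365357621811222515803617820350313038930751528487278077272643457687182316898154567952403766342835575814318946690856243369712037427952627186080481919669072895419996816557339282191065201476422646055299060046055941978697433087733760128025500732449790116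5698668715760159595002262344231771647996181691521222199259983975556764878572807370975139876882935663553300638386088082897814301932304466373585290148094875236414157786878923782258940693077524131694846991178884193926499710994691735621830537173782971912069800281873307330738092396209656931523018246918074180607325758656611285885565003166065480071291705829822485065134424019488547575010820673468959803178564108105088872449414625568315296007281593474403595589982381059991466646673208258801723203182136847997222334694107997403029503876147408625616249399956242258693835645428153718273860645540750600537276182139378628161453031692110086541942947922069315324231679339152531208561674850144964279334766858168784937898988800552101257263347777339182691083989526889332052888941148723909308086726726296708175949883553334117298020537306349970036673818610428150214255925481753050432479826112420106270259331951267104538114737125607331795877409993449337791698279784444410501105047576013565388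6547649730427669152786031212113865801295111373913857102592632710159742994852412479869070949194901278657157329702564485440750290417033836732227401749406675883673456249336834131675841912834275775530122060804421046408293379612891378828622374070259075541793745633370868341553483225449241792070205331606180345963931343995681454799423732348482176393609250703045109278188246293188340126984874530062134788755688804052549825396363595517761349060684615188184621872872089405618950928721752514069062706136214751921833177889771148970171867826577309225596102128553360768088973128669035154629960760765506719445526908655054392086157553351738644887720908464873949685740393925962681426064797181259930960185346341752672809785219140234680552279415164783616969734096572939769668629968146987878178519732859103231504160060752156383996939663508733827145632390734710334823112523575869801008005162297882620588921092527414641011343762558626111894663872923939499117216977480352765114536649660037468319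9853944636491032972451535521011483789340190315004647014052859105310728273702659833557722337569339540385376121571753565699053005332746511153512294603322275584468393502321195943523620677723241895938157615215378977782427825657438582390776583900655744884750911924447630407908972752339885859432671565717632223765201921151792571890598539060536069930287643158108182504488627301557426330849560888730070461650463835124477493046493644079149727030016106723733796357526671912811162734996037681889630053599870702133693741017440206266560137039184371130728325284808026485326845275892670978268270048372969481138693082654845745913919903755105174058433361303226571217922476200087039558964186071827069707286191888110501031819833566173976373866778988621309317989078083970294680625494407444368091152531012935383437952901189226115196229013066577660397847124784427833357396967227229530425272873343542223906602223156180317701339846022140596805084796996887886753844085934944063549458381209631667361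2378129274414758206197194241246996267408251740837830136593287315600563506051595343066551564927094215320887286266492493980213152432617692216187642572461036778913770642403003202718419195314575678145722701926658076355355690832146948209820282489895693169521621693291807840528041807668087865624003267805493509168475513068440045890817247573059175163893482923867938320524472445389991883350877860386886352078693525923462392101068283542025166436654445233346851965090456981409498593241547365841286282232252376562480476216199013624656574247854485310290213102264623126011470823559872163303342996345003798483467811940102475066419152347030894468932584136303950803704517625605465774415067906912358427653795388903658081729721079709186354527590189730631336331390547136803198760027834018004337484340551681224454603283466983987456521533118312505702941396688836608330123441768069416709803490901836694458563069290898093842124189676964261726809580223025170608151939984373026447625147485427974313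1535351460637101731386356507733974696017243484092828858025879785175772906048648550756161829792806321688989377636968185953833322148663193075075273984811260315156507345287479106823331168872553275512605722265126370318808795129254659904271445532407905083567605077328495037366399262891662494915871442407518551530980833972755874739881430023092654464201969728429273664107241118251703272725073100587899676690630661262764045920849370112707318307441653856432546403519343108612716774533716382316300562127689273582450792800640841471684128777869746757056471878255838753263489209614467914270885307110243428068610528840494138216285990230374893626430181330948372616738646807628031390235515990413701579840725901532931051807875335039367197746917799655456413101558039969969418227921966080789862025972353189548000540309565177234089379098261807618256811129213287665540314286520953441242254628199518284328783937511694920241245542923185952578108616625084555569506245675463913799066677796814785685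7736207672411009132074456890309969772959917122374043855916564055070365770804016724637953024790343262816566183507848033339152997292519576461813660585346995368330057920215361422396935898406567171000411378405671127676977830962494154068227288270763173026540552229752072040728141485259294473800918855156541496611400394281210876410374175206550237892019805996151870869012385178904660484310132677226825895678358052530849555029126725978309534715945678960283749974865564775273980148425518192129066624003817638131227202749231810969454147641749864086224105533824779586756297034960011724659234939278390387942130618453389441012537701313380296955732159032711909528377154878922559149746298443379680559804461556625846893774338150164359245966249188058085744816440135572186042755114616362483139301014522040821340862013804254444978631157385284038181507503197332063192060152819401955548674176600755547081495477226560120154728160376359765982527853358205927688895089830401025836251634311660884601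5184576754511240539969191688655576274047305946229292965335748289386739313272152830561223617219634005643710808836054390518037859210237974554321799616566882913875410463694919523842737291265997385340566200941988497277322738785960367221279728726207612903594986685532310347671152528539178850176578916367087887161070197067238219448400036292113281568908564265587143612476638485342320199064030295773785218756241733879326261513198714875770205344922864077032399991225479297879158732199853514284143693736963675427854318484243344060456615726685269541506905235932783695937361433234851111265262818352214578814426831267642723251984977960520864681096907623084733974803046861216746283167436560429979816634819094697554516307244736457831784252274734872355017433155192294014947312349335435482906136466382887945660389864245712657222696312690092858273174852800142481083350651833822757444390350652649260169776513036264807555591857883170409569801479659866253472251048889366626025291056358555593102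4955478468660709921258379330201295972539080120167972678795702551500897609577493972379527763008842007904697864370530029751023725528260045580689241555582444936769670323587792525606273959732988962952935743268896980782659262687143390086388087405736640478368962417997730778820551000422478206874936358874566796914103344906936940172638598767586401776029037683055914881859915013627928349116758923612026392159877657325689814205086283599918652763872952053491793266749694352152732018676837250447276046501722628504601653906070086135248484237202238167437794378504173302115467521681288926568130788002392727475731333984905630947202509114690757268810074053689675669799693370143014770101550833284030464730276601509074527940761081782274124826418701525876534229248657673544079058008097285284859651719022347061925549039688716160503033384001830874935343389255759033558594840912301135457785235923798400502679037289330614261378981157296749092858031342826841953351856871167677012998638055664788750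4692424137103993759123264469944445515845006457745562258253518262186948804617080432960475311536779766473168508004524766455690646130419710643891352043244288204922053930824537384882942045338709498211639604058538499140644363856083113721534212729513889409174563660728897166805291041059082943324782764261257473204090702847099762874517630152591150298252099290017652665602010762321715576096615369440094680505926710981791226102698168360438369176335662218179719351717137584829901723865130558150533337994411562444823680967486618622285412334853943995204484830276395354706988733100482510763464470495569558948410305591104114955942313499560551566635038783527712283005118396648827230488519733399287414144732129300168896034841987324113570790956647894248246334711801790109123472500848528692502954084290104634194263765961211442569984518370106560300400256323468279528277548556175123997819657282016991000006497319094424546064061839527494059121585156651115617307718898763113775952869665415793216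3487647830073984910972574721235444729469319727624466095718249676631704160252121921080216970918509726249539928083893758290067556244084549006699727173513620978237627254821428901217269831740090203380893271545932588514156202025155971510477698288297694823686122119606569042487678163742601667487286221480350650826143477700119830764393915626540084523379090376471504626781292866424918622521345160678469542698142983864510855779578655984895037538368850191946262939862438332308276899995854508558676853547526333220214361419149783087711161778786243698317204754358458744953440408521037393066853407429253420891632089885109495166368596695119162136638693156340712521029791147490374151490147964161389208901805981902178323912173366647145345463776314684618698302965877900733833406895978852130112709718072849755859259970057042923796110568545364901124555955846018897331328021071997567036581955557006590727645313743101049542496706783974663463866963472441372190265671786020965654657844736976334742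9066183560837214910959221317232087935026152437203398495399536697818153475726505519099411749368836150810795852329287386524547108795171261287430073290585814837433598515706250334300690630591835389717275030489084623686213893144698253019710840232713762514643578395667834264461802725171717393315976797547240175052389177854348217581660355583695296826956274952182173623186996672985826701600746596481318929017416054452933175566370876573784290881490303684077966369016153306169100472200651296945925629139445210024864181848033778280818863333642601385762933800937556840151211871543359576278228455862550462821797228799607869641975708520742902962408885352547970108361585687046671410544760939519550767614738445702756328088924458563967703782044621270820043672411888694654607545584710666432405791239044397835473474431250069514902209188141662376601318419095135163711802782891037462806629364778138226308188778034623329276206622610036384415937506509959581613188294064359497175571564756944436699240984100491067569191794557890665221827048260510027872368320623858116364073263169536)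

noncomputable def rc25 : Nat := (nat_lit 282374824780128838458311818616932763867836680527998322443247027963826813374521239006582800774818831793666945204848395728049524078699750577009153439549059202271566098419132914863997488043656241943205502469834269442721736085401339952616858771340178569231586491256037561798542273567344142369401688426196905853205070936666594207462726470433704568508860283870760264268978425042831954838235549247774314122819982202134276572424026321478511195475140881628830801279321868977475865492100335859664544336462245384094803865966110884747242430797132577358480595165998708250122855040101386660134224385989208707363050276445820465049491228349590599150128783025937181580566666910993090774137846376537603924234799943609248275439755806792010428618437494745156829650040465102773678464172527353920069745798514043016223464351524394558005824772743602873760377838392922026110786727210010500042146718982762985621383460597773694342249686382875222966676022713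0529156522537742470132997530390858490377305301857667518598744637028133385594060581049165523048727107783994434141120024917881649943127498508240075925270977882776610602271998626745528137090577775849839370534423833297636066684627496666788508377452791068947536249658513781518263693131384896738556182773157871962326789120564216469510922191502224041333473505529488470296393468189269109505055302876805079621471924651480903262659235566944800316972477329200525839724682076295468886646343077396197312457459008646780419034672731452186446068922558167384719590963250933204139161967482034583309696991111114481725704598774301183125941970234444347830780382052931659579693829110907492728640048726868647798298709971799215063743197247155180709714252450347882208914077886681456140990417617046475841035931599264552379053856661517674401430340460084989702388822580100914903401479317863644318541973063548814822135644123533712021834155759163295901232512427775373894143055417794658083675010798262087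8127982175044267585382023301241725564734797710480102107327021765838833096785180893654215721330810727312672849175953490073955699212843082559063393460415482250683081914791410530783308593101180416887332098065129520901445091472350515818792486125098197370282927013906090877779337298677940486992072843198241661037690243461426095885877409799585605603114222197099323014942819351193884670450910205231816669747532407950531327422969527499945235181476639570704886734769636325300497515614282295228639718531720303496099798144241952888925102494923906576501216850136623019691362149283777160950780038966263366704220708262772019627540325846212082605487320646963020200626840402066327599854867626221214286114009152280313714339741314745165595664986075935139323972135097222390001554297818474046678835216731375136561773469864058404829982927153430529183648892167600174607921767986562644636005735537877872159608196579125490985251479581279131367542726563697097495564865826293917863322762460870252173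0638921137078985290353407380008347130601954621977468973520678640781218104619889598119479388656289310042928668312905485540298734585845159029840699206673265887042758927458284892200193174492033021612394905414091149770998513790288604516886951562482919947844851039211293602506869404920692269849585770586994080703281114443433823692234714857104682899931500596113373715153097501825271746353848089275716148835503618345248102062660844741655567855892610682333640475891791502209054535235629855067394939951882784551599266562428184784979994624063703423395739083595788112133620142398448348921742453665833758362737214452952791419641089644350431446977565664589786994544703326263285735554060192228855257392606651199601472717641453982722881111950419796897599135492756013278956543995386331256804818575432147824259983543242069916750471694858223971020209753354196338740467504321477567409389224152383185582711524227308636242732025821485753180566995630989685408520298987618386635622162087249643758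2850310858976818017672453933778587281556383754769689409471031982342727633532256020070627887807437057395045204127312538133213977931417370693908737247948497216067845008680638080054089923758007773527374286973429106329195124160395979484090542563995546488565685334736862735498198170165555254984205136812559326267204136665025802698485513595814467550127098144154435439184966869965931739364147324343487735244850439865359758205135365236714811984563014107851982859001263740901034426529671193744938283336810742872598535261051785307729443788248565338308256879305642924015204632508746475746915938523863805346415113258779047459666812780611305360491294239183717520997282195638624636149914069088069680364917767306875373230467495463472292488255585592032335986898872949919497984877309042650597357183089218036398826151737642938037067467339548440765548063599423840111401688833475228207357285150922743102025337653459731577993697813828341591797353725362082871528085627324784116905462391499128997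7851862344493020251770740843675061357263934265686859155638098055144891831738196793045901922379417420540837390933808253784639464171875096186363939397338860232818030074056807061879636673486699148466949666613174276700239177406816559426742551885206188136711086257988360999210813980963117642529501106011693140156480624415617576104118825875817629545994704217119100068841565132264345539753140451927681156940555575937250645587505756422524649801522619660876550244839033378717297280455979203557353519580854160140808315723167101489463612137085605171202680778697893190211355125681685984035441793682085634319852798624572357314265011718688602196057208246267851168031640238686690704999463536846158257443663867278162192868132468200016284379756713106798974221780197420422938118654140780190134421926194891177250730944125875461821799684389008965386813292883382064373276223145249277325198157797869982635266381660953134195331382338537184301454064145321727263184784032892852146395593125820535207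9504556598513032404478838829394187454720310064590742848987128234960844720648938129399504730428800793131954693235582474623077787012918992847479376003983948407324589373066502659695024284424665445422936710013889710028876031765249642563268030616442783027443021119218747426099440528543082104631856744444733095325146259793512176708077731961632011506836875798001035639525836495984605929516610489842842783935735535474757316744485344863947827559053480558982674933879033899160939977489008393590406513591866870704374052370933951563419460339967209882827775712759085924741159274764960747467504026250009895040350805895838318479953751771706019431849436780731690176652622082943174655374842789034876051792936768759391580643336850556129853542108510829520519367894109925677329778157668551567662806170276153276514490980500951383682077493170851324413983101518527848760239761209084499816181832083518961169236672202485045832921212440425076882985053508908927840355071281386544881365719267478654345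4533854320855783917641138014856739767086777668716833618541799014058004548613090145753578237201257262013528346171736518205291643297047411909783468850161713642070827296753553153048195619841656291724029300694762771543591025913290399614875657556464033694988097263421563200742729053118813052575923829229612643453838237754306200566228322630875568901713979687682544914626009268614902076078806865388749928369425081352572969009071820231668569270102065654665528173344614772164682756624522492175168125929569401360241041222552624068554577711045609618440344743327947821602242737964827850238288990757754249544808100381287026799111976524164291430327966882155755030151439832763694413524957589432682443663506375938733622209236703538040255649464616118468100364501652097838182026750870135484454189116745204657513621046271674366434939984915972461345884697675593491412126093594732455725913586491084314681750120294666838708993764383457153185879976281702162089299527266142735690078428251571017841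3278912738830157409326994575542408488872005866177423224218678905746522998950834979473110531510129532342435643232404224750085252890317323559398070529591525999487511542155278091243527825563750922485100911509717752092231352417023202603665713582886689728898201948036548391094794326625354482987855987505414916831961239715098627714891431997752295084330316624763567303437183065721603378531360973763833607297918109757906843567632460627682502462047463530376761376590611393965830098233622801379093795339068399187435017057164959351509724201760257549642228457184088532180374113861638883245971094816994983341599085546548254974738674457921228165852891493402920841754563918005133802644740524035498726162673174685280941212879663057623019172460191126590193914232837764664852346656423761868874226699442082910901285317352714000912214853089530045706176537665151474118765548183092688768903569668293828720966320366396213240675131597305369805683769075830060301393622243279300139908723313384487329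3040949392561025736120098068957845170075105505105204237893840693135749808421848916977855589638199253694607708745325870955845991335704156656953896508163976969878058041499553826869837841147283377488704855738094751890350774261934109332359386312813985321653980712449109644179705332756983954949862821869750547637953103030416772558432385395898302135795305612053857289497060947910316199288733538695623742210632008776228875015723811348862225096885470525556544595578130966270907760968363484052294078525789095037652968663530887968275478380072095789899023564521384902522044998643231227590042745544813108877953629971915266680449512256449814288369204768007675675199795352870453632302496898782236598067366201742594402283973732663151300801331746835380540420646339179273910365844848402167625398545520456107030801888219199096629360097703441044084185925651170069966451522941160426120059035863070383846270388494797179672877877565954314929672672487954556094045266319702937368216438895105832356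8451506054073660293740645203648396897578380281349739782478145682733211207751809566640985926252803691421810386810377236971902291382142846255229786146259450652497073653769900065148426668555108099632776764945896116759347420406731113022136468558900532363817897597937175914324057256721337352525218240189799046968715491504103301333030853620399485513869208557088817867538860914095849809796366424485021554043663653021280689149864575250422790591917870963760139094154003704144806412661093755423400381261971509626085469056223942333948721732729459362532034272557172015012975190803917567949021427440568942710273766675696897018477800595756992794583062399936994612501813699569024372899457371398900937830263475056992773704484908808974499187451758075018960456307762667706765047364887308217587450621938198338521670953701518633990908812474555299600464782799419045077694560960125953399051878139600903452112151730979145250229009537438956105723381639159106608407654271209413662111433637002782925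2614963266064561303422302373501058182546580399065955808817261147257279904565242737151448049319024270499491642382758700305984487598435744426298122588661834335089266161353776770821420581706544764669403385542646359428739314230964956074144576755920802487163676838701332660347863195096650531151361810318989966253652719502231978614079406237087230314491047771359518146018310316779891810006193336219666934551821062535525726665827720784849920661554039471776330042712810577325746259568442444096097066636389406379729832668071764298536147367134120845629211460935541611916136372424798336482181955825639562414349024473762922570332823937190616495057272022344079464169650404420096138836914326142573435779781240681166171186565891675968557598923023974944472227319553003890767733603273880161857541996727551298051517249180813296343445396305153976981141882269135648899763787419372521093835355488914682520216520997579553111548197847744887636559504907541728917835341949420292697997910005587525434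1631925599481676605888359244943318523479050150669753403889483418454967383772906449102117010682399153183898538255519462719065254171416481352720027625717452451850145375698215157139875503358521513772716482128598414343731696641926539416073916962371885884441629607356554058881234240854096670354600015448101792343306098977671642348650170121679696736363384813594898492060713040982240238256827357938703740784597425097176778238036779197278993723613916972811221692097834455228613124114187671826716084100300643222583854318564908764655716392475809742746984164827837554635682925724977694634275696812074309903547760382294898815764046469141873199121855968738779355307541667813293861955011168087527703231563366136821710100897872909172718767146599733417876627118856622058952962141810522252276596980659490100372436656869692503323773630985022027166756052767448772297393685674973063059001409999108729987810940769020672308873427256251084402546246324894338957043669923489364204029763750726330362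1245444831302178952221619978090061506993277890211050726510435641278694059458683928353875171266389261147145164318100615006276637708092037151823742975007856683359586491931627190576764436126983719380374424675549903827976533520229401014024255076357630548997359526235320975178521681494991145267560742593339209601474967714557855650085049060905225974394409829346419480672102046179948965900989412388944734831633415243208492673059722912363528250007512647419790460356240209222149426787854713510180603137328989947884898134463203905459864600318428958839858605877576256066221600719835979093603083397916286995058115175801199016443207435107070001124352180488805583611423586714464470534888836688355632909549147842157742742894675218865465507110913486422489078901300178975696476305905291060164269800524122590002082346636889823247210797477988649657184722884104666131790143165227108686644004460769628396043271520259825264219623860276251501281321386674862217638724396050557131874781243023378562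6600294490006583120169061477938787835138835023302289910706978184695538551328750430171472067663732752401131757567728843914625320777162373467005304623243036505077733773884918193355625550821129426322091808284970797055121210914146010760158653933493815459198790278211245010546148638495442147484590660279762504560367865081589164323659853321040897985183952333593220028460217515854544217243027617665613245042116470428034002624404498572094952784229708493363105128205222296171147794456045539833279491834450306485871177062403508291639588089910032183819702712226891174328023160262691413433695677992975684859801788089818657488133704940073120351792994619402662038382098256355360771084401399134196369198177908904429336549873925446377818155928291664715557107857058484121950978972739921890190507106604770548627746475398627960548596947902483322175676414020827318369341315554049584709229482491240803898696466456928140322138595179428933635314045503625642565760961520366251101271420716706423045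2475737569274273746682235041677638535007126425748379011790506253713313065841406346445348134373267263395815599140857108829596242204994665437012155729620219749069330113573949839762541326863152120779113584377520641768661879840605703397928367176051534786961155209395659053371098300668844056368309908717095310448855031170444797625889268373724517941188628412618325836435199212590486661547857175023214623992291447382061752176906666051781164643562216968566234514469296676351100569997237850579163307593274850992464978600099845103701022946611068778661067766059139875951793397523102408524687147576450900286967677778109111054989846327715248271321412988800392162674472843675030179632913043936228384158402097978293114813668617704934014667639080459989880354999966330112270554930088694552516121419889517071007397694292608739858096623918936069560994020268304866731114485965001193476745485404070322954954994653711163691766592002192194676282941775290662149028925605424216843621858206872833306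7421297285050889081600385633571554032787404603622816216502744003786900691613728028224537607035796961279592724846634055449270447541898157489291130748730179230665628456020190442508850224471078143437642737322072033647465686177764544398610214183993487997362880184433676297447854468626699665161636320059255664838930683137288398459444876388445446030166362730626494337474795479897653112180784236647264266902134757602883419992892800055692467338917421855822587256611746382254457416557054517255292810613150420522817684940864525338250227591737739115634256791459904024018121518852181653500604931150603774389489332514283006736192734353445292948161287442239877361103680993879050312097265017683817855545843564592502303798343788427862681982199075861928087597024360539482005652824983142321279030885867217554797970286983871813863022371645763427653960675822226307946300891427401184221161532710689585750863215327184284510714651456241678242381292068053640849654133286790774299425875766315953954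4243020051755451876517256340280639398866464635038061938057790330132918441608116149591653888265781399006720837128330800920464065326857663507135574315852559266511875106566300699566871199155507740638533476319470686162848098310070379723446264601238865658921338071377227816905472681186790220214586420199465898935659079950897545278656171320288065531836144076268960181245258189246664310629913567179582071205908212813574011679799594518218628169120630683966132652106163204479292490152059349458528954733556612115513435307145639080800930552519351823525995765152539843450106565787119446601455614689727549176437956567953536098417254406067266615322773368952041263346129226127061379378720533696768265688458595816326941179275932647619852515270529320007568493661605589302062125596757559342791772011798955674719270454080432833108161250354403709067799197739424321257683281641593595984945768726152843286631835087675889706166241931744390688455870235199547960497540047312187529679968781341347844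5321895550114274565928422622564181191046952496249543614599278987956549974302818926948246736254571588749495309300596184898515533169074946778335338623007015497379750885901694076221491727171932551534397886029109138869012197832887548524674257524734674582001254323536848261552689691513773645311157568133459168043422812605827746830760499441648650051855216794766869466156844200515109888618826970828297427199811486095619680932993666230281337033637260132727221389106251891990177450882146633553799039355444960489754136061156542461954723125501008678131762829690548420185404196441545232801687091949617498335813457638228006569733283970193609685780944189519931407299301701480186336305649800080582064376827115499551579202251395076730131540212339975227089111424332917415628359025408212657614267099581090595541180281413925687257726807995569270982927768227040639299998192222690824228790328088398889356317713497835694278034821291395927661975513641723612850702279298014268056052410409467033663628333644178408974298023244292289166763241562922699768891582685768321326900278460416)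

noncomputable def rc26 : Nat := (nat_lit 282755594663606721202338986200644863752312441449573720574993381176451399090869361112508293419138053827851506467035349805856919807559209026582492364787913283708497074280417428812481817259502986086955898359523105473471420332475343613420329153199526086195044619555560855070118160737635710902053343601669534950741915505398506871207468793123782071966204966622061766825472565252925144109428851805296913987490953798925352854934448553244529877500978413977498092812273536403514787360435289537244555215663246139887088918984562146240728463339486591052430915127668888604763414598470241804239458268787662334018997232660022359137817450300529236111642105178116938726715731610328034882074344186765675784687231376601438689361732711632580192158213591243295295060773151453524889840813332341785412433811759418115263401403008705619543150589554763975384036264352195651069584935609463722176271906942131235142221904420873409916927391817979884309149525012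4014817010644253728086464193520411063213524094272123820428009514801106553642221149882760249339480483688800262205421567212361018258519230476849016182386333539614768361186589513624591198542082119152492398398022566047772962957012402048852902658039761916595158520063886142552816661373712115308064045289477505058933265778907107157489608119581561227222409590058916734760419954510512785445157715513278342293846811115550091743006478113810782635267410009790929576764545811385091314829819306882577141951031394064420066579930443662267758480248004965815897402810744525341106456728897370777783526744297601660970406860545066149610534717948221786907632260695633000575762622338772213559416120603391642417017175497632025792315654753373314196258521470765098684038565656113140682900889410444694737233082983053346474306609597524939261574557401778766842970323729960207393696122904235998896916177122372182920721152781900416075592866589993582725466075597066984389113031284404637731916117462146620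5046766812574100005922472762133223720741111379224698103980390627565974898456970961168922951268131486390231612958804089941337978370845000192311893461089409297668529250478340895881430188709626101734209786901103494702895950238156574806115618517579288198742200823848981655605648793356337981609074546948245926695095201532840789236363213120054023303064738464303832749853976893856330647667958697159746098228228315803034562822492224107589299201286160868091069837538508240675624563402637270397254085774113577971628087982473608652420166593488027256905157789844661954470248364852151976825870498678966303176300120306897072126080243697954852959709144624058775931655290405976899917536266883827400920988406811512354604915769452568065026928729313475415563394165215126240960749076779945760960801281658809248588334564100511485442019378760028863615657383146993253735284261376752378773108646938853411096218283040503171405917016301346217320976505123845585625813044376544494620126790849171557618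5871522493414674254674958542645823828555299900387501922449334588966267699574660530652962292622543480929206940204155720481123010750382611803261323819632405709194970579727019784057751816310970634727427050165377621797533824541114570674815481181376145611281992871663148509607392929173409292264211882914299911653370271673610309753405548169724918053378536295095095961910129721334771149490534509730103578861293272383262258298336150229072108138332694145043700628363665644774315963406810594665494334727044228021677205238855193969561147239889583636248865445131629597956958032593721124355933887464935838922630471525577874123356179385753057767509994169724214298752045220474277209532948327490683285898487367391299461147920442933121814437696514374392105730545667954753602966657685940836554978944309024689525473680671170647233183937585121548282063903370143055667658724581485291301943087288096844557542923301097774150910213551767614932946781420748048856854004000414609804982789313011654384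5670073680450107625757722169947335932600543754679245967897250953724142522784544846670125545187495361016745578519496022600664527603800460272614552997832522907247779496527280077264549498380770419464054491353148553717062173403535533977342952721766268910787180781939055080599378447161652536483850093990455782005643276200386954564656938477530014693920872866907277914802780853982225266377776488043452467886353686086264050014370571272625856411375556230303725483713139652841340901055111292080212423723436880910505860941104954290886814676290373244194825159113326096994627528990009342589023588437987590958919176239080121090976648256181421725823478336748937999820854946815742227265630394210547321264987062295776406844613618977404309270703307712735896913994725527018884961903462598258599721778014444117910868948429149930246262354770192211672033612782444991934190725672532381123511526344125815106109751373564721228087319774250009414237895348664843911186194049372020238479631254484373205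8859438434042883417201146574328709052548405499416443585748761937465509373332735549081840606737389150341684533911257757420662284376933767379990176166776244790421569342437955814718923552026811850671410150169218827415509548439008975529274468558714629865927557103663389508112247182210073992917935864378280522510789411727120182565228609611799200680375967244797747293498639428744150603576671370889630337106761013958407302866843713951663056554727978146355735200821017100244946715275591411819217842799089793498843956991656038777564378052606335296531036618966288442275488761606558156810697174765929339453523369147395220068636303467672011987407231222863306431846953905090162463792152660696655004886866634327806239885264957945560836288888707227818967681619662383536302175573316124974465329064658420367578130157820248465263036334110474840669815872669930509384279669082866573934366292797036015377954806232408239471696948220094003039966742186897028045841743040894149460164443522382183062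2359048578827686884267984751831919868963679767326545427710678851104653204712360867317453622253080005260032296156033970792515347984537380767065755408917435763480126334001098216068846117366425324045587607551530925967161036624764557277185368107445184271603864952384367931169937440646761430524648104412801654347836994944610500486307929174720786280472290097740160777436872079396917762685606820966193274924428334101404771528723167405732037980218530280407666051528331972056444469979847211139018647649917565517464325471125745637909097188266702153962762847342241592619477111075164655390531093980417907010909105763665254853081814474888014237823996332197408254283644747045820265387004548979550166891736247679953441723100103469011156101831251982577948460346261669181005205034002740464878915021948978405218330253784388554482484311624934326380237913363322194578140790502031669618872699348830030921553986771450187095561329109738166360936055798765078419167750560515265359970930195153289547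1404173502526977031265096864669758670076721613528001581890166509887338451826981468531553622626736003234463365806991599460607757187648165946258724213876471960635214141832071219672343882890099876060239644358659828869153387411119405280854346319932971355547555749129800824670006442438180856789198141893355378823164674891274636142222674538047525855214610767904960027025447672671203409983740515356013569362468772123872743133052725784559358403634941558458671769096920813151498161839706097370865619313779902969689324218933516685626122547121303957788737241934363300622250291821684852833172327756559759549816782493699734004747887516697154296934037715290625558899104022808374377890657644166624130680444458329047298145673771871620738983409181868644337913334800603923869895275712890539805454333886843035070042513631957258114921424193130269401201220709841001530769436124278020382909101640115747007264761114249454641426699983202569959613034785997525555631607553067830034062549398988879568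3734073260334972845046873616148691553615578875719419066529443654117446359885464346029337968115650242998738783133184820102032113348725659102345325532209326444993996940053574308151939360967299674016428254199545555446317132619323266899120941911145794258726150883181735237566523581607114838551771332673872165888131988684605519796321387259042165018285845171454878656915945290061292305644463358379530446826301676741704421719546097659909607408218902461790027108048034090766730789819581749236667620058728254582079407773950525069630950974491352474548264225335766184417514599597690983693027767000450213362882808341377855817994197580434454131740691475653659508392808876098594824282845423693500913876575242620863720129213901947782023737020073389710875215936418368053254737506572203893280365377793651008403129876293798239868491798112256407147448863799287259618237113077062267797746150425595746332152728674430126263161170872591365652618413050102918549546984615319672414329932069864551801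5843787045240322341680892531479498018655130891603420951416557916151054014001618238918947565993199063470454856824893814346957562458935835701778074397659819510670723150199235232800179800063473791719490405041047919275565694745076690180780448667054528960155191440172306144995022160476788045283792153825621464012448412572231834605112419980237249334889409111372348849253651158447501431975744989394612271342425619819694918453254882453036266027226965293468674003945218769971974190246536503347667777040960107782878606643103592984117402902718747721552140472690515928582169318653214248550381316154856608962560033630030590163337026611655627161449442054685740615502167732870675142665273352975069145101557135630867683298630658687046342830364619246788263765425903452312374880415816739030601441984771775083540746551792770494606403944806099213589116468152022400789590715253113894570768875618938466168735957289365013208214441101752621198405088597381222121758635535878727528266874191626760261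6496069732100804512350345470232306222472260209359507755290590789123538932765062930669760440962088853001108212063220783350267336018278532447756149022842020409310199686453223914733446208468241215879322310716406158681456746873532191864875376367579200291558850986050297992447399670094674335897491615052096427834822067096125869716327147863286465155819672924736768384218968833857102977926002404698758355757016948827577262896939419797723280876200657772339874788277741064874456985193970016117548671686217223799532281834880394471183646895693179490535996448328591176200939534810836686345640388004808528803544737730407890001662608334417582904191476824044074691796389847061296569593877071168035328585180482666384928254840663019938873036974039586092549385774312317785217600089107759230216442478418657321570526815319730733377199743088688687276356215774706925558646100722681472465004217647454548572770874545837654227136194470544499161857048474451364913405257168975280626967684038003981934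0833643513718303490704218902109747719748323829741441311019858738541613279942477993967052299368779244542362606549668769638430004161134310064199286838601069181278306250637741520368611584651259251868289136926496661136138056630050824407120350347361163383963900572964220471400546608037528784070700073687853750633719612159156976966906304606383309713262078312042834913015757221663025819583151104351508116356391517993190101449066293772605260507861623773046802278554989098843798604551104438713250170142332138300792183294171785689815596778419802029117385146892620258255365976656791282779820661236075415469347893005178386518234010464326273766683454449478655391336153305198832577858792334497357144934265573531689823377536060686388656570309931695527386000251007966284436817692499259273766705700310204991641520561707573769649795283727028564717753630307214551783693486387727348122997980789249653434715044925887463623718879448590588074109127924584427035885431168947187420939001050406277392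6257818504110563002746065462870607496345809965410403071397324411787913776134744777068978375542659042038590746166177207155525249024299469095063648920812751778865584805646671143936629635023261840249647520591123579063749395735823487440185845689211798524174754096679670445830205169059826929263337141073696120166324469786874455114460887841383935290487249302069690894619284300169791678966153565346767656165556213570585486103988535065979531060723049807413667551888474406054271343556140967982968634462699752653341667865670188957344042598844834797364741754332567747328044622793238992498508169347120334251297329322443967694454093178868482346832661586246287213084020470980763772202014655905190407576336776292926546700016794967672224016995363132856554321335669697327912915927548524395388144277111266388286312402867240331178310098860838058110234686516511552135501008300237201880969820985989779305079202372378911794276831341889081355576732173105498677880540641334246727257944554311091458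9220864977393360657016568825811710049457511043313802630595856625456539552945940587309706920195832939204113917628964529497427114445573638659236402010000690147977242970822160518052370383891660844676347819210406483664505955162467610026417134994319349346710807907844116526898477318310408762931522833116148043751405578941711522553841745937687038490143405308636211394565741295624422027186023690628061157794657496540358962080324508522944503275585207504688102470001627515313761684134597611182913243266910694061363626241398299055859896548736811813033833550510969460288991308883850806646317327388403841879727657440033728597956492825117123518418879347050300255970842289013275068597650071261450210996663166987502237512557398835234443894749430617315151111113562477785476647335393684043058732544142562069381176830518644662207113065954736910700779904884496183602026746385625806531390749886227718987050785199380757599188373331106143104849328699426772515137155677434526019638919369255077267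1679401731545921687162126849965668747134559836033203496252552217600709376929755278301027041006876000285204340822389846125073152242126611530081243672761476774480402679640730720810790205809654085505952271556284273618945221495488073884420535199086252995828552592194940126521921930755054209148891310615359402678396073521441701276853854044558364753882995106805350066572495588023038878362120549652633956111104769489818092449315408698262053777410971601958862220143133208001949786936974923167100748213799470650151536532706056155064997796791333549794122755415821939676338698881667649601985558096076928540322379825059953594556026503929163971758704282751137092726071469455490004928752141861414321810365188490283148724178985483033905461132370337907930062314042295779828084567404315479815923991834642240288571948725971557877955208248538005884045405781891550135292632627169404672247461516410306740290676263813269430656935251630752408477153409292933812712303316922704494605695975530850604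5411944536370100872837533211633494564343852229107034444531477502525910421825263009096964736058395347110446063417961757498125997822579646913109253636309208269793497402777392145119169500868128387944355015068631890615147035108989288556195600644076442889456099519214478283733188842401551251648501879653785931715758089129282177017803734572326167675747938521169506436349287076284632861663710771784947575006063607634545891807491739152753023073819403608901861029862136137992048430054815220297874572883056604915779314116200636463664462460894706556617918972422980316054280517333758684257170527960210487308560189135738955289500440310990106916300128548219741586360259478231351912531840692254553732759972526548629137376726873864307746849558331588325318748448272078127398632129062212524087071768722757119955974941280067984450522922557854791479148591983250338886703460905451283225959998624163322961404893674045639537551129689400942682553764042401137273645043979144788475365593852713803854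3161059759653607347176663014619497884112002158304589398210132784659702899734279626633765425845469846117729916008392930522458827302239234979774084943021283185273609243764414782618626789037060767991069197844883959388652789244817106916548066546327248381762607948814220063498520922991113237617140550142827590149198077585943369590502297922599465052098768675116588071412529083548518271438857748730291079424155488327964338709928907930676429909415563258381724761983297224357731349566415388153208323441480518769023779912039783866679612352882657481779402972272402587784036184391811185210456991977733586022729786056545911370458909327268036852904049363364729865184486168139079802058583561103704293661519339639255213417208470592849698094183614057315115316538307744648507488641815736409626248913944028233122511114654682079558763386990629414697795619288600387426097980455436137526549558589595511334465551076647076469018628537015997839607351403862743839122533233435777516974933890970935384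1118112362552281288357262749135949267645924944435830165522597599648474562117864965315267951373324816860714511927526708824276486986888184206522639026275353690851486553243941420295492270137298983937277879801121565151723307728387811443695066711475929173521105277956829994365022541825654471844177069009744134202599579139388153818667726652028980683972204146836765512967156065620427340113146363043634280529782046459073485286465161078292156219170366620759527222084374260152603573884465055343324913910201698121768260728887134874345079434709307032176724418496218361767019945775617439829368995709285550717408582784748635286556244097629232585834416910628213195456530767361084840209164078789183732544548922121318569502491177666909539328370467003752192804196436059263187260450677333081105679012610229488186700629241343180373730800761110216682584519953516432182242646757820577962689298904823940352054873148662044050463440524633858372516224880973043178931021168274183131543753705435726669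6914906060964512323897008473337761186845346119013720421229655322391224213868755406828406094830674652722286513123285293109402168705136311744200499929511735870316954477737405572039455642018365404242247244091412709229437626528889637982342266726114942335418854991888686618882445615808595608824290655670912016176267317596786553972250532479425514695416648733769469967272802523469129903898279974244469776747329661344671878859159006108701830498682900693731462909234222549920953313526457789930927674677376062134288379295699674226748628441718092017084416240114087036660281832999851264877256062399669915959944137754211311218785987862541637638329809454312354517166393650514403019822230788098450295470946734759287047449386095737943409240558919898518403013297813675831833674198959891269711565624955644147939952408179268446598652290687584817453499699288902597555969076773884664561148787359148103754524095098533226805323059440555073775294078499318419593178630099186838550727902715803539046335551372816932413219998307156647910706320242860377687022468928467029192831987089408)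

noncomputable def rc27 : Nat := (nat_lit 283126610407704863454581495354603191803110006874432012648838214315239466922780988214673705603026892665785516384008599816079030779039763572183733217588347953553255066969149974846400925557814022336626272538267659883898800794224715052563180645682985957487785352777656143194442587525807510786719126823625190986610250151754682006671013190407817983374824553128202473660000372558747002305555100679976632542600258164863011348805539645184536189695438490388776922870552740314951826412447578133442045656813643580922759915163076092997991158906366415814368933522148651489279821271410824401474822631841941137421722311638590883824429547723781000322327015882010867634517165713297274102847133411289134873404719719858916322871034076169693862454717303186503213765395573295363403243460444449715765033503448449416468663109966922484625664643522178998280258983211348896058410530233690920415024486481973395325472284630063733921058724341728967027426792899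3300010393645446646292907100813040851828710067360046905245939044356382373152430110416632635038927861775392494798735544975141445095915333352191877010148430191667785033630221040201411516906260394083699970323925726011763520365845031265226800274470298718049195902568793322752156974563412884394147874077515724499530722280219557112176534460820714218142757710162721720206653756952780979108933166168053741853115404194884064242784763097171966589571156868668490752248549141815573388396795117097875015502579456978176919798763509692825484388941636778423530408667568042640559336128979084005641524041689815948604163862830184730611826286698745865860189732021259033492271520873364164382489459151470874779319120878957602268727956875063791716384010612719262244059049954913771404615796361576405894305266518398758430342653679360028821404846203544800679841878011432457940901211134480554431226053806290409457852272250866227378340907526667245199959033387806752358465593697322770933334450672917251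5189925016981336622827509029683164706988289753341541142328882677637713675017276612209203352761419171171972874898442980082321336665328411791898997302243296576770501957829839979546124761575699792793025058019908825128714853513412887277130447435588116713905116577648057483483652969231609461025545229581126592066387777109156535787616054906778368508983166479836027965030718177881851286403799647554400365956298094236374226892419511659879199631887676827284039352082027571055079386523350874496869503556561731710913411912497068053626090511610448999973331841783444232466031102687787260292673798544516528298481657215638087782342370092111949954223704964532411901575843790499552230597420360931370293565697066641068998410092286611998408955661160152323195876250736224554700637923103961039757821734028835690802970000064294487018322756386118359864433568408596351660890380249613400956445607247720903336975470321809186848441012848670214050388173083858501134145545003188173344332209798894625249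7072149171592973113869956545727865977292186852908726501027951201520234221975551636221704712288523871003308218948792402582070163398769996299435182823225155146124402101146058776608469192950917425230940724683212907101671280242528640711657142489373569885243491101784103152637489595366246283297765070332469872914266574349511434516626140789053019119498590655781646121695285486876253105082296621043520631263298736728954293498745468511456255852252630882972992257138370362751450529047537373425385978399338328949829266808060319522672289109340105017253084393329852872832813560665083501812738931776294459409362320973897705479284011489734583114041990807739014143099601660271572671158678456491796106228858435409903951670369312584481576646994198276503804076823196819217112647480209535276706264981745241809089835418201605068154068014896243392157546386009996898985447652610447563208703986080636190237029326192130485768261963239545312563927642892124127842851908714123111588164156403960853329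4901591733280451751938037401562077019100239071236479291523343100070405648507004535228937189502914285312879956902241575573289335543540993163474853170742034263265879794893474297963609676562746313195458688992325902396510557892552841197591874542122990473485628590012206421522101627076967046044291660194761209543709631196395867988944957141417595172106211067455032971659228448315984099846079455817923735174961010616262804839858602979129078142805092586283181939588381645131638626813844012235187487021654358755462046895251523353802426881231962633385054040809065996982218856886209601654038277146172503379976482288026478441523527096292393128434747596875058826195343865422847629486943555266745458403988333606734969787523609132458320200850308152118103872955651142080010600796871405099264195650733934777875227489005959832785411600909130799505267269544006725902179948714177841843583222718539910229344991325780474371384209965192010840124211118528052455146889972255951874793063228718711474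6416664152448381460880199287306430788377298075009209860002045054666598396044599471126146111697405015913903919229620781660749071830132544505190783405349140524116666121729882666510984636083133104480883443107919889023937411874907550883635422845237676488348856663941238296791297479918492017906064595879496374679227119280592424567376306973328020997203032031876599736914018854608492681313014372444268532532654173674015158950465277101716969101538892673343681529943471107564191605168265468894374069661079052402906340428485190951278645612300884232576312871425662758837778925140664675451174611588098828627652430154781319203863495620264882807321148310904128731443237120818010647573852858007441809329233782832886159323874329840933739315513820312052589319193351984163470153400818548092105411839254114457241353957033830961989508961972020382619851217682063940367501410742711202185436735539364668662776733998701019950061127118073639169160614996070247655890000385179353566369055143864112890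0250858054676456862891692917316130038559338052534799536151015693661334318989737012072244555081950687077978790805430337977730798757046373878214117193548337493914077218010397610026481138979308417276833899559648018568010440810247890753448382411912258378849866114688048413339866121267558551586159286396190965087105073482370269321358022134032362143742392855356510736969389525670197421929157842532317148113088018721966386235455604451503299054264432919238416316929504090287789066568883187294074139478498739261911362228966909369660790588529047612777544214067827981479001037228157322682124916128459071478185559000115788882849162133454906352882726981292178006031245485881824906353182029693323872652919219658981736842086373325786341973746058934419323854734197663015413567595048870683723575891107008494303138106504700324889893558564122515710436526961388819637198132735340270126277378494884785254362747864309576717821173326160214284619471005058340101119690519693790117410363500784637415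7106340353875186800180173528634796867205045592428735271233823856748801676437224428784929045580976104892161166684730586570688794667057442756454920456273687244844714365007531169668360344176536359151530225858642434503302629119989677727671601032486479624140576640574880619630006533675042613185758238668719866997634919762122721017843517060286676270769205301467363314723135504478400046969435246495477727431319907882723727131349469050194836626525880169360832912875347705599508023194302314138464880980055301583499875363162480359503138780401349265812271408008928519901228567778938369282792967149583494190788243921909049803567473812570413425061969876997367640487835667163606426137873280903228183446307591364008165251682635224096739423250639309350464086033067074869080695175876292120733222390792412959289738819628516568128675764939965831349890614392362095376085152488249177213585854987750203251109472679643325124143049124160716694425068888596738121844256328902966946787239827966547227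5662652280787928005308582822844756849582447008691903110089185154208575848144958195721713442193891961538785352865520457406121859147710556345990809947382537703374785054243342685098237576311229086803716423265714278940938228035524434800501671350851492320057506868261822979757787823637493011636370918052613752460356343559637310186650299112824721853374611868568864463591687767685976547767309971649090120723012467191087152429857531785095624273783361126339857460782286651339043338721718220081800183674491149964804272626019779755162613803460718780979755363544722374217471433152455592306775806816975066589611090971400715756411493162444290793472541414781268655051849939368433552300376938960558111933708397588097133445742594600698838030930393104765089018261449125462568561150999853160512707076274457127775094222544481965351690159636042823728329504831315988616621665401810359330398077857071336223992506036614401434794370549143073503077709158468894400428403367011613614613409189730882870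5800109630758306081799430823176011813737941667593102326933494883801475866106036970262919126429992927754460015461035661971312829663411356264952564150164381519760757962079606563099602878415041240624196019370900056718330533960618851107304716806144448665474945679157418520506146483096333075148618996577600863319087782984158367808471125991482381940691694968007586837144731170634998766254236319290247241909045329500805666616239841442448708584057515907959217406604566017812976120006470828289128712218666571050981137206844995049416461035530069080918419163211060567768822259632585361327857207285698587842873074134028447455823819828858874271616914025671059001121387135700134672743305987366039440079359775463790564450814058897260687658209460414518397950600871777557409583300140268046592952759476915284930254543547930527624331276184553561154288270599884805480300165337269912810991284866349612534250021806603887405995556659574799239895832232019180252658719331542566761795842279654539914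1739990076728346836165629262484746314522715427420875833882416016992733791742217757654751441897719094337343018631163925226072367482959825610935644987570607899542543103373265624464259763386013140208174080551690130255542807842081678272071957721895835190244029597849722156709430823771305872984341702767726096097456804496401795547865868761376500990466612643030103986375439246668747940252563936389369103048982004252418326388150156877775962379836423503724464762236798571064530448422410475249198140327726429542724753648963739388682243020636500750624103202987709454107712665281619234932662906634560173183157281482489507791305827854147969222484238104080997098549896060981842815807047208432188288297321058629603107731293675118042972690787927544968571628937931840183256539120244287682848801136403025734637033924692518150459166986441126408666098938583631381442330870930711746593158666783340446297686860188561267593067814508907669053547532754934306732863098714312417023535607093081103802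8183817179436148225786982295416395590691274652119104318442671670292829156355649697595759081410281190993993663456658929727607570971535904981172050875510086032439692405834441760660168632537972329725426925466166918805066426261172266057584176960016972575859068324319999146955655901989360571444166664712961951196011084191773779667856659879899203529565743836839446749291471338907091647118180315855949353217506687375302776450592367478452848593386746944527437753222190446715241065969998442578638429045924382528604060058857266351171821512143797795654354909967058384010244819559477467016147089175187272822213898763866812347840917955564179755498353739553992977492048228415452317531057428705490146141768020850850308102729829434807381753412613254057056462026046403687545919126180057849994020738324966139674198860289476809391220281417448239718482076079371067846924413165350532107716756074517029044035267620136992632740550441649424171065956676370100056476926045591593266792592703951142307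9108259763593505760822143968442227335562018345324414054692616810070484410365227278540627186933370973904934108233336242926259998405819334840996070860067767555620181488318246770484061107421797761268177580103482776187602046027814256802643691804375373378991809519870328762979686903307327153622435529129177167546498678258131528128933627690549633973057791504195820144905242636301266109633118244448541842173124531381628406869401451018570034937343278166621307382356194507460150082845586791150867193666193435315354945417359037615483692242092378433674134371806747939633468196484368971423702098758467985508533673715548239016532959154597507953209179576453166844747989746935879083847415313615863283744552897434943892405321799474526959045220473739218402606083303650726127450952776991515823761037212882385522362880218555596956251431143809317123190880097256968000082978233472675060461027759626763277788408804715741741308026501827013308649051625727783553903718925917433770222017525936872989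2780929536171337968715896867829708844050693004774632206386297013585006604043713659132705858568704810235093553778234457101144944870341232542354088031666789637850627988434692395027681136601561964302412518640952646199512828763548606020624226545454634512872972115816386448433993794917438497178842627046861482435365752139832205511373505643567825375580924510547593357785805181069444303574086081334723701315829925440127342059195480084714548418687144305472052361740867800951440526312930131019689900967905460261760063698807736886382399045276494578829697723984623599288999143343101813702101060128312936394025122679055950272166163374411795650599504745982023946982520864907506419502950942095128549868875952084448653085579395265254909695764609257432677306677708813779920189634061895757888723960610037836195569547871721816102072032067654407645598389788450414886154449014215399463253369876694575510610532494919363361245460124404562621756423581393662200009830044448041118739186753538144560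8143606540200018880439670285993485246062746736475950923005277279685579083415209074174586424437706647664308537524100078717903247564305417215304057066153375672966587404366530977764153951557242172796183619397432747226431080830932198119566739661157750880886282308207081184209747726653453736422153377935402040126174469548898959893094716787765431235611959314287652802474008606658070578643022775535862130031682097098211787407051888925448304614807517198272961019967050360280631723415814194154046460646598775632995934372783452438162914725277883623314392062417636525339710525791683942045094445821667257853449302815784303888463059603169481930658681067673009343874379004445819335638461314370616529116435074247579131846030084820179965432135889904717027552824936610850886138292068236221536992364179465722057628824174207405784676065882063690071666006665958414231364677787999305942455441504405860337707358246492624407536969725647910947722143985523453871745749829654570063018792274519819620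2937902905331064945647972175855094152093575239865436637328711528365475851736256434472957864485509498016218829210731307799842120029354729642459346488451996468662641650237588717584875704511536109367164079701635593788380631812466703877389379977052418665210618138043979160179657842950923182189602208682665346679722440546849681044620701787587547386419861118835653375125217286041736693367980247172453107214992881252472723413800066195639409495596962726575022241393637956092785427316404871596451647678073786804379885637075360590134060566367002067212826342308972119899418950643793235269660951420124506457817905738713595553320237968779458856462555466924155803782335523663512450247419684327450436904365351465786962858443989590381864058266172316673347546878217276476483276749968556708924270245515241200550402756941689816834901996815049330842780259750390998916206984700284675924043325953077497830886016801797704363317013922480274483876304644054656839670726865844249436547599758897200332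3068744586414544387066247484047984943473288712063199983781124271969634474082538009393610681014906732777225969030205480081296808343514918812303206675047570912490675105421590060898052607782425310426109422680347834023222226511105910341115600199125530291662902721095791622561933629195089790741765762299992495997737772407720576643262060489091881917523200369816126542450935036987416840657956534186367017332587489928602150076022478693602691962917781691089175627501411548012618285319296231212705323792276129046263318169063589647042165721613382664744517340001109147631537355505886229623831660294842556933085074074400911027747508653910988844306315582515034887689200201946522613504077405292598283219503553346904882138926844857305300456469048529032767644336761657628785566856972556271703876869481635278734572322966299406387264321639522075173309495660552814217965904224166030525037347393769041618012968887050065887317936051815755272013186824453429552076641077929267515221709159849753364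6230178009741070139892929162336967097892863936591801971356148317197206781748911224842130866998959925292001622412028839395171444154941152644055415178413886169594089748084877479226432861613108043818767070845574249776808184453101724765600659362584316398281434498400479083431672891925556181128897549186719908626175887338930755057437831006227196505404531960051609706259959687985121395082533553297973053115028361953783454525450841784253162391116164926077481475339517489096047621461456908309899864328248932290253180721995025554017748339085791025675501691613335153811670236653501195665994129448126325319441875302209554228500801709249972326047166655280133734590080138640363727003721673504809551318930954331927224104300388796162621440924218673945861667903967243991070101303156928401753702623075646033465418688872044602375829102793868954094997168037863841422354120613339988626573712255176795240786509327245719593077197934658695303923145410359095750874604078237760246087195940157707791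5957546415066456809185365113155725757529504600102265710013998373548377177939798893724824942649592422213843610725041908069629838651996345690963292443890076385951181971272018925333355959683044667021320358115082190612217879512654290066498362372802912630858925070057021287124086554635764214159106811029850499227545072613630972797650323441929273179917443088713182703209659625190194807863390441686316460588472910106997065326576967188459645904943868446109956547712305941579593333087262042010705513377245703557052869113237869014376435520161765492584086865870740087787901080823021590979055356829024835541417881214062186952899155110309946579203470464815802971175905179296009279750830924016830509871821800883763061485500483679759746130014822423259661296810395447372688788528704664202560131942933360868194180839799304070692040567048979078718422091638577385915896482003155522744553825901380559575810912568349854320337050062870142471665831421252073769202817314258056202118933473432674691782071008126566126323215621016168073373966028619975090626968392166849080071643201536)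

end Vale.Agent.Lib.P154.PChain.BA.S11
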