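import Vale.Agent.Lib.P154.PChain.BA.R11_3

set_option linter.all false

namespace Vale.Agent.Lib.P154.PChain.BA.S12

open Vale.Agent.Lib.P154.Chain

noncomputable def pc0 : PT := (PT.nd (nat_lit 7615140) (PT.nd (nat_lit 7496502) (PT.nd (nat_lit 7437066) (PT.nd (nat_lit 7377552) (PT.nd (nat_lit 7318740) (PT.nd (nat_lit 7318194) PT.nil (PT.lf (nat_lit 11172) (nat_lit 6) (nat_lit 147) (nat_lit 3) (nat_lit 220) (nat_lit 123) (nat_lit 227))) (PT.nd (nat_lit 58734) (PT.lf (nat_lit 11172) (nat_lit 6) (nat_lit 147) (nat_lit 1) (nat_lit 227) (nat_lit 123) (nat_lit 220)) (PT.lf (nat_lit 11476) (nat_lit 6) (nat_lit 151) (nat_lit 3) (nat_lit 219) (nat_lit 124) (nat_lit 227)))) (PT.nd (nat_lit 546) (PT.nd (nat_lit 468) (PT.lf (nat_lit 11552) (nat_lit 6) (nat_lit 152) (nat_lit 3) (nat_lit 220) (nat_lit 124) (nat_lit 226)) (PT.lf (nat_lit 11552) (nat_lit 6) (nat_lit 152) (nat_lit 1) (nat_lit 226) (nat_lit 124) (nat_lit 220)))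 (PT.nd (nat_lit 58734) (PT.lf (nat_lit 11476) (nat_lit 6) (nat_lit 151) (nat_lit 1) (nat_lit 227) (nat_lit 124) (nat_lit 219)) (PT.lf (nat_lit 11932) (nat_lit 6) (nat_lit 157) (nat_lit 3) (nat_lit 219) (nat_lit 125) (nat_lit 226))))) (PT.nd (nat_lit 59046) (PT.nd (nat_lit 78) (PT.lf (nat_lit 12160) (nat_lit 6) (nat_lit 160) (nat_lit 3) (nat_lit 222) (nat_lit 125) (nat_lit 223)) (PT.nd (nat_lit 234) (PT.lf (nat_lit 12160) (nat_lit 6) (nat_lit 160) (nat_lit 1) (nat_lit 223) (nat_lit 125) (nat_lit 222)) (PT.lf (nat_lit 11932) (nat_lit 6) (nat_lit 157) (nat_lit 1) (nat_lit 226) (nat_lit 125) (nat_lit 219)))) (PT.nd (nat_lit 234) (PT.nd (nat_lit 78) (PT.lf (nat_lit 12236) (nat_lit 6) (nat_lit 161) (nat_lit 3) (nat_lit 218) (nat_lit 126) (nat_lit 226)) (PT.lf (nat_lit 12312) (nat_lit 6) (nat_lit 162) (nat_lit 3) (nat_lit 219) (nat_lit 126) (nat_lit 225))) (PT.nd (nat_lit 78) (PT.lf (nat_lit 12464) (nat_lit 6) (nat_lit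 164) (nat_lit 3) (nat_lit 221) (nat_lit 126) (nat_lit 223)) (PT.lf (nat_lit 12540) (nat_lit 3) (nat_lit 165) (nat_lit 1) (nat_lit 222) (nat_lit 126) (nat_lit 222)))))) (PT.nd (nat_lit 59280) (PT.nd (nat_lit 58890) (PT.nd (nat_lit 156) (PT.lf (nat_lit 12464) (nat_lit 6) (nat_lit 164) (nat_lit 1) (nat_lit 223) (nat_lit 126) (nat_lit 221)) (PT.nd (nat_lit 78) (PT.lf (nat_lit 12312) (nat_lit 6) (nat_lit 162) (nat_lit 1) (nat_lit 225) (nat_lit 126) (nat_lit 219)) (PT.lf (nat_lit 12236) (nat_lit 6) (nat_lit 161) (nat_lit 1) (nat_lit 226) (nat_lit 126) (nat_lit 218)))) (PT.nd (nat_lit 234) (PT.nd (nat_lit 78) (PT.lf (nat_lit 12616) (nat_lit 6) (nat_lit 166) (nat_lit 3) (nat_lit 217) (nat_lit 127) (nat_lit 226)) (PT.lf (nat_lit 12692) (nat_lit 6) (nat_lit 167) (nat_lit 3) (nat_lit 218) (nat_lit 127) (nat_lit 225))) (PT.nd (nat_lit 78) (PT.lf (nat_lit 12844) (nat_lit 6) (nat_lit 169) (nat_lit 3) (nat_lit 220) (nat_lit 127)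 (nat_lit 223)) (PT.lf (nat_lit 12920) (nat_lit 6) (nat_lit 170) (nat_lit 3) (nat_lit 221) (nat_lit 127) (nat_lit 222))))) (PT.nd (nat_lit 58968) (PT.nd (nat_lit 234) (PT.nd (nat_lit 78) (PT.lf (nat_lit 12920) (nat_lit 6) (nat_lit 170) (nat_lit 1) (nat_lit 222) (nat_lit 127) (nat_lit 221)) (PT.lf (nat_lit 12844) (nat_lit 6) (nat_lit 169) (nat_lit 1) (nat_lit 223) (nat_lit 127) (nat_lit 220))) (PT.nd (nat_lit 78) (PT.lf (nat_lit 12692) (nat_lit 6) (nat_lit 167) (nat_lit 1) (nat_lit 225) (nat_lit 127) (nat_lit 218)) (PT.lf (nat_lit 12616) (nat_lit 6) (nat_lit 166) (nat_lit 1) (nat_lit 226) (nat_lit 127) (nat_lit 217)))) (PT.nd (nat_lit 234) (PT.nd (nat_lit 156) (PT.lf (nat_lit 12996) (nat_lit 6) (nat_lit 171) (nat_lit 3) (nat_lit 217) (nat_lit 128) (nat_lit 225)) (PT.lf (nat_lit 13148) (nat_lit 6) (nat_lit 173) (nat_lit 3) (nat_lit 219) (nat_lit 128) (nat_lit 223))) (PT.nd (nat_lit 78) (PT.lf (nat_lit 13224) (nat_lit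 6) (nat_lit 174) (nat_lit 3) (nat_lit 220) (nat_lit 128) (nat_lit 222)) (PT.lf (nat_lit 13300) (nat_lit 3) (nat_lit 175) (nat_lit 1) (nat_lit 221) (nat_lit 128) (nat_lit 221))))))) (PT.nd (nat_lit 118482) (PT.nd (nat_lit 59280) (PT.nd (nat_lit 58890) (PT.nd (nat_lit 78) (PT.lf (nat_lit 13224) (nat_lit 6) (nat_lit 174) (nat_lit 1) (nat_lit 222) (nat_lit 128) (nat_lit 220)) (PT.nd (nat_lit 156) (PT.lf (nat_lit 13148) (nat_lit 6) (nat_lit 173) (nat_lit 1) (nat_lit 223) (nat_lit 128) (nat_lit 219)) (PT.lf (nat_lit 12996) (nat_lit 6) (nat_lit 171) (nat_lit 1) (nat_lit 225) (nat_lit 128) (nat_lit 217)))) (PT.nd (nat_lit 234) (PT.nd (nat_lit 78) (PT.lf (nat_lit 13376) (nat_lit 6) (nat_lit 176) (nat_lit 3) (nat_lit 216) (nat_lit 129) (nat_lit 225)) (PT.lf (nat_lit 13452) (nat_lit 6) (nat_lit 177) (nat_lit 3) (nat_lit 217) (nat_lit 129) (nat_lit 224))) (PT.nd (nat_lit 78) (PT.lf (nat_lit 13604) (nat_lit 6) (nat_lit 179)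 (nat_lit 3) (nat_lit 219) (nat_lit 129) (nat_lit 222)) (PT.lf (nat_lit 13680) (nat_lit 6) (nat_lit 180) (nat_lit 3) (nat_lit 220) (nat_lit 129) (nat_lit 221))))) (PT.nd (nat_lit 312) (PT.nd (nat_lit 78) (PT.lf (nat_lit 13680) (nat_lit 6) (nat_lit 180) (nat_lit 1) (nat_lit 221) (nat_lit 129) (nat_lit 220)) (PT.nd (nat_lit 156) (PT.lf (nat_lit 13604) (nat_lit 6) (nat_lit 179) (nat_lit 1) (nat_lit 222) (nat_lit 129) (nat_lit 219)) (PT.lf (nat_lit 13452) (nat_lit 6) (nat_lit 177) (nat_lit 1) (nat_lit 224) (nat_lit 129) (nat_lit 217)))) (PT.nd (nat_lit 58656) (PT.nd (nat_lit 58578) (PT.lf (nat_lit 13376) (nat_lit 6) (nat_lit 176) (nat_lit 1) (nat_lit 225) (nat_lit 129) (nat_lit 216)) (PT.lf (nat_lit 13756) (nat_lit 6) (nat_lit 181) (nat_lit 3) (nat_lit 215) (nat_lit 130) (nat_lit 225))) (PT.nd (nat_lit 156) (PT.lf (nat_lit 13832) (nat_lit 6) (nat_lit 182) (nat_lit 3) (nat_lit 216) (nat_lit 130) (nat_lit 224)) (PT.lf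 (nat_lit 13984) (nat_lit 6) (nat_lit 184) (nat_lit 3) (nat_lit 218) (nat_lit 130) (nat_lit 222)))))) (PT.nd (nat_lit 59124) (PT.nd (nat_lit 234) (PT.nd (nat_lit 78) (PT.lf (nat_lit 14060) (nat_lit 6) (nat_lit 185) (nat_lit 3) (nat_lit 219) (nat_lit 130) (nat_lit 221)) (PT.nd (nat_lit 78) (PT.lf (nat_lit 14136) (nat_lit 3) (nat_lit 186) (nat_lit 1) (nat_lit 220) (nat_lit 130) (nat_lit 220)) (PT.lf (nat_lit 14060) (nat_lit 6) (nat_lit 185) (nat_lit 1) (nat_lit 221) (nat_lit 130) (nat_lit 219)))) (PT.nd (nat_lit 234) (PT.nd (nat_lit 156) (PT.lf (nat_lit 13984) (nat_lit 6) (nat_lit 184) (nat_lit 1) (nat_lit 222) (nat_lit 130) (nat_lit 218)) (PT.lf (nat_lit 13832) (nat_lit 6) (nat_lit 182) (nat_lit 1) (nat_lit 224) (nat_lit 130) (nat_lit 216))) (PT.nd (nat_lit 58578) (PT.lf (nat_lit 13756) (nat_lit 6) (nat_lit 181) (nat_lit 1) (nat_lit 225) (nat_lit 130) (nat_lit 215)) (PT.lf (nat_lit 14212) (nat_lit 6) (nat_lit 187)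 (nat_lit 3) (nat_lit 215) (nat_lit 131) (nat_lit 224))))) (PT.nd (nat_lit 312) (PT.nd (nat_lit 156) (PT.nd (nat_lit 78) (PT.lf (nat_lit 14288) (nat_lit 6) (nat_lit 188) (nat_lit 3) (nat_lit 216) (nat_lit 131) (nat_lit 223)) (PT.lf (nat_lit 14364) (nat_lit 6) (nat_lit 189) (nat_lit 3) (nat_lit 217) (nat_lit 131) (nat_lit 222))) (PT.nd (nat_lit 78) (PT.lf (nat_lit 14440) (nat_lit 6) (nat_lit 190) (nat_lit 3) (nat_lit 218) (nat_lit 131) (nat_lit 221)) (PT.lf (nat_lit 14516) (nat_lit 6) (nat_lit 191) (nat_lit 3) (nat_lit 219) (nat_lit 131) (nat_lit 220)))) (PT.nd (nat_lit 156) (PT.nd (nat_lit 78) (PT.lf (nat_lit 14516) (nat_lit 6) (nat_lit 191) (nat_lit 1) (nat_lit 220) (nat_lit 131) (nat_lit 219)) (PT.lf (nat_lit 14440) (nat_lit 6) (nat_lit 190) (nat_lit 1) (nat_lit 221) (nat_lit 131) (nat_lit 218))) (PT.nd (nat_lit 78) (PT.lf (nat_lit 14364) (nat_lit 6) (nat_lit 189) (nat_lit 1) (nat_lit 222) (nat_lit 131) (nat_lit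 217)) (PT.lf (nat_lit 14288) (nat_lit 6) (nat_lit 188) (nat_lit 1) (nat_lit 223) (nat_lit 131) (nat_lit 216))))))))
noncomputable def pc1 : PT := (PT.nd (nat_lit 177918) (PT.nd (nat_lit 118248) (PT.nd (nat_lit 59124) (PT.nd (nat_lit 58812) (PT.nd (nat_lit 58578) (PT.lf (nat_lit 14212) (nat_lit 6) (nat_lit 187) (nat_lit 1) (nat_lit 224) (nat_lit 131) (nat_lit 215)) (PT.nd (nat_lit 78) (PT.lf (nat_lit 14592) (nat_lit 6) (nat_lit 192) (nat_lit 3) (nat_lit 214) (nat_lit 132) (nat_lit 224)) (PT.lf (nat_lit 14668) (nat_lit 6) (nat_lit 193) (nat_lit 3) (nat_lit 215) (nat_lit 132) (nat_lit 223)))) (PT.nd (nat_lit 156) (PT.nd (nat_lit 78) (PT.lf (nat_lit 14820) (nat_lit 6) (nat_lit 195) (nat_lit 3) (nat_lit 217) (nat_lit 132) (nat_lit 221)) (PT.lf (nat_lit 14896) (nat_lit 6) (nat_lit 196) (nat_lit 3) (nat_lit 218) (nat_lit 132) (nat_lit 220))) (PT.nd (nat_lit 78) (PT.lf (nat_lit 14972) (nat_lit 3) (nat_lit 197) (nat_lit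 1) (nat_lit 219) (nat_lit 132) (nat_lit 219)) (PT.lf (nat_lit 14896) (nat_lit 6) (nat_lit 196) (nat_lit 1) (nat_lit 220) (nat_lit 132) (nat_lit 218))))) (PT.nd (nat_lit 58734) (PT.nd (nat_lit 156) (PT.lf (nat_lit 14820) (nat_lit 6) (nat_lit 195) (nat_lit 1) (nat_lit 221) (nat_lit 132) (nat_lit 217)) (PT.nd (nat_lit 78) (PT.lf (nat_lit 14668) (nat_lit 6) (nat_lit 193) (nat_lit 1) (nat_lit 223) (nat_lit 132) (nat_lit 215)) (PT.lf (nat_lit 14592) (nat_lit 6) (nat_lit 192) (nat_lit 1) (nat_lit 224) (nat_lit 132) (nat_lit 214)))) (PT.nd (nat_lit 234) (PT.nd (nat_lit 78) (PT.lf (nat_lit 15048) (nat_lit 6) (nat_lit 198) (nat_lit 3) (nat_lit 213) (nat_lit 133) (nat_lit 224)) (PT.lf (nat_lit 15124) (nat_lit 6) (nat_lit 199) (nat_lit 3) (nat_lit 214) (nat_lit 133) (nat_lit 223))) (PT.nd (nat_lit 78) (PT.lf (nat_lit 15276) (nat_lit 6) (nat_lit 201) (nat_lit 3) (nat_lit 216) (nat_lit 133) (nat_lit 221)) (PT.lf (nat_lit 15352)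 (nat_lit 6) (nat_lit 202) (nat_lit 3) (nat_lit 217) (nat_lit 133) (nat_lit 220)))))) (PT.nd (nat_lit 59046) (PT.nd (nat_lit 234) (PT.nd (nat_lit 78) (PT.lf (nat_lit 15428) (nat_lit 6) (nat_lit 203) (nat_lit 3) (nat_lit 218) (nat_lit 133) (nat_lit 219)) (PT.nd (nat_lit 78) (PT.lf (nat_lit 15428) (nat_lit 6) (nat_lit 203) (nat_lit 1) (nat_lit 219) (nat_lit 133) (nat_lit 218)) (PT.lf (nat_lit 15352) (nat_lit 6) (nat_lit 202) (nat_lit 1) (nat_lit 220) (nat_lit 133) (nat_lit 217)))) (PT.nd (nat_lit 234) (PT.nd (nat_lit 156) (PT.lf (nat_lit 15276) (nat_lit 6) (nat_lit 201) (nat_lit 1) (nat_lit 221) (nat_lit 133) (nat_lit 216)) (PT.lf (nat_lit 15124) (nat_lit 6) (nat_lit 199) (nat_lit 1) (nat_lit 223) (nat_lit 133) (nat_lit 214))) (PT.nd (nat_lit 58500) (PT.lf (nat_lit 15048) (nat_lit 6) (nat_lit 198) (nat_lit 1) (nat_lit 224) (nat_lit 133) (nat_lit 213)) (PT.lf (nat_lit 15504) (nat_lit 6) (nat_lit 204) (nat_lit 3) (nat_lit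 213) (nat_lit 134) (nat_lit 223))))) (PT.nd (nat_lit 312) (PT.nd (nat_lit 156) (PT.nd (nat_lit 78) (PT.lf (nat_lit 15580) (nat_lit 6) (nat_lit 205) (nat_lit 3) (nat_lit 214) (nat_lit 134) (nat_lit 222)) (PT.lf (nat_lit 15656) (nat_lit 6) (nat_lit 206) (nat_lit 3) (nat_lit 215) (nat_lit 134) (nat_lit 221))) (PT.nd (nat_lit 78) (PT.lf (nat_lit 15732) (nat_lit 6) (nat_lit 207) (nat_lit 3) (nat_lit 216) (nat_lit 134) (nat_lit 220)) (PT.lf (nat_lit 15808) (nat_lit 6) (nat_lit 208) (nat_lit 3) (nat_lit 217) (nat_lit 134) (nat_lit 219)))) (PT.nd (nat_lit 156) (PT.nd (nat_lit 78) (PT.lf (nat_lit 15884) (nat_lit 3) (nat_lit 209) (nat_lit 1) (nat_lit 218) (nat_lit 134) (nat_lit 218)) (PT.lf (nat_lit 15808) (nat_lit 6) (nat_lit 208) (nat_lit 1) (nat_lit 219) (nat_lit 134) (nat_lit 217))) (PT.nd (nat_lit 78) (PT.lf (nat_lit 15732) (nat_lit 6) (nat_lit 207) (nat_lit 1) (nat_lit 220) (nat_lit 134) (nat_lit 216)) (PT.lf (nat_lit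 15656) (nat_lit 6) (nat_lit 206) (nat_lit 1) (nat_lit 221) (nat_lit 134) (nat_lit 215))))))) (PT.nd (nat_lit 117858) (PT.nd (nat_lit 58968) (PT.nd (nat_lit 58656) (PT.nd (nat_lit 78) (PT.lf (nat_lit 15580) (nat_lit 6) (nat_lit 205) (nat_lit 1) (nat_lit 222) (nat_lit 134) (nat_lit 214)) (PT.nd (nat_lit 58500) (PT.lf (nat_lit 15504) (nat_lit 6) (nat_lit 204) (nat_lit 1) (nat_lit 223) (nat_lit 134) (nat_lit 213)) (PT.lf (nat_lit 15960) (nat_lit 6) (nat_lit 210) (nat_lit 3) (nat_lit 212) (nat_lit 135) (nat_lit 223)))) (PT.nd (nat_lit 156) (PT.nd (nat_lit 78) (PT.lf (nat_lit 16036) (nat_lit 6) (nat_lit 211) (nat_lit 3) (nat_lit 213) (nat_lit 135) (nat_lit 222)) (PT.lf (nat_lit 16112) (nat_lit 6) (nat_lit 212) (nat_lit 3) (nat_lit 214) (nat_lit 135) (nat_lit 221))) (PT.nd (nat_lit 78) (PT.lf (nat_lit 16188) (nat_lit 6) (nat_lit 213) (nat_lit 3) (nat_lit 215) (nat_lit 135) (nat_lit 220)) (PT.lf (nat_lit 16264) (nat_lit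 6) (nat_lit 214) (nat_lit 3) (nat_lit 216) (nat_lit 135) (nat_lit 219))))) (PT.nd (nat_lit 234) (PT.nd (nat_lit 78) (PT.lf (nat_lit 16340) (nat_lit 6) (nat_lit 215) (nat_lit 3) (nat_lit 217) (nat_lit 135) (nat_lit 218)) (PT.nd (nat_lit 78) (PT.lf (nat_lit 16340) (nat_lit 6) (nat_lit 215) (nat_lit 1) (nat_lit 218) (nat_lit 135) (nat_lit 217)) (PT.lf (nat_lit 16264) (nat_lit 6) (nat_lit 214) (nat_lit 1) (nat_lit 219) (nat_lit 135) (nat_lit 216)))) (PT.nd (nat_lit 156) (PT.nd (nat_lit 78) (PT.lf (nat_lit 16188) (nat_lit 6) (nat_lit 213) (nat_lit 1) (nat_lit 220) (nat_lit 135) (nat_lit 215)) (PT.lf (nat_lit 16112) (nat_lit 6) (nat_lit 212) (nat_lit 1) (nat_lit 221) (nat_lit 135) (nat_lit 214))) (PT.nd (nat_lit 78) (PT.lf (nat_lit 16036) (nat_lit 6) (nat_lit 211) (nat_lit 1) (nat_lit 222) (nat_lit 135) (nat_lit 213)) (PT.lf (nat_lit 15960) (nat_lit 6) (nat_lit 210) (nat_lit 1) (nat_lit 223) (nat_lit 135) (nat_lit 212))))))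 (PT.nd (nat_lit 624) (PT.nd (nat_lit 312) (PT.nd (nat_lit 78) (PT.lf (nat_lit 16416) (nat_lit 6) (nat_lit 216) (nat_lit 3) (nat_lit 211) (nat_lit 136) (nat_lit 223)) (PT.nd (nat_lit 156) (PT.lf (nat_lit 16492) (nat_lit 6) (nat_lit 217) (nat_lit 3) (nat_lit 212) (nat_lit 136) (nat_lit 222)) (PT.lf (nat_lit 16644) (nat_lit 6) (nat_lit 219) (nat_lit 3) (nat_lit 214) (nat_lit 136) (nat_lit 220)))) (PT.nd (nat_lit 156) (PT.nd (nat_lit 78) (PT.lf (nat_lit 16720) (nat_lit 6) (nat_lit 220) (nat_lit 3) (nat_lit 215) (nat_lit 136) (nat_lit 219)) (PT.lf (nat_lit 16796) (nat_lit 6) (nat_lit 221) (nat_lit 3) (nat_lit 216) (nat_lit 136) (nat_lit 218))) (PT.nd (nat_lit 78) (PT.lf (nat_lit 16872) (nat_lit 3) (nat_lit 222) (nat_lit 1) (nat_lit 217) (nat_lit 136) (nat_lit 217)) (PT.lf (nat_lit 16796) (nat_lit 6) (nat_lit 221) (nat_lit 1) (nat_lit 218) (nat_lit 136) (nat_lit 216))))) (PT.nd (nat_lit 58734) (PT.nd (nat_lit 234) (PT.nd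 (nat_lit 78) (PT.lf (nat_lit 16720) (nat_lit 6) (nat_lit 220) (nat_lit 1) (nat_lit 219) (nat_lit 136) (nat_lit 215)) (PT.lf (nat_lit 16644) (nat_lit 6) (nat_lit 219) (nat_lit 1) (nat_lit 220) (nat_lit 136) (nat_lit 214))) (PT.nd (nat_lit 78) (PT.lf (nat_lit 16492) (nat_lit 6) (nat_lit 217) (nat_lit 1) (nat_lit 222) (nat_lit 136) (nat_lit 212)) (PT.lf (nat_lit 16416) (nat_lit 6) (nat_lit 216) (nat_lit 1) (nat_lit 223) (nat_lit 136) (nat_lit 211)))) (PT.nd (nat_lit 156) (PT.nd (nat_lit 78) (PT.lf (nat_lit 16948) (nat_lit 6) (nat_lit 223) (nat_lit 3) (nat_lit 211) (nat_lit 137) (nat_lit 222)) (PT.lf (nat_lit 17024) (nat_lit 6) (nat_lit 224) (nat_lit 3) (nat_lit 212) (nat_lit 137) (nat_lit 221))) (PT.nd (nat_lit 78) (PT.lf (nat_lit 17100) (nat_lit 6) (nat_lit 225) (nat_lit 3) (nat_lit 213) (nat_lit 137) (nat_lit 220)) (PT.lf (nat_lit 17176) (nat_lit 6) (nat_lit 226) (nat_lit 3) (nat_lit 214) (nat_lit 137) (nat_lit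 219))))))))
noncomputable def pc2 : PT := (PT.nd (nat_lit 118872) (PT.nd (nat_lit 59436) (PT.nd (nat_lit 546) (PT.nd (nat_lit 234) (PT.nd (nat_lit 78) (PT.lf (nat_lit 17252) (nat_lit 6) (nat_lit 227) (nat_lit 3) (nat_lit 215) (nat_lit 137) (nat_lit 218)) (PT.nd (nat_lit 78) (PT.lf (nat_lit 17328) (nat_lit 6) (nat_lit 228) (nat_lit 3) (nat_lit 216) (nat_lit 137) (nat_lit 217)) (PT.lf (nat_lit 17328) (nat_lit 6) (nat_lit 228) (nat_lit 1) (nat_lit 217) (nat_lit 137) (nat_lit 216)))) (PT.nd (nat_lit 156) (PT.nd (nat_lit 78) (PT.lf (nat_lit 17252) (nat_lit 6) (nat_lit 227) (nat_lit 1) (nat_lit 218) (nat_lit 137) (nat_lit 215)) (PT.lf (nat_lit 17176) (nat_lit 6) (nat_lit 226) (nat_lit 1) (nat_lit 219) (nat_lit 137) (nat_lit 214))) (PT.nd (nat_lit 78) (PT.lf (nat_lit 17100) (nat_lit 6) (nat_lit 225) (nat_lit 1) (nat_lit 220) (nat_lit 137) (nat_lit 213)) (PT.lf (nat_lit 17024) (nat_lit 6) (nat_lit 224) (nat_lit 1) (nat_lit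 221) (nat_lit 137) (nat_lit 212))))) (PT.nd (nat_lit 58578) (PT.nd (nat_lit 58422) (PT.lf (nat_lit 16948) (nat_lit 6) (nat_lit 223) (nat_lit 1) (nat_lit 222) (nat_lit 137) (nat_lit 211)) (PT.nd (nat_lit 78) (PT.lf (nat_lit 17404) (nat_lit 6) (nat_lit 229) (nat_lit 3) (nat_lit 210) (nat_lit 138) (nat_lit 222)) (PT.lf (nat_lit 17480) (nat_lit 6) (nat_lit 230) (nat_lit 3) (nat_lit 211) (nat_lit 138) (nat_lit 221)))) (PT.nd (nat_lit 156) (PT.nd (nat_lit 78) (PT.lf (nat_lit 17556) (nat_lit 6) (nat_lit 231) (nat_lit 3) (nat_lit 212) (nat_lit 138) (nat_lit 220)) (PT.lf (nat_lit 17632) (nat_lit 6) (nat_lit 232) (nat_lit 3) (nat_lit 213) (nat_lit 138) (nat_lit 219))) (PT.nd (nat_lit 78) (PT.lf (nat_lit 17708) (nat_lit 6) (nat_lit 233) (nat_lit 3) (nat_lit 214) (nat_lit 138) (nat_lit 218)) (PT.lf (nat_lit 17784) (nat_lit 6) (nat_lit 234) (nat_lit 3) (nat_lit 215) (nat_lit 138) (nat_lit 217)))))) (PT.nd (nat_lit 58812) (PT.nd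 (nat_lit 234) (PT.nd (nat_lit 78) (PT.lf (nat_lit 17860) (nat_lit 3) (nat_lit 235) (nat_lit 1) (nat_lit 216) (nat_lit 138) (nat_lit 216)) (PT.nd (nat_lit 78) (PT.lf (nat_lit 17784) (nat_lit 6) (nat_lit 234) (nat_lit 1) (nat_lit 217) (nat_lit 138) (nat_lit 215)) (PT.lf (nat_lit 17708) (nat_lit 6) (nat_lit 233) (nat_lit 1) (nat_lit 218) (nat_lit 138) (nat_lit 214)))) (PT.nd (nat_lit 156) (PT.nd (nat_lit 78) (PT.lf (nat_lit 17632) (nat_lit 6) (nat_lit 232) (nat_lit 1) (nat_lit 219) (nat_lit 138) (nat_lit 213)) (PT.lf (nat_lit 17556) (nat_lit 6) (nat_lit 231) (nat_lit 1) (nat_lit 220) (nat_lit 138) (nat_lit 212))) (PT.nd (nat_lit 78) (PT.lf (nat_lit 17480) (nat_lit 6) (nat_lit 230) (nat_lit 1) (nat_lit 221) (nat_lit 138) (nat_lit 211)) (PT.lf (nat_lit 17404) (nat_lit 6) (nat_lit 229) (nat_lit 1) (nat_lit 222) (nat_lit 138) (nat_lit 210))))) (PT.nd (nat_lit 312) (PT.nd (nat_lit 156) (PT.nd (nat_lit 78) (PT.lf (nat_lit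 17936) (nat_lit 6) (nat_lit 236) (nat_lit 3) (nat_lit 209) (nat_lit 139) (nat_lit 222)) (PT.lf (nat_lit 18012) (nat_lit 6) (nat_lit 237) (nat_lit 3) (nat_lit 210) (nat_lit 139) (nat_lit 221))) (PT.nd (nat_lit 78) (PT.lf (nat_lit 18088) (nat_lit 6) (nat_lit 238) (nat_lit 3) (nat_lit 211) (nat_lit 139) (nat_lit 220)) (PT.lf (nat_lit 18164) (nat_lit 6) (nat_lit 239) (nat_lit 3) (nat_lit 212) (nat_lit 139) (nat_lit 219)))) (PT.nd (nat_lit 156) (PT.nd (nat_lit 78) (PT.lf (nat_lit 18240) (nat_lit 6) (nat_lit 240) (nat_lit 3) (nat_lit 213) (nat_lit 139) (nat_lit 218)) (PT.lf (nat_lit 18316) (nat_lit 6) (nat_lit 241) (nat_lit 3) (nat_lit 214) (nat_lit 139) (nat_lit 217))) (PT.nd (nat_lit 78) (PT.lf (nat_lit 18392) (nat_lit 6) (nat_lit 242) (nat_lit 3) (nat_lit 215) (nat_lit 139) (nat_lit 216)) (PT.lf (nat_lit 18392) (nat_lit 6) (nat_lit 242) (nat_lit 1) (nat_lit 216) (nat_lit 139) (nat_lit 215))))))) (PT.nd (nat_lit 59358)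 (PT.nd (nat_lit 58812) (PT.nd (nat_lit 234) (PT.nd (nat_lit 78) (PT.lf (nat_lit 18316) (nat_lit 6) (nat_lit 241) (nat_lit 1) (nat_lit 217) (nat_lit 139) (nat_lit 214)) (PT.nd (nat_lit 78) (PT.lf (nat_lit 18240) (nat_lit 6) (nat_lit 240) (nat_lit 1) (nat_lit 218) (nat_lit 139) (nat_lit 213)) (PT.lf (nat_lit 18164) (nat_lit 6) (nat_lit 239) (nat_lit 1) (nat_lit 219) (nat_lit 139) (nat_lit 212)))) (PT.nd (nat_lit 156) (PT.nd (nat_lit 78) (PT.lf (nat_lit 18088) (nat_lit 6) (nat_lit 238) (nat_lit 1) (nat_lit 220) (nat_lit 139) (nat_lit 211)) (PT.lf (nat_lit 18012) (nat_lit 6) (nat_lit 237) (nat_lit 1) (nat_lit 221) (nat_lit 139) (nat_lit 210))) (PT.nd (nat_lit 58344) (PT.lf (nat_lit 17936) (nat_lit 6) (nat_lit 236) (nat_lit 1) (nat_lit 222) (nat_lit 139) (nat_lit 209)) (PT.lf (nat_lit 18468) (nat_lit 6) (nat_lit 243) (nat_lit 3) (nat_lit 209) (nat_lit 140) (nat_lit 221))))) (PT.nd (nat_lit 234) (PT.nd (nat_lit 78) (PT.lf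 (nat_lit 18544) (nat_lit 6) (nat_lit 244) (nat_lit 3) (nat_lit 210) (nat_lit 140) (nat_lit 220)) (PT.nd (nat_lit 78) (PT.lf (nat_lit 18620) (nat_lit 6) (nat_lit 245) (nat_lit 3) (nat_lit 211) (nat_lit 140) (nat_lit 219)) (PT.lf (nat_lit 18696) (nat_lit 6) (nat_lit 246) (nat_lit 3) (nat_lit 212) (nat_lit 140) (nat_lit 218)))) (PT.nd (nat_lit 156) (PT.nd (nat_lit 78) (PT.lf (nat_lit 18772) (nat_lit 6) (nat_lit 247) (nat_lit 3) (nat_lit 213) (nat_lit 140) (nat_lit 217)) (PT.lf (nat_lit 18848) (nat_lit 6) (nat_lit 248) (nat_lit 3) (nat_lit 214) (nat_lit 140) (nat_lit 216))) (PT.nd (nat_lit 78) (PT.lf (nat_lit 18924) (nat_lit 3) (nat_lit 249) (nat_lit 1) (nat_lit 215) (nat_lit 140) (nat_lit 215)) (PT.lf (nat_lit 18848) (nat_lit 6) (nat_lit 248) (nat_lit 1) (nat_lit 216) (nat_lit 140) (nat_lit 214)))))) (PT.nd (nat_lit 58812) (PT.nd (nat_lit 234) (PT.nd (nat_lit 78) (PT.lf (nat_lit 18772) (nat_lit 6) (nat_lit 247) (nat_lit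 1) (nat_lit 217) (nat_lit 140) (nat_lit 213)) (PT.nd (nat_lit 78) (PT.lf (nat_lit 18696) (nat_lit 6) (nat_lit 246) (nat_lit 1) (nat_lit 218) (nat_lit 140) (nat_lit 212)) (PT.lf (nat_lit 18620) (nat_lit 6) (nat_lit 245) (nat_lit 1) (nat_lit 219) (nat_lit 140) (nat_lit 211)))) (PT.nd (nat_lit 58422) (PT.nd (nat_lit 78) (PT.lf (nat_lit 18544) (nat_lit 6) (nat_lit 244) (nat_lit 1) (nat_lit 220) (nat_lit 140) (nat_lit 210)) (PT.lf (nat_lit 18468) (nat_lit 6) (nat_lit 243) (nat_lit 1) (nat_lit 221) (nat_lit 140) (nat_lit 209))) (PT.nd (nat_lit 78) (PT.lf (nat_lit 19000) (nat_lit 6) (nat_lit 250) (nat_lit 3) (nat_lit 208) (nat_lit 141) (nat_lit 221)) (PT.lf (nat_lit 19076) (nat_lit 6) (nat_lit 251) (nat_lit 3) (nat_lit 209) (nat_lit 141) (nat_lit 220))))) (PT.nd (nat_lit 312) (PT.nd (nat_lit 156) (PT.nd (nat_lit 78) (PT.lf (nat_lit 19152) (nat_lit 6) (nat_lit 252) (nat_lit 3) (nat_lit 210) (nat_lit 141) (nat_lit 219))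 (PT.lf (nat_lit 19228) (nat_lit 6) (nat_lit 253) (nat_lit 3) (nat_lit 211) (nat_lit 141) (nat_lit 218))) (PT.nd (nat_lit 78) (PT.lf (nat_lit 19304) (nat_lit 6) (nat_lit 254) (nat_lit 3) (nat_lit 212) (nat_lit 141) (nat_lit 217)) (PT.lf (nat_lit 19380) (nat_lit 6) (nat_lit 255) (nat_lit 3) (nat_lit 213) (nat_lit 141) (nat_lit 216)))) (PT.nd (nat_lit 156) (PT.nd (nat_lit 78) (PT.lf (nat_lit 19456) (nat_lit 6) (nat_lit 256) (nat_lit 3) (nat_lit 214) (nat_lit 141) (nat_lit 215)) (PT.lf (nat_lit 19456) (nat_lit 6) (nat_lit 256) (nat_lit 1) (nat_lit 215) (nat_lit 141) (nat_lit 214))) (PT.nd (nat_lit 78) (PT.lf (nat_lit 19380) (nat_lit 6) (nat_lit 255) (nat_lit 1) (nat_lit 216) (nat_lit 141) (nat_lit 213)) (PT.lf (nat_lit 19304) (nat_lit 6) (nat_lit 254) (nat_lit 1) (nat_lit 217) (nat_lit 141) (nat_lit 212))))))))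
noncomputable def pc3 : PT := (PT.nd (nat_lit 118638) (PT.nd (nat_lit 59280) (PT.nd (nat_lit 58734) (PT.nd (nat_lit 234) (PT.nd (nat_lit 78) (PT.lf (nat_lit 19228) (nat_lit 6) (nat_lit 253) (nat_lit 1) (nat_lit 218) (nat_lit 141) (nat_lit 211)) (PT.nd (nat_lit 78) (PT.lf (nat_lit 19152) (nat_lit 6) (nat_lit 252) (nat_lit 1) (nat_lit 219) (nat_lit 141) (nat_lit 210)) (PT.lf (nat_lit 19076) (nat_lit 6) (nat_lit 251) (nat_lit 1) (nat_lit 220) (nat_lit 141) (nat_lit 209)))) (PT.nd (nat_lit 58344) (PT.nd (nat_lit 58266) (PT.lf (nat_lit 19000) (nat_lit 6) (nat_lit 250) (nat_lit 1) (nat_lit 221) (nat_lit 141) (nat_lit 208)) (PT.lf (nat_lit 19532) (nat_lit 6) (nat_lit 257) (nat_lit 3) (nat_lit 207) (nat_lit 142) (nat_lit 221))) (PT.nd (nat_lit 78) (PT.lf (nat_lit 19608) (nat_lit 6) (nat_lit 258) (nat_lit 3) (nat_lit 208) (nat_lit 142) (nat_lit 220)) (PT.lf (nat_lit 19684) (nat_lit 6) (nat_lit 259) (nat_lit 3) (nat_lit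 209) (nat_lit 142) (nat_lit 219))))) (PT.nd (nat_lit 234) (PT.nd (nat_lit 78) (PT.lf (nat_lit 19760) (nat_lit 6) (nat_lit 260) (nat_lit 3) (nat_lit 210) (nat_lit 142) (nat_lit 218)) (PT.nd (nat_lit 78) (PT.lf (nat_lit 19836) (nat_lit 6) (nat_lit 261) (nat_lit 3) (nat_lit 211) (nat_lit 142) (nat_lit 217)) (PT.lf (nat_lit 19912) (nat_lit 6) (nat_lit 262) (nat_lit 3) (nat_lit 212) (nat_lit 142) (nat_lit 216)))) (PT.nd (nat_lit 156) (PT.nd (nat_lit 78) (PT.lf (nat_lit 19988) (nat_lit 6) (nat_lit 263) (nat_lit 3) (nat_lit 213) (nat_lit 142) (nat_lit 215)) (PT.lf (nat_lit 20064) (nat_lit 3) (nat_lit 264) (nat_lit 1) (nat_lit 214) (nat_lit 142) (nat_lit 214))) (PT.nd (nat_lit 78) (PT.lf (nat_lit 19988) (nat_lit 6) (nat_lit 263) (nat_lit 1) (nat_lit 215) (nat_lit 142) (nat_lit 213)) (PT.lf (nat_lit 19912) (nat_lit 6) (nat_lit 262) (nat_lit 1) (nat_lit 216) (nat_lit 142) (nat_lit 212)))))) (PT.nd (nat_lit 58734) (PT.nd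 (nat_lit 234) (PT.nd (nat_lit 78) (PT.lf (nat_lit 19836) (nat_lit 6) (nat_lit 261) (nat_lit 1) (nat_lit 217) (nat_lit 142) (nat_lit 211)) (PT.nd (nat_lit 78) (PT.lf (nat_lit 19760) (nat_lit 6) (nat_lit 260) (nat_lit 1) (nat_lit 218) (nat_lit 142) (nat_lit 210)) (PT.lf (nat_lit 19684) (nat_lit 6) (nat_lit 259) (nat_lit 1) (nat_lit 219) (nat_lit 142) (nat_lit 209)))) (PT.nd (nat_lit 58344) (PT.nd (nat_lit 78) (PT.lf (nat_lit 19608) (nat_lit 6) (nat_lit 258) (nat_lit 1) (nat_lit 220) (nat_lit 142) (nat_lit 208)) (PT.lf (nat_lit 19532) (nat_lit 6) (nat_lit 257) (nat_lit 1) (nat_lit 221) (nat_lit 142) (nat_lit 207))) (PT.nd (nat_lit 78) (PT.lf (nat_lit 20140) (nat_lit 6) (nat_lit 265) (nat_lit 3) (nat_lit 207) (nat_lit 143) (nat_lit 220)) (PT.lf (nat_lit 20216) (nat_lit 6) (nat_lit 266) (nat_lit 3) (nat_lit 208) (nat_lit 143) (nat_lit 219))))) (PT.nd (nat_lit 312) (PT.nd (nat_lit 156) (PT.nd (nat_lit 78) (PT.lf (nat_lit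 20292) (nat_lit 6) (nat_lit 267) (nat_lit 3) (nat_lit 209) (nat_lit 143) (nat_lit 218)) (PT.lf (nat_lit 20368) (nat_lit 6) (nat_lit 268) (nat_lit 3) (nat_lit 210) (nat_lit 143) (nat_lit 217))) (PT.nd (nat_lit 78) (PT.lf (nat_lit 20444) (nat_lit 6) (nat_lit 269) (nat_lit 3) (nat_lit 211) (nat_lit 143) (nat_lit 216)) (PT.lf (nat_lit 20520) (nat_lit 6) (nat_lit 270) (nat_lit 3) (nat_lit 212) (nat_lit 143) (nat_lit 215)))) (PT.nd (nat_lit 156) (PT.nd (nat_lit 78) (PT.lf (nat_lit 20596) (nat_lit 6) (nat_lit 271) (nat_lit 3) (nat_lit 213) (nat_lit 143) (nat_lit 214)) (PT.lf (nat_lit 20596) (nat_lit 6) (nat_lit 271) (nat_lit 1) (nat_lit 214) (nat_lit 143) (nat_lit 213))) (PT.nd (nat_lit 78) (PT.lf (nat_lit 20520) (nat_lit 6) (nat_lit 270) (nat_lit 1) (nat_lit 215) (nat_lit 143) (nat_lit 212)) (PT.lf (nat_lit 20444) (nat_lit 6) (nat_lit 269) (nat_lit 1) (nat_lit 216) (nat_lit 143) (nat_lit 211))))))) (PT.nd (nat_lit 59358)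 (PT.nd (nat_lit 58734) (PT.nd (nat_lit 234) (PT.nd (nat_lit 78) (PT.lf (nat_lit 20368) (nat_lit 6) (nat_lit 268) (nat_lit 1) (nat_lit 217) (nat_lit 143) (nat_lit 210)) (PT.nd (nat_lit 78) (PT.lf (nat_lit 20292) (nat_lit 6) (nat_lit 267) (nat_lit 1) (nat_lit 218) (nat_lit 143) (nat_lit 209)) (PT.lf (nat_lit 20216) (nat_lit 6) (nat_lit 266) (nat_lit 1) (nat_lit 219) (nat_lit 143) (nat_lit 208)))) (PT.nd (nat_lit 58344) (PT.nd (nat_lit 58266) (PT.lf (nat_lit 20140) (nat_lit 6) (nat_lit 265) (nat_lit 1) (nat_lit 220) (nat_lit 143) (nat_lit 207)) (PT.lf (nat_lit 20672) (nat_lit 6) (nat_lit 272) (nat_lit 3) (nat_lit 206) (nat_lit 144) (nat_lit 220))) (PT.nd (nat_lit 78) (PT.lf (nat_lit 20748) (nat_lit 6) (nat_lit 273) (nat_lit 3) (nat_lit 207) (nat_lit 144) (nat_lit 219)) (PT.lf (nat_lit 20824) (nat_lit 6) (nat_lit 274) (nat_lit 3) (nat_lit 208) (nat_lit 144) (nat_lit 218))))) (PT.nd (nat_lit 312) (PT.nd (nat_lit 156)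 (PT.nd (nat_lit 78) (PT.lf (nat_lit 20900) (nat_lit 6) (nat_lit 275) (nat_lit 3) (nat_lit 209) (nat_lit 144) (nat_lit 217)) (PT.lf (nat_lit 20976) (nat_lit 6) (nat_lit 276) (nat_lit 3) (nat_lit 210) (nat_lit 144) (nat_lit 216))) (PT.nd (nat_lit 78) (PT.lf (nat_lit 21052) (nat_lit 6) (nat_lit 277) (nat_lit 3) (nat_lit 211) (nat_lit 144) (nat_lit 215)) (PT.lf (nat_lit 21128) (nat_lit 6) (nat_lit 278) (nat_lit 3) (nat_lit 212) (nat_lit 144) (nat_lit 214)))) (PT.nd (nat_lit 156) (PT.nd (nat_lit 78) (PT.lf (nat_lit 21204) (nat_lit 3) (nat_lit 279) (nat_lit 1) (nat_lit 213) (nat_lit 144) (nat_lit 213)) (PT.lf (nat_lit 21128) (nat_lit 6) (nat_lit 278) (nat_lit 1) (nat_lit 214) (nat_lit 144) (nat_lit 212))) (PT.nd (nat_lit 78) (PT.lf (nat_lit 21052) (nat_lit 6) (nat_lit 277) (nat_lit 1) (nat_lit 215) (nat_lit 144) (nat_lit 211)) (PT.lf (nat_lit 20976) (nat_lit 6) (nat_lit 276) (nat_lit 1) (nat_lit 216) (nat_lit 144) (nat_lit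 210)))))) (PT.nd (nat_lit 58656) (PT.nd (nat_lit 234) (PT.nd (nat_lit 78) (PT.lf (nat_lit 20900) (nat_lit 6) (nat_lit 275) (nat_lit 1) (nat_lit 217) (nat_lit 144) (nat_lit 209)) (PT.nd (nat_lit 78) (PT.lf (nat_lit 20824) (nat_lit 6) (nat_lit 274) (nat_lit 1) (nat_lit 218) (nat_lit 144) (nat_lit 208)) (PT.lf (nat_lit 20748) (nat_lit 6) (nat_lit 273) (nat_lit 1) (nat_lit 219) (nat_lit 144) (nat_lit 207)))) (PT.nd (nat_lit 58266) (PT.nd (nat_lit 58188) (PT.lf (nat_lit 20672) (nat_lit 6) (nat_lit 272) (nat_lit 1) (nat_lit 220) (nat_lit 144) (nat_lit 206)) (PT.lf (nat_lit 21280) (nat_lit 6) (nat_lit 280) (nat_lit 3) (nat_lit 205) (nat_lit 145) (nat_lit 220))) (PT.nd (nat_lit 78) (PT.lf (nat_lit 21356) (nat_lit 6) (nat_lit 281) (nat_lit 3) (nat_lit 206) (nat_lit 145) (nat_lit 219)) (PT.lf (nat_lit 21432) (nat_lit 6) (nat_lit 282) (nat_lit 3) (nat_lit 207) (nat_lit 145) (nat_lit 218))))) (PT.nd (nat_lit 312) (PT.nd (nat_lit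 156) (PT.nd (nat_lit 78) (PT.lf (nat_lit 21508) (nat_lit 6) (nat_lit 283) (nat_lit 3) (nat_lit 208) (nat_lit 145) (nat_lit 217)) (PT.lf (nat_lit 21584) (nat_lit 6) (nat_lit 284) (nat_lit 3) (nat_lit 209) (nat_lit 145) (nat_lit 216))) (PT.nd (nat_lit 78) (PT.lf (nat_lit 21660) (nat_lit 6) (nat_lit 285) (nat_lit 3) (nat_lit 210) (nat_lit 145) (nat_lit 215)) (PT.lf (nat_lit 21736) (nat_lit 6) (nat_lit 286) (nat_lit 3) (nat_lit 211) (nat_lit 145) (nat_lit 214)))) (PT.nd (nat_lit 156) (PT.nd (nat_lit 78) (PT.lf (nat_lit 21812) (nat_lit 6) (nat_lit 287) (nat_lit 3) (nat_lit 212) (nat_lit 145) (nat_lit 213)) (PT.lf (nat_lit 21812) (nat_lit 6) (nat_lit 287) (nat_lit 1) (nat_lit 213) (nat_lit 145) (nat_lit 212))) (PT.nd (nat_lit 78) (PT.lf (nat_lit 21736) (nat_lit 6) (nat_lit 286) (nat_lit 1) (nat_lit 214) (nat_lit 145) (nat_lit 211)) (PT.lf (nat_lit 21660) (nat_lit 6) (nat_lit 285) (nat_lit 1) (nat_lit 215) (nat_lit 145)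 (nat_lit 210))))))))
noncomputable def pc4 : PT := (PT.nd (nat_lit 118482) (PT.nd (nat_lit 59202) (PT.nd (nat_lit 58656) (PT.nd (nat_lit 234) (PT.nd (nat_lit 78) (PT.lf (nat_lit 21584) (nat_lit 6) (nat_lit 284) (nat_lit 1) (nat_lit 216) (nat_lit 145) (nat_lit 209)) (PT.nd (nat_lit 78) (PT.lf (nat_lit 21508) (nat_lit 6) (nat_lit 283) (nat_lit 1) (nat_lit 217) (nat_lit 145) (nat_lit 208)) (PT.lf (nat_lit 21432) (nat_lit 6) (nat_lit 282) (nat_lit 1) (nat_lit 218) (nat_lit 145) (nat_lit 207)))) (PT.nd (nat_lit 58266) (PT.nd (nat_lit 78) (PT.lf (nat_lit 21356) (nat_lit 6) (nat_lit 281) (nat_lit 1) (nat_lit 219) (nat_lit 145) (nat_lit 206)) (PT.lf (nat_lit 21280) (nat_lit 6) (nat_lit 280) (nat_lit 1) (nat_lit 220) (nat_lit 145) (nat_lit 205))) (PT.nd (nat_lit 78) (PT.lf (nat_lit 21888) (nat_lit 6) (nat_lit 288) (nat_lit 3) (nat_lit 205) (nat_lit 146) (nat_lit 219)) (PT.lf (nat_lit 21964) (nat_lit 6) (nat_lit 289) (nat_lit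 3) (nat_lit 206) (nat_lit 146) (nat_lit 218))))) (PT.nd (nat_lit 234) (PT.nd (nat_lit 78) (PT.lf (nat_lit 22040) (nat_lit 6) (nat_lit 290) (nat_lit 3) (nat_lit 207) (nat_lit 146) (nat_lit 217)) (PT.nd (nat_lit 78) (PT.lf (nat_lit 22116) (nat_lit 6) (nat_lit 291) (nat_lit 3) (nat_lit 208) (nat_lit 146) (nat_lit 216)) (PT.lf (nat_lit 22192) (nat_lit 6) (nat_lit 292) (nat_lit 3) (nat_lit 209) (nat_lit 146) (nat_lit 215)))) (PT.nd (nat_lit 156) (PT.nd (nat_lit 78) (PT.lf (nat_lit 22268) (nat_lit 6) (nat_lit 293) (nat_lit 3) (nat_lit 210) (nat_lit 146) (nat_lit 214)) (PT.lf (nat_lit 22344) (nat_lit 6) (nat_lit 294) (nat_lit 3) (nat_lit 211) (nat_lit 146) (nat_lit 213))) (PT.nd (nat_lit 78) (PT.lf (nat_lit 22420) (nat_lit 3) (nat_lit 295) (nat_lit 1) (nat_lit 212) (nat_lit 146) (nat_lit 212)) (PT.lf (nat_lit 22344) (nat_lit 6) (nat_lit 294) (nat_lit 1) (nat_lit 213) (nat_lit 146) (nat_lit 211)))))) (PT.nd (nat_lit 58656)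 (PT.nd (nat_lit 234) (PT.nd (nat_lit 78) (PT.lf (nat_lit 22268) (nat_lit 6) (nat_lit 293) (nat_lit 1) (nat_lit 214) (nat_lit 146) (nat_lit 210)) (PT.nd (nat_lit 78) (PT.lf (nat_lit 22192) (nat_lit 6) (nat_lit 292) (nat_lit 1) (nat_lit 215) (nat_lit 146) (nat_lit 209)) (PT.lf (nat_lit 22116) (nat_lit 6) (nat_lit 291) (nat_lit 1) (nat_lit 216) (nat_lit 146) (nat_lit 208)))) (PT.nd (nat_lit 156) (PT.nd (nat_lit 78) (PT.lf (nat_lit 22040) (nat_lit 6) (nat_lit 290) (nat_lit 1) (nat_lit 217) (nat_lit 146) (nat_lit 207)) (PT.lf (nat_lit 21964) (nat_lit 6) (nat_lit 289) (nat_lit 1) (nat_lit 218) (nat_lit 146) (nat_lit 206))) (PT.nd (nat_lit 58188) (PT.lf (nat_lit 21888) (nat_lit 6) (nat_lit 288) (nat_lit 1) (nat_lit 219) (nat_lit 146) (nat_lit 205)) (PT.lf (nat_lit 22496) (nat_lit 6) (nat_lit 296) (nat_lit 3) (nat_lit 204) (nat_lit 147) (nat_lit 219))))) (PT.nd (nat_lit 312) (PT.nd (nat_lit 156) (PT.nd (nat_lit 78) (PT.lf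 (nat_lit 22572) (nat_lit 6) (nat_lit 297) (nat_lit 3) (nat_lit 205) (nat_lit 147) (nat_lit 218)) (PT.lf (nat_lit 22648) (nat_lit 6) (nat_lit 298) (nat_lit 3) (nat_lit 206) (nat_lit 147) (nat_lit 217))) (PT.nd (nat_lit 78) (PT.lf (nat_lit 22724) (nat_lit 6) (nat_lit 299) (nat_lit 3) (nat_lit 207) (nat_lit 147) (nat_lit 216)) (PT.lf (nat_lit 22800) (nat_lit 6) (nat_lit 300) (nat_lit 3) (nat_lit 208) (nat_lit 147) (nat_lit 215)))) (PT.nd (nat_lit 156) (PT.nd (nat_lit 78) (PT.lf (nat_lit 22876) (nat_lit 6) (nat_lit 301) (nat_lit 3) (nat_lit 209) (nat_lit 147) (nat_lit 214)) (PT.lf (nat_lit 22952) (nat_lit 6) (nat_lit 302) (nat_lit 3) (nat_lit 210) (nat_lit 147) (nat_lit 213))) (PT.nd (nat_lit 78) (PT.lf (nat_lit 23028) (nat_lit 6) (nat_lit 303) (nat_lit 3) (nat_lit 211) (nat_lit 147) (nat_lit 212)) (PT.lf (nat_lit 23028) (nat_lit 6) (nat_lit 303) (nat_lit 1) (nat_lit 212) (nat_lit 147) (nat_lit 211))))))) (PT.nd (nat_lit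 59124) (PT.nd (nat_lit 58578) (PT.nd (nat_lit 234) (PT.nd (nat_lit 78) (PT.lf (nat_lit 22952) (nat_lit 6) (nat_lit 302) (nat_lit 1) (nat_lit 213) (nat_lit 147) (nat_lit 210)) (PT.nd (nat_lit 78) (PT.lf (nat_lit 22876) (nat_lit 6) (nat_lit 301) (nat_lit 1) (nat_lit 214) (nat_lit 147) (nat_lit 209)) (PT.lf (nat_lit 22800) (nat_lit 6) (nat_lit 300) (nat_lit 1) (nat_lit 215) (nat_lit 147) (nat_lit 208)))) (PT.nd (nat_lit 156) (PT.nd (nat_lit 78) (PT.lf (nat_lit 22724) (nat_lit 6) (nat_lit 299) (nat_lit 1) (nat_lit 216) (nat_lit 147) (nat_lit 207)) (PT.lf (nat_lit 22648) (nat_lit 6) (nat_lit 298) (nat_lit 1) (nat_lit 217) (nat_lit 147) (nat_lit 206))) (PT.nd (nat_lit 78) (PT.lf (nat_lit 22572) (nat_lit 6) (nat_lit 297) (nat_lit 1) (nat_lit 218) (nat_lit 147) (nat_lit 205)) (PT.lf (nat_lit 22496) (nat_lit 6) (nat_lit 296) (nat_lit 1) (nat_lit 219) (nat_lit 147) (nat_lit 204))))) (PT.nd (nat_lit 234) (PT.nd (nat_lit 78)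 (PT.lf (nat_lit 23104) (nat_lit 6) (nat_lit 304) (nat_lit 3) (nat_lit 203) (nat_lit 148) (nat_lit 219)) (PT.nd (nat_lit 78) (PT.lf (nat_lit 23180) (nat_lit 6) (nat_lit 305) (nat_lit 3) (nat_lit 204) (nat_lit 148) (nat_lit 218)) (PT.lf (nat_lit 23256) (nat_lit 6) (nat_lit 306) (nat_lit 3) (nat_lit 205) (nat_lit 148) (nat_lit 217)))) (PT.nd (nat_lit 156) (PT.nd (nat_lit 78) (PT.lf (nat_lit 23332) (nat_lit 6) (nat_lit 307) (nat_lit 3) (nat_lit 206) (nat_lit 148) (nat_lit 216)) (PT.lf (nat_lit 23408) (nat_lit 6) (nat_lit 308) (nat_lit 3) (nat_lit 207) (nat_lit 148) (nat_lit 215))) (PT.nd (nat_lit 78) (PT.lf (nat_lit 23484) (nat_lit 6) (nat_lit 309) (nat_lit 3) (nat_lit 208) (nat_lit 148) (nat_lit 214)) (PT.lf (nat_lit 23560) (nat_lit 6) (nat_lit 310) (nat_lit 3) (nat_lit 209) (nat_lit 148) (nat_lit 213)))))) (PT.nd (nat_lit 546) (PT.nd (nat_lit 234) (PT.nd (nat_lit 78) (PT.lf (nat_lit 23636) (nat_lit 6) (nat_lit 311)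 (nat_lit 3) (nat_lit 210) (nat_lit 148) (nat_lit 212)) (PT.nd (nat_lit 78) (PT.lf (nat_lit 23712) (nat_lit 3) (nat_lit 312) (nat_lit 1) (nat_lit 211) (nat_lit 148) (nat_lit 211)) (PT.lf (nat_lit 23636) (nat_lit 6) (nat_lit 311) (nat_lit 1) (nat_lit 212) (nat_lit 148) (nat_lit 210)))) (PT.nd (nat_lit 156) (PT.nd (nat_lit 78) (PT.lf (nat_lit 23560) (nat_lit 6) (nat_lit 310) (nat_lit 1) (nat_lit 213) (nat_lit 148) (nat_lit 209)) (PT.lf (nat_lit 23484) (nat_lit 6) (nat_lit 309) (nat_lit 1) (nat_lit 214) (nat_lit 148) (nat_lit 208))) (PT.nd (nat_lit 78) (PT.lf (nat_lit 23408) (nat_lit 6) (nat_lit 308) (nat_lit 1) (nat_lit 215) (nat_lit 148) (nat_lit 207)) (PT.lf (nat_lit 23332) (nat_lit 6) (nat_lit 307) (nat_lit 1) (nat_lit 216) (nat_lit 148) (nat_lit 206))))) (PT.nd (nat_lit 58344) (PT.nd (nat_lit 156) (PT.nd (nat_lit 78) (PT.lf (nat_lit 23256) (nat_lit 6) (nat_lit 306) (nat_lit 1) (nat_lit 217) (nat_lit 148) (nat_lit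 205)) (PT.lf (nat_lit 23180) (nat_lit 6) (nat_lit 305) (nat_lit 1) (nat_lit 218) (nat_lit 148) (nat_lit 204))) (PT.nd (nat_lit 58110) (PT.lf (nat_lit 23104) (nat_lit 6) (nat_lit 304) (nat_lit 1) (nat_lit 219) (nat_lit 148) (nat_lit 203)) (PT.lf (nat_lit 23788) (nat_lit 6) (nat_lit 313) (nat_lit 3) (nat_lit 203) (nat_lit 149) (nat_lit 218)))) (PT.nd (nat_lit 156) (PT.nd (nat_lit 78) (PT.lf (nat_lit 23864) (nat_lit 6) (nat_lit 314) (nat_lit 3) (nat_lit 204) (nat_lit 149) (nat_lit 217)) (PT.lf (nat_lit 23940) (nat_lit 6) (nat_lit 315) (nat_lit 3) (nat_lit 205) (nat_lit 149) (nat_lit 216))) (PT.nd (nat_lit 78) (PT.lf (nat_lit 24016) (nat_lit 6) (nat_lit 316) (nat_lit 3) (nat_lit 206) (nat_lit 149) (nat_lit 215)) (PT.lf (nat_lit 24092) (nat_lit 6) (nat_lit 317) (nat_lit 3) (nat_lit 207) (nat_lit 149) (nat_lit 214))))))))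
noncomputable def pc5 : PT := (PT.nd (nat_lit 118248) (PT.nd (nat_lit 59124) (PT.nd (nat_lit 546) (PT.nd (nat_lit 234) (PT.nd (nat_lit 78) (PT.lf (nat_lit 24168) (nat_lit 6) (nat_lit 318) (nat_lit 3) (nat_lit 208) (nat_lit 149) (nat_lit 213)) (PT.nd (nat_lit 78) (PT.lf (nat_lit 24244) (nat_lit 6) (nat_lit 319) (nat_lit 3) (nat_lit 209) (nat_lit 149) (nat_lit 212)) (PT.lf (nat_lit 24320) (nat_lit 6) (nat_lit 320) (nat_lit 3) (nat_lit 210) (nat_lit 149) (nat_lit 211)))) (PT.nd (nat_lit 156) (PT.nd (nat_lit 78) (PT.lf (nat_lit 24320) (nat_lit 6) (nat_lit 320) (nat_lit 1) (nat_lit 211) (nat_lit 149) (nat_lit 210)) (PT.lf (nat_lit 24244) (nat_lit 6) (nat_lit 319) (nat_lit 1) (nat_lit 212) (nat_lit 149) (nat_lit 209))) (PT.nd (nat_lit 78) (PT.lf (nat_lit 24168) (nat_lit 6) (nat_lit 318) (nat_lit 1) (nat_lit 213) (nat_lit 149) (nat_lit 208)) (PT.lf (nat_lit 24092) (nat_lit 6) (nat_lit 317) (nat_lit 1) (nat_lit 214) (nat_lit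 149) (nat_lit 207))))) (PT.nd (nat_lit 234) (PT.nd (nat_lit 78) (PT.lf (nat_lit 24016) (nat_lit 6) (nat_lit 316) (nat_lit 1) (nat_lit 215) (nat_lit 149) (nat_lit 206)) (PT.nd (nat_lit 78) (PT.lf (nat_lit 23940) (nat_lit 6) (nat_lit 315) (nat_lit 1) (nat_lit 216) (nat_lit 149) (nat_lit 205)) (PT.lf (nat_lit 23864) (nat_lit 6) (nat_lit 314) (nat_lit 1) (nat_lit 217) (nat_lit 149) (nat_lit 204)))) (PT.nd (nat_lit 58188) (PT.nd (nat_lit 58110) (PT.lf (nat_lit 23788) (nat_lit 6) (nat_lit 313) (nat_lit 1) (nat_lit 218) (nat_lit 149) (nat_lit 203)) (PT.lf (nat_lit 24396) (nat_lit 6) (nat_lit 321) (nat_lit 3) (nat_lit 202) (nat_lit 150) (nat_lit 218))) (PT.nd (nat_lit 78) (PT.lf (nat_lit 24472) (nat_lit 6) (nat_lit 322) (nat_lit 3) (nat_lit 203) (nat_lit 150) (nat_lit 217)) (PT.lf (nat_lit 24548) (nat_lit 6) (nat_lit 323) (nat_lit 3) (nat_lit 204) (nat_lit 150) (nat_lit 216)))))) (PT.nd (nat_lit 546) (PT.nd (nat_lit 234)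 (PT.nd (nat_lit 78) (PT.lf (nat_lit 24624) (nat_lit 6) (nat_lit 324) (nat_lit 3) (nat_lit 205) (nat_lit 150) (nat_lit 215)) (PT.nd (nat_lit 78) (PT.lf (nat_lit 24700) (nat_lit 6) (nat_lit 325) (nat_lit 3) (nat_lit 206) (nat_lit 150) (nat_lit 214)) (PT.lf (nat_lit 24776) (nat_lit 6) (nat_lit 326) (nat_lit 3) (nat_lit 207) (nat_lit 150) (nat_lit 213)))) (PT.nd (nat_lit 156) (PT.nd (nat_lit 78) (PT.lf (nat_lit 24852) (nat_lit 6) (nat_lit 327) (nat_lit 3) (nat_lit 208) (nat_lit 150) (nat_lit 212)) (PT.lf (nat_lit 24928) (nat_lit 6) (nat_lit 328) (nat_lit 3) (nat_lit 209) (nat_lit 150) (nat_lit 211))) (PT.nd (nat_lit 78) (PT.lf (nat_lit 25004) (nat_lit 3) (nat_lit 329) (nat_lit 1) (nat_lit 210) (nat_lit 150) (nat_lit 210)) (PT.lf (nat_lit 24928) (nat_lit 6) (nat_lit 328) (nat_lit 1) (nat_lit 211) (nat_lit 150) (nat_lit 209))))) (PT.nd (nat_lit 312) (PT.nd (nat_lit 156) (PT.nd (nat_lit 78) (PT.lf (nat_lit 24852) (nat_lit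 6) (nat_lit 327) (nat_lit 1) (nat_lit 212) (nat_lit 150) (nat_lit 208)) (PT.lf (nat_lit 24776) (nat_lit 6) (nat_lit 326) (nat_lit 1) (nat_lit 213) (nat_lit 150) (nat_lit 207))) (PT.nd (nat_lit 78) (PT.lf (nat_lit 24700) (nat_lit 6) (nat_lit 325) (nat_lit 1) (nat_lit 214) (nat_lit 150) (nat_lit 206)) (PT.lf (nat_lit 24624) (nat_lit 6) (nat_lit 324) (nat_lit 1) (nat_lit 215) (nat_lit 150) (nat_lit 205)))) (PT.nd (nat_lit 156) (PT.nd (nat_lit 78) (PT.lf (nat_lit 24548) (nat_lit 6) (nat_lit 323) (nat_lit 1) (nat_lit 216) (nat_lit 150) (nat_lit 204)) (PT.lf (nat_lit 24472) (nat_lit 6) (nat_lit 322) (nat_lit 1) (nat_lit 217) (nat_lit 150) (nat_lit 203))) (PT.nd (nat_lit 58032) (PT.lf (nat_lit 24396) (nat_lit 6) (nat_lit 321) (nat_lit 1) (nat_lit 218) (nat_lit 150) (nat_lit 202)) (PT.lf (nat_lit 25080) (nat_lit 6) (nat_lit 330) (nat_lit 3) (nat_lit 201) (nat_lit 151) (nat_lit 218))))))) (PT.nd (nat_lit 1170) (PT.nd (nat_lit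 546) (PT.nd (nat_lit 234) (PT.nd (nat_lit 78) (PT.lf (nat_lit 25156) (nat_lit 6) (nat_lit 331) (nat_lit 3) (nat_lit 202) (nat_lit 151) (nat_lit 217)) (PT.nd (nat_lit 78) (PT.lf (nat_lit 25232) (nat_lit 6) (nat_lit 332) (nat_lit 3) (nat_lit 203) (nat_lit 151) (nat_lit 216)) (PT.lf (nat_lit 25308) (nat_lit 6) (nat_lit 333) (nat_lit 3) (nat_lit 204) (nat_lit 151) (nat_lit 215)))) (PT.nd (nat_lit 156) (PT.nd (nat_lit 78) (PT.lf (nat_lit 25384) (nat_lit 6) (nat_lit 334) (nat_lit 3) (nat_lit 205) (nat_lit 151) (nat_lit 214)) (PT.lf (nat_lit 25460) (nat_lit 6) (nat_lit 335) (nat_lit 3) (nat_lit 206) (nat_lit 151) (nat_lit 213))) (PT.nd (nat_lit 78) (PT.lf (nat_lit 25536) (nat_lit 6) (nat_lit 336) (nat_lit 3) (nat_lit 207) (nat_lit 151) (nat_lit 212)) (PT.lf (nat_lit 25612) (nat_lit 6) (nat_lit 337) (nat_lit 3) (nat_lit 208) (nat_lit 151) (nat_lit 211))))) (PT.nd (nat_lit 312) (PT.nd (nat_lit 156) (PT.nd (nat_lit 78) (PT.lf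 (nat_lit 25688) (nat_lit 6) (nat_lit 338) (nat_lit 3) (nat_lit 209) (nat_lit 151) (nat_lit 210)) (PT.lf (nat_lit 25688) (nat_lit 6) (nat_lit 338) (nat_lit 1) (nat_lit 210) (nat_lit 151) (nat_lit 209))) (PT.nd (nat_lit 78) (PT.lf (nat_lit 25612) (nat_lit 6) (nat_lit 337) (nat_lit 1) (nat_lit 211) (nat_lit 151) (nat_lit 208)) (PT.lf (nat_lit 25536) (nat_lit 6) (nat_lit 336) (nat_lit 1) (nat_lit 212) (nat_lit 151) (nat_lit 207)))) (PT.nd (nat_lit 156) (PT.nd (nat_lit 78) (PT.lf (nat_lit 25460) (nat_lit 6) (nat_lit 335) (nat_lit 1) (nat_lit 213) (nat_lit 151) (nat_lit 206)) (PT.lf (nat_lit 25384) (nat_lit 6) (nat_lit 334) (nat_lit 1) (nat_lit 214) (nat_lit 151) (nat_lit 205))) (PT.nd (nat_lit 78) (PT.lf (nat_lit 25308) (nat_lit 6) (nat_lit 333) (nat_lit 1) (nat_lit 215) (nat_lit 151) (nat_lit 204)) (PT.lf (nat_lit 25232) (nat_lit 6) (nat_lit 332) (nat_lit 1) (nat_lit 216) (nat_lit 151) (nat_lit 203)))))) (PT.nd (nat_lit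 58422) (PT.nd (nat_lit 58110) (PT.nd (nat_lit 78) (PT.lf (nat_lit 25156) (nat_lit 6) (nat_lit 331) (nat_lit 1) (nat_lit 217) (nat_lit 151) (nat_lit 202)) (PT.nd (nat_lit 57954) (PT.lf (nat_lit 25080) (nat_lit 6) (nat_lit 330) (nat_lit 1) (nat_lit 218) (nat_lit 151) (nat_lit 201)) (PT.lf (nat_lit 25764) (nat_lit 6) (nat_lit 339) (nat_lit 3) (nat_lit 200) (nat_lit 152) (nat_lit 218)))) (PT.nd (nat_lit 156) (PT.nd (nat_lit 78) (PT.lf (nat_lit 25840) (nat_lit 6) (nat_lit 340) (nat_lit 3) (nat_lit 201) (nat_lit 152) (nat_lit 217)) (PT.lf (nat_lit 25916) (nat_lit 6) (nat_lit 341) (nat_lit 3) (nat_lit 202) (nat_lit 152) (nat_lit 216))) (PT.nd (nat_lit 78) (PT.lf (nat_lit 25992) (nat_lit 6) (nat_lit 342) (nat_lit 3) (nat_lit 203) (nat_lit 152) (nat_lit 215)) (PT.lf (nat_lit 26068) (nat_lit 6) (nat_lit 343) (nat_lit 3) (nat_lit 204) (nat_lit 152) (nat_lit 214))))) (PT.nd (nat_lit 312) (PT.nd (nat_lit 156) (PT.nd (nat_lit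 78) (PT.lf (nat_lit 26144) (nat_lit 6) (nat_lit 344) (nat_lit 3) (nat_lit 205) (nat_lit 152) (nat_lit 213)) (PT.lf (nat_lit 26220) (nat_lit 6) (nat_lit 345) (nat_lit 3) (nat_lit 206) (nat_lit 152) (nat_lit 212))) (PT.nd (nat_lit 78) (PT.lf (nat_lit 26296) (nat_lit 6) (nat_lit 346) (nat_lit 3) (nat_lit 207) (nat_lit 152) (nat_lit 211)) (PT.lf (nat_lit 26372) (nat_lit 6) (nat_lit 347) (nat_lit 3) (nat_lit 208) (nat_lit 152) (nat_lit 210)))) (PT.nd (nat_lit 156) (PT.nd (nat_lit 78) (PT.lf (nat_lit 26448) (nat_lit 3) (nat_lit 348) (nat_lit 1) (nat_lit 209) (nat_lit 152) (nat_lit 209)) (PT.lf (nat_lit 26372) (nat_lit 6) (nat_lit 347) (nat_lit 1) (nat_lit 210) (nat_lit 152) (nat_lit 208))) (PT.nd (nat_lit 78) (PT.lf (nat_lit 26296) (nat_lit 6) (nat_lit 346) (nat_lit 1) (nat_lit 211) (nat_lit 152) (nat_lit 207)) (PT.lf (nat_lit 26220) (nat_lit 6) (nat_lit 345) (nat_lit 1) (nat_lit 212) (nat_lit 152) (nat_lit 206))))))))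
noncomputable def pc6 : PT := (PT.nd (nat_lit 118014) (PT.nd (nat_lit 58968) (PT.nd (nat_lit 58422) (PT.nd (nat_lit 234) (PT.nd (nat_lit 78) (PT.lf (nat_lit 26144) (nat_lit 6) (nat_lit 344) (nat_lit 1) (nat_lit 213) (nat_lit 152) (nat_lit 205)) (PT.nd (nat_lit 78) (PT.lf (nat_lit 26068) (nat_lit 6) (nat_lit 343) (nat_lit 1) (nat_lit 214) (nat_lit 152) (nat_lit 204)) (PT.lf (nat_lit 25992) (nat_lit 6) (nat_lit 342) (nat_lit 1) (nat_lit 215) (nat_lit 152) (nat_lit 203)))) (PT.nd (nat_lit 156) (PT.nd (nat_lit 78) (PT.lf (nat_lit 25916) (nat_lit 6) (nat_lit 341) (nat_lit 1) (nat_lit 216) (nat_lit 152) (nat_lit 202)) (PT.lf (nat_lit 25840) (nat_lit 6) (nat_lit 340) (nat_lit 1) (nat_lit 217) (nat_lit 152) (nat_lit 201))) (PT.nd (nat_lit 57954) (PT.lf (nat_lit 25764) (nat_lit 6) (nat_lit 339) (nat_lit 1) (nat_lit 218) (nat_lit 152) (nat_lit 200)) (PT.lf (nat_lit 26524) (nat_lit 6) (nat_lit 349) (nat_lit 3) (nat_lit 200)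 (nat_lit 153) (nat_lit 217))))) (PT.nd (nat_lit 234) (PT.nd (nat_lit 78) (PT.lf (nat_lit 26600) (nat_lit 6) (nat_lit 350) (nat_lit 3) (nat_lit 201) (nat_lit 153) (nat_lit 216)) (PT.nd (nat_lit 78) (PT.lf (nat_lit 26676) (nat_lit 6) (nat_lit 351) (nat_lit 3) (nat_lit 202) (nat_lit 153) (nat_lit 215)) (PT.lf (nat_lit 26752) (nat_lit 6) (nat_lit 352) (nat_lit 3) (nat_lit 203) (nat_lit 153) (nat_lit 214)))) (PT.nd (nat_lit 156) (PT.nd (nat_lit 78) (PT.lf (nat_lit 26828) (nat_lit 6) (nat_lit 353) (nat_lit 3) (nat_lit 204) (nat_lit 153) (nat_lit 213)) (PT.lf (nat_lit 26904) (nat_lit 6) (nat_lit 354) (nat_lit 3) (nat_lit 205) (nat_lit 153) (nat_lit 212))) (PT.nd (nat_lit 78) (PT.lf (nat_lit 26980) (nat_lit 6) (nat_lit 355) (nat_lit 3) (nat_lit 206) (nat_lit 153) (nat_lit 211)) (PT.lf (nat_lit 27056) (nat_lit 6) (nat_lit 356) (nat_lit 3) (nat_lit 207) (nat_lit 153) (nat_lit 210)))))) (PT.nd (nat_lit 546) (PT.nd (nat_lit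 234) (PT.nd (nat_lit 78) (PT.lf (nat_lit 27132) (nat_lit 6) (nat_lit 357) (nat_lit 3) (nat_lit 208) (nat_lit 153) (nat_lit 209)) (PT.nd (nat_lit 78) (PT.lf (nat_lit 27132) (nat_lit 6) (nat_lit 357) (nat_lit 1) (nat_lit 209) (nat_lit 153) (nat_lit 208)) (PT.lf (nat_lit 27056) (nat_lit 6) (nat_lit 356) (nat_lit 1) (nat_lit 210) (nat_lit 153) (nat_lit 207)))) (PT.nd (nat_lit 156) (PT.nd (nat_lit 78) (PT.lf (nat_lit 26980) (nat_lit 6) (nat_lit 355) (nat_lit 1) (nat_lit 211) (nat_lit 153) (nat_lit 206)) (PT.lf (nat_lit 26904) (nat_lit 6) (nat_lit 354) (nat_lit 1) (nat_lit 212) (nat_lit 153) (nat_lit 205))) (PT.nd (nat_lit 78) (PT.lf (nat_lit 26828) (nat_lit 6) (nat_lit 353) (nat_lit 1) (nat_lit 213) (nat_lit 153) (nat_lit 204)) (PT.lf (nat_lit 26752) (nat_lit 6) (nat_lit 352) (nat_lit 1) (nat_lit 214) (nat_lit 153) (nat_lit 203))))) (PT.nd (nat_lit 58188) (PT.nd (nat_lit 156) (PT.nd (nat_lit 78) (PT.lf (nat_lit 26676)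 (nat_lit 6) (nat_lit 351) (nat_lit 1) (nat_lit 215) (nat_lit 153) (nat_lit 202)) (PT.lf (nat_lit 26600) (nat_lit 6) (nat_lit 350) (nat_lit 1) (nat_lit 216) (nat_lit 153) (nat_lit 201))) (PT.nd (nat_lit 57954) (PT.lf (nat_lit 26524) (nat_lit 6) (nat_lit 349) (nat_lit 1) (nat_lit 217) (nat_lit 153) (nat_lit 200)) (PT.lf (nat_lit 27208) (nat_lit 6) (nat_lit 358) (nat_lit 3) (nat_lit 199) (nat_lit 154) (nat_lit 217)))) (PT.nd (nat_lit 156) (PT.nd (nat_lit 78) (PT.lf (nat_lit 27284) (nat_lit 6) (nat_lit 359) (nat_lit 3) (nat_lit 200) (nat_lit 154) (nat_lit 216)) (PT.lf (nat_lit 27360) (nat_lit 6) (nat_lit 360) (nat_lit 3) (nat_lit 201) (nat_lit 154) (nat_lit 215))) (PT.nd (nat_lit 78) (PT.lf (nat_lit 27436) (nat_lit 6) (nat_lit 361) (nat_lit 3) (nat_lit 202) (nat_lit 154) (nat_lit 214)) (PT.lf (nat_lit 27512) (nat_lit 6) (nat_lit 362) (nat_lit 3) (nat_lit 203) (nat_lit 154) (nat_lit 213))))))) (PT.nd (nat_lit 58890)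 (PT.nd (nat_lit 546) (PT.nd (nat_lit 234) (PT.nd (nat_lit 78) (PT.lf (nat_lit 27588) (nat_lit 6) (nat_lit 363) (nat_lit 3) (nat_lit 204) (nat_lit 154) (nat_lit 212)) (PT.nd (nat_lit 78) (PT.lf (nat_lit 27664) (nat_lit 6) (nat_lit 364) (nat_lit 3) (nat_lit 205) (nat_lit 154) (nat_lit 211)) (PT.lf (nat_lit 27740) (nat_lit 6) (nat_lit 365) (nat_lit 3) (nat_lit 206) (nat_lit 154) (nat_lit 210)))) (PT.nd (nat_lit 156) (PT.nd (nat_lit 78) (PT.lf (nat_lit 27816) (nat_lit 6) (nat_lit 366) (nat_lit 3) (nat_lit 207) (nat_lit 154) (nat_lit 209)) (PT.lf (nat_lit 27892) (nat_lit 3) (nat_lit 367) (nat_lit 1) (nat_lit 208) (nat_lit 154) (nat_lit 208))) (PT.nd (nat_lit 78) (PT.lf (nat_lit 27816) (nat_lit 6) (nat_lit 366) (nat_lit 1) (nat_lit 209) (nat_lit 154) (nat_lit 207)) (PT.lf (nat_lit 27740) (nat_lit 6) (nat_lit 365) (nat_lit 1) (nat_lit 210) (nat_lit 154) (nat_lit 206))))) (PT.nd (nat_lit 234) (PT.nd (nat_lit 78) (PT.lf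 (nat_lit 27664) (nat_lit 6) (nat_lit 364) (nat_lit 1) (nat_lit 211) (nat_lit 154) (nat_lit 205)) (PT.nd (nat_lit 78) (PT.lf (nat_lit 27588) (nat_lit 6) (nat_lit 363) (nat_lit 1) (nat_lit 212) (nat_lit 154) (nat_lit 204)) (PT.lf (nat_lit 27512) (nat_lit 6) (nat_lit 362) (nat_lit 1) (nat_lit 213) (nat_lit 154) (nat_lit 203)))) (PT.nd (nat_lit 156) (PT.nd (nat_lit 78) (PT.lf (nat_lit 27436) (nat_lit 6) (nat_lit 361) (nat_lit 1) (nat_lit 214) (nat_lit 154) (nat_lit 202)) (PT.lf (nat_lit 27360) (nat_lit 6) (nat_lit 360) (nat_lit 1) (nat_lit 215) (nat_lit 154) (nat_lit 201))) (PT.nd (nat_lit 78) (PT.lf (nat_lit 27284) (nat_lit 6) (nat_lit 359) (nat_lit 1) (nat_lit 216) (nat_lit 154) (nat_lit 200)) (PT.lf (nat_lit 27208) (nat_lit 6) (nat_lit 358) (nat_lit 1) (nat_lit 217) (nat_lit 154) (nat_lit 199)))))) (PT.nd (nat_lit 546) (PT.nd (nat_lit 234) (PT.nd (nat_lit 78) (PT.lf (nat_lit 27968) (nat_lit 6) (nat_lit 368) (nat_lit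 3) (nat_lit 198) (nat_lit 155) (nat_lit 217)) (PT.nd (nat_lit 78) (PT.lf (nat_lit 28044) (nat_lit 6) (nat_lit 369) (nat_lit 3) (nat_lit 199) (nat_lit 155) (nat_lit 216)) (PT.lf (nat_lit 28120) (nat_lit 6) (nat_lit 370) (nat_lit 3) (nat_lit 200) (nat_lit 155) (nat_lit 215)))) (PT.nd (nat_lit 156) (PT.nd (nat_lit 78) (PT.lf (nat_lit 28196) (nat_lit 6) (nat_lit 371) (nat_lit 3) (nat_lit 201) (nat_lit 155) (nat_lit 214)) (PT.lf (nat_lit 28272) (nat_lit 6) (nat_lit 372) (nat_lit 3) (nat_lit 202) (nat_lit 155) (nat_lit 213))) (PT.nd (nat_lit 78) (PT.lf (nat_lit 28348) (nat_lit 6) (nat_lit 373) (nat_lit 3) (nat_lit 203) (nat_lit 155) (nat_lit 212)) (PT.lf (nat_lit 28424) (nat_lit 6) (nat_lit 374) (nat_lit 3) (nat_lit 204) (nat_lit 155) (nat_lit 211))))) (PT.nd (nat_lit 312) (PT.nd (nat_lit 156) (PT.nd (nat_lit 78) (PT.lf (nat_lit 28500) (nat_lit 6) (nat_lit 375) (nat_lit 3) (nat_lit 205) (nat_lit 155) (nat_lit 210)) (PT.lf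 (nat_lit 28576) (nat_lit 6) (nat_lit 376) (nat_lit 3) (nat_lit 206) (nat_lit 155) (nat_lit 209))) (PT.nd (nat_lit 78) (PT.lf (nat_lit 28652) (nat_lit 6) (nat_lit 377) (nat_lit 3) (nat_lit 207) (nat_lit 155) (nat_lit 208)) (PT.lf (nat_lit 28652) (nat_lit 6) (nat_lit 377) (nat_lit 1) (nat_lit 208) (nat_lit 155) (nat_lit 207)))) (PT.nd (nat_lit 156) (PT.nd (nat_lit 78) (PT.lf (nat_lit 28576) (nat_lit 6) (nat_lit 376) (nat_lit 1) (nat_lit 209) (nat_lit 155) (nat_lit 206)) (PT.lf (nat_lit 28500) (nat_lit 6) (nat_lit 375) (nat_lit 1) (nat_lit 210) (nat_lit 155) (nat_lit 205))) (PT.nd (nat_lit 78) (PT.lf (nat_lit 28424) (nat_lit 6) (nat_lit 374) (nat_lit 1) (nat_lit 211) (nat_lit 155) (nat_lit 204)) (PT.lf (nat_lit 28348) (nat_lit 6) (nat_lit 373) (nat_lit 1) (nat_lit 212) (nat_lit 155) (nat_lit 203))))))))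
noncomputable def pc7 : PT := (PT.nd (nat_lit 117702) (PT.nd (nat_lit 58812) (PT.nd (nat_lit 58266) (PT.nd (nat_lit 234) (PT.nd (nat_lit 78) (PT.lf (nat_lit 28272) (nat_lit 6) (nat_lit 372) (nat_lit 1) (nat_lit 213) (nat_lit 155) (nat_lit 202)) (PT.nd (nat_lit 78) (PT.lf (nat_lit 28196) (nat_lit 6) (nat_lit 371) (nat_lit 1) (nat_lit 214) (nat_lit 155) (nat_lit 201)) (PT.lf (nat_lit 28120) (nat_lit 6) (nat_lit 370) (nat_lit 1) (nat_lit 215) (nat_lit 155) (nat_lit 200)))) (PT.nd (nat_lit 57876) (PT.nd (nat_lit 78) (PT.lf (nat_lit 28044) (nat_lit 6) (nat_lit 369) (nat_lit 1) (nat_lit 216) (nat_lit 155) (nat_lit 199)) (PT.lf (nat_lit 27968) (nat_lit 6) (nat_lit 368) (nat_lit 1) (nat_lit 217) (nat_lit 155) (nat_lit 198))) (PT.nd (nat_lit 78) (PT.lf (nat_lit 28728) (nat_lit 6) (nat_lit 378) (nat_lit 3) (nat_lit 197) (nat_lit 156) (nat_lit 217)) (PT.lf (nat_lit 28804) (nat_lit 6) (nat_lit 379) (nat_lit 3) (nat_lit 198)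 (nat_lit 156) (nat_lit 216))))) (PT.nd (nat_lit 234) (PT.nd (nat_lit 78) (PT.lf (nat_lit 28880) (nat_lit 6) (nat_lit 380) (nat_lit 3) (nat_lit 199) (nat_lit 156) (nat_lit 215)) (PT.nd (nat_lit 78) (PT.lf (nat_lit 28956) (nat_lit 6) (nat_lit 381) (nat_lit 3) (nat_lit 200) (nat_lit 156) (nat_lit 214)) (PT.lf (nat_lit 29032) (nat_lit 6) (nat_lit 382) (nat_lit 3) (nat_lit 201) (nat_lit 156) (nat_lit 213)))) (PT.nd (nat_lit 156) (PT.nd (nat_lit 78) (PT.lf (nat_lit 29108) (nat_lit 6) (nat_lit 383) (nat_lit 3) (nat_lit 202) (nat_lit 156) (nat_lit 212)) (PT.lf (nat_lit 29184) (nat_lit 6) (nat_lit 384) (nat_lit 3) (nat_lit 203) (nat_lit 156) (nat_lit 211))) (PT.nd (nat_lit 78) (PT.lf (nat_lit 29260) (nat_lit 6) (nat_lit 385) (nat_lit 3) (nat_lit 204) (nat_lit 156) (nat_lit 210)) (PT.lf (nat_lit 29336) (nat_lit 6) (nat_lit 386) (nat_lit 3) (nat_lit 205) (nat_lit 156) (nat_lit 209)))))) (PT.nd (nat_lit 546) (PT.nd (nat_lit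 234) (PT.nd (nat_lit 78) (PT.lf (nat_lit 29412) (nat_lit 6) (nat_lit 387) (nat_lit 3) (nat_lit 206) (nat_lit 156) (nat_lit 208)) (PT.nd (nat_lit 78) (PT.lf (nat_lit 29488) (nat_lit 3) (nat_lit 388) (nat_lit 1) (nat_lit 207) (nat_lit 156) (nat_lit 207)) (PT.lf (nat_lit 29412) (nat_lit 6) (nat_lit 387) (nat_lit 1) (nat_lit 208) (nat_lit 156) (nat_lit 206)))) (PT.nd (nat_lit 156) (PT.nd (nat_lit 78) (PT.lf (nat_lit 29336) (nat_lit 6) (nat_lit 386) (nat_lit 1) (nat_lit 209) (nat_lit 156) (nat_lit 205)) (PT.lf (nat_lit 29260) (nat_lit 6) (nat_lit 385) (nat_lit 1) (nat_lit 210) (nat_lit 156) (nat_lit 204))) (PT.nd (nat_lit 78) (PT.lf (nat_lit 29184) (nat_lit 6) (nat_lit 384) (nat_lit 1) (nat_lit 211) (nat_lit 156) (nat_lit 203)) (PT.lf (nat_lit 29108) (nat_lit 6) (nat_lit 383) (nat_lit 1) (nat_lit 212) (nat_lit 156) (nat_lit 202))))) (PT.nd (nat_lit 312) (PT.nd (nat_lit 156) (PT.nd (nat_lit 78) (PT.lf (nat_lit 29032)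 (nat_lit 6) (nat_lit 382) (nat_lit 1) (nat_lit 213) (nat_lit 156) (nat_lit 201)) (PT.lf (nat_lit 28956) (nat_lit 6) (nat_lit 381) (nat_lit 1) (nat_lit 214) (nat_lit 156) (nat_lit 200))) (PT.nd (nat_lit 78) (PT.lf (nat_lit 28880) (nat_lit 6) (nat_lit 380) (nat_lit 1) (nat_lit 215) (nat_lit 156) (nat_lit 199)) (PT.lf (nat_lit 28804) (nat_lit 6) (nat_lit 379) (nat_lit 1) (nat_lit 216) (nat_lit 156) (nat_lit 198)))) (PT.nd (nat_lit 57876) (PT.nd (nat_lit 57798) (PT.lf (nat_lit 28728) (nat_lit 6) (nat_lit 378) (nat_lit 1) (nat_lit 217) (nat_lit 156) (nat_lit 197)) (PT.lf (nat_lit 29564) (nat_lit 6) (nat_lit 389) (nat_lit 3) (nat_lit 197) (nat_lit 157) (nat_lit 216))) (PT.nd (nat_lit 78) (PT.lf (nat_lit 29640) (nat_lit 6) (nat_lit 390) (nat_lit 3) (nat_lit 198) (nat_lit 157) (nat_lit 215)) (PT.lf (nat_lit 29716) (nat_lit 6) (nat_lit 391) (nat_lit 3) (nat_lit 199) (nat_lit 157) (nat_lit 214))))))) (PT.nd (nat_lit 1170)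 (PT.nd (nat_lit 546) (PT.nd (nat_lit 234) (PT.nd (nat_lit 78) (PT.lf (nat_lit 29792) (nat_lit 6) (nat_lit 392) (nat_lit 3) (nat_lit 200) (nat_lit 157) (nat_lit 213)) (PT.nd (nat_lit 78) (PT.lf (nat_lit 29868) (nat_lit 6) (nat_lit 393) (nat_lit 3) (nat_lit 201) (nat_lit 157) (nat_lit 212)) (PT.lf (nat_lit 29944) (nat_lit 6) (nat_lit 394) (nat_lit 3) (nat_lit 202) (nat_lit 157) (nat_lit 211)))) (PT.nd (nat_lit 156) (PT.nd (nat_lit 78) (PT.lf (nat_lit 30020) (nat_lit 6) (nat_lit 395) (nat_lit 3) (nat_lit 203) (nat_lit 157) (nat_lit 210)) (PT.lf (nat_lit 30096) (nat_lit 6) (nat_lit 396) (nat_lit 3) (nat_lit 204) (nat_lit 157) (nat_lit 209))) (PT.nd (nat_lit 78) (PT.lf (nat_lit 30172) (nat_lit 6) (nat_lit 397) (nat_lit 3) (nat_lit 205) (nat_lit 157) (nat_lit 208)) (PT.lf (nat_lit 30248) (nat_lit 6) (nat_lit 398) (nat_lit 3) (nat_lit 206) (nat_lit 157) (nat_lit 207))))) (PT.nd (nat_lit 312) (PT.nd (nat_lit 156) (PT.nd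 (nat_lit 78) (PT.lf (nat_lit 30248) (nat_lit 6) (nat_lit 398) (nat_lit 1) (nat_lit 207) (nat_lit 157) (nat_lit 206)) (PT.lf (nat_lit 30172) (nat_lit 6) (nat_lit 397) (nat_lit 1) (nat_lit 208) (nat_lit 157) (nat_lit 205))) (PT.nd (nat_lit 78) (PT.lf (nat_lit 30096) (nat_lit 6) (nat_lit 396) (nat_lit 1) (nat_lit 209) (nat_lit 157) (nat_lit 204)) (PT.lf (nat_lit 30020) (nat_lit 6) (nat_lit 395) (nat_lit 1) (nat_lit 210) (nat_lit 157) (nat_lit 203)))) (PT.nd (nat_lit 156) (PT.nd (nat_lit 78) (PT.lf (nat_lit 29944) (nat_lit 6) (nat_lit 394) (nat_lit 1) (nat_lit 211) (nat_lit 157) (nat_lit 202)) (PT.lf (nat_lit 29868) (nat_lit 6) (nat_lit 393) (nat_lit 1) (nat_lit 212) (nat_lit 157) (nat_lit 201))) (PT.nd (nat_lit 78) (PT.lf (nat_lit 29792) (nat_lit 6) (nat_lit 392) (nat_lit 1) (nat_lit 213) (nat_lit 157) (nat_lit 200)) (PT.lf (nat_lit 29716) (nat_lit 6) (nat_lit 391) (nat_lit 1) (nat_lit 214) (nat_lit 157) (nat_lit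 199)))))) (PT.nd (nat_lit 58266) (PT.nd (nat_lit 57954) (PT.nd (nat_lit 78) (PT.lf (nat_lit 29640) (nat_lit 6) (nat_lit 390) (nat_lit 1) (nat_lit 215) (nat_lit 157) (nat_lit 198)) (PT.nd (nat_lit 57798) (PT.lf (nat_lit 29564) (nat_lit 6) (nat_lit 389) (nat_lit 1) (nat_lit 216) (nat_lit 157) (nat_lit 197)) (PT.lf (nat_lit 30324) (nat_lit 6) (nat_lit 399) (nat_lit 3) (nat_lit 196) (nat_lit 158) (nat_lit 216)))) (PT.nd (nat_lit 156) (PT.nd (nat_lit 78) (PT.lf (nat_lit 30400) (nat_lit 6) (nat_lit 400) (nat_lit 3) (nat_lit 197) (nat_lit 158) (nat_lit 215)) (PT.lf (nat_lit 30476) (nat_lit 6) (nat_lit 401) (nat_lit 3) (nat_lit 198) (nat_lit 158) (nat_lit 214))) (PT.nd (nat_lit 78) (PT.lf (nat_lit 30552) (nat_lit 6) (nat_lit 402) (nat_lit 3) (nat_lit 199) (nat_lit 158) (nat_lit 213)) (PT.lf (nat_lit 30628) (nat_lit 6) (nat_lit 403) (nat_lit 3) (nat_lit 200) (nat_lit 158) (nat_lit 212))))) (PT.nd (nat_lit 312) (PT.nd (nat_lit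 156) (PT.nd (nat_lit 78) (PT.lf (nat_lit 30704) (nat_lit 6) (nat_lit 404) (nat_lit 3) (nat_lit 201) (nat_lit 158) (nat_lit 211)) (PT.lf (nat_lit 30780) (nat_lit 6) (nat_lit 405) (nat_lit 3) (nat_lit 202) (nat_lit 158) (nat_lit 210))) (PT.nd (nat_lit 78) (PT.lf (nat_lit 30856) (nat_lit 6) (nat_lit 406) (nat_lit 3) (nat_lit 203) (nat_lit 158) (nat_lit 209)) (PT.lf (nat_lit 30932) (nat_lit 6) (nat_lit 407) (nat_lit 3) (nat_lit 204) (nat_lit 158) (nat_lit 208)))) (PT.nd (nat_lit 156) (PT.nd (nat_lit 78) (PT.lf (nat_lit 31008) (nat_lit 6) (nat_lit 408) (nat_lit 3) (nat_lit 205) (nat_lit 158) (nat_lit 207)) (PT.lf (nat_lit 31084) (nat_lit 3) (nat_lit 409) (nat_lit 1) (nat_lit 206) (nat_lit 158) (nat_lit 206))) (PT.nd (nat_lit 78) (PT.lf (nat_lit 31008) (nat_lit 6) (nat_lit 408) (nat_lit 1) (nat_lit 207) (nat_lit 158) (nat_lit 205)) (PT.lf (nat_lit 30932) (nat_lit 6) (nat_lit 407) (nat_lit 1) (nat_lit 208) (nat_lit 158)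 (nat_lit 204))))))))
noncomputable def pc8 : PT := (PT.nd (nat_lit 59904) (PT.nd (nat_lit 58734) (PT.nd (nat_lit 546) (PT.nd (nat_lit 234) (PT.nd (nat_lit 78) (PT.lf (nat_lit 30856) (nat_lit 6) (nat_lit 406) (nat_lit 1) (nat_lit 209) (nat_lit 158) (nat_lit 203)) (PT.nd (nat_lit 78) (PT.lf (nat_lit 30780) (nat_lit 6) (nat_lit 405) (nat_lit 1) (nat_lit 210) (nat_lit 158) (nat_lit 202)) (PT.lf (nat_lit 30704) (nat_lit 6) (nat_lit 404) (nat_lit 1) (nat_lit 211) (nat_lit 158) (nat_lit 201)))) (PT.nd (nat_lit 156) (PT.nd (nat_lit 78) (PT.lf (nat_lit 30628) (nat_lit 6) (nat_lit 403) (nat_lit 1) (nat_lit 212) (nat_lit 158) (nat_lit 200)) (PT.lf (nat_lit 30552) (nat_lit 6) (nat_lit 402) (nat_lit 1) (nat_lit 213) (nat_lit 158) (nat_lit 199))) (PT.nd (nat_lit 78) (PT.lf (nat_lit 30476) (nat_lit 6) (nat_lit 401) (nat_lit 1) (nat_lit 214) (nat_lit 158) (nat_lit 198)) (PT.lf (nat_lit 30400) (nat_lit 6) (nat_lit 400) (nat_lit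 1) (nat_lit 215) (nat_lit 158) (nat_lit 197))))) (PT.nd (nat_lit 57876) (PT.nd (nat_lit 57720) (PT.lf (nat_lit 30324) (nat_lit 6) (nat_lit 399) (nat_lit 1) (nat_lit 216) (nat_lit 158) (nat_lit 196)) (PT.nd (nat_lit 78) (PT.lf (nat_lit 31160) (nat_lit 6) (nat_lit 410) (nat_lit 3) (nat_lit 195) (nat_lit 159) (nat_lit 216)) (PT.lf (nat_lit 31236) (nat_lit 6) (nat_lit 411) (nat_lit 3) (nat_lit 196) (nat_lit 159) (nat_lit 215)))) (PT.nd (nat_lit 156) (PT.nd (nat_lit 78) (PT.lf (nat_lit 31312) (nat_lit 6) (nat_lit 412) (nat_lit 3) (nat_lit 197) (nat_lit 159) (nat_lit 214)) (PT.lf (nat_lit 31388) (nat_lit 6) (nat_lit 413) (nat_lit 3) (nat_lit 198) (nat_lit 159) (nat_lit 213))) (PT.nd (nat_lit 78) (PT.lf (nat_lit 31464) (nat_lit 6) (nat_lit 414) (nat_lit 3) (nat_lit 199) (nat_lit 159) (nat_lit 212)) (PT.lf (nat_lit 31540) (nat_lit 6) (nat_lit 415) (nat_lit 3) (nat_lit 200) (nat_lit 159) (nat_lit 211)))))) (PT.nd (nat_lit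 546) (PT.nd (nat_lit 234) (PT.nd (nat_lit 78) (PT.lf (nat_lit 31616) (nat_lit 6) (nat_lit 416) (nat_lit 3) (nat_lit 201) (nat_lit 159) (nat_lit 210)) (PT.nd (nat_lit 78) (PT.lf (nat_lit 31692) (nat_lit 6) (nat_lit 417) (nat_lit 3) (nat_lit 202) (nat_lit 159) (nat_lit 209)) (PT.lf (nat_lit 31768) (nat_lit 6) (nat_lit 418) (nat_lit 3) (nat_lit 203) (nat_lit 159) (nat_lit 208)))) (PT.nd (nat_lit 156) (PT.nd (nat_lit 78) (PT.lf (nat_lit 31844) (nat_lit 6) (nat_lit 419) (nat_lit 3) (nat_lit 204) (nat_lit 159) (nat_lit 207)) (PT.lf (nat_lit 31920) (nat_lit 6) (nat_lit 420) (nat_lit 3) (nat_lit 205) (nat_lit 159) (nat_lit 206))) (PT.nd (nat_lit 78) (PT.lf (nat_lit 31920) (nat_lit 6) (nat_lit 420) (nat_lit 1) (nat_lit 206) (nat_lit 159) (nat_lit 205)) (PT.lf (nat_lit 31844) (nat_lit 6) (nat_lit 419) (nat_lit 1) (nat_lit 207) (nat_lit 159) (nat_lit 204))))) (PT.nd (nat_lit 312) (PT.nd (nat_lit 156) (PT.nd (nat_lit 78) (PT.lf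 (nat_lit 31768) (nat_lit 6) (nat_lit 418) (nat_lit 1) (nat_lit 208) (nat_lit 159) (nat_lit 203)) (PT.lf (nat_lit 31692) (nat_lit 6) (nat_lit 417) (nat_lit 1) (nat_lit 209) (nat_lit 159) (nat_lit 202))) (PT.nd (nat_lit 78) (PT.lf (nat_lit 31616) (nat_lit 6) (nat_lit 416) (nat_lit 1) (nat_lit 210) (nat_lit 159) (nat_lit 201)) (PT.lf (nat_lit 31540) (nat_lit 6) (nat_lit 415) (nat_lit 1) (nat_lit 211) (nat_lit 159) (nat_lit 200)))) (PT.nd (nat_lit 156) (PT.nd (nat_lit 78) (PT.lf (nat_lit 31464) (nat_lit 6) (nat_lit 414) (nat_lit 1) (nat_lit 212) (nat_lit 159) (nat_lit 199)) (PT.lf (nat_lit 31388) (nat_lit 6) (nat_lit 413) (nat_lit 1) (nat_lit 213) (nat_lit 159) (nat_lit 198))) (PT.nd (nat_lit 78) (PT.lf (nat_lit 31312) (nat_lit 6) (nat_lit 412) (nat_lit 1) (nat_lit 214) (nat_lit 159) (nat_lit 197)) (PT.lf (nat_lit 31236) (nat_lit 6) (nat_lit 411) (nat_lit 1) (nat_lit 215) (nat_lit 159) (nat_lit 196))))))) (PT.nd (nat_lit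 58656) (PT.nd (nat_lit 58110) (PT.nd (nat_lit 57798) (PT.nd (nat_lit 57642) (PT.lf (nat_lit 31160) (nat_lit 6) (nat_lit 410) (nat_lit 1) (nat_lit 216) (nat_lit 159) (nat_lit 195)) (PT.nd (nat_lit 78) (PT.lf (nat_lit 31996) (nat_lit 6) (nat_lit 421) (nat_lit 3) (nat_lit 194) (nat_lit 160) (nat_lit 216)) (PT.lf (nat_lit 32072) (nat_lit 6) (nat_lit 422) (nat_lit 3) (nat_lit 195) (nat_lit 160) (nat_lit 215)))) (PT.nd (nat_lit 156) (PT.nd (nat_lit 78) (PT.lf (nat_lit 32148) (nat_lit 6) (nat_lit 423) (nat_lit 3) (nat_lit 196) (nat_lit 160) (nat_lit 214)) (PT.lf (nat_lit 32224) (nat_lit 6) (nat_lit 424) (nat_lit 3) (nat_lit 197) (nat_lit 160) (nat_lit 213))) (PT.nd (nat_lit 78) (PT.lf (nat_lit 32300) (nat_lit 6) (nat_lit 425) (nat_lit 3) (nat_lit 198) (nat_lit 160) (nat_lit 212)) (PT.lf (nat_lit 32376) (nat_lit 6) (nat_lit 426) (nat_lit 3) (nat_lit 199) (nat_lit 160) (nat_lit 211))))) (PT.nd (nat_lit 234) (PT.nd (nat_lit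 78) (PT.lf (nat_lit 32452) (nat_lit 6) (nat_lit 427) (nat_lit 3) (nat_lit 200) (nat_lit 160) (nat_lit 210)) (PT.nd (nat_lit 78) (PT.lf (nat_lit 32528) (nat_lit 6) (nat_lit 428) (nat_lit 3) (nat_lit 201) (nat_lit 160) (nat_lit 209)) (PT.lf (nat_lit 32604) (nat_lit 6) (nat_lit 429) (nat_lit 3) (nat_lit 202) (nat_lit 160) (nat_lit 208)))) (PT.nd (nat_lit 156) (PT.nd (nat_lit 78) (PT.lf (nat_lit 32680) (nat_lit 6) (nat_lit 430) (nat_lit 3) (nat_lit 203) (nat_lit 160) (nat_lit 207)) (PT.lf (nat_lit 32756) (nat_lit 6) (nat_lit 431) (nat_lit 3) (nat_lit 204) (nat_lit 160) (nat_lit 206))) (PT.nd (nat_lit 78) (PT.lf (nat_lit 32832) (nat_lit 3) (nat_lit 432) (nat_lit 1) (nat_lit 205) (nat_lit 160) (nat_lit 205)) (PT.lf (nat_lit 32756) (nat_lit 6) (nat_lit 431) (nat_lit 1) (nat_lit 206) (nat_lit 160) (nat_lit 204)))))) (PT.nd (nat_lit 546) (PT.nd (nat_lit 234) (PT.nd (nat_lit 78) (PT.lf (nat_lit 32680) (nat_lit 6) (nat_lit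 430) (nat_lit 1) (nat_lit 207) (nat_lit 160) (nat_lit 203)) (PT.nd (nat_lit 78) (PT.lf (nat_lit 32604) (nat_lit 6) (nat_lit 429) (nat_lit 1) (nat_lit 208) (nat_lit 160) (nat_lit 202)) (PT.lf (nat_lit 32528) (nat_lit 6) (nat_lit 428) (nat_lit 1) (nat_lit 209) (nat_lit 160) (nat_lit 201)))) (PT.nd (nat_lit 156) (PT.nd (nat_lit 78) (PT.lf (nat_lit 32452) (nat_lit 6) (nat_lit 427) (nat_lit 1) (nat_lit 210) (nat_lit 160) (nat_lit 200)) (PT.lf (nat_lit 32376) (nat_lit 6) (nat_lit 426) (nat_lit 1) (nat_lit 211) (nat_lit 160) (nat_lit 199))) (PT.nd (nat_lit 78) (PT.lf (nat_lit 32300) (nat_lit 6) (nat_lit 425) (nat_lit 1) (nat_lit 212) (nat_lit 160) (nat_lit 198)) (PT.lf (nat_lit 32224) (nat_lit 6) (nat_lit 424) (nat_lit 1) (nat_lit 213) (nat_lit 160) (nat_lit 197))))) (PT.nd (nat_lit 57798) (PT.nd (nat_lit 156) (PT.nd (nat_lit 78) (PT.lf (nat_lit 32148) (nat_lit 6) (nat_lit 423) (nat_lit 1) (nat_lit 214) (nat_lit 160)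 (nat_lit 196)) (PT.lf (nat_lit 32072) (nat_lit 6) (nat_lit 422) (nat_lit 1) (nat_lit 215) (nat_lit 160) (nat_lit 195))) (PT.nd (nat_lit 57564) (PT.lf (nat_lit 31996) (nat_lit 6) (nat_lit 421) (nat_lit 1) (nat_lit 216) (nat_lit 160) (nat_lit 194)) (PT.lf (nat_lit 32908) (nat_lit 6) (nat_lit 433) (nat_lit 3) (nat_lit 193) (nat_lit 161) (nat_lit 216)))) (PT.nd (nat_lit 156) (PT.nd (nat_lit 78) (PT.lf (nat_lit 32984) (nat_lit 6) (nat_lit 434) (nat_lit 3) (nat_lit 194) (nat_lit 161) (nat_lit 215)) (PT.lf (nat_lit 33060) (nat_lit 6) (nat_lit 435) (nat_lit 3) (nat_lit 195) (nat_lit 161) (nat_lit 214))) (PT.nd (nat_lit 78) (PT.lf (nat_lit 33136) (nat_lit 6) (nat_lit 436) (nat_lit 3) (nat_lit 196) (nat_lit 161) (nat_lit 213)) (PT.lf (nat_lit 33212) (nat_lit 6) (nat_lit 437) (nat_lit 3) (nat_lit 197) (nat_lit 161) (nat_lit 212))))))))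
noncomputable def pc9 : PT := (PT.nd (nat_lit 59748) (PT.nd (nat_lit 1092) (PT.nd (nat_lit 546) (PT.nd (nat_lit 234) (PT.nd (nat_lit 78) (PT.lf (nat_lit 33288) (nat_lit 6) (nat_lit 438) (nat_lit 3) (nat_lit 198) (nat_lit 161) (nat_lit 211)) (PT.nd (nat_lit 78) (PT.lf (nat_lit 33364) (nat_lit 6) (nat_lit 439) (nat_lit 3) (nat_lit 199) (nat_lit 161) (nat_lit 210)) (PT.lf (nat_lit 33440) (nat_lit 6) (nat_lit 440) (nat_lit 3) (nat_lit 200) (nat_lit 161) (nat_lit 209)))) (PT.nd (nat_lit 156) (PT.nd (nat_lit 78) (PT.lf (nat_lit 33516) (nat_lit 6) (nat_lit 441) (nat_lit 3) (nat_lit 201) (nat_lit 161) (nat_lit 208)) (PT.lf (nat_lit 33592) (nat_lit 6) (nat_lit 442) (nat_lit 3) (nat_lit 202) (nat_lit 161) (nat_lit 207))) (PT.nd (nat_lit 78) (PT.lf (nat_lit 33668) (nat_lit 6) (nat_lit 443) (nat_lit 3) (nat_lit 203) (nat_lit 161) (nat_lit 206)) (PT.lf (nat_lit 33744) (nat_lit 6) (nat_lit 444) (nat_lit 3) (nat_lit 204) (nat_lit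 161) (nat_lit 205))))) (PT.nd (nat_lit 234) (PT.nd (nat_lit 78) (PT.lf (nat_lit 33744) (nat_lit 6) (nat_lit 444) (nat_lit 1) (nat_lit 205) (nat_lit 161) (nat_lit 204)) (PT.nd (nat_lit 78) (PT.lf (nat_lit 33668) (nat_lit 6) (nat_lit 443) (nat_lit 1) (nat_lit 206) (nat_lit 161) (nat_lit 203)) (PT.lf (nat_lit 33592) (nat_lit 6) (nat_lit 442) (nat_lit 1) (nat_lit 207) (nat_lit 161) (nat_lit 202)))) (PT.nd (nat_lit 156) (PT.nd (nat_lit 78) (PT.lf (nat_lit 33516) (nat_lit 6) (nat_lit 441) (nat_lit 1) (nat_lit 208) (nat_lit 161) (nat_lit 201)) (PT.lf (nat_lit 33440) (nat_lit 6) (nat_lit 440) (nat_lit 1) (nat_lit 209) (nat_lit 161) (nat_lit 200))) (PT.nd (nat_lit 78) (PT.lf (nat_lit 33364) (nat_lit 6) (nat_lit 439) (nat_lit 1) (nat_lit 210) (nat_lit 161) (nat_lit 199)) (PT.lf (nat_lit 33288) (nat_lit 6) (nat_lit 438) (nat_lit 1) (nat_lit 211) (nat_lit 161) (nat_lit 198)))))) (PT.nd (nat_lit 58032) (PT.nd (nat_lit 234)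 (PT.nd (nat_lit 78) (PT.lf (nat_lit 33212) (nat_lit 6) (nat_lit 437) (nat_lit 1) (nat_lit 212) (nat_lit 161) (nat_lit 197)) (PT.nd (nat_lit 78) (PT.lf (nat_lit 33136) (nat_lit 6) (nat_lit 436) (nat_lit 1) (nat_lit 213) (nat_lit 161) (nat_lit 196)) (PT.lf (nat_lit 33060) (nat_lit 6) (nat_lit 435) (nat_lit 1) (nat_lit 214) (nat_lit 161) (nat_lit 195)))) (PT.nd (nat_lit 57642) (PT.nd (nat_lit 78) (PT.lf (nat_lit 32984) (nat_lit 6) (nat_lit 434) (nat_lit 1) (nat_lit 215) (nat_lit 161) (nat_lit 194)) (PT.lf (nat_lit 32908) (nat_lit 6) (nat_lit 433) (nat_lit 1) (nat_lit 216) (nat_lit 161) (nat_lit 193))) (PT.nd (nat_lit 78) (PT.lf (nat_lit 33820) (nat_lit 6) (nat_lit 445) (nat_lit 3) (nat_lit 193) (nat_lit 162) (nat_lit 215)) (PT.lf (nat_lit 33896) (nat_lit 6) (nat_lit 446) (nat_lit 3) (nat_lit 194) (nat_lit 162) (nat_lit 214))))) (PT.nd (nat_lit 312) (PT.nd (nat_lit 156) (PT.nd (nat_lit 78) (PT.lf (nat_lit 33972) (nat_lit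 6) (nat_lit 447) (nat_lit 3) (nat_lit 195) (nat_lit 162) (nat_lit 213)) (PT.lf (nat_lit 34048) (nat_lit 6) (nat_lit 448) (nat_lit 3) (nat_lit 196) (nat_lit 162) (nat_lit 212))) (PT.nd (nat_lit 78) (PT.lf (nat_lit 34124) (nat_lit 6) (nat_lit 449) (nat_lit 3) (nat_lit 197) (nat_lit 162) (nat_lit 211)) (PT.lf (nat_lit 34200) (nat_lit 6) (nat_lit 450) (nat_lit 3) (nat_lit 198) (nat_lit 162) (nat_lit 210)))) (PT.nd (nat_lit 156) (PT.nd (nat_lit 78) (PT.lf (nat_lit 34276) (nat_lit 6) (nat_lit 451) (nat_lit 3) (nat_lit 199) (nat_lit 162) (nat_lit 209)) (PT.lf (nat_lit 34352) (nat_lit 6) (nat_lit 452) (nat_lit 3) (nat_lit 200) (nat_lit 162) (nat_lit 208))) (PT.nd (nat_lit 78) (PT.lf (nat_lit 34428) (nat_lit 6) (nat_lit 453) (nat_lit 3) (nat_lit 201) (nat_lit 162) (nat_lit 207)) (PT.lf (nat_lit 34504) (nat_lit 6) (nat_lit 454) (nat_lit 3) (nat_lit 202) (nat_lit 162) (nat_lit 206))))))) (PT.nd (nat_lit 58578) (PT.nd (nat_lit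 546) (PT.nd (nat_lit 234) (PT.nd (nat_lit 78) (PT.lf (nat_lit 34580) (nat_lit 6) (nat_lit 455) (nat_lit 3) (nat_lit 203) (nat_lit 162) (nat_lit 205)) (PT.nd (nat_lit 78) (PT.lf (nat_lit 34656) (nat_lit 3) (nat_lit 456) (nat_lit 1) (nat_lit 204) (nat_lit 162) (nat_lit 204)) (PT.lf (nat_lit 34580) (nat_lit 6) (nat_lit 455) (nat_lit 1) (nat_lit 205) (nat_lit 162) (nat_lit 203)))) (PT.nd (nat_lit 156) (PT.nd (nat_lit 78) (PT.lf (nat_lit 34504) (nat_lit 6) (nat_lit 454) (nat_lit 1) (nat_lit 206) (nat_lit 162) (nat_lit 202)) (PT.lf (nat_lit 34428) (nat_lit 6) (nat_lit 453) (nat_lit 1) (nat_lit 207) (nat_lit 162) (nat_lit 201))) (PT.nd (nat_lit 78) (PT.lf (nat_lit 34352) (nat_lit 6) (nat_lit 452) (nat_lit 1) (nat_lit 208) (nat_lit 162) (nat_lit 200)) (PT.lf (nat_lit 34276) (nat_lit 6) (nat_lit 451) (nat_lit 1) (nat_lit 209) (nat_lit 162) (nat_lit 199))))) (PT.nd (nat_lit 234) (PT.nd (nat_lit 78) (PT.lf (nat_lit 34200)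 (nat_lit 6) (nat_lit 450) (nat_lit 1) (nat_lit 210) (nat_lit 162) (nat_lit 198)) (PT.nd (nat_lit 78) (PT.lf (nat_lit 34124) (nat_lit 6) (nat_lit 449) (nat_lit 1) (nat_lit 211) (nat_lit 162) (nat_lit 197)) (PT.lf (nat_lit 34048) (nat_lit 6) (nat_lit 448) (nat_lit 1) (nat_lit 212) (nat_lit 162) (nat_lit 196)))) (PT.nd (nat_lit 156) (PT.nd (nat_lit 78) (PT.lf (nat_lit 33972) (nat_lit 6) (nat_lit 447) (nat_lit 1) (nat_lit 213) (nat_lit 162) (nat_lit 195)) (PT.lf (nat_lit 33896) (nat_lit 6) (nat_lit 446) (nat_lit 1) (nat_lit 214) (nat_lit 162) (nat_lit 194))) (PT.nd (nat_lit 57564) (PT.lf (nat_lit 33820) (nat_lit 6) (nat_lit 445) (nat_lit 1) (nat_lit 215) (nat_lit 162) (nat_lit 193)) (PT.lf (nat_lit 34732) (nat_lit 6) (nat_lit 457) (nat_lit 3) (nat_lit 192) (nat_lit 163) (nat_lit 215)))))) (PT.nd (nat_lit 546) (PT.nd (nat_lit 234) (PT.nd (nat_lit 78) (PT.lf (nat_lit 34808) (nat_lit 6) (nat_lit 458) (nat_lit 3) (nat_lit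 193) (nat_lit 163) (nat_lit 214)) (PT.nd (nat_lit 78) (PT.lf (nat_lit 34884) (nat_lit 6) (nat_lit 459) (nat_lit 3) (nat_lit 194) (nat_lit 163) (nat_lit 213)) (PT.lf (nat_lit 34960) (nat_lit 6) (nat_lit 460) (nat_lit 3) (nat_lit 195) (nat_lit 163) (nat_lit 212)))) (PT.nd (nat_lit 156) (PT.nd (nat_lit 78) (PT.lf (nat_lit 35036) (nat_lit 6) (nat_lit 461) (nat_lit 3) (nat_lit 196) (nat_lit 163) (nat_lit 211)) (PT.lf (nat_lit 35112) (nat_lit 6) (nat_lit 462) (nat_lit 3) (nat_lit 197) (nat_lit 163) (nat_lit 210))) (PT.nd (nat_lit 78) (PT.lf (nat_lit 35188) (nat_lit 6) (nat_lit 463) (nat_lit 3) (nat_lit 198) (nat_lit 163) (nat_lit 209)) (PT.lf (nat_lit 35264) (nat_lit 6) (nat_lit 464) (nat_lit 3) (nat_lit 199) (nat_lit 163) (nat_lit 208))))) (PT.nd (nat_lit 312) (PT.nd (nat_lit 156) (PT.nd (nat_lit 78) (PT.lf (nat_lit 35340) (nat_lit 6) (nat_lit 465) (nat_lit 3) (nat_lit 200) (nat_lit 163) (nat_lit 207)) (PT.lf (nat_lit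 35416) (nat_lit 6) (nat_lit 466) (nat_lit 3) (nat_lit 201) (nat_lit 163) (nat_lit 206))) (PT.nd (nat_lit 78) (PT.lf (nat_lit 35492) (nat_lit 6) (nat_lit 467) (nat_lit 3) (nat_lit 202) (nat_lit 163) (nat_lit 205)) (PT.lf (nat_lit 35568) (nat_lit 6) (nat_lit 468) (nat_lit 3) (nat_lit 203) (nat_lit 163) (nat_lit 204)))) (PT.nd (nat_lit 156) (PT.nd (nat_lit 78) (PT.lf (nat_lit 35568) (nat_lit 6) (nat_lit 468) (nat_lit 1) (nat_lit 204) (nat_lit 163) (nat_lit 203)) (PT.lf (nat_lit 35492) (nat_lit 6) (nat_lit 467) (nat_lit 1) (nat_lit 205) (nat_lit 163) (nat_lit 202))) (PT.nd (nat_lit 78) (PT.lf (nat_lit 35416) (nat_lit 6) (nat_lit 466) (nat_lit 1) (nat_lit 206) (nat_lit 163) (nat_lit 201)) (PT.lf (nat_lit 35340) (nat_lit 6) (nat_lit 465) (nat_lit 1) (nat_lit 207) (nat_lit 163) (nat_lit 200))))))))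
noncomputable def pc10 : PT := (PT.nd (nat_lit 59670) (PT.nd (nat_lit 58500) (PT.nd (nat_lit 546) (PT.nd (nat_lit 234) (PT.nd (nat_lit 78) (PT.lf (nat_lit 35264) (nat_lit 6) (nat_lit 464) (nat_lit 1) (nat_lit 208) (nat_lit 163) (nat_lit 199)) (PT.nd (nat_lit 78) (PT.lf (nat_lit 35188) (nat_lit 6) (nat_lit 463) (nat_lit 1) (nat_lit 209) (nat_lit 163) (nat_lit 198)) (PT.lf (nat_lit 35112) (nat_lit 6) (nat_lit 462) (nat_lit 1) (nat_lit 210) (nat_lit 163) (nat_lit 197)))) (PT.nd (nat_lit 156) (PT.nd (nat_lit 78) (PT.lf (nat_lit 35036) (nat_lit 6) (nat_lit 461) (nat_lit 1) (nat_lit 211) (nat_lit 163) (nat_lit 196)) (PT.lf (nat_lit 34960) (nat_lit 6) (nat_lit 460) (nat_lit 1) (nat_lit 212) (nat_lit 163) (nat_lit 195))) (PT.nd (nat_lit 78) (PT.lf (nat_lit 34884) (nat_lit 6) (nat_lit 459) (nat_lit 1) (nat_lit 213) (nat_lit 163) (nat_lit 194)) (PT.lf (nat_lit 34808) (nat_lit 6) (nat_lit 458) (nat_lit 1) (nat_lit 214) (nat_lit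 163) (nat_lit 193))))) (PT.nd (nat_lit 57642) (PT.nd (nat_lit 57486) (PT.lf (nat_lit 34732) (nat_lit 6) (nat_lit 457) (nat_lit 1) (nat_lit 215) (nat_lit 163) (nat_lit 192)) (PT.nd (nat_lit 78) (PT.lf (nat_lit 35644) (nat_lit 6) (nat_lit 469) (nat_lit 3) (nat_lit 191) (nat_lit 164) (nat_lit 215)) (PT.lf (nat_lit 35720) (nat_lit 6) (nat_lit 470) (nat_lit 3) (nat_lit 192) (nat_lit 164) (nat_lit 214)))) (PT.nd (nat_lit 156) (PT.nd (nat_lit 78) (PT.lf (nat_lit 35796) (nat_lit 6) (nat_lit 471) (nat_lit 3) (nat_lit 193) (nat_lit 164) (nat_lit 213)) (PT.lf (nat_lit 35872) (nat_lit 6) (nat_lit 472) (nat_lit 3) (nat_lit 194) (nat_lit 164) (nat_lit 212))) (PT.nd (nat_lit 78) (PT.lf (nat_lit 35948) (nat_lit 6) (nat_lit 473) (nat_lit 3) (nat_lit 195) (nat_lit 164) (nat_lit 211)) (PT.lf (nat_lit 36024) (nat_lit 6) (nat_lit 474) (nat_lit 3) (nat_lit 196) (nat_lit 164) (nat_lit 210)))))) (PT.nd (nat_lit 546) (PT.nd (nat_lit 234)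 (PT.nd (nat_lit 78) (PT.lf (nat_lit 36100) (nat_lit 6) (nat_lit 475) (nat_lit 3) (nat_lit 197) (nat_lit 164) (nat_lit 209)) (PT.nd (nat_lit 78) (PT.lf (nat_lit 36176) (nat_lit 6) (nat_lit 476) (nat_lit 3) (nat_lit 198) (nat_lit 164) (nat_lit 208)) (PT.lf (nat_lit 36252) (nat_lit 6) (nat_lit 477) (nat_lit 3) (nat_lit 199) (nat_lit 164) (nat_lit 207)))) (PT.nd (nat_lit 156) (PT.nd (nat_lit 78) (PT.lf (nat_lit 36328) (nat_lit 6) (nat_lit 478) (nat_lit 3) (nat_lit 200) (nat_lit 164) (nat_lit 206)) (PT.lf (nat_lit 36404) (nat_lit 6) (nat_lit 479) (nat_lit 3) (nat_lit 201) (nat_lit 164) (nat_lit 205))) (PT.nd (nat_lit 78) (PT.lf (nat_lit 36480) (nat_lit 6) (nat_lit 480) (nat_lit 3) (nat_lit 202) (nat_lit 164) (nat_lit 204)) (PT.lf (nat_lit 36556) (nat_lit 3) (nat_lit 481) (nat_lit 1) (nat_lit 203) (nat_lit 164) (nat_lit 203))))) (PT.nd (nat_lit 312) (PT.nd (nat_lit 156) (PT.nd (nat_lit 78) (PT.lf (nat_lit 36480) (nat_lit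 6) (nat_lit 480) (nat_lit 1) (nat_lit 204) (nat_lit 164) (nat_lit 202)) (PT.lf (nat_lit 36404) (nat_lit 6) (nat_lit 479) (nat_lit 1) (nat_lit 205) (nat_lit 164) (nat_lit 201))) (PT.nd (nat_lit 78) (PT.lf (nat_lit 36328) (nat_lit 6) (nat_lit 478) (nat_lit 1) (nat_lit 206) (nat_lit 164) (nat_lit 200)) (PT.lf (nat_lit 36252) (nat_lit 6) (nat_lit 477) (nat_lit 1) (nat_lit 207) (nat_lit 164) (nat_lit 199)))) (PT.nd (nat_lit 156) (PT.nd (nat_lit 78) (PT.lf (nat_lit 36176) (nat_lit 6) (nat_lit 476) (nat_lit 1) (nat_lit 208) (nat_lit 164) (nat_lit 198)) (PT.lf (nat_lit 36100) (nat_lit 6) (nat_lit 475) (nat_lit 1) (nat_lit 209) (nat_lit 164) (nat_lit 197))) (PT.nd (nat_lit 78) (PT.lf (nat_lit 36024) (nat_lit 6) (nat_lit 474) (nat_lit 1) (nat_lit 210) (nat_lit 164) (nat_lit 196)) (PT.lf (nat_lit 35948) (nat_lit 6) (nat_lit 473) (nat_lit 1) (nat_lit 211) (nat_lit 164) (nat_lit 195))))))) (PT.nd (nat_lit 58422) (PT.nd (nat_lit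 57876) (PT.nd (nat_lit 234) (PT.nd (nat_lit 78) (PT.lf (nat_lit 35872) (nat_lit 6) (nat_lit 472) (nat_lit 1) (nat_lit 212) (nat_lit 164) (nat_lit 194)) (PT.nd (nat_lit 78) (PT.lf (nat_lit 35796) (nat_lit 6) (nat_lit 471) (nat_lit 1) (nat_lit 213) (nat_lit 164) (nat_lit 193)) (PT.lf (nat_lit 35720) (nat_lit 6) (nat_lit 470) (nat_lit 1) (nat_lit 214) (nat_lit 164) (nat_lit 192)))) (PT.nd (nat_lit 57486) (PT.nd (nat_lit 57408) (PT.lf (nat_lit 35644) (nat_lit 6) (nat_lit 469) (nat_lit 1) (nat_lit 215) (nat_lit 164) (nat_lit 191)) (PT.lf (nat_lit 36784) (nat_lit 6) (nat_lit 484) (nat_lit 3) (nat_lit 190) (nat_lit 165) (nat_lit 215))) (PT.nd (nat_lit 78) (PT.lf (nat_lit 36860) (nat_lit 6) (nat_lit 485) (nat_lit 3) (nat_lit 191) (nat_lit 165) (nat_lit 214)) (PT.lf (nat_lit 36936) (nat_lit 6) (nat_lit 486) (nat_lit 3) (nat_lit 192) (nat_lit 165) (nat_lit 213))))) (PT.nd (nat_lit 234) (PT.nd (nat_lit 78) (PT.lf (nat_lit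 37012) (nat_lit 6) (nat_lit 487) (nat_lit 3) (nat_lit 193) (nat_lit 165) (nat_lit 212)) (PT.nd (nat_lit 78) (PT.lf (nat_lit 37088) (nat_lit 6) (nat_lit 488) (nat_lit 3) (nat_lit 194) (nat_lit 165) (nat_lit 211)) (PT.lf (nat_lit 37164) (nat_lit 6) (nat_lit 489) (nat_lit 3) (nat_lit 195) (nat_lit 165) (nat_lit 210)))) (PT.nd (nat_lit 156) (PT.nd (nat_lit 78) (PT.lf (nat_lit 37240) (nat_lit 6) (nat_lit 490) (nat_lit 3) (nat_lit 196) (nat_lit 165) (nat_lit 209)) (PT.lf (nat_lit 37316) (nat_lit 6) (nat_lit 491) (nat_lit 3) (nat_lit 197) (nat_lit 165) (nat_lit 208))) (PT.nd (nat_lit 78) (PT.lf (nat_lit 37392) (nat_lit 6) (nat_lit 492) (nat_lit 3) (nat_lit 198) (nat_lit 165) (nat_lit 207)) (PT.lf (nat_lit 37468) (nat_lit 6) (nat_lit 493) (nat_lit 3) (nat_lit 199) (nat_lit 165) (nat_lit 206)))))) (PT.nd (nat_lit 546) (PT.nd (nat_lit 234) (PT.nd (nat_lit 78) (PT.lf (nat_lit 37544) (nat_lit 6) (nat_lit 494) (nat_lit 3) (nat_lit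 200) (nat_lit 165) (nat_lit 205)) (PT.nd (nat_lit 78) (PT.lf (nat_lit 37620) (nat_lit 6) (nat_lit 495) (nat_lit 3) (nat_lit 201) (nat_lit 165) (nat_lit 204)) (PT.lf (nat_lit 37696) (nat_lit 6) (nat_lit 496) (nat_lit 3) (nat_lit 202) (nat_lit 165) (nat_lit 203)))) (PT.nd (nat_lit 156) (PT.nd (nat_lit 78) (PT.lf (nat_lit 37696) (nat_lit 6) (nat_lit 496) (nat_lit 1) (nat_lit 203) (nat_lit 165) (nat_lit 202)) (PT.lf (nat_lit 37620) (nat_lit 6) (nat_lit 495) (nat_lit 1) (nat_lit 204) (nat_lit 165) (nat_lit 201))) (PT.nd (nat_lit 78) (PT.lf (nat_lit 37544) (nat_lit 6) (nat_lit 494) (nat_lit 1) (nat_lit 205) (nat_lit 165) (nat_lit 200)) (PT.lf (nat_lit 37468) (nat_lit 6) (nat_lit 493) (nat_lit 1) (nat_lit 206) (nat_lit 165) (nat_lit 199))))) (PT.nd (nat_lit 312) (PT.nd (nat_lit 156) (PT.nd (nat_lit 78) (PT.lf (nat_lit 37392) (nat_lit 6) (nat_lit 492) (nat_lit 1) (nat_lit 207) (nat_lit 165) (nat_lit 198)) (PT.lf (nat_lit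 37316) (nat_lit 6) (nat_lit 491) (nat_lit 1) (nat_lit 208) (nat_lit 165) (nat_lit 197))) (PT.nd (nat_lit 78) (PT.lf (nat_lit 37240) (nat_lit 6) (nat_lit 490) (nat_lit 1) (nat_lit 209) (nat_lit 165) (nat_lit 196)) (PT.lf (nat_lit 37164) (nat_lit 6) (nat_lit 489) (nat_lit 1) (nat_lit 210) (nat_lit 165) (nat_lit 195)))) (PT.nd (nat_lit 156) (PT.nd (nat_lit 78) (PT.lf (nat_lit 37088) (nat_lit 6) (nat_lit 488) (nat_lit 1) (nat_lit 211) (nat_lit 165) (nat_lit 194)) (PT.lf (nat_lit 37012) (nat_lit 6) (nat_lit 487) (nat_lit 1) (nat_lit 212) (nat_lit 165) (nat_lit 193))) (PT.nd (nat_lit 78) (PT.lf (nat_lit 36936) (nat_lit 6) (nat_lit 486) (nat_lit 1) (nat_lit 213) (nat_lit 165) (nat_lit 192)) (PT.lf (nat_lit 36860) (nat_lit 6) (nat_lit 485) (nat_lit 1) (nat_lit 214) (nat_lit 165) (nat_lit 191))))))))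
noncomputable def pc11 : PT := (PT.nd (nat_lit 116688) (PT.nd (nat_lit 58344) (PT.nd (nat_lit 57798) (PT.nd (nat_lit 57486) (PT.nd (nat_lit 57330) (PT.lf (nat_lit 36784) (nat_lit 6) (nat_lit 484) (nat_lit 1) (nat_lit 215) (nat_lit 165) (nat_lit 190)) (PT.nd (nat_lit 78) (PT.lf (nat_lit 36708) (nat_lit 6) (nat_lit 483) (nat_lit 3) (nat_lit 189) (nat_lit 166) (nat_lit 215)) (PT.lf (nat_lit 38684) (nat_lit 6) (nat_lit 509) (nat_lit 3) (nat_lit 190) (nat_lit 166) (nat_lit 214)))) (PT.nd (nat_lit 156) (PT.nd (nat_lit 78) (PT.lf (nat_lit 38760) (nat_lit 6) (nat_lit 510) (nat_lit 3) (nat_lit 191) (nat_lit 166) (nat_lit 213)) (PT.lf (nat_lit 38836) (nat_lit 6) (nat_lit 511) (nat_lit 3) (nat_lit 192) (nat_lit 166) (nat_lit 212))) (PT.nd (nat_lit 78) (PT.lf (nat_lit 38912) (nat_lit 6) (nat_lit 512) (nat_lit 3) (nat_lit 193) (nat_lit 166) (nat_lit 211)) (PT.lf (nat_lit 38988) (nat_lit 6) (nat_lit 513) (nat_lit 3) (nat_lit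 194) (nat_lit 166) (nat_lit 210))))) (PT.nd (nat_lit 234) (PT.nd (nat_lit 78) (PT.lf (nat_lit 39064) (nat_lit 6) (nat_lit 514) (nat_lit 3) (nat_lit 195) (nat_lit 166) (nat_lit 209)) (PT.nd (nat_lit 78) (PT.lf (nat_lit 39140) (nat_lit 6) (nat_lit 515) (nat_lit 3) (nat_lit 196) (nat_lit 166) (nat_lit 208)) (PT.lf (nat_lit 39216) (nat_lit 6) (nat_lit 516) (nat_lit 3) (nat_lit 197) (nat_lit 166) (nat_lit 207)))) (PT.nd (nat_lit 156) (PT.nd (nat_lit 78) (PT.lf (nat_lit 39292) (nat_lit 6) (nat_lit 517) (nat_lit 3) (nat_lit 198) (nat_lit 166) (nat_lit 206)) (PT.lf (nat_lit 39368) (nat_lit 6) (nat_lit 518) (nat_lit 3) (nat_lit 199) (nat_lit 166) (nat_lit 205))) (PT.nd (nat_lit 78) (PT.lf (nat_lit 39444) (nat_lit 6) (nat_lit 519) (nat_lit 3) (nat_lit 200) (nat_lit 166) (nat_lit 204)) (PT.lf (nat_lit 39520) (nat_lit 6) (nat_lit 520) (nat_lit 3) (nat_lit 201) (nat_lit 166) (nat_lit 203)))))) (PT.nd (nat_lit 546) (PT.nd (nat_lit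 234) (PT.nd (nat_lit 78) (PT.lf (nat_lit 39596) (nat_lit 3) (nat_lit 521) (nat_lit 1) (nat_lit 202) (nat_lit 166) (nat_lit 202)) (PT.nd (nat_lit 78) (PT.lf (nat_lit 39520) (nat_lit 6) (nat_lit 520) (nat_lit 1) (nat_lit 203) (nat_lit 166) (nat_lit 201)) (PT.lf (nat_lit 39444) (nat_lit 6) (nat_lit 519) (nat_lit 1) (nat_lit 204) (nat_lit 166) (nat_lit 200)))) (PT.nd (nat_lit 156) (PT.nd (nat_lit 78) (PT.lf (nat_lit 39368) (nat_lit 6) (nat_lit 518) (nat_lit 1) (nat_lit 205) (nat_lit 166) (nat_lit 199)) (PT.lf (nat_lit 39292) (nat_lit 6) (nat_lit 517) (nat_lit 1) (nat_lit 206) (nat_lit 166) (nat_lit 198))) (PT.nd (nat_lit 78) (PT.lf (nat_lit 39216) (nat_lit 6) (nat_lit 516) (nat_lit 1) (nat_lit 207) (nat_lit 166) (nat_lit 197)) (PT.lf (nat_lit 39140) (nat_lit 6) (nat_lit 515) (nat_lit 1) (nat_lit 208) (nat_lit 166) (nat_lit 196))))) (PT.nd (nat_lit 312) (PT.nd (nat_lit 156) (PT.nd (nat_lit 78) (PT.lf (nat_lit 39064)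 (nat_lit 6) (nat_lit 514) (nat_lit 1) (nat_lit 209) (nat_lit 166) (nat_lit 195)) (PT.lf (nat_lit 38988) (nat_lit 6) (nat_lit 513) (nat_lit 1) (nat_lit 210) (nat_lit 166) (nat_lit 194))) (PT.nd (nat_lit 78) (PT.lf (nat_lit 38912) (nat_lit 6) (nat_lit 512) (nat_lit 1) (nat_lit 211) (nat_lit 166) (nat_lit 193)) (PT.lf (nat_lit 38836) (nat_lit 6) (nat_lit 511) (nat_lit 1) (nat_lit 212) (nat_lit 166) (nat_lit 192)))) (PT.nd (nat_lit 156) (PT.nd (nat_lit 78) (PT.lf (nat_lit 38760) (nat_lit 6) (nat_lit 510) (nat_lit 1) (nat_lit 213) (nat_lit 166) (nat_lit 191)) (PT.lf (nat_lit 38684) (nat_lit 6) (nat_lit 509) (nat_lit 1) (nat_lit 214) (nat_lit 166) (nat_lit 190))) (PT.nd (nat_lit 57252) (PT.lf (nat_lit 36708) (nat_lit 6) (nat_lit 483) (nat_lit 1) (nat_lit 215) (nat_lit 166) (nat_lit 189)) (PT.lf (nat_lit 36632) (nat_lit 6) (nat_lit 482) (nat_lit 3) (nat_lit 188) (nat_lit 167) (nat_lit 215))))))) (PT.nd (nat_lit 1170)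 (PT.nd (nat_lit 546) (PT.nd (nat_lit 234) (PT.nd (nat_lit 78) (PT.lf (nat_lit 38608) (nat_lit 6) (nat_lit 508) (nat_lit 3) (nat_lit 189) (nat_lit 167) (nat_lit 214)) (PT.nd (nat_lit 78) (PT.lf (nat_lit 40508) (nat_lit 6) (nat_lit 533) (nat_lit 3) (nat_lit 190) (nat_lit 167) (nat_lit 213)) (PT.lf (nat_lit 40584) (nat_lit 6) (nat_lit 534) (nat_lit 3) (nat_lit 191) (nat_lit 167) (nat_lit 212)))) (PT.nd (nat_lit 156) (PT.nd (nat_lit 78) (PT.lf (nat_lit 40660) (nat_lit 6) (nat_lit 535) (nat_lit 3) (nat_lit 192) (nat_lit 167) (nat_lit 211)) (PT.lf (nat_lit 40736) (nat_lit 6) (nat_lit 536) (nat_lit 3) (nat_lit 193) (nat_lit 167) (nat_lit 210))) (PT.nd (nat_lit 78) (PT.lf (nat_lit 40812) (nat_lit 6) (nat_lit 537) (nat_lit 3) (nat_lit 194) (nat_lit 167) (nat_lit 209)) (PT.lf (nat_lit 40888) (nat_lit 6) (nat_lit 538) (nat_lit 3) (nat_lit 195) (nat_lit 167) (nat_lit 208))))) (PT.nd (nat_lit 312) (PT.nd (nat_lit 156) (PT.nd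 (nat_lit 78) (PT.lf (nat_lit 40964) (nat_lit 6) (nat_lit 539) (nat_lit 3) (nat_lit 196) (nat_lit 167) (nat_lit 207)) (PT.lf (nat_lit 41040) (nat_lit 6) (nat_lit 540) (nat_lit 3) (nat_lit 197) (nat_lit 167) (nat_lit 206))) (PT.nd (nat_lit 78) (PT.lf (nat_lit 41116) (nat_lit 6) (nat_lit 541) (nat_lit 3) (nat_lit 198) (nat_lit 167) (nat_lit 205)) (PT.lf (nat_lit 41192) (nat_lit 6) (nat_lit 542) (nat_lit 3) (nat_lit 199) (nat_lit 167) (nat_lit 204)))) (PT.nd (nat_lit 156) (PT.nd (nat_lit 78) (PT.lf (nat_lit 41268) (nat_lit 6) (nat_lit 543) (nat_lit 3) (nat_lit 200) (nat_lit 167) (nat_lit 203)) (PT.lf (nat_lit 41344) (nat_lit 6) (nat_lit 544) (nat_lit 3) (nat_lit 201) (nat_lit 167) (nat_lit 202))) (PT.nd (nat_lit 78) (PT.lf (nat_lit 41344) (nat_lit 6) (nat_lit 544) (nat_lit 1) (nat_lit 202) (nat_lit 167) (nat_lit 201)) (PT.lf (nat_lit 41268) (nat_lit 6) (nat_lit 543) (nat_lit 1) (nat_lit 203) (nat_lit 167) (nat_lit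 200)))))) (PT.nd (nat_lit 546) (PT.nd (nat_lit 234) (PT.nd (nat_lit 78) (PT.lf (nat_lit 41192) (nat_lit 6) (nat_lit 542) (nat_lit 1) (nat_lit 204) (nat_lit 167) (nat_lit 199)) (PT.nd (nat_lit 78) (PT.lf (nat_lit 41116) (nat_lit 6) (nat_lit 541) (nat_lit 1) (nat_lit 205) (nat_lit 167) (nat_lit 198)) (PT.lf (nat_lit 41040) (nat_lit 6) (nat_lit 540) (nat_lit 1) (nat_lit 206) (nat_lit 167) (nat_lit 197)))) (PT.nd (nat_lit 156) (PT.nd (nat_lit 78) (PT.lf (nat_lit 40964) (nat_lit 6) (nat_lit 539) (nat_lit 1) (nat_lit 207) (nat_lit 167) (nat_lit 196)) (PT.lf (nat_lit 40888) (nat_lit 6) (nat_lit 538) (nat_lit 1) (nat_lit 208) (nat_lit 167) (nat_lit 195))) (PT.nd (nat_lit 78) (PT.lf (nat_lit 40812) (nat_lit 6) (nat_lit 537) (nat_lit 1) (nat_lit 209) (nat_lit 167) (nat_lit 194)) (PT.lf (nat_lit 40736) (nat_lit 6) (nat_lit 536) (nat_lit 1) (nat_lit 210) (nat_lit 167) (nat_lit 193))))) (PT.nd (nat_lit 312) (PT.nd (nat_lit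 156) (PT.nd (nat_lit 78) (PT.lf (nat_lit 40660) (nat_lit 6) (nat_lit 535) (nat_lit 1) (nat_lit 211) (nat_lit 167) (nat_lit 192)) (PT.lf (nat_lit 40584) (nat_lit 6) (nat_lit 534) (nat_lit 1) (nat_lit 212) (nat_lit 167) (nat_lit 191))) (PT.nd (nat_lit 78) (PT.lf (nat_lit 40508) (nat_lit 6) (nat_lit 533) (nat_lit 1) (nat_lit 213) (nat_lit 167) (nat_lit 190)) (PT.lf (nat_lit 38608) (nat_lit 6) (nat_lit 508) (nat_lit 1) (nat_lit 214) (nat_lit 167) (nat_lit 189)))) (PT.nd (nat_lit 57330) (PT.nd (nat_lit 57252) (PT.lf (nat_lit 36632) (nat_lit 6) (nat_lit 482) (nat_lit 1) (nat_lit 215) (nat_lit 167) (nat_lit 188)) (PT.lf (nat_lit 38532) (nat_lit 6) (nat_lit 507) (nat_lit 3) (nat_lit 188) (nat_lit 168) (nat_lit 214))) (PT.nd (nat_lit 78) (PT.lf (nat_lit 40432) (nat_lit 6) (nat_lit 532) (nat_lit 3) (nat_lit 189) (nat_lit 168) (nat_lit 213)) (PT.lf (nat_lit 42256) (nat_lit 6) (nat_lit 556) (nat_lit 3) (nat_lit 190) (nat_lit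 168) (nat_lit 212))))))))
noncomputable def pc12 : PT := (PT.nd (nat_lit 59436) (PT.nd (nat_lit 1092) (PT.nd (nat_lit 546) (PT.nd (nat_lit 234) (PT.nd (nat_lit 78) (PT.lf (nat_lit 42332) (nat_lit 6) (nat_lit 557) (nat_lit 3) (nat_lit 191) (nat_lit 168) (nat_lit 211)) (PT.nd (nat_lit 78) (PT.lf (nat_lit 42408) (nat_lit 6) (nat_lit 558) (nat_lit 3) (nat_lit 192) (nat_lit 168) (nat_lit 210)) (PT.lf (nat_lit 42484) (nat_lit 6) (nat_lit 559) (nat_lit 3) (nat_lit 193) (nat_lit 168) (nat_lit 209)))) (PT.nd (nat_lit 156) (PT.nd (nat_lit 78) (PT.lf (nat_lit 42560) (nat_lit 6) (nat_lit 560) (nat_lit 3) (nat_lit 194) (nat_lit 168) (nat_lit 208)) (PT.lf (nat_lit 42636) (nat_lit 6) (nat_lit 561) (nat_lit 3) (nat_lit 195) (nat_lit 168) (nat_lit 207))) (PT.nd (nat_lit 78) (PT.lf (nat_lit 42712) (nat_lit 6) (nat_lit 562) (nat_lit 3) (nat_lit 196) (nat_lit 168) (nat_lit 206)) (PT.lf (nat_lit 42788) (nat_lit 6) (nat_lit 563) (nat_lit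 3) (nat_lit 197) (nat_lit 168) (nat_lit 205))))) (PT.nd (nat_lit 234) (PT.nd (nat_lit 78) (PT.lf (nat_lit 42864) (nat_lit 6) (nat_lit 564) (nat_lit 3) (nat_lit 198) (nat_lit 168) (nat_lit 204)) (PT.nd (nat_lit 78) (PT.lf (nat_lit 42940) (nat_lit 6) (nat_lit 565) (nat_lit 3) (nat_lit 199) (nat_lit 168) (nat_lit 203)) (PT.lf (nat_lit 43016) (nat_lit 6) (nat_lit 566) (nat_lit 3) (nat_lit 200) (nat_lit 168) (nat_lit 202)))) (PT.nd (nat_lit 156) (PT.nd (nat_lit 78) (PT.lf (nat_lit 43092) (nat_lit 3) (nat_lit 567) (nat_lit 1) (nat_lit 201) (nat_lit 168) (nat_lit 201)) (PT.lf (nat_lit 43016) (nat_lit 6) (nat_lit 566) (nat_lit 1) (nat_lit 202) (nat_lit 168) (nat_lit 200))) (PT.nd (nat_lit 78) (PT.lf (nat_lit 42940) (nat_lit 6) (nat_lit 565) (nat_lit 1) (nat_lit 203) (nat_lit 168) (nat_lit 199)) (PT.lf (nat_lit 42864) (nat_lit 6) (nat_lit 564) (nat_lit 1) (nat_lit 204) (nat_lit 168) (nat_lit 198)))))) (PT.nd (nat_lit 546)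 (PT.nd (nat_lit 234) (PT.nd (nat_lit 78) (PT.lf (nat_lit 42788) (nat_lit 6) (nat_lit 563) (nat_lit 1) (nat_lit 205) (nat_lit 168) (nat_lit 197)) (PT.nd (nat_lit 78) (PT.lf (nat_lit 42712) (nat_lit 6) (nat_lit 562) (nat_lit 1) (nat_lit 206) (nat_lit 168) (nat_lit 196)) (PT.lf (nat_lit 42636) (nat_lit 6) (nat_lit 561) (nat_lit 1) (nat_lit 207) (nat_lit 168) (nat_lit 195)))) (PT.nd (nat_lit 156) (PT.nd (nat_lit 78) (PT.lf (nat_lit 42560) (nat_lit 6) (nat_lit 560) (nat_lit 1) (nat_lit 208) (nat_lit 168) (nat_lit 194)) (PT.lf (nat_lit 42484) (nat_lit 6) (nat_lit 559) (nat_lit 1) (nat_lit 209) (nat_lit 168) (nat_lit 193))) (PT.nd (nat_lit 78) (PT.lf (nat_lit 42408) (nat_lit 6) (nat_lit 558) (nat_lit 1) (nat_lit 210) (nat_lit 168) (nat_lit 192)) (PT.lf (nat_lit 42332) (nat_lit 6) (nat_lit 557) (nat_lit 1) (nat_lit 211) (nat_lit 168) (nat_lit 191))))) (PT.nd (nat_lit 57486) (PT.nd (nat_lit 156) (PT.nd (nat_lit 78) (PT.lf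 (nat_lit 42256) (nat_lit 6) (nat_lit 556) (nat_lit 1) (nat_lit 212) (nat_lit 168) (nat_lit 190)) (PT.lf (nat_lit 40432) (nat_lit 6) (nat_lit 532) (nat_lit 1) (nat_lit 213) (nat_lit 168) (nat_lit 189))) (PT.nd (nat_lit 57252) (PT.lf (nat_lit 38532) (nat_lit 6) (nat_lit 507) (nat_lit 1) (nat_lit 214) (nat_lit 168) (nat_lit 188)) (PT.lf (nat_lit 38456) (nat_lit 6) (nat_lit 506) (nat_lit 3) (nat_lit 187) (nat_lit 169) (nat_lit 214)))) (PT.nd (nat_lit 156) (PT.nd (nat_lit 78) (PT.lf (nat_lit 40356) (nat_lit 6) (nat_lit 531) (nat_lit 3) (nat_lit 188) (nat_lit 169) (nat_lit 213)) (PT.lf (nat_lit 42180) (nat_lit 6) (nat_lit 555) (nat_lit 3) (nat_lit 189) (nat_lit 169) (nat_lit 212))) (PT.nd (nat_lit 78) (PT.lf (nat_lit 43928) (nat_lit 6) (nat_lit 578) (nat_lit 3) (nat_lit 190) (nat_lit 169) (nat_lit 211)) (PT.lf (nat_lit 44004) (nat_lit 6) (nat_lit 579) (nat_lit 3) (nat_lit 191) (nat_lit 169) (nat_lit 210))))))) (PT.nd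 (nat_lit 1092) (PT.nd (nat_lit 546) (PT.nd (nat_lit 234) (PT.nd (nat_lit 78) (PT.lf (nat_lit 44080) (nat_lit 6) (nat_lit 580) (nat_lit 3) (nat_lit 192) (nat_lit 169) (nat_lit 209)) (PT.nd (nat_lit 78) (PT.lf (nat_lit 44156) (nat_lit 6) (nat_lit 581) (nat_lit 3) (nat_lit 193) (nat_lit 169) (nat_lit 208)) (PT.lf (nat_lit 44232) (nat_lit 6) (nat_lit 582) (nat_lit 3) (nat_lit 194) (nat_lit 169) (nat_lit 207)))) (PT.nd (nat_lit 156) (PT.nd (nat_lit 78) (PT.lf (nat_lit 44308) (nat_lit 6) (nat_lit 583) (nat_lit 3) (nat_lit 195) (nat_lit 169) (nat_lit 206)) (PT.lf (nat_lit 44384) (nat_lit 6) (nat_lit 584) (nat_lit 3) (nat_lit 196) (nat_lit 169) (nat_lit 205))) (PT.nd (nat_lit 78) (PT.lf (nat_lit 44460) (nat_lit 6) (nat_lit 585) (nat_lit 3) (nat_lit 197) (nat_lit 169) (nat_lit 204)) (PT.lf (nat_lit 44536) (nat_lit 6) (nat_lit 586) (nat_lit 3) (nat_lit 198) (nat_lit 169) (nat_lit 203))))) (PT.nd (nat_lit 234) (PT.nd (nat_lit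 78) (PT.lf (nat_lit 44612) (nat_lit 6) (nat_lit 587) (nat_lit 3) (nat_lit 199) (nat_lit 169) (nat_lit 202)) (PT.nd (nat_lit 78) (PT.lf (nat_lit 44688) (nat_lit 6) (nat_lit 588) (nat_lit 3) (nat_lit 200) (nat_lit 169) (nat_lit 201)) (PT.lf (nat_lit 44688) (nat_lit 6) (nat_lit 588) (nat_lit 1) (nat_lit 201) (nat_lit 169) (nat_lit 200)))) (PT.nd (nat_lit 156) (PT.nd (nat_lit 78) (PT.lf (nat_lit 44612) (nat_lit 6) (nat_lit 587) (nat_lit 1) (nat_lit 202) (nat_lit 169) (nat_lit 199)) (PT.lf (nat_lit 44536) (nat_lit 6) (nat_lit 586) (nat_lit 1) (nat_lit 203) (nat_lit 169) (nat_lit 198))) (PT.nd (nat_lit 78) (PT.lf (nat_lit 44460) (nat_lit 6) (nat_lit 585) (nat_lit 1) (nat_lit 204) (nat_lit 169) (nat_lit 197)) (PT.lf (nat_lit 44384) (nat_lit 6) (nat_lit 584) (nat_lit 1) (nat_lit 205) (nat_lit 169) (nat_lit 196)))))) (PT.nd (nat_lit 546) (PT.nd (nat_lit 234) (PT.nd (nat_lit 78) (PT.lf (nat_lit 44308) (nat_lit 6) (nat_lit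 583) (nat_lit 1) (nat_lit 206) (nat_lit 169) (nat_lit 195)) (PT.nd (nat_lit 78) (PT.lf (nat_lit 44232) (nat_lit 6) (nat_lit 582) (nat_lit 1) (nat_lit 207) (nat_lit 169) (nat_lit 194)) (PT.lf (nat_lit 44156) (nat_lit 6) (nat_lit 581) (nat_lit 1) (nat_lit 208) (nat_lit 169) (nat_lit 193)))) (PT.nd (nat_lit 156) (PT.nd (nat_lit 78) (PT.lf (nat_lit 44080) (nat_lit 6) (nat_lit 580) (nat_lit 1) (nat_lit 209) (nat_lit 169) (nat_lit 192)) (PT.lf (nat_lit 44004) (nat_lit 6) (nat_lit 579) (nat_lit 1) (nat_lit 210) (nat_lit 169) (nat_lit 191))) (PT.nd (nat_lit 78) (PT.lf (nat_lit 43928) (nat_lit 6) (nat_lit 578) (nat_lit 1) (nat_lit 211) (nat_lit 169) (nat_lit 190)) (PT.lf (nat_lit 42180) (nat_lit 6) (nat_lit 555) (nat_lit 1) (nat_lit 212) (nat_lit 169) (nat_lit 189))))) (PT.nd (nat_lit 57408) (PT.nd (nat_lit 57252) (PT.nd (nat_lit 78) (PT.lf (nat_lit 40356) (nat_lit 6) (nat_lit 531) (nat_lit 1) (nat_lit 213) (nat_lit 169)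 (nat_lit 188)) (PT.lf (nat_lit 38456) (nat_lit 6) (nat_lit 506) (nat_lit 1) (nat_lit 214) (nat_lit 169) (nat_lit 187))) (PT.nd (nat_lit 78) (PT.lf (nat_lit 38380) (nat_lit 6) (nat_lit 505) (nat_lit 3) (nat_lit 186) (nat_lit 170) (nat_lit 214)) (PT.lf (nat_lit 40280) (nat_lit 6) (nat_lit 530) (nat_lit 3) (nat_lit 187) (nat_lit 170) (nat_lit 213)))) (PT.nd (nat_lit 156) (PT.nd (nat_lit 78) (PT.lf (nat_lit 42104) (nat_lit 6) (nat_lit 554) (nat_lit 3) (nat_lit 188) (nat_lit 170) (nat_lit 212)) (PT.lf (nat_lit 43852) (nat_lit 6) (nat_lit 577) (nat_lit 3) (nat_lit 189) (nat_lit 170) (nat_lit 211))) (PT.nd (nat_lit 78) (PT.lf (nat_lit 45524) (nat_lit 6) (nat_lit 599) (nat_lit 3) (nat_lit 190) (nat_lit 170) (nat_lit 210)) (PT.lf (nat_lit 45600) (nat_lit 6) (nat_lit 600) (nat_lit 3) (nat_lit 191) (nat_lit 170) (nat_lit 209))))))))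
noncomputable def pc13 : PT := (PT.nd (nat_lit 59280) (PT.nd (nat_lit 1092) (PT.nd (nat_lit 546) (PT.nd (nat_lit 234) (PT.nd (nat_lit 78) (PT.lf (nat_lit 45676) (nat_lit 6) (nat_lit 601) (nat_lit 3) (nat_lit 192) (nat_lit 170) (nat_lit 208)) (PT.nd (nat_lit 78) (PT.lf (nat_lit 45752) (nat_lit 6) (nat_lit 602) (nat_lit 3) (nat_lit 193) (nat_lit 170) (nat_lit 207)) (PT.lf (nat_lit 45828) (nat_lit 6) (nat_lit 603) (nat_lit 3) (nat_lit 194) (nat_lit 170) (nat_lit 206)))) (PT.nd (nat_lit 156) (PT.nd (nat_lit 78) (PT.lf (nat_lit 45904) (nat_lit 6) (nat_lit 604) (nat_lit 3) (nat_lit 195) (nat_lit 170) (nat_lit 205)) (PT.lf (nat_lit 45980) (nat_lit 6) (nat_lit 605) (nat_lit 3) (nat_lit 196) (nat_lit 170) (nat_lit 204))) (PT.nd (nat_lit 78) (PT.lf (nat_lit 46056) (nat_lit 6) (nat_lit 606) (nat_lit 3) (nat_lit 197) (nat_lit 170) (nat_lit 203)) (PT.lf (nat_lit 46132) (nat_lit 6) (nat_lit 607) (nat_lit 3) (nat_lit 198) (nat_lit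 170) (nat_lit 202))))) (PT.nd (nat_lit 234) (PT.nd (nat_lit 78) (PT.lf (nat_lit 46208) (nat_lit 6) (nat_lit 608) (nat_lit 3) (nat_lit 199) (nat_lit 170) (nat_lit 201)) (PT.nd (nat_lit 78) (PT.lf (nat_lit 46284) (nat_lit 3) (nat_lit 609) (nat_lit 1) (nat_lit 200) (nat_lit 170) (nat_lit 200)) (PT.lf (nat_lit 46208) (nat_lit 6) (nat_lit 608) (nat_lit 1) (nat_lit 201) (nat_lit 170) (nat_lit 199)))) (PT.nd (nat_lit 156) (PT.nd (nat_lit 78) (PT.lf (nat_lit 46132) (nat_lit 6) (nat_lit 607) (nat_lit 1) (nat_lit 202) (nat_lit 170) (nat_lit 198)) (PT.lf (nat_lit 46056) (nat_lit 6) (nat_lit 606) (nat_lit 1) (nat_lit 203) (nat_lit 170) (nat_lit 197))) (PT.nd (nat_lit 78) (PT.lf (nat_lit 45980) (nat_lit 6) (nat_lit 605) (nat_lit 1) (nat_lit 204) (nat_lit 170) (nat_lit 196)) (PT.lf (nat_lit 45904) (nat_lit 6) (nat_lit 604) (nat_lit 1) (nat_lit 205) (nat_lit 170) (nat_lit 195)))))) (PT.nd (nat_lit 546) (PT.nd (nat_lit 234) (PT.nd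 (nat_lit 78) (PT.lf (nat_lit 45828) (nat_lit 6) (nat_lit 603) (nat_lit 1) (nat_lit 206) (nat_lit 170) (nat_lit 194)) (PT.nd (nat_lit 78) (PT.lf (nat_lit 45752) (nat_lit 6) (nat_lit 602) (nat_lit 1) (nat_lit 207) (nat_lit 170) (nat_lit 193)) (PT.lf (nat_lit 45676) (nat_lit 6) (nat_lit 601) (nat_lit 1) (nat_lit 208) (nat_lit 170) (nat_lit 192)))) (PT.nd (nat_lit 156) (PT.nd (nat_lit 78) (PT.lf (nat_lit 45600) (nat_lit 6) (nat_lit 600) (nat_lit 1) (nat_lit 209) (nat_lit 170) (nat_lit 191)) (PT.lf (nat_lit 45524) (nat_lit 6) (nat_lit 599) (nat_lit 1) (nat_lit 210) (nat_lit 170) (nat_lit 190))) (PT.nd (nat_lit 78) (PT.lf (nat_lit 43852) (nat_lit 6) (nat_lit 577) (nat_lit 1) (nat_lit 211) (nat_lit 170) (nat_lit 189)) (PT.lf (nat_lit 42104) (nat_lit 6) (nat_lit 554) (nat_lit 1) (nat_lit 212) (nat_lit 170) (nat_lit 188))))) (PT.nd (nat_lit 57330) (PT.nd (nat_lit 57174) (PT.nd (nat_lit 78) (PT.lf (nat_lit 40280) (nat_lit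 6) (nat_lit 530) (nat_lit 1) (nat_lit 213) (nat_lit 170) (nat_lit 187)) (PT.lf (nat_lit 38380) (nat_lit 6) (nat_lit 505) (nat_lit 1) (nat_lit 214) (nat_lit 170) (nat_lit 186))) (PT.nd (nat_lit 78) (PT.lf (nat_lit 38304) (nat_lit 6) (nat_lit 504) (nat_lit 3) (nat_lit 185) (nat_lit 171) (nat_lit 214)) (PT.lf (nat_lit 40204) (nat_lit 6) (nat_lit 529) (nat_lit 3) (nat_lit 186) (nat_lit 171) (nat_lit 213)))) (PT.nd (nat_lit 156) (PT.nd (nat_lit 78) (PT.lf (nat_lit 42028) (nat_lit 6) (nat_lit 553) (nat_lit 3) (nat_lit 187) (nat_lit 171) (nat_lit 212)) (PT.lf (nat_lit 43776) (nat_lit 6) (nat_lit 576) (nat_lit 3) (nat_lit 188) (nat_lit 171) (nat_lit 211))) (PT.nd (nat_lit 78) (PT.lf (nat_lit 45448) (nat_lit 6) (nat_lit 598) (nat_lit 3) (nat_lit 189) (nat_lit 171) (nat_lit 210)) (PT.lf (nat_lit 47044) (nat_lit 6) (nat_lit 619) (nat_lit 3) (nat_lit 190) (nat_lit 171) (nat_lit 209))))))) (PT.nd (nat_lit 1170) (PT.nd (nat_lit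 546) (PT.nd (nat_lit 234) (PT.nd (nat_lit 78) (PT.lf (nat_lit 47120) (nat_lit 6) (nat_lit 620) (nat_lit 3) (nat_lit 191) (nat_lit 171) (nat_lit 208)) (PT.nd (nat_lit 78) (PT.lf (nat_lit 47196) (nat_lit 6) (nat_lit 621) (nat_lit 3) (nat_lit 192) (nat_lit 171) (nat_lit 207)) (PT.lf (nat_lit 47272) (nat_lit 6) (nat_lit 622) (nat_lit 3) (nat_lit 193) (nat_lit 171) (nat_lit 206)))) (PT.nd (nat_lit 156) (PT.nd (nat_lit 78) (PT.lf (nat_lit 47348) (nat_lit 6) (nat_lit 623) (nat_lit 3) (nat_lit 194) (nat_lit 171) (nat_lit 205)) (PT.lf (nat_lit 47424) (nat_lit 6) (nat_lit 624) (nat_lit 3) (nat_lit 195) (nat_lit 171) (nat_lit 204))) (PT.nd (nat_lit 78) (PT.lf (nat_lit 47500) (nat_lit 6) (nat_lit 625) (nat_lit 3) (nat_lit 196) (nat_lit 171) (nat_lit 203)) (PT.lf (nat_lit 47576) (nat_lit 6) (nat_lit 626) (nat_lit 3) (nat_lit 197) (nat_lit 171) (nat_lit 202))))) (PT.nd (nat_lit 312) (PT.nd (nat_lit 156) (PT.nd (nat_lit 78) (PT.lf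 (nat_lit 47652) (nat_lit 6) (nat_lit 627) (nat_lit 3) (nat_lit 198) (nat_lit 171) (nat_lit 201)) (PT.lf (nat_lit 47728) (nat_lit 6) (nat_lit 628) (nat_lit 3) (nat_lit 199) (nat_lit 171) (nat_lit 200))) (PT.nd (nat_lit 78) (PT.lf (nat_lit 47728) (nat_lit 6) (nat_lit 628) (nat_lit 1) (nat_lit 200) (nat_lit 171) (nat_lit 199)) (PT.lf (nat_lit 47652) (nat_lit 6) (nat_lit 627) (nat_lit 1) (nat_lit 201) (nat_lit 171) (nat_lit 198)))) (PT.nd (nat_lit 156) (PT.nd (nat_lit 78) (PT.lf (nat_lit 47576) (nat_lit 6) (nat_lit 626) (nat_lit 1) (nat_lit 202) (nat_lit 171) (nat_lit 197)) (PT.lf (nat_lit 47500) (nat_lit 6) (nat_lit 625) (nat_lit 1) (nat_lit 203) (nat_lit 171) (nat_lit 196))) (PT.nd (nat_lit 78) (PT.lf (nat_lit 47424) (nat_lit 6) (nat_lit 624) (nat_lit 1) (nat_lit 204) (nat_lit 171) (nat_lit 195)) (PT.lf (nat_lit 47348) (nat_lit 6) (nat_lit 623) (nat_lit 1) (nat_lit 205) (nat_lit 171) (nat_lit 194)))))) (PT.nd (nat_lit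 546) (PT.nd (nat_lit 234) (PT.nd (nat_lit 78) (PT.lf (nat_lit 47272) (nat_lit 6) (nat_lit 622) (nat_lit 1) (nat_lit 206) (nat_lit 171) (nat_lit 193)) (PT.nd (nat_lit 78) (PT.lf (nat_lit 47196) (nat_lit 6) (nat_lit 621) (nat_lit 1) (nat_lit 207) (nat_lit 171) (nat_lit 192)) (PT.lf (nat_lit 47120) (nat_lit 6) (nat_lit 620) (nat_lit 1) (nat_lit 208) (nat_lit 171) (nat_lit 191)))) (PT.nd (nat_lit 156) (PT.nd (nat_lit 78) (PT.lf (nat_lit 47044) (nat_lit 6) (nat_lit 619) (nat_lit 1) (nat_lit 209) (nat_lit 171) (nat_lit 190)) (PT.lf (nat_lit 45448) (nat_lit 6) (nat_lit 598) (nat_lit 1) (nat_lit 210) (nat_lit 171) (nat_lit 189))) (PT.nd (nat_lit 78) (PT.lf (nat_lit 43776) (nat_lit 6) (nat_lit 576) (nat_lit 1) (nat_lit 211) (nat_lit 171) (nat_lit 188)) (PT.lf (nat_lit 42028) (nat_lit 6) (nat_lit 553) (nat_lit 1) (nat_lit 212) (nat_lit 171) (nat_lit 187))))) (PT.nd (nat_lit 57252) (PT.nd (nat_lit 57096) (PT.nd (nat_lit 78)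 (PT.lf (nat_lit 40204) (nat_lit 6) (nat_lit 529) (nat_lit 1) (nat_lit 213) (nat_lit 171) (nat_lit 186)) (PT.lf (nat_lit 38304) (nat_lit 6) (nat_lit 504) (nat_lit 1) (nat_lit 214) (nat_lit 171) (nat_lit 185))) (PT.nd (nat_lit 78) (PT.lf (nat_lit 38228) (nat_lit 6) (nat_lit 503) (nat_lit 3) (nat_lit 184) (nat_lit 172) (nat_lit 214)) (PT.lf (nat_lit 40128) (nat_lit 6) (nat_lit 528) (nat_lit 3) (nat_lit 185) (nat_lit 172) (nat_lit 213)))) (PT.nd (nat_lit 156) (PT.nd (nat_lit 78) (PT.lf (nat_lit 41952) (nat_lit 6) (nat_lit 552) (nat_lit 3) (nat_lit 186) (nat_lit 172) (nat_lit 212)) (PT.lf (nat_lit 43700) (nat_lit 6) (nat_lit 575) (nat_lit 3) (nat_lit 187) (nat_lit 172) (nat_lit 211))) (PT.nd (nat_lit 78) (PT.lf (nat_lit 45372) (nat_lit 6) (nat_lit 597) (nat_lit 3) (nat_lit 188) (nat_lit 172) (nat_lit 210)) (PT.lf (nat_lit 46968) (nat_lit 6) (nat_lit 618) (nat_lit 3) (nat_lit 189) (nat_lit 172) (nat_lit 209))))))))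
noncomputable def pc14 : PT := (PT.nd (nat_lit 59124) (PT.nd (nat_lit 1092) (PT.nd (nat_lit 546) (PT.nd (nat_lit 234) (PT.nd (nat_lit 78) (PT.lf (nat_lit 48488) (nat_lit 6) (nat_lit 638) (nat_lit 3) (nat_lit 190) (nat_lit 172) (nat_lit 208)) (PT.nd (nat_lit 78) (PT.lf (nat_lit 48564) (nat_lit 6) (nat_lit 639) (nat_lit 3) (nat_lit 191) (nat_lit 172) (nat_lit 207)) (PT.lf (nat_lit 48640) (nat_lit 6) (nat_lit 640) (nat_lit 3) (nat_lit 192) (nat_lit 172) (nat_lit 206)))) (PT.nd (nat_lit 156) (PT.nd (nat_lit 78) (PT.lf (nat_lit 48716) (nat_lit 6) (nat_lit 641) (nat_lit 3) (nat_lit 193) (nat_lit 172) (nat_lit 205)) (PT.lf (nat_lit 48792) (nat_lit 6) (nat_lit 642) (nat_lit 3) (nat_lit 194) (nat_lit 172) (nat_lit 204))) (PT.nd (nat_lit 78) (PT.lf (nat_lit 48868) (nat_lit 6) (nat_lit 643) (nat_lit 3) (nat_lit 195) (nat_lit 172) (nat_lit 203)) (PT.lf (nat_lit 48944) (nat_lit 6) (nat_lit 644) (nat_lit 3) (nat_lit 196) (nat_lit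 172) (nat_lit 202))))) (PT.nd (nat_lit 234) (PT.nd (nat_lit 78) (PT.lf (nat_lit 49020) (nat_lit 6) (nat_lit 645) (nat_lit 3) (nat_lit 197) (nat_lit 172) (nat_lit 201)) (PT.nd (nat_lit 78) (PT.lf (nat_lit 49096) (nat_lit 6) (nat_lit 646) (nat_lit 3) (nat_lit 198) (nat_lit 172) (nat_lit 200)) (PT.lf (nat_lit 49172) (nat_lit 3) (nat_lit 647) (nat_lit 1) (nat_lit 199) (nat_lit 172) (nat_lit 199)))) (PT.nd (nat_lit 156) (PT.nd (nat_lit 78) (PT.lf (nat_lit 49096) (nat_lit 6) (nat_lit 646) (nat_lit 1) (nat_lit 200) (nat_lit 172) (nat_lit 198)) (PT.lf (nat_lit 49020) (nat_lit 6) (nat_lit 645) (nat_lit 1) (nat_lit 201) (nat_lit 172) (nat_lit 197))) (PT.nd (nat_lit 78) (PT.lf (nat_lit 48944) (nat_lit 6) (nat_lit 644) (nat_lit 1) (nat_lit 202) (nat_lit 172) (nat_lit 196)) (PT.lf (nat_lit 48868) (nat_lit 6) (nat_lit 643) (nat_lit 1) (nat_lit 203) (nat_lit 172) (nat_lit 195)))))) (PT.nd (nat_lit 546) (PT.nd (nat_lit 234) (PT.nd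 (nat_lit 78) (PT.lf (nat_lit 48792) (nat_lit 6) (nat_lit 642) (nat_lit 1) (nat_lit 204) (nat_lit 172) (nat_lit 194)) (PT.nd (nat_lit 78) (PT.lf (nat_lit 48716) (nat_lit 6) (nat_lit 641) (nat_lit 1) (nat_lit 205) (nat_lit 172) (nat_lit 193)) (PT.lf (nat_lit 48640) (nat_lit 6) (nat_lit 640) (nat_lit 1) (nat_lit 206) (nat_lit 172) (nat_lit 192)))) (PT.nd (nat_lit 156) (PT.nd (nat_lit 78) (PT.lf (nat_lit 48564) (nat_lit 6) (nat_lit 639) (nat_lit 1) (nat_lit 207) (nat_lit 172) (nat_lit 191)) (PT.lf (nat_lit 48488) (nat_lit 6) (nat_lit 638) (nat_lit 1) (nat_lit 208) (nat_lit 172) (nat_lit 190))) (PT.nd (nat_lit 78) (PT.lf (nat_lit 46968) (nat_lit 6) (nat_lit 618) (nat_lit 1) (nat_lit 209) (nat_lit 172) (nat_lit 189)) (PT.lf (nat_lit 45372) (nat_lit 6) (nat_lit 597) (nat_lit 1) (nat_lit 210) (nat_lit 172) (nat_lit 188))))) (PT.nd (nat_lit 57174) (PT.nd (nat_lit 156) (PT.nd (nat_lit 78) (PT.lf (nat_lit 43700) (nat_lit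 6) (nat_lit 575) (nat_lit 1) (nat_lit 211) (nat_lit 172) (nat_lit 187)) (PT.lf (nat_lit 41952) (nat_lit 6) (nat_lit 552) (nat_lit 1) (nat_lit 212) (nat_lit 172) (nat_lit 186))) (PT.nd (nat_lit 78) (PT.lf (nat_lit 40128) (nat_lit 6) (nat_lit 528) (nat_lit 1) (nat_lit 213) (nat_lit 172) (nat_lit 185)) (PT.lf (nat_lit 38228) (nat_lit 6) (nat_lit 503) (nat_lit 1) (nat_lit 214) (nat_lit 172) (nat_lit 184)))) (PT.nd (nat_lit 156) (PT.nd (nat_lit 78) (PT.lf (nat_lit 38152) (nat_lit 6) (nat_lit 502) (nat_lit 3) (nat_lit 183) (nat_lit 173) (nat_lit 214)) (PT.lf (nat_lit 40052) (nat_lit 6) (nat_lit 527) (nat_lit 3) (nat_lit 184) (nat_lit 173) (nat_lit 213))) (PT.nd (nat_lit 78) (PT.lf (nat_lit 41876) (nat_lit 6) (nat_lit 551) (nat_lit 3) (nat_lit 185) (nat_lit 173) (nat_lit 212)) (PT.lf (nat_lit 43624) (nat_lit 6) (nat_lit 574) (nat_lit 3) (nat_lit 186) (nat_lit 173) (nat_lit 211))))))) (PT.nd (nat_lit 1092) (PT.nd (nat_lit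 546) (PT.nd (nat_lit 234) (PT.nd (nat_lit 78) (PT.lf (nat_lit 45296) (nat_lit 6) (nat_lit 596) (nat_lit 3) (nat_lit 187) (nat_lit 173) (nat_lit 210)) (PT.nd (nat_lit 78) (PT.lf (nat_lit 46892) (nat_lit 6) (nat_lit 617) (nat_lit 3) (nat_lit 188) (nat_lit 173) (nat_lit 209)) (PT.lf (nat_lit 48412) (nat_lit 6) (nat_lit 637) (nat_lit 3) (nat_lit 189) (nat_lit 173) (nat_lit 208)))) (PT.nd (nat_lit 156) (PT.nd (nat_lit 78) (PT.lf (nat_lit 49856) (nat_lit 6) (nat_lit 656) (nat_lit 3) (nat_lit 190) (nat_lit 173) (nat_lit 207)) (PT.lf (nat_lit 49932) (nat_lit 6) (nat_lit 657) (nat_lit 3) (nat_lit 191) (nat_lit 173) (nat_lit 206))) (PT.nd (nat_lit 78) (PT.lf (nat_lit 50008) (nat_lit 6) (nat_lit 658) (nat_lit 3) (nat_lit 192) (nat_lit 173) (nat_lit 205)) (PT.lf (nat_lit 50084) (nat_lit 6) (nat_lit 659) (nat_lit 3) (nat_lit 193) (nat_lit 173) (nat_lit 204))))) (PT.nd (nat_lit 234) (PT.nd (nat_lit 78) (PT.lf (nat_lit 50160)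 (nat_lit 6) (nat_lit 660) (nat_lit 3) (nat_lit 194) (nat_lit 173) (nat_lit 203)) (PT.nd (nat_lit 78) (PT.lf (nat_lit 50236) (nat_lit 6) (nat_lit 661) (nat_lit 3) (nat_lit 195) (nat_lit 173) (nat_lit 202)) (PT.lf (nat_lit 50312) (nat_lit 6) (nat_lit 662) (nat_lit 3) (nat_lit 196) (nat_lit 173) (nat_lit 201)))) (PT.nd (nat_lit 156) (PT.nd (nat_lit 78) (PT.lf (nat_lit 50388) (nat_lit 6) (nat_lit 663) (nat_lit 3) (nat_lit 197) (nat_lit 173) (nat_lit 200)) (PT.lf (nat_lit 50464) (nat_lit 6) (nat_lit 664) (nat_lit 3) (nat_lit 198) (nat_lit 173) (nat_lit 199))) (PT.nd (nat_lit 78) (PT.lf (nat_lit 50464) (nat_lit 6) (nat_lit 664) (nat_lit 1) (nat_lit 199) (nat_lit 173) (nat_lit 198)) (PT.lf (nat_lit 50388) (nat_lit 6) (nat_lit 663) (nat_lit 1) (nat_lit 200) (nat_lit 173) (nat_lit 197)))))) (PT.nd (nat_lit 546) (PT.nd (nat_lit 234) (PT.nd (nat_lit 78) (PT.lf (nat_lit 50312) (nat_lit 6) (nat_lit 662) (nat_lit 1) (nat_lit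 201) (nat_lit 173) (nat_lit 196)) (PT.nd (nat_lit 78) (PT.lf (nat_lit 50236) (nat_lit 6) (nat_lit 661) (nat_lit 1) (nat_lit 202) (nat_lit 173) (nat_lit 195)) (PT.lf (nat_lit 50160) (nat_lit 6) (nat_lit 660) (nat_lit 1) (nat_lit 203) (nat_lit 173) (nat_lit 194)))) (PT.nd (nat_lit 156) (PT.nd (nat_lit 78) (PT.lf (nat_lit 50084) (nat_lit 6) (nat_lit 659) (nat_lit 1) (nat_lit 204) (nat_lit 173) (nat_lit 193)) (PT.lf (nat_lit 50008) (nat_lit 6) (nat_lit 658) (nat_lit 1) (nat_lit 205) (nat_lit 173) (nat_lit 192))) (PT.nd (nat_lit 78) (PT.lf (nat_lit 49932) (nat_lit 6) (nat_lit 657) (nat_lit 1) (nat_lit 206) (nat_lit 173) (nat_lit 191)) (PT.lf (nat_lit 49856) (nat_lit 6) (nat_lit 656) (nat_lit 1) (nat_lit 207) (nat_lit 173) (nat_lit 190))))) (PT.nd (nat_lit 312) (PT.nd (nat_lit 156) (PT.nd (nat_lit 78) (PT.lf (nat_lit 48412) (nat_lit 6) (nat_lit 637) (nat_lit 1) (nat_lit 208) (nat_lit 173) (nat_lit 189)) (PT.lf (nat_lit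 46892) (nat_lit 6) (nat_lit 617) (nat_lit 1) (nat_lit 209) (nat_lit 173) (nat_lit 188))) (PT.nd (nat_lit 78) (PT.lf (nat_lit 45296) (nat_lit 6) (nat_lit 596) (nat_lit 1) (nat_lit 210) (nat_lit 173) (nat_lit 187)) (PT.lf (nat_lit 43624) (nat_lit 6) (nat_lit 574) (nat_lit 1) (nat_lit 211) (nat_lit 173) (nat_lit 186)))) (PT.nd (nat_lit 156) (PT.nd (nat_lit 78) (PT.lf (nat_lit 41876) (nat_lit 6) (nat_lit 551) (nat_lit 1) (nat_lit 212) (nat_lit 173) (nat_lit 185)) (PT.lf (nat_lit 40052) (nat_lit 6) (nat_lit 527) (nat_lit 1) (nat_lit 213) (nat_lit 173) (nat_lit 184))) (PT.nd (nat_lit 56862) (PT.lf (nat_lit 38152) (nat_lit 6) (nat_lit 502) (nat_lit 1) (nat_lit 214) (nat_lit 173) (nat_lit 183)) (PT.lf (nat_lit 38076) (nat_lit 6) (nat_lit 501) (nat_lit 3) (nat_lit 182) (nat_lit 174) (nat_lit 214))))))))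
noncomputable def pc15 : PT := (PT.nd (nat_lit 2262) (PT.nd (nat_lit 1092) (PT.nd (nat_lit 546) (PT.nd (nat_lit 234) (PT.nd (nat_lit 78) (PT.lf (nat_lit 39976) (nat_lit 6) (nat_lit 526) (nat_lit 3) (nat_lit 183) (nat_lit 174) (nat_lit 213)) (PT.nd (nat_lit 78) (PT.lf (nat_lit 41800) (nat_lit 6) (nat_lit 550) (nat_lit 3) (nat_lit 184) (nat_lit 174) (nat_lit 212)) (PT.lf (nat_lit 43548) (nat_lit 6) (nat_lit 573) (nat_lit 3) (nat_lit 185) (nat_lit 174) (nat_lit 211)))) (PT.nd (nat_lit 156) (PT.nd (nat_lit 78) (PT.lf (nat_lit 45220) (nat_lit 6) (nat_lit 595) (nat_lit 3) (nat_lit 186) (nat_lit 174) (nat_lit 210)) (PT.lf (nat_lit 46816) (nat_lit 6) (nat_lit 616) (nat_lit 3) (nat_lit 187) (nat_lit 174) (nat_lit 209))) (PT.nd (nat_lit 78) (PT.lf (nat_lit 48336) (nat_lit 6) (nat_lit 636) (nat_lit 3) (nat_lit 188) (nat_lit 174) (nat_lit 208)) (PT.lf (nat_lit 49780) (nat_lit 6) (nat_lit 655) (nat_lit 3) (nat_lit 189) (nat_lit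 174) (nat_lit 207))))) (PT.nd (nat_lit 234) (PT.nd (nat_lit 78) (PT.lf (nat_lit 51148) (nat_lit 6) (nat_lit 673) (nat_lit 3) (nat_lit 190) (nat_lit 174) (nat_lit 206)) (PT.nd (nat_lit 78) (PT.lf (nat_lit 51224) (nat_lit 6) (nat_lit 674) (nat_lit 3) (nat_lit 191) (nat_lit 174) (nat_lit 205)) (PT.lf (nat_lit 51300) (nat_lit 6) (nat_lit 675) (nat_lit 3) (nat_lit 192) (nat_lit 174) (nat_lit 204)))) (PT.nd (nat_lit 156) (PT.nd (nat_lit 78) (PT.lf (nat_lit 51376) (nat_lit 6) (nat_lit 676) (nat_lit 3) (nat_lit 193) (nat_lit 174) (nat_lit 203)) (PT.lf (nat_lit 51452) (nat_lit 6) (nat_lit 677) (nat_lit 3) (nat_lit 194) (nat_lit 174) (nat_lit 202))) (PT.nd (nat_lit 78) (PT.lf (nat_lit 51528) (nat_lit 6) (nat_lit 678) (nat_lit 3) (nat_lit 195) (nat_lit 174) (nat_lit 201)) (PT.lf (nat_lit 51604) (nat_lit 6) (nat_lit 679) (nat_lit 3) (nat_lit 196) (nat_lit 174) (nat_lit 200)))))) (PT.nd (nat_lit 546) (PT.nd (nat_lit 234) (PT.nd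 (nat_lit 78) (PT.lf (nat_lit 51680) (nat_lit 6) (nat_lit 680) (nat_lit 3) (nat_lit 197) (nat_lit 174) (nat_lit 199)) (PT.nd (nat_lit 78) (PT.lf (nat_lit 51756) (nat_lit 3) (nat_lit 681) (nat_lit 1) (nat_lit 198) (nat_lit 174) (nat_lit 198)) (PT.lf (nat_lit 51680) (nat_lit 6) (nat_lit 680) (nat_lit 1) (nat_lit 199) (nat_lit 174) (nat_lit 197)))) (PT.nd (nat_lit 156) (PT.nd (nat_lit 78) (PT.lf (nat_lit 51604) (nat_lit 6) (nat_lit 679) (nat_lit 1) (nat_lit 200) (nat_lit 174) (nat_lit 196)) (PT.lf (nat_lit 51528) (nat_lit 6) (nat_lit 678) (nat_lit 1) (nat_lit 201) (nat_lit 174) (nat_lit 195))) (PT.nd (nat_lit 78) (PT.lf (nat_lit 51452) (nat_lit 6) (nat_lit 677) (nat_lit 1) (nat_lit 202) (nat_lit 174) (nat_lit 194)) (PT.lf (nat_lit 51376) (nat_lit 6) (nat_lit 676) (nat_lit 1) (nat_lit 203) (nat_lit 174) (nat_lit 193))))) (PT.nd (nat_lit 312) (PT.nd (nat_lit 156) (PT.nd (nat_lit 78) (PT.lf (nat_lit 51300) (nat_lit 6)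 (nat_lit 675) (nat_lit 1) (nat_lit 204) (nat_lit 174) (nat_lit 192)) (PT.lf (nat_lit 51224) (nat_lit 6) (nat_lit 674) (nat_lit 1) (nat_lit 205) (nat_lit 174) (nat_lit 191))) (PT.nd (nat_lit 78) (PT.lf (nat_lit 51148) (nat_lit 6) (nat_lit 673) (nat_lit 1) (nat_lit 206) (nat_lit 174) (nat_lit 190)) (PT.lf (nat_lit 49780) (nat_lit 6) (nat_lit 655) (nat_lit 1) (nat_lit 207) (nat_lit 174) (nat_lit 189)))) (PT.nd (nat_lit 156) (PT.nd (nat_lit 78) (PT.lf (nat_lit 48336) (nat_lit 6) (nat_lit 636) (nat_lit 1) (nat_lit 208) (nat_lit 174) (nat_lit 188)) (PT.lf (nat_lit 46816) (nat_lit 6) (nat_lit 616) (nat_lit 1) (nat_lit 209) (nat_lit 174) (nat_lit 187))) (PT.nd (nat_lit 78) (PT.lf (nat_lit 45220) (nat_lit 6) (nat_lit 595) (nat_lit 1) (nat_lit 210) (nat_lit 174) (nat_lit 186)) (PT.lf (nat_lit 43548) (nat_lit 6) (nat_lit 573) (nat_lit 1) (nat_lit 211) (nat_lit 174) (nat_lit 185))))))) (PT.nd (nat_lit 57876) (PT.nd (nat_lit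 57252) (PT.nd (nat_lit 56940) (PT.nd (nat_lit 78) (PT.lf (nat_lit 41800) (nat_lit 6) (nat_lit 550) (nat_lit 1) (nat_lit 212) (nat_lit 174) (nat_lit 184)) (PT.nd (nat_lit 78) (PT.lf (nat_lit 39976) (nat_lit 6) (nat_lit 526) (nat_lit 1) (nat_lit 213) (nat_lit 174) (nat_lit 183)) (PT.lf (nat_lit 38076) (nat_lit 6) (nat_lit 501) (nat_lit 1) (nat_lit 214) (nat_lit 174) (nat_lit 182)))) (PT.nd (nat_lit 156) (PT.nd (nat_lit 78) (PT.lf (nat_lit 38000) (nat_lit 6) (nat_lit 500) (nat_lit 3) (nat_lit 181) (nat_lit 175) (nat_lit 214)) (PT.lf (nat_lit 39900) (nat_lit 6) (nat_lit 525) (nat_lit 3) (nat_lit 182) (nat_lit 175) (nat_lit 213))) (PT.nd (nat_lit 78) (PT.lf (nat_lit 41724) (nat_lit 6) (nat_lit 549) (nat_lit 3) (nat_lit 183) (nat_lit 175) (nat_lit 212)) (PT.lf (nat_lit 43472) (nat_lit 6) (nat_lit 572) (nat_lit 3) (nat_lit 184) (nat_lit 175) (nat_lit 211))))) (PT.nd (nat_lit 312) (PT.nd (nat_lit 156) (PT.nd (nat_lit 78)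 (PT.lf (nat_lit 45144) (nat_lit 6) (nat_lit 594) (nat_lit 3) (nat_lit 185) (nat_lit 175) (nat_lit 210)) (PT.lf (nat_lit 46740) (nat_lit 6) (nat_lit 615) (nat_lit 3) (nat_lit 186) (nat_lit 175) (nat_lit 209))) (PT.nd (nat_lit 78) (PT.lf (nat_lit 48260) (nat_lit 6) (nat_lit 635) (nat_lit 3) (nat_lit 187) (nat_lit 175) (nat_lit 208)) (PT.lf (nat_lit 49704) (nat_lit 6) (nat_lit 654) (nat_lit 3) (nat_lit 188) (nat_lit 175) (nat_lit 207)))) (PT.nd (nat_lit 156) (PT.nd (nat_lit 78) (PT.lf (nat_lit 51072) (nat_lit 6) (nat_lit 672) (nat_lit 3) (nat_lit 189) (nat_lit 175) (nat_lit 206)) (PT.lf (nat_lit 52364) (nat_lit 6) (nat_lit 689) (nat_lit 3) (nat_lit 190) (nat_lit 175) (nat_lit 205))) (PT.nd (nat_lit 78) (PT.lf (nat_lit 52440) (nat_lit 6) (nat_lit 690) (nat_lit 3) (nat_lit 191) (nat_lit 175) (nat_lit 204)) (PT.lf (nat_lit 52516) (nat_lit 6) (nat_lit 691) (nat_lit 3) (nat_lit 192) (nat_lit 175) (nat_lit 203)))))) (PT.nd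 (nat_lit 546) (PT.nd (nat_lit 234) (PT.nd (nat_lit 78) (PT.lf (nat_lit 52592) (nat_lit 6) (nat_lit 692) (nat_lit 3) (nat_lit 193) (nat_lit 175) (nat_lit 202)) (PT.nd (nat_lit 78) (PT.lf (nat_lit 52668) (nat_lit 6) (nat_lit 693) (nat_lit 3) (nat_lit 194) (nat_lit 175) (nat_lit 201)) (PT.lf (nat_lit 52744) (nat_lit 6) (nat_lit 694) (nat_lit 3) (nat_lit 195) (nat_lit 175) (nat_lit 200)))) (PT.nd (nat_lit 156) (PT.nd (nat_lit 78) (PT.lf (nat_lit 52820) (nat_lit 6) (nat_lit 695) (nat_lit 3) (nat_lit 196) (nat_lit 175) (nat_lit 199)) (PT.lf (nat_lit 52896) (nat_lit 6) (nat_lit 696) (nat_lit 3) (nat_lit 197) (nat_lit 175) (nat_lit 198))) (PT.nd (nat_lit 78) (PT.lf (nat_lit 52896) (nat_lit 6) (nat_lit 696) (nat_lit 1) (nat_lit 198) (nat_lit 175) (nat_lit 197)) (PT.lf (nat_lit 52820) (nat_lit 6) (nat_lit 695) (nat_lit 1) (nat_lit 199) (nat_lit 175) (nat_lit 196))))) (PT.nd (nat_lit 312) (PT.nd (nat_lit 156) (PT.nd (nat_lit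 78) (PT.lf (nat_lit 52744) (nat_lit 6) (nat_lit 694) (nat_lit 1) (nat_lit 200) (nat_lit 175) (nat_lit 195)) (PT.lf (nat_lit 52668) (nat_lit 6) (nat_lit 693) (nat_lit 1) (nat_lit 201) (nat_lit 175) (nat_lit 194))) (PT.nd (nat_lit 78) (PT.lf (nat_lit 52592) (nat_lit 6) (nat_lit 692) (nat_lit 1) (nat_lit 202) (nat_lit 175) (nat_lit 193)) (PT.lf (nat_lit 52516) (nat_lit 6) (nat_lit 691) (nat_lit 1) (nat_lit 203) (nat_lit 175) (nat_lit 192)))) (PT.nd (nat_lit 156) (PT.nd (nat_lit 78) (PT.lf (nat_lit 52440) (nat_lit 6) (nat_lit 690) (nat_lit 1) (nat_lit 204) (nat_lit 175) (nat_lit 191)) (PT.lf (nat_lit 52364) (nat_lit 6) (nat_lit 689) (nat_lit 1) (nat_lit 205) (nat_lit 175) (nat_lit 190))) (PT.nd (nat_lit 78) (PT.lf (nat_lit 51072) (nat_lit 6) (nat_lit 672) (nat_lit 1) (nat_lit 206) (nat_lit 175) (nat_lit 189)) (PT.lf (nat_lit 49704) (nat_lit 6) (nat_lit 654) (nat_lit 1) (nat_lit 207) (nat_lit 175) (nat_lit 188))))))))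
noncomputable def pc16 : PT := (PT.nd (nat_lit 58890) (PT.nd (nat_lit 57720) (PT.nd (nat_lit 57174) (PT.nd (nat_lit 234) (PT.nd (nat_lit 78) (PT.lf (nat_lit 48260) (nat_lit 6) (nat_lit 635) (nat_lit 1) (nat_lit 208) (nat_lit 175) (nat_lit 187)) (PT.nd (nat_lit 78) (PT.lf (nat_lit 46740) (nat_lit 6) (nat_lit 615) (nat_lit 1) (nat_lit 209) (nat_lit 175) (nat_lit 186)) (PT.lf (nat_lit 45144) (nat_lit 6) (nat_lit 594) (nat_lit 1) (nat_lit 210) (nat_lit 175) (nat_lit 185)))) (PT.nd (nat_lit 156) (PT.nd (nat_lit 78) (PT.lf (nat_lit 43472) (nat_lit 6) (nat_lit 572) (nat_lit 1) (nat_lit 211) (nat_lit 175) (nat_lit 184)) (PT.lf (nat_lit 41724) (nat_lit 6) (nat_lit 549) (nat_lit 1) (nat_lit 212) (nat_lit 175) (nat_lit 183))) (PT.nd (nat_lit 78) (PT.lf (nat_lit 39900) (nat_lit 6) (nat_lit 525) (nat_lit 1) (nat_lit 213) (nat_lit 175) (nat_lit 182)) (PT.lf (nat_lit 38000) (nat_lit 6) (nat_lit 500) (nat_lit 1) (nat_lit 214)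 (nat_lit 175) (nat_lit 181))))) (PT.nd (nat_lit 234) (PT.nd (nat_lit 78) (PT.lf (nat_lit 37924) (nat_lit 6) (nat_lit 499) (nat_lit 3) (nat_lit 180) (nat_lit 176) (nat_lit 214)) (PT.nd (nat_lit 78) (PT.lf (nat_lit 39824) (nat_lit 6) (nat_lit 524) (nat_lit 3) (nat_lit 181) (nat_lit 176) (nat_lit 213)) (PT.lf (nat_lit 41648) (nat_lit 6) (nat_lit 548) (nat_lit 3) (nat_lit 182) (nat_lit 176) (nat_lit 212)))) (PT.nd (nat_lit 156) (PT.nd (nat_lit 78) (PT.lf (nat_lit 43396) (nat_lit 6) (nat_lit 571) (nat_lit 3) (nat_lit 183) (nat_lit 176) (nat_lit 211)) (PT.lf (nat_lit 45068) (nat_lit 6) (nat_lit 593) (nat_lit 3) (nat_lit 184) (nat_lit 176) (nat_lit 210))) (PT.nd (nat_lit 78) (PT.lf (nat_lit 46664) (nat_lit 6) (nat_lit 614) (nat_lit 3) (nat_lit 185) (nat_lit 176) (nat_lit 209)) (PT.lf (nat_lit 48184) (nat_lit 6) (nat_lit 634) (nat_lit 3) (nat_lit 186) (nat_lit 176) (nat_lit 208)))))) (PT.nd (nat_lit 546) (PT.nd (nat_lit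 234) (PT.nd (nat_lit 78) (PT.lf (nat_lit 49628) (nat_lit 6) (nat_lit 653) (nat_lit 3) (nat_lit 187) (nat_lit 176) (nat_lit 207)) (PT.nd (nat_lit 78) (PT.lf (nat_lit 50996) (nat_lit 6) (nat_lit 671) (nat_lit 3) (nat_lit 188) (nat_lit 176) (nat_lit 206)) (PT.lf (nat_lit 52288) (nat_lit 6) (nat_lit 688) (nat_lit 3) (nat_lit 189) (nat_lit 176) (nat_lit 205)))) (PT.nd (nat_lit 156) (PT.nd (nat_lit 78) (PT.lf (nat_lit 53504) (nat_lit 6) (nat_lit 704) (nat_lit 3) (nat_lit 190) (nat_lit 176) (nat_lit 204)) (PT.lf (nat_lit 53580) (nat_lit 6) (nat_lit 705) (nat_lit 3) (nat_lit 191) (nat_lit 176) (nat_lit 203))) (PT.nd (nat_lit 78) (PT.lf (nat_lit 53656) (nat_lit 6) (nat_lit 706) (nat_lit 3) (nat_lit 192) (nat_lit 176) (nat_lit 202)) (PT.lf (nat_lit 53732) (nat_lit 6) (nat_lit 707) (nat_lit 3) (nat_lit 193) (nat_lit 176) (nat_lit 201))))) (PT.nd (nat_lit 312) (PT.nd (nat_lit 156) (PT.nd (nat_lit 78) (PT.lf (nat_lit 53808)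 (nat_lit 6) (nat_lit 708) (nat_lit 3) (nat_lit 194) (nat_lit 176) (nat_lit 200)) (PT.lf (nat_lit 53884) (nat_lit 6) (nat_lit 709) (nat_lit 3) (nat_lit 195) (nat_lit 176) (nat_lit 199))) (PT.nd (nat_lit 78) (PT.lf (nat_lit 53960) (nat_lit 6) (nat_lit 710) (nat_lit 3) (nat_lit 196) (nat_lit 176) (nat_lit 198)) (PT.lf (nat_lit 54036) (nat_lit 3) (nat_lit 711) (nat_lit 1) (nat_lit 197) (nat_lit 176) (nat_lit 197)))) (PT.nd (nat_lit 156) (PT.nd (nat_lit 78) (PT.lf (nat_lit 53960) (nat_lit 6) (nat_lit 710) (nat_lit 1) (nat_lit 198) (nat_lit 176) (nat_lit 196)) (PT.lf (nat_lit 53884) (nat_lit 6) (nat_lit 709) (nat_lit 1) (nat_lit 199) (nat_lit 176) (nat_lit 195))) (PT.nd (nat_lit 78) (PT.lf (nat_lit 53808) (nat_lit 6) (nat_lit 708) (nat_lit 1) (nat_lit 200) (nat_lit 176) (nat_lit 194)) (PT.lf (nat_lit 53732) (nat_lit 6) (nat_lit 707) (nat_lit 1) (nat_lit 201) (nat_lit 176) (nat_lit 193))))))) (PT.nd (nat_lit 57642) (PT.nd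 (nat_lit 546) (PT.nd (nat_lit 234) (PT.nd (nat_lit 78) (PT.lf (nat_lit 53656) (nat_lit 6) (nat_lit 706) (nat_lit 1) (nat_lit 202) (nat_lit 176) (nat_lit 192)) (PT.nd (nat_lit 78) (PT.lf (nat_lit 53580) (nat_lit 6) (nat_lit 705) (nat_lit 1) (nat_lit 203) (nat_lit 176) (nat_lit 191)) (PT.lf (nat_lit 53504) (nat_lit 6) (nat_lit 704) (nat_lit 1) (nat_lit 204) (nat_lit 176) (nat_lit 190)))) (PT.nd (nat_lit 156) (PT.nd (nat_lit 78) (PT.lf (nat_lit 52288) (nat_lit 6) (nat_lit 688) (nat_lit 1) (nat_lit 205) (nat_lit 176) (nat_lit 189)) (PT.lf (nat_lit 50996) (nat_lit 6) (nat_lit 671) (nat_lit 1) (nat_lit 206) (nat_lit 176) (nat_lit 188))) (PT.nd (nat_lit 78) (PT.lf (nat_lit 49628) (nat_lit 6) (nat_lit 653) (nat_lit 1) (nat_lit 207) (nat_lit 176) (nat_lit 187)) (PT.lf (nat_lit 48184) (nat_lit 6) (nat_lit 634) (nat_lit 1) (nat_lit 208) (nat_lit 176) (nat_lit 186))))) (PT.nd (nat_lit 234) (PT.nd (nat_lit 78) (PT.lf (nat_lit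 46664) (nat_lit 6) (nat_lit 614) (nat_lit 1) (nat_lit 209) (nat_lit 176) (nat_lit 185)) (PT.nd (nat_lit 78) (PT.lf (nat_lit 45068) (nat_lit 6) (nat_lit 593) (nat_lit 1) (nat_lit 210) (nat_lit 176) (nat_lit 184)) (PT.lf (nat_lit 43396) (nat_lit 6) (nat_lit 571) (nat_lit 1) (nat_lit 211) (nat_lit 176) (nat_lit 183)))) (PT.nd (nat_lit 156) (PT.nd (nat_lit 78) (PT.lf (nat_lit 41648) (nat_lit 6) (nat_lit 548) (nat_lit 1) (nat_lit 212) (nat_lit 176) (nat_lit 182)) (PT.lf (nat_lit 39824) (nat_lit 6) (nat_lit 524) (nat_lit 1) (nat_lit 213) (nat_lit 176) (nat_lit 181))) (PT.nd (nat_lit 56628) (PT.lf (nat_lit 37924) (nat_lit 6) (nat_lit 499) (nat_lit 1) (nat_lit 214) (nat_lit 176) (nat_lit 180)) (PT.lf (nat_lit 37848) (nat_lit 6) (nat_lit 498) (nat_lit 3) (nat_lit 179) (nat_lit 177) (nat_lit 214)))))) (PT.nd (nat_lit 546) (PT.nd (nat_lit 234) (PT.nd (nat_lit 78) (PT.lf (nat_lit 39748) (nat_lit 6) (nat_lit 523) (nat_lit 3)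 (nat_lit 180) (nat_lit 177) (nat_lit 213)) (PT.nd (nat_lit 78) (PT.lf (nat_lit 41572) (nat_lit 6) (nat_lit 547) (nat_lit 3) (nat_lit 181) (nat_lit 177) (nat_lit 212)) (PT.lf (nat_lit 43320) (nat_lit 6) (nat_lit 570) (nat_lit 3) (nat_lit 182) (nat_lit 177) (nat_lit 211)))) (PT.nd (nat_lit 156) (PT.nd (nat_lit 78) (PT.lf (nat_lit 44992) (nat_lit 6) (nat_lit 592) (nat_lit 3) (nat_lit 183) (nat_lit 177) (nat_lit 210)) (PT.lf (nat_lit 46588) (nat_lit 6) (nat_lit 613) (nat_lit 3) (nat_lit 184) (nat_lit 177) (nat_lit 209))) (PT.nd (nat_lit 78) (PT.lf (nat_lit 48108) (nat_lit 6) (nat_lit 633) (nat_lit 3) (nat_lit 185) (nat_lit 177) (nat_lit 208)) (PT.lf (nat_lit 49552) (nat_lit 6) (nat_lit 652) (nat_lit 3) (nat_lit 186) (nat_lit 177) (nat_lit 207))))) (PT.nd (nat_lit 312) (PT.nd (nat_lit 156) (PT.nd (nat_lit 78) (PT.lf (nat_lit 50920) (nat_lit 6) (nat_lit 670) (nat_lit 3) (nat_lit 187) (nat_lit 177) (nat_lit 206)) (PT.lf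 (nat_lit 52212) (nat_lit 6) (nat_lit 687) (nat_lit 3) (nat_lit 188) (nat_lit 177) (nat_lit 205))) (PT.nd (nat_lit 78) (PT.lf (nat_lit 53428) (nat_lit 6) (nat_lit 703) (nat_lit 3) (nat_lit 189) (nat_lit 177) (nat_lit 204)) (PT.lf (nat_lit 54568) (nat_lit 6) (nat_lit 718) (nat_lit 3) (nat_lit 190) (nat_lit 177) (nat_lit 203)))) (PT.nd (nat_lit 156) (PT.nd (nat_lit 78) (PT.lf (nat_lit 54644) (nat_lit 6) (nat_lit 719) (nat_lit 3) (nat_lit 191) (nat_lit 177) (nat_lit 202)) (PT.lf (nat_lit 54720) (nat_lit 6) (nat_lit 720) (nat_lit 3) (nat_lit 192) (nat_lit 177) (nat_lit 201))) (PT.nd (nat_lit 78) (PT.lf (nat_lit 54796) (nat_lit 6) (nat_lit 721) (nat_lit 3) (nat_lit 193) (nat_lit 177) (nat_lit 200)) (PT.lf (nat_lit 54872) (nat_lit 6) (nat_lit 722) (nat_lit 3) (nat_lit 194) (nat_lit 177) (nat_lit 199))))))))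
noncomputable def pc17 : PT := (PT.nd (nat_lit 58734) (PT.nd (nat_lit 1092) (PT.nd (nat_lit 546) (PT.nd (nat_lit 234) (PT.nd (nat_lit 78) (PT.lf (nat_lit 54948) (nat_lit 6) (nat_lit 723) (nat_lit 3) (nat_lit 195) (nat_lit 177) (nat_lit 198)) (PT.nd (nat_lit 78) (PT.lf (nat_lit 55024) (nat_lit 6) (nat_lit 724) (nat_lit 3) (nat_lit 196) (nat_lit 177) (nat_lit 197)) (PT.lf (nat_lit 55024) (nat_lit 6) (nat_lit 724) (nat_lit 1) (nat_lit 197) (nat_lit 177) (nat_lit 196)))) (PT.nd (nat_lit 156) (PT.nd (nat_lit 78) (PT.lf (nat_lit 54948) (nat_lit 6) (nat_lit 723) (nat_lit 1) (nat_lit 198) (nat_lit 177) (nat_lit 195)) (PT.lf (nat_lit 54872) (nat_lit 6) (nat_lit 722) (nat_lit 1) (nat_lit 199) (nat_lit 177) (nat_lit 194))) (PT.nd (nat_lit 78) (PT.lf (nat_lit 54796) (nat_lit 6) (nat_lit 721) (nat_lit 1) (nat_lit 200) (nat_lit 177) (nat_lit 193)) (PT.lf (nat_lit 54720) (nat_lit 6) (nat_lit 720) (nat_lit 1) (nat_lit 201) (nat_lit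 177) (nat_lit 192))))) (PT.nd (nat_lit 234) (PT.nd (nat_lit 78) (PT.lf (nat_lit 54644) (nat_lit 6) (nat_lit 719) (nat_lit 1) (nat_lit 202) (nat_lit 177) (nat_lit 191)) (PT.nd (nat_lit 78) (PT.lf (nat_lit 54568) (nat_lit 6) (nat_lit 718) (nat_lit 1) (nat_lit 203) (nat_lit 177) (nat_lit 190)) (PT.lf (nat_lit 53428) (nat_lit 6) (nat_lit 703) (nat_lit 1) (nat_lit 204) (nat_lit 177) (nat_lit 189)))) (PT.nd (nat_lit 156) (PT.nd (nat_lit 78) (PT.lf (nat_lit 52212) (nat_lit 6) (nat_lit 687) (nat_lit 1) (nat_lit 205) (nat_lit 177) (nat_lit 188)) (PT.lf (nat_lit 50920) (nat_lit 6) (nat_lit 670) (nat_lit 1) (nat_lit 206) (nat_lit 177) (nat_lit 187))) (PT.nd (nat_lit 78) (PT.lf (nat_lit 49552) (nat_lit 6) (nat_lit 652) (nat_lit 1) (nat_lit 207) (nat_lit 177) (nat_lit 186)) (PT.lf (nat_lit 48108) (nat_lit 6) (nat_lit 633) (nat_lit 1) (nat_lit 208) (nat_lit 177) (nat_lit 185)))))) (PT.nd (nat_lit 57018) (PT.nd (nat_lit 234)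 (PT.nd (nat_lit 78) (PT.lf (nat_lit 46588) (nat_lit 6) (nat_lit 613) (nat_lit 1) (nat_lit 209) (nat_lit 177) (nat_lit 184)) (PT.nd (nat_lit 78) (PT.lf (nat_lit 44992) (nat_lit 6) (nat_lit 592) (nat_lit 1) (nat_lit 210) (nat_lit 177) (nat_lit 183)) (PT.lf (nat_lit 43320) (nat_lit 6) (nat_lit 570) (nat_lit 1) (nat_lit 211) (nat_lit 177) (nat_lit 182)))) (PT.nd (nat_lit 156) (PT.nd (nat_lit 78) (PT.lf (nat_lit 41572) (nat_lit 6) (nat_lit 547) (nat_lit 1) (nat_lit 212) (nat_lit 177) (nat_lit 181)) (PT.lf (nat_lit 39748) (nat_lit 6) (nat_lit 523) (nat_lit 1) (nat_lit 213) (nat_lit 177) (nat_lit 180))) (PT.nd (nat_lit 56550) (PT.lf (nat_lit 37848) (nat_lit 6) (nat_lit 498) (nat_lit 1) (nat_lit 214) (nat_lit 177) (nat_lit 179)) (PT.lf (nat_lit 37772) (nat_lit 3) (nat_lit 497) (nat_lit 3) (nat_lit 178) (nat_lit 178) (nat_lit 214))))) (PT.nd (nat_lit 312) (PT.nd (nat_lit 156) (PT.nd (nat_lit 78) (PT.lf (nat_lit 39672) (nat_lit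 6) (nat_lit 522) (nat_lit 3) (nat_lit 179) (nat_lit 178) (nat_lit 213)) (PT.lf (nat_lit 41496) (nat_lit 6) (nat_lit 546) (nat_lit 3) (nat_lit 180) (nat_lit 178) (nat_lit 212))) (PT.nd (nat_lit 78) (PT.lf (nat_lit 43244) (nat_lit 6) (nat_lit 569) (nat_lit 3) (nat_lit 181) (nat_lit 178) (nat_lit 211)) (PT.lf (nat_lit 44916) (nat_lit 6) (nat_lit 591) (nat_lit 3) (nat_lit 182) (nat_lit 178) (nat_lit 210)))) (PT.nd (nat_lit 156) (PT.nd (nat_lit 78) (PT.lf (nat_lit 46512) (nat_lit 6) (nat_lit 612) (nat_lit 3) (nat_lit 183) (nat_lit 178) (nat_lit 209)) (PT.lf (nat_lit 48032) (nat_lit 6) (nat_lit 632) (nat_lit 3) (nat_lit 184) (nat_lit 178) (nat_lit 208))) (PT.nd (nat_lit 78) (PT.lf (nat_lit 49476) (nat_lit 6) (nat_lit 651) (nat_lit 3) (nat_lit 185) (nat_lit 178) (nat_lit 207)) (PT.lf (nat_lit 50844) (nat_lit 6) (nat_lit 669) (nat_lit 3) (nat_lit 186) (nat_lit 178) (nat_lit 206))))))) (PT.nd (nat_lit 1092) (PT.nd (nat_lit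 546) (PT.nd (nat_lit 234) (PT.nd (nat_lit 78) (PT.lf (nat_lit 52136) (nat_lit 6) (nat_lit 686) (nat_lit 3) (nat_lit 187) (nat_lit 178) (nat_lit 205)) (PT.nd (nat_lit 78) (PT.lf (nat_lit 53352) (nat_lit 6) (nat_lit 702) (nat_lit 3) (nat_lit 188) (nat_lit 178) (nat_lit 204)) (PT.lf (nat_lit 54492) (nat_lit 6) (nat_lit 717) (nat_lit 3) (nat_lit 189) (nat_lit 178) (nat_lit 203)))) (PT.nd (nat_lit 156) (PT.nd (nat_lit 78) (PT.lf (nat_lit 55556) (nat_lit 6) (nat_lit 731) (nat_lit 3) (nat_lit 190) (nat_lit 178) (nat_lit 202)) (PT.lf (nat_lit 55632) (nat_lit 6) (nat_lit 732) (nat_lit 3) (nat_lit 191) (nat_lit 178) (nat_lit 201))) (PT.nd (nat_lit 78) (PT.lf (nat_lit 55708) (nat_lit 6) (nat_lit 733) (nat_lit 3) (nat_lit 192) (nat_lit 178) (nat_lit 200)) (PT.lf (nat_lit 55784) (nat_lit 6) (nat_lit 734) (nat_lit 3) (nat_lit 193) (nat_lit 178) (nat_lit 199))))) (PT.nd (nat_lit 234) (PT.nd (nat_lit 78) (PT.lf (nat_lit 55860)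 (nat_lit 6) (nat_lit 735) (nat_lit 3) (nat_lit 194) (nat_lit 178) (nat_lit 198)) (PT.nd (nat_lit 78) (PT.lf (nat_lit 55936) (nat_lit 6) (nat_lit 736) (nat_lit 3) (nat_lit 195) (nat_lit 178) (nat_lit 197)) (PT.lf (nat_lit 56012) (nat_lit 3) (nat_lit 737) (nat_lit 1) (nat_lit 196) (nat_lit 178) (nat_lit 196)))) (PT.nd (nat_lit 156) (PT.nd (nat_lit 78) (PT.lf (nat_lit 55936) (nat_lit 6) (nat_lit 736) (nat_lit 1) (nat_lit 197) (nat_lit 178) (nat_lit 195)) (PT.lf (nat_lit 55860) (nat_lit 6) (nat_lit 735) (nat_lit 1) (nat_lit 198) (nat_lit 178) (nat_lit 194))) (PT.nd (nat_lit 78) (PT.lf (nat_lit 55784) (nat_lit 6) (nat_lit 734) (nat_lit 1) (nat_lit 199) (nat_lit 178) (nat_lit 193)) (PT.lf (nat_lit 55708) (nat_lit 6) (nat_lit 733) (nat_lit 1) (nat_lit 200) (nat_lit 178) (nat_lit 192)))))) (PT.nd (nat_lit 546) (PT.nd (nat_lit 234) (PT.nd (nat_lit 78) (PT.lf (nat_lit 55632) (nat_lit 6) (nat_lit 732) (nat_lit 1) (nat_lit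 201) (nat_lit 178) (nat_lit 191)) (PT.nd (nat_lit 78) (PT.lf (nat_lit 55556) (nat_lit 6) (nat_lit 731) (nat_lit 1) (nat_lit 202) (nat_lit 178) (nat_lit 190)) (PT.lf (nat_lit 54492) (nat_lit 6) (nat_lit 717) (nat_lit 1) (nat_lit 203) (nat_lit 178) (nat_lit 189)))) (PT.nd (nat_lit 156) (PT.nd (nat_lit 78) (PT.lf (nat_lit 53352) (nat_lit 6) (nat_lit 702) (nat_lit 1) (nat_lit 204) (nat_lit 178) (nat_lit 188)) (PT.lf (nat_lit 52136) (nat_lit 6) (nat_lit 686) (nat_lit 1) (nat_lit 205) (nat_lit 178) (nat_lit 187))) (PT.nd (nat_lit 78) (PT.lf (nat_lit 50844) (nat_lit 6) (nat_lit 669) (nat_lit 1) (nat_lit 206) (nat_lit 178) (nat_lit 186)) (PT.lf (nat_lit 49476) (nat_lit 6) (nat_lit 651) (nat_lit 1) (nat_lit 207) (nat_lit 178) (nat_lit 185))))) (PT.nd (nat_lit 312) (PT.nd (nat_lit 156) (PT.nd (nat_lit 78) (PT.lf (nat_lit 48032) (nat_lit 6) (nat_lit 632) (nat_lit 1) (nat_lit 208) (nat_lit 178) (nat_lit 184)) (PT.lf (nat_lit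 46512) (nat_lit 6) (nat_lit 612) (nat_lit 1) (nat_lit 209) (nat_lit 178) (nat_lit 183))) (PT.nd (nat_lit 78) (PT.lf (nat_lit 44916) (nat_lit 6) (nat_lit 591) (nat_lit 1) (nat_lit 210) (nat_lit 178) (nat_lit 182)) (PT.lf (nat_lit 43244) (nat_lit 6) (nat_lit 569) (nat_lit 1) (nat_lit 211) (nat_lit 178) (nat_lit 181)))) (PT.nd (nat_lit 156) (PT.nd (nat_lit 78) (PT.lf (nat_lit 41496) (nat_lit 6) (nat_lit 546) (nat_lit 1) (nat_lit 212) (nat_lit 178) (nat_lit 180)) (PT.lf (nat_lit 39672) (nat_lit 6) (nat_lit 522) (nat_lit 1) (nat_lit 213) (nat_lit 178) (nat_lit 179))) (PT.nd (nat_lit 56472) (PT.lf (nat_lit 37772) (nat_lit 3) (nat_lit 497) (nat_lit 0) (nat_lit 214) (nat_lit 178) (nat_lit 178)) (PT.lf (nat_lit 37848) (nat_lit 6) (nat_lit 498) (nat_lit 5) (nat_lit 177) (nat_lit 179) (nat_lit 214))))))))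
noncomputable def pc18 : PT := (PT.nd (nat_lit 2262) (PT.nd (nat_lit 1092) (PT.nd (nat_lit 546) (PT.nd (nat_lit 234) (PT.nd (nat_lit 78) (PT.lf (nat_lit 39672) (nat_lit 6) (nat_lit 522) (nat_lit 5) (nat_lit 178) (nat_lit 179) (nat_lit 213)) (PT.nd (nat_lit 78) (PT.lf (nat_lit 41420) (nat_lit 3) (nat_lit 545) (nat_lit 3) (nat_lit 179) (nat_lit 179) (nat_lit 212)) (PT.lf (nat_lit 43168) (nat_lit 6) (nat_lit 568) (nat_lit 3) (nat_lit 180) (nat_lit 179) (nat_lit 211)))) (PT.nd (nat_lit 156) (PT.nd (nat_lit 78) (PT.lf (nat_lit 44840) (nat_lit 6) (nat_lit 590) (nat_lit 3) (nat_lit 181) (nat_lit 179) (nat_lit 210)) (PT.lf (nat_lit 46436) (nat_lit 6) (nat_lit 611) (nat_lit 3) (nat_lit 182) (nat_lit 179) (nat_lit 209))) (PT.nd (nat_lit 78) (PT.lf (nat_lit 47956) (nat_lit 6) (nat_lit 631) (nat_lit 3) (nat_lit 183) (nat_lit 179) (nat_lit 208)) (PT.lf (nat_lit 49400) (nat_lit 6) (nat_lit 650) (nat_lit 3) (nat_lit 184) (nat_lit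 179) (nat_lit 207))))) (PT.nd (nat_lit 234) (PT.nd (nat_lit 78) (PT.lf (nat_lit 50768) (nat_lit 6) (nat_lit 668) (nat_lit 3) (nat_lit 185) (nat_lit 179) (nat_lit 206)) (PT.nd (nat_lit 78) (PT.lf (nat_lit 52060) (nat_lit 6) (nat_lit 685) (nat_lit 3) (nat_lit 186) (nat_lit 179) (nat_lit 205)) (PT.lf (nat_lit 53276) (nat_lit 6) (nat_lit 701) (nat_lit 3) (nat_lit 187) (nat_lit 179) (nat_lit 204)))) (PT.nd (nat_lit 156) (PT.nd (nat_lit 78) (PT.lf (nat_lit 54416) (nat_lit 6) (nat_lit 716) (nat_lit 3) (nat_lit 188) (nat_lit 179) (nat_lit 203)) (PT.lf (nat_lit 55480) (nat_lit 6) (nat_lit 730) (nat_lit 3) (nat_lit 189) (nat_lit 179) (nat_lit 202))) (PT.nd (nat_lit 78) (PT.lf (nat_lit 56468) (nat_lit 6) (nat_lit 743) (nat_lit 3) (nat_lit 190) (nat_lit 179) (nat_lit 201)) (PT.lf (nat_lit 56544) (nat_lit 6) (nat_lit 744) (nat_lit 3) (nat_lit 191) (nat_lit 179) (nat_lit 200)))))) (PT.nd (nat_lit 546) (PT.nd (nat_lit 234) (PT.nd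 (nat_lit 78) (PT.lf (nat_lit 56620) (nat_lit 6) (nat_lit 745) (nat_lit 3) (nat_lit 192) (nat_lit 179) (nat_lit 199)) (PT.nd (nat_lit 78) (PT.lf (nat_lit 56696) (nat_lit 6) (nat_lit 746) (nat_lit 3) (nat_lit 193) (nat_lit 179) (nat_lit 198)) (PT.lf (nat_lit 56772) (nat_lit 6) (nat_lit 747) (nat_lit 3) (nat_lit 194) (nat_lit 179) (nat_lit 197)))) (PT.nd (nat_lit 156) (PT.nd (nat_lit 78) (PT.lf (nat_lit 56848) (nat_lit 6) (nat_lit 748) (nat_lit 3) (nat_lit 195) (nat_lit 179) (nat_lit 196)) (PT.lf (nat_lit 56848) (nat_lit 6) (nat_lit 748) (nat_lit 1) (nat_lit 196) (nat_lit 179) (nat_lit 195))) (PT.nd (nat_lit 78) (PT.lf (nat_lit 56772) (nat_lit 6) (nat_lit 747) (nat_lit 1) (nat_lit 197) (nat_lit 179) (nat_lit 194)) (PT.lf (nat_lit 56696) (nat_lit 6) (nat_lit 746) (nat_lit 1) (nat_lit 198) (nat_lit 179) (nat_lit 193))))) (PT.nd (nat_lit 312) (PT.nd (nat_lit 156) (PT.nd (nat_lit 78) (PT.lf (nat_lit 56620) (nat_lit 6)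 (nat_lit 745) (nat_lit 1) (nat_lit 199) (nat_lit 179) (nat_lit 192)) (PT.lf (nat_lit 56544) (nat_lit 6) (nat_lit 744) (nat_lit 1) (nat_lit 200) (nat_lit 179) (nat_lit 191))) (PT.nd (nat_lit 78) (PT.lf (nat_lit 56468) (nat_lit 6) (nat_lit 743) (nat_lit 1) (nat_lit 201) (nat_lit 179) (nat_lit 190)) (PT.lf (nat_lit 55480) (nat_lit 6) (nat_lit 730) (nat_lit 1) (nat_lit 202) (nat_lit 179) (nat_lit 189)))) (PT.nd (nat_lit 156) (PT.nd (nat_lit 78) (PT.lf (nat_lit 54416) (nat_lit 6) (nat_lit 716) (nat_lit 1) (nat_lit 203) (nat_lit 179) (nat_lit 188)) (PT.lf (nat_lit 53276) (nat_lit 6) (nat_lit 701) (nat_lit 1) (nat_lit 204) (nat_lit 179) (nat_lit 187))) (PT.nd (nat_lit 78) (PT.lf (nat_lit 52060) (nat_lit 6) (nat_lit 685) (nat_lit 1) (nat_lit 205) (nat_lit 179) (nat_lit 186)) (PT.lf (nat_lit 50768) (nat_lit 6) (nat_lit 668) (nat_lit 1) (nat_lit 206) (nat_lit 179) (nat_lit 185))))))) (PT.nd (nat_lit 57408) (PT.nd (nat_lit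 546) (PT.nd (nat_lit 234) (PT.nd (nat_lit 78) (PT.lf (nat_lit 49400) (nat_lit 6) (nat_lit 650) (nat_lit 1) (nat_lit 207) (nat_lit 179) (nat_lit 184)) (PT.nd (nat_lit 78) (PT.lf (nat_lit 47956) (nat_lit 6) (nat_lit 631) (nat_lit 1) (nat_lit 208) (nat_lit 179) (nat_lit 183)) (PT.lf (nat_lit 46436) (nat_lit 6) (nat_lit 611) (nat_lit 1) (nat_lit 209) (nat_lit 179) (nat_lit 182)))) (PT.nd (nat_lit 156) (PT.nd (nat_lit 78) (PT.lf (nat_lit 44840) (nat_lit 6) (nat_lit 590) (nat_lit 1) (nat_lit 210) (nat_lit 179) (nat_lit 181)) (PT.lf (nat_lit 43168) (nat_lit 6) (nat_lit 568) (nat_lit 1) (nat_lit 211) (nat_lit 179) (nat_lit 180))) (PT.nd (nat_lit 78) (PT.lf (nat_lit 41420) (nat_lit 3) (nat_lit 545) (nat_lit 0) (nat_lit 212) (nat_lit 179) (nat_lit 179)) (PT.lf (nat_lit 39672) (nat_lit 6) (nat_lit 522) (nat_lit 0) (nat_lit 213) (nat_lit 179) (nat_lit 178))))) (PT.nd (nat_lit 56550) (PT.nd (nat_lit 56394) (PT.lf (nat_lit 37848)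 (nat_lit 6) (nat_lit 498) (nat_lit 0) (nat_lit 214) (nat_lit 179) (nat_lit 177)) (PT.nd (nat_lit 78) (PT.lf (nat_lit 37924) (nat_lit 6) (nat_lit 499) (nat_lit 5) (nat_lit 176) (nat_lit 180) (nat_lit 214)) (PT.lf (nat_lit 39748) (nat_lit 6) (nat_lit 523) (nat_lit 5) (nat_lit 177) (nat_lit 180) (nat_lit 213)))) (PT.nd (nat_lit 156) (PT.nd (nat_lit 78) (PT.lf (nat_lit 41496) (nat_lit 6) (nat_lit 546) (nat_lit 5) (nat_lit 178) (nat_lit 180) (nat_lit 212)) (PT.lf (nat_lit 43168) (nat_lit 6) (nat_lit 568) (nat_lit 5) (nat_lit 179) (nat_lit 180) (nat_lit 211))) (PT.nd (nat_lit 78) (PT.lf (nat_lit 44764) (nat_lit 3) (nat_lit 589) (nat_lit 3) (nat_lit 180) (nat_lit 180) (nat_lit 210)) (PT.lf (nat_lit 46360) (nat_lit 6) (nat_lit 610) (nat_lit 3) (nat_lit 181) (nat_lit 180) (nat_lit 209)))))) (PT.nd (nat_lit 546) (PT.nd (nat_lit 234) (PT.nd (nat_lit 78) (PT.lf (nat_lit 47880) (nat_lit 6) (nat_lit 630) (nat_lit 3) (nat_lit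 182) (nat_lit 180) (nat_lit 208)) (PT.nd (nat_lit 78) (PT.lf (nat_lit 49324) (nat_lit 6) (nat_lit 649) (nat_lit 3) (nat_lit 183) (nat_lit 180) (nat_lit 207)) (PT.lf (nat_lit 50692) (nat_lit 6) (nat_lit 667) (nat_lit 3) (nat_lit 184) (nat_lit 180) (nat_lit 206)))) (PT.nd (nat_lit 156) (PT.nd (nat_lit 78) (PT.lf (nat_lit 51984) (nat_lit 6) (nat_lit 684) (nat_lit 3) (nat_lit 185) (nat_lit 180) (nat_lit 205)) (PT.lf (nat_lit 53200) (nat_lit 6) (nat_lit 700) (nat_lit 3) (nat_lit 186) (nat_lit 180) (nat_lit 204))) (PT.nd (nat_lit 78) (PT.lf (nat_lit 54340) (nat_lit 6) (nat_lit 715) (nat_lit 3) (nat_lit 187) (nat_lit 180) (nat_lit 203)) (PT.lf (nat_lit 55404) (nat_lit 6) (nat_lit 729) (nat_lit 3) (nat_lit 188) (nat_lit 180) (nat_lit 202))))) (PT.nd (nat_lit 312) (PT.nd (nat_lit 156) (PT.nd (nat_lit 78) (PT.lf (nat_lit 56392) (nat_lit 6) (nat_lit 742) (nat_lit 3) (nat_lit 189) (nat_lit 180) (nat_lit 201)) (PT.lf (nat_lit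 57304) (nat_lit 6) (nat_lit 754) (nat_lit 3) (nat_lit 190) (nat_lit 180) (nat_lit 200))) (PT.nd (nat_lit 78) (PT.lf (nat_lit 57380) (nat_lit 6) (nat_lit 755) (nat_lit 3) (nat_lit 191) (nat_lit 180) (nat_lit 199)) (PT.lf (nat_lit 57456) (nat_lit 6) (nat_lit 756) (nat_lit 3) (nat_lit 192) (nat_lit 180) (nat_lit 198)))) (PT.nd (nat_lit 156) (PT.nd (nat_lit 78) (PT.lf (nat_lit 57532) (nat_lit 6) (nat_lit 757) (nat_lit 3) (nat_lit 193) (nat_lit 180) (nat_lit 197)) (PT.lf (nat_lit 57608) (nat_lit 6) (nat_lit 758) (nat_lit 3) (nat_lit 194) (nat_lit 180) (nat_lit 196))) (PT.nd (nat_lit 78) (PT.lf (nat_lit 57684) (nat_lit 3) (nat_lit 759) (nat_lit 1) (nat_lit 195) (nat_lit 180) (nat_lit 195)) (PT.lf (nat_lit 57608) (nat_lit 6) (nat_lit 758) (nat_lit 1) (nat_lit 196) (nat_lit 180) (nat_lit 194))))))))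
noncomputable def pc19 : PT := (PT.nd (nat_lit 58500) (PT.nd (nat_lit 1092) (PT.nd (nat_lit 546) (PT.nd (nat_lit 234) (PT.nd (nat_lit 78) (PT.lf (nat_lit 57532) (nat_lit 6) (nat_lit 757) (nat_lit 1) (nat_lit 197) (nat_lit 180) (nat_lit 193)) (PT.nd (nat_lit 78) (PT.lf (nat_lit 57456) (nat_lit 6) (nat_lit 756) (nat_lit 1) (nat_lit 198) (nat_lit 180) (nat_lit 192)) (PT.lf (nat_lit 57380) (nat_lit 6) (nat_lit 755) (nat_lit 1) (nat_lit 199) (nat_lit 180) (nat_lit 191)))) (PT.nd (nat_lit 156) (PT.nd (nat_lit 78) (PT.lf (nat_lit 57304) (nat_lit 6) (nat_lit 754) (nat_lit 1) (nat_lit 200) (nat_lit 180) (nat_lit 190)) (PT.lf (nat_lit 56392) (nat_lit 6) (nat_lit 742) (nat_lit 1) (nat_lit 201) (nat_lit 180) (nat_lit 189))) (PT.nd (nat_lit 78) (PT.lf (nat_lit 55404) (nat_lit 6) (nat_lit 729) (nat_lit 1) (nat_lit 202) (nat_lit 180) (nat_lit 188)) (PT.lf (nat_lit 54340) (nat_lit 6) (nat_lit 715) (nat_lit 1) (nat_lit 203) (nat_lit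 180) (nat_lit 187))))) (PT.nd (nat_lit 234) (PT.nd (nat_lit 78) (PT.lf (nat_lit 53200) (nat_lit 6) (nat_lit 700) (nat_lit 1) (nat_lit 204) (nat_lit 180) (nat_lit 186)) (PT.nd (nat_lit 78) (PT.lf (nat_lit 51984) (nat_lit 6) (nat_lit 684) (nat_lit 1) (nat_lit 205) (nat_lit 180) (nat_lit 185)) (PT.lf (nat_lit 50692) (nat_lit 6) (nat_lit 667) (nat_lit 1) (nat_lit 206) (nat_lit 180) (nat_lit 184)))) (PT.nd (nat_lit 156) (PT.nd (nat_lit 78) (PT.lf (nat_lit 49324) (nat_lit 6) (nat_lit 649) (nat_lit 1) (nat_lit 207) (nat_lit 180) (nat_lit 183)) (PT.lf (nat_lit 47880) (nat_lit 6) (nat_lit 630) (nat_lit 1) (nat_lit 208) (nat_lit 180) (nat_lit 182))) (PT.nd (nat_lit 78) (PT.lf (nat_lit 46360) (nat_lit 6) (nat_lit 610) (nat_lit 1) (nat_lit 209) (nat_lit 180) (nat_lit 181)) (PT.lf (nat_lit 44764) (nat_lit 3) (nat_lit 589) (nat_lit 0) (nat_lit 210) (nat_lit 180) (nat_lit 180)))))) (PT.nd (nat_lit 56784) (PT.nd (nat_lit 234)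 (PT.nd (nat_lit 78) (PT.lf (nat_lit 43168) (nat_lit 6) (nat_lit 568) (nat_lit 0) (nat_lit 211) (nat_lit 180) (nat_lit 179)) (PT.nd (nat_lit 78) (PT.lf (nat_lit 41496) (nat_lit 6) (nat_lit 546) (nat_lit 0) (nat_lit 212) (nat_lit 180) (nat_lit 178)) (PT.lf (nat_lit 39748) (nat_lit 6) (nat_lit 523) (nat_lit 0) (nat_lit 213) (nat_lit 180) (nat_lit 177)))) (PT.nd (nat_lit 56394) (PT.nd (nat_lit 56316) (PT.lf (nat_lit 37924) (nat_lit 6) (nat_lit 499) (nat_lit 0) (nat_lit 214) (nat_lit 180) (nat_lit 176)) (PT.lf (nat_lit 38000) (nat_lit 6) (nat_lit 500) (nat_lit 5) (nat_lit 175) (nat_lit 181) (nat_lit 214))) (PT.nd (nat_lit 78) (PT.lf (nat_lit 39824) (nat_lit 6) (nat_lit 524) (nat_lit 5) (nat_lit 176) (nat_lit 181) (nat_lit 213)) (PT.lf (nat_lit 41572) (nat_lit 6) (nat_lit 547) (nat_lit 5) (nat_lit 177) (nat_lit 181) (nat_lit 212))))) (PT.nd (nat_lit 312) (PT.nd (nat_lit 156) (PT.nd (nat_lit 78) (PT.lf (nat_lit 43244)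 (nat_lit 6) (nat_lit 569) (nat_lit 5) (nat_lit 178) (nat_lit 181) (nat_lit 211)) (PT.lf (nat_lit 44840) (nat_lit 6) (nat_lit 590) (nat_lit 5) (nat_lit 179) (nat_lit 181) (nat_lit 210))) (PT.nd (nat_lit 78) (PT.lf (nat_lit 46360) (nat_lit 6) (nat_lit 610) (nat_lit 5) (nat_lit 180) (nat_lit 181) (nat_lit 209)) (PT.lf (nat_lit 47804) (nat_lit 3) (nat_lit 629) (nat_lit 3) (nat_lit 181) (nat_lit 181) (nat_lit 208)))) (PT.nd (nat_lit 156) (PT.nd (nat_lit 78) (PT.lf (nat_lit 49248) (nat_lit 6) (nat_lit 648) (nat_lit 3) (nat_lit 182) (nat_lit 181) (nat_lit 207)) (PT.lf (nat_lit 50616) (nat_lit 6) (nat_lit 666) (nat_lit 3) (nat_lit 183) (nat_lit 181) (nat_lit 206))) (PT.nd (nat_lit 78) (PT.lf (nat_lit 51908) (nat_lit 6) (nat_lit 683) (nat_lit 3) (nat_lit 184) (nat_lit 181) (nat_lit 205)) (PT.lf (nat_lit 53124) (nat_lit 6) (nat_lit 699) (nat_lit 3) (nat_lit 185) (nat_lit 181) (nat_lit 204))))))) (PT.nd (nat_lit 1170) (PT.nd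 (nat_lit 546) (PT.nd (nat_lit 234) (PT.nd (nat_lit 78) (PT.lf (nat_lit 54264) (nat_lit 6) (nat_lit 714) (nat_lit 3) (nat_lit 186) (nat_lit 181) (nat_lit 203)) (PT.nd (nat_lit 78) (PT.lf (nat_lit 55328) (nat_lit 6) (nat_lit 728) (nat_lit 3) (nat_lit 187) (nat_lit 181) (nat_lit 202)) (PT.lf (nat_lit 56316) (nat_lit 6) (nat_lit 741) (nat_lit 3) (nat_lit 188) (nat_lit 181) (nat_lit 201)))) (PT.nd (nat_lit 156) (PT.nd (nat_lit 78) (PT.lf (nat_lit 57228) (nat_lit 6) (nat_lit 753) (nat_lit 3) (nat_lit 189) (nat_lit 181) (nat_lit 200)) (PT.lf (nat_lit 58064) (nat_lit 6) (nat_lit 764) (nat_lit 3) (nat_lit 190) (nat_lit 181) (nat_lit 199))) (PT.nd (nat_lit 78) (PT.lf (nat_lit 58140) (nat_lit 6) (nat_lit 765) (nat_lit 3) (nat_lit 191) (nat_lit 181) (nat_lit 198)) (PT.lf (nat_lit 58216) (nat_lit 6) (nat_lit 766) (nat_lit 3) (nat_lit 192) (nat_lit 181) (nat_lit 197))))) (PT.nd (nat_lit 312) (PT.nd (nat_lit 156) (PT.nd (nat_lit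 78) (PT.lf (nat_lit 58292) (nat_lit 6) (nat_lit 767) (nat_lit 3) (nat_lit 193) (nat_lit 181) (nat_lit 196)) (PT.lf (nat_lit 58368) (nat_lit 6) (nat_lit 768) (nat_lit 3) (nat_lit 194) (nat_lit 181) (nat_lit 195))) (PT.nd (nat_lit 78) (PT.lf (nat_lit 58368) (nat_lit 6) (nat_lit 768) (nat_lit 1) (nat_lit 195) (nat_lit 181) (nat_lit 194)) (PT.lf (nat_lit 58292) (nat_lit 6) (nat_lit 767) (nat_lit 1) (nat_lit 196) (nat_lit 181) (nat_lit 193)))) (PT.nd (nat_lit 156) (PT.nd (nat_lit 78) (PT.lf (nat_lit 58216) (nat_lit 6) (nat_lit 766) (nat_lit 1) (nat_lit 197) (nat_lit 181) (nat_lit 192)) (PT.lf (nat_lit 58140) (nat_lit 6) (nat_lit 765) (nat_lit 1) (nat_lit 198) (nat_lit 181) (nat_lit 191))) (PT.nd (nat_lit 78) (PT.lf (nat_lit 58064) (nat_lit 6) (nat_lit 764) (nat_lit 1) (nat_lit 199) (nat_lit 181) (nat_lit 190)) (PT.lf (nat_lit 57228) (nat_lit 6) (nat_lit 753) (nat_lit 1) (nat_lit 200) (nat_lit 181) (nat_lit 189))))))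 (PT.nd (nat_lit 546) (PT.nd (nat_lit 234) (PT.nd (nat_lit 78) (PT.lf (nat_lit 56316) (nat_lit 6) (nat_lit 741) (nat_lit 1) (nat_lit 201) (nat_lit 181) (nat_lit 188)) (PT.nd (nat_lit 78) (PT.lf (nat_lit 55328) (nat_lit 6) (nat_lit 728) (nat_lit 1) (nat_lit 202) (nat_lit 181) (nat_lit 187)) (PT.lf (nat_lit 54264) (nat_lit 6) (nat_lit 714) (nat_lit 1) (nat_lit 203) (nat_lit 181) (nat_lit 186)))) (PT.nd (nat_lit 156) (PT.nd (nat_lit 78) (PT.lf (nat_lit 53124) (nat_lit 6) (nat_lit 699) (nat_lit 1) (nat_lit 204) (nat_lit 181) (nat_lit 185)) (PT.lf (nat_lit 51908) (nat_lit 6) (nat_lit 683) (nat_lit 1) (nat_lit 205) (nat_lit 181) (nat_lit 184))) (PT.nd (nat_lit 78) (PT.lf (nat_lit 50616) (nat_lit 6) (nat_lit 666) (nat_lit 1) (nat_lit 206) (nat_lit 181) (nat_lit 183)) (PT.lf (nat_lit 49248) (nat_lit 6) (nat_lit 648) (nat_lit 1) (nat_lit 207) (nat_lit 181) (nat_lit 182))))) (PT.nd (nat_lit 312) (PT.nd (nat_lit 156) (PT.nd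 (nat_lit 78) (PT.lf (nat_lit 47804) (nat_lit 3) (nat_lit 629) (nat_lit 0) (nat_lit 208) (nat_lit 181) (nat_lit 181)) (PT.lf (nat_lit 46360) (nat_lit 6) (nat_lit 610) (nat_lit 0) (nat_lit 209) (nat_lit 181) (nat_lit 180))) (PT.nd (nat_lit 78) (PT.lf (nat_lit 44840) (nat_lit 6) (nat_lit 590) (nat_lit 0) (nat_lit 210) (nat_lit 181) (nat_lit 179)) (PT.lf (nat_lit 43244) (nat_lit 6) (nat_lit 569) (nat_lit 0) (nat_lit 211) (nat_lit 181) (nat_lit 178)))) (PT.nd (nat_lit 156) (PT.nd (nat_lit 78) (PT.lf (nat_lit 41572) (nat_lit 6) (nat_lit 547) (nat_lit 0) (nat_lit 212) (nat_lit 181) (nat_lit 177)) (PT.lf (nat_lit 39824) (nat_lit 6) (nat_lit 524) (nat_lit 0) (nat_lit 213) (nat_lit 181) (nat_lit 176))) (PT.nd (nat_lit 56238) (PT.lf (nat_lit 38000) (nat_lit 6) (nat_lit 500) (nat_lit 0) (nat_lit 214) (nat_lit 181) (nat_lit 175)) (PT.lf (nat_lit 38076) (nat_lit 6) (nat_lit 501) (nat_lit 5) (nat_lit 174) (nat_lit 182) (nat_lit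 214))))))))
noncomputable def pc20 : PT := (PT.nd (nat_lit 2262) (PT.nd (nat_lit 1092) (PT.nd (nat_lit 546) (PT.nd (nat_lit 234) (PT.nd (nat_lit 78) (PT.lf (nat_lit 39900) (nat_lit 6) (nat_lit 525) (nat_lit 5) (nat_lit 175) (nat_lit 182) (nat_lit 213)) (PT.nd (nat_lit 78) (PT.lf (nat_lit 41648) (nat_lit 6) (nat_lit 548) (nat_lit 5) (nat_lit 176) (nat_lit 182) (nat_lit 212)) (PT.lf (nat_lit 43320) (nat_lit 6) (nat_lit 570) (nat_lit 5) (nat_lit 177) (nat_lit 182) (nat_lit 211)))) (PT.nd (nat_lit 156) (PT.nd (nat_lit 78) (PT.lf (nat_lit 44916) (nat_lit 6) (nat_lit 591) (nat_lit 5) (nat_lit 178) (nat_lit 182) (nat_lit 210)) (PT.lf (nat_lit 46436) (nat_lit 6) (nat_lit 611) (nat_lit 5) (nat_lit 179) (nat_lit 182) (nat_lit 209))) (PT.nd (nat_lit 78) (PT.lf (nat_lit 47880) (nat_lit 6) (nat_lit 630) (nat_lit 5) (nat_lit 180) (nat_lit 182) (nat_lit 208)) (PT.lf (nat_lit 49248) (nat_lit 6) (nat_lit 648) (nat_lit 5) (nat_lit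 181) (nat_lit 182) (nat_lit 207))))) (PT.nd (nat_lit 234) (PT.nd (nat_lit 78) (PT.lf (nat_lit 50540) (nat_lit 3) (nat_lit 665) (nat_lit 3) (nat_lit 182) (nat_lit 182) (nat_lit 206)) (PT.nd (nat_lit 78) (PT.lf (nat_lit 51832) (nat_lit 6) (nat_lit 682) (nat_lit 3) (nat_lit 183) (nat_lit 182) (nat_lit 205)) (PT.lf (nat_lit 53048) (nat_lit 6) (nat_lit 698) (nat_lit 3) (nat_lit 184) (nat_lit 182) (nat_lit 204)))) (PT.nd (nat_lit 156) (PT.nd (nat_lit 78) (PT.lf (nat_lit 54188) (nat_lit 6) (nat_lit 713) (nat_lit 3) (nat_lit 185) (nat_lit 182) (nat_lit 203)) (PT.lf (nat_lit 55252) (nat_lit 6) (nat_lit 727) (nat_lit 3) (nat_lit 186) (nat_lit 182) (nat_lit 202))) (PT.nd (nat_lit 78) (PT.lf (nat_lit 56240) (nat_lit 6) (nat_lit 740) (nat_lit 3) (nat_lit 187) (nat_lit 182) (nat_lit 201)) (PT.lf (nat_lit 57152) (nat_lit 6) (nat_lit 752) (nat_lit 3) (nat_lit 188) (nat_lit 182) (nat_lit 200)))))) (PT.nd (nat_lit 546) (PT.nd (nat_lit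 234) (PT.nd (nat_lit 78) (PT.lf (nat_lit 57988) (nat_lit 6) (nat_lit 763) (nat_lit 3) (nat_lit 189) (nat_lit 182) (nat_lit 199)) (PT.nd (nat_lit 78) (PT.lf (nat_lit 58748) (nat_lit 6) (nat_lit 773) (nat_lit 3) (nat_lit 190) (nat_lit 182) (nat_lit 198)) (PT.lf (nat_lit 58824) (nat_lit 6) (nat_lit 774) (nat_lit 3) (nat_lit 191) (nat_lit 182) (nat_lit 197)))) (PT.nd (nat_lit 156) (PT.nd (nat_lit 78) (PT.lf (nat_lit 58900) (nat_lit 6) (nat_lit 775) (nat_lit 3) (nat_lit 192) (nat_lit 182) (nat_lit 196)) (PT.lf (nat_lit 58976) (nat_lit 6) (nat_lit 776) (nat_lit 3) (nat_lit 193) (nat_lit 182) (nat_lit 195))) (PT.nd (nat_lit 78) (PT.lf (nat_lit 59052) (nat_lit 3) (nat_lit 777) (nat_lit 1) (nat_lit 194) (nat_lit 182) (nat_lit 194)) (PT.lf (nat_lit 58976) (nat_lit 6) (nat_lit 776) (nat_lit 1) (nat_lit 195) (nat_lit 182) (nat_lit 193))))) (PT.nd (nat_lit 312) (PT.nd (nat_lit 156) (PT.nd (nat_lit 78) (PT.lf (nat_lit 58900)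 (nat_lit 6) (nat_lit 775) (nat_lit 1) (nat_lit 196) (nat_lit 182) (nat_lit 192)) (PT.lf (nat_lit 58824) (nat_lit 6) (nat_lit 774) (nat_lit 1) (nat_lit 197) (nat_lit 182) (nat_lit 191))) (PT.nd (nat_lit 78) (PT.lf (nat_lit 58748) (nat_lit 6) (nat_lit 773) (nat_lit 1) (nat_lit 198) (nat_lit 182) (nat_lit 190)) (PT.lf (nat_lit 57988) (nat_lit 6) (nat_lit 763) (nat_lit 1) (nat_lit 199) (nat_lit 182) (nat_lit 189)))) (PT.nd (nat_lit 156) (PT.nd (nat_lit 78) (PT.lf (nat_lit 57152) (nat_lit 6) (nat_lit 752) (nat_lit 1) (nat_lit 200) (nat_lit 182) (nat_lit 188)) (PT.lf (nat_lit 56240) (nat_lit 6) (nat_lit 740) (nat_lit 1) (nat_lit 201) (nat_lit 182) (nat_lit 187))) (PT.nd (nat_lit 78) (PT.lf (nat_lit 55252) (nat_lit 6) (nat_lit 727) (nat_lit 1) (nat_lit 202) (nat_lit 182) (nat_lit 186)) (PT.lf (nat_lit 54188) (nat_lit 6) (nat_lit 713) (nat_lit 1) (nat_lit 203) (nat_lit 182) (nat_lit 185))))))) (PT.nd (nat_lit 57174) (PT.nd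 (nat_lit 546) (PT.nd (nat_lit 234) (PT.nd (nat_lit 78) (PT.lf (nat_lit 53048) (nat_lit 6) (nat_lit 698) (nat_lit 1) (nat_lit 204) (nat_lit 182) (nat_lit 184)) (PT.nd (nat_lit 78) (PT.lf (nat_lit 51832) (nat_lit 6) (nat_lit 682) (nat_lit 1) (nat_lit 205) (nat_lit 182) (nat_lit 183)) (PT.lf (nat_lit 50540) (nat_lit 3) (nat_lit 665) (nat_lit 0) (nat_lit 206) (nat_lit 182) (nat_lit 182)))) (PT.nd (nat_lit 156) (PT.nd (nat_lit 78) (PT.lf (nat_lit 49248) (nat_lit 6) (nat_lit 648) (nat_lit 0) (nat_lit 207) (nat_lit 182) (nat_lit 181)) (PT.lf (nat_lit 47880) (nat_lit 6) (nat_lit 630) (nat_lit 0) (nat_lit 208) (nat_lit 182) (nat_lit 180))) (PT.nd (nat_lit 78) (PT.lf (nat_lit 46436) (nat_lit 6) (nat_lit 611) (nat_lit 0) (nat_lit 209) (nat_lit 182) (nat_lit 179)) (PT.lf (nat_lit 44916) (nat_lit 6) (nat_lit 591) (nat_lit 0) (nat_lit 210) (nat_lit 182) (nat_lit 178))))) (PT.nd (nat_lit 234) (PT.nd (nat_lit 78) (PT.lf (nat_lit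 43320) (nat_lit 6) (nat_lit 570) (nat_lit 0) (nat_lit 211) (nat_lit 182) (nat_lit 177)) (PT.nd (nat_lit 78) (PT.lf (nat_lit 41648) (nat_lit 6) (nat_lit 548) (nat_lit 0) (nat_lit 212) (nat_lit 182) (nat_lit 176)) (PT.lf (nat_lit 39900) (nat_lit 6) (nat_lit 525) (nat_lit 0) (nat_lit 213) (nat_lit 182) (nat_lit 175)))) (PT.nd (nat_lit 56238) (PT.nd (nat_lit 56160) (PT.lf (nat_lit 38076) (nat_lit 6) (nat_lit 501) (nat_lit 0) (nat_lit 214) (nat_lit 182) (nat_lit 174)) (PT.lf (nat_lit 38152) (nat_lit 6) (nat_lit 502) (nat_lit 5) (nat_lit 173) (nat_lit 183) (nat_lit 214))) (PT.nd (nat_lit 78) (PT.lf (nat_lit 39976) (nat_lit 6) (nat_lit 526) (nat_lit 5) (nat_lit 174) (nat_lit 183) (nat_lit 213)) (PT.lf (nat_lit 41724) (nat_lit 6) (nat_lit 549) (nat_lit 5) (nat_lit 175) (nat_lit 183) (nat_lit 212)))))) (PT.nd (nat_lit 546) (PT.nd (nat_lit 234) (PT.nd (nat_lit 78) (PT.lf (nat_lit 43396) (nat_lit 6) (nat_lit 571) (nat_lit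 5) (nat_lit 176) (nat_lit 183) (nat_lit 211)) (PT.nd (nat_lit 78) (PT.lf (nat_lit 44992) (nat_lit 6) (nat_lit 592) (nat_lit 5) (nat_lit 177) (nat_lit 183) (nat_lit 210)) (PT.lf (nat_lit 46512) (nat_lit 6) (nat_lit 612) (nat_lit 5) (nat_lit 178) (nat_lit 183) (nat_lit 209)))) (PT.nd (nat_lit 156) (PT.nd (nat_lit 78) (PT.lf (nat_lit 47956) (nat_lit 6) (nat_lit 631) (nat_lit 5) (nat_lit 179) (nat_lit 183) (nat_lit 208)) (PT.lf (nat_lit 49324) (nat_lit 6) (nat_lit 649) (nat_lit 5) (nat_lit 180) (nat_lit 183) (nat_lit 207))) (PT.nd (nat_lit 78) (PT.lf (nat_lit 50616) (nat_lit 6) (nat_lit 666) (nat_lit 5) (nat_lit 181) (nat_lit 183) (nat_lit 206)) (PT.lf (nat_lit 51832) (nat_lit 6) (nat_lit 682) (nat_lit 5) (nat_lit 182) (nat_lit 183) (nat_lit 205))))) (PT.nd (nat_lit 312) (PT.nd (nat_lit 156) (PT.nd (nat_lit 78) (PT.lf (nat_lit 52972) (nat_lit 3) (nat_lit 697) (nat_lit 3) (nat_lit 183) (nat_lit 183) (nat_lit 204)) (PT.lf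 (nat_lit 54112) (nat_lit 6) (nat_lit 712) (nat_lit 3) (nat_lit 184) (nat_lit 183) (nat_lit 203))) (PT.nd (nat_lit 78) (PT.lf (nat_lit 55176) (nat_lit 6) (nat_lit 726) (nat_lit 3) (nat_lit 185) (nat_lit 183) (nat_lit 202)) (PT.lf (nat_lit 56164) (nat_lit 6) (nat_lit 739) (nat_lit 3) (nat_lit 186) (nat_lit 183) (nat_lit 201)))) (PT.nd (nat_lit 156) (PT.nd (nat_lit 78) (PT.lf (nat_lit 57076) (nat_lit 6) (nat_lit 751) (nat_lit 3) (nat_lit 187) (nat_lit 183) (nat_lit 200)) (PT.lf (nat_lit 57912) (nat_lit 6) (nat_lit 762) (nat_lit 3) (nat_lit 188) (nat_lit 183) (nat_lit 199))) (PT.nd (nat_lit 78) (PT.lf (nat_lit 58672) (nat_lit 6) (nat_lit 772) (nat_lit 3) (nat_lit 189) (nat_lit 183) (nat_lit 198)) (PT.lf (nat_lit 59356) (nat_lit 6) (nat_lit 781) (nat_lit 3) (nat_lit 190) (nat_lit 183) (nat_lit 197))))))))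
noncomputable def pc21 : PT := (PT.nd (nat_lit 58266) (PT.nd (nat_lit 1092) (PT.nd (nat_lit 546) (PT.nd (nat_lit 234) (PT.nd (nat_lit 78) (PT.lf (nat_lit 59432) (nat_lit 6) (nat_lit 782) (nat_lit 3) (nat_lit 191) (nat_lit 183) (nat_lit 196)) (PT.nd (nat_lit 78) (PT.lf (nat_lit 59508) (nat_lit 6) (nat_lit 783) (nat_lit 3) (nat_lit 192) (nat_lit 183) (nat_lit 195)) (PT.lf (nat_lit 59584) (nat_lit 6) (nat_lit 784) (nat_lit 3) (nat_lit 193) (nat_lit 183) (nat_lit 194)))) (PT.nd (nat_lit 156) (PT.nd (nat_lit 78) (PT.lf (nat_lit 59584) (nat_lit 6) (nat_lit 784) (nat_lit 1) (nat_lit 194) (nat_lit 183) (nat_lit 193)) (PT.lf (nat_lit 59508) (nat_lit 6) (nat_lit 783) (nat_lit 1) (nat_lit 195) (nat_lit 183) (nat_lit 192))) (PT.nd (nat_lit 78) (PT.lf (nat_lit 59432) (nat_lit 6) (nat_lit 782) (nat_lit 1) (nat_lit 196) (nat_lit 183) (nat_lit 191)) (PT.lf (nat_lit 59356) (nat_lit 6) (nat_lit 781) (nat_lit 1) (nat_lit 197) (nat_lit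 183) (nat_lit 190))))) (PT.nd (nat_lit 234) (PT.nd (nat_lit 78) (PT.lf (nat_lit 58672) (nat_lit 6) (nat_lit 772) (nat_lit 1) (nat_lit 198) (nat_lit 183) (nat_lit 189)) (PT.nd (nat_lit 78) (PT.lf (nat_lit 57912) (nat_lit 6) (nat_lit 762) (nat_lit 1) (nat_lit 199) (nat_lit 183) (nat_lit 188)) (PT.lf (nat_lit 57076) (nat_lit 6) (nat_lit 751) (nat_lit 1) (nat_lit 200) (nat_lit 183) (nat_lit 187)))) (PT.nd (nat_lit 156) (PT.nd (nat_lit 78) (PT.lf (nat_lit 56164) (nat_lit 6) (nat_lit 739) (nat_lit 1) (nat_lit 201) (nat_lit 183) (nat_lit 186)) (PT.lf (nat_lit 55176) (nat_lit 6) (nat_lit 726) (nat_lit 1) (nat_lit 202) (nat_lit 183) (nat_lit 185))) (PT.nd (nat_lit 78) (PT.lf (nat_lit 54112) (nat_lit 6) (nat_lit 712) (nat_lit 1) (nat_lit 203) (nat_lit 183) (nat_lit 184)) (PT.lf (nat_lit 52972) (nat_lit 3) (nat_lit 697) (nat_lit 0) (nat_lit 204) (nat_lit 183) (nat_lit 183)))))) (PT.nd (nat_lit 546) (PT.nd (nat_lit 234) (PT.nd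 (nat_lit 78) (PT.lf (nat_lit 51832) (nat_lit 6) (nat_lit 682) (nat_lit 0) (nat_lit 205) (nat_lit 183) (nat_lit 182)) (PT.nd (nat_lit 78) (PT.lf (nat_lit 50616) (nat_lit 6) (nat_lit 666) (nat_lit 0) (nat_lit 206) (nat_lit 183) (nat_lit 181)) (PT.lf (nat_lit 49324) (nat_lit 6) (nat_lit 649) (nat_lit 0) (nat_lit 207) (nat_lit 183) (nat_lit 180)))) (PT.nd (nat_lit 156) (PT.nd (nat_lit 78) (PT.lf (nat_lit 47956) (nat_lit 6) (nat_lit 631) (nat_lit 0) (nat_lit 208) (nat_lit 183) (nat_lit 179)) (PT.lf (nat_lit 46512) (nat_lit 6) (nat_lit 612) (nat_lit 0) (nat_lit 209) (nat_lit 183) (nat_lit 178))) (PT.nd (nat_lit 78) (PT.lf (nat_lit 44992) (nat_lit 6) (nat_lit 592) (nat_lit 0) (nat_lit 210) (nat_lit 183) (nat_lit 177)) (PT.lf (nat_lit 43396) (nat_lit 6) (nat_lit 571) (nat_lit 0) (nat_lit 211) (nat_lit 183) (nat_lit 176))))) (PT.nd (nat_lit 56316) (PT.nd (nat_lit 156) (PT.nd (nat_lit 78) (PT.lf (nat_lit 41724) (nat_lit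 6) (nat_lit 549) (nat_lit 0) (nat_lit 212) (nat_lit 183) (nat_lit 175)) (PT.lf (nat_lit 39976) (nat_lit 6) (nat_lit 526) (nat_lit 0) (nat_lit 213) (nat_lit 183) (nat_lit 174))) (PT.nd (nat_lit 56082) (PT.lf (nat_lit 38152) (nat_lit 6) (nat_lit 502) (nat_lit 0) (nat_lit 214) (nat_lit 183) (nat_lit 173)) (PT.lf (nat_lit 38228) (nat_lit 6) (nat_lit 503) (nat_lit 5) (nat_lit 172) (nat_lit 184) (nat_lit 214)))) (PT.nd (nat_lit 156) (PT.nd (nat_lit 78) (PT.lf (nat_lit 40052) (nat_lit 6) (nat_lit 527) (nat_lit 5) (nat_lit 173) (nat_lit 184) (nat_lit 213)) (PT.lf (nat_lit 41800) (nat_lit 6) (nat_lit 550) (nat_lit 5) (nat_lit 174) (nat_lit 184) (nat_lit 212))) (PT.nd (nat_lit 78) (PT.lf (nat_lit 43472) (nat_lit 6) (nat_lit 572) (nat_lit 5) (nat_lit 175) (nat_lit 184) (nat_lit 211)) (PT.lf (nat_lit 45068) (nat_lit 6) (nat_lit 593) (nat_lit 5) (nat_lit 176) (nat_lit 184) (nat_lit 210))))))) (PT.nd (nat_lit 1170) (PT.nd (nat_lit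 546) (PT.nd (nat_lit 234) (PT.nd (nat_lit 78) (PT.lf (nat_lit 46588) (nat_lit 6) (nat_lit 613) (nat_lit 5) (nat_lit 177) (nat_lit 184) (nat_lit 209)) (PT.nd (nat_lit 78) (PT.lf (nat_lit 48032) (nat_lit 6) (nat_lit 632) (nat_lit 5) (nat_lit 178) (nat_lit 184) (nat_lit 208)) (PT.lf (nat_lit 49400) (nat_lit 6) (nat_lit 650) (nat_lit 5) (nat_lit 179) (nat_lit 184) (nat_lit 207)))) (PT.nd (nat_lit 156) (PT.nd (nat_lit 78) (PT.lf (nat_lit 50692) (nat_lit 6) (nat_lit 667) (nat_lit 5) (nat_lit 180) (nat_lit 184) (nat_lit 206)) (PT.lf (nat_lit 51908) (nat_lit 6) (nat_lit 683) (nat_lit 5) (nat_lit 181) (nat_lit 184) (nat_lit 205))) (PT.nd (nat_lit 78) (PT.lf (nat_lit 53048) (nat_lit 6) (nat_lit 698) (nat_lit 5) (nat_lit 182) (nat_lit 184) (nat_lit 204)) (PT.lf (nat_lit 54112) (nat_lit 6) (nat_lit 712) (nat_lit 5) (nat_lit 183) (nat_lit 184) (nat_lit 203))))) (PT.nd (nat_lit 312) (PT.nd (nat_lit 156) (PT.nd (nat_lit 78) (PT.lf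 (nat_lit 55100) (nat_lit 3) (nat_lit 725) (nat_lit 3) (nat_lit 184) (nat_lit 184) (nat_lit 202)) (PT.lf (nat_lit 56088) (nat_lit 6) (nat_lit 738) (nat_lit 3) (nat_lit 185) (nat_lit 184) (nat_lit 201))) (PT.nd (nat_lit 78) (PT.lf (nat_lit 57000) (nat_lit 6) (nat_lit 750) (nat_lit 3) (nat_lit 186) (nat_lit 184) (nat_lit 200)) (PT.lf (nat_lit 57836) (nat_lit 6) (nat_lit 761) (nat_lit 3) (nat_lit 187) (nat_lit 184) (nat_lit 199)))) (PT.nd (nat_lit 156) (PT.nd (nat_lit 78) (PT.lf (nat_lit 58596) (nat_lit 6) (nat_lit 771) (nat_lit 3) (nat_lit 188) (nat_lit 184) (nat_lit 198)) (PT.lf (nat_lit 59280) (nat_lit 6) (nat_lit 780) (nat_lit 3) (nat_lit 189) (nat_lit 184) (nat_lit 197))) (PT.nd (nat_lit 78) (PT.lf (nat_lit 59888) (nat_lit 6) (nat_lit 788) (nat_lit 3) (nat_lit 190) (nat_lit 184) (nat_lit 196)) (PT.lf (nat_lit 59964) (nat_lit 6) (nat_lit 789) (nat_lit 3) (nat_lit 191) (nat_lit 184) (nat_lit 195)))))) (PT.nd (nat_lit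 546) (PT.nd (nat_lit 234) (PT.nd (nat_lit 78) (PT.lf (nat_lit 60040) (nat_lit 6) (nat_lit 790) (nat_lit 3) (nat_lit 192) (nat_lit 184) (nat_lit 194)) (PT.nd (nat_lit 78) (PT.lf (nat_lit 60116) (nat_lit 3) (nat_lit 791) (nat_lit 1) (nat_lit 193) (nat_lit 184) (nat_lit 193)) (PT.lf (nat_lit 60040) (nat_lit 6) (nat_lit 790) (nat_lit 1) (nat_lit 194) (nat_lit 184) (nat_lit 192)))) (PT.nd (nat_lit 156) (PT.nd (nat_lit 78) (PT.lf (nat_lit 59964) (nat_lit 6) (nat_lit 789) (nat_lit 1) (nat_lit 195) (nat_lit 184) (nat_lit 191)) (PT.lf (nat_lit 59888) (nat_lit 6) (nat_lit 788) (nat_lit 1) (nat_lit 196) (nat_lit 184) (nat_lit 190))) (PT.nd (nat_lit 78) (PT.lf (nat_lit 59280) (nat_lit 6) (nat_lit 780) (nat_lit 1) (nat_lit 197) (nat_lit 184) (nat_lit 189)) (PT.lf (nat_lit 58596) (nat_lit 6) (nat_lit 771) (nat_lit 1) (nat_lit 198) (nat_lit 184) (nat_lit 188))))) (PT.nd (nat_lit 312) (PT.nd (nat_lit 156) (PT.nd (nat_lit 78) (PT.lf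 (nat_lit 57836) (nat_lit 6) (nat_lit 761) (nat_lit 1) (nat_lit 199) (nat_lit 184) (nat_lit 187)) (PT.lf (nat_lit 57000) (nat_lit 6) (nat_lit 750) (nat_lit 1) (nat_lit 200) (nat_lit 184) (nat_lit 186))) (PT.nd (nat_lit 78) (PT.lf (nat_lit 56088) (nat_lit 6) (nat_lit 738) (nat_lit 1) (nat_lit 201) (nat_lit 184) (nat_lit 185)) (PT.lf (nat_lit 55100) (nat_lit 3) (nat_lit 725) (nat_lit 0) (nat_lit 202) (nat_lit 184) (nat_lit 184)))) (PT.nd (nat_lit 156) (PT.nd (nat_lit 78) (PT.lf (nat_lit 54112) (nat_lit 6) (nat_lit 712) (nat_lit 0) (nat_lit 203) (nat_lit 184) (nat_lit 183)) (PT.lf (nat_lit 53048) (nat_lit 6) (nat_lit 698) (nat_lit 0) (nat_lit 204) (nat_lit 184) (nat_lit 182))) (PT.nd (nat_lit 78) (PT.lf (nat_lit 51908) (nat_lit 6) (nat_lit 683) (nat_lit 0) (nat_lit 205) (nat_lit 184) (nat_lit 181)) (PT.lf (nat_lit 50692) (nat_lit 6) (nat_lit 667) (nat_lit 0) (nat_lit 206) (nat_lit 184) (nat_lit 180))))))))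
noncomputable def pc22 : PT := (PT.nd (nat_lit 58188) (PT.nd (nat_lit 57018) (PT.nd (nat_lit 546) (PT.nd (nat_lit 234) (PT.nd (nat_lit 78) (PT.lf (nat_lit 49400) (nat_lit 6) (nat_lit 650) (nat_lit 0) (nat_lit 207) (nat_lit 184) (nat_lit 179)) (PT.nd (nat_lit 78) (PT.lf (nat_lit 48032) (nat_lit 6) (nat_lit 632) (nat_lit 0) (nat_lit 208) (nat_lit 184) (nat_lit 178)) (PT.lf (nat_lit 46588) (nat_lit 6) (nat_lit 613) (nat_lit 0) (nat_lit 209) (nat_lit 184) (nat_lit 177)))) (PT.nd (nat_lit 156) (PT.nd (nat_lit 78) (PT.lf (nat_lit 45068) (nat_lit 6) (nat_lit 593) (nat_lit 0) (nat_lit 210) (nat_lit 184) (nat_lit 176)) (PT.lf (nat_lit 43472) (nat_lit 6) (nat_lit 572) (nat_lit 0) (nat_lit 211) (nat_lit 184) (nat_lit 175))) (PT.nd (nat_lit 78) (PT.lf (nat_lit 41800) (nat_lit 6) (nat_lit 550) (nat_lit 0) (nat_lit 212) (nat_lit 184) (nat_lit 174)) (PT.lf (nat_lit 40052) (nat_lit 6) (nat_lit 527) (nat_lit 0) (nat_lit 213) (nat_lit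 184) (nat_lit 173))))) (PT.nd (nat_lit 56160) (PT.nd (nat_lit 56004) (PT.lf (nat_lit 38228) (nat_lit 6) (nat_lit 503) (nat_lit 0) (nat_lit 214) (nat_lit 184) (nat_lit 172)) (PT.nd (nat_lit 78) (PT.lf (nat_lit 38304) (nat_lit 6) (nat_lit 504) (nat_lit 5) (nat_lit 171) (nat_lit 185) (nat_lit 214)) (PT.lf (nat_lit 40128) (nat_lit 6) (nat_lit 528) (nat_lit 5) (nat_lit 172) (nat_lit 185) (nat_lit 213)))) (PT.nd (nat_lit 156) (PT.nd (nat_lit 78) (PT.lf (nat_lit 41876) (nat_lit 6) (nat_lit 551) (nat_lit 5) (nat_lit 173) (nat_lit 185) (nat_lit 212)) (PT.lf (nat_lit 43548) (nat_lit 6) (nat_lit 573) (nat_lit 5) (nat_lit 174) (nat_lit 185) (nat_lit 211))) (PT.nd (nat_lit 78) (PT.lf (nat_lit 45144) (nat_lit 6) (nat_lit 594) (nat_lit 5) (nat_lit 175) (nat_lit 185) (nat_lit 210)) (PT.lf (nat_lit 46664) (nat_lit 6) (nat_lit 614) (nat_lit 5) (nat_lit 176) (nat_lit 185) (nat_lit 209)))))) (PT.nd (nat_lit 546) (PT.nd (nat_lit 234)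 (PT.nd (nat_lit 78) (PT.lf (nat_lit 48108) (nat_lit 6) (nat_lit 633) (nat_lit 5) (nat_lit 177) (nat_lit 185) (nat_lit 208)) (PT.nd (nat_lit 78) (PT.lf (nat_lit 49476) (nat_lit 6) (nat_lit 651) (nat_lit 5) (nat_lit 178) (nat_lit 185) (nat_lit 207)) (PT.lf (nat_lit 50768) (nat_lit 6) (nat_lit 668) (nat_lit 5) (nat_lit 179) (nat_lit 185) (nat_lit 206)))) (PT.nd (nat_lit 156) (PT.nd (nat_lit 78) (PT.lf (nat_lit 51984) (nat_lit 6) (nat_lit 684) (nat_lit 5) (nat_lit 180) (nat_lit 185) (nat_lit 205)) (PT.lf (nat_lit 53124) (nat_lit 6) (nat_lit 699) (nat_lit 5) (nat_lit 181) (nat_lit 185) (nat_lit 204))) (PT.nd (nat_lit 78) (PT.lf (nat_lit 54188) (nat_lit 6) (nat_lit 713) (nat_lit 5) (nat_lit 182) (nat_lit 185) (nat_lit 203)) (PT.lf (nat_lit 55176) (nat_lit 6) (nat_lit 726) (nat_lit 5) (nat_lit 183) (nat_lit 185) (nat_lit 202))))) (PT.nd (nat_lit 312) (PT.nd (nat_lit 156) (PT.nd (nat_lit 78) (PT.lf (nat_lit 56088) (nat_lit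 6) (nat_lit 738) (nat_lit 5) (nat_lit 184) (nat_lit 185) (nat_lit 201)) (PT.lf (nat_lit 56924) (nat_lit 3) (nat_lit 749) (nat_lit 3) (nat_lit 185) (nat_lit 185) (nat_lit 200))) (PT.nd (nat_lit 78) (PT.lf (nat_lit 57760) (nat_lit 6) (nat_lit 760) (nat_lit 3) (nat_lit 186) (nat_lit 185) (nat_lit 199)) (PT.lf (nat_lit 58520) (nat_lit 6) (nat_lit 770) (nat_lit 3) (nat_lit 187) (nat_lit 185) (nat_lit 198)))) (PT.nd (nat_lit 156) (PT.nd (nat_lit 78) (PT.lf (nat_lit 59204) (nat_lit 6) (nat_lit 779) (nat_lit 3) (nat_lit 188) (nat_lit 185) (nat_lit 197)) (PT.lf (nat_lit 59812) (nat_lit 6) (nat_lit 787) (nat_lit 3) (nat_lit 189) (nat_lit 185) (nat_lit 196))) (PT.nd (nat_lit 78) (PT.lf (nat_lit 60344) (nat_lit 6) (nat_lit 794) (nat_lit 3) (nat_lit 190) (nat_lit 185) (nat_lit 195)) (PT.lf (nat_lit 60420) (nat_lit 6) (nat_lit 795) (nat_lit 3) (nat_lit 191) (nat_lit 185) (nat_lit 194))))))) (PT.nd (nat_lit 1092) (PT.nd (nat_lit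 546) (PT.nd (nat_lit 234) (PT.nd (nat_lit 78) (PT.lf (nat_lit 60496) (nat_lit 6) (nat_lit 796) (nat_lit 3) (nat_lit 192) (nat_lit 185) (nat_lit 193)) (PT.nd (nat_lit 78) (PT.lf (nat_lit 60496) (nat_lit 6) (nat_lit 796) (nat_lit 1) (nat_lit 193) (nat_lit 185) (nat_lit 192)) (PT.lf (nat_lit 60420) (nat_lit 6) (nat_lit 795) (nat_lit 1) (nat_lit 194) (nat_lit 185) (nat_lit 191)))) (PT.nd (nat_lit 156) (PT.nd (nat_lit 78) (PT.lf (nat_lit 60344) (nat_lit 6) (nat_lit 794) (nat_lit 1) (nat_lit 195) (nat_lit 185) (nat_lit 190)) (PT.lf (nat_lit 59812) (nat_lit 6) (nat_lit 787) (nat_lit 1) (nat_lit 196) (nat_lit 185) (nat_lit 189))) (PT.nd (nat_lit 78) (PT.lf (nat_lit 59204) (nat_lit 6) (nat_lit 779) (nat_lit 1) (nat_lit 197) (nat_lit 185) (nat_lit 188)) (PT.lf (nat_lit 58520) (nat_lit 6) (nat_lit 770) (nat_lit 1) (nat_lit 198) (nat_lit 185) (nat_lit 187))))) (PT.nd (nat_lit 234) (PT.nd (nat_lit 78) (PT.lf (nat_lit 57760)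 (nat_lit 6) (nat_lit 760) (nat_lit 1) (nat_lit 199) (nat_lit 185) (nat_lit 186)) (PT.nd (nat_lit 78) (PT.lf (nat_lit 56924) (nat_lit 3) (nat_lit 749) (nat_lit 0) (nat_lit 200) (nat_lit 185) (nat_lit 185)) (PT.lf (nat_lit 56088) (nat_lit 6) (nat_lit 738) (nat_lit 0) (nat_lit 201) (nat_lit 185) (nat_lit 184)))) (PT.nd (nat_lit 156) (PT.nd (nat_lit 78) (PT.lf (nat_lit 55176) (nat_lit 6) (nat_lit 726) (nat_lit 0) (nat_lit 202) (nat_lit 185) (nat_lit 183)) (PT.lf (nat_lit 54188) (nat_lit 6) (nat_lit 713) (nat_lit 0) (nat_lit 203) (nat_lit 185) (nat_lit 182))) (PT.nd (nat_lit 78) (PT.lf (nat_lit 53124) (nat_lit 6) (nat_lit 699) (nat_lit 0) (nat_lit 204) (nat_lit 185) (nat_lit 181)) (PT.lf (nat_lit 51984) (nat_lit 6) (nat_lit 684) (nat_lit 0) (nat_lit 205) (nat_lit 185) (nat_lit 180)))))) (PT.nd (nat_lit 546) (PT.nd (nat_lit 234) (PT.nd (nat_lit 78) (PT.lf (nat_lit 50768) (nat_lit 6) (nat_lit 668) (nat_lit 0) (nat_lit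 206) (nat_lit 185) (nat_lit 179)) (PT.nd (nat_lit 78) (PT.lf (nat_lit 49476) (nat_lit 6) (nat_lit 651) (nat_lit 0) (nat_lit 207) (nat_lit 185) (nat_lit 178)) (PT.lf (nat_lit 48108) (nat_lit 6) (nat_lit 633) (nat_lit 0) (nat_lit 208) (nat_lit 185) (nat_lit 177)))) (PT.nd (nat_lit 156) (PT.nd (nat_lit 78) (PT.lf (nat_lit 46664) (nat_lit 6) (nat_lit 614) (nat_lit 0) (nat_lit 209) (nat_lit 185) (nat_lit 176)) (PT.lf (nat_lit 45144) (nat_lit 6) (nat_lit 594) (nat_lit 0) (nat_lit 210) (nat_lit 185) (nat_lit 175))) (PT.nd (nat_lit 78) (PT.lf (nat_lit 43548) (nat_lit 6) (nat_lit 573) (nat_lit 0) (nat_lit 211) (nat_lit 185) (nat_lit 174)) (PT.lf (nat_lit 41876) (nat_lit 6) (nat_lit 551) (nat_lit 0) (nat_lit 212) (nat_lit 185) (nat_lit 173))))) (PT.nd (nat_lit 56160) (PT.nd (nat_lit 56004) (PT.nd (nat_lit 78) (PT.lf (nat_lit 40128) (nat_lit 6) (nat_lit 528) (nat_lit 0) (nat_lit 213) (nat_lit 185) (nat_lit 172)) (PT.lf (nat_lit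 38304) (nat_lit 6) (nat_lit 504) (nat_lit 0) (nat_lit 214) (nat_lit 185) (nat_lit 171))) (PT.nd (nat_lit 78) (PT.lf (nat_lit 38380) (nat_lit 6) (nat_lit 505) (nat_lit 5) (nat_lit 170) (nat_lit 186) (nat_lit 214)) (PT.lf (nat_lit 40204) (nat_lit 6) (nat_lit 529) (nat_lit 5) (nat_lit 171) (nat_lit 186) (nat_lit 213)))) (PT.nd (nat_lit 156) (PT.nd (nat_lit 78) (PT.lf (nat_lit 41952) (nat_lit 6) (nat_lit 552) (nat_lit 5) (nat_lit 172) (nat_lit 186) (nat_lit 212)) (PT.lf (nat_lit 43624) (nat_lit 6) (nat_lit 574) (nat_lit 5) (nat_lit 173) (nat_lit 186) (nat_lit 211))) (PT.nd (nat_lit 78) (PT.lf (nat_lit 45220) (nat_lit 6) (nat_lit 595) (nat_lit 5) (nat_lit 174) (nat_lit 186) (nat_lit 210)) (PT.lf (nat_lit 46740) (nat_lit 6) (nat_lit 615) (nat_lit 5) (nat_lit 175) (nat_lit 186) (nat_lit 209))))))))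
noncomputable def pc23 : PT := (PT.nd (nat_lit 2262) (PT.nd (nat_lit 1092) (PT.nd (nat_lit 546) (PT.nd (nat_lit 234) (PT.nd (nat_lit 78) (PT.lf (nat_lit 48184) (nat_lit 6) (nat_lit 634) (nat_lit 5) (nat_lit 176) (nat_lit 186) (nat_lit 208)) (PT.nd (nat_lit 78) (PT.lf (nat_lit 49552) (nat_lit 6) (nat_lit 652) (nat_lit 5) (nat_lit 177) (nat_lit 186) (nat_lit 207)) (PT.lf (nat_lit 50844) (nat_lit 6) (nat_lit 669) (nat_lit 5) (nat_lit 178) (nat_lit 186) (nat_lit 206)))) (PT.nd (nat_lit 156) (PT.nd (nat_lit 78) (PT.lf (nat_lit 52060) (nat_lit 6) (nat_lit 685) (nat_lit 5) (nat_lit 179) (nat_lit 186) (nat_lit 205)) (PT.lf (nat_lit 53200) (nat_lit 6) (nat_lit 700) (nat_lit 5) (nat_lit 180) (nat_lit 186) (nat_lit 204))) (PT.nd (nat_lit 78) (PT.lf (nat_lit 54264) (nat_lit 6) (nat_lit 714) (nat_lit 5) (nat_lit 181) (nat_lit 186) (nat_lit 203)) (PT.lf (nat_lit 55252) (nat_lit 6) (nat_lit 727) (nat_lit 5) (nat_lit 182) (nat_lit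 186) (nat_lit 202))))) (PT.nd (nat_lit 234) (PT.nd (nat_lit 78) (PT.lf (nat_lit 56164) (nat_lit 6) (nat_lit 739) (nat_lit 5) (nat_lit 183) (nat_lit 186) (nat_lit 201)) (PT.nd (nat_lit 78) (PT.lf (nat_lit 57000) (nat_lit 6) (nat_lit 750) (nat_lit 5) (nat_lit 184) (nat_lit 186) (nat_lit 200)) (PT.lf (nat_lit 57760) (nat_lit 6) (nat_lit 760) (nat_lit 5) (nat_lit 185) (nat_lit 186) (nat_lit 199)))) (PT.nd (nat_lit 156) (PT.nd (nat_lit 78) (PT.lf (nat_lit 58444) (nat_lit 3) (nat_lit 769) (nat_lit 3) (nat_lit 186) (nat_lit 186) (nat_lit 198)) (PT.lf (nat_lit 59128) (nat_lit 6) (nat_lit 778) (nat_lit 3) (nat_lit 187) (nat_lit 186) (nat_lit 197))) (PT.nd (nat_lit 78) (PT.lf (nat_lit 59736) (nat_lit 6) (nat_lit 786) (nat_lit 3) (nat_lit 188) (nat_lit 186) (nat_lit 196)) (PT.lf (nat_lit 60268) (nat_lit 6) (nat_lit 793) (nat_lit 3) (nat_lit 189) (nat_lit 186) (nat_lit 195)))))) (PT.nd (nat_lit 546) (PT.nd (nat_lit 234) (PT.nd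 (nat_lit 78) (PT.lf (nat_lit 60724) (nat_lit 6) (nat_lit 799) (nat_lit 3) (nat_lit 190) (nat_lit 186) (nat_lit 194)) (PT.nd (nat_lit 78) (PT.lf (nat_lit 60800) (nat_lit 6) (nat_lit 800) (nat_lit 3) (nat_lit 191) (nat_lit 186) (nat_lit 193)) (PT.lf (nat_lit 60876) (nat_lit 3) (nat_lit 801) (nat_lit 1) (nat_lit 192) (nat_lit 186) (nat_lit 192)))) (PT.nd (nat_lit 156) (PT.nd (nat_lit 78) (PT.lf (nat_lit 60800) (nat_lit 6) (nat_lit 800) (nat_lit 1) (nat_lit 193) (nat_lit 186) (nat_lit 191)) (PT.lf (nat_lit 60724) (nat_lit 6) (nat_lit 799) (nat_lit 1) (nat_lit 194) (nat_lit 186) (nat_lit 190))) (PT.nd (nat_lit 78) (PT.lf (nat_lit 60268) (nat_lit 6) (nat_lit 793) (nat_lit 1) (nat_lit 195) (nat_lit 186) (nat_lit 189)) (PT.lf (nat_lit 59736) (nat_lit 6) (nat_lit 786) (nat_lit 1) (nat_lit 196) (nat_lit 186) (nat_lit 188))))) (PT.nd (nat_lit 312) (PT.nd (nat_lit 156) (PT.nd (nat_lit 78) (PT.lf (nat_lit 59128) (nat_lit 6)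 (nat_lit 778) (nat_lit 1) (nat_lit 197) (nat_lit 186) (nat_lit 187)) (PT.lf (nat_lit 58444) (nat_lit 3) (nat_lit 769) (nat_lit 0) (nat_lit 198) (nat_lit 186) (nat_lit 186))) (PT.nd (nat_lit 78) (PT.lf (nat_lit 57760) (nat_lit 6) (nat_lit 760) (nat_lit 0) (nat_lit 199) (nat_lit 186) (nat_lit 185)) (PT.lf (nat_lit 57000) (nat_lit 6) (nat_lit 750) (nat_lit 0) (nat_lit 200) (nat_lit 186) (nat_lit 184)))) (PT.nd (nat_lit 156) (PT.nd (nat_lit 78) (PT.lf (nat_lit 56164) (nat_lit 6) (nat_lit 739) (nat_lit 0) (nat_lit 201) (nat_lit 186) (nat_lit 183)) (PT.lf (nat_lit 55252) (nat_lit 6) (nat_lit 727) (nat_lit 0) (nat_lit 202) (nat_lit 186) (nat_lit 182))) (PT.nd (nat_lit 78) (PT.lf (nat_lit 54264) (nat_lit 6) (nat_lit 714) (nat_lit 0) (nat_lit 203) (nat_lit 186) (nat_lit 181)) (PT.lf (nat_lit 53200) (nat_lit 6) (nat_lit 700) (nat_lit 0) (nat_lit 204) (nat_lit 186) (nat_lit 180))))))) (PT.nd (nat_lit 56940) (PT.nd (nat_lit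 546) (PT.nd (nat_lit 234) (PT.nd (nat_lit 78) (PT.lf (nat_lit 52060) (nat_lit 6) (nat_lit 685) (nat_lit 0) (nat_lit 205) (nat_lit 186) (nat_lit 179)) (PT.nd (nat_lit 78) (PT.lf (nat_lit 50844) (nat_lit 6) (nat_lit 669) (nat_lit 0) (nat_lit 206) (nat_lit 186) (nat_lit 178)) (PT.lf (nat_lit 49552) (nat_lit 6) (nat_lit 652) (nat_lit 0) (nat_lit 207) (nat_lit 186) (nat_lit 177)))) (PT.nd (nat_lit 156) (PT.nd (nat_lit 78) (PT.lf (nat_lit 48184) (nat_lit 6) (nat_lit 634) (nat_lit 0) (nat_lit 208) (nat_lit 186) (nat_lit 176)) (PT.lf (nat_lit 46740) (nat_lit 6) (nat_lit 615) (nat_lit 0) (nat_lit 209) (nat_lit 186) (nat_lit 175))) (PT.nd (nat_lit 78) (PT.lf (nat_lit 45220) (nat_lit 6) (nat_lit 595) (nat_lit 0) (nat_lit 210) (nat_lit 186) (nat_lit 174)) (PT.lf (nat_lit 43624) (nat_lit 6) (nat_lit 574) (nat_lit 0) (nat_lit 211) (nat_lit 186) (nat_lit 173))))) (PT.nd (nat_lit 56082) (PT.nd (nat_lit 156) (PT.nd (nat_lit 78)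 (PT.lf (nat_lit 41952) (nat_lit 6) (nat_lit 552) (nat_lit 0) (nat_lit 212) (nat_lit 186) (nat_lit 172)) (PT.lf (nat_lit 40204) (nat_lit 6) (nat_lit 529) (nat_lit 0) (nat_lit 213) (nat_lit 186) (nat_lit 171))) (PT.nd (nat_lit 55848) (PT.lf (nat_lit 38380) (nat_lit 6) (nat_lit 505) (nat_lit 0) (nat_lit 214) (nat_lit 186) (nat_lit 170)) (PT.lf (nat_lit 38456) (nat_lit 6) (nat_lit 506) (nat_lit 5) (nat_lit 169) (nat_lit 187) (nat_lit 214)))) (PT.nd (nat_lit 156) (PT.nd (nat_lit 78) (PT.lf (nat_lit 40280) (nat_lit 6) (nat_lit 530) (nat_lit 5) (nat_lit 170) (nat_lit 187) (nat_lit 213)) (PT.lf (nat_lit 42028) (nat_lit 6) (nat_lit 553) (nat_lit 5) (nat_lit 171) (nat_lit 187) (nat_lit 212))) (PT.nd (nat_lit 78) (PT.lf (nat_lit 43700) (nat_lit 6) (nat_lit 575) (nat_lit 5) (nat_lit 172) (nat_lit 187) (nat_lit 211)) (PT.lf (nat_lit 45296) (nat_lit 6) (nat_lit 596) (nat_lit 5) (nat_lit 173) (nat_lit 187) (nat_lit 210))))))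 (PT.nd (nat_lit 546) (PT.nd (nat_lit 234) (PT.nd (nat_lit 78) (PT.lf (nat_lit 46816) (nat_lit 6) (nat_lit 616) (nat_lit 5) (nat_lit 174) (nat_lit 187) (nat_lit 209)) (PT.nd (nat_lit 78) (PT.lf (nat_lit 48260) (nat_lit 6) (nat_lit 635) (nat_lit 5) (nat_lit 175) (nat_lit 187) (nat_lit 208)) (PT.lf (nat_lit 49628) (nat_lit 6) (nat_lit 653) (nat_lit 5) (nat_lit 176) (nat_lit 187) (nat_lit 207)))) (PT.nd (nat_lit 156) (PT.nd (nat_lit 78) (PT.lf (nat_lit 50920) (nat_lit 6) (nat_lit 670) (nat_lit 5) (nat_lit 177) (nat_lit 187) (nat_lit 206)) (PT.lf (nat_lit 52136) (nat_lit 6) (nat_lit 686) (nat_lit 5) (nat_lit 178) (nat_lit 187) (nat_lit 205))) (PT.nd (nat_lit 78) (PT.lf (nat_lit 53276) (nat_lit 6) (nat_lit 701) (nat_lit 5) (nat_lit 179) (nat_lit 187) (nat_lit 204)) (PT.lf (nat_lit 54340) (nat_lit 6) (nat_lit 715) (nat_lit 5) (nat_lit 180) (nat_lit 187) (nat_lit 203))))) (PT.nd (nat_lit 312) (PT.nd (nat_lit 156) (PT.nd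 (nat_lit 78) (PT.lf (nat_lit 55328) (nat_lit 6) (nat_lit 728) (nat_lit 5) (nat_lit 181) (nat_lit 187) (nat_lit 202)) (PT.lf (nat_lit 56240) (nat_lit 6) (nat_lit 740) (nat_lit 5) (nat_lit 182) (nat_lit 187) (nat_lit 201))) (PT.nd (nat_lit 78) (PT.lf (nat_lit 57076) (nat_lit 6) (nat_lit 751) (nat_lit 5) (nat_lit 183) (nat_lit 187) (nat_lit 200)) (PT.lf (nat_lit 57836) (nat_lit 6) (nat_lit 761) (nat_lit 5) (nat_lit 184) (nat_lit 187) (nat_lit 199)))) (PT.nd (nat_lit 156) (PT.nd (nat_lit 78) (PT.lf (nat_lit 58520) (nat_lit 6) (nat_lit 770) (nat_lit 5) (nat_lit 185) (nat_lit 187) (nat_lit 198)) (PT.lf (nat_lit 59128) (nat_lit 6) (nat_lit 778) (nat_lit 5) (nat_lit 186) (nat_lit 187) (nat_lit 197))) (PT.nd (nat_lit 78) (PT.lf (nat_lit 59660) (nat_lit 3) (nat_lit 785) (nat_lit 3) (nat_lit 187) (nat_lit 187) (nat_lit 196)) (PT.lf (nat_lit 60192) (nat_lit 6) (nat_lit 792) (nat_lit 3) (nat_lit 188) (nat_lit 187) (nat_lit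 195))))))))
noncomputable def pc24 : PT := (PT.nd (nat_lit 57876) (PT.nd (nat_lit 1092) (PT.nd (nat_lit 546) (PT.nd (nat_lit 234) (PT.nd (nat_lit 78) (PT.lf (nat_lit 60648) (nat_lit 6) (nat_lit 798) (nat_lit 3) (nat_lit 189) (nat_lit 187) (nat_lit 194)) (PT.nd (nat_lit 78) (PT.lf (nat_lit 61028) (nat_lit 6) (nat_lit 803) (nat_lit 3) (nat_lit 190) (nat_lit 187) (nat_lit 193)) (PT.lf (nat_lit 61104) (nat_lit 6) (nat_lit 804) (nat_lit 3) (nat_lit 191) (nat_lit 187) (nat_lit 192)))) (PT.nd (nat_lit 156) (PT.nd (nat_lit 78) (PT.lf (nat_lit 61104) (nat_lit 6) (nat_lit 804) (nat_lit 1) (nat_lit 192) (nat_lit 187) (nat_lit 191)) (PT.lf (nat_lit 61028) (nat_lit 6) (nat_lit 803) (nat_lit 1) (nat_lit 193) (nat_lit 187) (nat_lit 190))) (PT.nd (nat_lit 78) (PT.lf (nat_lit 60648) (nat_lit 6) (nat_lit 798) (nat_lit 1) (nat_lit 194) (nat_lit 187) (nat_lit 189)) (PT.lf (nat_lit 60192) (nat_lit 6) (nat_lit 792) (nat_lit 1) (nat_lit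 195) (nat_lit 187) (nat_lit 188))))) (PT.nd (nat_lit 234) (PT.nd (nat_lit 78) (PT.lf (nat_lit 59660) (nat_lit 3) (nat_lit 785) (nat_lit 0) (nat_lit 196) (nat_lit 187) (nat_lit 187)) (PT.nd (nat_lit 78) (PT.lf (nat_lit 59128) (nat_lit 6) (nat_lit 778) (nat_lit 0) (nat_lit 197) (nat_lit 187) (nat_lit 186)) (PT.lf (nat_lit 58520) (nat_lit 6) (nat_lit 770) (nat_lit 0) (nat_lit 198) (nat_lit 187) (nat_lit 185)))) (PT.nd (nat_lit 156) (PT.nd (nat_lit 78) (PT.lf (nat_lit 57836) (nat_lit 6) (nat_lit 761) (nat_lit 0) (nat_lit 199) (nat_lit 187) (nat_lit 184)) (PT.lf (nat_lit 57076) (nat_lit 6) (nat_lit 751) (nat_lit 0) (nat_lit 200) (nat_lit 187) (nat_lit 183))) (PT.nd (nat_lit 78) (PT.lf (nat_lit 56240) (nat_lit 6) (nat_lit 740) (nat_lit 0) (nat_lit 201) (nat_lit 187) (nat_lit 182)) (PT.lf (nat_lit 55328) (nat_lit 6) (nat_lit 728) (nat_lit 0) (nat_lit 202) (nat_lit 187) (nat_lit 181)))))) (PT.nd (nat_lit 546) (PT.nd (nat_lit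 234) (PT.nd (nat_lit 78) (PT.lf (nat_lit 54340) (nat_lit 6) (nat_lit 715) (nat_lit 0) (nat_lit 203) (nat_lit 187) (nat_lit 180)) (PT.nd (nat_lit 78) (PT.lf (nat_lit 53276) (nat_lit 6) (nat_lit 701) (nat_lit 0) (nat_lit 204) (nat_lit 187) (nat_lit 179)) (PT.lf (nat_lit 52136) (nat_lit 6) (nat_lit 686) (nat_lit 0) (nat_lit 205) (nat_lit 187) (nat_lit 178)))) (PT.nd (nat_lit 156) (PT.nd (nat_lit 78) (PT.lf (nat_lit 50920) (nat_lit 6) (nat_lit 670) (nat_lit 0) (nat_lit 206) (nat_lit 187) (nat_lit 177)) (PT.lf (nat_lit 49628) (nat_lit 6) (nat_lit 653) (nat_lit 0) (nat_lit 207) (nat_lit 187) (nat_lit 176))) (PT.nd (nat_lit 78) (PT.lf (nat_lit 48260) (nat_lit 6) (nat_lit 635) (nat_lit 0) (nat_lit 208) (nat_lit 187) (nat_lit 175)) (PT.lf (nat_lit 46816) (nat_lit 6) (nat_lit 616) (nat_lit 0) (nat_lit 209) (nat_lit 187) (nat_lit 174))))) (PT.nd (nat_lit 312) (PT.nd (nat_lit 156) (PT.nd (nat_lit 78) (PT.lf (nat_lit 45296)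 (nat_lit 6) (nat_lit 596) (nat_lit 0) (nat_lit 210) (nat_lit 187) (nat_lit 173)) (PT.lf (nat_lit 43700) (nat_lit 6) (nat_lit 575) (nat_lit 0) (nat_lit 211) (nat_lit 187) (nat_lit 172))) (PT.nd (nat_lit 78) (PT.lf (nat_lit 42028) (nat_lit 6) (nat_lit 553) (nat_lit 0) (nat_lit 212) (nat_lit 187) (nat_lit 171)) (PT.lf (nat_lit 40280) (nat_lit 6) (nat_lit 530) (nat_lit 0) (nat_lit 213) (nat_lit 187) (nat_lit 170)))) (PT.nd (nat_lit 55770) (PT.nd (nat_lit 55692) (PT.lf (nat_lit 38456) (nat_lit 6) (nat_lit 506) (nat_lit 0) (nat_lit 214) (nat_lit 187) (nat_lit 169)) (PT.lf (nat_lit 36632) (nat_lit 6) (nat_lit 482) (nat_lit 5) (nat_lit 167) (nat_lit 188) (nat_lit 215))) (PT.nd (nat_lit 78) (PT.lf (nat_lit 38532) (nat_lit 6) (nat_lit 507) (nat_lit 5) (nat_lit 168) (nat_lit 188) (nat_lit 214)) (PT.lf (nat_lit 40356) (nat_lit 6) (nat_lit 531) (nat_lit 5) (nat_lit 169) (nat_lit 188) (nat_lit 213))))))) (PT.nd (nat_lit 1092)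 (PT.nd (nat_lit 546) (PT.nd (nat_lit 234) (PT.nd (nat_lit 78) (PT.lf (nat_lit 42104) (nat_lit 6) (nat_lit 554) (nat_lit 5) (nat_lit 170) (nat_lit 188) (nat_lit 212)) (PT.nd (nat_lit 78) (PT.lf (nat_lit 43776) (nat_lit 6) (nat_lit 576) (nat_lit 5) (nat_lit 171) (nat_lit 188) (nat_lit 211)) (PT.lf (nat_lit 45372) (nat_lit 6) (nat_lit 597) (nat_lit 5) (nat_lit 172) (nat_lit 188) (nat_lit 210)))) (PT.nd (nat_lit 156) (PT.nd (nat_lit 78) (PT.lf (nat_lit 46892) (nat_lit 6) (nat_lit 617) (nat_lit 5) (nat_lit 173) (nat_lit 188) (nat_lit 209)) (PT.lf (nat_lit 48336) (nat_lit 6) (nat_lit 636) (nat_lit 5) (nat_lit 174) (nat_lit 188) (nat_lit 208))) (PT.nd (nat_lit 78) (PT.lf (nat_lit 49704) (nat_lit 6) (nat_lit 654) (nat_lit 5) (nat_lit 175) (nat_lit 188) (nat_lit 207)) (PT.lf (nat_lit 50996) (nat_lit 6) (nat_lit 671) (nat_lit 5) (nat_lit 176) (nat_lit 188) (nat_lit 206))))) (PT.nd (nat_lit 234) (PT.nd (nat_lit 78) (PT.lf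 (nat_lit 52212) (nat_lit 6) (nat_lit 687) (nat_lit 5) (nat_lit 177) (nat_lit 188) (nat_lit 205)) (PT.nd (nat_lit 78) (PT.lf (nat_lit 53352) (nat_lit 6) (nat_lit 702) (nat_lit 5) (nat_lit 178) (nat_lit 188) (nat_lit 204)) (PT.lf (nat_lit 54416) (nat_lit 6) (nat_lit 716) (nat_lit 5) (nat_lit 179) (nat_lit 188) (nat_lit 203)))) (PT.nd (nat_lit 156) (PT.nd (nat_lit 78) (PT.lf (nat_lit 55404) (nat_lit 6) (nat_lit 729) (nat_lit 5) (nat_lit 180) (nat_lit 188) (nat_lit 202)) (PT.lf (nat_lit 56316) (nat_lit 6) (nat_lit 741) (nat_lit 5) (nat_lit 181) (nat_lit 188) (nat_lit 201))) (PT.nd (nat_lit 78) (PT.lf (nat_lit 57152) (nat_lit 6) (nat_lit 752) (nat_lit 5) (nat_lit 182) (nat_lit 188) (nat_lit 200)) (PT.lf (nat_lit 57912) (nat_lit 6) (nat_lit 762) (nat_lit 5) (nat_lit 183) (nat_lit 188) (nat_lit 199)))))) (PT.nd (nat_lit 546) (PT.nd (nat_lit 234) (PT.nd (nat_lit 78) (PT.lf (nat_lit 58596) (nat_lit 6) (nat_lit 771) (nat_lit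 5) (nat_lit 184) (nat_lit 188) (nat_lit 198)) (PT.nd (nat_lit 78) (PT.lf (nat_lit 59204) (nat_lit 6) (nat_lit 779) (nat_lit 5) (nat_lit 185) (nat_lit 188) (nat_lit 197)) (PT.lf (nat_lit 59736) (nat_lit 6) (nat_lit 786) (nat_lit 5) (nat_lit 186) (nat_lit 188) (nat_lit 196)))) (PT.nd (nat_lit 156) (PT.nd (nat_lit 78) (PT.lf (nat_lit 60192) (nat_lit 6) (nat_lit 792) (nat_lit 5) (nat_lit 187) (nat_lit 188) (nat_lit 195)) (PT.lf (nat_lit 60572) (nat_lit 3) (nat_lit 797) (nat_lit 3) (nat_lit 188) (nat_lit 188) (nat_lit 194))) (PT.nd (nat_lit 78) (PT.lf (nat_lit 60952) (nat_lit 6) (nat_lit 802) (nat_lit 3) (nat_lit 189) (nat_lit 188) (nat_lit 193)) (PT.lf (nat_lit 61256) (nat_lit 6) (nat_lit 806) (nat_lit 3) (nat_lit 190) (nat_lit 188) (nat_lit 192))))) (PT.nd (nat_lit 312) (PT.nd (nat_lit 156) (PT.nd (nat_lit 78) (PT.lf (nat_lit 61332) (nat_lit 3) (nat_lit 807) (nat_lit 1) (nat_lit 191) (nat_lit 188) (nat_lit 191)) (PT.lf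 (nat_lit 61256) (nat_lit 6) (nat_lit 806) (nat_lit 1) (nat_lit 192) (nat_lit 188) (nat_lit 190))) (PT.nd (nat_lit 78) (PT.lf (nat_lit 60952) (nat_lit 6) (nat_lit 802) (nat_lit 1) (nat_lit 193) (nat_lit 188) (nat_lit 189)) (PT.lf (nat_lit 60572) (nat_lit 3) (nat_lit 797) (nat_lit 0) (nat_lit 194) (nat_lit 188) (nat_lit 188)))) (PT.nd (nat_lit 156) (PT.nd (nat_lit 78) (PT.lf (nat_lit 60192) (nat_lit 6) (nat_lit 792) (nat_lit 0) (nat_lit 195) (nat_lit 188) (nat_lit 187)) (PT.lf (nat_lit 59736) (nat_lit 6) (nat_lit 786) (nat_lit 0) (nat_lit 196) (nat_lit 188) (nat_lit 186))) (PT.nd (nat_lit 78) (PT.lf (nat_lit 59204) (nat_lit 6) (nat_lit 779) (nat_lit 0) (nat_lit 197) (nat_lit 188) (nat_lit 185)) (PT.lf (nat_lit 58596) (nat_lit 6) (nat_lit 771) (nat_lit 0) (nat_lit 198) (nat_lit 188) (nat_lit 184))))))))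
noncomputable def pc25 : PT := (PT.nd (nat_lit 57720) (PT.nd (nat_lit 1092) (PT.nd (nat_lit 546) (PT.nd (nat_lit 234) (PT.nd (nat_lit 78) (PT.lf (nat_lit 57912) (nat_lit 6) (nat_lit 762) (nat_lit 0) (nat_lit 199) (nat_lit 188) (nat_lit 183)) (PT.nd (nat_lit 78) (PT.lf (nat_lit 57152) (nat_lit 6) (nat_lit 752) (nat_lit 0) (nat_lit 200) (nat_lit 188) (nat_lit 182)) (PT.lf (nat_lit 56316) (nat_lit 6) (nat_lit 741) (nat_lit 0) (nat_lit 201) (nat_lit 188) (nat_lit 181)))) (PT.nd (nat_lit 156) (PT.nd (nat_lit 78) (PT.lf (nat_lit 55404) (nat_lit 6) (nat_lit 729) (nat_lit 0) (nat_lit 202) (nat_lit 188) (nat_lit 180)) (PT.lf (nat_lit 54416) (nat_lit 6) (nat_lit 716) (nat_lit 0) (nat_lit 203) (nat_lit 188) (nat_lit 179))) (PT.nd (nat_lit 78) (PT.lf (nat_lit 53352) (nat_lit 6) (nat_lit 702) (nat_lit 0) (nat_lit 204) (nat_lit 188) (nat_lit 178)) (PT.lf (nat_lit 52212) (nat_lit 6) (nat_lit 687) (nat_lit 0) (nat_lit 205) (nat_lit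 188) (nat_lit 177))))) (PT.nd (nat_lit 234) (PT.nd (nat_lit 78) (PT.lf (nat_lit 50996) (nat_lit 6) (nat_lit 671) (nat_lit 0) (nat_lit 206) (nat_lit 188) (nat_lit 176)) (PT.nd (nat_lit 78) (PT.lf (nat_lit 49704) (nat_lit 6) (nat_lit 654) (nat_lit 0) (nat_lit 207) (nat_lit 188) (nat_lit 175)) (PT.lf (nat_lit 48336) (nat_lit 6) (nat_lit 636) (nat_lit 0) (nat_lit 208) (nat_lit 188) (nat_lit 174)))) (PT.nd (nat_lit 156) (PT.nd (nat_lit 78) (PT.lf (nat_lit 46892) (nat_lit 6) (nat_lit 617) (nat_lit 0) (nat_lit 209) (nat_lit 188) (nat_lit 173)) (PT.lf (nat_lit 45372) (nat_lit 6) (nat_lit 597) (nat_lit 0) (nat_lit 210) (nat_lit 188) (nat_lit 172))) (PT.nd (nat_lit 78) (PT.lf (nat_lit 43776) (nat_lit 6) (nat_lit 576) (nat_lit 0) (nat_lit 211) (nat_lit 188) (nat_lit 171)) (PT.lf (nat_lit 42104) (nat_lit 6) (nat_lit 554) (nat_lit 0) (nat_lit 212) (nat_lit 188) (nat_lit 170)))))) (PT.nd (nat_lit 56004) (PT.nd (nat_lit 55692)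 (PT.nd (nat_lit 78) (PT.lf (nat_lit 40356) (nat_lit 6) (nat_lit 531) (nat_lit 0) (nat_lit 213) (nat_lit 188) (nat_lit 169)) (PT.nd (nat_lit 78) (PT.lf (nat_lit 38532) (nat_lit 6) (nat_lit 507) (nat_lit 0) (nat_lit 214) (nat_lit 188) (nat_lit 168)) (PT.lf (nat_lit 36632) (nat_lit 6) (nat_lit 482) (nat_lit 0) (nat_lit 215) (nat_lit 188) (nat_lit 167)))) (PT.nd (nat_lit 156) (PT.nd (nat_lit 78) (PT.lf (nat_lit 36708) (nat_lit 6) (nat_lit 483) (nat_lit 5) (nat_lit 166) (nat_lit 189) (nat_lit 215)) (PT.lf (nat_lit 38608) (nat_lit 6) (nat_lit 508) (nat_lit 5) (nat_lit 167) (nat_lit 189) (nat_lit 214))) (PT.nd (nat_lit 78) (PT.lf (nat_lit 40432) (nat_lit 6) (nat_lit 532) (nat_lit 5) (nat_lit 168) (nat_lit 189) (nat_lit 213)) (PT.lf (nat_lit 42180) (nat_lit 6) (nat_lit 555) (nat_lit 5) (nat_lit 169) (nat_lit 189) (nat_lit 212))))) (PT.nd (nat_lit 312) (PT.nd (nat_lit 156) (PT.nd (nat_lit 78) (PT.lf (nat_lit 43852) (nat_lit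 6) (nat_lit 577) (nat_lit 5) (nat_lit 170) (nat_lit 189) (nat_lit 211)) (PT.lf (nat_lit 45448) (nat_lit 6) (nat_lit 598) (nat_lit 5) (nat_lit 171) (nat_lit 189) (nat_lit 210))) (PT.nd (nat_lit 78) (PT.lf (nat_lit 46968) (nat_lit 6) (nat_lit 618) (nat_lit 5) (nat_lit 172) (nat_lit 189) (nat_lit 209)) (PT.lf (nat_lit 48412) (nat_lit 6) (nat_lit 637) (nat_lit 5) (nat_lit 173) (nat_lit 189) (nat_lit 208)))) (PT.nd (nat_lit 156) (PT.nd (nat_lit 78) (PT.lf (nat_lit 49780) (nat_lit 6) (nat_lit 655) (nat_lit 5) (nat_lit 174) (nat_lit 189) (nat_lit 207)) (PT.lf (nat_lit 51072) (nat_lit 6) (nat_lit 672) (nat_lit 5) (nat_lit 175) (nat_lit 189) (nat_lit 206))) (PT.nd (nat_lit 78) (PT.lf (nat_lit 52288) (nat_lit 6) (nat_lit 688) (nat_lit 5) (nat_lit 176) (nat_lit 189) (nat_lit 205)) (PT.lf (nat_lit 53428) (nat_lit 6) (nat_lit 703) (nat_lit 5) (nat_lit 177) (nat_lit 189) (nat_lit 204))))))) (PT.nd (nat_lit 1170) (PT.nd (nat_lit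 546) (PT.nd (nat_lit 234) (PT.nd (nat_lit 78) (PT.lf (nat_lit 54492) (nat_lit 6) (nat_lit 717) (nat_lit 5) (nat_lit 178) (nat_lit 189) (nat_lit 203)) (PT.nd (nat_lit 78) (PT.lf (nat_lit 55480) (nat_lit 6) (nat_lit 730) (nat_lit 5) (nat_lit 179) (nat_lit 189) (nat_lit 202)) (PT.lf (nat_lit 56392) (nat_lit 6) (nat_lit 742) (nat_lit 5) (nat_lit 180) (nat_lit 189) (nat_lit 201)))) (PT.nd (nat_lit 156) (PT.nd (nat_lit 78) (PT.lf (nat_lit 57228) (nat_lit 6) (nat_lit 753) (nat_lit 5) (nat_lit 181) (nat_lit 189) (nat_lit 200)) (PT.lf (nat_lit 57988) (nat_lit 6) (nat_lit 763) (nat_lit 5) (nat_lit 182) (nat_lit 189) (nat_lit 199))) (PT.nd (nat_lit 78) (PT.lf (nat_lit 58672) (nat_lit 6) (nat_lit 772) (nat_lit 5) (nat_lit 183) (nat_lit 189) (nat_lit 198)) (PT.lf (nat_lit 59280) (nat_lit 6) (nat_lit 780) (nat_lit 5) (nat_lit 184) (nat_lit 189) (nat_lit 197))))) (PT.nd (nat_lit 312) (PT.nd (nat_lit 156) (PT.nd (nat_lit 78) (PT.lf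 (nat_lit 59812) (nat_lit 6) (nat_lit 787) (nat_lit 5) (nat_lit 185) (nat_lit 189) (nat_lit 196)) (PT.lf (nat_lit 60268) (nat_lit 6) (nat_lit 793) (nat_lit 5) (nat_lit 186) (nat_lit 189) (nat_lit 195))) (PT.nd (nat_lit 78) (PT.lf (nat_lit 60648) (nat_lit 6) (nat_lit 798) (nat_lit 5) (nat_lit 187) (nat_lit 189) (nat_lit 194)) (PT.lf (nat_lit 60952) (nat_lit 6) (nat_lit 802) (nat_lit 5) (nat_lit 188) (nat_lit 189) (nat_lit 193)))) (PT.nd (nat_lit 156) (PT.nd (nat_lit 78) (PT.lf (nat_lit 61180) (nat_lit 3) (nat_lit 805) (nat_lit 3) (nat_lit 189) (nat_lit 189) (nat_lit 192)) (PT.lf (nat_lit 61408) (nat_lit 6) (nat_lit 808) (nat_lit 3) (nat_lit 190) (nat_lit 189) (nat_lit 191))) (PT.nd (nat_lit 78) (PT.lf (nat_lit 61408) (nat_lit 6) (nat_lit 808) (nat_lit 1) (nat_lit 191) (nat_lit 189) (nat_lit 190)) (PT.lf (nat_lit 61180) (nat_lit 3) (nat_lit 805) (nat_lit 0) (nat_lit 192) (nat_lit 189) (nat_lit 189)))))) (PT.nd (nat_lit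 546) (PT.nd (nat_lit 234) (PT.nd (nat_lit 78) (PT.lf (nat_lit 60952) (nat_lit 6) (nat_lit 802) (nat_lit 0) (nat_lit 193) (nat_lit 189) (nat_lit 188)) (PT.nd (nat_lit 78) (PT.lf (nat_lit 60648) (nat_lit 6) (nat_lit 798) (nat_lit 0) (nat_lit 194) (nat_lit 189) (nat_lit 187)) (PT.lf (nat_lit 60268) (nat_lit 6) (nat_lit 793) (nat_lit 0) (nat_lit 195) (nat_lit 189) (nat_lit 186)))) (PT.nd (nat_lit 156) (PT.nd (nat_lit 78) (PT.lf (nat_lit 59812) (nat_lit 6) (nat_lit 787) (nat_lit 0) (nat_lit 196) (nat_lit 189) (nat_lit 185)) (PT.lf (nat_lit 59280) (nat_lit 6) (nat_lit 780) (nat_lit 0) (nat_lit 197) (nat_lit 189) (nat_lit 184))) (PT.nd (nat_lit 78) (PT.lf (nat_lit 58672) (nat_lit 6) (nat_lit 772) (nat_lit 0) (nat_lit 198) (nat_lit 189) (nat_lit 183)) (PT.lf (nat_lit 57988) (nat_lit 6) (nat_lit 763) (nat_lit 0) (nat_lit 199) (nat_lit 189) (nat_lit 182))))) (PT.nd (nat_lit 312) (PT.nd (nat_lit 156) (PT.nd (nat_lit 78) (PT.lf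 (nat_lit 57228) (nat_lit 6) (nat_lit 753) (nat_lit 0) (nat_lit 200) (nat_lit 189) (nat_lit 181)) (PT.lf (nat_lit 56392) (nat_lit 6) (nat_lit 742) (nat_lit 0) (nat_lit 201) (nat_lit 189) (nat_lit 180))) (PT.nd (nat_lit 78) (PT.lf (nat_lit 55480) (nat_lit 6) (nat_lit 730) (nat_lit 0) (nat_lit 202) (nat_lit 189) (nat_lit 179)) (PT.lf (nat_lit 54492) (nat_lit 6) (nat_lit 717) (nat_lit 0) (nat_lit 203) (nat_lit 189) (nat_lit 178)))) (PT.nd (nat_lit 156) (PT.nd (nat_lit 78) (PT.lf (nat_lit 53428) (nat_lit 6) (nat_lit 703) (nat_lit 0) (nat_lit 204) (nat_lit 189) (nat_lit 177)) (PT.lf (nat_lit 52288) (nat_lit 6) (nat_lit 688) (nat_lit 0) (nat_lit 205) (nat_lit 189) (nat_lit 176))) (PT.nd (nat_lit 78) (PT.lf (nat_lit 51072) (nat_lit 6) (nat_lit 672) (nat_lit 0) (nat_lit 206) (nat_lit 189) (nat_lit 175)) (PT.lf (nat_lit 49780) (nat_lit 6) (nat_lit 655) (nat_lit 0) (nat_lit 207) (nat_lit 189) (nat_lit 174))))))))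
noncomputable def pc26 : PT := (PT.nd (nat_lit 57642) (PT.nd (nat_lit 56472) (PT.nd (nat_lit 546) (PT.nd (nat_lit 234) (PT.nd (nat_lit 78) (PT.lf (nat_lit 48412) (nat_lit 6) (nat_lit 637) (nat_lit 0) (nat_lit 208) (nat_lit 189) (nat_lit 173)) (PT.nd (nat_lit 78) (PT.lf (nat_lit 46968) (nat_lit 6) (nat_lit 618) (nat_lit 0) (nat_lit 209) (nat_lit 189) (nat_lit 172)) (PT.lf (nat_lit 45448) (nat_lit 6) (nat_lit 598) (nat_lit 0) (nat_lit 210) (nat_lit 189) (nat_lit 171)))) (PT.nd (nat_lit 156) (PT.nd (nat_lit 78) (PT.lf (nat_lit 43852) (nat_lit 6) (nat_lit 577) (nat_lit 0) (nat_lit 211) (nat_lit 189) (nat_lit 170)) (PT.lf (nat_lit 42180) (nat_lit 6) (nat_lit 555) (nat_lit 0) (nat_lit 212) (nat_lit 189) (nat_lit 169))) (PT.nd (nat_lit 78) (PT.lf (nat_lit 40432) (nat_lit 6) (nat_lit 532) (nat_lit 0) (nat_lit 213) (nat_lit 189) (nat_lit 168)) (PT.lf (nat_lit 38608) (nat_lit 6) (nat_lit 508) (nat_lit 0) (nat_lit 214) (nat_lit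 189) (nat_lit 167))))) (PT.nd (nat_lit 55614) (PT.nd (nat_lit 55458) (PT.lf (nat_lit 36708) (nat_lit 6) (nat_lit 483) (nat_lit 0) (nat_lit 215) (nat_lit 189) (nat_lit 166)) (PT.nd (nat_lit 78) (PT.lf (nat_lit 36784) (nat_lit 6) (nat_lit 484) (nat_lit 5) (nat_lit 165) (nat_lit 190) (nat_lit 215)) (PT.lf (nat_lit 38684) (nat_lit 6) (nat_lit 509) (nat_lit 5) (nat_lit 166) (nat_lit 190) (nat_lit 214)))) (PT.nd (nat_lit 156) (PT.nd (nat_lit 78) (PT.lf (nat_lit 40508) (nat_lit 6) (nat_lit 533) (nat_lit 5) (nat_lit 167) (nat_lit 190) (nat_lit 213)) (PT.lf (nat_lit 42256) (nat_lit 6) (nat_lit 556) (nat_lit 5) (nat_lit 168) (nat_lit 190) (nat_lit 212))) (PT.nd (nat_lit 78) (PT.lf (nat_lit 43928) (nat_lit 6) (nat_lit 578) (nat_lit 5) (nat_lit 169) (nat_lit 190) (nat_lit 211)) (PT.lf (nat_lit 45524) (nat_lit 6) (nat_lit 599) (nat_lit 5) (nat_lit 170) (nat_lit 190) (nat_lit 210)))))) (PT.nd (nat_lit 546) (PT.nd (nat_lit 234)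 (PT.nd (nat_lit 78) (PT.lf (nat_lit 47044) (nat_lit 6) (nat_lit 619) (nat_lit 5) (nat_lit 171) (nat_lit 190) (nat_lit 209)) (PT.nd (nat_lit 78) (PT.lf (nat_lit 48488) (nat_lit 6) (nat_lit 638) (nat_lit 5) (nat_lit 172) (nat_lit 190) (nat_lit 208)) (PT.lf (nat_lit 49856) (nat_lit 6) (nat_lit 656) (nat_lit 5) (nat_lit 173) (nat_lit 190) (nat_lit 207)))) (PT.nd (nat_lit 156) (PT.nd (nat_lit 78) (PT.lf (nat_lit 51148) (nat_lit 6) (nat_lit 673) (nat_lit 5) (nat_lit 174) (nat_lit 190) (nat_lit 206)) (PT.lf (nat_lit 52364) (nat_lit 6) (nat_lit 689) (nat_lit 5) (nat_lit 175) (nat_lit 190) (nat_lit 205))) (PT.nd (nat_lit 78) (PT.lf (nat_lit 53504) (nat_lit 6) (nat_lit 704) (nat_lit 5) (nat_lit 176) (nat_lit 190) (nat_lit 204)) (PT.lf (nat_lit 54568) (nat_lit 6) (nat_lit 718) (nat_lit 5) (nat_lit 177) (nat_lit 190) (nat_lit 203))))) (PT.nd (nat_lit 312) (PT.nd (nat_lit 156) (PT.nd (nat_lit 78) (PT.lf (nat_lit 55556) (nat_lit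 6) (nat_lit 731) (nat_lit 5) (nat_lit 178) (nat_lit 190) (nat_lit 202)) (PT.lf (nat_lit 56468) (nat_lit 6) (nat_lit 743) (nat_lit 5) (nat_lit 179) (nat_lit 190) (nat_lit 201))) (PT.nd (nat_lit 78) (PT.lf (nat_lit 57304) (nat_lit 6) (nat_lit 754) (nat_lit 5) (nat_lit 180) (nat_lit 190) (nat_lit 200)) (PT.lf (nat_lit 58064) (nat_lit 6) (nat_lit 764) (nat_lit 5) (nat_lit 181) (nat_lit 190) (nat_lit 199)))) (PT.nd (nat_lit 156) (PT.nd (nat_lit 78) (PT.lf (nat_lit 58748) (nat_lit 6) (nat_lit 773) (nat_lit 5) (nat_lit 182) (nat_lit 190) (nat_lit 198)) (PT.lf (nat_lit 59356) (nat_lit 6) (nat_lit 781) (nat_lit 5) (nat_lit 183) (nat_lit 190) (nat_lit 197))) (PT.nd (nat_lit 78) (PT.lf (nat_lit 59888) (nat_lit 6) (nat_lit 788) (nat_lit 5) (nat_lit 184) (nat_lit 190) (nat_lit 196)) (PT.lf (nat_lit 60344) (nat_lit 6) (nat_lit 794) (nat_lit 5) (nat_lit 185) (nat_lit 190) (nat_lit 195))))))) (PT.nd (nat_lit 1092) (PT.nd (nat_lit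 546) (PT.nd (nat_lit 234) (PT.nd (nat_lit 78) (PT.lf (nat_lit 60724) (nat_lit 6) (nat_lit 799) (nat_lit 5) (nat_lit 186) (nat_lit 190) (nat_lit 194)) (PT.nd (nat_lit 78) (PT.lf (nat_lit 61028) (nat_lit 6) (nat_lit 803) (nat_lit 5) (nat_lit 187) (nat_lit 190) (nat_lit 193)) (PT.lf (nat_lit 61256) (nat_lit 6) (nat_lit 806) (nat_lit 5) (nat_lit 188) (nat_lit 190) (nat_lit 192)))) (PT.nd (nat_lit 156) (PT.nd (nat_lit 78) (PT.lf (nat_lit 61408) (nat_lit 6) (nat_lit 808) (nat_lit 5) (nat_lit 189) (nat_lit 190) (nat_lit 191)) (PT.lf (nat_lit 61484) (nat_lit 1) (nat_lit 809) (nat_lit 0) (nat_lit 190) (nat_lit 190) (nat_lit 190))) (PT.nd (nat_lit 78) (PT.lf (nat_lit 61408) (nat_lit 6) (nat_lit 808) (nat_lit 0) (nat_lit 191) (nat_lit 190) (nat_lit 189)) (PT.lf (nat_lit 61256) (nat_lit 6) (nat_lit 806) (nat_lit 0) (nat_lit 192) (nat_lit 190) (nat_lit 188))))) (PT.nd (nat_lit 234) (PT.nd (nat_lit 78) (PT.lf (nat_lit 61028)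 (nat_lit 6) (nat_lit 803) (nat_lit 0) (nat_lit 193) (nat_lit 190) (nat_lit 187)) (PT.nd (nat_lit 78) (PT.lf (nat_lit 60724) (nat_lit 6) (nat_lit 799) (nat_lit 0) (nat_lit 194) (nat_lit 190) (nat_lit 186)) (PT.lf (nat_lit 60344) (nat_lit 6) (nat_lit 794) (nat_lit 0) (nat_lit 195) (nat_lit 190) (nat_lit 185)))) (PT.nd (nat_lit 156) (PT.nd (nat_lit 78) (PT.lf (nat_lit 59888) (nat_lit 6) (nat_lit 788) (nat_lit 0) (nat_lit 196) (nat_lit 190) (nat_lit 184)) (PT.lf (nat_lit 59356) (nat_lit 6) (nat_lit 781) (nat_lit 0) (nat_lit 197) (nat_lit 190) (nat_lit 183))) (PT.nd (nat_lit 78) (PT.lf (nat_lit 58748) (nat_lit 6) (nat_lit 773) (nat_lit 0) (nat_lit 198) (nat_lit 190) (nat_lit 182)) (PT.lf (nat_lit 58064) (nat_lit 6) (nat_lit 764) (nat_lit 0) (nat_lit 199) (nat_lit 190) (nat_lit 181)))))) (PT.nd (nat_lit 546) (PT.nd (nat_lit 234) (PT.nd (nat_lit 78) (PT.lf (nat_lit 57304) (nat_lit 6) (nat_lit 754) (nat_lit 0) (nat_lit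 200) (nat_lit 190) (nat_lit 180)) (PT.nd (nat_lit 78) (PT.lf (nat_lit 56468) (nat_lit 6) (nat_lit 743) (nat_lit 0) (nat_lit 201) (nat_lit 190) (nat_lit 179)) (PT.lf (nat_lit 55556) (nat_lit 6) (nat_lit 731) (nat_lit 0) (nat_lit 202) (nat_lit 190) (nat_lit 178)))) (PT.nd (nat_lit 156) (PT.nd (nat_lit 78) (PT.lf (nat_lit 54568) (nat_lit 6) (nat_lit 718) (nat_lit 0) (nat_lit 203) (nat_lit 190) (nat_lit 177)) (PT.lf (nat_lit 53504) (nat_lit 6) (nat_lit 704) (nat_lit 0) (nat_lit 204) (nat_lit 190) (nat_lit 176))) (PT.nd (nat_lit 78) (PT.lf (nat_lit 52364) (nat_lit 6) (nat_lit 689) (nat_lit 0) (nat_lit 205) (nat_lit 190) (nat_lit 175)) (PT.lf (nat_lit 51148) (nat_lit 6) (nat_lit 673) (nat_lit 0) (nat_lit 206) (nat_lit 190) (nat_lit 174))))) (PT.nd (nat_lit 312) (PT.nd (nat_lit 156) (PT.nd (nat_lit 78) (PT.lf (nat_lit 49856) (nat_lit 6) (nat_lit 656) (nat_lit 0) (nat_lit 207) (nat_lit 190) (nat_lit 173)) (PT.lf (nat_lit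 48488) (nat_lit 6) (nat_lit 638) (nat_lit 0) (nat_lit 208) (nat_lit 190) (nat_lit 172))) (PT.nd (nat_lit 78) (PT.lf (nat_lit 47044) (nat_lit 6) (nat_lit 619) (nat_lit 0) (nat_lit 209) (nat_lit 190) (nat_lit 171)) (PT.lf (nat_lit 45524) (nat_lit 6) (nat_lit 599) (nat_lit 0) (nat_lit 210) (nat_lit 190) (nat_lit 170)))) (PT.nd (nat_lit 156) (PT.nd (nat_lit 78) (PT.lf (nat_lit 43928) (nat_lit 6) (nat_lit 578) (nat_lit 0) (nat_lit 211) (nat_lit 190) (nat_lit 169)) (PT.lf (nat_lit 42256) (nat_lit 6) (nat_lit 556) (nat_lit 0) (nat_lit 212) (nat_lit 190) (nat_lit 168))) (PT.nd (nat_lit 78) (PT.lf (nat_lit 40508) (nat_lit 6) (nat_lit 533) (nat_lit 0) (nat_lit 213) (nat_lit 190) (nat_lit 167)) (PT.lf (nat_lit 38684) (nat_lit 6) (nat_lit 509) (nat_lit 0) (nat_lit 214) (nat_lit 190) (nat_lit 166))))))))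
noncomputable def pc27 : PT := (PT.nd (nat_lit 57564) (PT.nd (nat_lit 56394) (PT.nd (nat_lit 55848) (PT.nd (nat_lit 55536) (PT.nd (nat_lit 55380) (PT.lf (nat_lit 36784) (nat_lit 6) (nat_lit 484) (nat_lit 0) (nat_lit 215) (nat_lit 190) (nat_lit 165)) (PT.nd (nat_lit 78) (PT.lf (nat_lit 35644) (nat_lit 6) (nat_lit 469) (nat_lit 5) (nat_lit 164) (nat_lit 191) (nat_lit 215)) (PT.lf (nat_lit 36860) (nat_lit 6) (nat_lit 485) (nat_lit 5) (nat_lit 165) (nat_lit 191) (nat_lit 214)))) (PT.nd (nat_lit 156) (PT.nd (nat_lit 78) (PT.lf (nat_lit 38760) (nat_lit 6) (nat_lit 510) (nat_lit 5) (nat_lit 166) (nat_lit 191) (nat_lit 213)) (PT.lf (nat_lit 40584) (nat_lit 6) (nat_lit 534) (nat_lit 5) (nat_lit 167) (nat_lit 191) (nat_lit 212))) (PT.nd (nat_lit 78) (PT.lf (nat_lit 42332) (nat_lit 6) (nat_lit 557) (nat_lit 5) (nat_lit 168) (nat_lit 191) (nat_lit 211)) (PT.lf (nat_lit 44004) (nat_lit 6) (nat_lit 579) (nat_lit 5) (nat_lit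 169) (nat_lit 191) (nat_lit 210))))) (PT.nd (nat_lit 234) (PT.nd (nat_lit 78) (PT.lf (nat_lit 45600) (nat_lit 6) (nat_lit 600) (nat_lit 5) (nat_lit 170) (nat_lit 191) (nat_lit 209)) (PT.nd (nat_lit 78) (PT.lf (nat_lit 47120) (nat_lit 6) (nat_lit 620) (nat_lit 5) (nat_lit 171) (nat_lit 191) (nat_lit 208)) (PT.lf (nat_lit 48564) (nat_lit 6) (nat_lit 639) (nat_lit 5) (nat_lit 172) (nat_lit 191) (nat_lit 207)))) (PT.nd (nat_lit 156) (PT.nd (nat_lit 78) (PT.lf (nat_lit 49932) (nat_lit 6) (nat_lit 657) (nat_lit 5) (nat_lit 173) (nat_lit 191) (nat_lit 206)) (PT.lf (nat_lit 51224) (nat_lit 6) (nat_lit 674) (nat_lit 5) (nat_lit 174) (nat_lit 191) (nat_lit 205))) (PT.nd (nat_lit 78) (PT.lf (nat_lit 52440) (nat_lit 6) (nat_lit 690) (nat_lit 5) (nat_lit 175) (nat_lit 191) (nat_lit 204)) (PT.lf (nat_lit 53580) (nat_lit 6) (nat_lit 705) (nat_lit 5) (nat_lit 176) (nat_lit 191) (nat_lit 203)))))) (PT.nd (nat_lit 546) (PT.nd (nat_lit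 234) (PT.nd (nat_lit 78) (PT.lf (nat_lit 54644) (nat_lit 6) (nat_lit 719) (nat_lit 5) (nat_lit 177) (nat_lit 191) (nat_lit 202)) (PT.nd (nat_lit 78) (PT.lf (nat_lit 55632) (nat_lit 6) (nat_lit 732) (nat_lit 5) (nat_lit 178) (nat_lit 191) (nat_lit 201)) (PT.lf (nat_lit 56544) (nat_lit 6) (nat_lit 744) (nat_lit 5) (nat_lit 179) (nat_lit 191) (nat_lit 200)))) (PT.nd (nat_lit 156) (PT.nd (nat_lit 78) (PT.lf (nat_lit 57380) (nat_lit 6) (nat_lit 755) (nat_lit 5) (nat_lit 180) (nat_lit 191) (nat_lit 199)) (PT.lf (nat_lit 58140) (nat_lit 6) (nat_lit 765) (nat_lit 5) (nat_lit 181) (nat_lit 191) (nat_lit 198))) (PT.nd (nat_lit 78) (PT.lf (nat_lit 58824) (nat_lit 6) (nat_lit 774) (nat_lit 5) (nat_lit 182) (nat_lit 191) (nat_lit 197)) (PT.lf (nat_lit 59432) (nat_lit 6) (nat_lit 782) (nat_lit 5) (nat_lit 183) (nat_lit 191) (nat_lit 196))))) (PT.nd (nat_lit 312) (PT.nd (nat_lit 156) (PT.nd (nat_lit 78) (PT.lf (nat_lit 59964)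 (nat_lit 6) (nat_lit 789) (nat_lit 5) (nat_lit 184) (nat_lit 191) (nat_lit 195)) (PT.lf (nat_lit 60420) (nat_lit 6) (nat_lit 795) (nat_lit 5) (nat_lit 185) (nat_lit 191) (nat_lit 194))) (PT.nd (nat_lit 78) (PT.lf (nat_lit 60800) (nat_lit 6) (nat_lit 800) (nat_lit 5) (nat_lit 186) (nat_lit 191) (nat_lit 193)) (PT.lf (nat_lit 61104) (nat_lit 6) (nat_lit 804) (nat_lit 5) (nat_lit 187) (nat_lit 191) (nat_lit 192)))) (PT.nd (nat_lit 156) (PT.nd (nat_lit 78) (PT.lf (nat_lit 61332) (nat_lit 3) (nat_lit 807) (nat_lit 4) (nat_lit 188) (nat_lit 191) (nat_lit 191)) (PT.lf (nat_lit 61408) (nat_lit 6) (nat_lit 808) (nat_lit 4) (nat_lit 189) (nat_lit 191) (nat_lit 190))) (PT.nd (nat_lit 78) (PT.lf (nat_lit 61408) (nat_lit 6) (nat_lit 808) (nat_lit 2) (nat_lit 190) (nat_lit 191) (nat_lit 189)) (PT.lf (nat_lit 61332) (nat_lit 3) (nat_lit 807) (nat_lit 0) (nat_lit 191) (nat_lit 191) (nat_lit 188))))))) (PT.nd (nat_lit 1170) (PT.nd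 (nat_lit 546) (PT.nd (nat_lit 234) (PT.nd (nat_lit 78) (PT.lf (nat_lit 61104) (nat_lit 6) (nat_lit 804) (nat_lit 0) (nat_lit 192) (nat_lit 191) (nat_lit 187)) (PT.nd (nat_lit 78) (PT.lf (nat_lit 60800) (nat_lit 6) (nat_lit 800) (nat_lit 0) (nat_lit 193) (nat_lit 191) (nat_lit 186)) (PT.lf (nat_lit 60420) (nat_lit 6) (nat_lit 795) (nat_lit 0) (nat_lit 194) (nat_lit 191) (nat_lit 185)))) (PT.nd (nat_lit 156) (PT.nd (nat_lit 78) (PT.lf (nat_lit 59964) (nat_lit 6) (nat_lit 789) (nat_lit 0) (nat_lit 195) (nat_lit 191) (nat_lit 184)) (PT.lf (nat_lit 59432) (nat_lit 6) (nat_lit 782) (nat_lit 0) (nat_lit 196) (nat_lit 191) (nat_lit 183))) (PT.nd (nat_lit 78) (PT.lf (nat_lit 58824) (nat_lit 6) (nat_lit 774) (nat_lit 0) (nat_lit 197) (nat_lit 191) (nat_lit 182)) (PT.lf (nat_lit 58140) (nat_lit 6) (nat_lit 765) (nat_lit 0) (nat_lit 198) (nat_lit 191) (nat_lit 181))))) (PT.nd (nat_lit 312) (PT.nd (nat_lit 156) (PT.nd (nat_lit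 78) (PT.lf (nat_lit 57380) (nat_lit 6) (nat_lit 755) (nat_lit 0) (nat_lit 199) (nat_lit 191) (nat_lit 180)) (PT.lf (nat_lit 56544) (nat_lit 6) (nat_lit 744) (nat_lit 0) (nat_lit 200) (nat_lit 191) (nat_lit 179))) (PT.nd (nat_lit 78) (PT.lf (nat_lit 55632) (nat_lit 6) (nat_lit 732) (nat_lit 0) (nat_lit 201) (nat_lit 191) (nat_lit 178)) (PT.lf (nat_lit 54644) (nat_lit 6) (nat_lit 719) (nat_lit 0) (nat_lit 202) (nat_lit 191) (nat_lit 177)))) (PT.nd (nat_lit 156) (PT.nd (nat_lit 78) (PT.lf (nat_lit 53580) (nat_lit 6) (nat_lit 705) (nat_lit 0) (nat_lit 203) (nat_lit 191) (nat_lit 176)) (PT.lf (nat_lit 52440) (nat_lit 6) (nat_lit 690) (nat_lit 0) (nat_lit 204) (nat_lit 191) (nat_lit 175))) (PT.nd (nat_lit 78) (PT.lf (nat_lit 51224) (nat_lit 6) (nat_lit 674) (nat_lit 0) (nat_lit 205) (nat_lit 191) (nat_lit 174)) (PT.lf (nat_lit 49932) (nat_lit 6) (nat_lit 657) (nat_lit 0) (nat_lit 206) (nat_lit 191) (nat_lit 173))))))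 (PT.nd (nat_lit 546) (PT.nd (nat_lit 234) (PT.nd (nat_lit 78) (PT.lf (nat_lit 48564) (nat_lit 6) (nat_lit 639) (nat_lit 0) (nat_lit 207) (nat_lit 191) (nat_lit 172)) (PT.nd (nat_lit 78) (PT.lf (nat_lit 47120) (nat_lit 6) (nat_lit 620) (nat_lit 0) (nat_lit 208) (nat_lit 191) (nat_lit 171)) (PT.lf (nat_lit 45600) (nat_lit 6) (nat_lit 600) (nat_lit 0) (nat_lit 209) (nat_lit 191) (nat_lit 170)))) (PT.nd (nat_lit 156) (PT.nd (nat_lit 78) (PT.lf (nat_lit 44004) (nat_lit 6) (nat_lit 579) (nat_lit 0) (nat_lit 210) (nat_lit 191) (nat_lit 169)) (PT.lf (nat_lit 42332) (nat_lit 6) (nat_lit 557) (nat_lit 0) (nat_lit 211) (nat_lit 191) (nat_lit 168))) (PT.nd (nat_lit 78) (PT.lf (nat_lit 40584) (nat_lit 6) (nat_lit 534) (nat_lit 0) (nat_lit 212) (nat_lit 191) (nat_lit 167)) (PT.lf (nat_lit 38760) (nat_lit 6) (nat_lit 510) (nat_lit 0) (nat_lit 213) (nat_lit 191) (nat_lit 166))))) (PT.nd (nat_lit 55536) (PT.nd (nat_lit 55380) (PT.nd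 (nat_lit 78) (PT.lf (nat_lit 36860) (nat_lit 6) (nat_lit 485) (nat_lit 0) (nat_lit 214) (nat_lit 191) (nat_lit 165)) (PT.lf (nat_lit 35644) (nat_lit 6) (nat_lit 469) (nat_lit 0) (nat_lit 215) (nat_lit 191) (nat_lit 164))) (PT.nd (nat_lit 78) (PT.lf (nat_lit 34732) (nat_lit 6) (nat_lit 457) (nat_lit 5) (nat_lit 163) (nat_lit 192) (nat_lit 215)) (PT.lf (nat_lit 35720) (nat_lit 6) (nat_lit 470) (nat_lit 5) (nat_lit 164) (nat_lit 192) (nat_lit 214)))) (PT.nd (nat_lit 156) (PT.nd (nat_lit 78) (PT.lf (nat_lit 36936) (nat_lit 6) (nat_lit 486) (nat_lit 5) (nat_lit 165) (nat_lit 192) (nat_lit 213)) (PT.lf (nat_lit 38836) (nat_lit 6) (nat_lit 511) (nat_lit 5) (nat_lit 166) (nat_lit 192) (nat_lit 212))) (PT.nd (nat_lit 78) (PT.lf (nat_lit 40660) (nat_lit 6) (nat_lit 535) (nat_lit 5) (nat_lit 167) (nat_lit 192) (nat_lit 211)) (PT.lf (nat_lit 42408) (nat_lit 6) (nat_lit 558) (nat_lit 5) (nat_lit 168) (nat_lit 192) (nat_lit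 210))))))))
noncomputable def pc28 : PT := (PT.nd (nat_lit 2262) (PT.nd (nat_lit 1092) (PT.nd (nat_lit 546) (PT.nd (nat_lit 234) (PT.nd (nat_lit 78) (PT.lf (nat_lit 44080) (nat_lit 6) (nat_lit 580) (nat_lit 5) (nat_lit 169) (nat_lit 192) (nat_lit 209)) (PT.nd (nat_lit 78) (PT.lf (nat_lit 45676) (nat_lit 6) (nat_lit 601) (nat_lit 5) (nat_lit 170) (nat_lit 192) (nat_lit 208)) (PT.lf (nat_lit 47196) (nat_lit 6) (nat_lit 621) (nat_lit 5) (nat_lit 171) (nat_lit 192) (nat_lit 207)))) (PT.nd (nat_lit 156) (PT.nd (nat_lit 78) (PT.lf (nat_lit 48640) (nat_lit 6) (nat_lit 640) (nat_lit 5) (nat_lit 172) (nat_lit 192) (nat_lit 206)) (PT.lf (nat_lit 50008) (nat_lit 6) (nat_lit 658) (nat_lit 5) (nat_lit 173) (nat_lit 192) (nat_lit 205))) (PT.nd (nat_lit 78) (PT.lf (nat_lit 51300) (nat_lit 6) (nat_lit 675) (nat_lit 5) (nat_lit 174) (nat_lit 192) (nat_lit 204)) (PT.lf (nat_lit 52516) (nat_lit 6) (nat_lit 691) (nat_lit 5) (nat_lit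 175) (nat_lit 192) (nat_lit 203))))) (PT.nd (nat_lit 234) (PT.nd (nat_lit 78) (PT.lf (nat_lit 53656) (nat_lit 6) (nat_lit 706) (nat_lit 5) (nat_lit 176) (nat_lit 192) (nat_lit 202)) (PT.nd (nat_lit 78) (PT.lf (nat_lit 54720) (nat_lit 6) (nat_lit 720) (nat_lit 5) (nat_lit 177) (nat_lit 192) (nat_lit 201)) (PT.lf (nat_lit 55708) (nat_lit 6) (nat_lit 733) (nat_lit 5) (nat_lit 178) (nat_lit 192) (nat_lit 200)))) (PT.nd (nat_lit 156) (PT.nd (nat_lit 78) (PT.lf (nat_lit 56620) (nat_lit 6) (nat_lit 745) (nat_lit 5) (nat_lit 179) (nat_lit 192) (nat_lit 199)) (PT.lf (nat_lit 57456) (nat_lit 6) (nat_lit 756) (nat_lit 5) (nat_lit 180) (nat_lit 192) (nat_lit 198))) (PT.nd (nat_lit 78) (PT.lf (nat_lit 58216) (nat_lit 6) (nat_lit 766) (nat_lit 5) (nat_lit 181) (nat_lit 192) (nat_lit 197)) (PT.lf (nat_lit 58900) (nat_lit 6) (nat_lit 775) (nat_lit 5) (nat_lit 182) (nat_lit 192) (nat_lit 196)))))) (PT.nd (nat_lit 546) (PT.nd (nat_lit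 234) (PT.nd (nat_lit 78) (PT.lf (nat_lit 59508) (nat_lit 6) (nat_lit 783) (nat_lit 5) (nat_lit 183) (nat_lit 192) (nat_lit 195)) (PT.nd (nat_lit 78) (PT.lf (nat_lit 60040) (nat_lit 6) (nat_lit 790) (nat_lit 5) (nat_lit 184) (nat_lit 192) (nat_lit 194)) (PT.lf (nat_lit 60496) (nat_lit 6) (nat_lit 796) (nat_lit 5) (nat_lit 185) (nat_lit 192) (nat_lit 193)))) (PT.nd (nat_lit 156) (PT.nd (nat_lit 78) (PT.lf (nat_lit 60876) (nat_lit 3) (nat_lit 801) (nat_lit 4) (nat_lit 186) (nat_lit 192) (nat_lit 192)) (PT.lf (nat_lit 61104) (nat_lit 6) (nat_lit 804) (nat_lit 4) (nat_lit 187) (nat_lit 192) (nat_lit 191))) (PT.nd (nat_lit 78) (PT.lf (nat_lit 61256) (nat_lit 6) (nat_lit 806) (nat_lit 4) (nat_lit 188) (nat_lit 192) (nat_lit 190)) (PT.lf (nat_lit 61180) (nat_lit 3) (nat_lit 805) (nat_lit 2) (nat_lit 189) (nat_lit 192) (nat_lit 189))))) (PT.nd (nat_lit 312) (PT.nd (nat_lit 156) (PT.nd (nat_lit 78) (PT.lf (nat_lit 61256)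 (nat_lit 6) (nat_lit 806) (nat_lit 2) (nat_lit 190) (nat_lit 192) (nat_lit 188)) (PT.lf (nat_lit 61104) (nat_lit 6) (nat_lit 804) (nat_lit 2) (nat_lit 191) (nat_lit 192) (nat_lit 187))) (PT.nd (nat_lit 78) (PT.lf (nat_lit 60876) (nat_lit 3) (nat_lit 801) (nat_lit 0) (nat_lit 192) (nat_lit 192) (nat_lit 186)) (PT.lf (nat_lit 60496) (nat_lit 6) (nat_lit 796) (nat_lit 0) (nat_lit 193) (nat_lit 192) (nat_lit 185)))) (PT.nd (nat_lit 156) (PT.nd (nat_lit 78) (PT.lf (nat_lit 60040) (nat_lit 6) (nat_lit 790) (nat_lit 0) (nat_lit 194) (nat_lit 192) (nat_lit 184)) (PT.lf (nat_lit 59508) (nat_lit 6) (nat_lit 783) (nat_lit 0) (nat_lit 195) (nat_lit 192) (nat_lit 183))) (PT.nd (nat_lit 78) (PT.lf (nat_lit 58900) (nat_lit 6) (nat_lit 775) (nat_lit 0) (nat_lit 196) (nat_lit 192) (nat_lit 182)) (PT.lf (nat_lit 58216) (nat_lit 6) (nat_lit 766) (nat_lit 0) (nat_lit 197) (nat_lit 192) (nat_lit 181))))))) (PT.nd (nat_lit 1092) (PT.nd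 (nat_lit 546) (PT.nd (nat_lit 234) (PT.nd (nat_lit 78) (PT.lf (nat_lit 57456) (nat_lit 6) (nat_lit 756) (nat_lit 0) (nat_lit 198) (nat_lit 192) (nat_lit 180)) (PT.nd (nat_lit 78) (PT.lf (nat_lit 56620) (nat_lit 6) (nat_lit 745) (nat_lit 0) (nat_lit 199) (nat_lit 192) (nat_lit 179)) (PT.lf (nat_lit 55708) (nat_lit 6) (nat_lit 733) (nat_lit 0) (nat_lit 200) (nat_lit 192) (nat_lit 178)))) (PT.nd (nat_lit 156) (PT.nd (nat_lit 78) (PT.lf (nat_lit 54720) (nat_lit 6) (nat_lit 720) (nat_lit 0) (nat_lit 201) (nat_lit 192) (nat_lit 177)) (PT.lf (nat_lit 53656) (nat_lit 6) (nat_lit 706) (nat_lit 0) (nat_lit 202) (nat_lit 192) (nat_lit 176))) (PT.nd (nat_lit 78) (PT.lf (nat_lit 52516) (nat_lit 6) (nat_lit 691) (nat_lit 0) (nat_lit 203) (nat_lit 192) (nat_lit 175)) (PT.lf (nat_lit 51300) (nat_lit 6) (nat_lit 675) (nat_lit 0) (nat_lit 204) (nat_lit 192) (nat_lit 174))))) (PT.nd (nat_lit 234) (PT.nd (nat_lit 78) (PT.lf (nat_lit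 50008) (nat_lit 6) (nat_lit 658) (nat_lit 0) (nat_lit 205) (nat_lit 192) (nat_lit 173)) (PT.nd (nat_lit 78) (PT.lf (nat_lit 48640) (nat_lit 6) (nat_lit 640) (nat_lit 0) (nat_lit 206) (nat_lit 192) (nat_lit 172)) (PT.lf (nat_lit 47196) (nat_lit 6) (nat_lit 621) (nat_lit 0) (nat_lit 207) (nat_lit 192) (nat_lit 171)))) (PT.nd (nat_lit 156) (PT.nd (nat_lit 78) (PT.lf (nat_lit 45676) (nat_lit 6) (nat_lit 601) (nat_lit 0) (nat_lit 208) (nat_lit 192) (nat_lit 170)) (PT.lf (nat_lit 44080) (nat_lit 6) (nat_lit 580) (nat_lit 0) (nat_lit 209) (nat_lit 192) (nat_lit 169))) (PT.nd (nat_lit 78) (PT.lf (nat_lit 42408) (nat_lit 6) (nat_lit 558) (nat_lit 0) (nat_lit 210) (nat_lit 192) (nat_lit 168)) (PT.lf (nat_lit 40660) (nat_lit 6) (nat_lit 535) (nat_lit 0) (nat_lit 211) (nat_lit 192) (nat_lit 167)))))) (PT.nd (nat_lit 55614) (PT.nd (nat_lit 234) (PT.nd (nat_lit 78) (PT.lf (nat_lit 38836) (nat_lit 6) (nat_lit 511) (nat_lit 0)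 (nat_lit 212) (nat_lit 192) (nat_lit 166)) (PT.nd (nat_lit 78) (PT.lf (nat_lit 36936) (nat_lit 6) (nat_lit 486) (nat_lit 0) (nat_lit 213) (nat_lit 192) (nat_lit 165)) (PT.lf (nat_lit 35720) (nat_lit 6) (nat_lit 470) (nat_lit 0) (nat_lit 214) (nat_lit 192) (nat_lit 164)))) (PT.nd (nat_lit 55224) (PT.nd (nat_lit 55146) (PT.lf (nat_lit 34732) (nat_lit 6) (nat_lit 457) (nat_lit 0) (nat_lit 215) (nat_lit 192) (nat_lit 163)) (PT.lf (nat_lit 32908) (nat_lit 6) (nat_lit 433) (nat_lit 5) (nat_lit 161) (nat_lit 193) (nat_lit 216))) (PT.nd (nat_lit 78) (PT.lf (nat_lit 33820) (nat_lit 6) (nat_lit 445) (nat_lit 5) (nat_lit 162) (nat_lit 193) (nat_lit 215)) (PT.lf (nat_lit 34808) (nat_lit 6) (nat_lit 458) (nat_lit 5) (nat_lit 163) (nat_lit 193) (nat_lit 214))))) (PT.nd (nat_lit 312) (PT.nd (nat_lit 156) (PT.nd (nat_lit 78) (PT.lf (nat_lit 35796) (nat_lit 6) (nat_lit 471) (nat_lit 5) (nat_lit 164) (nat_lit 193) (nat_lit 213))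 (PT.lf (nat_lit 37012) (nat_lit 6) (nat_lit 487) (nat_lit 5) (nat_lit 165) (nat_lit 193) (nat_lit 212))) (PT.nd (nat_lit 78) (PT.lf (nat_lit 38912) (nat_lit 6) (nat_lit 512) (nat_lit 5) (nat_lit 166) (nat_lit 193) (nat_lit 211)) (PT.lf (nat_lit 40736) (nat_lit 6) (nat_lit 536) (nat_lit 5) (nat_lit 167) (nat_lit 193) (nat_lit 210)))) (PT.nd (nat_lit 156) (PT.nd (nat_lit 78) (PT.lf (nat_lit 42484) (nat_lit 6) (nat_lit 559) (nat_lit 5) (nat_lit 168) (nat_lit 193) (nat_lit 209)) (PT.lf (nat_lit 44156) (nat_lit 6) (nat_lit 581) (nat_lit 5) (nat_lit 169) (nat_lit 193) (nat_lit 208))) (PT.nd (nat_lit 78) (PT.lf (nat_lit 45752) (nat_lit 6) (nat_lit 602) (nat_lit 5) (nat_lit 170) (nat_lit 193) (nat_lit 207)) (PT.lf (nat_lit 47272) (nat_lit 6) (nat_lit 622) (nat_lit 5) (nat_lit 171) (nat_lit 193) (nat_lit 206))))))))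
noncomputable def pc29 : PT := (PT.nd (nat_lit 2262) (PT.nd (nat_lit 1092) (PT.nd (nat_lit 546) (PT.nd (nat_lit 234) (PT.nd (nat_lit 78) (PT.lf (nat_lit 48716) (nat_lit 6) (nat_lit 641) (nat_lit 5) (nat_lit 172) (nat_lit 193) (nat_lit 205)) (PT.nd (nat_lit 78) (PT.lf (nat_lit 50084) (nat_lit 6) (nat_lit 659) (nat_lit 5) (nat_lit 173) (nat_lit 193) (nat_lit 204)) (PT.lf (nat_lit 51376) (nat_lit 6) (nat_lit 676) (nat_lit 5) (nat_lit 174) (nat_lit 193) (nat_lit 203)))) (PT.nd (nat_lit 156) (PT.nd (nat_lit 78) (PT.lf (nat_lit 52592) (nat_lit 6) (nat_lit 692) (nat_lit 5) (nat_lit 175) (nat_lit 193) (nat_lit 202)) (PT.lf (nat_lit 53732) (nat_lit 6) (nat_lit 707) (nat_lit 5) (nat_lit 176) (nat_lit 193) (nat_lit 201))) (PT.nd (nat_lit 78) (PT.lf (nat_lit 54796) (nat_lit 6) (nat_lit 721) (nat_lit 5) (nat_lit 177) (nat_lit 193) (nat_lit 200)) (PT.lf (nat_lit 55784) (nat_lit 6) (nat_lit 734) (nat_lit 5) (nat_lit 178) (nat_lit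 193) (nat_lit 199))))) (PT.nd (nat_lit 234) (PT.nd (nat_lit 78) (PT.lf (nat_lit 56696) (nat_lit 6) (nat_lit 746) (nat_lit 5) (nat_lit 179) (nat_lit 193) (nat_lit 198)) (PT.nd (nat_lit 78) (PT.lf (nat_lit 57532) (nat_lit 6) (nat_lit 757) (nat_lit 5) (nat_lit 180) (nat_lit 193) (nat_lit 197)) (PT.lf (nat_lit 58292) (nat_lit 6) (nat_lit 767) (nat_lit 5) (nat_lit 181) (nat_lit 193) (nat_lit 196)))) (PT.nd (nat_lit 156) (PT.nd (nat_lit 78) (PT.lf (nat_lit 58976) (nat_lit 6) (nat_lit 776) (nat_lit 5) (nat_lit 182) (nat_lit 193) (nat_lit 195)) (PT.lf (nat_lit 59584) (nat_lit 6) (nat_lit 784) (nat_lit 5) (nat_lit 183) (nat_lit 193) (nat_lit 194))) (PT.nd (nat_lit 78) (PT.lf (nat_lit 60116) (nat_lit 3) (nat_lit 791) (nat_lit 4) (nat_lit 184) (nat_lit 193) (nat_lit 193)) (PT.lf (nat_lit 60496) (nat_lit 6) (nat_lit 796) (nat_lit 4) (nat_lit 185) (nat_lit 193) (nat_lit 192)))))) (PT.nd (nat_lit 546) (PT.nd (nat_lit 234) (PT.nd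 (nat_lit 78) (PT.lf (nat_lit 60800) (nat_lit 6) (nat_lit 800) (nat_lit 4) (nat_lit 186) (nat_lit 193) (nat_lit 191)) (PT.nd (nat_lit 78) (PT.lf (nat_lit 61028) (nat_lit 6) (nat_lit 803) (nat_lit 4) (nat_lit 187) (nat_lit 193) (nat_lit 190)) (PT.lf (nat_lit 60952) (nat_lit 6) (nat_lit 802) (nat_lit 4) (nat_lit 188) (nat_lit 193) (nat_lit 189)))) (PT.nd (nat_lit 156) (PT.nd (nat_lit 78) (PT.lf (nat_lit 60952) (nat_lit 6) (nat_lit 802) (nat_lit 2) (nat_lit 189) (nat_lit 193) (nat_lit 188)) (PT.lf (nat_lit 61028) (nat_lit 6) (nat_lit 803) (nat_lit 2) (nat_lit 190) (nat_lit 193) (nat_lit 187))) (PT.nd (nat_lit 78) (PT.lf (nat_lit 60800) (nat_lit 6) (nat_lit 800) (nat_lit 2) (nat_lit 191) (nat_lit 193) (nat_lit 186)) (PT.lf (nat_lit 60496) (nat_lit 6) (nat_lit 796) (nat_lit 2) (nat_lit 192) (nat_lit 193) (nat_lit 185))))) (PT.nd (nat_lit 312) (PT.nd (nat_lit 156) (PT.nd (nat_lit 78) (PT.lf (nat_lit 60116) (nat_lit 3)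 (nat_lit 791) (nat_lit 0) (nat_lit 193) (nat_lit 193) (nat_lit 184)) (PT.lf (nat_lit 59584) (nat_lit 6) (nat_lit 784) (nat_lit 0) (nat_lit 194) (nat_lit 193) (nat_lit 183))) (PT.nd (nat_lit 78) (PT.lf (nat_lit 58976) (nat_lit 6) (nat_lit 776) (nat_lit 0) (nat_lit 195) (nat_lit 193) (nat_lit 182)) (PT.lf (nat_lit 58292) (nat_lit 6) (nat_lit 767) (nat_lit 0) (nat_lit 196) (nat_lit 193) (nat_lit 181)))) (PT.nd (nat_lit 156) (PT.nd (nat_lit 78) (PT.lf (nat_lit 57532) (nat_lit 6) (nat_lit 757) (nat_lit 0) (nat_lit 197) (nat_lit 193) (nat_lit 180)) (PT.lf (nat_lit 56696) (nat_lit 6) (nat_lit 746) (nat_lit 0) (nat_lit 198) (nat_lit 193) (nat_lit 179))) (PT.nd (nat_lit 78) (PT.lf (nat_lit 55784) (nat_lit 6) (nat_lit 734) (nat_lit 0) (nat_lit 199) (nat_lit 193) (nat_lit 178)) (PT.lf (nat_lit 54796) (nat_lit 6) (nat_lit 721) (nat_lit 0) (nat_lit 200) (nat_lit 193) (nat_lit 177))))))) (PT.nd (nat_lit 1170) (PT.nd (nat_lit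 546) (PT.nd (nat_lit 234) (PT.nd (nat_lit 78) (PT.lf (nat_lit 53732) (nat_lit 6) (nat_lit 707) (nat_lit 0) (nat_lit 201) (nat_lit 193) (nat_lit 176)) (PT.nd (nat_lit 78) (PT.lf (nat_lit 52592) (nat_lit 6) (nat_lit 692) (nat_lit 0) (nat_lit 202) (nat_lit 193) (nat_lit 175)) (PT.lf (nat_lit 51376) (nat_lit 6) (nat_lit 676) (nat_lit 0) (nat_lit 203) (nat_lit 193) (nat_lit 174)))) (PT.nd (nat_lit 156) (PT.nd (nat_lit 78) (PT.lf (nat_lit 50084) (nat_lit 6) (nat_lit 659) (nat_lit 0) (nat_lit 204) (nat_lit 193) (nat_lit 173)) (PT.lf (nat_lit 48716) (nat_lit 6) (nat_lit 641) (nat_lit 0) (nat_lit 205) (nat_lit 193) (nat_lit 172))) (PT.nd (nat_lit 78) (PT.lf (nat_lit 47272) (nat_lit 6) (nat_lit 622) (nat_lit 0) (nat_lit 206) (nat_lit 193) (nat_lit 171)) (PT.lf (nat_lit 45752) (nat_lit 6) (nat_lit 602) (nat_lit 0) (nat_lit 207) (nat_lit 193) (nat_lit 170))))) (PT.nd (nat_lit 312) (PT.nd (nat_lit 156) (PT.nd (nat_lit 78) (PT.lf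 (nat_lit 44156) (nat_lit 6) (nat_lit 581) (nat_lit 0) (nat_lit 208) (nat_lit 193) (nat_lit 169)) (PT.lf (nat_lit 42484) (nat_lit 6) (nat_lit 559) (nat_lit 0) (nat_lit 209) (nat_lit 193) (nat_lit 168))) (PT.nd (nat_lit 78) (PT.lf (nat_lit 40736) (nat_lit 6) (nat_lit 536) (nat_lit 0) (nat_lit 210) (nat_lit 193) (nat_lit 167)) (PT.lf (nat_lit 38912) (nat_lit 6) (nat_lit 512) (nat_lit 0) (nat_lit 211) (nat_lit 193) (nat_lit 166)))) (PT.nd (nat_lit 156) (PT.nd (nat_lit 78) (PT.lf (nat_lit 37012) (nat_lit 6) (nat_lit 487) (nat_lit 0) (nat_lit 212) (nat_lit 193) (nat_lit 165)) (PT.lf (nat_lit 35796) (nat_lit 6) (nat_lit 471) (nat_lit 0) (nat_lit 213) (nat_lit 193) (nat_lit 164))) (PT.nd (nat_lit 78) (PT.lf (nat_lit 34808) (nat_lit 6) (nat_lit 458) (nat_lit 0) (nat_lit 214) (nat_lit 193) (nat_lit 163)) (PT.lf (nat_lit 33820) (nat_lit 6) (nat_lit 445) (nat_lit 0) (nat_lit 215) (nat_lit 193) (nat_lit 162)))))) (PT.nd (nat_lit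 55458) (PT.nd (nat_lit 55146) (PT.nd (nat_lit 54990) (PT.lf (nat_lit 32908) (nat_lit 6) (nat_lit 433) (nat_lit 0) (nat_lit 216) (nat_lit 193) (nat_lit 161)) (PT.nd (nat_lit 78) (PT.lf (nat_lit 31996) (nat_lit 6) (nat_lit 421) (nat_lit 5) (nat_lit 160) (nat_lit 194) (nat_lit 216)) (PT.lf (nat_lit 32984) (nat_lit 6) (nat_lit 434) (nat_lit 5) (nat_lit 161) (nat_lit 194) (nat_lit 215)))) (PT.nd (nat_lit 156) (PT.nd (nat_lit 78) (PT.lf (nat_lit 33896) (nat_lit 6) (nat_lit 446) (nat_lit 5) (nat_lit 162) (nat_lit 194) (nat_lit 214)) (PT.lf (nat_lit 34884) (nat_lit 6) (nat_lit 459) (nat_lit 5) (nat_lit 163) (nat_lit 194) (nat_lit 213))) (PT.nd (nat_lit 78) (PT.lf (nat_lit 35872) (nat_lit 6) (nat_lit 472) (nat_lit 5) (nat_lit 164) (nat_lit 194) (nat_lit 212)) (PT.lf (nat_lit 37088) (nat_lit 6) (nat_lit 488) (nat_lit 5) (nat_lit 165) (nat_lit 194) (nat_lit 211))))) (PT.nd (nat_lit 312) (PT.nd (nat_lit 156) (PT.nd (nat_lit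 78) (PT.lf (nat_lit 38988) (nat_lit 6) (nat_lit 513) (nat_lit 5) (nat_lit 166) (nat_lit 194) (nat_lit 210)) (PT.lf (nat_lit 40812) (nat_lit 6) (nat_lit 537) (nat_lit 5) (nat_lit 167) (nat_lit 194) (nat_lit 209))) (PT.nd (nat_lit 78) (PT.lf (nat_lit 42560) (nat_lit 6) (nat_lit 560) (nat_lit 5) (nat_lit 168) (nat_lit 194) (nat_lit 208)) (PT.lf (nat_lit 44232) (nat_lit 6) (nat_lit 582) (nat_lit 5) (nat_lit 169) (nat_lit 194) (nat_lit 207)))) (PT.nd (nat_lit 156) (PT.nd (nat_lit 78) (PT.lf (nat_lit 45828) (nat_lit 6) (nat_lit 603) (nat_lit 5) (nat_lit 170) (nat_lit 194) (nat_lit 206)) (PT.lf (nat_lit 47348) (nat_lit 6) (nat_lit 623) (nat_lit 5) (nat_lit 171) (nat_lit 194) (nat_lit 205))) (PT.nd (nat_lit 78) (PT.lf (nat_lit 48792) (nat_lit 6) (nat_lit 642) (nat_lit 5) (nat_lit 172) (nat_lit 194) (nat_lit 204)) (PT.lf (nat_lit 50160) (nat_lit 6) (nat_lit 660) (nat_lit 5) (nat_lit 173) (nat_lit 194) (nat_lit 203))))))))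
noncomputable def pc30 : PT := (PT.nd (nat_lit 2262) (PT.nd (nat_lit 1092) (PT.nd (nat_lit 546) (PT.nd (nat_lit 234) (PT.nd (nat_lit 78) (PT.lf (nat_lit 51452) (nat_lit 6) (nat_lit 677) (nat_lit 5) (nat_lit 174) (nat_lit 194) (nat_lit 202)) (PT.nd (nat_lit 78) (PT.lf (nat_lit 52668) (nat_lit 6) (nat_lit 693) (nat_lit 5) (nat_lit 175) (nat_lit 194) (nat_lit 201)) (PT.lf (nat_lit 53808) (nat_lit 6) (nat_lit 708) (nat_lit 5) (nat_lit 176) (nat_lit 194) (nat_lit 200)))) (PT.nd (nat_lit 156) (PT.nd (nat_lit 78) (PT.lf (nat_lit 54872) (nat_lit 6) (nat_lit 722) (nat_lit 5) (nat_lit 177) (nat_lit 194) (nat_lit 199)) (PT.lf (nat_lit 55860) (nat_lit 6) (nat_lit 735) (nat_lit 5) (nat_lit 178) (nat_lit 194) (nat_lit 198))) (PT.nd (nat_lit 78) (PT.lf (nat_lit 56772) (nat_lit 6) (nat_lit 747) (nat_lit 5) (nat_lit 179) (nat_lit 194) (nat_lit 197)) (PT.lf (nat_lit 57608) (nat_lit 6) (nat_lit 758) (nat_lit 5) (nat_lit 180) (nat_lit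 194) (nat_lit 196))))) (PT.nd (nat_lit 234) (PT.nd (nat_lit 78) (PT.lf (nat_lit 58368) (nat_lit 6) (nat_lit 768) (nat_lit 5) (nat_lit 181) (nat_lit 194) (nat_lit 195)) (PT.nd (nat_lit 78) (PT.lf (nat_lit 59052) (nat_lit 3) (nat_lit 777) (nat_lit 4) (nat_lit 182) (nat_lit 194) (nat_lit 194)) (PT.lf (nat_lit 59584) (nat_lit 6) (nat_lit 784) (nat_lit 4) (nat_lit 183) (nat_lit 194) (nat_lit 193)))) (PT.nd (nat_lit 156) (PT.nd (nat_lit 78) (PT.lf (nat_lit 60040) (nat_lit 6) (nat_lit 790) (nat_lit 4) (nat_lit 184) (nat_lit 194) (nat_lit 192)) (PT.lf (nat_lit 60420) (nat_lit 6) (nat_lit 795) (nat_lit 4) (nat_lit 185) (nat_lit 194) (nat_lit 191))) (PT.nd (nat_lit 78) (PT.lf (nat_lit 60724) (nat_lit 6) (nat_lit 799) (nat_lit 4) (nat_lit 186) (nat_lit 194) (nat_lit 190)) (PT.lf (nat_lit 60648) (nat_lit 6) (nat_lit 798) (nat_lit 4) (nat_lit 187) (nat_lit 194) (nat_lit 189)))))) (PT.nd (nat_lit 546) (PT.nd (nat_lit 234) (PT.nd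 (nat_lit 78) (PT.lf (nat_lit 60572) (nat_lit 3) (nat_lit 797) (nat_lit 2) (nat_lit 188) (nat_lit 194) (nat_lit 188)) (PT.nd (nat_lit 78) (PT.lf (nat_lit 60648) (nat_lit 6) (nat_lit 798) (nat_lit 2) (nat_lit 189) (nat_lit 194) (nat_lit 187)) (PT.lf (nat_lit 60724) (nat_lit 6) (nat_lit 799) (nat_lit 2) (nat_lit 190) (nat_lit 194) (nat_lit 186)))) (PT.nd (nat_lit 156) (PT.nd (nat_lit 78) (PT.lf (nat_lit 60420) (nat_lit 6) (nat_lit 795) (nat_lit 2) (nat_lit 191) (nat_lit 194) (nat_lit 185)) (PT.lf (nat_lit 60040) (nat_lit 6) (nat_lit 790) (nat_lit 2) (nat_lit 192) (nat_lit 194) (nat_lit 184))) (PT.nd (nat_lit 78) (PT.lf (nat_lit 59584) (nat_lit 6) (nat_lit 784) (nat_lit 2) (nat_lit 193) (nat_lit 194) (nat_lit 183)) (PT.lf (nat_lit 59052) (nat_lit 3) (nat_lit 777) (nat_lit 0) (nat_lit 194) (nat_lit 194) (nat_lit 182))))) (PT.nd (nat_lit 312) (PT.nd (nat_lit 156) (PT.nd (nat_lit 78) (PT.lf (nat_lit 58368) (nat_lit 6)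 (nat_lit 768) (nat_lit 0) (nat_lit 195) (nat_lit 194) (nat_lit 181)) (PT.lf (nat_lit 57608) (nat_lit 6) (nat_lit 758) (nat_lit 0) (nat_lit 196) (nat_lit 194) (nat_lit 180))) (PT.nd (nat_lit 78) (PT.lf (nat_lit 56772) (nat_lit 6) (nat_lit 747) (nat_lit 0) (nat_lit 197) (nat_lit 194) (nat_lit 179)) (PT.lf (nat_lit 55860) (nat_lit 6) (nat_lit 735) (nat_lit 0) (nat_lit 198) (nat_lit 194) (nat_lit 178)))) (PT.nd (nat_lit 156) (PT.nd (nat_lit 78) (PT.lf (nat_lit 54872) (nat_lit 6) (nat_lit 722) (nat_lit 0) (nat_lit 199) (nat_lit 194) (nat_lit 177)) (PT.lf (nat_lit 53808) (nat_lit 6) (nat_lit 708) (nat_lit 0) (nat_lit 200) (nat_lit 194) (nat_lit 176))) (PT.nd (nat_lit 78) (PT.lf (nat_lit 52668) (nat_lit 6) (nat_lit 693) (nat_lit 0) (nat_lit 201) (nat_lit 194) (nat_lit 175)) (PT.lf (nat_lit 51452) (nat_lit 6) (nat_lit 677) (nat_lit 0) (nat_lit 202) (nat_lit 194) (nat_lit 174))))))) (PT.nd (nat_lit 55926) (PT.nd (nat_lit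 546) (PT.nd (nat_lit 234) (PT.nd (nat_lit 78) (PT.lf (nat_lit 50160) (nat_lit 6) (nat_lit 660) (nat_lit 0) (nat_lit 203) (nat_lit 194) (nat_lit 173)) (PT.nd (nat_lit 78) (PT.lf (nat_lit 48792) (nat_lit 6) (nat_lit 642) (nat_lit 0) (nat_lit 204) (nat_lit 194) (nat_lit 172)) (PT.lf (nat_lit 47348) (nat_lit 6) (nat_lit 623) (nat_lit 0) (nat_lit 205) (nat_lit 194) (nat_lit 171)))) (PT.nd (nat_lit 156) (PT.nd (nat_lit 78) (PT.lf (nat_lit 45828) (nat_lit 6) (nat_lit 603) (nat_lit 0) (nat_lit 206) (nat_lit 194) (nat_lit 170)) (PT.lf (nat_lit 44232) (nat_lit 6) (nat_lit 582) (nat_lit 0) (nat_lit 207) (nat_lit 194) (nat_lit 169))) (PT.nd (nat_lit 78) (PT.lf (nat_lit 42560) (nat_lit 6) (nat_lit 560) (nat_lit 0) (nat_lit 208) (nat_lit 194) (nat_lit 168)) (PT.lf (nat_lit 40812) (nat_lit 6) (nat_lit 537) (nat_lit 0) (nat_lit 209) (nat_lit 194) (nat_lit 167))))) (PT.nd (nat_lit 234) (PT.nd (nat_lit 78) (PT.lf (nat_lit 38988)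 (nat_lit 6) (nat_lit 513) (nat_lit 0) (nat_lit 210) (nat_lit 194) (nat_lit 166)) (PT.nd (nat_lit 78) (PT.lf (nat_lit 37088) (nat_lit 6) (nat_lit 488) (nat_lit 0) (nat_lit 211) (nat_lit 194) (nat_lit 165)) (PT.lf (nat_lit 35872) (nat_lit 6) (nat_lit 472) (nat_lit 0) (nat_lit 212) (nat_lit 194) (nat_lit 164)))) (PT.nd (nat_lit 156) (PT.nd (nat_lit 78) (PT.lf (nat_lit 34884) (nat_lit 6) (nat_lit 459) (nat_lit 0) (nat_lit 213) (nat_lit 194) (nat_lit 163)) (PT.lf (nat_lit 33896) (nat_lit 6) (nat_lit 446) (nat_lit 0) (nat_lit 214) (nat_lit 194) (nat_lit 162))) (PT.nd (nat_lit 78) (PT.lf (nat_lit 32984) (nat_lit 6) (nat_lit 434) (nat_lit 0) (nat_lit 215) (nat_lit 194) (nat_lit 161)) (PT.lf (nat_lit 31996) (nat_lit 6) (nat_lit 421) (nat_lit 0) (nat_lit 216) (nat_lit 194) (nat_lit 160)))))) (PT.nd (nat_lit 546) (PT.nd (nat_lit 234) (PT.nd (nat_lit 78) (PT.lf (nat_lit 31160) (nat_lit 6) (nat_lit 410) (nat_lit 5) (nat_lit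 159) (nat_lit 195) (nat_lit 216)) (PT.nd (nat_lit 78) (PT.lf (nat_lit 32072) (nat_lit 6) (nat_lit 422) (nat_lit 5) (nat_lit 160) (nat_lit 195) (nat_lit 215)) (PT.lf (nat_lit 33060) (nat_lit 6) (nat_lit 435) (nat_lit 5) (nat_lit 161) (nat_lit 195) (nat_lit 214)))) (PT.nd (nat_lit 156) (PT.nd (nat_lit 78) (PT.lf (nat_lit 33972) (nat_lit 6) (nat_lit 447) (nat_lit 5) (nat_lit 162) (nat_lit 195) (nat_lit 213)) (PT.lf (nat_lit 34960) (nat_lit 6) (nat_lit 460) (nat_lit 5) (nat_lit 163) (nat_lit 195) (nat_lit 212))) (PT.nd (nat_lit 78) (PT.lf (nat_lit 35948) (nat_lit 6) (nat_lit 473) (nat_lit 5) (nat_lit 164) (nat_lit 195) (nat_lit 211)) (PT.lf (nat_lit 37164) (nat_lit 6) (nat_lit 489) (nat_lit 5) (nat_lit 165) (nat_lit 195) (nat_lit 210))))) (PT.nd (nat_lit 312) (PT.nd (nat_lit 156) (PT.nd (nat_lit 78) (PT.lf (nat_lit 39064) (nat_lit 6) (nat_lit 514) (nat_lit 5) (nat_lit 166) (nat_lit 195) (nat_lit 209)) (PT.lf (nat_lit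 40888) (nat_lit 6) (nat_lit 538) (nat_lit 5) (nat_lit 167) (nat_lit 195) (nat_lit 208))) (PT.nd (nat_lit 78) (PT.lf (nat_lit 42636) (nat_lit 6) (nat_lit 561) (nat_lit 5) (nat_lit 168) (nat_lit 195) (nat_lit 207)) (PT.lf (nat_lit 44308) (nat_lit 6) (nat_lit 583) (nat_lit 5) (nat_lit 169) (nat_lit 195) (nat_lit 206)))) (PT.nd (nat_lit 156) (PT.nd (nat_lit 78) (PT.lf (nat_lit 45904) (nat_lit 6) (nat_lit 604) (nat_lit 5) (nat_lit 170) (nat_lit 195) (nat_lit 205)) (PT.lf (nat_lit 47424) (nat_lit 6) (nat_lit 624) (nat_lit 5) (nat_lit 171) (nat_lit 195) (nat_lit 204))) (PT.nd (nat_lit 78) (PT.lf (nat_lit 48868) (nat_lit 6) (nat_lit 643) (nat_lit 5) (nat_lit 172) (nat_lit 195) (nat_lit 203)) (PT.lf (nat_lit 50236) (nat_lit 6) (nat_lit 661) (nat_lit 5) (nat_lit 173) (nat_lit 195) (nat_lit 202))))))))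
noncomputable def pc31 : PT := (PT.nd (nat_lit 2262) (PT.nd (nat_lit 1092) (PT.nd (nat_lit 546) (PT.nd (nat_lit 234) (PT.nd (nat_lit 78) (PT.lf (nat_lit 51528) (nat_lit 6) (nat_lit 678) (nat_lit 5) (nat_lit 174) (nat_lit 195) (nat_lit 201)) (PT.nd (nat_lit 78) (PT.lf (nat_lit 52744) (nat_lit 6) (nat_lit 694) (nat_lit 5) (nat_lit 175) (nat_lit 195) (nat_lit 200)) (PT.lf (nat_lit 53884) (nat_lit 6) (nat_lit 709) (nat_lit 5) (nat_lit 176) (nat_lit 195) (nat_lit 199)))) (PT.nd (nat_lit 156) (PT.nd (nat_lit 78) (PT.lf (nat_lit 54948) (nat_lit 6) (nat_lit 723) (nat_lit 5) (nat_lit 177) (nat_lit 195) (nat_lit 198)) (PT.lf (nat_lit 55936) (nat_lit 6) (nat_lit 736) (nat_lit 5) (nat_lit 178) (nat_lit 195) (nat_lit 197))) (PT.nd (nat_lit 78) (PT.lf (nat_lit 56848) (nat_lit 6) (nat_lit 748) (nat_lit 5) (nat_lit 179) (nat_lit 195) (nat_lit 196)) (PT.lf (nat_lit 57684) (nat_lit 3) (nat_lit 759) (nat_lit 4) (nat_lit 180) (nat_lit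 195) (nat_lit 195))))) (PT.nd (nat_lit 234) (PT.nd (nat_lit 78) (PT.lf (nat_lit 58368) (nat_lit 6) (nat_lit 768) (nat_lit 4) (nat_lit 181) (nat_lit 195) (nat_lit 194)) (PT.nd (nat_lit 78) (PT.lf (nat_lit 58976) (nat_lit 6) (nat_lit 776) (nat_lit 4) (nat_lit 182) (nat_lit 195) (nat_lit 193)) (PT.lf (nat_lit 59508) (nat_lit 6) (nat_lit 783) (nat_lit 4) (nat_lit 183) (nat_lit 195) (nat_lit 192)))) (PT.nd (nat_lit 156) (PT.nd (nat_lit 78) (PT.lf (nat_lit 59964) (nat_lit 6) (nat_lit 789) (nat_lit 4) (nat_lit 184) (nat_lit 195) (nat_lit 191)) (PT.lf (nat_lit 60344) (nat_lit 6) (nat_lit 794) (nat_lit 4) (nat_lit 185) (nat_lit 195) (nat_lit 190))) (PT.nd (nat_lit 78) (PT.lf (nat_lit 60268) (nat_lit 6) (nat_lit 793) (nat_lit 4) (nat_lit 186) (nat_lit 195) (nat_lit 189)) (PT.lf (nat_lit 60192) (nat_lit 6) (nat_lit 792) (nat_lit 4) (nat_lit 187) (nat_lit 195) (nat_lit 188)))))) (PT.nd (nat_lit 546) (PT.nd (nat_lit 234) (PT.nd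 (nat_lit 78) (PT.lf (nat_lit 60192) (nat_lit 6) (nat_lit 792) (nat_lit 2) (nat_lit 188) (nat_lit 195) (nat_lit 187)) (PT.nd (nat_lit 78) (PT.lf (nat_lit 60268) (nat_lit 6) (nat_lit 793) (nat_lit 2) (nat_lit 189) (nat_lit 195) (nat_lit 186)) (PT.lf (nat_lit 60344) (nat_lit 6) (nat_lit 794) (nat_lit 2) (nat_lit 190) (nat_lit 195) (nat_lit 185)))) (PT.nd (nat_lit 156) (PT.nd (nat_lit 78) (PT.lf (nat_lit 59964) (nat_lit 6) (nat_lit 789) (nat_lit 2) (nat_lit 191) (nat_lit 195) (nat_lit 184)) (PT.lf (nat_lit 59508) (nat_lit 6) (nat_lit 783) (nat_lit 2) (nat_lit 192) (nat_lit 195) (nat_lit 183))) (PT.nd (nat_lit 78) (PT.lf (nat_lit 58976) (nat_lit 6) (nat_lit 776) (nat_lit 2) (nat_lit 193) (nat_lit 195) (nat_lit 182)) (PT.lf (nat_lit 58368) (nat_lit 6) (nat_lit 768) (nat_lit 2) (nat_lit 194) (nat_lit 195) (nat_lit 181))))) (PT.nd (nat_lit 312) (PT.nd (nat_lit 156) (PT.nd (nat_lit 78) (PT.lf (nat_lit 57684) (nat_lit 3)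 (nat_lit 759) (nat_lit 0) (nat_lit 195) (nat_lit 195) (nat_lit 180)) (PT.lf (nat_lit 56848) (nat_lit 6) (nat_lit 748) (nat_lit 0) (nat_lit 196) (nat_lit 195) (nat_lit 179))) (PT.nd (nat_lit 78) (PT.lf (nat_lit 55936) (nat_lit 6) (nat_lit 736) (nat_lit 0) (nat_lit 197) (nat_lit 195) (nat_lit 178)) (PT.lf (nat_lit 54948) (nat_lit 6) (nat_lit 723) (nat_lit 0) (nat_lit 198) (nat_lit 195) (nat_lit 177)))) (PT.nd (nat_lit 156) (PT.nd (nat_lit 78) (PT.lf (nat_lit 53884) (nat_lit 6) (nat_lit 709) (nat_lit 0) (nat_lit 199) (nat_lit 195) (nat_lit 176)) (PT.lf (nat_lit 52744) (nat_lit 6) (nat_lit 694) (nat_lit 0) (nat_lit 200) (nat_lit 195) (nat_lit 175))) (PT.nd (nat_lit 78) (PT.lf (nat_lit 51528) (nat_lit 6) (nat_lit 678) (nat_lit 0) (nat_lit 201) (nat_lit 195) (nat_lit 174)) (PT.lf (nat_lit 50236) (nat_lit 6) (nat_lit 661) (nat_lit 0) (nat_lit 202) (nat_lit 195) (nat_lit 173))))))) (PT.nd (nat_lit 55926) (PT.nd (nat_lit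 546) (PT.nd (nat_lit 234) (PT.nd (nat_lit 78) (PT.lf (nat_lit 48868) (nat_lit 6) (nat_lit 643) (nat_lit 0) (nat_lit 203) (nat_lit 195) (nat_lit 172)) (PT.nd (nat_lit 78) (PT.lf (nat_lit 47424) (nat_lit 6) (nat_lit 624) (nat_lit 0) (nat_lit 204) (nat_lit 195) (nat_lit 171)) (PT.lf (nat_lit 45904) (nat_lit 6) (nat_lit 604) (nat_lit 0) (nat_lit 205) (nat_lit 195) (nat_lit 170)))) (PT.nd (nat_lit 156) (PT.nd (nat_lit 78) (PT.lf (nat_lit 44308) (nat_lit 6) (nat_lit 583) (nat_lit 0) (nat_lit 206) (nat_lit 195) (nat_lit 169)) (PT.lf (nat_lit 42636) (nat_lit 6) (nat_lit 561) (nat_lit 0) (nat_lit 207) (nat_lit 195) (nat_lit 168))) (PT.nd (nat_lit 78) (PT.lf (nat_lit 40888) (nat_lit 6) (nat_lit 538) (nat_lit 0) (nat_lit 208) (nat_lit 195) (nat_lit 167)) (PT.lf (nat_lit 39064) (nat_lit 6) (nat_lit 514) (nat_lit 0) (nat_lit 209) (nat_lit 195) (nat_lit 166))))) (PT.nd (nat_lit 312) (PT.nd (nat_lit 156) (PT.nd (nat_lit 78) (PT.lf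 (nat_lit 37164) (nat_lit 6) (nat_lit 489) (nat_lit 0) (nat_lit 210) (nat_lit 195) (nat_lit 165)) (PT.lf (nat_lit 35948) (nat_lit 6) (nat_lit 473) (nat_lit 0) (nat_lit 211) (nat_lit 195) (nat_lit 164))) (PT.nd (nat_lit 78) (PT.lf (nat_lit 34960) (nat_lit 6) (nat_lit 460) (nat_lit 0) (nat_lit 212) (nat_lit 195) (nat_lit 163)) (PT.lf (nat_lit 33972) (nat_lit 6) (nat_lit 447) (nat_lit 0) (nat_lit 213) (nat_lit 195) (nat_lit 162)))) (PT.nd (nat_lit 156) (PT.nd (nat_lit 78) (PT.lf (nat_lit 33060) (nat_lit 6) (nat_lit 435) (nat_lit 0) (nat_lit 214) (nat_lit 195) (nat_lit 161)) (PT.lf (nat_lit 32072) (nat_lit 6) (nat_lit 422) (nat_lit 0) (nat_lit 215) (nat_lit 195) (nat_lit 160))) (PT.nd (nat_lit 54834) (PT.lf (nat_lit 31160) (nat_lit 6) (nat_lit 410) (nat_lit 0) (nat_lit 216) (nat_lit 195) (nat_lit 159)) (PT.lf (nat_lit 30324) (nat_lit 6) (nat_lit 399) (nat_lit 5) (nat_lit 158) (nat_lit 196) (nat_lit 216)))))) (PT.nd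 (nat_lit 546) (PT.nd (nat_lit 234) (PT.nd (nat_lit 78) (PT.lf (nat_lit 31236) (nat_lit 6) (nat_lit 411) (nat_lit 5) (nat_lit 159) (nat_lit 196) (nat_lit 215)) (PT.nd (nat_lit 78) (PT.lf (nat_lit 32148) (nat_lit 6) (nat_lit 423) (nat_lit 5) (nat_lit 160) (nat_lit 196) (nat_lit 214)) (PT.lf (nat_lit 33136) (nat_lit 6) (nat_lit 436) (nat_lit 5) (nat_lit 161) (nat_lit 196) (nat_lit 213)))) (PT.nd (nat_lit 156) (PT.nd (nat_lit 78) (PT.lf (nat_lit 34048) (nat_lit 6) (nat_lit 448) (nat_lit 5) (nat_lit 162) (nat_lit 196) (nat_lit 212)) (PT.lf (nat_lit 35036) (nat_lit 6) (nat_lit 461) (nat_lit 5) (nat_lit 163) (nat_lit 196) (nat_lit 211))) (PT.nd (nat_lit 78) (PT.lf (nat_lit 36024) (nat_lit 6) (nat_lit 474) (nat_lit 5) (nat_lit 164) (nat_lit 196) (nat_lit 210)) (PT.lf (nat_lit 37240) (nat_lit 6) (nat_lit 490) (nat_lit 5) (nat_lit 165) (nat_lit 196) (nat_lit 209))))) (PT.nd (nat_lit 312) (PT.nd (nat_lit 156) (PT.nd (nat_lit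 78) (PT.lf (nat_lit 39140) (nat_lit 6) (nat_lit 515) (nat_lit 5) (nat_lit 166) (nat_lit 196) (nat_lit 208)) (PT.lf (nat_lit 40964) (nat_lit 6) (nat_lit 539) (nat_lit 5) (nat_lit 167) (nat_lit 196) (nat_lit 207))) (PT.nd (nat_lit 78) (PT.lf (nat_lit 42712) (nat_lit 6) (nat_lit 562) (nat_lit 5) (nat_lit 168) (nat_lit 196) (nat_lit 206)) (PT.lf (nat_lit 44384) (nat_lit 6) (nat_lit 584) (nat_lit 5) (nat_lit 169) (nat_lit 196) (nat_lit 205)))) (PT.nd (nat_lit 156) (PT.nd (nat_lit 78) (PT.lf (nat_lit 45980) (nat_lit 6) (nat_lit 605) (nat_lit 5) (nat_lit 170) (nat_lit 196) (nat_lit 204)) (PT.lf (nat_lit 47500) (nat_lit 6) (nat_lit 625) (nat_lit 5) (nat_lit 171) (nat_lit 196) (nat_lit 203))) (PT.nd (nat_lit 78) (PT.lf (nat_lit 48944) (nat_lit 6) (nat_lit 644) (nat_lit 5) (nat_lit 172) (nat_lit 196) (nat_lit 202)) (PT.lf (nat_lit 50312) (nat_lit 6) (nat_lit 662) (nat_lit 5) (nat_lit 173) (nat_lit 196) (nat_lit 201))))))))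
noncomputable def pc32 : PT := (PT.nd (nat_lit 2262) (PT.nd (nat_lit 1092) (PT.nd (nat_lit 546) (PT.nd (nat_lit 234) (PT.nd (nat_lit 78) (PT.lf (nat_lit 51604) (nat_lit 6) (nat_lit 679) (nat_lit 5) (nat_lit 174) (nat_lit 196) (nat_lit 200)) (PT.nd (nat_lit 78) (PT.lf (nat_lit 52820) (nat_lit 6) (nat_lit 695) (nat_lit 5) (nat_lit 175) (nat_lit 196) (nat_lit 199)) (PT.lf (nat_lit 53960) (nat_lit 6) (nat_lit 710) (nat_lit 5) (nat_lit 176) (nat_lit 196) (nat_lit 198)))) (PT.nd (nat_lit 156) (PT.nd (nat_lit 78) (PT.lf (nat_lit 55024) (nat_lit 6) (nat_lit 724) (nat_lit 5) (nat_lit 177) (nat_lit 196) (nat_lit 197)) (PT.lf (nat_lit 56012) (nat_lit 3) (nat_lit 737) (nat_lit 4) (nat_lit 178) (nat_lit 196) (nat_lit 196))) (PT.nd (nat_lit 78) (PT.lf (nat_lit 56848) (nat_lit 6) (nat_lit 748) (nat_lit 4) (nat_lit 179) (nat_lit 196) (nat_lit 195)) (PT.lf (nat_lit 57608) (nat_lit 6) (nat_lit 758) (nat_lit 4) (nat_lit 180) (nat_lit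 196) (nat_lit 194))))) (PT.nd (nat_lit 234) (PT.nd (nat_lit 78) (PT.lf (nat_lit 58292) (nat_lit 6) (nat_lit 767) (nat_lit 4) (nat_lit 181) (nat_lit 196) (nat_lit 193)) (PT.nd (nat_lit 78) (PT.lf (nat_lit 58900) (nat_lit 6) (nat_lit 775) (nat_lit 4) (nat_lit 182) (nat_lit 196) (nat_lit 192)) (PT.lf (nat_lit 59432) (nat_lit 6) (nat_lit 782) (nat_lit 4) (nat_lit 183) (nat_lit 196) (nat_lit 191)))) (PT.nd (nat_lit 156) (PT.nd (nat_lit 78) (PT.lf (nat_lit 59888) (nat_lit 6) (nat_lit 788) (nat_lit 4) (nat_lit 184) (nat_lit 196) (nat_lit 190)) (PT.lf (nat_lit 59812) (nat_lit 6) (nat_lit 787) (nat_lit 4) (nat_lit 185) (nat_lit 196) (nat_lit 189))) (PT.nd (nat_lit 78) (PT.lf (nat_lit 59736) (nat_lit 6) (nat_lit 786) (nat_lit 4) (nat_lit 186) (nat_lit 196) (nat_lit 188)) (PT.lf (nat_lit 59660) (nat_lit 3) (nat_lit 785) (nat_lit 2) (nat_lit 187) (nat_lit 196) (nat_lit 187)))))) (PT.nd (nat_lit 546) (PT.nd (nat_lit 234) (PT.nd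 (nat_lit 78) (PT.lf (nat_lit 59736) (nat_lit 6) (nat_lit 786) (nat_lit 2) (nat_lit 188) (nat_lit 196) (nat_lit 186)) (PT.nd (nat_lit 78) (PT.lf (nat_lit 59812) (nat_lit 6) (nat_lit 787) (nat_lit 2) (nat_lit 189) (nat_lit 196) (nat_lit 185)) (PT.lf (nat_lit 59888) (nat_lit 6) (nat_lit 788) (nat_lit 2) (nat_lit 190) (nat_lit 196) (nat_lit 184)))) (PT.nd (nat_lit 156) (PT.nd (nat_lit 78) (PT.lf (nat_lit 59432) (nat_lit 6) (nat_lit 782) (nat_lit 2) (nat_lit 191) (nat_lit 196) (nat_lit 183)) (PT.lf (nat_lit 58900) (nat_lit 6) (nat_lit 775) (nat_lit 2) (nat_lit 192) (nat_lit 196) (nat_lit 182))) (PT.nd (nat_lit 78) (PT.lf (nat_lit 58292) (nat_lit 6) (nat_lit 767) (nat_lit 2) (nat_lit 193) (nat_lit 196) (nat_lit 181)) (PT.lf (nat_lit 57608) (nat_lit 6) (nat_lit 758) (nat_lit 2) (nat_lit 194) (nat_lit 196) (nat_lit 180))))) (PT.nd (nat_lit 312) (PT.nd (nat_lit 156) (PT.nd (nat_lit 78) (PT.lf (nat_lit 56848) (nat_lit 6)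 (nat_lit 748) (nat_lit 2) (nat_lit 195) (nat_lit 196) (nat_lit 179)) (PT.lf (nat_lit 56012) (nat_lit 3) (nat_lit 737) (nat_lit 0) (nat_lit 196) (nat_lit 196) (nat_lit 178))) (PT.nd (nat_lit 78) (PT.lf (nat_lit 55024) (nat_lit 6) (nat_lit 724) (nat_lit 0) (nat_lit 197) (nat_lit 196) (nat_lit 177)) (PT.lf (nat_lit 53960) (nat_lit 6) (nat_lit 710) (nat_lit 0) (nat_lit 198) (nat_lit 196) (nat_lit 176)))) (PT.nd (nat_lit 156) (PT.nd (nat_lit 78) (PT.lf (nat_lit 52820) (nat_lit 6) (nat_lit 695) (nat_lit 0) (nat_lit 199) (nat_lit 196) (nat_lit 175)) (PT.lf (nat_lit 51604) (nat_lit 6) (nat_lit 679) (nat_lit 0) (nat_lit 200) (nat_lit 196) (nat_lit 174))) (PT.nd (nat_lit 78) (PT.lf (nat_lit 50312) (nat_lit 6) (nat_lit 662) (nat_lit 0) (nat_lit 201) (nat_lit 196) (nat_lit 173)) (PT.lf (nat_lit 48944) (nat_lit 6) (nat_lit 644) (nat_lit 0) (nat_lit 202) (nat_lit 196) (nat_lit 172))))))) (PT.nd (nat_lit 55692) (PT.nd (nat_lit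 546) (PT.nd (nat_lit 234) (PT.nd (nat_lit 78) (PT.lf (nat_lit 47500) (nat_lit 6) (nat_lit 625) (nat_lit 0) (nat_lit 203) (nat_lit 196) (nat_lit 171)) (PT.nd (nat_lit 78) (PT.lf (nat_lit 45980) (nat_lit 6) (nat_lit 605) (nat_lit 0) (nat_lit 204) (nat_lit 196) (nat_lit 170)) (PT.lf (nat_lit 44384) (nat_lit 6) (nat_lit 584) (nat_lit 0) (nat_lit 205) (nat_lit 196) (nat_lit 169)))) (PT.nd (nat_lit 156) (PT.nd (nat_lit 78) (PT.lf (nat_lit 42712) (nat_lit 6) (nat_lit 562) (nat_lit 0) (nat_lit 206) (nat_lit 196) (nat_lit 168)) (PT.lf (nat_lit 40964) (nat_lit 6) (nat_lit 539) (nat_lit 0) (nat_lit 207) (nat_lit 196) (nat_lit 167))) (PT.nd (nat_lit 78) (PT.lf (nat_lit 39140) (nat_lit 6) (nat_lit 515) (nat_lit 0) (nat_lit 208) (nat_lit 196) (nat_lit 166)) (PT.lf (nat_lit 37240) (nat_lit 6) (nat_lit 490) (nat_lit 0) (nat_lit 209) (nat_lit 196) (nat_lit 165))))) (PT.nd (nat_lit 234) (PT.nd (nat_lit 78) (PT.lf (nat_lit 36024)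 (nat_lit 6) (nat_lit 474) (nat_lit 0) (nat_lit 210) (nat_lit 196) (nat_lit 164)) (PT.nd (nat_lit 78) (PT.lf (nat_lit 35036) (nat_lit 6) (nat_lit 461) (nat_lit 0) (nat_lit 211) (nat_lit 196) (nat_lit 163)) (PT.lf (nat_lit 34048) (nat_lit 6) (nat_lit 448) (nat_lit 0) (nat_lit 212) (nat_lit 196) (nat_lit 162)))) (PT.nd (nat_lit 156) (PT.nd (nat_lit 78) (PT.lf (nat_lit 33136) (nat_lit 6) (nat_lit 436) (nat_lit 0) (nat_lit 213) (nat_lit 196) (nat_lit 161)) (PT.lf (nat_lit 32148) (nat_lit 6) (nat_lit 423) (nat_lit 0) (nat_lit 214) (nat_lit 196) (nat_lit 160))) (PT.nd (nat_lit 78) (PT.lf (nat_lit 31236) (nat_lit 6) (nat_lit 411) (nat_lit 0) (nat_lit 215) (nat_lit 196) (nat_lit 159)) (PT.lf (nat_lit 30324) (nat_lit 6) (nat_lit 399) (nat_lit 0) (nat_lit 216) (nat_lit 196) (nat_lit 158)))))) (PT.nd (nat_lit 546) (PT.nd (nat_lit 234) (PT.nd (nat_lit 78) (PT.lf (nat_lit 28728) (nat_lit 6) (nat_lit 378) (nat_lit 5) (nat_lit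 156) (nat_lit 197) (nat_lit 217)) (PT.nd (nat_lit 78) (PT.lf (nat_lit 29564) (nat_lit 6) (nat_lit 389) (nat_lit 5) (nat_lit 157) (nat_lit 197) (nat_lit 216)) (PT.lf (nat_lit 30400) (nat_lit 6) (nat_lit 400) (nat_lit 5) (nat_lit 158) (nat_lit 197) (nat_lit 215)))) (PT.nd (nat_lit 156) (PT.nd (nat_lit 78) (PT.lf (nat_lit 31312) (nat_lit 6) (nat_lit 412) (nat_lit 5) (nat_lit 159) (nat_lit 197) (nat_lit 214)) (PT.lf (nat_lit 32224) (nat_lit 6) (nat_lit 424) (nat_lit 5) (nat_lit 160) (nat_lit 197) (nat_lit 213))) (PT.nd (nat_lit 78) (PT.lf (nat_lit 33212) (nat_lit 6) (nat_lit 437) (nat_lit 5) (nat_lit 161) (nat_lit 197) (nat_lit 212)) (PT.lf (nat_lit 34124) (nat_lit 6) (nat_lit 449) (nat_lit 5) (nat_lit 162) (nat_lit 197) (nat_lit 211))))) (PT.nd (nat_lit 312) (PT.nd (nat_lit 156) (PT.nd (nat_lit 78) (PT.lf (nat_lit 35112) (nat_lit 6) (nat_lit 462) (nat_lit 5) (nat_lit 163) (nat_lit 197) (nat_lit 210)) (PT.lf (nat_lit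 36100) (nat_lit 6) (nat_lit 475) (nat_lit 5) (nat_lit 164) (nat_lit 197) (nat_lit 209))) (PT.nd (nat_lit 78) (PT.lf (nat_lit 37316) (nat_lit 6) (nat_lit 491) (nat_lit 5) (nat_lit 165) (nat_lit 197) (nat_lit 208)) (PT.lf (nat_lit 39216) (nat_lit 6) (nat_lit 516) (nat_lit 5) (nat_lit 166) (nat_lit 197) (nat_lit 207)))) (PT.nd (nat_lit 156) (PT.nd (nat_lit 78) (PT.lf (nat_lit 41040) (nat_lit 6) (nat_lit 540) (nat_lit 5) (nat_lit 167) (nat_lit 197) (nat_lit 206)) (PT.lf (nat_lit 42788) (nat_lit 6) (nat_lit 563) (nat_lit 5) (nat_lit 168) (nat_lit 197) (nat_lit 205))) (PT.nd (nat_lit 78) (PT.lf (nat_lit 44460) (nat_lit 6) (nat_lit 585) (nat_lit 5) (nat_lit 169) (nat_lit 197) (nat_lit 204)) (PT.lf (nat_lit 46056) (nat_lit 6) (nat_lit 606) (nat_lit 5) (nat_lit 170) (nat_lit 197) (nat_lit 203))))))))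
noncomputable def pc33 : PT := (PT.nd (nat_lit 2262) (PT.nd (nat_lit 1092) (PT.nd (nat_lit 546) (PT.nd (nat_lit 234) (PT.nd (nat_lit 78) (PT.lf (nat_lit 47576) (nat_lit 6) (nat_lit 626) (nat_lit 5) (nat_lit 171) (nat_lit 197) (nat_lit 202)) (PT.nd (nat_lit 78) (PT.lf (nat_lit 49020) (nat_lit 6) (nat_lit 645) (nat_lit 5) (nat_lit 172) (nat_lit 197) (nat_lit 201)) (PT.lf (nat_lit 50388) (nat_lit 6) (nat_lit 663) (nat_lit 5) (nat_lit 173) (nat_lit 197) (nat_lit 200)))) (PT.nd (nat_lit 156) (PT.nd (nat_lit 78) (PT.lf (nat_lit 51680) (nat_lit 6) (nat_lit 680) (nat_lit 5) (nat_lit 174) (nat_lit 197) (nat_lit 199)) (PT.lf (nat_lit 52896) (nat_lit 6) (nat_lit 696) (nat_lit 5) (nat_lit 175) (nat_lit 197) (nat_lit 198))) (PT.nd (nat_lit 78) (PT.lf (nat_lit 54036) (nat_lit 3) (nat_lit 711) (nat_lit 4) (nat_lit 176) (nat_lit 197) (nat_lit 197)) (PT.lf (nat_lit 55024) (nat_lit 6) (nat_lit 724) (nat_lit 4) (nat_lit 177) (nat_lit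 197) (nat_lit 196))))) (PT.nd (nat_lit 234) (PT.nd (nat_lit 78) (PT.lf (nat_lit 55936) (nat_lit 6) (nat_lit 736) (nat_lit 4) (nat_lit 178) (nat_lit 197) (nat_lit 195)) (PT.nd (nat_lit 78) (PT.lf (nat_lit 56772) (nat_lit 6) (nat_lit 747) (nat_lit 4) (nat_lit 179) (nat_lit 197) (nat_lit 194)) (PT.lf (nat_lit 57532) (nat_lit 6) (nat_lit 757) (nat_lit 4) (nat_lit 180) (nat_lit 197) (nat_lit 193)))) (PT.nd (nat_lit 156) (PT.nd (nat_lit 78) (PT.lf (nat_lit 58216) (nat_lit 6) (nat_lit 766) (nat_lit 4) (nat_lit 181) (nat_lit 197) (nat_lit 192)) (PT.lf (nat_lit 58824) (nat_lit 6) (nat_lit 774) (nat_lit 4) (nat_lit 182) (nat_lit 197) (nat_lit 191))) (PT.nd (nat_lit 78) (PT.lf (nat_lit 59356) (nat_lit 6) (nat_lit 781) (nat_lit 4) (nat_lit 183) (nat_lit 197) (nat_lit 190)) (PT.lf (nat_lit 59280) (nat_lit 6) (nat_lit 780) (nat_lit 4) (nat_lit 184) (nat_lit 197) (nat_lit 189)))))) (PT.nd (nat_lit 546) (PT.nd (nat_lit 234) (PT.nd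 (nat_lit 78) (PT.lf (nat_lit 59204) (nat_lit 6) (nat_lit 779) (nat_lit 4) (nat_lit 185) (nat_lit 197) (nat_lit 188)) (PT.nd (nat_lit 78) (PT.lf (nat_lit 59128) (nat_lit 6) (nat_lit 778) (nat_lit 4) (nat_lit 186) (nat_lit 197) (nat_lit 187)) (PT.lf (nat_lit 59128) (nat_lit 6) (nat_lit 778) (nat_lit 2) (nat_lit 187) (nat_lit 197) (nat_lit 186)))) (PT.nd (nat_lit 156) (PT.nd (nat_lit 78) (PT.lf (nat_lit 59204) (nat_lit 6) (nat_lit 779) (nat_lit 2) (nat_lit 188) (nat_lit 197) (nat_lit 185)) (PT.lf (nat_lit 59280) (nat_lit 6) (nat_lit 780) (nat_lit 2) (nat_lit 189) (nat_lit 197) (nat_lit 184))) (PT.nd (nat_lit 78) (PT.lf (nat_lit 59356) (nat_lit 6) (nat_lit 781) (nat_lit 2) (nat_lit 190) (nat_lit 197) (nat_lit 183)) (PT.lf (nat_lit 58824) (nat_lit 6) (nat_lit 774) (nat_lit 2) (nat_lit 191) (nat_lit 197) (nat_lit 182))))) (PT.nd (nat_lit 312) (PT.nd (nat_lit 156) (PT.nd (nat_lit 78) (PT.lf (nat_lit 58216) (nat_lit 6)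 (nat_lit 766) (nat_lit 2) (nat_lit 192) (nat_lit 197) (nat_lit 181)) (PT.lf (nat_lit 57532) (nat_lit 6) (nat_lit 757) (nat_lit 2) (nat_lit 193) (nat_lit 197) (nat_lit 180))) (PT.nd (nat_lit 78) (PT.lf (nat_lit 56772) (nat_lit 6) (nat_lit 747) (nat_lit 2) (nat_lit 194) (nat_lit 197) (nat_lit 179)) (PT.lf (nat_lit 55936) (nat_lit 6) (nat_lit 736) (nat_lit 2) (nat_lit 195) (nat_lit 197) (nat_lit 178)))) (PT.nd (nat_lit 156) (PT.nd (nat_lit 78) (PT.lf (nat_lit 55024) (nat_lit 6) (nat_lit 724) (nat_lit 2) (nat_lit 196) (nat_lit 197) (nat_lit 177)) (PT.lf (nat_lit 54036) (nat_lit 3) (nat_lit 711) (nat_lit 0) (nat_lit 197) (nat_lit 197) (nat_lit 176))) (PT.nd (nat_lit 78) (PT.lf (nat_lit 52896) (nat_lit 6) (nat_lit 696) (nat_lit 0) (nat_lit 198) (nat_lit 197) (nat_lit 175)) (PT.lf (nat_lit 51680) (nat_lit 6) (nat_lit 680) (nat_lit 0) (nat_lit 199) (nat_lit 197) (nat_lit 174))))))) (PT.nd (nat_lit 1092) (PT.nd (nat_lit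 546) (PT.nd (nat_lit 234) (PT.nd (nat_lit 78) (PT.lf (nat_lit 50388) (nat_lit 6) (nat_lit 663) (nat_lit 0) (nat_lit 200) (nat_lit 197) (nat_lit 173)) (PT.nd (nat_lit 78) (PT.lf (nat_lit 49020) (nat_lit 6) (nat_lit 645) (nat_lit 0) (nat_lit 201) (nat_lit 197) (nat_lit 172)) (PT.lf (nat_lit 47576) (nat_lit 6) (nat_lit 626) (nat_lit 0) (nat_lit 202) (nat_lit 197) (nat_lit 171)))) (PT.nd (nat_lit 156) (PT.nd (nat_lit 78) (PT.lf (nat_lit 46056) (nat_lit 6) (nat_lit 606) (nat_lit 0) (nat_lit 203) (nat_lit 197) (nat_lit 170)) (PT.lf (nat_lit 44460) (nat_lit 6) (nat_lit 585) (nat_lit 0) (nat_lit 204) (nat_lit 197) (nat_lit 169))) (PT.nd (nat_lit 78) (PT.lf (nat_lit 42788) (nat_lit 6) (nat_lit 563) (nat_lit 0) (nat_lit 205) (nat_lit 197) (nat_lit 168)) (PT.lf (nat_lit 41040) (nat_lit 6) (nat_lit 540) (nat_lit 0) (nat_lit 206) (nat_lit 197) (nat_lit 167))))) (PT.nd (nat_lit 234) (PT.nd (nat_lit 78) (PT.lf (nat_lit 39216)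 (nat_lit 6) (nat_lit 516) (nat_lit 0) (nat_lit 207) (nat_lit 197) (nat_lit 166)) (PT.nd (nat_lit 78) (PT.lf (nat_lit 37316) (nat_lit 6) (nat_lit 491) (nat_lit 0) (nat_lit 208) (nat_lit 197) (nat_lit 165)) (PT.lf (nat_lit 36100) (nat_lit 6) (nat_lit 475) (nat_lit 0) (nat_lit 209) (nat_lit 197) (nat_lit 164)))) (PT.nd (nat_lit 156) (PT.nd (nat_lit 78) (PT.lf (nat_lit 35112) (nat_lit 6) (nat_lit 462) (nat_lit 0) (nat_lit 210) (nat_lit 197) (nat_lit 163)) (PT.lf (nat_lit 34124) (nat_lit 6) (nat_lit 449) (nat_lit 0) (nat_lit 211) (nat_lit 197) (nat_lit 162))) (PT.nd (nat_lit 78) (PT.lf (nat_lit 33212) (nat_lit 6) (nat_lit 437) (nat_lit 0) (nat_lit 212) (nat_lit 197) (nat_lit 161)) (PT.lf (nat_lit 32224) (nat_lit 6) (nat_lit 424) (nat_lit 0) (nat_lit 213) (nat_lit 197) (nat_lit 160)))))) (PT.nd (nat_lit 54990) (PT.nd (nat_lit 234) (PT.nd (nat_lit 78) (PT.lf (nat_lit 31312) (nat_lit 6) (nat_lit 412) (nat_lit 0) (nat_lit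 214) (nat_lit 197) (nat_lit 159)) (PT.nd (nat_lit 78) (PT.lf (nat_lit 30400) (nat_lit 6) (nat_lit 400) (nat_lit 0) (nat_lit 215) (nat_lit 197) (nat_lit 158)) (PT.lf (nat_lit 29564) (nat_lit 6) (nat_lit 389) (nat_lit 0) (nat_lit 216) (nat_lit 197) (nat_lit 157)))) (PT.nd (nat_lit 54600) (PT.nd (nat_lit 54522) (PT.lf (nat_lit 28728) (nat_lit 6) (nat_lit 378) (nat_lit 0) (nat_lit 217) (nat_lit 197) (nat_lit 156)) (PT.lf (nat_lit 27968) (nat_lit 6) (nat_lit 368) (nat_lit 5) (nat_lit 155) (nat_lit 198) (nat_lit 217))) (PT.nd (nat_lit 78) (PT.lf (nat_lit 28804) (nat_lit 6) (nat_lit 379) (nat_lit 5) (nat_lit 156) (nat_lit 198) (nat_lit 216)) (PT.lf (nat_lit 29640) (nat_lit 6) (nat_lit 390) (nat_lit 5) (nat_lit 157) (nat_lit 198) (nat_lit 215))))) (PT.nd (nat_lit 312) (PT.nd (nat_lit 156) (PT.nd (nat_lit 78) (PT.lf (nat_lit 30476) (nat_lit 6) (nat_lit 401) (nat_lit 5) (nat_lit 158) (nat_lit 198) (nat_lit 214)) (PT.lf (nat_lit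 31388) (nat_lit 6) (nat_lit 413) (nat_lit 5) (nat_lit 159) (nat_lit 198) (nat_lit 213))) (PT.nd (nat_lit 78) (PT.lf (nat_lit 32300) (nat_lit 6) (nat_lit 425) (nat_lit 5) (nat_lit 160) (nat_lit 198) (nat_lit 212)) (PT.lf (nat_lit 33288) (nat_lit 6) (nat_lit 438) (nat_lit 5) (nat_lit 161) (nat_lit 198) (nat_lit 211)))) (PT.nd (nat_lit 156) (PT.nd (nat_lit 78) (PT.lf (nat_lit 34200) (nat_lit 6) (nat_lit 450) (nat_lit 5) (nat_lit 162) (nat_lit 198) (nat_lit 210)) (PT.lf (nat_lit 35188) (nat_lit 6) (nat_lit 463) (nat_lit 5) (nat_lit 163) (nat_lit 198) (nat_lit 209))) (PT.nd (nat_lit 78) (PT.lf (nat_lit 36176) (nat_lit 6) (nat_lit 476) (nat_lit 5) (nat_lit 164) (nat_lit 198) (nat_lit 208)) (PT.lf (nat_lit 37392) (nat_lit 6) (nat_lit 492) (nat_lit 5) (nat_lit 165) (nat_lit 198) (nat_lit 207))))))))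
noncomputable def pc34 : PT := (PT.nd (nat_lit 2262) (PT.nd (nat_lit 1092) (PT.nd (nat_lit 546) (PT.nd (nat_lit 234) (PT.nd (nat_lit 78) (PT.lf (nat_lit 39292) (nat_lit 6) (nat_lit 517) (nat_lit 5) (nat_lit 166) (nat_lit 198) (nat_lit 206)) (PT.nd (nat_lit 78) (PT.lf (nat_lit 41116) (nat_lit 6) (nat_lit 541) (nat_lit 5) (nat_lit 167) (nat_lit 198) (nat_lit 205)) (PT.lf (nat_lit 42864) (nat_lit 6) (nat_lit 564) (nat_lit 5) (nat_lit 168) (nat_lit 198) (nat_lit 204)))) (PT.nd (nat_lit 156) (PT.nd (nat_lit 78) (PT.lf (nat_lit 44536) (nat_lit 6) (nat_lit 586) (nat_lit 5) (nat_lit 169) (nat_lit 198) (nat_lit 203)) (PT.lf (nat_lit 46132) (nat_lit 6) (nat_lit 607) (nat_lit 5) (nat_lit 170) (nat_lit 198) (nat_lit 202))) (PT.nd (nat_lit 78) (PT.lf (nat_lit 47652) (nat_lit 6) (nat_lit 627) (nat_lit 5) (nat_lit 171) (nat_lit 198) (nat_lit 201)) (PT.lf (nat_lit 49096) (nat_lit 6) (nat_lit 646) (nat_lit 5) (nat_lit 172) (nat_lit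 198) (nat_lit 200))))) (PT.nd (nat_lit 234) (PT.nd (nat_lit 78) (PT.lf (nat_lit 50464) (nat_lit 6) (nat_lit 664) (nat_lit 5) (nat_lit 173) (nat_lit 198) (nat_lit 199)) (PT.nd (nat_lit 78) (PT.lf (nat_lit 51756) (nat_lit 3) (nat_lit 681) (nat_lit 4) (nat_lit 174) (nat_lit 198) (nat_lit 198)) (PT.lf (nat_lit 52896) (nat_lit 6) (nat_lit 696) (nat_lit 4) (nat_lit 175) (nat_lit 198) (nat_lit 197)))) (PT.nd (nat_lit 156) (PT.nd (nat_lit 78) (PT.lf (nat_lit 53960) (nat_lit 6) (nat_lit 710) (nat_lit 4) (nat_lit 176) (nat_lit 198) (nat_lit 196)) (PT.lf (nat_lit 54948) (nat_lit 6) (nat_lit 723) (nat_lit 4) (nat_lit 177) (nat_lit 198) (nat_lit 195))) (PT.nd (nat_lit 78) (PT.lf (nat_lit 55860) (nat_lit 6) (nat_lit 735) (nat_lit 4) (nat_lit 178) (nat_lit 198) (nat_lit 194)) (PT.lf (nat_lit 56696) (nat_lit 6) (nat_lit 746) (nat_lit 4) (nat_lit 179) (nat_lit 198) (nat_lit 193)))))) (PT.nd (nat_lit 546) (PT.nd (nat_lit 234) (PT.nd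 (nat_lit 78) (PT.lf (nat_lit 57456) (nat_lit 6) (nat_lit 756) (nat_lit 4) (nat_lit 180) (nat_lit 198) (nat_lit 192)) (PT.nd (nat_lit 78) (PT.lf (nat_lit 58140) (nat_lit 6) (nat_lit 765) (nat_lit 4) (nat_lit 181) (nat_lit 198) (nat_lit 191)) (PT.lf (nat_lit 58748) (nat_lit 6) (nat_lit 773) (nat_lit 4) (nat_lit 182) (nat_lit 198) (nat_lit 190)))) (PT.nd (nat_lit 156) (PT.nd (nat_lit 78) (PT.lf (nat_lit 58672) (nat_lit 6) (nat_lit 772) (nat_lit 4) (nat_lit 183) (nat_lit 198) (nat_lit 189)) (PT.lf (nat_lit 58596) (nat_lit 6) (nat_lit 771) (nat_lit 4) (nat_lit 184) (nat_lit 198) (nat_lit 188))) (PT.nd (nat_lit 78) (PT.lf (nat_lit 58520) (nat_lit 6) (nat_lit 770) (nat_lit 4) (nat_lit 185) (nat_lit 198) (nat_lit 187)) (PT.lf (nat_lit 58444) (nat_lit 3) (nat_lit 769) (nat_lit 2) (nat_lit 186) (nat_lit 198) (nat_lit 186))))) (PT.nd (nat_lit 312) (PT.nd (nat_lit 156) (PT.nd (nat_lit 78) (PT.lf (nat_lit 58520) (nat_lit 6)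 (nat_lit 770) (nat_lit 2) (nat_lit 187) (nat_lit 198) (nat_lit 185)) (PT.lf (nat_lit 58596) (nat_lit 6) (nat_lit 771) (nat_lit 2) (nat_lit 188) (nat_lit 198) (nat_lit 184))) (PT.nd (nat_lit 78) (PT.lf (nat_lit 58672) (nat_lit 6) (nat_lit 772) (nat_lit 2) (nat_lit 189) (nat_lit 198) (nat_lit 183)) (PT.lf (nat_lit 58748) (nat_lit 6) (nat_lit 773) (nat_lit 2) (nat_lit 190) (nat_lit 198) (nat_lit 182)))) (PT.nd (nat_lit 156) (PT.nd (nat_lit 78) (PT.lf (nat_lit 58140) (nat_lit 6) (nat_lit 765) (nat_lit 2) (nat_lit 191) (nat_lit 198) (nat_lit 181)) (PT.lf (nat_lit 57456) (nat_lit 6) (nat_lit 756) (nat_lit 2) (nat_lit 192) (nat_lit 198) (nat_lit 180))) (PT.nd (nat_lit 78) (PT.lf (nat_lit 56696) (nat_lit 6) (nat_lit 746) (nat_lit 2) (nat_lit 193) (nat_lit 198) (nat_lit 179)) (PT.lf (nat_lit 55860) (nat_lit 6) (nat_lit 735) (nat_lit 2) (nat_lit 194) (nat_lit 198) (nat_lit 178))))))) (PT.nd (nat_lit 1092) (PT.nd (nat_lit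 546) (PT.nd (nat_lit 234) (PT.nd (nat_lit 78) (PT.lf (nat_lit 54948) (nat_lit 6) (nat_lit 723) (nat_lit 2) (nat_lit 195) (nat_lit 198) (nat_lit 177)) (PT.nd (nat_lit 78) (PT.lf (nat_lit 53960) (nat_lit 6) (nat_lit 710) (nat_lit 2) (nat_lit 196) (nat_lit 198) (nat_lit 176)) (PT.lf (nat_lit 52896) (nat_lit 6) (nat_lit 696) (nat_lit 2) (nat_lit 197) (nat_lit 198) (nat_lit 175)))) (PT.nd (nat_lit 156) (PT.nd (nat_lit 78) (PT.lf (nat_lit 51756) (nat_lit 3) (nat_lit 681) (nat_lit 0) (nat_lit 198) (nat_lit 198) (nat_lit 174)) (PT.lf (nat_lit 50464) (nat_lit 6) (nat_lit 664) (nat_lit 0) (nat_lit 199) (nat_lit 198) (nat_lit 173))) (PT.nd (nat_lit 78) (PT.lf (nat_lit 49096) (nat_lit 6) (nat_lit 646) (nat_lit 0) (nat_lit 200) (nat_lit 198) (nat_lit 172)) (PT.lf (nat_lit 47652) (nat_lit 6) (nat_lit 627) (nat_lit 0) (nat_lit 201) (nat_lit 198) (nat_lit 171))))) (PT.nd (nat_lit 234) (PT.nd (nat_lit 78) (PT.lf (nat_lit 46132)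 (nat_lit 6) (nat_lit 607) (nat_lit 0) (nat_lit 202) (nat_lit 198) (nat_lit 170)) (PT.nd (nat_lit 78) (PT.lf (nat_lit 44536) (nat_lit 6) (nat_lit 586) (nat_lit 0) (nat_lit 203) (nat_lit 198) (nat_lit 169)) (PT.lf (nat_lit 42864) (nat_lit 6) (nat_lit 564) (nat_lit 0) (nat_lit 204) (nat_lit 198) (nat_lit 168)))) (PT.nd (nat_lit 156) (PT.nd (nat_lit 78) (PT.lf (nat_lit 41116) (nat_lit 6) (nat_lit 541) (nat_lit 0) (nat_lit 205) (nat_lit 198) (nat_lit 167)) (PT.lf (nat_lit 39292) (nat_lit 6) (nat_lit 517) (nat_lit 0) (nat_lit 206) (nat_lit 198) (nat_lit 166))) (PT.nd (nat_lit 78) (PT.lf (nat_lit 37392) (nat_lit 6) (nat_lit 492) (nat_lit 0) (nat_lit 207) (nat_lit 198) (nat_lit 165)) (PT.lf (nat_lit 36176) (nat_lit 6) (nat_lit 476) (nat_lit 0) (nat_lit 208) (nat_lit 198) (nat_lit 164)))))) (PT.nd (nat_lit 546) (PT.nd (nat_lit 234) (PT.nd (nat_lit 78) (PT.lf (nat_lit 35188) (nat_lit 6) (nat_lit 463) (nat_lit 0) (nat_lit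 209) (nat_lit 198) (nat_lit 163)) (PT.nd (nat_lit 78) (PT.lf (nat_lit 34200) (nat_lit 6) (nat_lit 450) (nat_lit 0) (nat_lit 210) (nat_lit 198) (nat_lit 162)) (PT.lf (nat_lit 33288) (nat_lit 6) (nat_lit 438) (nat_lit 0) (nat_lit 211) (nat_lit 198) (nat_lit 161)))) (PT.nd (nat_lit 156) (PT.nd (nat_lit 78) (PT.lf (nat_lit 32300) (nat_lit 6) (nat_lit 425) (nat_lit 0) (nat_lit 212) (nat_lit 198) (nat_lit 160)) (PT.lf (nat_lit 31388) (nat_lit 6) (nat_lit 413) (nat_lit 0) (nat_lit 213) (nat_lit 198) (nat_lit 159))) (PT.nd (nat_lit 78) (PT.lf (nat_lit 30476) (nat_lit 6) (nat_lit 401) (nat_lit 0) (nat_lit 214) (nat_lit 198) (nat_lit 158)) (PT.lf (nat_lit 29640) (nat_lit 6) (nat_lit 390) (nat_lit 0) (nat_lit 215) (nat_lit 198) (nat_lit 157))))) (PT.nd (nat_lit 54678) (PT.nd (nat_lit 54522) (PT.nd (nat_lit 78) (PT.lf (nat_lit 28804) (nat_lit 6) (nat_lit 379) (nat_lit 0) (nat_lit 216) (nat_lit 198) (nat_lit 156)) (PT.lf (nat_lit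 27968) (nat_lit 6) (nat_lit 368) (nat_lit 0) (nat_lit 217) (nat_lit 198) (nat_lit 155))) (PT.nd (nat_lit 78) (PT.lf (nat_lit 27208) (nat_lit 6) (nat_lit 358) (nat_lit 5) (nat_lit 154) (nat_lit 199) (nat_lit 217)) (PT.lf (nat_lit 28044) (nat_lit 6) (nat_lit 369) (nat_lit 5) (nat_lit 155) (nat_lit 199) (nat_lit 216)))) (PT.nd (nat_lit 156) (PT.nd (nat_lit 78) (PT.lf (nat_lit 28880) (nat_lit 6) (nat_lit 380) (nat_lit 5) (nat_lit 156) (nat_lit 199) (nat_lit 215)) (PT.lf (nat_lit 29716) (nat_lit 6) (nat_lit 391) (nat_lit 5) (nat_lit 157) (nat_lit 199) (nat_lit 214))) (PT.nd (nat_lit 78) (PT.lf (nat_lit 30552) (nat_lit 6) (nat_lit 402) (nat_lit 5) (nat_lit 158) (nat_lit 199) (nat_lit 213)) (PT.lf (nat_lit 31464) (nat_lit 6) (nat_lit 414) (nat_lit 5) (nat_lit 159) (nat_lit 199) (nat_lit 212))))))))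
noncomputable def pc35 : PT := (PT.nd (nat_lit 2262) (PT.nd (nat_lit 1092) (PT.nd (nat_lit 546) (PT.nd (nat_lit 234) (PT.nd (nat_lit 78) (PT.lf (nat_lit 32376) (nat_lit 6) (nat_lit 426) (nat_lit 5) (nat_lit 160) (nat_lit 199) (nat_lit 211)) (PT.nd (nat_lit 78) (PT.lf (nat_lit 33364) (nat_lit 6) (nat_lit 439) (nat_lit 5) (nat_lit 161) (nat_lit 199) (nat_lit 210)) (PT.lf (nat_lit 34276) (nat_lit 6) (nat_lit 451) (nat_lit 5) (nat_lit 162) (nat_lit 199) (nat_lit 209)))) (PT.nd (nat_lit 156) (PT.nd (nat_lit 78) (PT.lf (nat_lit 35264) (nat_lit 6) (nat_lit 464) (nat_lit 5) (nat_lit 163) (nat_lit 199) (nat_lit 208)) (PT.lf (nat_lit 36252) (nat_lit 6) (nat_lit 477) (nat_lit 5) (nat_lit 164) (nat_lit 199) (nat_lit 207))) (PT.nd (nat_lit 78) (PT.lf (nat_lit 37468) (nat_lit 6) (nat_lit 493) (nat_lit 5) (nat_lit 165) (nat_lit 199) (nat_lit 206)) (PT.lf (nat_lit 39368) (nat_lit 6) (nat_lit 518) (nat_lit 5) (nat_lit 166) (nat_lit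 199) (nat_lit 205))))) (PT.nd (nat_lit 234) (PT.nd (nat_lit 78) (PT.lf (nat_lit 41192) (nat_lit 6) (nat_lit 542) (nat_lit 5) (nat_lit 167) (nat_lit 199) (nat_lit 204)) (PT.nd (nat_lit 78) (PT.lf (nat_lit 42940) (nat_lit 6) (nat_lit 565) (nat_lit 5) (nat_lit 168) (nat_lit 199) (nat_lit 203)) (PT.lf (nat_lit 44612) (nat_lit 6) (nat_lit 587) (nat_lit 5) (nat_lit 169) (nat_lit 199) (nat_lit 202)))) (PT.nd (nat_lit 156) (PT.nd (nat_lit 78) (PT.lf (nat_lit 46208) (nat_lit 6) (nat_lit 608) (nat_lit 5) (nat_lit 170) (nat_lit 199) (nat_lit 201)) (PT.lf (nat_lit 47728) (nat_lit 6) (nat_lit 628) (nat_lit 5) (nat_lit 171) (nat_lit 199) (nat_lit 200))) (PT.nd (nat_lit 78) (PT.lf (nat_lit 49172) (nat_lit 3) (nat_lit 647) (nat_lit 4) (nat_lit 172) (nat_lit 199) (nat_lit 199)) (PT.lf (nat_lit 50464) (nat_lit 6) (nat_lit 664) (nat_lit 4) (nat_lit 173) (nat_lit 199) (nat_lit 198)))))) (PT.nd (nat_lit 546) (PT.nd (nat_lit 234) (PT.nd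 (nat_lit 78) (PT.lf (nat_lit 51680) (nat_lit 6) (nat_lit 680) (nat_lit 4) (nat_lit 174) (nat_lit 199) (nat_lit 197)) (PT.nd (nat_lit 78) (PT.lf (nat_lit 52820) (nat_lit 6) (nat_lit 695) (nat_lit 4) (nat_lit 175) (nat_lit 199) (nat_lit 196)) (PT.lf (nat_lit 53884) (nat_lit 6) (nat_lit 709) (nat_lit 4) (nat_lit 176) (nat_lit 199) (nat_lit 195)))) (PT.nd (nat_lit 156) (PT.nd (nat_lit 78) (PT.lf (nat_lit 54872) (nat_lit 6) (nat_lit 722) (nat_lit 4) (nat_lit 177) (nat_lit 199) (nat_lit 194)) (PT.lf (nat_lit 55784) (nat_lit 6) (nat_lit 734) (nat_lit 4) (nat_lit 178) (nat_lit 199) (nat_lit 193))) (PT.nd (nat_lit 78) (PT.lf (nat_lit 56620) (nat_lit 6) (nat_lit 745) (nat_lit 4) (nat_lit 179) (nat_lit 199) (nat_lit 192)) (PT.lf (nat_lit 57380) (nat_lit 6) (nat_lit 755) (nat_lit 4) (nat_lit 180) (nat_lit 199) (nat_lit 191))))) (PT.nd (nat_lit 312) (PT.nd (nat_lit 156) (PT.nd (nat_lit 78) (PT.lf (nat_lit 58064) (nat_lit 6)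 (nat_lit 764) (nat_lit 4) (nat_lit 181) (nat_lit 199) (nat_lit 190)) (PT.lf (nat_lit 57988) (nat_lit 6) (nat_lit 763) (nat_lit 4) (nat_lit 182) (nat_lit 199) (nat_lit 189))) (PT.nd (nat_lit 78) (PT.lf (nat_lit 57912) (nat_lit 6) (nat_lit 762) (nat_lit 4) (nat_lit 183) (nat_lit 199) (nat_lit 188)) (PT.lf (nat_lit 57836) (nat_lit 6) (nat_lit 761) (nat_lit 4) (nat_lit 184) (nat_lit 199) (nat_lit 187)))) (PT.nd (nat_lit 156) (PT.nd (nat_lit 78) (PT.lf (nat_lit 57760) (nat_lit 6) (nat_lit 760) (nat_lit 4) (nat_lit 185) (nat_lit 199) (nat_lit 186)) (PT.lf (nat_lit 57760) (nat_lit 6) (nat_lit 760) (nat_lit 2) (nat_lit 186) (nat_lit 199) (nat_lit 185))) (PT.nd (nat_lit 78) (PT.lf (nat_lit 57836) (nat_lit 6) (nat_lit 761) (nat_lit 2) (nat_lit 187) (nat_lit 199) (nat_lit 184)) (PT.lf (nat_lit 57912) (nat_lit 6) (nat_lit 762) (nat_lit 2) (nat_lit 188) (nat_lit 199) (nat_lit 183))))))) (PT.nd (nat_lit 1170) (PT.nd (nat_lit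 546) (PT.nd (nat_lit 234) (PT.nd (nat_lit 78) (PT.lf (nat_lit 57988) (nat_lit 6) (nat_lit 763) (nat_lit 2) (nat_lit 189) (nat_lit 199) (nat_lit 182)) (PT.nd (nat_lit 78) (PT.lf (nat_lit 58064) (nat_lit 6) (nat_lit 764) (nat_lit 2) (nat_lit 190) (nat_lit 199) (nat_lit 181)) (PT.lf (nat_lit 57380) (nat_lit 6) (nat_lit 755) (nat_lit 2) (nat_lit 191) (nat_lit 199) (nat_lit 180)))) (PT.nd (nat_lit 156) (PT.nd (nat_lit 78) (PT.lf (nat_lit 56620) (nat_lit 6) (nat_lit 745) (nat_lit 2) (nat_lit 192) (nat_lit 199) (nat_lit 179)) (PT.lf (nat_lit 55784) (nat_lit 6) (nat_lit 734) (nat_lit 2) (nat_lit 193) (nat_lit 199) (nat_lit 178))) (PT.nd (nat_lit 78) (PT.lf (nat_lit 54872) (nat_lit 6) (nat_lit 722) (nat_lit 2) (nat_lit 194) (nat_lit 199) (nat_lit 177)) (PT.lf (nat_lit 53884) (nat_lit 6) (nat_lit 709) (nat_lit 2) (nat_lit 195) (nat_lit 199) (nat_lit 176))))) (PT.nd (nat_lit 312) (PT.nd (nat_lit 156) (PT.nd (nat_lit 78) (PT.lf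 (nat_lit 52820) (nat_lit 6) (nat_lit 695) (nat_lit 2) (nat_lit 196) (nat_lit 199) (nat_lit 175)) (PT.lf (nat_lit 51680) (nat_lit 6) (nat_lit 680) (nat_lit 2) (nat_lit 197) (nat_lit 199) (nat_lit 174))) (PT.nd (nat_lit 78) (PT.lf (nat_lit 50464) (nat_lit 6) (nat_lit 664) (nat_lit 2) (nat_lit 198) (nat_lit 199) (nat_lit 173)) (PT.lf (nat_lit 49172) (nat_lit 3) (nat_lit 647) (nat_lit 0) (nat_lit 199) (nat_lit 199) (nat_lit 172)))) (PT.nd (nat_lit 156) (PT.nd (nat_lit 78) (PT.lf (nat_lit 47728) (nat_lit 6) (nat_lit 628) (nat_lit 0) (nat_lit 200) (nat_lit 199) (nat_lit 171)) (PT.lf (nat_lit 46208) (nat_lit 6) (nat_lit 608) (nat_lit 0) (nat_lit 201) (nat_lit 199) (nat_lit 170))) (PT.nd (nat_lit 78) (PT.lf (nat_lit 44612) (nat_lit 6) (nat_lit 587) (nat_lit 0) (nat_lit 202) (nat_lit 199) (nat_lit 169)) (PT.lf (nat_lit 42940) (nat_lit 6) (nat_lit 565) (nat_lit 0) (nat_lit 203) (nat_lit 199) (nat_lit 168)))))) (PT.nd (nat_lit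 546) (PT.nd (nat_lit 234) (PT.nd (nat_lit 78) (PT.lf (nat_lit 41192) (nat_lit 6) (nat_lit 542) (nat_lit 0) (nat_lit 204) (nat_lit 199) (nat_lit 167)) (PT.nd (nat_lit 78) (PT.lf (nat_lit 39368) (nat_lit 6) (nat_lit 518) (nat_lit 0) (nat_lit 205) (nat_lit 199) (nat_lit 166)) (PT.lf (nat_lit 37468) (nat_lit 6) (nat_lit 493) (nat_lit 0) (nat_lit 206) (nat_lit 199) (nat_lit 165)))) (PT.nd (nat_lit 156) (PT.nd (nat_lit 78) (PT.lf (nat_lit 36252) (nat_lit 6) (nat_lit 477) (nat_lit 0) (nat_lit 207) (nat_lit 199) (nat_lit 164)) (PT.lf (nat_lit 35264) (nat_lit 6) (nat_lit 464) (nat_lit 0) (nat_lit 208) (nat_lit 199) (nat_lit 163))) (PT.nd (nat_lit 78) (PT.lf (nat_lit 34276) (nat_lit 6) (nat_lit 451) (nat_lit 0) (nat_lit 209) (nat_lit 199) (nat_lit 162)) (PT.lf (nat_lit 33364) (nat_lit 6) (nat_lit 439) (nat_lit 0) (nat_lit 210) (nat_lit 199) (nat_lit 161))))) (PT.nd (nat_lit 312) (PT.nd (nat_lit 156) (PT.nd (nat_lit 78) (PT.lf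 (nat_lit 32376) (nat_lit 6) (nat_lit 426) (nat_lit 0) (nat_lit 211) (nat_lit 199) (nat_lit 160)) (PT.lf (nat_lit 31464) (nat_lit 6) (nat_lit 414) (nat_lit 0) (nat_lit 212) (nat_lit 199) (nat_lit 159))) (PT.nd (nat_lit 78) (PT.lf (nat_lit 30552) (nat_lit 6) (nat_lit 402) (nat_lit 0) (nat_lit 213) (nat_lit 199) (nat_lit 158)) (PT.lf (nat_lit 29716) (nat_lit 6) (nat_lit 391) (nat_lit 0) (nat_lit 214) (nat_lit 199) (nat_lit 157)))) (PT.nd (nat_lit 156) (PT.nd (nat_lit 78) (PT.lf (nat_lit 28880) (nat_lit 6) (nat_lit 380) (nat_lit 0) (nat_lit 215) (nat_lit 199) (nat_lit 156)) (PT.lf (nat_lit 28044) (nat_lit 6) (nat_lit 369) (nat_lit 0) (nat_lit 216) (nat_lit 199) (nat_lit 155))) (PT.nd (nat_lit 54288) (PT.lf (nat_lit 27208) (nat_lit 6) (nat_lit 358) (nat_lit 0) (nat_lit 217) (nat_lit 199) (nat_lit 154)) (PT.lf (nat_lit 25764) (nat_lit 6) (nat_lit 339) (nat_lit 5) (nat_lit 152) (nat_lit 200) (nat_lit 218))))))))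
noncomputable def pc36 : PT := (PT.nd (nat_lit 2262) (PT.nd (nat_lit 1092) (PT.nd (nat_lit 546) (PT.nd (nat_lit 234) (PT.nd (nat_lit 78) (PT.lf (nat_lit 26524) (nat_lit 6) (nat_lit 349) (nat_lit 5) (nat_lit 153) (nat_lit 200) (nat_lit 217)) (PT.nd (nat_lit 78) (PT.lf (nat_lit 27284) (nat_lit 6) (nat_lit 359) (nat_lit 5) (nat_lit 154) (nat_lit 200) (nat_lit 216)) (PT.lf (nat_lit 28120) (nat_lit 6) (nat_lit 370) (nat_lit 5) (nat_lit 155) (nat_lit 200) (nat_lit 215)))) (PT.nd (nat_lit 156) (PT.nd (nat_lit 78) (PT.lf (nat_lit 28956) (nat_lit 6) (nat_lit 381) (nat_lit 5) (nat_lit 156) (nat_lit 200) (nat_lit 214)) (PT.lf (nat_lit 29792) (nat_lit 6) (nat_lit 392) (nat_lit 5) (nat_lit 157) (nat_lit 200) (nat_lit 213))) (PT.nd (nat_lit 78) (PT.lf (nat_lit 30628) (nat_lit 6) (nat_lit 403) (nat_lit 5) (nat_lit 158) (nat_lit 200) (nat_lit 212)) (PT.lf (nat_lit 31540) (nat_lit 6) (nat_lit 415) (nat_lit 5) (nat_lit 159) (nat_lit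 200) (nat_lit 211))))) (PT.nd (nat_lit 234) (PT.nd (nat_lit 78) (PT.lf (nat_lit 32452) (nat_lit 6) (nat_lit 427) (nat_lit 5) (nat_lit 160) (nat_lit 200) (nat_lit 210)) (PT.nd (nat_lit 78) (PT.lf (nat_lit 33440) (nat_lit 6) (nat_lit 440) (nat_lit 5) (nat_lit 161) (nat_lit 200) (nat_lit 209)) (PT.lf (nat_lit 34352) (nat_lit 6) (nat_lit 452) (nat_lit 5) (nat_lit 162) (nat_lit 200) (nat_lit 208)))) (PT.nd (nat_lit 156) (PT.nd (nat_lit 78) (PT.lf (nat_lit 35340) (nat_lit 6) (nat_lit 465) (nat_lit 5) (nat_lit 163) (nat_lit 200) (nat_lit 207)) (PT.lf (nat_lit 36328) (nat_lit 6) (nat_lit 478) (nat_lit 5) (nat_lit 164) (nat_lit 200) (nat_lit 206))) (PT.nd (nat_lit 78) (PT.lf (nat_lit 37544) (nat_lit 6) (nat_lit 494) (nat_lit 5) (nat_lit 165) (nat_lit 200) (nat_lit 205)) (PT.lf (nat_lit 39444) (nat_lit 6) (nat_lit 519) (nat_lit 5) (nat_lit 166) (nat_lit 200) (nat_lit 204)))))) (PT.nd (nat_lit 546) (PT.nd (nat_lit 234) (PT.nd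 (nat_lit 78) (PT.lf (nat_lit 41268) (nat_lit 6) (nat_lit 543) (nat_lit 5) (nat_lit 167) (nat_lit 200) (nat_lit 203)) (PT.nd (nat_lit 78) (PT.lf (nat_lit 43016) (nat_lit 6) (nat_lit 566) (nat_lit 5) (nat_lit 168) (nat_lit 200) (nat_lit 202)) (PT.lf (nat_lit 44688) (nat_lit 6) (nat_lit 588) (nat_lit 5) (nat_lit 169) (nat_lit 200) (nat_lit 201)))) (PT.nd (nat_lit 156) (PT.nd (nat_lit 78) (PT.lf (nat_lit 46284) (nat_lit 3) (nat_lit 609) (nat_lit 4) (nat_lit 170) (nat_lit 200) (nat_lit 200)) (PT.lf (nat_lit 47728) (nat_lit 6) (nat_lit 628) (nat_lit 4) (nat_lit 171) (nat_lit 200) (nat_lit 199))) (PT.nd (nat_lit 78) (PT.lf (nat_lit 49096) (nat_lit 6) (nat_lit 646) (nat_lit 4) (nat_lit 172) (nat_lit 200) (nat_lit 198)) (PT.lf (nat_lit 50388) (nat_lit 6) (nat_lit 663) (nat_lit 4) (nat_lit 173) (nat_lit 200) (nat_lit 197))))) (PT.nd (nat_lit 312) (PT.nd (nat_lit 156) (PT.nd (nat_lit 78) (PT.lf (nat_lit 51604) (nat_lit 6)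 (nat_lit 679) (nat_lit 4) (nat_lit 174) (nat_lit 200) (nat_lit 196)) (PT.lf (nat_lit 52744) (nat_lit 6) (nat_lit 694) (nat_lit 4) (nat_lit 175) (nat_lit 200) (nat_lit 195))) (PT.nd (nat_lit 78) (PT.lf (nat_lit 53808) (nat_lit 6) (nat_lit 708) (nat_lit 4) (nat_lit 176) (nat_lit 200) (nat_lit 194)) (PT.lf (nat_lit 54796) (nat_lit 6) (nat_lit 721) (nat_lit 4) (nat_lit 177) (nat_lit 200) (nat_lit 193)))) (PT.nd (nat_lit 156) (PT.nd (nat_lit 78) (PT.lf (nat_lit 55708) (nat_lit 6) (nat_lit 733) (nat_lit 4) (nat_lit 178) (nat_lit 200) (nat_lit 192)) (PT.lf (nat_lit 56544) (nat_lit 6) (nat_lit 744) (nat_lit 4) (nat_lit 179) (nat_lit 200) (nat_lit 191))) (PT.nd (nat_lit 78) (PT.lf (nat_lit 57304) (nat_lit 6) (nat_lit 754) (nat_lit 4) (nat_lit 180) (nat_lit 200) (nat_lit 190)) (PT.lf (nat_lit 57228) (nat_lit 6) (nat_lit 753) (nat_lit 4) (nat_lit 181) (nat_lit 200) (nat_lit 189))))))) (PT.nd (nat_lit 1092) (PT.nd (nat_lit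 546) (PT.nd (nat_lit 234) (PT.nd (nat_lit 78) (PT.lf (nat_lit 57152) (nat_lit 6) (nat_lit 752) (nat_lit 4) (nat_lit 182) (nat_lit 200) (nat_lit 188)) (PT.nd (nat_lit 78) (PT.lf (nat_lit 57076) (nat_lit 6) (nat_lit 751) (nat_lit 4) (nat_lit 183) (nat_lit 200) (nat_lit 187)) (PT.lf (nat_lit 57000) (nat_lit 6) (nat_lit 750) (nat_lit 4) (nat_lit 184) (nat_lit 200) (nat_lit 186)))) (PT.nd (nat_lit 156) (PT.nd (nat_lit 78) (PT.lf (nat_lit 56924) (nat_lit 3) (nat_lit 749) (nat_lit 2) (nat_lit 185) (nat_lit 200) (nat_lit 185)) (PT.lf (nat_lit 57000) (nat_lit 6) (nat_lit 750) (nat_lit 2) (nat_lit 186) (nat_lit 200) (nat_lit 184))) (PT.nd (nat_lit 78) (PT.lf (nat_lit 57076) (nat_lit 6) (nat_lit 751) (nat_lit 2) (nat_lit 187) (nat_lit 200) (nat_lit 183)) (PT.lf (nat_lit 57152) (nat_lit 6) (nat_lit 752) (nat_lit 2) (nat_lit 188) (nat_lit 200) (nat_lit 182))))) (PT.nd (nat_lit 234) (PT.nd (nat_lit 78) (PT.lf (nat_lit 57228)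 (nat_lit 6) (nat_lit 753) (nat_lit 2) (nat_lit 189) (nat_lit 200) (nat_lit 181)) (PT.nd (nat_lit 78) (PT.lf (nat_lit 57304) (nat_lit 6) (nat_lit 754) (nat_lit 2) (nat_lit 190) (nat_lit 200) (nat_lit 180)) (PT.lf (nat_lit 56544) (nat_lit 6) (nat_lit 744) (nat_lit 2) (nat_lit 191) (nat_lit 200) (nat_lit 179)))) (PT.nd (nat_lit 156) (PT.nd (nat_lit 78) (PT.lf (nat_lit 55708) (nat_lit 6) (nat_lit 733) (nat_lit 2) (nat_lit 192) (nat_lit 200) (nat_lit 178)) (PT.lf (nat_lit 54796) (nat_lit 6) (nat_lit 721) (nat_lit 2) (nat_lit 193) (nat_lit 200) (nat_lit 177))) (PT.nd (nat_lit 78) (PT.lf (nat_lit 53808) (nat_lit 6) (nat_lit 708) (nat_lit 2) (nat_lit 194) (nat_lit 200) (nat_lit 176)) (PT.lf (nat_lit 52744) (nat_lit 6) (nat_lit 694) (nat_lit 2) (nat_lit 195) (nat_lit 200) (nat_lit 175)))))) (PT.nd (nat_lit 546) (PT.nd (nat_lit 234) (PT.nd (nat_lit 78) (PT.lf (nat_lit 51604) (nat_lit 6) (nat_lit 679) (nat_lit 2) (nat_lit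 196) (nat_lit 200) (nat_lit 174)) (PT.nd (nat_lit 78) (PT.lf (nat_lit 50388) (nat_lit 6) (nat_lit 663) (nat_lit 2) (nat_lit 197) (nat_lit 200) (nat_lit 173)) (PT.lf (nat_lit 49096) (nat_lit 6) (nat_lit 646) (nat_lit 2) (nat_lit 198) (nat_lit 200) (nat_lit 172)))) (PT.nd (nat_lit 156) (PT.nd (nat_lit 78) (PT.lf (nat_lit 47728) (nat_lit 6) (nat_lit 628) (nat_lit 2) (nat_lit 199) (nat_lit 200) (nat_lit 171)) (PT.lf (nat_lit 46284) (nat_lit 3) (nat_lit 609) (nat_lit 0) (nat_lit 200) (nat_lit 200) (nat_lit 170))) (PT.nd (nat_lit 78) (PT.lf (nat_lit 44688) (nat_lit 6) (nat_lit 588) (nat_lit 0) (nat_lit 201) (nat_lit 200) (nat_lit 169)) (PT.lf (nat_lit 43016) (nat_lit 6) (nat_lit 566) (nat_lit 0) (nat_lit 202) (nat_lit 200) (nat_lit 168))))) (PT.nd (nat_lit 312) (PT.nd (nat_lit 156) (PT.nd (nat_lit 78) (PT.lf (nat_lit 41268) (nat_lit 6) (nat_lit 543) (nat_lit 0) (nat_lit 203) (nat_lit 200) (nat_lit 167)) (PT.lf (nat_lit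 39444) (nat_lit 6) (nat_lit 519) (nat_lit 0) (nat_lit 204) (nat_lit 200) (nat_lit 166))) (PT.nd (nat_lit 78) (PT.lf (nat_lit 37544) (nat_lit 6) (nat_lit 494) (nat_lit 0) (nat_lit 205) (nat_lit 200) (nat_lit 165)) (PT.lf (nat_lit 36328) (nat_lit 6) (nat_lit 478) (nat_lit 0) (nat_lit 206) (nat_lit 200) (nat_lit 164)))) (PT.nd (nat_lit 156) (PT.nd (nat_lit 78) (PT.lf (nat_lit 35340) (nat_lit 6) (nat_lit 465) (nat_lit 0) (nat_lit 207) (nat_lit 200) (nat_lit 163)) (PT.lf (nat_lit 34352) (nat_lit 6) (nat_lit 452) (nat_lit 0) (nat_lit 208) (nat_lit 200) (nat_lit 162))) (PT.nd (nat_lit 78) (PT.lf (nat_lit 33440) (nat_lit 6) (nat_lit 440) (nat_lit 0) (nat_lit 209) (nat_lit 200) (nat_lit 161)) (PT.lf (nat_lit 32452) (nat_lit 6) (nat_lit 427) (nat_lit 0) (nat_lit 210) (nat_lit 200) (nat_lit 160))))))))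
noncomputable def pc37 : PT := (PT.nd (nat_lit 56316) (PT.nd (nat_lit 55146) (PT.nd (nat_lit 546) (PT.nd (nat_lit 234) (PT.nd (nat_lit 78) (PT.lf (nat_lit 31540) (nat_lit 6) (nat_lit 415) (nat_lit 0) (nat_lit 211) (nat_lit 200) (nat_lit 159)) (PT.nd (nat_lit 78) (PT.lf (nat_lit 30628) (nat_lit 6) (nat_lit 403) (nat_lit 0) (nat_lit 212) (nat_lit 200) (nat_lit 158)) (PT.lf (nat_lit 29792) (nat_lit 6) (nat_lit 392) (nat_lit 0) (nat_lit 213) (nat_lit 200) (nat_lit 157)))) (PT.nd (nat_lit 156) (PT.nd (nat_lit 78) (PT.lf (nat_lit 28956) (nat_lit 6) (nat_lit 381) (nat_lit 0) (nat_lit 214) (nat_lit 200) (nat_lit 156)) (PT.lf (nat_lit 28120) (nat_lit 6) (nat_lit 370) (nat_lit 0) (nat_lit 215) (nat_lit 200) (nat_lit 155))) (PT.nd (nat_lit 78) (PT.lf (nat_lit 27284) (nat_lit 6) (nat_lit 359) (nat_lit 0) (nat_lit 216) (nat_lit 200) (nat_lit 154)) (PT.lf (nat_lit 26524) (nat_lit 6) (nat_lit 349) (nat_lit 0) (nat_lit 217) (nat_lit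 200) (nat_lit 153))))) (PT.nd (nat_lit 54288) (PT.nd (nat_lit 54132) (PT.lf (nat_lit 25764) (nat_lit 6) (nat_lit 339) (nat_lit 0) (nat_lit 218) (nat_lit 200) (nat_lit 152)) (PT.nd (nat_lit 78) (PT.lf (nat_lit 25080) (nat_lit 6) (nat_lit 330) (nat_lit 5) (nat_lit 151) (nat_lit 201) (nat_lit 218)) (PT.lf (nat_lit 25840) (nat_lit 6) (nat_lit 340) (nat_lit 5) (nat_lit 152) (nat_lit 201) (nat_lit 217)))) (PT.nd (nat_lit 156) (PT.nd (nat_lit 78) (PT.lf (nat_lit 26600) (nat_lit 6) (nat_lit 350) (nat_lit 5) (nat_lit 153) (nat_lit 201) (nat_lit 216)) (PT.lf (nat_lit 27360) (nat_lit 6) (nat_lit 360) (nat_lit 5) (nat_lit 154) (nat_lit 201) (nat_lit 215))) (PT.nd (nat_lit 78) (PT.lf (nat_lit 28196) (nat_lit 6) (nat_lit 371) (nat_lit 5) (nat_lit 155) (nat_lit 201) (nat_lit 214)) (PT.lf (nat_lit 29032) (nat_lit 6) (nat_lit 382) (nat_lit 5) (nat_lit 156) (nat_lit 201) (nat_lit 213)))))) (PT.nd (nat_lit 546) (PT.nd (nat_lit 234)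 (PT.nd (nat_lit 78) (PT.lf (nat_lit 29868) (nat_lit 6) (nat_lit 393) (nat_lit 5) (nat_lit 157) (nat_lit 201) (nat_lit 212)) (PT.nd (nat_lit 78) (PT.lf (nat_lit 30704) (nat_lit 6) (nat_lit 404) (nat_lit 5) (nat_lit 158) (nat_lit 201) (nat_lit 211)) (PT.lf (nat_lit 31616) (nat_lit 6) (nat_lit 416) (nat_lit 5) (nat_lit 159) (nat_lit 201) (nat_lit 210)))) (PT.nd (nat_lit 156) (PT.nd (nat_lit 78) (PT.lf (nat_lit 32528) (nat_lit 6) (nat_lit 428) (nat_lit 5) (nat_lit 160) (nat_lit 201) (nat_lit 209)) (PT.lf (nat_lit 33516) (nat_lit 6) (nat_lit 441) (nat_lit 5) (nat_lit 161) (nat_lit 201) (nat_lit 208))) (PT.nd (nat_lit 78) (PT.lf (nat_lit 34428) (nat_lit 6) (nat_lit 453) (nat_lit 5) (nat_lit 162) (nat_lit 201) (nat_lit 207)) (PT.lf (nat_lit 35416) (nat_lit 6) (nat_lit 466) (nat_lit 5) (nat_lit 163) (nat_lit 201) (nat_lit 206))))) (PT.nd (nat_lit 312) (PT.nd (nat_lit 156) (PT.nd (nat_lit 78) (PT.lf (nat_lit 36404) (nat_lit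 6) (nat_lit 479) (nat_lit 5) (nat_lit 164) (nat_lit 201) (nat_lit 205)) (PT.lf (nat_lit 37620) (nat_lit 6) (nat_lit 495) (nat_lit 5) (nat_lit 165) (nat_lit 201) (nat_lit 204))) (PT.nd (nat_lit 78) (PT.lf (nat_lit 39520) (nat_lit 6) (nat_lit 520) (nat_lit 5) (nat_lit 166) (nat_lit 201) (nat_lit 203)) (PT.lf (nat_lit 41344) (nat_lit 6) (nat_lit 544) (nat_lit 5) (nat_lit 167) (nat_lit 201) (nat_lit 202)))) (PT.nd (nat_lit 156) (PT.nd (nat_lit 78) (PT.lf (nat_lit 43092) (nat_lit 3) (nat_lit 567) (nat_lit 4) (nat_lit 168) (nat_lit 201) (nat_lit 201)) (PT.lf (nat_lit 44688) (nat_lit 6) (nat_lit 588) (nat_lit 4) (nat_lit 169) (nat_lit 201) (nat_lit 200))) (PT.nd (nat_lit 78) (PT.lf (nat_lit 46208) (nat_lit 6) (nat_lit 608) (nat_lit 4) (nat_lit 170) (nat_lit 201) (nat_lit 199)) (PT.lf (nat_lit 47652) (nat_lit 6) (nat_lit 627) (nat_lit 4) (nat_lit 171) (nat_lit 201) (nat_lit 198))))))) (PT.nd (nat_lit 1170) (PT.nd (nat_lit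 546) (PT.nd (nat_lit 234) (PT.nd (nat_lit 78) (PT.lf (nat_lit 49020) (nat_lit 6) (nat_lit 645) (nat_lit 4) (nat_lit 172) (nat_lit 201) (nat_lit 197)) (PT.nd (nat_lit 78) (PT.lf (nat_lit 50312) (nat_lit 6) (nat_lit 662) (nat_lit 4) (nat_lit 173) (nat_lit 201) (nat_lit 196)) (PT.lf (nat_lit 51528) (nat_lit 6) (nat_lit 678) (nat_lit 4) (nat_lit 174) (nat_lit 201) (nat_lit 195)))) (PT.nd (nat_lit 156) (PT.nd (nat_lit 78) (PT.lf (nat_lit 52668) (nat_lit 6) (nat_lit 693) (nat_lit 4) (nat_lit 175) (nat_lit 201) (nat_lit 194)) (PT.lf (nat_lit 53732) (nat_lit 6) (nat_lit 707) (nat_lit 4) (nat_lit 176) (nat_lit 201) (nat_lit 193))) (PT.nd (nat_lit 78) (PT.lf (nat_lit 54720) (nat_lit 6) (nat_lit 720) (nat_lit 4) (nat_lit 177) (nat_lit 201) (nat_lit 192)) (PT.lf (nat_lit 55632) (nat_lit 6) (nat_lit 732) (nat_lit 4) (nat_lit 178) (nat_lit 201) (nat_lit 191))))) (PT.nd (nat_lit 312) (PT.nd (nat_lit 156) (PT.nd (nat_lit 78) (PT.lf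 (nat_lit 56468) (nat_lit 6) (nat_lit 743) (nat_lit 4) (nat_lit 179) (nat_lit 201) (nat_lit 190)) (PT.lf (nat_lit 56392) (nat_lit 6) (nat_lit 742) (nat_lit 4) (nat_lit 180) (nat_lit 201) (nat_lit 189))) (PT.nd (nat_lit 78) (PT.lf (nat_lit 56316) (nat_lit 6) (nat_lit 741) (nat_lit 4) (nat_lit 181) (nat_lit 201) (nat_lit 188)) (PT.lf (nat_lit 56240) (nat_lit 6) (nat_lit 740) (nat_lit 4) (nat_lit 182) (nat_lit 201) (nat_lit 187)))) (PT.nd (nat_lit 156) (PT.nd (nat_lit 78) (PT.lf (nat_lit 56164) (nat_lit 6) (nat_lit 739) (nat_lit 4) (nat_lit 183) (nat_lit 201) (nat_lit 186)) (PT.lf (nat_lit 56088) (nat_lit 6) (nat_lit 738) (nat_lit 4) (nat_lit 184) (nat_lit 201) (nat_lit 185))) (PT.nd (nat_lit 78) (PT.lf (nat_lit 56088) (nat_lit 6) (nat_lit 738) (nat_lit 2) (nat_lit 185) (nat_lit 201) (nat_lit 184)) (PT.lf (nat_lit 56164) (nat_lit 6) (nat_lit 739) (nat_lit 2) (nat_lit 186) (nat_lit 201) (nat_lit 183)))))) (PT.nd (nat_lit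 546) (PT.nd (nat_lit 234) (PT.nd (nat_lit 78) (PT.lf (nat_lit 56240) (nat_lit 6) (nat_lit 740) (nat_lit 2) (nat_lit 187) (nat_lit 201) (nat_lit 182)) (PT.nd (nat_lit 78) (PT.lf (nat_lit 56316) (nat_lit 6) (nat_lit 741) (nat_lit 2) (nat_lit 188) (nat_lit 201) (nat_lit 181)) (PT.lf (nat_lit 56392) (nat_lit 6) (nat_lit 742) (nat_lit 2) (nat_lit 189) (nat_lit 201) (nat_lit 180)))) (PT.nd (nat_lit 156) (PT.nd (nat_lit 78) (PT.lf (nat_lit 56468) (nat_lit 6) (nat_lit 743) (nat_lit 2) (nat_lit 190) (nat_lit 201) (nat_lit 179)) (PT.lf (nat_lit 55632) (nat_lit 6) (nat_lit 732) (nat_lit 2) (nat_lit 191) (nat_lit 201) (nat_lit 178))) (PT.nd (nat_lit 78) (PT.lf (nat_lit 54720) (nat_lit 6) (nat_lit 720) (nat_lit 2) (nat_lit 192) (nat_lit 201) (nat_lit 177)) (PT.lf (nat_lit 53732) (nat_lit 6) (nat_lit 707) (nat_lit 2) (nat_lit 193) (nat_lit 201) (nat_lit 176))))) (PT.nd (nat_lit 312) (PT.nd (nat_lit 156) (PT.nd (nat_lit 78) (PT.lf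 (nat_lit 52668) (nat_lit 6) (nat_lit 693) (nat_lit 2) (nat_lit 194) (nat_lit 201) (nat_lit 175)) (PT.lf (nat_lit 51528) (nat_lit 6) (nat_lit 678) (nat_lit 2) (nat_lit 195) (nat_lit 201) (nat_lit 174))) (PT.nd (nat_lit 78) (PT.lf (nat_lit 50312) (nat_lit 6) (nat_lit 662) (nat_lit 2) (nat_lit 196) (nat_lit 201) (nat_lit 173)) (PT.lf (nat_lit 49020) (nat_lit 6) (nat_lit 645) (nat_lit 2) (nat_lit 197) (nat_lit 201) (nat_lit 172)))) (PT.nd (nat_lit 156) (PT.nd (nat_lit 78) (PT.lf (nat_lit 47652) (nat_lit 6) (nat_lit 627) (nat_lit 2) (nat_lit 198) (nat_lit 201) (nat_lit 171)) (PT.lf (nat_lit 46208) (nat_lit 6) (nat_lit 608) (nat_lit 2) (nat_lit 199) (nat_lit 201) (nat_lit 170))) (PT.nd (nat_lit 78) (PT.lf (nat_lit 44688) (nat_lit 6) (nat_lit 588) (nat_lit 2) (nat_lit 200) (nat_lit 201) (nat_lit 169)) (PT.lf (nat_lit 43092) (nat_lit 3) (nat_lit 567) (nat_lit 0) (nat_lit 201) (nat_lit 201) (nat_lit 168))))))))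
noncomputable def pc38 : PT := (PT.nd (nat_lit 56238) (PT.nd (nat_lit 1092) (PT.nd (nat_lit 546) (PT.nd (nat_lit 234) (PT.nd (nat_lit 78) (PT.lf (nat_lit 41344) (nat_lit 6) (nat_lit 544) (nat_lit 0) (nat_lit 202) (nat_lit 201) (nat_lit 167)) (PT.nd (nat_lit 78) (PT.lf (nat_lit 39520) (nat_lit 6) (nat_lit 520) (nat_lit 0) (nat_lit 203) (nat_lit 201) (nat_lit 166)) (PT.lf (nat_lit 37620) (nat_lit 6) (nat_lit 495) (nat_lit 0) (nat_lit 204) (nat_lit 201) (nat_lit 165)))) (PT.nd (nat_lit 156) (PT.nd (nat_lit 78) (PT.lf (nat_lit 36404) (nat_lit 6) (nat_lit 479) (nat_lit 0) (nat_lit 205) (nat_lit 201) (nat_lit 164)) (PT.lf (nat_lit 35416) (nat_lit 6) (nat_lit 466) (nat_lit 0) (nat_lit 206) (nat_lit 201) (nat_lit 163))) (PT.nd (nat_lit 78) (PT.lf (nat_lit 34428) (nat_lit 6) (nat_lit 453) (nat_lit 0) (nat_lit 207) (nat_lit 201) (nat_lit 162)) (PT.lf (nat_lit 33516) (nat_lit 6) (nat_lit 441) (nat_lit 0) (nat_lit 208) (nat_lit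 201) (nat_lit 161))))) (PT.nd (nat_lit 234) (PT.nd (nat_lit 78) (PT.lf (nat_lit 32528) (nat_lit 6) (nat_lit 428) (nat_lit 0) (nat_lit 209) (nat_lit 201) (nat_lit 160)) (PT.nd (nat_lit 78) (PT.lf (nat_lit 31616) (nat_lit 6) (nat_lit 416) (nat_lit 0) (nat_lit 210) (nat_lit 201) (nat_lit 159)) (PT.lf (nat_lit 30704) (nat_lit 6) (nat_lit 404) (nat_lit 0) (nat_lit 211) (nat_lit 201) (nat_lit 158)))) (PT.nd (nat_lit 156) (PT.nd (nat_lit 78) (PT.lf (nat_lit 29868) (nat_lit 6) (nat_lit 393) (nat_lit 0) (nat_lit 212) (nat_lit 201) (nat_lit 157)) (PT.lf (nat_lit 29032) (nat_lit 6) (nat_lit 382) (nat_lit 0) (nat_lit 213) (nat_lit 201) (nat_lit 156))) (PT.nd (nat_lit 78) (PT.lf (nat_lit 28196) (nat_lit 6) (nat_lit 371) (nat_lit 0) (nat_lit 214) (nat_lit 201) (nat_lit 155)) (PT.lf (nat_lit 27360) (nat_lit 6) (nat_lit 360) (nat_lit 0) (nat_lit 215) (nat_lit 201) (nat_lit 154)))))) (PT.nd (nat_lit 54522) (PT.nd (nat_lit 54210)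 (PT.nd (nat_lit 78) (PT.lf (nat_lit 26600) (nat_lit 6) (nat_lit 350) (nat_lit 0) (nat_lit 216) (nat_lit 201) (nat_lit 153)) (PT.nd (nat_lit 78) (PT.lf (nat_lit 25840) (nat_lit 6) (nat_lit 340) (nat_lit 0) (nat_lit 217) (nat_lit 201) (nat_lit 152)) (PT.lf (nat_lit 25080) (nat_lit 6) (nat_lit 330) (nat_lit 0) (nat_lit 218) (nat_lit 201) (nat_lit 151)))) (PT.nd (nat_lit 156) (PT.nd (nat_lit 78) (PT.lf (nat_lit 24396) (nat_lit 6) (nat_lit 321) (nat_lit 5) (nat_lit 150) (nat_lit 202) (nat_lit 218)) (PT.lf (nat_lit 25156) (nat_lit 6) (nat_lit 331) (nat_lit 5) (nat_lit 151) (nat_lit 202) (nat_lit 217))) (PT.nd (nat_lit 78) (PT.lf (nat_lit 25916) (nat_lit 6) (nat_lit 341) (nat_lit 5) (nat_lit 152) (nat_lit 202) (nat_lit 216)) (PT.lf (nat_lit 26676) (nat_lit 6) (nat_lit 351) (nat_lit 5) (nat_lit 153) (nat_lit 202) (nat_lit 215))))) (PT.nd (nat_lit 312) (PT.nd (nat_lit 156) (PT.nd (nat_lit 78) (PT.lf (nat_lit 27436) (nat_lit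 6) (nat_lit 361) (nat_lit 5) (nat_lit 154) (nat_lit 202) (nat_lit 214)) (PT.lf (nat_lit 28272) (nat_lit 6) (nat_lit 372) (nat_lit 5) (nat_lit 155) (nat_lit 202) (nat_lit 213))) (PT.nd (nat_lit 78) (PT.lf (nat_lit 29108) (nat_lit 6) (nat_lit 383) (nat_lit 5) (nat_lit 156) (nat_lit 202) (nat_lit 212)) (PT.lf (nat_lit 29944) (nat_lit 6) (nat_lit 394) (nat_lit 5) (nat_lit 157) (nat_lit 202) (nat_lit 211)))) (PT.nd (nat_lit 156) (PT.nd (nat_lit 78) (PT.lf (nat_lit 30780) (nat_lit 6) (nat_lit 405) (nat_lit 5) (nat_lit 158) (nat_lit 202) (nat_lit 210)) (PT.lf (nat_lit 31692) (nat_lit 6) (nat_lit 417) (nat_lit 5) (nat_lit 159) (nat_lit 202) (nat_lit 209))) (PT.nd (nat_lit 78) (PT.lf (nat_lit 32604) (nat_lit 6) (nat_lit 429) (nat_lit 5) (nat_lit 160) (nat_lit 202) (nat_lit 208)) (PT.lf (nat_lit 33592) (nat_lit 6) (nat_lit 442) (nat_lit 5) (nat_lit 161) (nat_lit 202) (nat_lit 207))))))) (PT.nd (nat_lit 1092) (PT.nd (nat_lit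 546) (PT.nd (nat_lit 234) (PT.nd (nat_lit 78) (PT.lf (nat_lit 34504) (nat_lit 6) (nat_lit 454) (nat_lit 5) (nat_lit 162) (nat_lit 202) (nat_lit 206)) (PT.nd (nat_lit 78) (PT.lf (nat_lit 35492) (nat_lit 6) (nat_lit 467) (nat_lit 5) (nat_lit 163) (nat_lit 202) (nat_lit 205)) (PT.lf (nat_lit 36480) (nat_lit 6) (nat_lit 480) (nat_lit 5) (nat_lit 164) (nat_lit 202) (nat_lit 204)))) (PT.nd (nat_lit 156) (PT.nd (nat_lit 78) (PT.lf (nat_lit 37696) (nat_lit 6) (nat_lit 496) (nat_lit 5) (nat_lit 165) (nat_lit 202) (nat_lit 203)) (PT.lf (nat_lit 39596) (nat_lit 3) (nat_lit 521) (nat_lit 4) (nat_lit 166) (nat_lit 202) (nat_lit 202))) (PT.nd (nat_lit 78) (PT.lf (nat_lit 41344) (nat_lit 6) (nat_lit 544) (nat_lit 4) (nat_lit 167) (nat_lit 202) (nat_lit 201)) (PT.lf (nat_lit 43016) (nat_lit 6) (nat_lit 566) (nat_lit 4) (nat_lit 168) (nat_lit 202) (nat_lit 200))))) (PT.nd (nat_lit 234) (PT.nd (nat_lit 78) (PT.lf (nat_lit 44612)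 (nat_lit 6) (nat_lit 587) (nat_lit 4) (nat_lit 169) (nat_lit 202) (nat_lit 199)) (PT.nd (nat_lit 78) (PT.lf (nat_lit 46132) (nat_lit 6) (nat_lit 607) (nat_lit 4) (nat_lit 170) (nat_lit 202) (nat_lit 198)) (PT.lf (nat_lit 47576) (nat_lit 6) (nat_lit 626) (nat_lit 4) (nat_lit 171) (nat_lit 202) (nat_lit 197)))) (PT.nd (nat_lit 156) (PT.nd (nat_lit 78) (PT.lf (nat_lit 48944) (nat_lit 6) (nat_lit 644) (nat_lit 4) (nat_lit 172) (nat_lit 202) (nat_lit 196)) (PT.lf (nat_lit 50236) (nat_lit 6) (nat_lit 661) (nat_lit 4) (nat_lit 173) (nat_lit 202) (nat_lit 195))) (PT.nd (nat_lit 78) (PT.lf (nat_lit 51452) (nat_lit 6) (nat_lit 677) (nat_lit 4) (nat_lit 174) (nat_lit 202) (nat_lit 194)) (PT.lf (nat_lit 52592) (nat_lit 6) (nat_lit 692) (nat_lit 4) (nat_lit 175) (nat_lit 202) (nat_lit 193)))))) (PT.nd (nat_lit 546) (PT.nd (nat_lit 234) (PT.nd (nat_lit 78) (PT.lf (nat_lit 53656) (nat_lit 6) (nat_lit 706) (nat_lit 4) (nat_lit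 176) (nat_lit 202) (nat_lit 192)) (PT.nd (nat_lit 78) (PT.lf (nat_lit 54644) (nat_lit 6) (nat_lit 719) (nat_lit 4) (nat_lit 177) (nat_lit 202) (nat_lit 191)) (PT.lf (nat_lit 55556) (nat_lit 6) (nat_lit 731) (nat_lit 4) (nat_lit 178) (nat_lit 202) (nat_lit 190)))) (PT.nd (nat_lit 156) (PT.nd (nat_lit 78) (PT.lf (nat_lit 55480) (nat_lit 6) (nat_lit 730) (nat_lit 4) (nat_lit 179) (nat_lit 202) (nat_lit 189)) (PT.lf (nat_lit 55404) (nat_lit 6) (nat_lit 729) (nat_lit 4) (nat_lit 180) (nat_lit 202) (nat_lit 188))) (PT.nd (nat_lit 78) (PT.lf (nat_lit 55328) (nat_lit 6) (nat_lit 728) (nat_lit 4) (nat_lit 181) (nat_lit 202) (nat_lit 187)) (PT.lf (nat_lit 55252) (nat_lit 6) (nat_lit 727) (nat_lit 4) (nat_lit 182) (nat_lit 202) (nat_lit 186))))) (PT.nd (nat_lit 312) (PT.nd (nat_lit 156) (PT.nd (nat_lit 78) (PT.lf (nat_lit 55176) (nat_lit 6) (nat_lit 726) (nat_lit 4) (nat_lit 183) (nat_lit 202) (nat_lit 185)) (PT.lf (nat_lit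 55100) (nat_lit 3) (nat_lit 725) (nat_lit 2) (nat_lit 184) (nat_lit 202) (nat_lit 184))) (PT.nd (nat_lit 78) (PT.lf (nat_lit 55176) (nat_lit 6) (nat_lit 726) (nat_lit 2) (nat_lit 185) (nat_lit 202) (nat_lit 183)) (PT.lf (nat_lit 55252) (nat_lit 6) (nat_lit 727) (nat_lit 2) (nat_lit 186) (nat_lit 202) (nat_lit 182)))) (PT.nd (nat_lit 156) (PT.nd (nat_lit 78) (PT.lf (nat_lit 55328) (nat_lit 6) (nat_lit 728) (nat_lit 2) (nat_lit 187) (nat_lit 202) (nat_lit 181)) (PT.lf (nat_lit 55404) (nat_lit 6) (nat_lit 729) (nat_lit 2) (nat_lit 188) (nat_lit 202) (nat_lit 180))) (PT.nd (nat_lit 78) (PT.lf (nat_lit 55480) (nat_lit 6) (nat_lit 730) (nat_lit 2) (nat_lit 189) (nat_lit 202) (nat_lit 179)) (PT.lf (nat_lit 55556) (nat_lit 6) (nat_lit 731) (nat_lit 2) (nat_lit 190) (nat_lit 202) (nat_lit 178))))))))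
noncomputable def pc39 : PT := (PT.nd (nat_lit 56082) (PT.nd (nat_lit 1092) (PT.nd (nat_lit 546) (PT.nd (nat_lit 234) (PT.nd (nat_lit 78) (PT.lf (nat_lit 54644) (nat_lit 6) (nat_lit 719) (nat_lit 2) (nat_lit 191) (nat_lit 202) (nat_lit 177)) (PT.nd (nat_lit 78) (PT.lf (nat_lit 53656) (nat_lit 6) (nat_lit 706) (nat_lit 2) (nat_lit 192) (nat_lit 202) (nat_lit 176)) (PT.lf (nat_lit 52592) (nat_lit 6) (nat_lit 692) (nat_lit 2) (nat_lit 193) (nat_lit 202) (nat_lit 175)))) (PT.nd (nat_lit 156) (PT.nd (nat_lit 78) (PT.lf (nat_lit 51452) (nat_lit 6) (nat_lit 677) (nat_lit 2) (nat_lit 194) (nat_lit 202) (nat_lit 174)) (PT.lf (nat_lit 50236) (nat_lit 6) (nat_lit 661) (nat_lit 2) (nat_lit 195) (nat_lit 202) (nat_lit 173))) (PT.nd (nat_lit 78) (PT.lf (nat_lit 48944) (nat_lit 6) (nat_lit 644) (nat_lit 2) (nat_lit 196) (nat_lit 202) (nat_lit 172)) (PT.lf (nat_lit 47576) (nat_lit 6) (nat_lit 626) (nat_lit 2) (nat_lit 197) (nat_lit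 202) (nat_lit 171))))) (PT.nd (nat_lit 234) (PT.nd (nat_lit 78) (PT.lf (nat_lit 46132) (nat_lit 6) (nat_lit 607) (nat_lit 2) (nat_lit 198) (nat_lit 202) (nat_lit 170)) (PT.nd (nat_lit 78) (PT.lf (nat_lit 44612) (nat_lit 6) (nat_lit 587) (nat_lit 2) (nat_lit 199) (nat_lit 202) (nat_lit 169)) (PT.lf (nat_lit 43016) (nat_lit 6) (nat_lit 566) (nat_lit 2) (nat_lit 200) (nat_lit 202) (nat_lit 168)))) (PT.nd (nat_lit 156) (PT.nd (nat_lit 78) (PT.lf (nat_lit 41344) (nat_lit 6) (nat_lit 544) (nat_lit 2) (nat_lit 201) (nat_lit 202) (nat_lit 167)) (PT.lf (nat_lit 39596) (nat_lit 3) (nat_lit 521) (nat_lit 0) (nat_lit 202) (nat_lit 202) (nat_lit 166))) (PT.nd (nat_lit 78) (PT.lf (nat_lit 37696) (nat_lit 6) (nat_lit 496) (nat_lit 0) (nat_lit 203) (nat_lit 202) (nat_lit 165)) (PT.lf (nat_lit 36480) (nat_lit 6) (nat_lit 480) (nat_lit 0) (nat_lit 204) (nat_lit 202) (nat_lit 164)))))) (PT.nd (nat_lit 546) (PT.nd (nat_lit 234) (PT.nd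 (nat_lit 78) (PT.lf (nat_lit 35492) (nat_lit 6) (nat_lit 467) (nat_lit 0) (nat_lit 205) (nat_lit 202) (nat_lit 163)) (PT.nd (nat_lit 78) (PT.lf (nat_lit 34504) (nat_lit 6) (nat_lit 454) (nat_lit 0) (nat_lit 206) (nat_lit 202) (nat_lit 162)) (PT.lf (nat_lit 33592) (nat_lit 6) (nat_lit 442) (nat_lit 0) (nat_lit 207) (nat_lit 202) (nat_lit 161)))) (PT.nd (nat_lit 156) (PT.nd (nat_lit 78) (PT.lf (nat_lit 32604) (nat_lit 6) (nat_lit 429) (nat_lit 0) (nat_lit 208) (nat_lit 202) (nat_lit 160)) (PT.lf (nat_lit 31692) (nat_lit 6) (nat_lit 417) (nat_lit 0) (nat_lit 209) (nat_lit 202) (nat_lit 159))) (PT.nd (nat_lit 78) (PT.lf (nat_lit 30780) (nat_lit 6) (nat_lit 405) (nat_lit 0) (nat_lit 210) (nat_lit 202) (nat_lit 158)) (PT.lf (nat_lit 29944) (nat_lit 6) (nat_lit 394) (nat_lit 0) (nat_lit 211) (nat_lit 202) (nat_lit 157))))) (PT.nd (nat_lit 312) (PT.nd (nat_lit 156) (PT.nd (nat_lit 78) (PT.lf (nat_lit 29108) (nat_lit 6)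 (nat_lit 383) (nat_lit 0) (nat_lit 212) (nat_lit 202) (nat_lit 156)) (PT.lf (nat_lit 28272) (nat_lit 6) (nat_lit 372) (nat_lit 0) (nat_lit 213) (nat_lit 202) (nat_lit 155))) (PT.nd (nat_lit 78) (PT.lf (nat_lit 27436) (nat_lit 6) (nat_lit 361) (nat_lit 0) (nat_lit 214) (nat_lit 202) (nat_lit 154)) (PT.lf (nat_lit 26676) (nat_lit 6) (nat_lit 351) (nat_lit 0) (nat_lit 215) (nat_lit 202) (nat_lit 153)))) (PT.nd (nat_lit 156) (PT.nd (nat_lit 78) (PT.lf (nat_lit 25916) (nat_lit 6) (nat_lit 341) (nat_lit 0) (nat_lit 216) (nat_lit 202) (nat_lit 152)) (PT.lf (nat_lit 25156) (nat_lit 6) (nat_lit 331) (nat_lit 0) (nat_lit 217) (nat_lit 202) (nat_lit 151))) (PT.nd (nat_lit 53898) (PT.lf (nat_lit 24396) (nat_lit 6) (nat_lit 321) (nat_lit 0) (nat_lit 218) (nat_lit 202) (nat_lit 150)) (PT.lf (nat_lit 23104) (nat_lit 6) (nat_lit 304) (nat_lit 5) (nat_lit 148) (nat_lit 203) (nat_lit 219))))))) (PT.nd (nat_lit 1170) (PT.nd (nat_lit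 546) (PT.nd (nat_lit 234) (PT.nd (nat_lit 78) (PT.lf (nat_lit 23788) (nat_lit 6) (nat_lit 313) (nat_lit 5) (nat_lit 149) (nat_lit 203) (nat_lit 218)) (PT.nd (nat_lit 78) (PT.lf (nat_lit 24472) (nat_lit 6) (nat_lit 322) (nat_lit 5) (nat_lit 150) (nat_lit 203) (nat_lit 217)) (PT.lf (nat_lit 25232) (nat_lit 6) (nat_lit 332) (nat_lit 5) (nat_lit 151) (nat_lit 203) (nat_lit 216)))) (PT.nd (nat_lit 156) (PT.nd (nat_lit 78) (PT.lf (nat_lit 25992) (nat_lit 6) (nat_lit 342) (nat_lit 5) (nat_lit 152) (nat_lit 203) (nat_lit 215)) (PT.lf (nat_lit 26752) (nat_lit 6) (nat_lit 352) (nat_lit 5) (nat_lit 153) (nat_lit 203) (nat_lit 214))) (PT.nd (nat_lit 78) (PT.lf (nat_lit 27512) (nat_lit 6) (nat_lit 362) (nat_lit 5) (nat_lit 154) (nat_lit 203) (nat_lit 213)) (PT.lf (nat_lit 28348) (nat_lit 6) (nat_lit 373) (nat_lit 5) (nat_lit 155) (nat_lit 203) (nat_lit 212))))) (PT.nd (nat_lit 312) (PT.nd (nat_lit 156) (PT.nd (nat_lit 78) (PT.lf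 (nat_lit 29184) (nat_lit 6) (nat_lit 384) (nat_lit 5) (nat_lit 156) (nat_lit 203) (nat_lit 211)) (PT.lf (nat_lit 30020) (nat_lit 6) (nat_lit 395) (nat_lit 5) (nat_lit 157) (nat_lit 203) (nat_lit 210))) (PT.nd (nat_lit 78) (PT.lf (nat_lit 30856) (nat_lit 6) (nat_lit 406) (nat_lit 5) (nat_lit 158) (nat_lit 203) (nat_lit 209)) (PT.lf (nat_lit 31768) (nat_lit 6) (nat_lit 418) (nat_lit 5) (nat_lit 159) (nat_lit 203) (nat_lit 208)))) (PT.nd (nat_lit 156) (PT.nd (nat_lit 78) (PT.lf (nat_lit 32680) (nat_lit 6) (nat_lit 430) (nat_lit 5) (nat_lit 160) (nat_lit 203) (nat_lit 207)) (PT.lf (nat_lit 33668) (nat_lit 6) (nat_lit 443) (nat_lit 5) (nat_lit 161) (nat_lit 203) (nat_lit 206))) (PT.nd (nat_lit 78) (PT.lf (nat_lit 34580) (nat_lit 6) (nat_lit 455) (nat_lit 5) (nat_lit 162) (nat_lit 203) (nat_lit 205)) (PT.lf (nat_lit 35568) (nat_lit 6) (nat_lit 468) (nat_lit 5) (nat_lit 163) (nat_lit 203) (nat_lit 204)))))) (PT.nd (nat_lit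 546) (PT.nd (nat_lit 234) (PT.nd (nat_lit 78) (PT.lf (nat_lit 36556) (nat_lit 3) (nat_lit 481) (nat_lit 4) (nat_lit 164) (nat_lit 203) (nat_lit 203)) (PT.nd (nat_lit 78) (PT.lf (nat_lit 37696) (nat_lit 6) (nat_lit 496) (nat_lit 4) (nat_lit 165) (nat_lit 203) (nat_lit 202)) (PT.lf (nat_lit 39520) (nat_lit 6) (nat_lit 520) (nat_lit 4) (nat_lit 166) (nat_lit 203) (nat_lit 201)))) (PT.nd (nat_lit 156) (PT.nd (nat_lit 78) (PT.lf (nat_lit 41268) (nat_lit 6) (nat_lit 543) (nat_lit 4) (nat_lit 167) (nat_lit 203) (nat_lit 200)) (PT.lf (nat_lit 42940) (nat_lit 6) (nat_lit 565) (nat_lit 4) (nat_lit 168) (nat_lit 203) (nat_lit 199))) (PT.nd (nat_lit 78) (PT.lf (nat_lit 44536) (nat_lit 6) (nat_lit 586) (nat_lit 4) (nat_lit 169) (nat_lit 203) (nat_lit 198)) (PT.lf (nat_lit 46056) (nat_lit 6) (nat_lit 606) (nat_lit 4) (nat_lit 170) (nat_lit 203) (nat_lit 197))))) (PT.nd (nat_lit 312) (PT.nd (nat_lit 156) (PT.nd (nat_lit 78) (PT.lf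 (nat_lit 47500) (nat_lit 6) (nat_lit 625) (nat_lit 4) (nat_lit 171) (nat_lit 203) (nat_lit 196)) (PT.lf (nat_lit 48868) (nat_lit 6) (nat_lit 643) (nat_lit 4) (nat_lit 172) (nat_lit 203) (nat_lit 195))) (PT.nd (nat_lit 78) (PT.lf (nat_lit 50160) (nat_lit 6) (nat_lit 660) (nat_lit 4) (nat_lit 173) (nat_lit 203) (nat_lit 194)) (PT.lf (nat_lit 51376) (nat_lit 6) (nat_lit 676) (nat_lit 4) (nat_lit 174) (nat_lit 203) (nat_lit 193)))) (PT.nd (nat_lit 156) (PT.nd (nat_lit 78) (PT.lf (nat_lit 52516) (nat_lit 6) (nat_lit 691) (nat_lit 4) (nat_lit 175) (nat_lit 203) (nat_lit 192)) (PT.lf (nat_lit 53580) (nat_lit 6) (nat_lit 705) (nat_lit 4) (nat_lit 176) (nat_lit 203) (nat_lit 191))) (PT.nd (nat_lit 78) (PT.lf (nat_lit 54568) (nat_lit 6) (nat_lit 718) (nat_lit 4) (nat_lit 177) (nat_lit 203) (nat_lit 190)) (PT.lf (nat_lit 54492) (nat_lit 6) (nat_lit 717) (nat_lit 4) (nat_lit 178) (nat_lit 203) (nat_lit 189))))))))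
noncomputable def pc40 : PT := (PT.nd (nat_lit 2262) (PT.nd (nat_lit 1092) (PT.nd (nat_lit 546) (PT.nd (nat_lit 234) (PT.nd (nat_lit 78) (PT.lf (nat_lit 54416) (nat_lit 6) (nat_lit 716) (nat_lit 4) (nat_lit 179) (nat_lit 203) (nat_lit 188)) (PT.nd (nat_lit 78) (PT.lf (nat_lit 54340) (nat_lit 6) (nat_lit 715) (nat_lit 4) (nat_lit 180) (nat_lit 203) (nat_lit 187)) (PT.lf (nat_lit 54264) (nat_lit 6) (nat_lit 714) (nat_lit 4) (nat_lit 181) (nat_lit 203) (nat_lit 186)))) (PT.nd (nat_lit 156) (PT.nd (nat_lit 78) (PT.lf (nat_lit 54188) (nat_lit 6) (nat_lit 713) (nat_lit 4) (nat_lit 182) (nat_lit 203) (nat_lit 185)) (PT.lf (nat_lit 54112) (nat_lit 6) (nat_lit 712) (nat_lit 4) (nat_lit 183) (nat_lit 203) (nat_lit 184))) (PT.nd (nat_lit 78) (PT.lf (nat_lit 54112) (nat_lit 6) (nat_lit 712) (nat_lit 2) (nat_lit 184) (nat_lit 203) (nat_lit 183)) (PT.lf (nat_lit 54188) (nat_lit 6) (nat_lit 713) (nat_lit 2) (nat_lit 185) (nat_lit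 203) (nat_lit 182))))) (PT.nd (nat_lit 234) (PT.nd (nat_lit 78) (PT.lf (nat_lit 54264) (nat_lit 6) (nat_lit 714) (nat_lit 2) (nat_lit 186) (nat_lit 203) (nat_lit 181)) (PT.nd (nat_lit 78) (PT.lf (nat_lit 54340) (nat_lit 6) (nat_lit 715) (nat_lit 2) (nat_lit 187) (nat_lit 203) (nat_lit 180)) (PT.lf (nat_lit 54416) (nat_lit 6) (nat_lit 716) (nat_lit 2) (nat_lit 188) (nat_lit 203) (nat_lit 179)))) (PT.nd (nat_lit 156) (PT.nd (nat_lit 78) (PT.lf (nat_lit 54492) (nat_lit 6) (nat_lit 717) (nat_lit 2) (nat_lit 189) (nat_lit 203) (nat_lit 178)) (PT.lf (nat_lit 54568) (nat_lit 6) (nat_lit 718) (nat_lit 2) (nat_lit 190) (nat_lit 203) (nat_lit 177))) (PT.nd (nat_lit 78) (PT.lf (nat_lit 53580) (nat_lit 6) (nat_lit 705) (nat_lit 2) (nat_lit 191) (nat_lit 203) (nat_lit 176)) (PT.lf (nat_lit 52516) (nat_lit 6) (nat_lit 691) (nat_lit 2) (nat_lit 192) (nat_lit 203) (nat_lit 175)))))) (PT.nd (nat_lit 546) (PT.nd (nat_lit 234) (PT.nd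 (nat_lit 78) (PT.lf (nat_lit 51376) (nat_lit 6) (nat_lit 676) (nat_lit 2) (nat_lit 193) (nat_lit 203) (nat_lit 174)) (PT.nd (nat_lit 78) (PT.lf (nat_lit 50160) (nat_lit 6) (nat_lit 660) (nat_lit 2) (nat_lit 194) (nat_lit 203) (nat_lit 173)) (PT.lf (nat_lit 48868) (nat_lit 6) (nat_lit 643) (nat_lit 2) (nat_lit 195) (nat_lit 203) (nat_lit 172)))) (PT.nd (nat_lit 156) (PT.nd (nat_lit 78) (PT.lf (nat_lit 47500) (nat_lit 6) (nat_lit 625) (nat_lit 2) (nat_lit 196) (nat_lit 203) (nat_lit 171)) (PT.lf (nat_lit 46056) (nat_lit 6) (nat_lit 606) (nat_lit 2) (nat_lit 197) (nat_lit 203) (nat_lit 170))) (PT.nd (nat_lit 78) (PT.lf (nat_lit 44536) (nat_lit 6) (nat_lit 586) (nat_lit 2) (nat_lit 198) (nat_lit 203) (nat_lit 169)) (PT.lf (nat_lit 42940) (nat_lit 6) (nat_lit 565) (nat_lit 2) (nat_lit 199) (nat_lit 203) (nat_lit 168))))) (PT.nd (nat_lit 312) (PT.nd (nat_lit 156) (PT.nd (nat_lit 78) (PT.lf (nat_lit 41268) (nat_lit 6)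 (nat_lit 543) (nat_lit 2) (nat_lit 200) (nat_lit 203) (nat_lit 167)) (PT.lf (nat_lit 39520) (nat_lit 6) (nat_lit 520) (nat_lit 2) (nat_lit 201) (nat_lit 203) (nat_lit 166))) (PT.nd (nat_lit 78) (PT.lf (nat_lit 37696) (nat_lit 6) (nat_lit 496) (nat_lit 2) (nat_lit 202) (nat_lit 203) (nat_lit 165)) (PT.lf (nat_lit 36556) (nat_lit 3) (nat_lit 481) (nat_lit 0) (nat_lit 203) (nat_lit 203) (nat_lit 164)))) (PT.nd (nat_lit 156) (PT.nd (nat_lit 78) (PT.lf (nat_lit 35568) (nat_lit 6) (nat_lit 468) (nat_lit 0) (nat_lit 204) (nat_lit 203) (nat_lit 163)) (PT.lf (nat_lit 34580) (nat_lit 6) (nat_lit 455) (nat_lit 0) (nat_lit 205) (nat_lit 203) (nat_lit 162))) (PT.nd (nat_lit 78) (PT.lf (nat_lit 33668) (nat_lit 6) (nat_lit 443) (nat_lit 0) (nat_lit 206) (nat_lit 203) (nat_lit 161)) (PT.lf (nat_lit 32680) (nat_lit 6) (nat_lit 430) (nat_lit 0) (nat_lit 207) (nat_lit 203) (nat_lit 160))))))) (PT.nd (nat_lit 54756) (PT.nd (nat_lit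 546) (PT.nd (nat_lit 234) (PT.nd (nat_lit 78) (PT.lf (nat_lit 31768) (nat_lit 6) (nat_lit 418) (nat_lit 0) (nat_lit 208) (nat_lit 203) (nat_lit 159)) (PT.nd (nat_lit 78) (PT.lf (nat_lit 30856) (nat_lit 6) (nat_lit 406) (nat_lit 0) (nat_lit 209) (nat_lit 203) (nat_lit 158)) (PT.lf (nat_lit 30020) (nat_lit 6) (nat_lit 395) (nat_lit 0) (nat_lit 210) (nat_lit 203) (nat_lit 157)))) (PT.nd (nat_lit 156) (PT.nd (nat_lit 78) (PT.lf (nat_lit 29184) (nat_lit 6) (nat_lit 384) (nat_lit 0) (nat_lit 211) (nat_lit 203) (nat_lit 156)) (PT.lf (nat_lit 28348) (nat_lit 6) (nat_lit 373) (nat_lit 0) (nat_lit 212) (nat_lit 203) (nat_lit 155))) (PT.nd (nat_lit 78) (PT.lf (nat_lit 27512) (nat_lit 6) (nat_lit 362) (nat_lit 0) (nat_lit 213) (nat_lit 203) (nat_lit 154)) (PT.lf (nat_lit 26752) (nat_lit 6) (nat_lit 352) (nat_lit 0) (nat_lit 214) (nat_lit 203) (nat_lit 153))))) (PT.nd (nat_lit 234) (PT.nd (nat_lit 78) (PT.lf (nat_lit 25992)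 (nat_lit 6) (nat_lit 342) (nat_lit 0) (nat_lit 215) (nat_lit 203) (nat_lit 152)) (PT.nd (nat_lit 78) (PT.lf (nat_lit 25232) (nat_lit 6) (nat_lit 332) (nat_lit 0) (nat_lit 216) (nat_lit 203) (nat_lit 151)) (PT.lf (nat_lit 24472) (nat_lit 6) (nat_lit 322) (nat_lit 0) (nat_lit 217) (nat_lit 203) (nat_lit 150)))) (PT.nd (nat_lit 53820) (PT.nd (nat_lit 78) (PT.lf (nat_lit 23788) (nat_lit 6) (nat_lit 313) (nat_lit 0) (nat_lit 218) (nat_lit 203) (nat_lit 149)) (PT.lf (nat_lit 23104) (nat_lit 6) (nat_lit 304) (nat_lit 0) (nat_lit 219) (nat_lit 203) (nat_lit 148))) (PT.nd (nat_lit 78) (PT.lf (nat_lit 22496) (nat_lit 6) (nat_lit 296) (nat_lit 5) (nat_lit 147) (nat_lit 204) (nat_lit 219)) (PT.lf (nat_lit 23180) (nat_lit 6) (nat_lit 305) (nat_lit 5) (nat_lit 148) (nat_lit 204) (nat_lit 218)))))) (PT.nd (nat_lit 546) (PT.nd (nat_lit 234) (PT.nd (nat_lit 78) (PT.lf (nat_lit 23864) (nat_lit 6) (nat_lit 314) (nat_lit 5) (nat_lit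 149) (nat_lit 204) (nat_lit 217)) (PT.nd (nat_lit 78) (PT.lf (nat_lit 24548) (nat_lit 6) (nat_lit 323) (nat_lit 5) (nat_lit 150) (nat_lit 204) (nat_lit 216)) (PT.lf (nat_lit 25308) (nat_lit 6) (nat_lit 333) (nat_lit 5) (nat_lit 151) (nat_lit 204) (nat_lit 215)))) (PT.nd (nat_lit 156) (PT.nd (nat_lit 78) (PT.lf (nat_lit 26068) (nat_lit 6) (nat_lit 343) (nat_lit 5) (nat_lit 152) (nat_lit 204) (nat_lit 214)) (PT.lf (nat_lit 26828) (nat_lit 6) (nat_lit 353) (nat_lit 5) (nat_lit 153) (nat_lit 204) (nat_lit 213))) (PT.nd (nat_lit 78) (PT.lf (nat_lit 27588) (nat_lit 6) (nat_lit 363) (nat_lit 5) (nat_lit 154) (nat_lit 204) (nat_lit 212)) (PT.lf (nat_lit 28424) (nat_lit 6) (nat_lit 374) (nat_lit 5) (nat_lit 155) (nat_lit 204) (nat_lit 211))))) (PT.nd (nat_lit 312) (PT.nd (nat_lit 156) (PT.nd (nat_lit 78) (PT.lf (nat_lit 29260) (nat_lit 6) (nat_lit 385) (nat_lit 5) (nat_lit 156) (nat_lit 204) (nat_lit 210)) (PT.lf (nat_lit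 30096) (nat_lit 6) (nat_lit 396) (nat_lit 5) (nat_lit 157) (nat_lit 204) (nat_lit 209))) (PT.nd (nat_lit 78) (PT.lf (nat_lit 30932) (nat_lit 6) (nat_lit 407) (nat_lit 5) (nat_lit 158) (nat_lit 204) (nat_lit 208)) (PT.lf (nat_lit 31844) (nat_lit 6) (nat_lit 419) (nat_lit 5) (nat_lit 159) (nat_lit 204) (nat_lit 207)))) (PT.nd (nat_lit 156) (PT.nd (nat_lit 78) (PT.lf (nat_lit 32756) (nat_lit 6) (nat_lit 431) (nat_lit 5) (nat_lit 160) (nat_lit 204) (nat_lit 206)) (PT.lf (nat_lit 33744) (nat_lit 6) (nat_lit 444) (nat_lit 5) (nat_lit 161) (nat_lit 204) (nat_lit 205))) (PT.nd (nat_lit 78) (PT.lf (nat_lit 34656) (nat_lit 3) (nat_lit 456) (nat_lit 4) (nat_lit 162) (nat_lit 204) (nat_lit 204)) (PT.lf (nat_lit 35568) (nat_lit 6) (nat_lit 468) (nat_lit 4) (nat_lit 163) (nat_lit 204) (nat_lit 203))))))))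
noncomputable def pc41 : PT := (PT.nd (nat_lit 2262) (PT.nd (nat_lit 1092) (PT.nd (nat_lit 546) (PT.nd (nat_lit 234) (PT.nd (nat_lit 78) (PT.lf (nat_lit 36480) (nat_lit 6) (nat_lit 480) (nat_lit 4) (nat_lit 164) (nat_lit 204) (nat_lit 202)) (PT.nd (nat_lit 78) (PT.lf (nat_lit 37620) (nat_lit 6) (nat_lit 495) (nat_lit 4) (nat_lit 165) (nat_lit 204) (nat_lit 201)) (PT.lf (nat_lit 39444) (nat_lit 6) (nat_lit 519) (nat_lit 4) (nat_lit 166) (nat_lit 204) (nat_lit 200)))) (PT.nd (nat_lit 156) (PT.nd (nat_lit 78) (PT.lf (nat_lit 41192) (nat_lit 6) (nat_lit 542) (nat_lit 4) (nat_lit 167) (nat_lit 204) (nat_lit 199)) (PT.lf (nat_lit 42864) (nat_lit 6) (nat_lit 564) (nat_lit 4) (nat_lit 168) (nat_lit 204) (nat_lit 198))) (PT.nd (nat_lit 78) (PT.lf (nat_lit 44460) (nat_lit 6) (nat_lit 585) (nat_lit 4) (nat_lit 169) (nat_lit 204) (nat_lit 197)) (PT.lf (nat_lit 45980) (nat_lit 6) (nat_lit 605) (nat_lit 4) (nat_lit 170) (nat_lit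 204) (nat_lit 196))))) (PT.nd (nat_lit 234) (PT.nd (nat_lit 78) (PT.lf (nat_lit 47424) (nat_lit 6) (nat_lit 624) (nat_lit 4) (nat_lit 171) (nat_lit 204) (nat_lit 195)) (PT.nd (nat_lit 78) (PT.lf (nat_lit 48792) (nat_lit 6) (nat_lit 642) (nat_lit 4) (nat_lit 172) (nat_lit 204) (nat_lit 194)) (PT.lf (nat_lit 50084) (nat_lit 6) (nat_lit 659) (nat_lit 4) (nat_lit 173) (nat_lit 204) (nat_lit 193)))) (PT.nd (nat_lit 156) (PT.nd (nat_lit 78) (PT.lf (nat_lit 51300) (nat_lit 6) (nat_lit 675) (nat_lit 4) (nat_lit 174) (nat_lit 204) (nat_lit 192)) (PT.lf (nat_lit 52440) (nat_lit 6) (nat_lit 690) (nat_lit 4) (nat_lit 175) (nat_lit 204) (nat_lit 191))) (PT.nd (nat_lit 78) (PT.lf (nat_lit 53504) (nat_lit 6) (nat_lit 704) (nat_lit 4) (nat_lit 176) (nat_lit 204) (nat_lit 190)) (PT.lf (nat_lit 53428) (nat_lit 6) (nat_lit 703) (nat_lit 4) (nat_lit 177) (nat_lit 204) (nat_lit 189)))))) (PT.nd (nat_lit 546) (PT.nd (nat_lit 234) (PT.nd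 (nat_lit 78) (PT.lf (nat_lit 53352) (nat_lit 6) (nat_lit 702) (nat_lit 4) (nat_lit 178) (nat_lit 204) (nat_lit 188)) (PT.nd (nat_lit 78) (PT.lf (nat_lit 53276) (nat_lit 6) (nat_lit 701) (nat_lit 4) (nat_lit 179) (nat_lit 204) (nat_lit 187)) (PT.lf (nat_lit 53200) (nat_lit 6) (nat_lit 700) (nat_lit 4) (nat_lit 180) (nat_lit 204) (nat_lit 186)))) (PT.nd (nat_lit 156) (PT.nd (nat_lit 78) (PT.lf (nat_lit 53124) (nat_lit 6) (nat_lit 699) (nat_lit 4) (nat_lit 181) (nat_lit 204) (nat_lit 185)) (PT.lf (nat_lit 53048) (nat_lit 6) (nat_lit 698) (nat_lit 4) (nat_lit 182) (nat_lit 204) (nat_lit 184))) (PT.nd (nat_lit 78) (PT.lf (nat_lit 52972) (nat_lit 3) (nat_lit 697) (nat_lit 2) (nat_lit 183) (nat_lit 204) (nat_lit 183)) (PT.lf (nat_lit 53048) (nat_lit 6) (nat_lit 698) (nat_lit 2) (nat_lit 184) (nat_lit 204) (nat_lit 182))))) (PT.nd (nat_lit 312) (PT.nd (nat_lit 156) (PT.nd (nat_lit 78) (PT.lf (nat_lit 53124) (nat_lit 6)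 (nat_lit 699) (nat_lit 2) (nat_lit 185) (nat_lit 204) (nat_lit 181)) (PT.lf (nat_lit 53200) (nat_lit 6) (nat_lit 700) (nat_lit 2) (nat_lit 186) (nat_lit 204) (nat_lit 180))) (PT.nd (nat_lit 78) (PT.lf (nat_lit 53276) (nat_lit 6) (nat_lit 701) (nat_lit 2) (nat_lit 187) (nat_lit 204) (nat_lit 179)) (PT.lf (nat_lit 53352) (nat_lit 6) (nat_lit 702) (nat_lit 2) (nat_lit 188) (nat_lit 204) (nat_lit 178)))) (PT.nd (nat_lit 156) (PT.nd (nat_lit 78) (PT.lf (nat_lit 53428) (nat_lit 6) (nat_lit 703) (nat_lit 2) (nat_lit 189) (nat_lit 204) (nat_lit 177)) (PT.lf (nat_lit 53504) (nat_lit 6) (nat_lit 704) (nat_lit 2) (nat_lit 190) (nat_lit 204) (nat_lit 176))) (PT.nd (nat_lit 78) (PT.lf (nat_lit 52440) (nat_lit 6) (nat_lit 690) (nat_lit 2) (nat_lit 191) (nat_lit 204) (nat_lit 175)) (PT.lf (nat_lit 51300) (nat_lit 6) (nat_lit 675) (nat_lit 2) (nat_lit 192) (nat_lit 204) (nat_lit 174))))))) (PT.nd (nat_lit 1170) (PT.nd (nat_lit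 546) (PT.nd (nat_lit 234) (PT.nd (nat_lit 78) (PT.lf (nat_lit 50084) (nat_lit 6) (nat_lit 659) (nat_lit 2) (nat_lit 193) (nat_lit 204) (nat_lit 173)) (PT.nd (nat_lit 78) (PT.lf (nat_lit 48792) (nat_lit 6) (nat_lit 642) (nat_lit 2) (nat_lit 194) (nat_lit 204) (nat_lit 172)) (PT.lf (nat_lit 47424) (nat_lit 6) (nat_lit 624) (nat_lit 2) (nat_lit 195) (nat_lit 204) (nat_lit 171)))) (PT.nd (nat_lit 156) (PT.nd (nat_lit 78) (PT.lf (nat_lit 45980) (nat_lit 6) (nat_lit 605) (nat_lit 2) (nat_lit 196) (nat_lit 204) (nat_lit 170)) (PT.lf (nat_lit 44460) (nat_lit 6) (nat_lit 585) (nat_lit 2) (nat_lit 197) (nat_lit 204) (nat_lit 169))) (PT.nd (nat_lit 78) (PT.lf (nat_lit 42864) (nat_lit 6) (nat_lit 564) (nat_lit 2) (nat_lit 198) (nat_lit 204) (nat_lit 168)) (PT.lf (nat_lit 41192) (nat_lit 6) (nat_lit 542) (nat_lit 2) (nat_lit 199) (nat_lit 204) (nat_lit 167))))) (PT.nd (nat_lit 312) (PT.nd (nat_lit 156) (PT.nd (nat_lit 78) (PT.lf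 (nat_lit 39444) (nat_lit 6) (nat_lit 519) (nat_lit 2) (nat_lit 200) (nat_lit 204) (nat_lit 166)) (PT.lf (nat_lit 37620) (nat_lit 6) (nat_lit 495) (nat_lit 2) (nat_lit 201) (nat_lit 204) (nat_lit 165))) (PT.nd (nat_lit 78) (PT.lf (nat_lit 36480) (nat_lit 6) (nat_lit 480) (nat_lit 2) (nat_lit 202) (nat_lit 204) (nat_lit 164)) (PT.lf (nat_lit 35568) (nat_lit 6) (nat_lit 468) (nat_lit 2) (nat_lit 203) (nat_lit 204) (nat_lit 163)))) (PT.nd (nat_lit 156) (PT.nd (nat_lit 78) (PT.lf (nat_lit 34656) (nat_lit 3) (nat_lit 456) (nat_lit 0) (nat_lit 204) (nat_lit 204) (nat_lit 162)) (PT.lf (nat_lit 33744) (nat_lit 6) (nat_lit 444) (nat_lit 0) (nat_lit 205) (nat_lit 204) (nat_lit 161))) (PT.nd (nat_lit 78) (PT.lf (nat_lit 32756) (nat_lit 6) (nat_lit 431) (nat_lit 0) (nat_lit 206) (nat_lit 204) (nat_lit 160)) (PT.lf (nat_lit 31844) (nat_lit 6) (nat_lit 419) (nat_lit 0) (nat_lit 207) (nat_lit 204) (nat_lit 159)))))) (PT.nd (nat_lit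 546) (PT.nd (nat_lit 234) (PT.nd (nat_lit 78) (PT.lf (nat_lit 30932) (nat_lit 6) (nat_lit 407) (nat_lit 0) (nat_lit 208) (nat_lit 204) (nat_lit 158)) (PT.nd (nat_lit 78) (PT.lf (nat_lit 30096) (nat_lit 6) (nat_lit 396) (nat_lit 0) (nat_lit 209) (nat_lit 204) (nat_lit 157)) (PT.lf (nat_lit 29260) (nat_lit 6) (nat_lit 385) (nat_lit 0) (nat_lit 210) (nat_lit 204) (nat_lit 156)))) (PT.nd (nat_lit 156) (PT.nd (nat_lit 78) (PT.lf (nat_lit 28424) (nat_lit 6) (nat_lit 374) (nat_lit 0) (nat_lit 211) (nat_lit 204) (nat_lit 155)) (PT.lf (nat_lit 27588) (nat_lit 6) (nat_lit 363) (nat_lit 0) (nat_lit 212) (nat_lit 204) (nat_lit 154))) (PT.nd (nat_lit 78) (PT.lf (nat_lit 26828) (nat_lit 6) (nat_lit 353) (nat_lit 0) (nat_lit 213) (nat_lit 204) (nat_lit 153)) (PT.lf (nat_lit 26068) (nat_lit 6) (nat_lit 343) (nat_lit 0) (nat_lit 214) (nat_lit 204) (nat_lit 152))))) (PT.nd (nat_lit 312) (PT.nd (nat_lit 156) (PT.nd (nat_lit 78) (PT.lf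 (nat_lit 25308) (nat_lit 6) (nat_lit 333) (nat_lit 0) (nat_lit 215) (nat_lit 204) (nat_lit 151)) (PT.lf (nat_lit 24548) (nat_lit 6) (nat_lit 323) (nat_lit 0) (nat_lit 216) (nat_lit 204) (nat_lit 150))) (PT.nd (nat_lit 78) (PT.lf (nat_lit 23864) (nat_lit 6) (nat_lit 314) (nat_lit 0) (nat_lit 217) (nat_lit 204) (nat_lit 149)) (PT.lf (nat_lit 23180) (nat_lit 6) (nat_lit 305) (nat_lit 0) (nat_lit 218) (nat_lit 204) (nat_lit 148)))) (PT.nd (nat_lit 53664) (PT.nd (nat_lit 53586) (PT.lf (nat_lit 22496) (nat_lit 6) (nat_lit 296) (nat_lit 0) (nat_lit 219) (nat_lit 204) (nat_lit 147)) (PT.lf (nat_lit 21280) (nat_lit 6) (nat_lit 280) (nat_lit 5) (nat_lit 145) (nat_lit 205) (nat_lit 220))) (PT.nd (nat_lit 78) (PT.lf (nat_lit 21888) (nat_lit 6) (nat_lit 288) (nat_lit 5) (nat_lit 146) (nat_lit 205) (nat_lit 219)) (PT.lf (nat_lit 22572) (nat_lit 6) (nat_lit 297) (nat_lit 5) (nat_lit 147) (nat_lit 205) (nat_lit 218))))))))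
noncomputable def pc42 : PT := (PT.nd (nat_lit 2262) (PT.nd (nat_lit 1092) (PT.nd (nat_lit 546) (PT.nd (nat_lit 234) (PT.nd (nat_lit 78) (PT.lf (nat_lit 23256) (nat_lit 6) (nat_lit 306) (nat_lit 5) (nat_lit 148) (nat_lit 205) (nat_lit 217)) (PT.nd (nat_lit 78) (PT.lf (nat_lit 23940) (nat_lit 6) (nat_lit 315) (nat_lit 5) (nat_lit 149) (nat_lit 205) (nat_lit 216)) (PT.lf (nat_lit 24624) (nat_lit 6) (nat_lit 324) (nat_lit 5) (nat_lit 150) (nat_lit 205) (nat_lit 215)))) (PT.nd (nat_lit 156) (PT.nd (nat_lit 78) (PT.lf (nat_lit 25384) (nat_lit 6) (nat_lit 334) (nat_lit 5) (nat_lit 151) (nat_lit 205) (nat_lit 214)) (PT.lf (nat_lit 26144) (nat_lit 6) (nat_lit 344) (nat_lit 5) (nat_lit 152) (nat_lit 205) (nat_lit 213))) (PT.nd (nat_lit 78) (PT.lf (nat_lit 26904) (nat_lit 6) (nat_lit 354) (nat_lit 5) (nat_lit 153) (nat_lit 205) (nat_lit 212)) (PT.lf (nat_lit 27664) (nat_lit 6) (nat_lit 364) (nat_lit 5) (nat_lit 154) (nat_lit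 205) (nat_lit 211))))) (PT.nd (nat_lit 234) (PT.nd (nat_lit 78) (PT.lf (nat_lit 28500) (nat_lit 6) (nat_lit 375) (nat_lit 5) (nat_lit 155) (nat_lit 205) (nat_lit 210)) (PT.nd (nat_lit 78) (PT.lf (nat_lit 29336) (nat_lit 6) (nat_lit 386) (nat_lit 5) (nat_lit 156) (nat_lit 205) (nat_lit 209)) (PT.lf (nat_lit 30172) (nat_lit 6) (nat_lit 397) (nat_lit 5) (nat_lit 157) (nat_lit 205) (nat_lit 208)))) (PT.nd (nat_lit 156) (PT.nd (nat_lit 78) (PT.lf (nat_lit 31008) (nat_lit 6) (nat_lit 408) (nat_lit 5) (nat_lit 158) (nat_lit 205) (nat_lit 207)) (PT.lf (nat_lit 31920) (nat_lit 6) (nat_lit 420) (nat_lit 5) (nat_lit 159) (nat_lit 205) (nat_lit 206))) (PT.nd (nat_lit 78) (PT.lf (nat_lit 32832) (nat_lit 3) (nat_lit 432) (nat_lit 4) (nat_lit 160) (nat_lit 205) (nat_lit 205)) (PT.lf (nat_lit 33744) (nat_lit 6) (nat_lit 444) (nat_lit 4) (nat_lit 161) (nat_lit 205) (nat_lit 204)))))) (PT.nd (nat_lit 546) (PT.nd (nat_lit 234) (PT.nd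 (nat_lit 78) (PT.lf (nat_lit 34580) (nat_lit 6) (nat_lit 455) (nat_lit 4) (nat_lit 162) (nat_lit 205) (nat_lit 203)) (PT.nd (nat_lit 78) (PT.lf (nat_lit 35492) (nat_lit 6) (nat_lit 467) (nat_lit 4) (nat_lit 163) (nat_lit 205) (nat_lit 202)) (PT.lf (nat_lit 36404) (nat_lit 6) (nat_lit 479) (nat_lit 4) (nat_lit 164) (nat_lit 205) (nat_lit 201)))) (PT.nd (nat_lit 156) (PT.nd (nat_lit 78) (PT.lf (nat_lit 37544) (nat_lit 6) (nat_lit 494) (nat_lit 4) (nat_lit 165) (nat_lit 205) (nat_lit 200)) (PT.lf (nat_lit 39368) (nat_lit 6) (nat_lit 518) (nat_lit 4) (nat_lit 166) (nat_lit 205) (nat_lit 199))) (PT.nd (nat_lit 78) (PT.lf (nat_lit 41116) (nat_lit 6) (nat_lit 541) (nat_lit 4) (nat_lit 167) (nat_lit 205) (nat_lit 198)) (PT.lf (nat_lit 42788) (nat_lit 6) (nat_lit 563) (nat_lit 4) (nat_lit 168) (nat_lit 205) (nat_lit 197))))) (PT.nd (nat_lit 312) (PT.nd (nat_lit 156) (PT.nd (nat_lit 78) (PT.lf (nat_lit 44384) (nat_lit 6)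 (nat_lit 584) (nat_lit 4) (nat_lit 169) (nat_lit 205) (nat_lit 196)) (PT.lf (nat_lit 45904) (nat_lit 6) (nat_lit 604) (nat_lit 4) (nat_lit 170) (nat_lit 205) (nat_lit 195))) (PT.nd (nat_lit 78) (PT.lf (nat_lit 47348) (nat_lit 6) (nat_lit 623) (nat_lit 4) (nat_lit 171) (nat_lit 205) (nat_lit 194)) (PT.lf (nat_lit 48716) (nat_lit 6) (nat_lit 641) (nat_lit 4) (nat_lit 172) (nat_lit 205) (nat_lit 193)))) (PT.nd (nat_lit 156) (PT.nd (nat_lit 78) (PT.lf (nat_lit 50008) (nat_lit 6) (nat_lit 658) (nat_lit 4) (nat_lit 173) (nat_lit 205) (nat_lit 192)) (PT.lf (nat_lit 51224) (nat_lit 6) (nat_lit 674) (nat_lit 4) (nat_lit 174) (nat_lit 205) (nat_lit 191))) (PT.nd (nat_lit 78) (PT.lf (nat_lit 52364) (nat_lit 6) (nat_lit 689) (nat_lit 4) (nat_lit 175) (nat_lit 205) (nat_lit 190)) (PT.lf (nat_lit 52288) (nat_lit 6) (nat_lit 688) (nat_lit 4) (nat_lit 176) (nat_lit 205) (nat_lit 189))))))) (PT.nd (nat_lit 1092) (PT.nd (nat_lit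 546) (PT.nd (nat_lit 234) (PT.nd (nat_lit 78) (PT.lf (nat_lit 52212) (nat_lit 6) (nat_lit 687) (nat_lit 4) (nat_lit 177) (nat_lit 205) (nat_lit 188)) (PT.nd (nat_lit 78) (PT.lf (nat_lit 52136) (nat_lit 6) (nat_lit 686) (nat_lit 4) (nat_lit 178) (nat_lit 205) (nat_lit 187)) (PT.lf (nat_lit 52060) (nat_lit 6) (nat_lit 685) (nat_lit 4) (nat_lit 179) (nat_lit 205) (nat_lit 186)))) (PT.nd (nat_lit 156) (PT.nd (nat_lit 78) (PT.lf (nat_lit 51984) (nat_lit 6) (nat_lit 684) (nat_lit 4) (nat_lit 180) (nat_lit 205) (nat_lit 185)) (PT.lf (nat_lit 51908) (nat_lit 6) (nat_lit 683) (nat_lit 4) (nat_lit 181) (nat_lit 205) (nat_lit 184))) (PT.nd (nat_lit 78) (PT.lf (nat_lit 51832) (nat_lit 6) (nat_lit 682) (nat_lit 4) (nat_lit 182) (nat_lit 205) (nat_lit 183)) (PT.lf (nat_lit 51832) (nat_lit 6) (nat_lit 682) (nat_lit 2) (nat_lit 183) (nat_lit 205) (nat_lit 182))))) (PT.nd (nat_lit 234) (PT.nd (nat_lit 78) (PT.lf (nat_lit 51908)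 (nat_lit 6) (nat_lit 683) (nat_lit 2) (nat_lit 184) (nat_lit 205) (nat_lit 181)) (PT.nd (nat_lit 78) (PT.lf (nat_lit 51984) (nat_lit 6) (nat_lit 684) (nat_lit 2) (nat_lit 185) (nat_lit 205) (nat_lit 180)) (PT.lf (nat_lit 52060) (nat_lit 6) (nat_lit 685) (nat_lit 2) (nat_lit 186) (nat_lit 205) (nat_lit 179)))) (PT.nd (nat_lit 156) (PT.nd (nat_lit 78) (PT.lf (nat_lit 52136) (nat_lit 6) (nat_lit 686) (nat_lit 2) (nat_lit 187) (nat_lit 205) (nat_lit 178)) (PT.lf (nat_lit 52212) (nat_lit 6) (nat_lit 687) (nat_lit 2) (nat_lit 188) (nat_lit 205) (nat_lit 177))) (PT.nd (nat_lit 78) (PT.lf (nat_lit 52288) (nat_lit 6) (nat_lit 688) (nat_lit 2) (nat_lit 189) (nat_lit 205) (nat_lit 176)) (PT.lf (nat_lit 52364) (nat_lit 6) (nat_lit 689) (nat_lit 2) (nat_lit 190) (nat_lit 205) (nat_lit 175)))))) (PT.nd (nat_lit 546) (PT.nd (nat_lit 234) (PT.nd (nat_lit 78) (PT.lf (nat_lit 51224) (nat_lit 6) (nat_lit 674) (nat_lit 2) (nat_lit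 191) (nat_lit 205) (nat_lit 174)) (PT.nd (nat_lit 78) (PT.lf (nat_lit 50008) (nat_lit 6) (nat_lit 658) (nat_lit 2) (nat_lit 192) (nat_lit 205) (nat_lit 173)) (PT.lf (nat_lit 48716) (nat_lit 6) (nat_lit 641) (nat_lit 2) (nat_lit 193) (nat_lit 205) (nat_lit 172)))) (PT.nd (nat_lit 156) (PT.nd (nat_lit 78) (PT.lf (nat_lit 47348) (nat_lit 6) (nat_lit 623) (nat_lit 2) (nat_lit 194) (nat_lit 205) (nat_lit 171)) (PT.lf (nat_lit 45904) (nat_lit 6) (nat_lit 604) (nat_lit 2) (nat_lit 195) (nat_lit 205) (nat_lit 170))) (PT.nd (nat_lit 78) (PT.lf (nat_lit 44384) (nat_lit 6) (nat_lit 584) (nat_lit 2) (nat_lit 196) (nat_lit 205) (nat_lit 169)) (PT.lf (nat_lit 42788) (nat_lit 6) (nat_lit 563) (nat_lit 2) (nat_lit 197) (nat_lit 205) (nat_lit 168))))) (PT.nd (nat_lit 312) (PT.nd (nat_lit 156) (PT.nd (nat_lit 78) (PT.lf (nat_lit 41116) (nat_lit 6) (nat_lit 541) (nat_lit 2) (nat_lit 198) (nat_lit 205) (nat_lit 167)) (PT.lf (nat_lit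 39368) (nat_lit 6) (nat_lit 518) (nat_lit 2) (nat_lit 199) (nat_lit 205) (nat_lit 166))) (PT.nd (nat_lit 78) (PT.lf (nat_lit 37544) (nat_lit 6) (nat_lit 494) (nat_lit 2) (nat_lit 200) (nat_lit 205) (nat_lit 165)) (PT.lf (nat_lit 36404) (nat_lit 6) (nat_lit 479) (nat_lit 2) (nat_lit 201) (nat_lit 205) (nat_lit 164)))) (PT.nd (nat_lit 156) (PT.nd (nat_lit 78) (PT.lf (nat_lit 35492) (nat_lit 6) (nat_lit 467) (nat_lit 2) (nat_lit 202) (nat_lit 205) (nat_lit 163)) (PT.lf (nat_lit 34580) (nat_lit 6) (nat_lit 455) (nat_lit 2) (nat_lit 203) (nat_lit 205) (nat_lit 162))) (PT.nd (nat_lit 78) (PT.lf (nat_lit 33744) (nat_lit 6) (nat_lit 444) (nat_lit 2) (nat_lit 204) (nat_lit 205) (nat_lit 161)) (PT.lf (nat_lit 32832) (nat_lit 3) (nat_lit 432) (nat_lit 0) (nat_lit 205) (nat_lit 205) (nat_lit 160))))))))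
noncomputable def pc43 : PT := (PT.nd (nat_lit 55614) (PT.nd (nat_lit 1092) (PT.nd (nat_lit 546) (PT.nd (nat_lit 234) (PT.nd (nat_lit 78) (PT.lf (nat_lit 31920) (nat_lit 6) (nat_lit 420) (nat_lit 0) (nat_lit 206) (nat_lit 205) (nat_lit 159)) (PT.nd (nat_lit 78) (PT.lf (nat_lit 31008) (nat_lit 6) (nat_lit 408) (nat_lit 0) (nat_lit 207) (nat_lit 205) (nat_lit 158)) (PT.lf (nat_lit 30172) (nat_lit 6) (nat_lit 397) (nat_lit 0) (nat_lit 208) (nat_lit 205) (nat_lit 157)))) (PT.nd (nat_lit 156) (PT.nd (nat_lit 78) (PT.lf (nat_lit 29336) (nat_lit 6) (nat_lit 386) (nat_lit 0) (nat_lit 209) (nat_lit 205) (nat_lit 156)) (PT.lf (nat_lit 28500) (nat_lit 6) (nat_lit 375) (nat_lit 0) (nat_lit 210) (nat_lit 205) (nat_lit 155))) (PT.nd (nat_lit 78) (PT.lf (nat_lit 27664) (nat_lit 6) (nat_lit 364) (nat_lit 0) (nat_lit 211) (nat_lit 205) (nat_lit 154)) (PT.lf (nat_lit 26904) (nat_lit 6) (nat_lit 354) (nat_lit 0) (nat_lit 212) (nat_lit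 205) (nat_lit 153))))) (PT.nd (nat_lit 234) (PT.nd (nat_lit 78) (PT.lf (nat_lit 26144) (nat_lit 6) (nat_lit 344) (nat_lit 0) (nat_lit 213) (nat_lit 205) (nat_lit 152)) (PT.nd (nat_lit 78) (PT.lf (nat_lit 25384) (nat_lit 6) (nat_lit 334) (nat_lit 0) (nat_lit 214) (nat_lit 205) (nat_lit 151)) (PT.lf (nat_lit 24624) (nat_lit 6) (nat_lit 324) (nat_lit 0) (nat_lit 215) (nat_lit 205) (nat_lit 150)))) (PT.nd (nat_lit 156) (PT.nd (nat_lit 78) (PT.lf (nat_lit 23940) (nat_lit 6) (nat_lit 315) (nat_lit 0) (nat_lit 216) (nat_lit 205) (nat_lit 149)) (PT.lf (nat_lit 23256) (nat_lit 6) (nat_lit 306) (nat_lit 0) (nat_lit 217) (nat_lit 205) (nat_lit 148))) (PT.nd (nat_lit 78) (PT.lf (nat_lit 22572) (nat_lit 6) (nat_lit 297) (nat_lit 0) (nat_lit 218) (nat_lit 205) (nat_lit 147)) (PT.lf (nat_lit 21888) (nat_lit 6) (nat_lit 288) (nat_lit 0) (nat_lit 219) (nat_lit 205) (nat_lit 146)))))) (PT.nd (nat_lit 53898) (PT.nd (nat_lit 53586)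 (PT.nd (nat_lit 53430) (PT.lf (nat_lit 21280) (nat_lit 6) (nat_lit 280) (nat_lit 0) (nat_lit 220) (nat_lit 205) (nat_lit 145)) (PT.nd (nat_lit 78) (PT.lf (nat_lit 20672) (nat_lit 6) (nat_lit 272) (nat_lit 5) (nat_lit 144) (nat_lit 206) (nat_lit 220)) (PT.lf (nat_lit 21356) (nat_lit 6) (nat_lit 281) (nat_lit 5) (nat_lit 145) (nat_lit 206) (nat_lit 219)))) (PT.nd (nat_lit 156) (PT.nd (nat_lit 78) (PT.lf (nat_lit 21964) (nat_lit 6) (nat_lit 289) (nat_lit 5) (nat_lit 146) (nat_lit 206) (nat_lit 218)) (PT.lf (nat_lit 22648) (nat_lit 6) (nat_lit 298) (nat_lit 5) (nat_lit 147) (nat_lit 206) (nat_lit 217))) (PT.nd (nat_lit 78) (PT.lf (nat_lit 23332) (nat_lit 6) (nat_lit 307) (nat_lit 5) (nat_lit 148) (nat_lit 206) (nat_lit 216)) (PT.lf (nat_lit 24016) (nat_lit 6) (nat_lit 316) (nat_lit 5) (nat_lit 149) (nat_lit 206) (nat_lit 215))))) (PT.nd (nat_lit 312) (PT.nd (nat_lit 156) (PT.nd (nat_lit 78) (PT.lf (nat_lit 24700) (nat_lit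 6) (nat_lit 325) (nat_lit 5) (nat_lit 150) (nat_lit 206) (nat_lit 214)) (PT.lf (nat_lit 25460) (nat_lit 6) (nat_lit 335) (nat_lit 5) (nat_lit 151) (nat_lit 206) (nat_lit 213))) (PT.nd (nat_lit 78) (PT.lf (nat_lit 26220) (nat_lit 6) (nat_lit 345) (nat_lit 5) (nat_lit 152) (nat_lit 206) (nat_lit 212)) (PT.lf (nat_lit 26980) (nat_lit 6) (nat_lit 355) (nat_lit 5) (nat_lit 153) (nat_lit 206) (nat_lit 211)))) (PT.nd (nat_lit 156) (PT.nd (nat_lit 78) (PT.lf (nat_lit 27740) (nat_lit 6) (nat_lit 365) (nat_lit 5) (nat_lit 154) (nat_lit 206) (nat_lit 210)) (PT.lf (nat_lit 28576) (nat_lit 6) (nat_lit 376) (nat_lit 5) (nat_lit 155) (nat_lit 206) (nat_lit 209))) (PT.nd (nat_lit 78) (PT.lf (nat_lit 29412) (nat_lit 6) (nat_lit 387) (nat_lit 5) (nat_lit 156) (nat_lit 206) (nat_lit 208)) (PT.lf (nat_lit 30248) (nat_lit 6) (nat_lit 398) (nat_lit 5) (nat_lit 157) (nat_lit 206) (nat_lit 207))))))) (PT.nd (nat_lit 1170) (PT.nd (nat_lit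 546) (PT.nd (nat_lit 234) (PT.nd (nat_lit 78) (PT.lf (nat_lit 31084) (nat_lit 3) (nat_lit 409) (nat_lit 4) (nat_lit 158) (nat_lit 206) (nat_lit 206)) (PT.nd (nat_lit 78) (PT.lf (nat_lit 31920) (nat_lit 6) (nat_lit 420) (nat_lit 4) (nat_lit 159) (nat_lit 206) (nat_lit 205)) (PT.lf (nat_lit 32756) (nat_lit 6) (nat_lit 431) (nat_lit 4) (nat_lit 160) (nat_lit 206) (nat_lit 204)))) (PT.nd (nat_lit 156) (PT.nd (nat_lit 78) (PT.lf (nat_lit 33668) (nat_lit 6) (nat_lit 443) (nat_lit 4) (nat_lit 161) (nat_lit 206) (nat_lit 203)) (PT.lf (nat_lit 34504) (nat_lit 6) (nat_lit 454) (nat_lit 4) (nat_lit 162) (nat_lit 206) (nat_lit 202))) (PT.nd (nat_lit 78) (PT.lf (nat_lit 35416) (nat_lit 6) (nat_lit 466) (nat_lit 4) (nat_lit 163) (nat_lit 206) (nat_lit 201)) (PT.lf (nat_lit 36328) (nat_lit 6) (nat_lit 478) (nat_lit 4) (nat_lit 164) (nat_lit 206) (nat_lit 200))))) (PT.nd (nat_lit 312) (PT.nd (nat_lit 156) (PT.nd (nat_lit 78) (PT.lf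 (nat_lit 37468) (nat_lit 6) (nat_lit 493) (nat_lit 4) (nat_lit 165) (nat_lit 206) (nat_lit 199)) (PT.lf (nat_lit 39292) (nat_lit 6) (nat_lit 517) (nat_lit 4) (nat_lit 166) (nat_lit 206) (nat_lit 198))) (PT.nd (nat_lit 78) (PT.lf (nat_lit 41040) (nat_lit 6) (nat_lit 540) (nat_lit 4) (nat_lit 167) (nat_lit 206) (nat_lit 197)) (PT.lf (nat_lit 42712) (nat_lit 6) (nat_lit 562) (nat_lit 4) (nat_lit 168) (nat_lit 206) (nat_lit 196)))) (PT.nd (nat_lit 156) (PT.nd (nat_lit 78) (PT.lf (nat_lit 44308) (nat_lit 6) (nat_lit 583) (nat_lit 4) (nat_lit 169) (nat_lit 206) (nat_lit 195)) (PT.lf (nat_lit 45828) (nat_lit 6) (nat_lit 603) (nat_lit 4) (nat_lit 170) (nat_lit 206) (nat_lit 194))) (PT.nd (nat_lit 78) (PT.lf (nat_lit 47272) (nat_lit 6) (nat_lit 622) (nat_lit 4) (nat_lit 171) (nat_lit 206) (nat_lit 193)) (PT.lf (nat_lit 48640) (nat_lit 6) (nat_lit 640) (nat_lit 4) (nat_lit 172) (nat_lit 206) (nat_lit 192)))))) (PT.nd (nat_lit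 546) (PT.nd (nat_lit 234) (PT.nd (nat_lit 78) (PT.lf (nat_lit 49932) (nat_lit 6) (nat_lit 657) (nat_lit 4) (nat_lit 173) (nat_lit 206) (nat_lit 191)) (PT.nd (nat_lit 78) (PT.lf (nat_lit 51148) (nat_lit 6) (nat_lit 673) (nat_lit 4) (nat_lit 174) (nat_lit 206) (nat_lit 190)) (PT.lf (nat_lit 51072) (nat_lit 6) (nat_lit 672) (nat_lit 4) (nat_lit 175) (nat_lit 206) (nat_lit 189)))) (PT.nd (nat_lit 156) (PT.nd (nat_lit 78) (PT.lf (nat_lit 50996) (nat_lit 6) (nat_lit 671) (nat_lit 4) (nat_lit 176) (nat_lit 206) (nat_lit 188)) (PT.lf (nat_lit 50920) (nat_lit 6) (nat_lit 670) (nat_lit 4) (nat_lit 177) (nat_lit 206) (nat_lit 187))) (PT.nd (nat_lit 78) (PT.lf (nat_lit 50844) (nat_lit 6) (nat_lit 669) (nat_lit 4) (nat_lit 178) (nat_lit 206) (nat_lit 186)) (PT.lf (nat_lit 50768) (nat_lit 6) (nat_lit 668) (nat_lit 4) (nat_lit 179) (nat_lit 206) (nat_lit 185))))) (PT.nd (nat_lit 312) (PT.nd (nat_lit 156) (PT.nd (nat_lit 78) (PT.lf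 (nat_lit 50692) (nat_lit 6) (nat_lit 667) (nat_lit 4) (nat_lit 180) (nat_lit 206) (nat_lit 184)) (PT.lf (nat_lit 50616) (nat_lit 6) (nat_lit 666) (nat_lit 4) (nat_lit 181) (nat_lit 206) (nat_lit 183))) (PT.nd (nat_lit 78) (PT.lf (nat_lit 50540) (nat_lit 3) (nat_lit 665) (nat_lit 2) (nat_lit 182) (nat_lit 206) (nat_lit 182)) (PT.lf (nat_lit 50616) (nat_lit 6) (nat_lit 666) (nat_lit 2) (nat_lit 183) (nat_lit 206) (nat_lit 181)))) (PT.nd (nat_lit 156) (PT.nd (nat_lit 78) (PT.lf (nat_lit 50692) (nat_lit 6) (nat_lit 667) (nat_lit 2) (nat_lit 184) (nat_lit 206) (nat_lit 180)) (PT.lf (nat_lit 50768) (nat_lit 6) (nat_lit 668) (nat_lit 2) (nat_lit 185) (nat_lit 206) (nat_lit 179))) (PT.nd (nat_lit 78) (PT.lf (nat_lit 50844) (nat_lit 6) (nat_lit 669) (nat_lit 2) (nat_lit 186) (nat_lit 206) (nat_lit 178)) (PT.lf (nat_lit 50920) (nat_lit 6) (nat_lit 670) (nat_lit 2) (nat_lit 187) (nat_lit 206) (nat_lit 177))))))))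
noncomputable def pc44 : PT := (PT.nd (nat_lit 2262) (PT.nd (nat_lit 1092) (PT.nd (nat_lit 546) (PT.nd (nat_lit 234) (PT.nd (nat_lit 78) (PT.lf (nat_lit 50996) (nat_lit 6) (nat_lit 671) (nat_lit 2) (nat_lit 188) (nat_lit 206) (nat_lit 176)) (PT.nd (nat_lit 78) (PT.lf (nat_lit 51072) (nat_lit 6) (nat_lit 672) (nat_lit 2) (nat_lit 189) (nat_lit 206) (nat_lit 175)) (PT.lf (nat_lit 51148) (nat_lit 6) (nat_lit 673) (nat_lit 2) (nat_lit 190) (nat_lit 206) (nat_lit 174)))) (PT.nd (nat_lit 156) (PT.nd (nat_lit 78) (PT.lf (nat_lit 49932) (nat_lit 6) (nat_lit 657) (nat_lit 2) (nat_lit 191) (nat_lit 206) (nat_lit 173)) (PT.lf (nat_lit 48640) (nat_lit 6) (nat_lit 640) (nat_lit 2) (nat_lit 192) (nat_lit 206) (nat_lit 172))) (PT.nd (nat_lit 78) (PT.lf (nat_lit 47272) (nat_lit 6) (nat_lit 622) (nat_lit 2) (nat_lit 193) (nat_lit 206) (nat_lit 171)) (PT.lf (nat_lit 45828) (nat_lit 6) (nat_lit 603) (nat_lit 2) (nat_lit 194) (nat_lit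 206) (nat_lit 170))))) (PT.nd (nat_lit 234) (PT.nd (nat_lit 78) (PT.lf (nat_lit 44308) (nat_lit 6) (nat_lit 583) (nat_lit 2) (nat_lit 195) (nat_lit 206) (nat_lit 169)) (PT.nd (nat_lit 78) (PT.lf (nat_lit 42712) (nat_lit 6) (nat_lit 562) (nat_lit 2) (nat_lit 196) (nat_lit 206) (nat_lit 168)) (PT.lf (nat_lit 41040) (nat_lit 6) (nat_lit 540) (nat_lit 2) (nat_lit 197) (nat_lit 206) (nat_lit 167)))) (PT.nd (nat_lit 156) (PT.nd (nat_lit 78) (PT.lf (nat_lit 39292) (nat_lit 6) (nat_lit 517) (nat_lit 2) (nat_lit 198) (nat_lit 206) (nat_lit 166)) (PT.lf (nat_lit 37468) (nat_lit 6) (nat_lit 493) (nat_lit 2) (nat_lit 199) (nat_lit 206) (nat_lit 165))) (PT.nd (nat_lit 78) (PT.lf (nat_lit 36328) (nat_lit 6) (nat_lit 478) (nat_lit 2) (nat_lit 200) (nat_lit 206) (nat_lit 164)) (PT.lf (nat_lit 35416) (nat_lit 6) (nat_lit 466) (nat_lit 2) (nat_lit 201) (nat_lit 206) (nat_lit 163)))))) (PT.nd (nat_lit 546) (PT.nd (nat_lit 234) (PT.nd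 (nat_lit 78) (PT.lf (nat_lit 34504) (nat_lit 6) (nat_lit 454) (nat_lit 2) (nat_lit 202) (nat_lit 206) (nat_lit 162)) (PT.nd (nat_lit 78) (PT.lf (nat_lit 33668) (nat_lit 6) (nat_lit 443) (nat_lit 2) (nat_lit 203) (nat_lit 206) (nat_lit 161)) (PT.lf (nat_lit 32756) (nat_lit 6) (nat_lit 431) (nat_lit 2) (nat_lit 204) (nat_lit 206) (nat_lit 160)))) (PT.nd (nat_lit 156) (PT.nd (nat_lit 78) (PT.lf (nat_lit 31920) (nat_lit 6) (nat_lit 420) (nat_lit 2) (nat_lit 205) (nat_lit 206) (nat_lit 159)) (PT.lf (nat_lit 31084) (nat_lit 3) (nat_lit 409) (nat_lit 0) (nat_lit 206) (nat_lit 206) (nat_lit 158))) (PT.nd (nat_lit 78) (PT.lf (nat_lit 30248) (nat_lit 6) (nat_lit 398) (nat_lit 0) (nat_lit 207) (nat_lit 206) (nat_lit 157)) (PT.lf (nat_lit 29412) (nat_lit 6) (nat_lit 387) (nat_lit 0) (nat_lit 208) (nat_lit 206) (nat_lit 156))))) (PT.nd (nat_lit 312) (PT.nd (nat_lit 156) (PT.nd (nat_lit 78) (PT.lf (nat_lit 28576) (nat_lit 6)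 (nat_lit 376) (nat_lit 0) (nat_lit 209) (nat_lit 206) (nat_lit 155)) (PT.lf (nat_lit 27740) (nat_lit 6) (nat_lit 365) (nat_lit 0) (nat_lit 210) (nat_lit 206) (nat_lit 154))) (PT.nd (nat_lit 78) (PT.lf (nat_lit 26980) (nat_lit 6) (nat_lit 355) (nat_lit 0) (nat_lit 211) (nat_lit 206) (nat_lit 153)) (PT.lf (nat_lit 26220) (nat_lit 6) (nat_lit 345) (nat_lit 0) (nat_lit 212) (nat_lit 206) (nat_lit 152)))) (PT.nd (nat_lit 156) (PT.nd (nat_lit 78) (PT.lf (nat_lit 25460) (nat_lit 6) (nat_lit 335) (nat_lit 0) (nat_lit 213) (nat_lit 206) (nat_lit 151)) (PT.lf (nat_lit 24700) (nat_lit 6) (nat_lit 325) (nat_lit 0) (nat_lit 214) (nat_lit 206) (nat_lit 150))) (PT.nd (nat_lit 78) (PT.lf (nat_lit 24016) (nat_lit 6) (nat_lit 316) (nat_lit 0) (nat_lit 215) (nat_lit 206) (nat_lit 149)) (PT.lf (nat_lit 23332) (nat_lit 6) (nat_lit 307) (nat_lit 0) (nat_lit 216) (nat_lit 206) (nat_lit 148))))))) (PT.nd (nat_lit 54288) (PT.nd (nat_lit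 53742) (PT.nd (nat_lit 234) (PT.nd (nat_lit 78) (PT.lf (nat_lit 22648) (nat_lit 6) (nat_lit 298) (nat_lit 0) (nat_lit 217) (nat_lit 206) (nat_lit 147)) (PT.nd (nat_lit 78) (PT.lf (nat_lit 21964) (nat_lit 6) (nat_lit 289) (nat_lit 0) (nat_lit 218) (nat_lit 206) (nat_lit 146)) (PT.lf (nat_lit 21356) (nat_lit 6) (nat_lit 281) (nat_lit 0) (nat_lit 219) (nat_lit 206) (nat_lit 145)))) (PT.nd (nat_lit 53352) (PT.nd (nat_lit 53274) (PT.lf (nat_lit 20672) (nat_lit 6) (nat_lit 272) (nat_lit 0) (nat_lit 220) (nat_lit 206) (nat_lit 144)) (PT.lf (nat_lit 19532) (nat_lit 6) (nat_lit 257) (nat_lit 5) (nat_lit 142) (nat_lit 207) (nat_lit 221))) (PT.nd (nat_lit 78) (PT.lf (nat_lit 20140) (nat_lit 6) (nat_lit 265) (nat_lit 5) (nat_lit 143) (nat_lit 207) (nat_lit 220)) (PT.lf (nat_lit 20748) (nat_lit 6) (nat_lit 273) (nat_lit 5) (nat_lit 144) (nat_lit 207) (nat_lit 219))))) (PT.nd (nat_lit 234) (PT.nd (nat_lit 78) (PT.lf (nat_lit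 21432) (nat_lit 6) (nat_lit 282) (nat_lit 5) (nat_lit 145) (nat_lit 207) (nat_lit 218)) (PT.nd (nat_lit 78) (PT.lf (nat_lit 22040) (nat_lit 6) (nat_lit 290) (nat_lit 5) (nat_lit 146) (nat_lit 207) (nat_lit 217)) (PT.lf (nat_lit 22724) (nat_lit 6) (nat_lit 299) (nat_lit 5) (nat_lit 147) (nat_lit 207) (nat_lit 216)))) (PT.nd (nat_lit 156) (PT.nd (nat_lit 78) (PT.lf (nat_lit 23408) (nat_lit 6) (nat_lit 308) (nat_lit 5) (nat_lit 148) (nat_lit 207) (nat_lit 215)) (PT.lf (nat_lit 24092) (nat_lit 6) (nat_lit 317) (nat_lit 5) (nat_lit 149) (nat_lit 207) (nat_lit 214))) (PT.nd (nat_lit 78) (PT.lf (nat_lit 24776) (nat_lit 6) (nat_lit 326) (nat_lit 5) (nat_lit 150) (nat_lit 207) (nat_lit 213)) (PT.lf (nat_lit 25536) (nat_lit 6) (nat_lit 336) (nat_lit 5) (nat_lit 151) (nat_lit 207) (nat_lit 212)))))) (PT.nd (nat_lit 546) (PT.nd (nat_lit 234) (PT.nd (nat_lit 78) (PT.lf (nat_lit 26296) (nat_lit 6) (nat_lit 346) (nat_lit 5) (nat_lit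 152) (nat_lit 207) (nat_lit 211)) (PT.nd (nat_lit 78) (PT.lf (nat_lit 27056) (nat_lit 6) (nat_lit 356) (nat_lit 5) (nat_lit 153) (nat_lit 207) (nat_lit 210)) (PT.lf (nat_lit 27816) (nat_lit 6) (nat_lit 366) (nat_lit 5) (nat_lit 154) (nat_lit 207) (nat_lit 209)))) (PT.nd (nat_lit 156) (PT.nd (nat_lit 78) (PT.lf (nat_lit 28652) (nat_lit 6) (nat_lit 377) (nat_lit 5) (nat_lit 155) (nat_lit 207) (nat_lit 208)) (PT.lf (nat_lit 29488) (nat_lit 3) (nat_lit 388) (nat_lit 4) (nat_lit 156) (nat_lit 207) (nat_lit 207))) (PT.nd (nat_lit 78) (PT.lf (nat_lit 30248) (nat_lit 6) (nat_lit 398) (nat_lit 4) (nat_lit 157) (nat_lit 207) (nat_lit 206)) (PT.lf (nat_lit 31008) (nat_lit 6) (nat_lit 408) (nat_lit 4) (nat_lit 158) (nat_lit 207) (nat_lit 205))))) (PT.nd (nat_lit 312) (PT.nd (nat_lit 156) (PT.nd (nat_lit 78) (PT.lf (nat_lit 31844) (nat_lit 6) (nat_lit 419) (nat_lit 4) (nat_lit 159) (nat_lit 207) (nat_lit 204)) (PT.lf (nat_lit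 32680) (nat_lit 6) (nat_lit 430) (nat_lit 4) (nat_lit 160) (nat_lit 207) (nat_lit 203))) (PT.nd (nat_lit 78) (PT.lf (nat_lit 33592) (nat_lit 6) (nat_lit 442) (nat_lit 4) (nat_lit 161) (nat_lit 207) (nat_lit 202)) (PT.lf (nat_lit 34428) (nat_lit 6) (nat_lit 453) (nat_lit 4) (nat_lit 162) (nat_lit 207) (nat_lit 201)))) (PT.nd (nat_lit 156) (PT.nd (nat_lit 78) (PT.lf (nat_lit 35340) (nat_lit 6) (nat_lit 465) (nat_lit 4) (nat_lit 163) (nat_lit 207) (nat_lit 200)) (PT.lf (nat_lit 36252) (nat_lit 6) (nat_lit 477) (nat_lit 4) (nat_lit 164) (nat_lit 207) (nat_lit 199))) (PT.nd (nat_lit 78) (PT.lf (nat_lit 37392) (nat_lit 6) (nat_lit 492) (nat_lit 4) (nat_lit 165) (nat_lit 207) (nat_lit 198)) (PT.lf (nat_lit 39216) (nat_lit 6) (nat_lit 516) (nat_lit 4) (nat_lit 166) (nat_lit 207) (nat_lit 197))))))))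
noncomputable def pc45 : PT := (PT.nd (nat_lit 2262) (PT.nd (nat_lit 1092) (PT.nd (nat_lit 546) (PT.nd (nat_lit 234) (PT.nd (nat_lit 78) (PT.lf (nat_lit 40964) (nat_lit 6) (nat_lit 539) (nat_lit 4) (nat_lit 167) (nat_lit 207) (nat_lit 196)) (PT.nd (nat_lit 78) (PT.lf (nat_lit 42636) (nat_lit 6) (nat_lit 561) (nat_lit 4) (nat_lit 168) (nat_lit 207) (nat_lit 195)) (PT.lf (nat_lit 44232) (nat_lit 6) (nat_lit 582) (nat_lit 4) (nat_lit 169) (nat_lit 207) (nat_lit 194)))) (PT.nd (nat_lit 156) (PT.nd (nat_lit 78) (PT.lf (nat_lit 45752) (nat_lit 6) (nat_lit 602) (nat_lit 4) (nat_lit 170) (nat_lit 207) (nat_lit 193)) (PT.lf (nat_lit 47196) (nat_lit 6) (nat_lit 621) (nat_lit 4) (nat_lit 171) (nat_lit 207) (nat_lit 192))) (PT.nd (nat_lit 78) (PT.lf (nat_lit 48564) (nat_lit 6) (nat_lit 639) (nat_lit 4) (nat_lit 172) (nat_lit 207) (nat_lit 191)) (PT.lf (nat_lit 49856) (nat_lit 6) (nat_lit 656) (nat_lit 4) (nat_lit 173) (nat_lit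 207) (nat_lit 190))))) (PT.nd (nat_lit 234) (PT.nd (nat_lit 78) (PT.lf (nat_lit 49780) (nat_lit 6) (nat_lit 655) (nat_lit 4) (nat_lit 174) (nat_lit 207) (nat_lit 189)) (PT.nd (nat_lit 78) (PT.lf (nat_lit 49704) (nat_lit 6) (nat_lit 654) (nat_lit 4) (nat_lit 175) (nat_lit 207) (nat_lit 188)) (PT.lf (nat_lit 49628) (nat_lit 6) (nat_lit 653) (nat_lit 4) (nat_lit 176) (nat_lit 207) (nat_lit 187)))) (PT.nd (nat_lit 156) (PT.nd (nat_lit 78) (PT.lf (nat_lit 49552) (nat_lit 6) (nat_lit 652) (nat_lit 4) (nat_lit 177) (nat_lit 207) (nat_lit 186)) (PT.lf (nat_lit 49476) (nat_lit 6) (nat_lit 651) (nat_lit 4) (nat_lit 178) (nat_lit 207) (nat_lit 185))) (PT.nd (nat_lit 78) (PT.lf (nat_lit 49400) (nat_lit 6) (nat_lit 650) (nat_lit 4) (nat_lit 179) (nat_lit 207) (nat_lit 184)) (PT.lf (nat_lit 49324) (nat_lit 6) (nat_lit 649) (nat_lit 4) (nat_lit 180) (nat_lit 207) (nat_lit 183)))))) (PT.nd (nat_lit 546) (PT.nd (nat_lit 234) (PT.nd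 (nat_lit 78) (PT.lf (nat_lit 49248) (nat_lit 6) (nat_lit 648) (nat_lit 4) (nat_lit 181) (nat_lit 207) (nat_lit 182)) (PT.nd (nat_lit 78) (PT.lf (nat_lit 49248) (nat_lit 6) (nat_lit 648) (nat_lit 2) (nat_lit 182) (nat_lit 207) (nat_lit 181)) (PT.lf (nat_lit 49324) (nat_lit 6) (nat_lit 649) (nat_lit 2) (nat_lit 183) (nat_lit 207) (nat_lit 180)))) (PT.nd (nat_lit 156) (PT.nd (nat_lit 78) (PT.lf (nat_lit 49400) (nat_lit 6) (nat_lit 650) (nat_lit 2) (nat_lit 184) (nat_lit 207) (nat_lit 179)) (PT.lf (nat_lit 49476) (nat_lit 6) (nat_lit 651) (nat_lit 2) (nat_lit 185) (nat_lit 207) (nat_lit 178))) (PT.nd (nat_lit 78) (PT.lf (nat_lit 49552) (nat_lit 6) (nat_lit 652) (nat_lit 2) (nat_lit 186) (nat_lit 207) (nat_lit 177)) (PT.lf (nat_lit 49628) (nat_lit 6) (nat_lit 653) (nat_lit 2) (nat_lit 187) (nat_lit 207) (nat_lit 176))))) (PT.nd (nat_lit 312) (PT.nd (nat_lit 156) (PT.nd (nat_lit 78) (PT.lf (nat_lit 49704) (nat_lit 6)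 (nat_lit 654) (nat_lit 2) (nat_lit 188) (nat_lit 207) (nat_lit 175)) (PT.lf (nat_lit 49780) (nat_lit 6) (nat_lit 655) (nat_lit 2) (nat_lit 189) (nat_lit 207) (nat_lit 174))) (PT.nd (nat_lit 78) (PT.lf (nat_lit 49856) (nat_lit 6) (nat_lit 656) (nat_lit 2) (nat_lit 190) (nat_lit 207) (nat_lit 173)) (PT.lf (nat_lit 48564) (nat_lit 6) (nat_lit 639) (nat_lit 2) (nat_lit 191) (nat_lit 207) (nat_lit 172)))) (PT.nd (nat_lit 156) (PT.nd (nat_lit 78) (PT.lf (nat_lit 47196) (nat_lit 6) (nat_lit 621) (nat_lit 2) (nat_lit 192) (nat_lit 207) (nat_lit 171)) (PT.lf (nat_lit 45752) (nat_lit 6) (nat_lit 602) (nat_lit 2) (nat_lit 193) (nat_lit 207) (nat_lit 170))) (PT.nd (nat_lit 78) (PT.lf (nat_lit 44232) (nat_lit 6) (nat_lit 582) (nat_lit 2) (nat_lit 194) (nat_lit 207) (nat_lit 169)) (PT.lf (nat_lit 42636) (nat_lit 6) (nat_lit 561) (nat_lit 2) (nat_lit 195) (nat_lit 207) (nat_lit 168))))))) (PT.nd (nat_lit 1170) (PT.nd (nat_lit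 546) (PT.nd (nat_lit 234) (PT.nd (nat_lit 78) (PT.lf (nat_lit 40964) (nat_lit 6) (nat_lit 539) (nat_lit 2) (nat_lit 196) (nat_lit 207) (nat_lit 167)) (PT.nd (nat_lit 78) (PT.lf (nat_lit 39216) (nat_lit 6) (nat_lit 516) (nat_lit 2) (nat_lit 197) (nat_lit 207) (nat_lit 166)) (PT.lf (nat_lit 37392) (nat_lit 6) (nat_lit 492) (nat_lit 2) (nat_lit 198) (nat_lit 207) (nat_lit 165)))) (PT.nd (nat_lit 156) (PT.nd (nat_lit 78) (PT.lf (nat_lit 36252) (nat_lit 6) (nat_lit 477) (nat_lit 2) (nat_lit 199) (nat_lit 207) (nat_lit 164)) (PT.lf (nat_lit 35340) (nat_lit 6) (nat_lit 465) (nat_lit 2) (nat_lit 200) (nat_lit 207) (nat_lit 163))) (PT.nd (nat_lit 78) (PT.lf (nat_lit 34428) (nat_lit 6) (nat_lit 453) (nat_lit 2) (nat_lit 201) (nat_lit 207) (nat_lit 162)) (PT.lf (nat_lit 33592) (nat_lit 6) (nat_lit 442) (nat_lit 2) (nat_lit 202) (nat_lit 207) (nat_lit 161))))) (PT.nd (nat_lit 312) (PT.nd (nat_lit 156) (PT.nd (nat_lit 78) (PT.lf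 (nat_lit 32680) (nat_lit 6) (nat_lit 430) (nat_lit 2) (nat_lit 203) (nat_lit 207) (nat_lit 160)) (PT.lf (nat_lit 31844) (nat_lit 6) (nat_lit 419) (nat_lit 2) (nat_lit 204) (nat_lit 207) (nat_lit 159))) (PT.nd (nat_lit 78) (PT.lf (nat_lit 31008) (nat_lit 6) (nat_lit 408) (nat_lit 2) (nat_lit 205) (nat_lit 207) (nat_lit 158)) (PT.lf (nat_lit 30248) (nat_lit 6) (nat_lit 398) (nat_lit 2) (nat_lit 206) (nat_lit 207) (nat_lit 157)))) (PT.nd (nat_lit 156) (PT.nd (nat_lit 78) (PT.lf (nat_lit 29488) (nat_lit 3) (nat_lit 388) (nat_lit 0) (nat_lit 207) (nat_lit 207) (nat_lit 156)) (PT.lf (nat_lit 28652) (nat_lit 6) (nat_lit 377) (nat_lit 0) (nat_lit 208) (nat_lit 207) (nat_lit 155))) (PT.nd (nat_lit 78) (PT.lf (nat_lit 27816) (nat_lit 6) (nat_lit 366) (nat_lit 0) (nat_lit 209) (nat_lit 207) (nat_lit 154)) (PT.lf (nat_lit 27056) (nat_lit 6) (nat_lit 356) (nat_lit 0) (nat_lit 210) (nat_lit 207) (nat_lit 153)))))) (PT.nd (nat_lit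 546) (PT.nd (nat_lit 234) (PT.nd (nat_lit 78) (PT.lf (nat_lit 26296) (nat_lit 6) (nat_lit 346) (nat_lit 0) (nat_lit 211) (nat_lit 207) (nat_lit 152)) (PT.nd (nat_lit 78) (PT.lf (nat_lit 25536) (nat_lit 6) (nat_lit 336) (nat_lit 0) (nat_lit 212) (nat_lit 207) (nat_lit 151)) (PT.lf (nat_lit 24776) (nat_lit 6) (nat_lit 326) (nat_lit 0) (nat_lit 213) (nat_lit 207) (nat_lit 150)))) (PT.nd (nat_lit 156) (PT.nd (nat_lit 78) (PT.lf (nat_lit 24092) (nat_lit 6) (nat_lit 317) (nat_lit 0) (nat_lit 214) (nat_lit 207) (nat_lit 149)) (PT.lf (nat_lit 23408) (nat_lit 6) (nat_lit 308) (nat_lit 0) (nat_lit 215) (nat_lit 207) (nat_lit 148))) (PT.nd (nat_lit 78) (PT.lf (nat_lit 22724) (nat_lit 6) (nat_lit 299) (nat_lit 0) (nat_lit 216) (nat_lit 207) (nat_lit 147)) (PT.lf (nat_lit 22040) (nat_lit 6) (nat_lit 290) (nat_lit 0) (nat_lit 217) (nat_lit 207) (nat_lit 146))))) (PT.nd (nat_lit 53352) (PT.nd (nat_lit 156) (PT.nd (nat_lit 78)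 (PT.lf (nat_lit 21432) (nat_lit 6) (nat_lit 282) (nat_lit 0) (nat_lit 218) (nat_lit 207) (nat_lit 145)) (PT.lf (nat_lit 20748) (nat_lit 6) (nat_lit 273) (nat_lit 0) (nat_lit 219) (nat_lit 207) (nat_lit 144))) (PT.nd (nat_lit 78) (PT.lf (nat_lit 20140) (nat_lit 6) (nat_lit 265) (nat_lit 0) (nat_lit 220) (nat_lit 207) (nat_lit 143)) (PT.lf (nat_lit 19532) (nat_lit 6) (nat_lit 257) (nat_lit 0) (nat_lit 221) (nat_lit 207) (nat_lit 142)))) (PT.nd (nat_lit 156) (PT.nd (nat_lit 78) (PT.lf (nat_lit 19000) (nat_lit 6) (nat_lit 250) (nat_lit 5) (nat_lit 141) (nat_lit 208) (nat_lit 221)) (PT.lf (nat_lit 19608) (nat_lit 6) (nat_lit 258) (nat_lit 5) (nat_lit 142) (nat_lit 208) (nat_lit 220))) (PT.nd (nat_lit 78) (PT.lf (nat_lit 20216) (nat_lit 6) (nat_lit 266) (nat_lit 5) (nat_lit 143) (nat_lit 208) (nat_lit 219)) (PT.lf (nat_lit 20824) (nat_lit 6) (nat_lit 274) (nat_lit 5) (nat_lit 144) (nat_lit 208) (nat_lit 218))))))))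
noncomputable def pc46 : PT := (PT.nd (nat_lit 2262) (PT.nd (nat_lit 1092) (PT.nd (nat_lit 546) (PT.nd (nat_lit 234) (PT.nd (nat_lit 78) (PT.lf (nat_lit 21508) (nat_lit 6) (nat_lit 283) (nat_lit 5) (nat_lit 145) (nat_lit 208) (nat_lit 217)) (PT.nd (nat_lit 78) (PT.lf (nat_lit 22116) (nat_lit 6) (nat_lit 291) (nat_lit 5) (nat_lit 146) (nat_lit 208) (nat_lit 216)) (PT.lf (nat_lit 22800) (nat_lit 6) (nat_lit 300) (nat_lit 5) (nat_lit 147) (nat_lit 208) (nat_lit 215)))) (PT.nd (nat_lit 156) (PT.nd (nat_lit 78) (PT.lf (nat_lit 23484) (nat_lit 6) (nat_lit 309) (nat_lit 5) (nat_lit 148) (nat_lit 208) (nat_lit 214)) (PT.lf (nat_lit 24168) (nat_lit 6) (nat_lit 318) (nat_lit 5) (nat_lit 149) (nat_lit 208) (nat_lit 213))) (PT.nd (nat_lit 78) (PT.lf (nat_lit 24852) (nat_lit 6) (nat_lit 327) (nat_lit 5) (nat_lit 150) (nat_lit 208) (nat_lit 212)) (PT.lf (nat_lit 25612) (nat_lit 6) (nat_lit 337) (nat_lit 5) (nat_lit 151) (nat_lit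 208) (nat_lit 211))))) (PT.nd (nat_lit 234) (PT.nd (nat_lit 78) (PT.lf (nat_lit 26372) (nat_lit 6) (nat_lit 347) (nat_lit 5) (nat_lit 152) (nat_lit 208) (nat_lit 210)) (PT.nd (nat_lit 78) (PT.lf (nat_lit 27132) (nat_lit 6) (nat_lit 357) (nat_lit 5) (nat_lit 153) (nat_lit 208) (nat_lit 209)) (PT.lf (nat_lit 27892) (nat_lit 3) (nat_lit 367) (nat_lit 4) (nat_lit 154) (nat_lit 208) (nat_lit 208)))) (PT.nd (nat_lit 156) (PT.nd (nat_lit 78) (PT.lf (nat_lit 28652) (nat_lit 6) (nat_lit 377) (nat_lit 4) (nat_lit 155) (nat_lit 208) (nat_lit 207)) (PT.lf (nat_lit 29412) (nat_lit 6) (nat_lit 387) (nat_lit 4) (nat_lit 156) (nat_lit 208) (nat_lit 206))) (PT.nd (nat_lit 78) (PT.lf (nat_lit 30172) (nat_lit 6) (nat_lit 397) (nat_lit 4) (nat_lit 157) (nat_lit 208) (nat_lit 205)) (PT.lf (nat_lit 30932) (nat_lit 6) (nat_lit 407) (nat_lit 4) (nat_lit 158) (nat_lit 208) (nat_lit 204)))))) (PT.nd (nat_lit 546) (PT.nd (nat_lit 234) (PT.nd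 (nat_lit 78) (PT.lf (nat_lit 31768) (nat_lit 6) (nat_lit 418) (nat_lit 4) (nat_lit 159) (nat_lit 208) (nat_lit 203)) (PT.nd (nat_lit 78) (PT.lf (nat_lit 32604) (nat_lit 6) (nat_lit 429) (nat_lit 4) (nat_lit 160) (nat_lit 208) (nat_lit 202)) (PT.lf (nat_lit 33516) (nat_lit 6) (nat_lit 441) (nat_lit 4) (nat_lit 161) (nat_lit 208) (nat_lit 201)))) (PT.nd (nat_lit 156) (PT.nd (nat_lit 78) (PT.lf (nat_lit 34352) (nat_lit 6) (nat_lit 452) (nat_lit 4) (nat_lit 162) (nat_lit 208) (nat_lit 200)) (PT.lf (nat_lit 35264) (nat_lit 6) (nat_lit 464) (nat_lit 4) (nat_lit 163) (nat_lit 208) (nat_lit 199))) (PT.nd (nat_lit 78) (PT.lf (nat_lit 36176) (nat_lit 6) (nat_lit 476) (nat_lit 4) (nat_lit 164) (nat_lit 208) (nat_lit 198)) (PT.lf (nat_lit 37316) (nat_lit 6) (nat_lit 491) (nat_lit 4) (nat_lit 165) (nat_lit 208) (nat_lit 197))))) (PT.nd (nat_lit 312) (PT.nd (nat_lit 156) (PT.nd (nat_lit 78) (PT.lf (nat_lit 39140) (nat_lit 6)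 (nat_lit 515) (nat_lit 4) (nat_lit 166) (nat_lit 208) (nat_lit 196)) (PT.lf (nat_lit 40888) (nat_lit 6) (nat_lit 538) (nat_lit 4) (nat_lit 167) (nat_lit 208) (nat_lit 195))) (PT.nd (nat_lit 78) (PT.lf (nat_lit 42560) (nat_lit 6) (nat_lit 560) (nat_lit 4) (nat_lit 168) (nat_lit 208) (nat_lit 194)) (PT.lf (nat_lit 44156) (nat_lit 6) (nat_lit 581) (nat_lit 4) (nat_lit 169) (nat_lit 208) (nat_lit 193)))) (PT.nd (nat_lit 156) (PT.nd (nat_lit 78) (PT.lf (nat_lit 45676) (nat_lit 6) (nat_lit 601) (nat_lit 4) (nat_lit 170) (nat_lit 208) (nat_lit 192)) (PT.lf (nat_lit 47120) (nat_lit 6) (nat_lit 620) (nat_lit 4) (nat_lit 171) (nat_lit 208) (nat_lit 191))) (PT.nd (nat_lit 78) (PT.lf (nat_lit 48488) (nat_lit 6) (nat_lit 638) (nat_lit 4) (nat_lit 172) (nat_lit 208) (nat_lit 190)) (PT.lf (nat_lit 48412) (nat_lit 6) (nat_lit 637) (nat_lit 4) (nat_lit 173) (nat_lit 208) (nat_lit 189))))))) (PT.nd (nat_lit 1092) (PT.nd (nat_lit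 546) (PT.nd (nat_lit 234) (PT.nd (nat_lit 78) (PT.lf (nat_lit 48336) (nat_lit 6) (nat_lit 636) (nat_lit 4) (nat_lit 174) (nat_lit 208) (nat_lit 188)) (PT.nd (nat_lit 78) (PT.lf (nat_lit 48260) (nat_lit 6) (nat_lit 635) (nat_lit 4) (nat_lit 175) (nat_lit 208) (nat_lit 187)) (PT.lf (nat_lit 48184) (nat_lit 6) (nat_lit 634) (nat_lit 4) (nat_lit 176) (nat_lit 208) (nat_lit 186)))) (PT.nd (nat_lit 156) (PT.nd (nat_lit 78) (PT.lf (nat_lit 48108) (nat_lit 6) (nat_lit 633) (nat_lit 4) (nat_lit 177) (nat_lit 208) (nat_lit 185)) (PT.lf (nat_lit 48032) (nat_lit 6) (nat_lit 632) (nat_lit 4) (nat_lit 178) (nat_lit 208) (nat_lit 184))) (PT.nd (nat_lit 78) (PT.lf (nat_lit 47956) (nat_lit 6) (nat_lit 631) (nat_lit 4) (nat_lit 179) (nat_lit 208) (nat_lit 183)) (PT.lf (nat_lit 47880) (nat_lit 6) (nat_lit 630) (nat_lit 4) (nat_lit 180) (nat_lit 208) (nat_lit 182))))) (PT.nd (nat_lit 234) (PT.nd (nat_lit 78) (PT.lf (nat_lit 47804)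 (nat_lit 3) (nat_lit 629) (nat_lit 2) (nat_lit 181) (nat_lit 208) (nat_lit 181)) (PT.nd (nat_lit 78) (PT.lf (nat_lit 47880) (nat_lit 6) (nat_lit 630) (nat_lit 2) (nat_lit 182) (nat_lit 208) (nat_lit 180)) (PT.lf (nat_lit 47956) (nat_lit 6) (nat_lit 631) (nat_lit 2) (nat_lit 183) (nat_lit 208) (nat_lit 179)))) (PT.nd (nat_lit 156) (PT.nd (nat_lit 78) (PT.lf (nat_lit 48032) (nat_lit 6) (nat_lit 632) (nat_lit 2) (nat_lit 184) (nat_lit 208) (nat_lit 178)) (PT.lf (nat_lit 48108) (nat_lit 6) (nat_lit 633) (nat_lit 2) (nat_lit 185) (nat_lit 208) (nat_lit 177))) (PT.nd (nat_lit 78) (PT.lf (nat_lit 48184) (nat_lit 6) (nat_lit 634) (nat_lit 2) (nat_lit 186) (nat_lit 208) (nat_lit 176)) (PT.lf (nat_lit 48260) (nat_lit 6) (nat_lit 635) (nat_lit 2) (nat_lit 187) (nat_lit 208) (nat_lit 175)))))) (PT.nd (nat_lit 546) (PT.nd (nat_lit 234) (PT.nd (nat_lit 78) (PT.lf (nat_lit 48336) (nat_lit 6) (nat_lit 636) (nat_lit 2) (nat_lit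 188) (nat_lit 208) (nat_lit 174)) (PT.nd (nat_lit 78) (PT.lf (nat_lit 48412) (nat_lit 6) (nat_lit 637) (nat_lit 2) (nat_lit 189) (nat_lit 208) (nat_lit 173)) (PT.lf (nat_lit 48488) (nat_lit 6) (nat_lit 638) (nat_lit 2) (nat_lit 190) (nat_lit 208) (nat_lit 172)))) (PT.nd (nat_lit 156) (PT.nd (nat_lit 78) (PT.lf (nat_lit 47120) (nat_lit 6) (nat_lit 620) (nat_lit 2) (nat_lit 191) (nat_lit 208) (nat_lit 171)) (PT.lf (nat_lit 45676) (nat_lit 6) (nat_lit 601) (nat_lit 2) (nat_lit 192) (nat_lit 208) (nat_lit 170))) (PT.nd (nat_lit 78) (PT.lf (nat_lit 44156) (nat_lit 6) (nat_lit 581) (nat_lit 2) (nat_lit 193) (nat_lit 208) (nat_lit 169)) (PT.lf (nat_lit 42560) (nat_lit 6) (nat_lit 560) (nat_lit 2) (nat_lit 194) (nat_lit 208) (nat_lit 168))))) (PT.nd (nat_lit 312) (PT.nd (nat_lit 156) (PT.nd (nat_lit 78) (PT.lf (nat_lit 40888) (nat_lit 6) (nat_lit 538) (nat_lit 2) (nat_lit 195) (nat_lit 208) (nat_lit 167)) (PT.lf (nat_lit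 39140) (nat_lit 6) (nat_lit 515) (nat_lit 2) (nat_lit 196) (nat_lit 208) (nat_lit 166))) (PT.nd (nat_lit 78) (PT.lf (nat_lit 37316) (nat_lit 6) (nat_lit 491) (nat_lit 2) (nat_lit 197) (nat_lit 208) (nat_lit 165)) (PT.lf (nat_lit 36176) (nat_lit 6) (nat_lit 476) (nat_lit 2) (nat_lit 198) (nat_lit 208) (nat_lit 164)))) (PT.nd (nat_lit 156) (PT.nd (nat_lit 78) (PT.lf (nat_lit 35264) (nat_lit 6) (nat_lit 464) (nat_lit 2) (nat_lit 199) (nat_lit 208) (nat_lit 163)) (PT.lf (nat_lit 34352) (nat_lit 6) (nat_lit 452) (nat_lit 2) (nat_lit 200) (nat_lit 208) (nat_lit 162))) (PT.nd (nat_lit 78) (PT.lf (nat_lit 33516) (nat_lit 6) (nat_lit 441) (nat_lit 2) (nat_lit 201) (nat_lit 208) (nat_lit 161)) (PT.lf (nat_lit 32604) (nat_lit 6) (nat_lit 429) (nat_lit 2) (nat_lit 202) (nat_lit 208) (nat_lit 160))))))))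
noncomputable def pc47 : PT := (PT.nd (nat_lit 55146) (PT.nd (nat_lit 1092) (PT.nd (nat_lit 546) (PT.nd (nat_lit 234) (PT.nd (nat_lit 78) (PT.lf (nat_lit 31768) (nat_lit 6) (nat_lit 418) (nat_lit 2) (nat_lit 203) (nat_lit 208) (nat_lit 159)) (PT.nd (nat_lit 78) (PT.lf (nat_lit 30932) (nat_lit 6) (nat_lit 407) (nat_lit 2) (nat_lit 204) (nat_lit 208) (nat_lit 158)) (PT.lf (nat_lit 30172) (nat_lit 6) (nat_lit 397) (nat_lit 2) (nat_lit 205) (nat_lit 208) (nat_lit 157)))) (PT.nd (nat_lit 156) (PT.nd (nat_lit 78) (PT.lf (nat_lit 29412) (nat_lit 6) (nat_lit 387) (nat_lit 2) (nat_lit 206) (nat_lit 208) (nat_lit 156)) (PT.lf (nat_lit 28652) (nat_lit 6) (nat_lit 377) (nat_lit 2) (nat_lit 207) (nat_lit 208) (nat_lit 155))) (PT.nd (nat_lit 78) (PT.lf (nat_lit 27892) (nat_lit 3) (nat_lit 367) (nat_lit 0) (nat_lit 208) (nat_lit 208) (nat_lit 154)) (PT.lf (nat_lit 27132) (nat_lit 6) (nat_lit 357) (nat_lit 0) (nat_lit 209) (nat_lit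 208) (nat_lit 153))))) (PT.nd (nat_lit 234) (PT.nd (nat_lit 78) (PT.lf (nat_lit 26372) (nat_lit 6) (nat_lit 347) (nat_lit 0) (nat_lit 210) (nat_lit 208) (nat_lit 152)) (PT.nd (nat_lit 78) (PT.lf (nat_lit 25612) (nat_lit 6) (nat_lit 337) (nat_lit 0) (nat_lit 211) (nat_lit 208) (nat_lit 151)) (PT.lf (nat_lit 24852) (nat_lit 6) (nat_lit 327) (nat_lit 0) (nat_lit 212) (nat_lit 208) (nat_lit 150)))) (PT.nd (nat_lit 156) (PT.nd (nat_lit 78) (PT.lf (nat_lit 24168) (nat_lit 6) (nat_lit 318) (nat_lit 0) (nat_lit 213) (nat_lit 208) (nat_lit 149)) (PT.lf (nat_lit 23484) (nat_lit 6) (nat_lit 309) (nat_lit 0) (nat_lit 214) (nat_lit 208) (nat_lit 148))) (PT.nd (nat_lit 78) (PT.lf (nat_lit 22800) (nat_lit 6) (nat_lit 300) (nat_lit 0) (nat_lit 215) (nat_lit 208) (nat_lit 147)) (PT.lf (nat_lit 22116) (nat_lit 6) (nat_lit 291) (nat_lit 0) (nat_lit 216) (nat_lit 208) (nat_lit 146)))))) (PT.nd (nat_lit 53430) (PT.nd (nat_lit 234)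 (PT.nd (nat_lit 78) (PT.lf (nat_lit 21508) (nat_lit 6) (nat_lit 283) (nat_lit 0) (nat_lit 217) (nat_lit 208) (nat_lit 145)) (PT.nd (nat_lit 78) (PT.lf (nat_lit 20824) (nat_lit 6) (nat_lit 274) (nat_lit 0) (nat_lit 218) (nat_lit 208) (nat_lit 144)) (PT.lf (nat_lit 20216) (nat_lit 6) (nat_lit 266) (nat_lit 0) (nat_lit 219) (nat_lit 208) (nat_lit 143)))) (PT.nd (nat_lit 53040) (PT.nd (nat_lit 78) (PT.lf (nat_lit 19608) (nat_lit 6) (nat_lit 258) (nat_lit 0) (nat_lit 220) (nat_lit 208) (nat_lit 142)) (PT.lf (nat_lit 19000) (nat_lit 6) (nat_lit 250) (nat_lit 0) (nat_lit 221) (nat_lit 208) (nat_lit 141))) (PT.nd (nat_lit 78) (PT.lf (nat_lit 17936) (nat_lit 6) (nat_lit 236) (nat_lit 5) (nat_lit 139) (nat_lit 209) (nat_lit 222)) (PT.lf (nat_lit 18468) (nat_lit 6) (nat_lit 243) (nat_lit 5) (nat_lit 140) (nat_lit 209) (nat_lit 221))))) (PT.nd (nat_lit 312) (PT.nd (nat_lit 156) (PT.nd (nat_lit 78) (PT.lf (nat_lit 19076) (nat_lit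 6) (nat_lit 251) (nat_lit 5) (nat_lit 141) (nat_lit 209) (nat_lit 220)) (PT.lf (nat_lit 19684) (nat_lit 6) (nat_lit 259) (nat_lit 5) (nat_lit 142) (nat_lit 209) (nat_lit 219))) (PT.nd (nat_lit 78) (PT.lf (nat_lit 20292) (nat_lit 6) (nat_lit 267) (nat_lit 5) (nat_lit 143) (nat_lit 209) (nat_lit 218)) (PT.lf (nat_lit 20900) (nat_lit 6) (nat_lit 275) (nat_lit 5) (nat_lit 144) (nat_lit 209) (nat_lit 217)))) (PT.nd (nat_lit 156) (PT.nd (nat_lit 78) (PT.lf (nat_lit 21584) (nat_lit 6) (nat_lit 284) (nat_lit 5) (nat_lit 145) (nat_lit 209) (nat_lit 216)) (PT.lf (nat_lit 22192) (nat_lit 6) (nat_lit 292) (nat_lit 5) (nat_lit 146) (nat_lit 209) (nat_lit 215))) (PT.nd (nat_lit 78) (PT.lf (nat_lit 22876) (nat_lit 6) (nat_lit 301) (nat_lit 5) (nat_lit 147) (nat_lit 209) (nat_lit 214)) (PT.lf (nat_lit 23560) (nat_lit 6) (nat_lit 310) (nat_lit 5) (nat_lit 148) (nat_lit 209) (nat_lit 213))))))) (PT.nd (nat_lit 1170) (PT.nd (nat_lit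 546) (PT.nd (nat_lit 234) (PT.nd (nat_lit 78) (PT.lf (nat_lit 24244) (nat_lit 6) (nat_lit 319) (nat_lit 5) (nat_lit 149) (nat_lit 209) (nat_lit 212)) (PT.nd (nat_lit 78) (PT.lf (nat_lit 24928) (nat_lit 6) (nat_lit 328) (nat_lit 5) (nat_lit 150) (nat_lit 209) (nat_lit 211)) (PT.lf (nat_lit 25688) (nat_lit 6) (nat_lit 338) (nat_lit 5) (nat_lit 151) (nat_lit 209) (nat_lit 210)))) (PT.nd (nat_lit 156) (PT.nd (nat_lit 78) (PT.lf (nat_lit 26448) (nat_lit 3) (nat_lit 348) (nat_lit 4) (nat_lit 152) (nat_lit 209) (nat_lit 209)) (PT.lf (nat_lit 27132) (nat_lit 6) (nat_lit 357) (nat_lit 4) (nat_lit 153) (nat_lit 209) (nat_lit 208))) (PT.nd (nat_lit 78) (PT.lf (nat_lit 27816) (nat_lit 6) (nat_lit 366) (nat_lit 4) (nat_lit 154) (nat_lit 209) (nat_lit 207)) (PT.lf (nat_lit 28576) (nat_lit 6) (nat_lit 376) (nat_lit 4) (nat_lit 155) (nat_lit 209) (nat_lit 206))))) (PT.nd (nat_lit 312) (PT.nd (nat_lit 156) (PT.nd (nat_lit 78) (PT.lf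 (nat_lit 29336) (nat_lit 6) (nat_lit 386) (nat_lit 4) (nat_lit 156) (nat_lit 209) (nat_lit 205)) (PT.lf (nat_lit 30096) (nat_lit 6) (nat_lit 396) (nat_lit 4) (nat_lit 157) (nat_lit 209) (nat_lit 204))) (PT.nd (nat_lit 78) (PT.lf (nat_lit 30856) (nat_lit 6) (nat_lit 406) (nat_lit 4) (nat_lit 158) (nat_lit 209) (nat_lit 203)) (PT.lf (nat_lit 31692) (nat_lit 6) (nat_lit 417) (nat_lit 4) (nat_lit 159) (nat_lit 209) (nat_lit 202)))) (PT.nd (nat_lit 156) (PT.nd (nat_lit 78) (PT.lf (nat_lit 32528) (nat_lit 6) (nat_lit 428) (nat_lit 4) (nat_lit 160) (nat_lit 209) (nat_lit 201)) (PT.lf (nat_lit 33440) (nat_lit 6) (nat_lit 440) (nat_lit 4) (nat_lit 161) (nat_lit 209) (nat_lit 200))) (PT.nd (nat_lit 78) (PT.lf (nat_lit 34276) (nat_lit 6) (nat_lit 451) (nat_lit 4) (nat_lit 162) (nat_lit 209) (nat_lit 199)) (PT.lf (nat_lit 35188) (nat_lit 6) (nat_lit 463) (nat_lit 4) (nat_lit 163) (nat_lit 209) (nat_lit 198)))))) (PT.nd (nat_lit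 546) (PT.nd (nat_lit 234) (PT.nd (nat_lit 78) (PT.lf (nat_lit 36100) (nat_lit 6) (nat_lit 475) (nat_lit 4) (nat_lit 164) (nat_lit 209) (nat_lit 197)) (PT.nd (nat_lit 78) (PT.lf (nat_lit 37240) (nat_lit 6) (nat_lit 490) (nat_lit 4) (nat_lit 165) (nat_lit 209) (nat_lit 196)) (PT.lf (nat_lit 39064) (nat_lit 6) (nat_lit 514) (nat_lit 4) (nat_lit 166) (nat_lit 209) (nat_lit 195)))) (PT.nd (nat_lit 156) (PT.nd (nat_lit 78) (PT.lf (nat_lit 40812) (nat_lit 6) (nat_lit 537) (nat_lit 4) (nat_lit 167) (nat_lit 209) (nat_lit 194)) (PT.lf (nat_lit 42484) (nat_lit 6) (nat_lit 559) (nat_lit 4) (nat_lit 168) (nat_lit 209) (nat_lit 193))) (PT.nd (nat_lit 78) (PT.lf (nat_lit 44080) (nat_lit 6) (nat_lit 580) (nat_lit 4) (nat_lit 169) (nat_lit 209) (nat_lit 192)) (PT.lf (nat_lit 45600) (nat_lit 6) (nat_lit 600) (nat_lit 4) (nat_lit 170) (nat_lit 209) (nat_lit 191))))) (PT.nd (nat_lit 312) (PT.nd (nat_lit 156) (PT.nd (nat_lit 78) (PT.lf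 (nat_lit 47044) (nat_lit 6) (nat_lit 619) (nat_lit 4) (nat_lit 171) (nat_lit 209) (nat_lit 190)) (PT.lf (nat_lit 46968) (nat_lit 6) (nat_lit 618) (nat_lit 4) (nat_lit 172) (nat_lit 209) (nat_lit 189))) (PT.nd (nat_lit 78) (PT.lf (nat_lit 46892) (nat_lit 6) (nat_lit 617) (nat_lit 4) (nat_lit 173) (nat_lit 209) (nat_lit 188)) (PT.lf (nat_lit 46816) (nat_lit 6) (nat_lit 616) (nat_lit 4) (nat_lit 174) (nat_lit 209) (nat_lit 187)))) (PT.nd (nat_lit 156) (PT.nd (nat_lit 78) (PT.lf (nat_lit 46740) (nat_lit 6) (nat_lit 615) (nat_lit 4) (nat_lit 175) (nat_lit 209) (nat_lit 186)) (PT.lf (nat_lit 46664) (nat_lit 6) (nat_lit 614) (nat_lit 4) (nat_lit 176) (nat_lit 209) (nat_lit 185))) (PT.nd (nat_lit 78) (PT.lf (nat_lit 46588) (nat_lit 6) (nat_lit 613) (nat_lit 4) (nat_lit 177) (nat_lit 209) (nat_lit 184)) (PT.lf (nat_lit 46512) (nat_lit 6) (nat_lit 612) (nat_lit 4) (nat_lit 178) (nat_lit 209) (nat_lit 183))))))))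
noncomputable def pc48 : PT := (PT.nd (nat_lit 2262) (PT.nd (nat_lit 1092) (PT.nd (nat_lit 546) (PT.nd (nat_lit 234) (PT.nd (nat_lit 78) (PT.lf (nat_lit 46436) (nat_lit 6) (nat_lit 611) (nat_lit 4) (nat_lit 179) (nat_lit 209) (nat_lit 182)) (PT.nd (nat_lit 78) (PT.lf (nat_lit 46360) (nat_lit 6) (nat_lit 610) (nat_lit 4) (nat_lit 180) (nat_lit 209) (nat_lit 181)) (PT.lf (nat_lit 46360) (nat_lit 6) (nat_lit 610) (nat_lit 2) (nat_lit 181) (nat_lit 209) (nat_lit 180)))) (PT.nd (nat_lit 156) (PT.nd (nat_lit 78) (PT.lf (nat_lit 46436) (nat_lit 6) (nat_lit 611) (nat_lit 2) (nat_lit 182) (nat_lit 209) (nat_lit 179)) (PT.lf (nat_lit 46512) (nat_lit 6) (nat_lit 612) (nat_lit 2) (nat_lit 183) (nat_lit 209) (nat_lit 178))) (PT.nd (nat_lit 78) (PT.lf (nat_lit 46588) (nat_lit 6) (nat_lit 613) (nat_lit 2) (nat_lit 184) (nat_lit 209) (nat_lit 177)) (PT.lf (nat_lit 46664) (nat_lit 6) (nat_lit 614) (nat_lit 2) (nat_lit 185) (nat_lit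 209) (nat_lit 176))))) (PT.nd (nat_lit 234) (PT.nd (nat_lit 78) (PT.lf (nat_lit 46740) (nat_lit 6) (nat_lit 615) (nat_lit 2) (nat_lit 186) (nat_lit 209) (nat_lit 175)) (PT.nd (nat_lit 78) (PT.lf (nat_lit 46816) (nat_lit 6) (nat_lit 616) (nat_lit 2) (nat_lit 187) (nat_lit 209) (nat_lit 174)) (PT.lf (nat_lit 46892) (nat_lit 6) (nat_lit 617) (nat_lit 2) (nat_lit 188) (nat_lit 209) (nat_lit 173)))) (PT.nd (nat_lit 156) (PT.nd (nat_lit 78) (PT.lf (nat_lit 46968) (nat_lit 6) (nat_lit 618) (nat_lit 2) (nat_lit 189) (nat_lit 209) (nat_lit 172)) (PT.lf (nat_lit 47044) (nat_lit 6) (nat_lit 619) (nat_lit 2) (nat_lit 190) (nat_lit 209) (nat_lit 171))) (PT.nd (nat_lit 78) (PT.lf (nat_lit 45600) (nat_lit 6) (nat_lit 600) (nat_lit 2) (nat_lit 191) (nat_lit 209) (nat_lit 170)) (PT.lf (nat_lit 44080) (nat_lit 6) (nat_lit 580) (nat_lit 2) (nat_lit 192) (nat_lit 209) (nat_lit 169)))))) (PT.nd (nat_lit 546) (PT.nd (nat_lit 234) (PT.nd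 (nat_lit 78) (PT.lf (nat_lit 42484) (nat_lit 6) (nat_lit 559) (nat_lit 2) (nat_lit 193) (nat_lit 209) (nat_lit 168)) (PT.nd (nat_lit 78) (PT.lf (nat_lit 40812) (nat_lit 6) (nat_lit 537) (nat_lit 2) (nat_lit 194) (nat_lit 209) (nat_lit 167)) (PT.lf (nat_lit 39064) (nat_lit 6) (nat_lit 514) (nat_lit 2) (nat_lit 195) (nat_lit 209) (nat_lit 166)))) (PT.nd (nat_lit 156) (PT.nd (nat_lit 78) (PT.lf (nat_lit 37240) (nat_lit 6) (nat_lit 490) (nat_lit 2) (nat_lit 196) (nat_lit 209) (nat_lit 165)) (PT.lf (nat_lit 36100) (nat_lit 6) (nat_lit 475) (nat_lit 2) (nat_lit 197) (nat_lit 209) (nat_lit 164))) (PT.nd (nat_lit 78) (PT.lf (nat_lit 35188) (nat_lit 6) (nat_lit 463) (nat_lit 2) (nat_lit 198) (nat_lit 209) (nat_lit 163)) (PT.lf (nat_lit 34276) (nat_lit 6) (nat_lit 451) (nat_lit 2) (nat_lit 199) (nat_lit 209) (nat_lit 162))))) (PT.nd (nat_lit 312) (PT.nd (nat_lit 156) (PT.nd (nat_lit 78) (PT.lf (nat_lit 33440) (nat_lit 6)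 (nat_lit 440) (nat_lit 2) (nat_lit 200) (nat_lit 209) (nat_lit 161)) (PT.lf (nat_lit 32528) (nat_lit 6) (nat_lit 428) (nat_lit 2) (nat_lit 201) (nat_lit 209) (nat_lit 160))) (PT.nd (nat_lit 78) (PT.lf (nat_lit 31692) (nat_lit 6) (nat_lit 417) (nat_lit 2) (nat_lit 202) (nat_lit 209) (nat_lit 159)) (PT.lf (nat_lit 30856) (nat_lit 6) (nat_lit 406) (nat_lit 2) (nat_lit 203) (nat_lit 209) (nat_lit 158)))) (PT.nd (nat_lit 156) (PT.nd (nat_lit 78) (PT.lf (nat_lit 30096) (nat_lit 6) (nat_lit 396) (nat_lit 2) (nat_lit 204) (nat_lit 209) (nat_lit 157)) (PT.lf (nat_lit 29336) (nat_lit 6) (nat_lit 386) (nat_lit 2) (nat_lit 205) (nat_lit 209) (nat_lit 156))) (PT.nd (nat_lit 78) (PT.lf (nat_lit 28576) (nat_lit 6) (nat_lit 376) (nat_lit 2) (nat_lit 206) (nat_lit 209) (nat_lit 155)) (PT.lf (nat_lit 27816) (nat_lit 6) (nat_lit 366) (nat_lit 2) (nat_lit 207) (nat_lit 209) (nat_lit 154))))))) (PT.nd (nat_lit 1092) (PT.nd (nat_lit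 546) (PT.nd (nat_lit 234) (PT.nd (nat_lit 78) (PT.lf (nat_lit 27132) (nat_lit 6) (nat_lit 357) (nat_lit 2) (nat_lit 208) (nat_lit 209) (nat_lit 153)) (PT.nd (nat_lit 78) (PT.lf (nat_lit 26448) (nat_lit 3) (nat_lit 348) (nat_lit 0) (nat_lit 209) (nat_lit 209) (nat_lit 152)) (PT.lf (nat_lit 25688) (nat_lit 6) (nat_lit 338) (nat_lit 0) (nat_lit 210) (nat_lit 209) (nat_lit 151)))) (PT.nd (nat_lit 156) (PT.nd (nat_lit 78) (PT.lf (nat_lit 24928) (nat_lit 6) (nat_lit 328) (nat_lit 0) (nat_lit 211) (nat_lit 209) (nat_lit 150)) (PT.lf (nat_lit 24244) (nat_lit 6) (nat_lit 319) (nat_lit 0) (nat_lit 212) (nat_lit 209) (nat_lit 149))) (PT.nd (nat_lit 78) (PT.lf (nat_lit 23560) (nat_lit 6) (nat_lit 310) (nat_lit 0) (nat_lit 213) (nat_lit 209) (nat_lit 148)) (PT.lf (nat_lit 22876) (nat_lit 6) (nat_lit 301) (nat_lit 0) (nat_lit 214) (nat_lit 209) (nat_lit 147))))) (PT.nd (nat_lit 234) (PT.nd (nat_lit 78) (PT.lf (nat_lit 22192)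 (nat_lit 6) (nat_lit 292) (nat_lit 0) (nat_lit 215) (nat_lit 209) (nat_lit 146)) (PT.nd (nat_lit 78) (PT.lf (nat_lit 21584) (nat_lit 6) (nat_lit 284) (nat_lit 0) (nat_lit 216) (nat_lit 209) (nat_lit 145)) (PT.lf (nat_lit 20900) (nat_lit 6) (nat_lit 275) (nat_lit 0) (nat_lit 217) (nat_lit 209) (nat_lit 144)))) (PT.nd (nat_lit 156) (PT.nd (nat_lit 78) (PT.lf (nat_lit 20292) (nat_lit 6) (nat_lit 267) (nat_lit 0) (nat_lit 218) (nat_lit 209) (nat_lit 143)) (PT.lf (nat_lit 19684) (nat_lit 6) (nat_lit 259) (nat_lit 0) (nat_lit 219) (nat_lit 209) (nat_lit 142))) (PT.nd (nat_lit 78) (PT.lf (nat_lit 19076) (nat_lit 6) (nat_lit 251) (nat_lit 0) (nat_lit 220) (nat_lit 209) (nat_lit 141)) (PT.lf (nat_lit 18468) (nat_lit 6) (nat_lit 243) (nat_lit 0) (nat_lit 221) (nat_lit 209) (nat_lit 140)))))) (PT.nd (nat_lit 53274) (PT.nd (nat_lit 52962) (PT.nd (nat_lit 52806) (PT.lf (nat_lit 17936) (nat_lit 6) (nat_lit 236) (nat_lit 0) (nat_lit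 222) (nat_lit 209) (nat_lit 139)) (PT.nd (nat_lit 78) (PT.lf (nat_lit 17404) (nat_lit 6) (nat_lit 229) (nat_lit 5) (nat_lit 138) (nat_lit 210) (nat_lit 222)) (PT.lf (nat_lit 18012) (nat_lit 6) (nat_lit 237) (nat_lit 5) (nat_lit 139) (nat_lit 210) (nat_lit 221)))) (PT.nd (nat_lit 156) (PT.nd (nat_lit 78) (PT.lf (nat_lit 18544) (nat_lit 6) (nat_lit 244) (nat_lit 5) (nat_lit 140) (nat_lit 210) (nat_lit 220)) (PT.lf (nat_lit 19152) (nat_lit 6) (nat_lit 252) (nat_lit 5) (nat_lit 141) (nat_lit 210) (nat_lit 219))) (PT.nd (nat_lit 78) (PT.lf (nat_lit 19760) (nat_lit 6) (nat_lit 260) (nat_lit 5) (nat_lit 142) (nat_lit 210) (nat_lit 218)) (PT.lf (nat_lit 20368) (nat_lit 6) (nat_lit 268) (nat_lit 5) (nat_lit 143) (nat_lit 210) (nat_lit 217))))) (PT.nd (nat_lit 312) (PT.nd (nat_lit 156) (PT.nd (nat_lit 78) (PT.lf (nat_lit 20976) (nat_lit 6) (nat_lit 276) (nat_lit 5) (nat_lit 144) (nat_lit 210) (nat_lit 216)) (PT.lf (nat_lit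 21660) (nat_lit 6) (nat_lit 285) (nat_lit 5) (nat_lit 145) (nat_lit 210) (nat_lit 215))) (PT.nd (nat_lit 78) (PT.lf (nat_lit 22268) (nat_lit 6) (nat_lit 293) (nat_lit 5) (nat_lit 146) (nat_lit 210) (nat_lit 214)) (PT.lf (nat_lit 22952) (nat_lit 6) (nat_lit 302) (nat_lit 5) (nat_lit 147) (nat_lit 210) (nat_lit 213)))) (PT.nd (nat_lit 156) (PT.nd (nat_lit 78) (PT.lf (nat_lit 23636) (nat_lit 6) (nat_lit 311) (nat_lit 5) (nat_lit 148) (nat_lit 210) (nat_lit 212)) (PT.lf (nat_lit 24320) (nat_lit 6) (nat_lit 320) (nat_lit 5) (nat_lit 149) (nat_lit 210) (nat_lit 211))) (PT.nd (nat_lit 78) (PT.lf (nat_lit 25004) (nat_lit 3) (nat_lit 329) (nat_lit 4) (nat_lit 150) (nat_lit 210) (nat_lit 210)) (PT.lf (nat_lit 25688) (nat_lit 6) (nat_lit 338) (nat_lit 4) (nat_lit 151) (nat_lit 210) (nat_lit 209))))))))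
noncomputable def pc49 : PT := (PT.nd (nat_lit 2262) (PT.nd (nat_lit 1092) (PT.nd (nat_lit 546) (PT.nd (nat_lit 234) (PT.nd (nat_lit 78) (PT.lf (nat_lit 26372) (nat_lit 6) (nat_lit 347) (nat_lit 4) (nat_lit 152) (nat_lit 210) (nat_lit 208)) (PT.nd (nat_lit 78) (PT.lf (nat_lit 27056) (nat_lit 6) (nat_lit 356) (nat_lit 4) (nat_lit 153) (nat_lit 210) (nat_lit 207)) (PT.lf (nat_lit 27740) (nat_lit 6) (nat_lit 365) (nat_lit 4) (nat_lit 154) (nat_lit 210) (nat_lit 206)))) (PT.nd (nat_lit 156) (PT.nd (nat_lit 78) (PT.lf (nat_lit 28500) (nat_lit 6) (nat_lit 375) (nat_lit 4) (nat_lit 155) (nat_lit 210) (nat_lit 205)) (PT.lf (nat_lit 29260) (nat_lit 6) (nat_lit 385) (nat_lit 4) (nat_lit 156) (nat_lit 210) (nat_lit 204))) (PT.nd (nat_lit 78) (PT.lf (nat_lit 30020) (nat_lit 6) (nat_lit 395) (nat_lit 4) (nat_lit 157) (nat_lit 210) (nat_lit 203)) (PT.lf (nat_lit 30780) (nat_lit 6) (nat_lit 405) (nat_lit 4) (nat_lit 158) (nat_lit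 210) (nat_lit 202))))) (PT.nd (nat_lit 234) (PT.nd (nat_lit 78) (PT.lf (nat_lit 31616) (nat_lit 6) (nat_lit 416) (nat_lit 4) (nat_lit 159) (nat_lit 210) (nat_lit 201)) (PT.nd (nat_lit 78) (PT.lf (nat_lit 32452) (nat_lit 6) (nat_lit 427) (nat_lit 4) (nat_lit 160) (nat_lit 210) (nat_lit 200)) (PT.lf (nat_lit 33364) (nat_lit 6) (nat_lit 439) (nat_lit 4) (nat_lit 161) (nat_lit 210) (nat_lit 199)))) (PT.nd (nat_lit 156) (PT.nd (nat_lit 78) (PT.lf (nat_lit 34200) (nat_lit 6) (nat_lit 450) (nat_lit 4) (nat_lit 162) (nat_lit 210) (nat_lit 198)) (PT.lf (nat_lit 35112) (nat_lit 6) (nat_lit 462) (nat_lit 4) (nat_lit 163) (nat_lit 210) (nat_lit 197))) (PT.nd (nat_lit 78) (PT.lf (nat_lit 36024) (nat_lit 6) (nat_lit 474) (nat_lit 4) (nat_lit 164) (nat_lit 210) (nat_lit 196)) (PT.lf (nat_lit 37164) (nat_lit 6) (nat_lit 489) (nat_lit 4) (nat_lit 165) (nat_lit 210) (nat_lit 195)))))) (PT.nd (nat_lit 546) (PT.nd (nat_lit 234) (PT.nd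 (nat_lit 78) (PT.lf (nat_lit 38988) (nat_lit 6) (nat_lit 513) (nat_lit 4) (nat_lit 166) (nat_lit 210) (nat_lit 194)) (PT.nd (nat_lit 78) (PT.lf (nat_lit 40736) (nat_lit 6) (nat_lit 536) (nat_lit 4) (nat_lit 167) (nat_lit 210) (nat_lit 193)) (PT.lf (nat_lit 42408) (nat_lit 6) (nat_lit 558) (nat_lit 4) (nat_lit 168) (nat_lit 210) (nat_lit 192)))) (PT.nd (nat_lit 156) (PT.nd (nat_lit 78) (PT.lf (nat_lit 44004) (nat_lit 6) (nat_lit 579) (nat_lit 4) (nat_lit 169) (nat_lit 210) (nat_lit 191)) (PT.lf (nat_lit 45524) (nat_lit 6) (nat_lit 599) (nat_lit 4) (nat_lit 170) (nat_lit 210) (nat_lit 190))) (PT.nd (nat_lit 78) (PT.lf (nat_lit 45448) (nat_lit 6) (nat_lit 598) (nat_lit 4) (nat_lit 171) (nat_lit 210) (nat_lit 189)) (PT.lf (nat_lit 45372) (nat_lit 6) (nat_lit 597) (nat_lit 4) (nat_lit 172) (nat_lit 210) (nat_lit 188))))) (PT.nd (nat_lit 312) (PT.nd (nat_lit 156) (PT.nd (nat_lit 78) (PT.lf (nat_lit 45296) (nat_lit 6)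 (nat_lit 596) (nat_lit 4) (nat_lit 173) (nat_lit 210) (nat_lit 187)) (PT.lf (nat_lit 45220) (nat_lit 6) (nat_lit 595) (nat_lit 4) (nat_lit 174) (nat_lit 210) (nat_lit 186))) (PT.nd (nat_lit 78) (PT.lf (nat_lit 45144) (nat_lit 6) (nat_lit 594) (nat_lit 4) (nat_lit 175) (nat_lit 210) (nat_lit 185)) (PT.lf (nat_lit 45068) (nat_lit 6) (nat_lit 593) (nat_lit 4) (nat_lit 176) (nat_lit 210) (nat_lit 184)))) (PT.nd (nat_lit 156) (PT.nd (nat_lit 78) (PT.lf (nat_lit 44992) (nat_lit 6) (nat_lit 592) (nat_lit 4) (nat_lit 177) (nat_lit 210) (nat_lit 183)) (PT.lf (nat_lit 44916) (nat_lit 6) (nat_lit 591) (nat_lit 4) (nat_lit 178) (nat_lit 210) (nat_lit 182))) (PT.nd (nat_lit 78) (PT.lf (nat_lit 44840) (nat_lit 6) (nat_lit 590) (nat_lit 4) (nat_lit 179) (nat_lit 210) (nat_lit 181)) (PT.lf (nat_lit 44764) (nat_lit 3) (nat_lit 589) (nat_lit 2) (nat_lit 180) (nat_lit 210) (nat_lit 180))))))) (PT.nd (nat_lit 1092) (PT.nd (nat_lit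 546) (PT.nd (nat_lit 234) (PT.nd (nat_lit 78) (PT.lf (nat_lit 44840) (nat_lit 6) (nat_lit 590) (nat_lit 2) (nat_lit 181) (nat_lit 210) (nat_lit 179)) (PT.nd (nat_lit 78) (PT.lf (nat_lit 44916) (nat_lit 6) (nat_lit 591) (nat_lit 2) (nat_lit 182) (nat_lit 210) (nat_lit 178)) (PT.lf (nat_lit 44992) (nat_lit 6) (nat_lit 592) (nat_lit 2) (nat_lit 183) (nat_lit 210) (nat_lit 177)))) (PT.nd (nat_lit 156) (PT.nd (nat_lit 78) (PT.lf (nat_lit 45068) (nat_lit 6) (nat_lit 593) (nat_lit 2) (nat_lit 184) (nat_lit 210) (nat_lit 176)) (PT.lf (nat_lit 45144) (nat_lit 6) (nat_lit 594) (nat_lit 2) (nat_lit 185) (nat_lit 210) (nat_lit 175))) (PT.nd (nat_lit 78) (PT.lf (nat_lit 45220) (nat_lit 6) (nat_lit 595) (nat_lit 2) (nat_lit 186) (nat_lit 210) (nat_lit 174)) (PT.lf (nat_lit 45296) (nat_lit 6) (nat_lit 596) (nat_lit 2) (nat_lit 187) (nat_lit 210) (nat_lit 173))))) (PT.nd (nat_lit 234) (PT.nd (nat_lit 78) (PT.lf (nat_lit 45372)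 (nat_lit 6) (nat_lit 597) (nat_lit 2) (nat_lit 188) (nat_lit 210) (nat_lit 172)) (PT.nd (nat_lit 78) (PT.lf (nat_lit 45448) (nat_lit 6) (nat_lit 598) (nat_lit 2) (nat_lit 189) (nat_lit 210) (nat_lit 171)) (PT.lf (nat_lit 45524) (nat_lit 6) (nat_lit 599) (nat_lit 2) (nat_lit 190) (nat_lit 210) (nat_lit 170)))) (PT.nd (nat_lit 156) (PT.nd (nat_lit 78) (PT.lf (nat_lit 44004) (nat_lit 6) (nat_lit 579) (nat_lit 2) (nat_lit 191) (nat_lit 210) (nat_lit 169)) (PT.lf (nat_lit 42408) (nat_lit 6) (nat_lit 558) (nat_lit 2) (nat_lit 192) (nat_lit 210) (nat_lit 168))) (PT.nd (nat_lit 78) (PT.lf (nat_lit 40736) (nat_lit 6) (nat_lit 536) (nat_lit 2) (nat_lit 193) (nat_lit 210) (nat_lit 167)) (PT.lf (nat_lit 38988) (nat_lit 6) (nat_lit 513) (nat_lit 2) (nat_lit 194) (nat_lit 210) (nat_lit 166)))))) (PT.nd (nat_lit 546) (PT.nd (nat_lit 234) (PT.nd (nat_lit 78) (PT.lf (nat_lit 37164) (nat_lit 6) (nat_lit 489) (nat_lit 2) (nat_lit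 195) (nat_lit 210) (nat_lit 165)) (PT.nd (nat_lit 78) (PT.lf (nat_lit 36024) (nat_lit 6) (nat_lit 474) (nat_lit 2) (nat_lit 196) (nat_lit 210) (nat_lit 164)) (PT.lf (nat_lit 35112) (nat_lit 6) (nat_lit 462) (nat_lit 2) (nat_lit 197) (nat_lit 210) (nat_lit 163)))) (PT.nd (nat_lit 156) (PT.nd (nat_lit 78) (PT.lf (nat_lit 34200) (nat_lit 6) (nat_lit 450) (nat_lit 2) (nat_lit 198) (nat_lit 210) (nat_lit 162)) (PT.lf (nat_lit 33364) (nat_lit 6) (nat_lit 439) (nat_lit 2) (nat_lit 199) (nat_lit 210) (nat_lit 161))) (PT.nd (nat_lit 78) (PT.lf (nat_lit 32452) (nat_lit 6) (nat_lit 427) (nat_lit 2) (nat_lit 200) (nat_lit 210) (nat_lit 160)) (PT.lf (nat_lit 31616) (nat_lit 6) (nat_lit 416) (nat_lit 2) (nat_lit 201) (nat_lit 210) (nat_lit 159))))) (PT.nd (nat_lit 312) (PT.nd (nat_lit 156) (PT.nd (nat_lit 78) (PT.lf (nat_lit 30780) (nat_lit 6) (nat_lit 405) (nat_lit 2) (nat_lit 202) (nat_lit 210) (nat_lit 158)) (PT.lf (nat_lit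 30020) (nat_lit 6) (nat_lit 395) (nat_lit 2) (nat_lit 203) (nat_lit 210) (nat_lit 157))) (PT.nd (nat_lit 78) (PT.lf (nat_lit 29260) (nat_lit 6) (nat_lit 385) (nat_lit 2) (nat_lit 204) (nat_lit 210) (nat_lit 156)) (PT.lf (nat_lit 28500) (nat_lit 6) (nat_lit 375) (nat_lit 2) (nat_lit 205) (nat_lit 210) (nat_lit 155)))) (PT.nd (nat_lit 156) (PT.nd (nat_lit 78) (PT.lf (nat_lit 27740) (nat_lit 6) (nat_lit 365) (nat_lit 2) (nat_lit 206) (nat_lit 210) (nat_lit 154)) (PT.lf (nat_lit 27056) (nat_lit 6) (nat_lit 356) (nat_lit 2) (nat_lit 207) (nat_lit 210) (nat_lit 153))) (PT.nd (nat_lit 78) (PT.lf (nat_lit 26372) (nat_lit 6) (nat_lit 347) (nat_lit 2) (nat_lit 208) (nat_lit 210) (nat_lit 152)) (PT.lf (nat_lit 25688) (nat_lit 6) (nat_lit 338) (nat_lit 2) (nat_lit 209) (nat_lit 210) (nat_lit 151))))))))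
noncomputable def pc50 : PT := (PT.nd (nat_lit 54834) (PT.nd (nat_lit 53664) (PT.nd (nat_lit 546) (PT.nd (nat_lit 234) (PT.nd (nat_lit 78) (PT.lf (nat_lit 25004) (nat_lit 3) (nat_lit 329) (nat_lit 0) (nat_lit 210) (nat_lit 210) (nat_lit 150)) (PT.nd (nat_lit 78) (PT.lf (nat_lit 24320) (nat_lit 6) (nat_lit 320) (nat_lit 0) (nat_lit 211) (nat_lit 210) (nat_lit 149)) (PT.lf (nat_lit 23636) (nat_lit 6) (nat_lit 311) (nat_lit 0) (nat_lit 212) (nat_lit 210) (nat_lit 148)))) (PT.nd (nat_lit 156) (PT.nd (nat_lit 78) (PT.lf (nat_lit 22952) (nat_lit 6) (nat_lit 302) (nat_lit 0) (nat_lit 213) (nat_lit 210) (nat_lit 147)) (PT.lf (nat_lit 22268) (nat_lit 6) (nat_lit 293) (nat_lit 0) (nat_lit 214) (nat_lit 210) (nat_lit 146))) (PT.nd (nat_lit 78) (PT.lf (nat_lit 21660) (nat_lit 6) (nat_lit 285) (nat_lit 0) (nat_lit 215) (nat_lit 210) (nat_lit 145)) (PT.lf (nat_lit 20976) (nat_lit 6) (nat_lit 276) (nat_lit 0) (nat_lit 216) (nat_lit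 210) (nat_lit 144))))) (PT.nd (nat_lit 234) (PT.nd (nat_lit 78) (PT.lf (nat_lit 20368) (nat_lit 6) (nat_lit 268) (nat_lit 0) (nat_lit 217) (nat_lit 210) (nat_lit 143)) (PT.nd (nat_lit 78) (PT.lf (nat_lit 19760) (nat_lit 6) (nat_lit 260) (nat_lit 0) (nat_lit 218) (nat_lit 210) (nat_lit 142)) (PT.lf (nat_lit 19152) (nat_lit 6) (nat_lit 252) (nat_lit 0) (nat_lit 219) (nat_lit 210) (nat_lit 141)))) (PT.nd (nat_lit 156) (PT.nd (nat_lit 78) (PT.lf (nat_lit 18544) (nat_lit 6) (nat_lit 244) (nat_lit 0) (nat_lit 220) (nat_lit 210) (nat_lit 140)) (PT.lf (nat_lit 18012) (nat_lit 6) (nat_lit 237) (nat_lit 0) (nat_lit 221) (nat_lit 210) (nat_lit 139))) (PT.nd (nat_lit 52650) (PT.lf (nat_lit 17404) (nat_lit 6) (nat_lit 229) (nat_lit 0) (nat_lit 222) (nat_lit 210) (nat_lit 138)) (PT.lf (nat_lit 16416) (nat_lit 6) (nat_lit 216) (nat_lit 5) (nat_lit 136) (nat_lit 211) (nat_lit 223)))))) (PT.nd (nat_lit 546) (PT.nd (nat_lit 234)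 (PT.nd (nat_lit 78) (PT.lf (nat_lit 16948) (nat_lit 6) (nat_lit 223) (nat_lit 5) (nat_lit 137) (nat_lit 211) (nat_lit 222)) (PT.nd (nat_lit 78) (PT.lf (nat_lit 17480) (nat_lit 6) (nat_lit 230) (nat_lit 5) (nat_lit 138) (nat_lit 211) (nat_lit 221)) (PT.lf (nat_lit 18088) (nat_lit 6) (nat_lit 238) (nat_lit 5) (nat_lit 139) (nat_lit 211) (nat_lit 220)))) (PT.nd (nat_lit 156) (PT.nd (nat_lit 78) (PT.lf (nat_lit 18620) (nat_lit 6) (nat_lit 245) (nat_lit 5) (nat_lit 140) (nat_lit 211) (nat_lit 219)) (PT.lf (nat_lit 19228) (nat_lit 6) (nat_lit 253) (nat_lit 5) (nat_lit 141) (nat_lit 211) (nat_lit 218))) (PT.nd (nat_lit 78) (PT.lf (nat_lit 19836) (nat_lit 6) (nat_lit 261) (nat_lit 5) (nat_lit 142) (nat_lit 211) (nat_lit 217)) (PT.lf (nat_lit 20444) (nat_lit 6) (nat_lit 269) (nat_lit 5) (nat_lit 143) (nat_lit 211) (nat_lit 216))))) (PT.nd (nat_lit 312) (PT.nd (nat_lit 156) (PT.nd (nat_lit 78) (PT.lf (nat_lit 21052) (nat_lit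 6) (nat_lit 277) (nat_lit 5) (nat_lit 144) (nat_lit 211) (nat_lit 215)) (PT.lf (nat_lit 21736) (nat_lit 6) (nat_lit 286) (nat_lit 5) (nat_lit 145) (nat_lit 211) (nat_lit 214))) (PT.nd (nat_lit 78) (PT.lf (nat_lit 22344) (nat_lit 6) (nat_lit 294) (nat_lit 5) (nat_lit 146) (nat_lit 211) (nat_lit 213)) (PT.lf (nat_lit 23028) (nat_lit 6) (nat_lit 303) (nat_lit 5) (nat_lit 147) (nat_lit 211) (nat_lit 212)))) (PT.nd (nat_lit 156) (PT.nd (nat_lit 78) (PT.lf (nat_lit 23712) (nat_lit 3) (nat_lit 312) (nat_lit 4) (nat_lit 148) (nat_lit 211) (nat_lit 211)) (PT.lf (nat_lit 24320) (nat_lit 6) (nat_lit 320) (nat_lit 4) (nat_lit 149) (nat_lit 211) (nat_lit 210))) (PT.nd (nat_lit 78) (PT.lf (nat_lit 24928) (nat_lit 6) (nat_lit 328) (nat_lit 4) (nat_lit 150) (nat_lit 211) (nat_lit 209)) (PT.lf (nat_lit 25612) (nat_lit 6) (nat_lit 337) (nat_lit 4) (nat_lit 151) (nat_lit 211) (nat_lit 208))))))) (PT.nd (nat_lit 1092) (PT.nd (nat_lit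 546) (PT.nd (nat_lit 234) (PT.nd (nat_lit 78) (PT.lf (nat_lit 26296) (nat_lit 6) (nat_lit 346) (nat_lit 4) (nat_lit 152) (nat_lit 211) (nat_lit 207)) (PT.nd (nat_lit 78) (PT.lf (nat_lit 26980) (nat_lit 6) (nat_lit 355) (nat_lit 4) (nat_lit 153) (nat_lit 211) (nat_lit 206)) (PT.lf (nat_lit 27664) (nat_lit 6) (nat_lit 364) (nat_lit 4) (nat_lit 154) (nat_lit 211) (nat_lit 205)))) (PT.nd (nat_lit 156) (PT.nd (nat_lit 78) (PT.lf (nat_lit 28424) (nat_lit 6) (nat_lit 374) (nat_lit 4) (nat_lit 155) (nat_lit 211) (nat_lit 204)) (PT.lf (nat_lit 29184) (nat_lit 6) (nat_lit 384) (nat_lit 4) (nat_lit 156) (nat_lit 211) (nat_lit 203))) (PT.nd (nat_lit 78) (PT.lf (nat_lit 29944) (nat_lit 6) (nat_lit 394) (nat_lit 4) (nat_lit 157) (nat_lit 211) (nat_lit 202)) (PT.lf (nat_lit 30704) (nat_lit 6) (nat_lit 404) (nat_lit 4) (nat_lit 158) (nat_lit 211) (nat_lit 201))))) (PT.nd (nat_lit 234) (PT.nd (nat_lit 78) (PT.lf (nat_lit 31540)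 (nat_lit 6) (nat_lit 415) (nat_lit 4) (nat_lit 159) (nat_lit 211) (nat_lit 200)) (PT.nd (nat_lit 78) (PT.lf (nat_lit 32376) (nat_lit 6) (nat_lit 426) (nat_lit 4) (nat_lit 160) (nat_lit 211) (nat_lit 199)) (PT.lf (nat_lit 33288) (nat_lit 6) (nat_lit 438) (nat_lit 4) (nat_lit 161) (nat_lit 211) (nat_lit 198)))) (PT.nd (nat_lit 156) (PT.nd (nat_lit 78) (PT.lf (nat_lit 34124) (nat_lit 6) (nat_lit 449) (nat_lit 4) (nat_lit 162) (nat_lit 211) (nat_lit 197)) (PT.lf (nat_lit 35036) (nat_lit 6) (nat_lit 461) (nat_lit 4) (nat_lit 163) (nat_lit 211) (nat_lit 196))) (PT.nd (nat_lit 78) (PT.lf (nat_lit 35948) (nat_lit 6) (nat_lit 473) (nat_lit 4) (nat_lit 164) (nat_lit 211) (nat_lit 195)) (PT.lf (nat_lit 37088) (nat_lit 6) (nat_lit 488) (nat_lit 4) (nat_lit 165) (nat_lit 211) (nat_lit 194)))))) (PT.nd (nat_lit 546) (PT.nd (nat_lit 234) (PT.nd (nat_lit 78) (PT.lf (nat_lit 38912) (nat_lit 6) (nat_lit 512) (nat_lit 4) (nat_lit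 166) (nat_lit 211) (nat_lit 193)) (PT.nd (nat_lit 78) (PT.lf (nat_lit 40660) (nat_lit 6) (nat_lit 535) (nat_lit 4) (nat_lit 167) (nat_lit 211) (nat_lit 192)) (PT.lf (nat_lit 42332) (nat_lit 6) (nat_lit 557) (nat_lit 4) (nat_lit 168) (nat_lit 211) (nat_lit 191)))) (PT.nd (nat_lit 156) (PT.nd (nat_lit 78) (PT.lf (nat_lit 43928) (nat_lit 6) (nat_lit 578) (nat_lit 4) (nat_lit 169) (nat_lit 211) (nat_lit 190)) (PT.lf (nat_lit 43852) (nat_lit 6) (nat_lit 577) (nat_lit 4) (nat_lit 170) (nat_lit 211) (nat_lit 189))) (PT.nd (nat_lit 78) (PT.lf (nat_lit 43776) (nat_lit 6) (nat_lit 576) (nat_lit 4) (nat_lit 171) (nat_lit 211) (nat_lit 188)) (PT.lf (nat_lit 43700) (nat_lit 6) (nat_lit 575) (nat_lit 4) (nat_lit 172) (nat_lit 211) (nat_lit 187))))) (PT.nd (nat_lit 312) (PT.nd (nat_lit 156) (PT.nd (nat_lit 78) (PT.lf (nat_lit 43624) (nat_lit 6) (nat_lit 574) (nat_lit 4) (nat_lit 173) (nat_lit 211) (nat_lit 186)) (PT.lf (nat_lit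 43548) (nat_lit 6) (nat_lit 573) (nat_lit 4) (nat_lit 174) (nat_lit 211) (nat_lit 185))) (PT.nd (nat_lit 78) (PT.lf (nat_lit 43472) (nat_lit 6) (nat_lit 572) (nat_lit 4) (nat_lit 175) (nat_lit 211) (nat_lit 184)) (PT.lf (nat_lit 43396) (nat_lit 6) (nat_lit 571) (nat_lit 4) (nat_lit 176) (nat_lit 211) (nat_lit 183)))) (PT.nd (nat_lit 156) (PT.nd (nat_lit 78) (PT.lf (nat_lit 43320) (nat_lit 6) (nat_lit 570) (nat_lit 4) (nat_lit 177) (nat_lit 211) (nat_lit 182)) (PT.lf (nat_lit 43244) (nat_lit 6) (nat_lit 569) (nat_lit 4) (nat_lit 178) (nat_lit 211) (nat_lit 181))) (PT.nd (nat_lit 78) (PT.lf (nat_lit 43168) (nat_lit 6) (nat_lit 568) (nat_lit 4) (nat_lit 179) (nat_lit 211) (nat_lit 180)) (PT.lf (nat_lit 43168) (nat_lit 6) (nat_lit 568) (nat_lit 2) (nat_lit 180) (nat_lit 211) (nat_lit 179))))))))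
noncomputable def pc51 : PT := (PT.nd (nat_lit 2262) (PT.nd (nat_lit 1092) (PT.nd (nat_lit 546) (PT.nd (nat_lit 234) (PT.nd (nat_lit 78) (PT.lf (nat_lit 43244) (nat_lit 6) (nat_lit 569) (nat_lit 2) (nat_lit 181) (nat_lit 211) (nat_lit 178)) (PT.nd (nat_lit 78) (PT.lf (nat_lit 43320) (nat_lit 6) (nat_lit 570) (nat_lit 2) (nat_lit 182) (nat_lit 211) (nat_lit 177)) (PT.lf (nat_lit 43396) (nat_lit 6) (nat_lit 571) (nat_lit 2) (nat_lit 183) (nat_lit 211) (nat_lit 176)))) (PT.nd (nat_lit 156) (PT.nd (nat_lit 78) (PT.lf (nat_lit 43472) (nat_lit 6) (nat_lit 572) (nat_lit 2) (nat_lit 184) (nat_lit 211) (nat_lit 175)) (PT.lf (nat_lit 43548) (nat_lit 6) (nat_lit 573) (nat_lit 2) (nat_lit 185) (nat_lit 211) (nat_lit 174))) (PT.nd (nat_lit 78) (PT.lf (nat_lit 43624) (nat_lit 6) (nat_lit 574) (nat_lit 2) (nat_lit 186) (nat_lit 211) (nat_lit 173)) (PT.lf (nat_lit 43700) (nat_lit 6) (nat_lit 575) (nat_lit 2) (nat_lit 187) (nat_lit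 211) (nat_lit 172))))) (PT.nd (nat_lit 234) (PT.nd (nat_lit 78) (PT.lf (nat_lit 43776) (nat_lit 6) (nat_lit 576) (nat_lit 2) (nat_lit 188) (nat_lit 211) (nat_lit 171)) (PT.nd (nat_lit 78) (PT.lf (nat_lit 43852) (nat_lit 6) (nat_lit 577) (nat_lit 2) (nat_lit 189) (nat_lit 211) (nat_lit 170)) (PT.lf (nat_lit 43928) (nat_lit 6) (nat_lit 578) (nat_lit 2) (nat_lit 190) (nat_lit 211) (nat_lit 169)))) (PT.nd (nat_lit 156) (PT.nd (nat_lit 78) (PT.lf (nat_lit 42332) (nat_lit 6) (nat_lit 557) (nat_lit 2) (nat_lit 191) (nat_lit 211) (nat_lit 168)) (PT.lf (nat_lit 40660) (nat_lit 6) (nat_lit 535) (nat_lit 2) (nat_lit 192) (nat_lit 211) (nat_lit 167))) (PT.nd (nat_lit 78) (PT.lf (nat_lit 38912) (nat_lit 6) (nat_lit 512) (nat_lit 2) (nat_lit 193) (nat_lit 211) (nat_lit 166)) (PT.lf (nat_lit 37088) (nat_lit 6) (nat_lit 488) (nat_lit 2) (nat_lit 194) (nat_lit 211) (nat_lit 165)))))) (PT.nd (nat_lit 546) (PT.nd (nat_lit 234) (PT.nd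 (nat_lit 78) (PT.lf (nat_lit 35948) (nat_lit 6) (nat_lit 473) (nat_lit 2) (nat_lit 195) (nat_lit 211) (nat_lit 164)) (PT.nd (nat_lit 78) (PT.lf (nat_lit 35036) (nat_lit 6) (nat_lit 461) (nat_lit 2) (nat_lit 196) (nat_lit 211) (nat_lit 163)) (PT.lf (nat_lit 34124) (nat_lit 6) (nat_lit 449) (nat_lit 2) (nat_lit 197) (nat_lit 211) (nat_lit 162)))) (PT.nd (nat_lit 156) (PT.nd (nat_lit 78) (PT.lf (nat_lit 33288) (nat_lit 6) (nat_lit 438) (nat_lit 2) (nat_lit 198) (nat_lit 211) (nat_lit 161)) (PT.lf (nat_lit 32376) (nat_lit 6) (nat_lit 426) (nat_lit 2) (nat_lit 199) (nat_lit 211) (nat_lit 160))) (PT.nd (nat_lit 78) (PT.lf (nat_lit 31540) (nat_lit 6) (nat_lit 415) (nat_lit 2) (nat_lit 200) (nat_lit 211) (nat_lit 159)) (PT.lf (nat_lit 30704) (nat_lit 6) (nat_lit 404) (nat_lit 2) (nat_lit 201) (nat_lit 211) (nat_lit 158))))) (PT.nd (nat_lit 312) (PT.nd (nat_lit 156) (PT.nd (nat_lit 78) (PT.lf (nat_lit 29944) (nat_lit 6)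 (nat_lit 394) (nat_lit 2) (nat_lit 202) (nat_lit 211) (nat_lit 157)) (PT.lf (nat_lit 29184) (nat_lit 6) (nat_lit 384) (nat_lit 2) (nat_lit 203) (nat_lit 211) (nat_lit 156))) (PT.nd (nat_lit 78) (PT.lf (nat_lit 28424) (nat_lit 6) (nat_lit 374) (nat_lit 2) (nat_lit 204) (nat_lit 211) (nat_lit 155)) (PT.lf (nat_lit 27664) (nat_lit 6) (nat_lit 364) (nat_lit 2) (nat_lit 205) (nat_lit 211) (nat_lit 154)))) (PT.nd (nat_lit 156) (PT.nd (nat_lit 78) (PT.lf (nat_lit 26980) (nat_lit 6) (nat_lit 355) (nat_lit 2) (nat_lit 206) (nat_lit 211) (nat_lit 153)) (PT.lf (nat_lit 26296) (nat_lit 6) (nat_lit 346) (nat_lit 2) (nat_lit 207) (nat_lit 211) (nat_lit 152))) (PT.nd (nat_lit 78) (PT.lf (nat_lit 25612) (nat_lit 6) (nat_lit 337) (nat_lit 2) (nat_lit 208) (nat_lit 211) (nat_lit 151)) (PT.lf (nat_lit 24928) (nat_lit 6) (nat_lit 328) (nat_lit 2) (nat_lit 209) (nat_lit 211) (nat_lit 150))))))) (PT.nd (nat_lit 53586) (PT.nd (nat_lit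 546) (PT.nd (nat_lit 234) (PT.nd (nat_lit 78) (PT.lf (nat_lit 24320) (nat_lit 6) (nat_lit 320) (nat_lit 2) (nat_lit 210) (nat_lit 211) (nat_lit 149)) (PT.nd (nat_lit 78) (PT.lf (nat_lit 23712) (nat_lit 3) (nat_lit 312) (nat_lit 0) (nat_lit 211) (nat_lit 211) (nat_lit 148)) (PT.lf (nat_lit 23028) (nat_lit 6) (nat_lit 303) (nat_lit 0) (nat_lit 212) (nat_lit 211) (nat_lit 147)))) (PT.nd (nat_lit 156) (PT.nd (nat_lit 78) (PT.lf (nat_lit 22344) (nat_lit 6) (nat_lit 294) (nat_lit 0) (nat_lit 213) (nat_lit 211) (nat_lit 146)) (PT.lf (nat_lit 21736) (nat_lit 6) (nat_lit 286) (nat_lit 0) (nat_lit 214) (nat_lit 211) (nat_lit 145))) (PT.nd (nat_lit 78) (PT.lf (nat_lit 21052) (nat_lit 6) (nat_lit 277) (nat_lit 0) (nat_lit 215) (nat_lit 211) (nat_lit 144)) (PT.lf (nat_lit 20444) (nat_lit 6) (nat_lit 269) (nat_lit 0) (nat_lit 216) (nat_lit 211) (nat_lit 143))))) (PT.nd (nat_lit 312) (PT.nd (nat_lit 156) (PT.nd (nat_lit 78) (PT.lf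 (nat_lit 19836) (nat_lit 6) (nat_lit 261) (nat_lit 0) (nat_lit 217) (nat_lit 211) (nat_lit 142)) (PT.lf (nat_lit 19228) (nat_lit 6) (nat_lit 253) (nat_lit 0) (nat_lit 218) (nat_lit 211) (nat_lit 141))) (PT.nd (nat_lit 78) (PT.lf (nat_lit 18620) (nat_lit 6) (nat_lit 245) (nat_lit 0) (nat_lit 219) (nat_lit 211) (nat_lit 140)) (PT.lf (nat_lit 18088) (nat_lit 6) (nat_lit 238) (nat_lit 0) (nat_lit 220) (nat_lit 211) (nat_lit 139)))) (PT.nd (nat_lit 156) (PT.nd (nat_lit 78) (PT.lf (nat_lit 17480) (nat_lit 6) (nat_lit 230) (nat_lit 0) (nat_lit 221) (nat_lit 211) (nat_lit 138)) (PT.lf (nat_lit 16948) (nat_lit 6) (nat_lit 223) (nat_lit 0) (nat_lit 222) (nat_lit 211) (nat_lit 137))) (PT.nd (nat_lit 52494) (PT.lf (nat_lit 16416) (nat_lit 6) (nat_lit 216) (nat_lit 0) (nat_lit 223) (nat_lit 211) (nat_lit 136)) (PT.lf (nat_lit 15960) (nat_lit 6) (nat_lit 210) (nat_lit 5) (nat_lit 135) (nat_lit 212) (nat_lit 223)))))) (PT.nd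 (nat_lit 546) (PT.nd (nat_lit 234) (PT.nd (nat_lit 78) (PT.lf (nat_lit 16492) (nat_lit 6) (nat_lit 217) (nat_lit 5) (nat_lit 136) (nat_lit 212) (nat_lit 222)) (PT.nd (nat_lit 78) (PT.lf (nat_lit 17024) (nat_lit 6) (nat_lit 224) (nat_lit 5) (nat_lit 137) (nat_lit 212) (nat_lit 221)) (PT.lf (nat_lit 17556) (nat_lit 6) (nat_lit 231) (nat_lit 5) (nat_lit 138) (nat_lit 212) (nat_lit 220)))) (PT.nd (nat_lit 156) (PT.nd (nat_lit 78) (PT.lf (nat_lit 18164) (nat_lit 6) (nat_lit 239) (nat_lit 5) (nat_lit 139) (nat_lit 212) (nat_lit 219)) (PT.lf (nat_lit 18696) (nat_lit 6) (nat_lit 246) (nat_lit 5) (nat_lit 140) (nat_lit 212) (nat_lit 218))) (PT.nd (nat_lit 78) (PT.lf (nat_lit 19304) (nat_lit 6) (nat_lit 254) (nat_lit 5) (nat_lit 141) (nat_lit 212) (nat_lit 217)) (PT.lf (nat_lit 19912) (nat_lit 6) (nat_lit 262) (nat_lit 5) (nat_lit 142) (nat_lit 212) (nat_lit 216))))) (PT.nd (nat_lit 312) (PT.nd (nat_lit 156) (PT.nd (nat_lit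 78) (PT.lf (nat_lit 20520) (nat_lit 6) (nat_lit 270) (nat_lit 5) (nat_lit 143) (nat_lit 212) (nat_lit 215)) (PT.lf (nat_lit 21128) (nat_lit 6) (nat_lit 278) (nat_lit 5) (nat_lit 144) (nat_lit 212) (nat_lit 214))) (PT.nd (nat_lit 78) (PT.lf (nat_lit 21812) (nat_lit 6) (nat_lit 287) (nat_lit 5) (nat_lit 145) (nat_lit 212) (nat_lit 213)) (PT.lf (nat_lit 22420) (nat_lit 3) (nat_lit 295) (nat_lit 4) (nat_lit 146) (nat_lit 212) (nat_lit 212)))) (PT.nd (nat_lit 156) (PT.nd (nat_lit 78) (PT.lf (nat_lit 23028) (nat_lit 6) (nat_lit 303) (nat_lit 4) (nat_lit 147) (nat_lit 212) (nat_lit 211)) (PT.lf (nat_lit 23636) (nat_lit 6) (nat_lit 311) (nat_lit 4) (nat_lit 148) (nat_lit 212) (nat_lit 210))) (PT.nd (nat_lit 78) (PT.lf (nat_lit 24244) (nat_lit 6) (nat_lit 319) (nat_lit 4) (nat_lit 149) (nat_lit 212) (nat_lit 209)) (PT.lf (nat_lit 24852) (nat_lit 6) (nat_lit 327) (nat_lit 4) (nat_lit 150) (nat_lit 212) (nat_lit 208))))))))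
noncomputable def pc52 : PT := (PT.nd (nat_lit 2262) (PT.nd (nat_lit 1092) (PT.nd (nat_lit 546) (PT.nd (nat_lit 234) (PT.nd (nat_lit 78) (PT.lf (nat_lit 25536) (nat_lit 6) (nat_lit 336) (nat_lit 4) (nat_lit 151) (nat_lit 212) (nat_lit 207)) (PT.nd (nat_lit 78) (PT.lf (nat_lit 26220) (nat_lit 6) (nat_lit 345) (nat_lit 4) (nat_lit 152) (nat_lit 212) (nat_lit 206)) (PT.lf (nat_lit 26904) (nat_lit 6) (nat_lit 354) (nat_lit 4) (nat_lit 153) (nat_lit 212) (nat_lit 205)))) (PT.nd (nat_lit 156) (PT.nd (nat_lit 78) (PT.lf (nat_lit 27588) (nat_lit 6) (nat_lit 363) (nat_lit 4) (nat_lit 154) (nat_lit 212) (nat_lit 204)) (PT.lf (nat_lit 28348) (nat_lit 6) (nat_lit 373) (nat_lit 4) (nat_lit 155) (nat_lit 212) (nat_lit 203))) (PT.nd (nat_lit 78) (PT.lf (nat_lit 29108) (nat_lit 6) (nat_lit 383) (nat_lit 4) (nat_lit 156) (nat_lit 212) (nat_lit 202)) (PT.lf (nat_lit 29868) (nat_lit 6) (nat_lit 393) (nat_lit 4) (nat_lit 157) (nat_lit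 212) (nat_lit 201))))) (PT.nd (nat_lit 234) (PT.nd (nat_lit 78) (PT.lf (nat_lit 30628) (nat_lit 6) (nat_lit 403) (nat_lit 4) (nat_lit 158) (nat_lit 212) (nat_lit 200)) (PT.nd (nat_lit 78) (PT.lf (nat_lit 31464) (nat_lit 6) (nat_lit 414) (nat_lit 4) (nat_lit 159) (nat_lit 212) (nat_lit 199)) (PT.lf (nat_lit 32300) (nat_lit 6) (nat_lit 425) (nat_lit 4) (nat_lit 160) (nat_lit 212) (nat_lit 198)))) (PT.nd (nat_lit 156) (PT.nd (nat_lit 78) (PT.lf (nat_lit 33212) (nat_lit 6) (nat_lit 437) (nat_lit 4) (nat_lit 161) (nat_lit 212) (nat_lit 197)) (PT.lf (nat_lit 34048) (nat_lit 6) (nat_lit 448) (nat_lit 4) (nat_lit 162) (nat_lit 212) (nat_lit 196))) (PT.nd (nat_lit 78) (PT.lf (nat_lit 34960) (nat_lit 6) (nat_lit 460) (nat_lit 4) (nat_lit 163) (nat_lit 212) (nat_lit 195)) (PT.lf (nat_lit 35872) (nat_lit 6) (nat_lit 472) (nat_lit 4) (nat_lit 164) (nat_lit 212) (nat_lit 194)))))) (PT.nd (nat_lit 546) (PT.nd (nat_lit 234) (PT.nd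 (nat_lit 78) (PT.lf (nat_lit 37012) (nat_lit 6) (nat_lit 487) (nat_lit 4) (nat_lit 165) (nat_lit 212) (nat_lit 193)) (PT.nd (nat_lit 78) (PT.lf (nat_lit 38836) (nat_lit 6) (nat_lit 511) (nat_lit 4) (nat_lit 166) (nat_lit 212) (nat_lit 192)) (PT.lf (nat_lit 40584) (nat_lit 6) (nat_lit 534) (nat_lit 4) (nat_lit 167) (nat_lit 212) (nat_lit 191)))) (PT.nd (nat_lit 156) (PT.nd (nat_lit 78) (PT.lf (nat_lit 42256) (nat_lit 6) (nat_lit 556) (nat_lit 4) (nat_lit 168) (nat_lit 212) (nat_lit 190)) (PT.lf (nat_lit 42180) (nat_lit 6) (nat_lit 555) (nat_lit 4) (nat_lit 169) (nat_lit 212) (nat_lit 189))) (PT.nd (nat_lit 78) (PT.lf (nat_lit 42104) (nat_lit 6) (nat_lit 554) (nat_lit 4) (nat_lit 170) (nat_lit 212) (nat_lit 188)) (PT.lf (nat_lit 42028) (nat_lit 6) (nat_lit 553) (nat_lit 4) (nat_lit 171) (nat_lit 212) (nat_lit 187))))) (PT.nd (nat_lit 312) (PT.nd (nat_lit 156) (PT.nd (nat_lit 78) (PT.lf (nat_lit 41952) (nat_lit 6)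 (nat_lit 552) (nat_lit 4) (nat_lit 172) (nat_lit 212) (nat_lit 186)) (PT.lf (nat_lit 41876) (nat_lit 6) (nat_lit 551) (nat_lit 4) (nat_lit 173) (nat_lit 212) (nat_lit 185))) (PT.nd (nat_lit 78) (PT.lf (nat_lit 41800) (nat_lit 6) (nat_lit 550) (nat_lit 4) (nat_lit 174) (nat_lit 212) (nat_lit 184)) (PT.lf (nat_lit 41724) (nat_lit 6) (nat_lit 549) (nat_lit 4) (nat_lit 175) (nat_lit 212) (nat_lit 183)))) (PT.nd (nat_lit 156) (PT.nd (nat_lit 78) (PT.lf (nat_lit 41648) (nat_lit 6) (nat_lit 548) (nat_lit 4) (nat_lit 176) (nat_lit 212) (nat_lit 182)) (PT.lf (nat_lit 41572) (nat_lit 6) (nat_lit 547) (nat_lit 4) (nat_lit 177) (nat_lit 212) (nat_lit 181))) (PT.nd (nat_lit 78) (PT.lf (nat_lit 41496) (nat_lit 6) (nat_lit 546) (nat_lit 4) (nat_lit 178) (nat_lit 212) (nat_lit 180)) (PT.lf (nat_lit 41420) (nat_lit 3) (nat_lit 545) (nat_lit 2) (nat_lit 179) (nat_lit 212) (nat_lit 179))))))) (PT.nd (nat_lit 1092) (PT.nd (nat_lit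 546) (PT.nd (nat_lit 234) (PT.nd (nat_lit 78) (PT.lf (nat_lit 41496) (nat_lit 6) (nat_lit 546) (nat_lit 2) (nat_lit 180) (nat_lit 212) (nat_lit 178)) (PT.nd (nat_lit 78) (PT.lf (nat_lit 41572) (nat_lit 6) (nat_lit 547) (nat_lit 2) (nat_lit 181) (nat_lit 212) (nat_lit 177)) (PT.lf (nat_lit 41648) (nat_lit 6) (nat_lit 548) (nat_lit 2) (nat_lit 182) (nat_lit 212) (nat_lit 176)))) (PT.nd (nat_lit 156) (PT.nd (nat_lit 78) (PT.lf (nat_lit 41724) (nat_lit 6) (nat_lit 549) (nat_lit 2) (nat_lit 183) (nat_lit 212) (nat_lit 175)) (PT.lf (nat_lit 41800) (nat_lit 6) (nat_lit 550) (nat_lit 2) (nat_lit 184) (nat_lit 212) (nat_lit 174))) (PT.nd (nat_lit 78) (PT.lf (nat_lit 41876) (nat_lit 6) (nat_lit 551) (nat_lit 2) (nat_lit 185) (nat_lit 212) (nat_lit 173)) (PT.lf (nat_lit 41952) (nat_lit 6) (nat_lit 552) (nat_lit 2) (nat_lit 186) (nat_lit 212) (nat_lit 172))))) (PT.nd (nat_lit 234) (PT.nd (nat_lit 78) (PT.lf (nat_lit 42028)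 (nat_lit 6) (nat_lit 553) (nat_lit 2) (nat_lit 187) (nat_lit 212) (nat_lit 171)) (PT.nd (nat_lit 78) (PT.lf (nat_lit 42104) (nat_lit 6) (nat_lit 554) (nat_lit 2) (nat_lit 188) (nat_lit 212) (nat_lit 170)) (PT.lf (nat_lit 42180) (nat_lit 6) (nat_lit 555) (nat_lit 2) (nat_lit 189) (nat_lit 212) (nat_lit 169)))) (PT.nd (nat_lit 156) (PT.nd (nat_lit 78) (PT.lf (nat_lit 42256) (nat_lit 6) (nat_lit 556) (nat_lit 2) (nat_lit 190) (nat_lit 212) (nat_lit 168)) (PT.lf (nat_lit 40584) (nat_lit 6) (nat_lit 534) (nat_lit 2) (nat_lit 191) (nat_lit 212) (nat_lit 167))) (PT.nd (nat_lit 78) (PT.lf (nat_lit 38836) (nat_lit 6) (nat_lit 511) (nat_lit 2) (nat_lit 192) (nat_lit 212) (nat_lit 166)) (PT.lf (nat_lit 37012) (nat_lit 6) (nat_lit 487) (nat_lit 2) (nat_lit 193) (nat_lit 212) (nat_lit 165)))))) (PT.nd (nat_lit 546) (PT.nd (nat_lit 234) (PT.nd (nat_lit 78) (PT.lf (nat_lit 35872) (nat_lit 6) (nat_lit 472) (nat_lit 2) (nat_lit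 194) (nat_lit 212) (nat_lit 164)) (PT.nd (nat_lit 78) (PT.lf (nat_lit 34960) (nat_lit 6) (nat_lit 460) (nat_lit 2) (nat_lit 195) (nat_lit 212) (nat_lit 163)) (PT.lf (nat_lit 34048) (nat_lit 6) (nat_lit 448) (nat_lit 2) (nat_lit 196) (nat_lit 212) (nat_lit 162)))) (PT.nd (nat_lit 156) (PT.nd (nat_lit 78) (PT.lf (nat_lit 33212) (nat_lit 6) (nat_lit 437) (nat_lit 2) (nat_lit 197) (nat_lit 212) (nat_lit 161)) (PT.lf (nat_lit 32300) (nat_lit 6) (nat_lit 425) (nat_lit 2) (nat_lit 198) (nat_lit 212) (nat_lit 160))) (PT.nd (nat_lit 78) (PT.lf (nat_lit 31464) (nat_lit 6) (nat_lit 414) (nat_lit 2) (nat_lit 199) (nat_lit 212) (nat_lit 159)) (PT.lf (nat_lit 30628) (nat_lit 6) (nat_lit 403) (nat_lit 2) (nat_lit 200) (nat_lit 212) (nat_lit 158))))) (PT.nd (nat_lit 312) (PT.nd (nat_lit 156) (PT.nd (nat_lit 78) (PT.lf (nat_lit 29868) (nat_lit 6) (nat_lit 393) (nat_lit 2) (nat_lit 201) (nat_lit 212) (nat_lit 157)) (PT.lf (nat_lit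 29108) (nat_lit 6) (nat_lit 383) (nat_lit 2) (nat_lit 202) (nat_lit 212) (nat_lit 156))) (PT.nd (nat_lit 78) (PT.lf (nat_lit 28348) (nat_lit 6) (nat_lit 373) (nat_lit 2) (nat_lit 203) (nat_lit 212) (nat_lit 155)) (PT.lf (nat_lit 27588) (nat_lit 6) (nat_lit 363) (nat_lit 2) (nat_lit 204) (nat_lit 212) (nat_lit 154)))) (PT.nd (nat_lit 156) (PT.nd (nat_lit 78) (PT.lf (nat_lit 26904) (nat_lit 6) (nat_lit 354) (nat_lit 2) (nat_lit 205) (nat_lit 212) (nat_lit 153)) (PT.lf (nat_lit 26220) (nat_lit 6) (nat_lit 345) (nat_lit 2) (nat_lit 206) (nat_lit 212) (nat_lit 152))) (PT.nd (nat_lit 78) (PT.lf (nat_lit 25536) (nat_lit 6) (nat_lit 336) (nat_lit 2) (nat_lit 207) (nat_lit 212) (nat_lit 151)) (PT.lf (nat_lit 24852) (nat_lit 6) (nat_lit 327) (nat_lit 2) (nat_lit 208) (nat_lit 212) (nat_lit 150))))))))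
noncomputable def pc53 : PT := (PT.nd (nat_lit 54600) (PT.nd (nat_lit 1092) (PT.nd (nat_lit 546) (PT.nd (nat_lit 234) (PT.nd (nat_lit 78) (PT.lf (nat_lit 24244) (nat_lit 6) (nat_lit 319) (nat_lit 2) (nat_lit 209) (nat_lit 212) (nat_lit 149)) (PT.nd (nat_lit 78) (PT.lf (nat_lit 23636) (nat_lit 6) (nat_lit 311) (nat_lit 2) (nat_lit 210) (nat_lit 212) (nat_lit 148)) (PT.lf (nat_lit 23028) (nat_lit 6) (nat_lit 303) (nat_lit 2) (nat_lit 211) (nat_lit 212) (nat_lit 147)))) (PT.nd (nat_lit 156) (PT.nd (nat_lit 78) (PT.lf (nat_lit 22420) (nat_lit 3) (nat_lit 295) (nat_lit 0) (nat_lit 212) (nat_lit 212) (nat_lit 146)) (PT.lf (nat_lit 21812) (nat_lit 6) (nat_lit 287) (nat_lit 0) (nat_lit 213) (nat_lit 212) (nat_lit 145))) (PT.nd (nat_lit 78) (PT.lf (nat_lit 21128) (nat_lit 6) (nat_lit 278) (nat_lit 0) (nat_lit 214) (nat_lit 212) (nat_lit 144)) (PT.lf (nat_lit 20520) (nat_lit 6) (nat_lit 270) (nat_lit 0) (nat_lit 215) (nat_lit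 212) (nat_lit 143))))) (PT.nd (nat_lit 234) (PT.nd (nat_lit 78) (PT.lf (nat_lit 19912) (nat_lit 6) (nat_lit 262) (nat_lit 0) (nat_lit 216) (nat_lit 212) (nat_lit 142)) (PT.nd (nat_lit 78) (PT.lf (nat_lit 19304) (nat_lit 6) (nat_lit 254) (nat_lit 0) (nat_lit 217) (nat_lit 212) (nat_lit 141)) (PT.lf (nat_lit 18696) (nat_lit 6) (nat_lit 246) (nat_lit 0) (nat_lit 218) (nat_lit 212) (nat_lit 140)))) (PT.nd (nat_lit 156) (PT.nd (nat_lit 78) (PT.lf (nat_lit 18164) (nat_lit 6) (nat_lit 239) (nat_lit 0) (nat_lit 219) (nat_lit 212) (nat_lit 139)) (PT.lf (nat_lit 17556) (nat_lit 6) (nat_lit 231) (nat_lit 0) (nat_lit 220) (nat_lit 212) (nat_lit 138))) (PT.nd (nat_lit 78) (PT.lf (nat_lit 17024) (nat_lit 6) (nat_lit 224) (nat_lit 0) (nat_lit 221) (nat_lit 212) (nat_lit 137)) (PT.lf (nat_lit 16492) (nat_lit 6) (nat_lit 217) (nat_lit 0) (nat_lit 222) (nat_lit 212) (nat_lit 136)))))) (PT.nd (nat_lit 52884) (PT.nd (nat_lit 52494)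 (PT.nd (nat_lit 52338) (PT.lf (nat_lit 15960) (nat_lit 6) (nat_lit 210) (nat_lit 0) (nat_lit 223) (nat_lit 212) (nat_lit 135)) (PT.nd (nat_lit 78) (PT.lf (nat_lit 15048) (nat_lit 6) (nat_lit 198) (nat_lit 5) (nat_lit 133) (nat_lit 213) (nat_lit 224)) (PT.lf (nat_lit 15504) (nat_lit 6) (nat_lit 204) (nat_lit 5) (nat_lit 134) (nat_lit 213) (nat_lit 223)))) (PT.nd (nat_lit 234) (PT.nd (nat_lit 156) (PT.lf (nat_lit 16036) (nat_lit 6) (nat_lit 211) (nat_lit 5) (nat_lit 135) (nat_lit 213) (nat_lit 222)) (PT.lf (nat_lit 17100) (nat_lit 6) (nat_lit 225) (nat_lit 5) (nat_lit 137) (nat_lit 213) (nat_lit 220))) (PT.nd (nat_lit 78) (PT.lf (nat_lit 17632) (nat_lit 6) (nat_lit 232) (nat_lit 5) (nat_lit 138) (nat_lit 213) (nat_lit 219)) (PT.lf (nat_lit 18240) (nat_lit 6) (nat_lit 240) (nat_lit 5) (nat_lit 139) (nat_lit 213) (nat_lit 218))))) (PT.nd (nat_lit 312) (PT.nd (nat_lit 156) (PT.nd (nat_lit 78) (PT.lf (nat_lit 18772)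 (nat_lit 6) (nat_lit 247) (nat_lit 5) (nat_lit 140) (nat_lit 213) (nat_lit 217)) (PT.lf (nat_lit 19380) (nat_lit 6) (nat_lit 255) (nat_lit 5) (nat_lit 141) (nat_lit 213) (nat_lit 216))) (PT.nd (nat_lit 78) (PT.lf (nat_lit 19988) (nat_lit 6) (nat_lit 263) (nat_lit 5) (nat_lit 142) (nat_lit 213) (nat_lit 215)) (PT.lf (nat_lit 20596) (nat_lit 6) (nat_lit 271) (nat_lit 5) (nat_lit 143) (nat_lit 213) (nat_lit 214)))) (PT.nd (nat_lit 156) (PT.nd (nat_lit 78) (PT.lf (nat_lit 21204) (nat_lit 3) (nat_lit 279) (nat_lit 4) (nat_lit 144) (nat_lit 213) (nat_lit 213)) (PT.lf (nat_lit 21812) (nat_lit 6) (nat_lit 287) (nat_lit 4) (nat_lit 145) (nat_lit 213) (nat_lit 212))) (PT.nd (nat_lit 78) (PT.lf (nat_lit 22344) (nat_lit 6) (nat_lit 294) (nat_lit 4) (nat_lit 146) (nat_lit 213) (nat_lit 211)) (PT.lf (nat_lit 22952) (nat_lit 6) (nat_lit 302) (nat_lit 4) (nat_lit 147) (nat_lit 213) (nat_lit 210))))))) (PT.nd (nat_lit 1170) (PT.nd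 (nat_lit 546) (PT.nd (nat_lit 234) (PT.nd (nat_lit 78) (PT.lf (nat_lit 23560) (nat_lit 6) (nat_lit 310) (nat_lit 4) (nat_lit 148) (nat_lit 213) (nat_lit 209)) (PT.nd (nat_lit 78) (PT.lf (nat_lit 24168) (nat_lit 6) (nat_lit 318) (nat_lit 4) (nat_lit 149) (nat_lit 213) (nat_lit 208)) (PT.lf (nat_lit 24776) (nat_lit 6) (nat_lit 326) (nat_lit 4) (nat_lit 150) (nat_lit 213) (nat_lit 207)))) (PT.nd (nat_lit 156) (PT.nd (nat_lit 78) (PT.lf (nat_lit 25460) (nat_lit 6) (nat_lit 335) (nat_lit 4) (nat_lit 151) (nat_lit 213) (nat_lit 206)) (PT.lf (nat_lit 26144) (nat_lit 6) (nat_lit 344) (nat_lit 4) (nat_lit 152) (nat_lit 213) (nat_lit 205))) (PT.nd (nat_lit 78) (PT.lf (nat_lit 26828) (nat_lit 6) (nat_lit 353) (nat_lit 4) (nat_lit 153) (nat_lit 213) (nat_lit 204)) (PT.lf (nat_lit 27512) (nat_lit 6) (nat_lit 362) (nat_lit 4) (nat_lit 154) (nat_lit 213) (nat_lit 203))))) (PT.nd (nat_lit 312) (PT.nd (nat_lit 156) (PT.nd (nat_lit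 78) (PT.lf (nat_lit 28272) (nat_lit 6) (nat_lit 372) (nat_lit 4) (nat_lit 155) (nat_lit 213) (nat_lit 202)) (PT.lf (nat_lit 29032) (nat_lit 6) (nat_lit 382) (nat_lit 4) (nat_lit 156) (nat_lit 213) (nat_lit 201))) (PT.nd (nat_lit 78) (PT.lf (nat_lit 29792) (nat_lit 6) (nat_lit 392) (nat_lit 4) (nat_lit 157) (nat_lit 213) (nat_lit 200)) (PT.lf (nat_lit 30552) (nat_lit 6) (nat_lit 402) (nat_lit 4) (nat_lit 158) (nat_lit 213) (nat_lit 199)))) (PT.nd (nat_lit 156) (PT.nd (nat_lit 78) (PT.lf (nat_lit 31388) (nat_lit 6) (nat_lit 413) (nat_lit 4) (nat_lit 159) (nat_lit 213) (nat_lit 198)) (PT.lf (nat_lit 32224) (nat_lit 6) (nat_lit 424) (nat_lit 4) (nat_lit 160) (nat_lit 213) (nat_lit 197))) (PT.nd (nat_lit 78) (PT.lf (nat_lit 33136) (nat_lit 6) (nat_lit 436) (nat_lit 4) (nat_lit 161) (nat_lit 213) (nat_lit 196)) (PT.lf (nat_lit 33972) (nat_lit 6) (nat_lit 447) (nat_lit 4) (nat_lit 162) (nat_lit 213) (nat_lit 195))))))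 (PT.nd (nat_lit 546) (PT.nd (nat_lit 234) (PT.nd (nat_lit 78) (PT.lf (nat_lit 34884) (nat_lit 6) (nat_lit 459) (nat_lit 4) (nat_lit 163) (nat_lit 213) (nat_lit 194)) (PT.nd (nat_lit 78) (PT.lf (nat_lit 35796) (nat_lit 6) (nat_lit 471) (nat_lit 4) (nat_lit 164) (nat_lit 213) (nat_lit 193)) (PT.lf (nat_lit 36936) (nat_lit 6) (nat_lit 486) (nat_lit 4) (nat_lit 165) (nat_lit 213) (nat_lit 192)))) (PT.nd (nat_lit 156) (PT.nd (nat_lit 78) (PT.lf (nat_lit 38760) (nat_lit 6) (nat_lit 510) (nat_lit 4) (nat_lit 166) (nat_lit 213) (nat_lit 191)) (PT.lf (nat_lit 40508) (nat_lit 6) (nat_lit 533) (nat_lit 4) (nat_lit 167) (nat_lit 213) (nat_lit 190))) (PT.nd (nat_lit 78) (PT.lf (nat_lit 40432) (nat_lit 6) (nat_lit 532) (nat_lit 4) (nat_lit 168) (nat_lit 213) (nat_lit 189)) (PT.lf (nat_lit 40356) (nat_lit 6) (nat_lit 531) (nat_lit 4) (nat_lit 169) (nat_lit 213) (nat_lit 188))))) (PT.nd (nat_lit 312) (PT.nd (nat_lit 156) (PT.nd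 (nat_lit 78) (PT.lf (nat_lit 40280) (nat_lit 6) (nat_lit 530) (nat_lit 4) (nat_lit 170) (nat_lit 213) (nat_lit 187)) (PT.lf (nat_lit 40204) (nat_lit 6) (nat_lit 529) (nat_lit 4) (nat_lit 171) (nat_lit 213) (nat_lit 186))) (PT.nd (nat_lit 78) (PT.lf (nat_lit 40128) (nat_lit 6) (nat_lit 528) (nat_lit 4) (nat_lit 172) (nat_lit 213) (nat_lit 185)) (PT.lf (nat_lit 40052) (nat_lit 6) (nat_lit 527) (nat_lit 4) (nat_lit 173) (nat_lit 213) (nat_lit 184)))) (PT.nd (nat_lit 156) (PT.nd (nat_lit 78) (PT.lf (nat_lit 39976) (nat_lit 6) (nat_lit 526) (nat_lit 4) (nat_lit 174) (nat_lit 213) (nat_lit 183)) (PT.lf (nat_lit 39900) (nat_lit 6) (nat_lit 525) (nat_lit 4) (nat_lit 175) (nat_lit 213) (nat_lit 182))) (PT.nd (nat_lit 78) (PT.lf (nat_lit 39824) (nat_lit 6) (nat_lit 524) (nat_lit 4) (nat_lit 176) (nat_lit 213) (nat_lit 181)) (PT.lf (nat_lit 39748) (nat_lit 6) (nat_lit 523) (nat_lit 4) (nat_lit 177) (nat_lit 213) (nat_lit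 180))))))))
noncomputable def pc54 : PT := (PT.nd (nat_lit 2262) (PT.nd (nat_lit 1092) (PT.nd (nat_lit 546) (PT.nd (nat_lit 234) (PT.nd (nat_lit 78) (PT.lf (nat_lit 39672) (nat_lit 6) (nat_lit 522) (nat_lit 4) (nat_lit 178) (nat_lit 213) (nat_lit 179)) (PT.nd (nat_lit 78) (PT.lf (nat_lit 39672) (nat_lit 6) (nat_lit 522) (nat_lit 2) (nat_lit 179) (nat_lit 213) (nat_lit 178)) (PT.lf (nat_lit 39748) (nat_lit 6) (nat_lit 523) (nat_lit 2) (nat_lit 180) (nat_lit 213) (nat_lit 177)))) (PT.nd (nat_lit 156) (PT.nd (nat_lit 78) (PT.lf (nat_lit 39824) (nat_lit 6) (nat_lit 524) (nat_lit 2) (nat_lit 181) (nat_lit 213) (nat_lit 176)) (PT.lf (nat_lit 39900) (nat_lit 6) (nat_lit 525) (nat_lit 2) (nat_lit 182) (nat_lit 213) (nat_lit 175))) (PT.nd (nat_lit 78) (PT.lf (nat_lit 39976) (nat_lit 6) (nat_lit 526) (nat_lit 2) (nat_lit 183) (nat_lit 213) (nat_lit 174)) (PT.lf (nat_lit 40052) (nat_lit 6) (nat_lit 527) (nat_lit 2) (nat_lit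 184) (nat_lit 213) (nat_lit 173))))) (PT.nd (nat_lit 234) (PT.nd (nat_lit 78) (PT.lf (nat_lit 40128) (nat_lit 6) (nat_lit 528) (nat_lit 2) (nat_lit 185) (nat_lit 213) (nat_lit 172)) (PT.nd (nat_lit 78) (PT.lf (nat_lit 40204) (nat_lit 6) (nat_lit 529) (nat_lit 2) (nat_lit 186) (nat_lit 213) (nat_lit 171)) (PT.lf (nat_lit 40280) (nat_lit 6) (nat_lit 530) (nat_lit 2) (nat_lit 187) (nat_lit 213) (nat_lit 170)))) (PT.nd (nat_lit 156) (PT.nd (nat_lit 78) (PT.lf (nat_lit 40356) (nat_lit 6) (nat_lit 531) (nat_lit 2) (nat_lit 188) (nat_lit 213) (nat_lit 169)) (PT.lf (nat_lit 40432) (nat_lit 6) (nat_lit 532) (nat_lit 2) (nat_lit 189) (nat_lit 213) (nat_lit 168))) (PT.nd (nat_lit 78) (PT.lf (nat_lit 40508) (nat_lit 6) (nat_lit 533) (nat_lit 2) (nat_lit 190) (nat_lit 213) (nat_lit 167)) (PT.lf (nat_lit 38760) (nat_lit 6) (nat_lit 510) (nat_lit 2) (nat_lit 191) (nat_lit 213) (nat_lit 166)))))) (PT.nd (nat_lit 546) (PT.nd (nat_lit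 234) (PT.nd (nat_lit 78) (PT.lf (nat_lit 36936) (nat_lit 6) (nat_lit 486) (nat_lit 2) (nat_lit 192) (nat_lit 213) (nat_lit 165)) (PT.nd (nat_lit 78) (PT.lf (nat_lit 35796) (nat_lit 6) (nat_lit 471) (nat_lit 2) (nat_lit 193) (nat_lit 213) (nat_lit 164)) (PT.lf (nat_lit 34884) (nat_lit 6) (nat_lit 459) (nat_lit 2) (nat_lit 194) (nat_lit 213) (nat_lit 163)))) (PT.nd (nat_lit 156) (PT.nd (nat_lit 78) (PT.lf (nat_lit 33972) (nat_lit 6) (nat_lit 447) (nat_lit 2) (nat_lit 195) (nat_lit 213) (nat_lit 162)) (PT.lf (nat_lit 33136) (nat_lit 6) (nat_lit 436) (nat_lit 2) (nat_lit 196) (nat_lit 213) (nat_lit 161))) (PT.nd (nat_lit 78) (PT.lf (nat_lit 32224) (nat_lit 6) (nat_lit 424) (nat_lit 2) (nat_lit 197) (nat_lit 213) (nat_lit 160)) (PT.lf (nat_lit 31388) (nat_lit 6) (nat_lit 413) (nat_lit 2) (nat_lit 198) (nat_lit 213) (nat_lit 159))))) (PT.nd (nat_lit 312) (PT.nd (nat_lit 156) (PT.nd (nat_lit 78) (PT.lf (nat_lit 30552)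 (nat_lit 6) (nat_lit 402) (nat_lit 2) (nat_lit 199) (nat_lit 213) (nat_lit 158)) (PT.lf (nat_lit 29792) (nat_lit 6) (nat_lit 392) (nat_lit 2) (nat_lit 200) (nat_lit 213) (nat_lit 157))) (PT.nd (nat_lit 78) (PT.lf (nat_lit 29032) (nat_lit 6) (nat_lit 382) (nat_lit 2) (nat_lit 201) (nat_lit 213) (nat_lit 156)) (PT.lf (nat_lit 28272) (nat_lit 6) (nat_lit 372) (nat_lit 2) (nat_lit 202) (nat_lit 213) (nat_lit 155)))) (PT.nd (nat_lit 156) (PT.nd (nat_lit 78) (PT.lf (nat_lit 27512) (nat_lit 6) (nat_lit 362) (nat_lit 2) (nat_lit 203) (nat_lit 213) (nat_lit 154)) (PT.lf (nat_lit 26828) (nat_lit 6) (nat_lit 353) (nat_lit 2) (nat_lit 204) (nat_lit 213) (nat_lit 153))) (PT.nd (nat_lit 78) (PT.lf (nat_lit 26144) (nat_lit 6) (nat_lit 344) (nat_lit 2) (nat_lit 205) (nat_lit 213) (nat_lit 152)) (PT.lf (nat_lit 25460) (nat_lit 6) (nat_lit 335) (nat_lit 2) (nat_lit 206) (nat_lit 213) (nat_lit 151))))))) (PT.nd (nat_lit 1170) (PT.nd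 (nat_lit 546) (PT.nd (nat_lit 234) (PT.nd (nat_lit 78) (PT.lf (nat_lit 24776) (nat_lit 6) (nat_lit 326) (nat_lit 2) (nat_lit 207) (nat_lit 213) (nat_lit 150)) (PT.nd (nat_lit 78) (PT.lf (nat_lit 24168) (nat_lit 6) (nat_lit 318) (nat_lit 2) (nat_lit 208) (nat_lit 213) (nat_lit 149)) (PT.lf (nat_lit 23560) (nat_lit 6) (nat_lit 310) (nat_lit 2) (nat_lit 209) (nat_lit 213) (nat_lit 148)))) (PT.nd (nat_lit 156) (PT.nd (nat_lit 78) (PT.lf (nat_lit 22952) (nat_lit 6) (nat_lit 302) (nat_lit 2) (nat_lit 210) (nat_lit 213) (nat_lit 147)) (PT.lf (nat_lit 22344) (nat_lit 6) (nat_lit 294) (nat_lit 2) (nat_lit 211) (nat_lit 213) (nat_lit 146))) (PT.nd (nat_lit 78) (PT.lf (nat_lit 21812) (nat_lit 6) (nat_lit 287) (nat_lit 2) (nat_lit 212) (nat_lit 213) (nat_lit 145)) (PT.lf (nat_lit 21204) (nat_lit 3) (nat_lit 279) (nat_lit 0) (nat_lit 213) (nat_lit 213) (nat_lit 144))))) (PT.nd (nat_lit 234) (PT.nd (nat_lit 78) (PT.lf (nat_lit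 20596) (nat_lit 6) (nat_lit 271) (nat_lit 0) (nat_lit 214) (nat_lit 213) (nat_lit 143)) (PT.nd (nat_lit 78) (PT.lf (nat_lit 19988) (nat_lit 6) (nat_lit 263) (nat_lit 0) (nat_lit 215) (nat_lit 213) (nat_lit 142)) (PT.lf (nat_lit 19380) (nat_lit 6) (nat_lit 255) (nat_lit 0) (nat_lit 216) (nat_lit 213) (nat_lit 141)))) (PT.nd (nat_lit 156) (PT.nd (nat_lit 78) (PT.lf (nat_lit 18772) (nat_lit 6) (nat_lit 247) (nat_lit 0) (nat_lit 217) (nat_lit 213) (nat_lit 140)) (PT.lf (nat_lit 18240) (nat_lit 6) (nat_lit 240) (nat_lit 0) (nat_lit 218) (nat_lit 213) (nat_lit 139))) (PT.nd (nat_lit 78) (PT.lf (nat_lit 17632) (nat_lit 6) (nat_lit 232) (nat_lit 0) (nat_lit 219) (nat_lit 213) (nat_lit 138)) (PT.lf (nat_lit 17100) (nat_lit 6) (nat_lit 225) (nat_lit 0) (nat_lit 220) (nat_lit 213) (nat_lit 137)))))) (PT.nd (nat_lit 52650) (PT.nd (nat_lit 52338) (PT.nd (nat_lit 78) (PT.lf (nat_lit 16036) (nat_lit 6) (nat_lit 211) (nat_lit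 0) (nat_lit 222) (nat_lit 213) (nat_lit 135)) (PT.nd (nat_lit 78) (PT.lf (nat_lit 15504) (nat_lit 6) (nat_lit 204) (nat_lit 0) (nat_lit 223) (nat_lit 213) (nat_lit 134)) (PT.lf (nat_lit 15048) (nat_lit 6) (nat_lit 198) (nat_lit 0) (nat_lit 224) (nat_lit 213) (nat_lit 133)))) (PT.nd (nat_lit 156) (PT.nd (nat_lit 78) (PT.lf (nat_lit 14592) (nat_lit 6) (nat_lit 192) (nat_lit 5) (nat_lit 132) (nat_lit 214) (nat_lit 224)) (PT.lf (nat_lit 15124) (nat_lit 6) (nat_lit 199) (nat_lit 5) (nat_lit 133) (nat_lit 214) (nat_lit 223))) (PT.nd (nat_lit 78) (PT.lf (nat_lit 15580) (nat_lit 6) (nat_lit 205) (nat_lit 5) (nat_lit 134) (nat_lit 214) (nat_lit 222)) (PT.lf (nat_lit 16112) (nat_lit 6) (nat_lit 212) (nat_lit 5) (nat_lit 135) (nat_lit 214) (nat_lit 221))))) (PT.nd (nat_lit 312) (PT.nd (nat_lit 156) (PT.nd (nat_lit 78) (PT.lf (nat_lit 16644) (nat_lit 6) (nat_lit 219) (nat_lit 5) (nat_lit 136) (nat_lit 214) (nat_lit 220)) (PT.lf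 (nat_lit 17176) (nat_lit 6) (nat_lit 226) (nat_lit 5) (nat_lit 137) (nat_lit 214) (nat_lit 219))) (PT.nd (nat_lit 78) (PT.lf (nat_lit 17708) (nat_lit 6) (nat_lit 233) (nat_lit 5) (nat_lit 138) (nat_lit 214) (nat_lit 218)) (PT.lf (nat_lit 18316) (nat_lit 6) (nat_lit 241) (nat_lit 5) (nat_lit 139) (nat_lit 214) (nat_lit 217)))) (PT.nd (nat_lit 156) (PT.nd (nat_lit 78) (PT.lf (nat_lit 18848) (nat_lit 6) (nat_lit 248) (nat_lit 5) (nat_lit 140) (nat_lit 214) (nat_lit 216)) (PT.lf (nat_lit 19456) (nat_lit 6) (nat_lit 256) (nat_lit 5) (nat_lit 141) (nat_lit 214) (nat_lit 215))) (PT.nd (nat_lit 78) (PT.lf (nat_lit 20064) (nat_lit 3) (nat_lit 264) (nat_lit 4) (nat_lit 142) (nat_lit 214) (nat_lit 214)) (PT.lf (nat_lit 20596) (nat_lit 6) (nat_lit 271) (nat_lit 4) (nat_lit 143) (nat_lit 214) (nat_lit 213))))))))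
noncomputable def pc55 : PT := (PT.nd (nat_lit 2262) (PT.nd (nat_lit 1092) (PT.nd (nat_lit 546) (PT.nd (nat_lit 234) (PT.nd (nat_lit 78) (PT.lf (nat_lit 21128) (nat_lit 6) (nat_lit 278) (nat_lit 4) (nat_lit 144) (nat_lit 214) (nat_lit 212)) (PT.nd (nat_lit 78) (PT.lf (nat_lit 21736) (nat_lit 6) (nat_lit 286) (nat_lit 4) (nat_lit 145) (nat_lit 214) (nat_lit 211)) (PT.lf (nat_lit 22268) (nat_lit 6) (nat_lit 293) (nat_lit 4) (nat_lit 146) (nat_lit 214) (nat_lit 210)))) (PT.nd (nat_lit 156) (PT.nd (nat_lit 78) (PT.lf (nat_lit 22876) (nat_lit 6) (nat_lit 301) (nat_lit 4) (nat_lit 147) (nat_lit 214) (nat_lit 209)) (PT.lf (nat_lit 23484) (nat_lit 6) (nat_lit 309) (nat_lit 4) (nat_lit 148) (nat_lit 214) (nat_lit 208))) (PT.nd (nat_lit 78) (PT.lf (nat_lit 24092) (nat_lit 6) (nat_lit 317) (nat_lit 4) (nat_lit 149) (nat_lit 214) (nat_lit 207)) (PT.lf (nat_lit 24700) (nat_lit 6) (nat_lit 325) (nat_lit 4) (nat_lit 150) (nat_lit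 214) (nat_lit 206))))) (PT.nd (nat_lit 234) (PT.nd (nat_lit 78) (PT.lf (nat_lit 25384) (nat_lit 6) (nat_lit 334) (nat_lit 4) (nat_lit 151) (nat_lit 214) (nat_lit 205)) (PT.nd (nat_lit 78) (PT.lf (nat_lit 26068) (nat_lit 6) (nat_lit 343) (nat_lit 4) (nat_lit 152) (nat_lit 214) (nat_lit 204)) (PT.lf (nat_lit 26752) (nat_lit 6) (nat_lit 352) (nat_lit 4) (nat_lit 153) (nat_lit 214) (nat_lit 203)))) (PT.nd (nat_lit 156) (PT.nd (nat_lit 78) (PT.lf (nat_lit 27436) (nat_lit 6) (nat_lit 361) (nat_lit 4) (nat_lit 154) (nat_lit 214) (nat_lit 202)) (PT.lf (nat_lit 28196) (nat_lit 6) (nat_lit 371) (nat_lit 4) (nat_lit 155) (nat_lit 214) (nat_lit 201))) (PT.nd (nat_lit 78) (PT.lf (nat_lit 28956) (nat_lit 6) (nat_lit 381) (nat_lit 4) (nat_lit 156) (nat_lit 214) (nat_lit 200)) (PT.lf (nat_lit 29716) (nat_lit 6) (nat_lit 391) (nat_lit 4) (nat_lit 157) (nat_lit 214) (nat_lit 199)))))) (PT.nd (nat_lit 546) (PT.nd (nat_lit 234) (PT.nd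 (nat_lit 78) (PT.lf (nat_lit 30476) (nat_lit 6) (nat_lit 401) (nat_lit 4) (nat_lit 158) (nat_lit 214) (nat_lit 198)) (PT.nd (nat_lit 78) (PT.lf (nat_lit 31312) (nat_lit 6) (nat_lit 412) (nat_lit 4) (nat_lit 159) (nat_lit 214) (nat_lit 197)) (PT.lf (nat_lit 32148) (nat_lit 6) (nat_lit 423) (nat_lit 4) (nat_lit 160) (nat_lit 214) (nat_lit 196)))) (PT.nd (nat_lit 156) (PT.nd (nat_lit 78) (PT.lf (nat_lit 33060) (nat_lit 6) (nat_lit 435) (nat_lit 4) (nat_lit 161) (nat_lit 214) (nat_lit 195)) (PT.lf (nat_lit 33896) (nat_lit 6) (nat_lit 446) (nat_lit 4) (nat_lit 162) (nat_lit 214) (nat_lit 194))) (PT.nd (nat_lit 78) (PT.lf (nat_lit 34808) (nat_lit 6) (nat_lit 458) (nat_lit 4) (nat_lit 163) (nat_lit 214) (nat_lit 193)) (PT.lf (nat_lit 35720) (nat_lit 6) (nat_lit 470) (nat_lit 4) (nat_lit 164) (nat_lit 214) (nat_lit 192))))) (PT.nd (nat_lit 312) (PT.nd (nat_lit 156) (PT.nd (nat_lit 78) (PT.lf (nat_lit 36860) (nat_lit 6)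 (nat_lit 485) (nat_lit 4) (nat_lit 165) (nat_lit 214) (nat_lit 191)) (PT.lf (nat_lit 38684) (nat_lit 6) (nat_lit 509) (nat_lit 4) (nat_lit 166) (nat_lit 214) (nat_lit 190))) (PT.nd (nat_lit 78) (PT.lf (nat_lit 38608) (nat_lit 6) (nat_lit 508) (nat_lit 4) (nat_lit 167) (nat_lit 214) (nat_lit 189)) (PT.lf (nat_lit 38532) (nat_lit 6) (nat_lit 507) (nat_lit 4) (nat_lit 168) (nat_lit 214) (nat_lit 188)))) (PT.nd (nat_lit 156) (PT.nd (nat_lit 78) (PT.lf (nat_lit 38456) (nat_lit 6) (nat_lit 506) (nat_lit 4) (nat_lit 169) (nat_lit 214) (nat_lit 187)) (PT.lf (nat_lit 38380) (nat_lit 6) (nat_lit 505) (nat_lit 4) (nat_lit 170) (nat_lit 214) (nat_lit 186))) (PT.nd (nat_lit 78) (PT.lf (nat_lit 38304) (nat_lit 6) (nat_lit 504) (nat_lit 4) (nat_lit 171) (nat_lit 214) (nat_lit 185)) (PT.lf (nat_lit 38228) (nat_lit 6) (nat_lit 503) (nat_lit 4) (nat_lit 172) (nat_lit 214) (nat_lit 184))))))) (PT.nd (nat_lit 1170) (PT.nd (nat_lit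 546) (PT.nd (nat_lit 234) (PT.nd (nat_lit 78) (PT.lf (nat_lit 38152) (nat_lit 6) (nat_lit 502) (nat_lit 4) (nat_lit 173) (nat_lit 214) (nat_lit 183)) (PT.nd (nat_lit 78) (PT.lf (nat_lit 38076) (nat_lit 6) (nat_lit 501) (nat_lit 4) (nat_lit 174) (nat_lit 214) (nat_lit 182)) (PT.lf (nat_lit 38000) (nat_lit 6) (nat_lit 500) (nat_lit 4) (nat_lit 175) (nat_lit 214) (nat_lit 181)))) (PT.nd (nat_lit 156) (PT.nd (nat_lit 78) (PT.lf (nat_lit 37924) (nat_lit 6) (nat_lit 499) (nat_lit 4) (nat_lit 176) (nat_lit 214) (nat_lit 180)) (PT.lf (nat_lit 37848) (nat_lit 6) (nat_lit 498) (nat_lit 4) (nat_lit 177) (nat_lit 214) (nat_lit 179))) (PT.nd (nat_lit 78) (PT.lf (nat_lit 37772) (nat_lit 3) (nat_lit 497) (nat_lit 2) (nat_lit 178) (nat_lit 214) (nat_lit 178)) (PT.lf (nat_lit 37848) (nat_lit 6) (nat_lit 498) (nat_lit 2) (nat_lit 179) (nat_lit 214) (nat_lit 177))))) (PT.nd (nat_lit 312) (PT.nd (nat_lit 156) (PT.nd (nat_lit 78) (PT.lf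 (nat_lit 37924) (nat_lit 6) (nat_lit 499) (nat_lit 2) (nat_lit 180) (nat_lit 214) (nat_lit 176)) (PT.lf (nat_lit 38000) (nat_lit 6) (nat_lit 500) (nat_lit 2) (nat_lit 181) (nat_lit 214) (nat_lit 175))) (PT.nd (nat_lit 78) (PT.lf (nat_lit 38076) (nat_lit 6) (nat_lit 501) (nat_lit 2) (nat_lit 182) (nat_lit 214) (nat_lit 174)) (PT.lf (nat_lit 38152) (nat_lit 6) (nat_lit 502) (nat_lit 2) (nat_lit 183) (nat_lit 214) (nat_lit 173)))) (PT.nd (nat_lit 156) (PT.nd (nat_lit 78) (PT.lf (nat_lit 38228) (nat_lit 6) (nat_lit 503) (nat_lit 2) (nat_lit 184) (nat_lit 214) (nat_lit 172)) (PT.lf (nat_lit 38304) (nat_lit 6) (nat_lit 504) (nat_lit 2) (nat_lit 185) (nat_lit 214) (nat_lit 171))) (PT.nd (nat_lit 78) (PT.lf (nat_lit 38380) (nat_lit 6) (nat_lit 505) (nat_lit 2) (nat_lit 186) (nat_lit 214) (nat_lit 170)) (PT.lf (nat_lit 38456) (nat_lit 6) (nat_lit 506) (nat_lit 2) (nat_lit 187) (nat_lit 214) (nat_lit 169)))))) (PT.nd (nat_lit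 546) (PT.nd (nat_lit 234) (PT.nd (nat_lit 78) (PT.lf (nat_lit 38532) (nat_lit 6) (nat_lit 507) (nat_lit 2) (nat_lit 188) (nat_lit 214) (nat_lit 168)) (PT.nd (nat_lit 78) (PT.lf (nat_lit 38608) (nat_lit 6) (nat_lit 508) (nat_lit 2) (nat_lit 189) (nat_lit 214) (nat_lit 167)) (PT.lf (nat_lit 38684) (nat_lit 6) (nat_lit 509) (nat_lit 2) (nat_lit 190) (nat_lit 214) (nat_lit 166)))) (PT.nd (nat_lit 156) (PT.nd (nat_lit 78) (PT.lf (nat_lit 36860) (nat_lit 6) (nat_lit 485) (nat_lit 2) (nat_lit 191) (nat_lit 214) (nat_lit 165)) (PT.lf (nat_lit 35720) (nat_lit 6) (nat_lit 470) (nat_lit 2) (nat_lit 192) (nat_lit 214) (nat_lit 164))) (PT.nd (nat_lit 78) (PT.lf (nat_lit 34808) (nat_lit 6) (nat_lit 458) (nat_lit 2) (nat_lit 193) (nat_lit 214) (nat_lit 163)) (PT.lf (nat_lit 33896) (nat_lit 6) (nat_lit 446) (nat_lit 2) (nat_lit 194) (nat_lit 214) (nat_lit 162))))) (PT.nd (nat_lit 312) (PT.nd (nat_lit 156) (PT.nd (nat_lit 78) (PT.lf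 (nat_lit 33060) (nat_lit 6) (nat_lit 435) (nat_lit 2) (nat_lit 195) (nat_lit 214) (nat_lit 161)) (PT.lf (nat_lit 32148) (nat_lit 6) (nat_lit 423) (nat_lit 2) (nat_lit 196) (nat_lit 214) (nat_lit 160))) (PT.nd (nat_lit 78) (PT.lf (nat_lit 31312) (nat_lit 6) (nat_lit 412) (nat_lit 2) (nat_lit 197) (nat_lit 214) (nat_lit 159)) (PT.lf (nat_lit 30476) (nat_lit 6) (nat_lit 401) (nat_lit 2) (nat_lit 198) (nat_lit 214) (nat_lit 158)))) (PT.nd (nat_lit 156) (PT.nd (nat_lit 78) (PT.lf (nat_lit 29716) (nat_lit 6) (nat_lit 391) (nat_lit 2) (nat_lit 199) (nat_lit 214) (nat_lit 157)) (PT.lf (nat_lit 28956) (nat_lit 6) (nat_lit 381) (nat_lit 2) (nat_lit 200) (nat_lit 214) (nat_lit 156))) (PT.nd (nat_lit 78) (PT.lf (nat_lit 28196) (nat_lit 6) (nat_lit 371) (nat_lit 2) (nat_lit 201) (nat_lit 214) (nat_lit 155)) (PT.lf (nat_lit 27436) (nat_lit 6) (nat_lit 361) (nat_lit 2) (nat_lit 202) (nat_lit 214) (nat_lit 154))))))))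
noncomputable def pc56 : PT := (PT.nd (nat_lit 54288) (PT.nd (nat_lit 1092) (PT.nd (nat_lit 546) (PT.nd (nat_lit 234) (PT.nd (nat_lit 78) (PT.lf (nat_lit 26752) (nat_lit 6) (nat_lit 352) (nat_lit 2) (nat_lit 203) (nat_lit 214) (nat_lit 153)) (PT.nd (nat_lit 78) (PT.lf (nat_lit 26068) (nat_lit 6) (nat_lit 343) (nat_lit 2) (nat_lit 204) (nat_lit 214) (nat_lit 152)) (PT.lf (nat_lit 25384) (nat_lit 6) (nat_lit 334) (nat_lit 2) (nat_lit 205) (nat_lit 214) (nat_lit 151)))) (PT.nd (nat_lit 156) (PT.nd (nat_lit 78) (PT.lf (nat_lit 24700) (nat_lit 6) (nat_lit 325) (nat_lit 2) (nat_lit 206) (nat_lit 214) (nat_lit 150)) (PT.lf (nat_lit 24092) (nat_lit 6) (nat_lit 317) (nat_lit 2) (nat_lit 207) (nat_lit 214) (nat_lit 149))) (PT.nd (nat_lit 78) (PT.lf (nat_lit 23484) (nat_lit 6) (nat_lit 309) (nat_lit 2) (nat_lit 208) (nat_lit 214) (nat_lit 148)) (PT.lf (nat_lit 22876) (nat_lit 6) (nat_lit 301) (nat_lit 2) (nat_lit 209) (nat_lit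 214) (nat_lit 147))))) (PT.nd (nat_lit 234) (PT.nd (nat_lit 78) (PT.lf (nat_lit 22268) (nat_lit 6) (nat_lit 293) (nat_lit 2) (nat_lit 210) (nat_lit 214) (nat_lit 146)) (PT.nd (nat_lit 78) (PT.lf (nat_lit 21736) (nat_lit 6) (nat_lit 286) (nat_lit 2) (nat_lit 211) (nat_lit 214) (nat_lit 145)) (PT.lf (nat_lit 21128) (nat_lit 6) (nat_lit 278) (nat_lit 2) (nat_lit 212) (nat_lit 214) (nat_lit 144)))) (PT.nd (nat_lit 156) (PT.nd (nat_lit 78) (PT.lf (nat_lit 20596) (nat_lit 6) (nat_lit 271) (nat_lit 2) (nat_lit 213) (nat_lit 214) (nat_lit 143)) (PT.lf (nat_lit 20064) (nat_lit 3) (nat_lit 264) (nat_lit 0) (nat_lit 214) (nat_lit 214) (nat_lit 142))) (PT.nd (nat_lit 78) (PT.lf (nat_lit 19456) (nat_lit 6) (nat_lit 256) (nat_lit 0) (nat_lit 215) (nat_lit 214) (nat_lit 141)) (PT.lf (nat_lit 18848) (nat_lit 6) (nat_lit 248) (nat_lit 0) (nat_lit 216) (nat_lit 214) (nat_lit 140)))))) (PT.nd (nat_lit 546) (PT.nd (nat_lit 234) (PT.nd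 (nat_lit 78) (PT.lf (nat_lit 18316) (nat_lit 6) (nat_lit 241) (nat_lit 0) (nat_lit 217) (nat_lit 214) (nat_lit 139)) (PT.nd (nat_lit 78) (PT.lf (nat_lit 17708) (nat_lit 6) (nat_lit 233) (nat_lit 0) (nat_lit 218) (nat_lit 214) (nat_lit 138)) (PT.lf (nat_lit 17176) (nat_lit 6) (nat_lit 226) (nat_lit 0) (nat_lit 219) (nat_lit 214) (nat_lit 137)))) (PT.nd (nat_lit 156) (PT.nd (nat_lit 78) (PT.lf (nat_lit 16644) (nat_lit 6) (nat_lit 219) (nat_lit 0) (nat_lit 220) (nat_lit 214) (nat_lit 136)) (PT.lf (nat_lit 16112) (nat_lit 6) (nat_lit 212) (nat_lit 0) (nat_lit 221) (nat_lit 214) (nat_lit 135))) (PT.nd (nat_lit 78) (PT.lf (nat_lit 15580) (nat_lit 6) (nat_lit 205) (nat_lit 0) (nat_lit 222) (nat_lit 214) (nat_lit 134)) (PT.lf (nat_lit 15124) (nat_lit 6) (nat_lit 199) (nat_lit 0) (nat_lit 223) (nat_lit 214) (nat_lit 133))))) (PT.nd (nat_lit 52338) (PT.nd (nat_lit 52104) (PT.nd (nat_lit 52026) (PT.lf (nat_lit 14592) (nat_lit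 6) (nat_lit 192) (nat_lit 0) (nat_lit 224) (nat_lit 214) (nat_lit 132)) (PT.lf (nat_lit 13756) (nat_lit 6) (nat_lit 181) (nat_lit 5) (nat_lit 130) (nat_lit 215) (nat_lit 225))) (PT.nd (nat_lit 78) (PT.lf (nat_lit 14212) (nat_lit 6) (nat_lit 187) (nat_lit 5) (nat_lit 131) (nat_lit 215) (nat_lit 224)) (PT.lf (nat_lit 14668) (nat_lit 6) (nat_lit 193) (nat_lit 5) (nat_lit 132) (nat_lit 215) (nat_lit 223)))) (PT.nd (nat_lit 156) (PT.nd (nat_lit 78) (PT.lf (nat_lit 15656) (nat_lit 6) (nat_lit 206) (nat_lit 5) (nat_lit 134) (nat_lit 215) (nat_lit 221)) (PT.lf (nat_lit 16188) (nat_lit 6) (nat_lit 213) (nat_lit 5) (nat_lit 135) (nat_lit 215) (nat_lit 220))) (PT.nd (nat_lit 78) (PT.lf (nat_lit 16720) (nat_lit 6) (nat_lit 220) (nat_lit 5) (nat_lit 136) (nat_lit 215) (nat_lit 219)) (PT.lf (nat_lit 17252) (nat_lit 6) (nat_lit 227) (nat_lit 5) (nat_lit 137) (nat_lit 215) (nat_lit 218))))))) (PT.nd (nat_lit 1092) (PT.nd (nat_lit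 546) (PT.nd (nat_lit 234) (PT.nd (nat_lit 78) (PT.lf (nat_lit 17784) (nat_lit 6) (nat_lit 234) (nat_lit 5) (nat_lit 138) (nat_lit 215) (nat_lit 217)) (PT.nd (nat_lit 78) (PT.lf (nat_lit 18392) (nat_lit 6) (nat_lit 242) (nat_lit 5) (nat_lit 139) (nat_lit 215) (nat_lit 216)) (PT.lf (nat_lit 18924) (nat_lit 3) (nat_lit 249) (nat_lit 4) (nat_lit 140) (nat_lit 215) (nat_lit 215)))) (PT.nd (nat_lit 156) (PT.nd (nat_lit 78) (PT.lf (nat_lit 19456) (nat_lit 6) (nat_lit 256) (nat_lit 4) (nat_lit 141) (nat_lit 215) (nat_lit 214)) (PT.lf (nat_lit 19988) (nat_lit 6) (nat_lit 263) (nat_lit 4) (nat_lit 142) (nat_lit 215) (nat_lit 213))) (PT.nd (nat_lit 78) (PT.lf (nat_lit 20520) (nat_lit 6) (nat_lit 270) (nat_lit 4) (nat_lit 143) (nat_lit 215) (nat_lit 212)) (PT.lf (nat_lit 21052) (nat_lit 6) (nat_lit 277) (nat_lit 4) (nat_lit 144) (nat_lit 215) (nat_lit 211))))) (PT.nd (nat_lit 234) (PT.nd (nat_lit 78) (PT.lf (nat_lit 21660)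 (nat_lit 6) (nat_lit 285) (nat_lit 4) (nat_lit 145) (nat_lit 215) (nat_lit 210)) (PT.nd (nat_lit 78) (PT.lf (nat_lit 22192) (nat_lit 6) (nat_lit 292) (nat_lit 4) (nat_lit 146) (nat_lit 215) (nat_lit 209)) (PT.lf (nat_lit 22800) (nat_lit 6) (nat_lit 300) (nat_lit 4) (nat_lit 147) (nat_lit 215) (nat_lit 208)))) (PT.nd (nat_lit 156) (PT.nd (nat_lit 78) (PT.lf (nat_lit 23408) (nat_lit 6) (nat_lit 308) (nat_lit 4) (nat_lit 148) (nat_lit 215) (nat_lit 207)) (PT.lf (nat_lit 24016) (nat_lit 6) (nat_lit 316) (nat_lit 4) (nat_lit 149) (nat_lit 215) (nat_lit 206))) (PT.nd (nat_lit 78) (PT.lf (nat_lit 24624) (nat_lit 6) (nat_lit 324) (nat_lit 4) (nat_lit 150) (nat_lit 215) (nat_lit 205)) (PT.lf (nat_lit 25308) (nat_lit 6) (nat_lit 333) (nat_lit 4) (nat_lit 151) (nat_lit 215) (nat_lit 204)))))) (PT.nd (nat_lit 546) (PT.nd (nat_lit 234) (PT.nd (nat_lit 78) (PT.lf (nat_lit 25992) (nat_lit 6) (nat_lit 342) (nat_lit 4) (nat_lit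 152) (nat_lit 215) (nat_lit 203)) (PT.nd (nat_lit 78) (PT.lf (nat_lit 26676) (nat_lit 6) (nat_lit 351) (nat_lit 4) (nat_lit 153) (nat_lit 215) (nat_lit 202)) (PT.lf (nat_lit 27360) (nat_lit 6) (nat_lit 360) (nat_lit 4) (nat_lit 154) (nat_lit 215) (nat_lit 201)))) (PT.nd (nat_lit 156) (PT.nd (nat_lit 78) (PT.lf (nat_lit 28120) (nat_lit 6) (nat_lit 370) (nat_lit 4) (nat_lit 155) (nat_lit 215) (nat_lit 200)) (PT.lf (nat_lit 28880) (nat_lit 6) (nat_lit 380) (nat_lit 4) (nat_lit 156) (nat_lit 215) (nat_lit 199))) (PT.nd (nat_lit 78) (PT.lf (nat_lit 29640) (nat_lit 6) (nat_lit 390) (nat_lit 4) (nat_lit 157) (nat_lit 215) (nat_lit 198)) (PT.lf (nat_lit 30400) (nat_lit 6) (nat_lit 400) (nat_lit 4) (nat_lit 158) (nat_lit 215) (nat_lit 197))))) (PT.nd (nat_lit 312) (PT.nd (nat_lit 156) (PT.nd (nat_lit 78) (PT.lf (nat_lit 31236) (nat_lit 6) (nat_lit 411) (nat_lit 4) (nat_lit 159) (nat_lit 215) (nat_lit 196)) (PT.lf (nat_lit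 32072) (nat_lit 6) (nat_lit 422) (nat_lit 4) (nat_lit 160) (nat_lit 215) (nat_lit 195))) (PT.nd (nat_lit 78) (PT.lf (nat_lit 32984) (nat_lit 6) (nat_lit 434) (nat_lit 4) (nat_lit 161) (nat_lit 215) (nat_lit 194)) (PT.lf (nat_lit 33820) (nat_lit 6) (nat_lit 445) (nat_lit 4) (nat_lit 162) (nat_lit 215) (nat_lit 193)))) (PT.nd (nat_lit 156) (PT.nd (nat_lit 78) (PT.lf (nat_lit 34732) (nat_lit 6) (nat_lit 457) (nat_lit 4) (nat_lit 163) (nat_lit 215) (nat_lit 192)) (PT.lf (nat_lit 35644) (nat_lit 6) (nat_lit 469) (nat_lit 4) (nat_lit 164) (nat_lit 215) (nat_lit 191))) (PT.nd (nat_lit 78) (PT.lf (nat_lit 36784) (nat_lit 6) (nat_lit 484) (nat_lit 4) (nat_lit 165) (nat_lit 215) (nat_lit 190)) (PT.lf (nat_lit 36708) (nat_lit 6) (nat_lit 483) (nat_lit 4) (nat_lit 166) (nat_lit 215) (nat_lit 189))))))))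
noncomputable def pc57 : PT := (PT.nd (nat_lit 3822) (PT.nd (nat_lit 2652) (PT.nd (nat_lit 2106) (PT.nd (nat_lit 1794) (PT.nd (nat_lit 1638) (PT.lf (nat_lit 36632) (nat_lit 6) (nat_lit 482) (nat_lit 4) (nat_lit 167) (nat_lit 215) (nat_lit 188)) (PT.nd (nat_lit 78) (PT.lf (nat_lit 36632) (nat_lit 6) (nat_lit 482) (nat_lit 2) (nat_lit 188) (nat_lit 215) (nat_lit 167)) (PT.lf (nat_lit 36708) (nat_lit 6) (nat_lit 483) (nat_lit 2) (nat_lit 189) (nat_lit 215) (nat_lit 166)))) (PT.nd (nat_lit 156) (PT.nd (nat_lit 78) (PT.lf (nat_lit 36784) (nat_lit 6) (nat_lit 484) (nat_lit 2) (nat_lit 190) (nat_lit 215) (nat_lit 165)) (PT.lf (nat_lit 35644) (nat_lit 6) (nat_lit 469) (nat_lit 2) (nat_lit 191) (nat_lit 215) (nat_lit 164))) (PT.nd (nat_lit 78) (PT.lf (nat_lit 34732) (nat_lit 6) (nat_lit 457) (nat_lit 2) (nat_lit 192) (nat_lit 215) (nat_lit 163)) (PT.lf (nat_lit 33820) (nat_lit 6) (nat_lit 445) (nat_lit 2) (nat_lit 193)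 (nat_lit 215) (nat_lit 162))))) (PT.nd (nat_lit 234) (PT.nd (nat_lit 78) (PT.lf (nat_lit 32984) (nat_lit 6) (nat_lit 434) (nat_lit 2) (nat_lit 194) (nat_lit 215) (nat_lit 161)) (PT.nd (nat_lit 78) (PT.lf (nat_lit 32072) (nat_lit 6) (nat_lit 422) (nat_lit 2) (nat_lit 195) (nat_lit 215) (nat_lit 160)) (PT.lf (nat_lit 31236) (nat_lit 6) (nat_lit 411) (nat_lit 2) (nat_lit 196) (nat_lit 215) (nat_lit 159)))) (PT.nd (nat_lit 156) (PT.nd (nat_lit 78) (PT.lf (nat_lit 30400) (nat_lit 6) (nat_lit 400) (nat_lit 2) (nat_lit 197) (nat_lit 215) (nat_lit 158)) (PT.lf (nat_lit 29640) (nat_lit 6) (nat_lit 390) (nat_lit 2) (nat_lit 198) (nat_lit 215) (nat_lit 157))) (PT.nd (nat_lit 78) (PT.lf (nat_lit 28880) (nat_lit 6) (nat_lit 380) (nat_lit 2) (nat_lit 199) (nat_lit 215) (nat_lit 156)) (PT.lf (nat_lit 28120) (nat_lit 6) (nat_lit 370) (nat_lit 2) (nat_lit 200) (nat_lit 215) (nat_lit 155)))))) (PT.nd (nat_lit 546) (PT.nd (nat_lit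 234) (PT.nd (nat_lit 78) (PT.lf (nat_lit 27360) (nat_lit 6) (nat_lit 360) (nat_lit 2) (nat_lit 201) (nat_lit 215) (nat_lit 154)) (PT.nd (nat_lit 78) (PT.lf (nat_lit 26676) (nat_lit 6) (nat_lit 351) (nat_lit 2) (nat_lit 202) (nat_lit 215) (nat_lit 153)) (PT.lf (nat_lit 25992) (nat_lit 6) (nat_lit 342) (nat_lit 2) (nat_lit 203) (nat_lit 215) (nat_lit 152)))) (PT.nd (nat_lit 156) (PT.nd (nat_lit 78) (PT.lf (nat_lit 25308) (nat_lit 6) (nat_lit 333) (nat_lit 2) (nat_lit 204) (nat_lit 215) (nat_lit 151)) (PT.lf (nat_lit 24624) (nat_lit 6) (nat_lit 324) (nat_lit 2) (nat_lit 205) (nat_lit 215) (nat_lit 150))) (PT.nd (nat_lit 78) (PT.lf (nat_lit 24016) (nat_lit 6) (nat_lit 316) (nat_lit 2) (nat_lit 206) (nat_lit 215) (nat_lit 149)) (PT.lf (nat_lit 23408) (nat_lit 6) (nat_lit 308) (nat_lit 2) (nat_lit 207) (nat_lit 215) (nat_lit 148))))) (PT.nd (nat_lit 312) (PT.nd (nat_lit 156) (PT.nd (nat_lit 78) (PT.lf (nat_lit 22800)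 (nat_lit 6) (nat_lit 300) (nat_lit 2) (nat_lit 208) (nat_lit 215) (nat_lit 147)) (PT.lf (nat_lit 22192) (nat_lit 6) (nat_lit 292) (nat_lit 2) (nat_lit 209) (nat_lit 215) (nat_lit 146))) (PT.nd (nat_lit 78) (PT.lf (nat_lit 21660) (nat_lit 6) (nat_lit 285) (nat_lit 2) (nat_lit 210) (nat_lit 215) (nat_lit 145)) (PT.lf (nat_lit 21052) (nat_lit 6) (nat_lit 277) (nat_lit 2) (nat_lit 211) (nat_lit 215) (nat_lit 144)))) (PT.nd (nat_lit 156) (PT.nd (nat_lit 78) (PT.lf (nat_lit 20520) (nat_lit 6) (nat_lit 270) (nat_lit 2) (nat_lit 212) (nat_lit 215) (nat_lit 143)) (PT.lf (nat_lit 19988) (nat_lit 6) (nat_lit 263) (nat_lit 2) (nat_lit 213) (nat_lit 215) (nat_lit 142))) (PT.nd (nat_lit 78) (PT.lf (nat_lit 19456) (nat_lit 6) (nat_lit 256) (nat_lit 2) (nat_lit 214) (nat_lit 215) (nat_lit 141)) (PT.lf (nat_lit 18924) (nat_lit 3) (nat_lit 249) (nat_lit 0) (nat_lit 215) (nat_lit 215) (nat_lit 140))))))) (PT.nd (nat_lit 53118) (PT.nd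 (nat_lit 624) (PT.nd (nat_lit 234) (PT.nd (nat_lit 78) (PT.lf (nat_lit 18392) (nat_lit 6) (nat_lit 242) (nat_lit 0) (nat_lit 216) (nat_lit 215) (nat_lit 139)) (PT.nd (nat_lit 78) (PT.lf (nat_lit 17784) (nat_lit 6) (nat_lit 234) (nat_lit 0) (nat_lit 217) (nat_lit 215) (nat_lit 138)) (PT.lf (nat_lit 17252) (nat_lit 6) (nat_lit 227) (nat_lit 0) (nat_lit 218) (nat_lit 215) (nat_lit 137)))) (PT.nd (nat_lit 156) (PT.nd (nat_lit 78) (PT.lf (nat_lit 16720) (nat_lit 6) (nat_lit 220) (nat_lit 0) (nat_lit 219) (nat_lit 215) (nat_lit 136)) (PT.lf (nat_lit 16188) (nat_lit 6) (nat_lit 213) (nat_lit 0) (nat_lit 220) (nat_lit 215) (nat_lit 135))) (PT.nd (nat_lit 156) (PT.lf (nat_lit 15656) (nat_lit 6) (nat_lit 206) (nat_lit 0) (nat_lit 221) (nat_lit 215) (nat_lit 134)) (PT.lf (nat_lit 14668) (nat_lit 6) (nat_lit 193) (nat_lit 0) (nat_lit 223) (nat_lit 215) (nat_lit 132))))) (PT.nd (nat_lit 52104) (PT.nd (nat_lit 51948) (PT.nd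 (nat_lit 78) (PT.lf (nat_lit 14212) (nat_lit 6) (nat_lit 187) (nat_lit 0) (nat_lit 224) (nat_lit 215) (nat_lit 131)) (PT.lf (nat_lit 13756) (nat_lit 6) (nat_lit 181) (nat_lit 0) (nat_lit 225) (nat_lit 215) (nat_lit 130))) (PT.nd (nat_lit 78) (PT.lf (nat_lit 13376) (nat_lit 6) (nat_lit 176) (nat_lit 5) (nat_lit 129) (nat_lit 216) (nat_lit 225)) (PT.lf (nat_lit 13832) (nat_lit 6) (nat_lit 182) (nat_lit 5) (nat_lit 130) (nat_lit 216) (nat_lit 224)))) (PT.nd (nat_lit 234) (PT.nd (nat_lit 156) (PT.lf (nat_lit 14288) (nat_lit 6) (nat_lit 188) (nat_lit 5) (nat_lit 131) (nat_lit 216) (nat_lit 223)) (PT.lf (nat_lit 15276) (nat_lit 6) (nat_lit 201) (nat_lit 5) (nat_lit 133) (nat_lit 216) (nat_lit 221))) (PT.nd (nat_lit 78) (PT.lf (nat_lit 15732) (nat_lit 6) (nat_lit 207) (nat_lit 5) (nat_lit 134) (nat_lit 216) (nat_lit 220)) (PT.lf (nat_lit 16264) (nat_lit 6) (nat_lit 214) (nat_lit 5) (nat_lit 135) (nat_lit 216) (nat_lit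 219)))))) (PT.nd (nat_lit 546) (PT.nd (nat_lit 234) (PT.nd (nat_lit 78) (PT.lf (nat_lit 16796) (nat_lit 6) (nat_lit 221) (nat_lit 5) (nat_lit 136) (nat_lit 216) (nat_lit 218)) (PT.nd (nat_lit 78) (PT.lf (nat_lit 17328) (nat_lit 6) (nat_lit 228) (nat_lit 5) (nat_lit 137) (nat_lit 216) (nat_lit 217)) (PT.lf (nat_lit 17860) (nat_lit 3) (nat_lit 235) (nat_lit 4) (nat_lit 138) (nat_lit 216) (nat_lit 216)))) (PT.nd (nat_lit 156) (PT.nd (nat_lit 78) (PT.lf (nat_lit 18392) (nat_lit 6) (nat_lit 242) (nat_lit 4) (nat_lit 139) (nat_lit 216) (nat_lit 215)) (PT.lf (nat_lit 18848) (nat_lit 6) (nat_lit 248) (nat_lit 4) (nat_lit 140) (nat_lit 216) (nat_lit 214))) (PT.nd (nat_lit 78) (PT.lf (nat_lit 19380) (nat_lit 6) (nat_lit 255) (nat_lit 4) (nat_lit 141) (nat_lit 216) (nat_lit 213)) (PT.lf (nat_lit 19912) (nat_lit 6) (nat_lit 262) (nat_lit 4) (nat_lit 142) (nat_lit 216) (nat_lit 212))))) (PT.nd (nat_lit 312) (PT.nd (nat_lit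 156) (PT.nd (nat_lit 78) (PT.lf (nat_lit 20444) (nat_lit 6) (nat_lit 269) (nat_lit 4) (nat_lit 143) (nat_lit 216) (nat_lit 211)) (PT.lf (nat_lit 20976) (nat_lit 6) (nat_lit 276) (nat_lit 4) (nat_lit 144) (nat_lit 216) (nat_lit 210))) (PT.nd (nat_lit 78) (PT.lf (nat_lit 21584) (nat_lit 6) (nat_lit 284) (nat_lit 4) (nat_lit 145) (nat_lit 216) (nat_lit 209)) (PT.lf (nat_lit 22116) (nat_lit 6) (nat_lit 291) (nat_lit 4) (nat_lit 146) (nat_lit 216) (nat_lit 208)))) (PT.nd (nat_lit 156) (PT.nd (nat_lit 78) (PT.lf (nat_lit 22724) (nat_lit 6) (nat_lit 299) (nat_lit 4) (nat_lit 147) (nat_lit 216) (nat_lit 207)) (PT.lf (nat_lit 23332) (nat_lit 6) (nat_lit 307) (nat_lit 4) (nat_lit 148) (nat_lit 216) (nat_lit 206))) (PT.nd (nat_lit 78) (PT.lf (nat_lit 23940) (nat_lit 6) (nat_lit 315) (nat_lit 4) (nat_lit 149) (nat_lit 216) (nat_lit 205)) (PT.lf (nat_lit 24548) (nat_lit 6) (nat_lit 323) (nat_lit 4) (nat_lit 150) (nat_lit 216)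 (nat_lit 204))))))))
noncomputable def pc58 : PT := (PT.nd (nat_lit 4680) (PT.nd (nat_lit 3510) (PT.nd (nat_lit 546) (PT.nd (nat_lit 234) (PT.nd (nat_lit 78) (PT.lf (nat_lit 25232) (nat_lit 6) (nat_lit 332) (nat_lit 4) (nat_lit 151) (nat_lit 216) (nat_lit 203)) (PT.nd (nat_lit 78) (PT.lf (nat_lit 25916) (nat_lit 6) (nat_lit 341) (nat_lit 4) (nat_lit 152) (nat_lit 216) (nat_lit 202)) (PT.lf (nat_lit 26600) (nat_lit 6) (nat_lit 350) (nat_lit 4) (nat_lit 153) (nat_lit 216) (nat_lit 201)))) (PT.nd (nat_lit 156) (PT.nd (nat_lit 78) (PT.lf (nat_lit 27284) (nat_lit 6) (nat_lit 359) (nat_lit 4) (nat_lit 154) (nat_lit 216) (nat_lit 200)) (PT.lf (nat_lit 28044) (nat_lit 6) (nat_lit 369) (nat_lit 4) (nat_lit 155) (nat_lit 216) (nat_lit 199))) (PT.nd (nat_lit 78) (PT.lf (nat_lit 28804) (nat_lit 6) (nat_lit 379) (nat_lit 4) (nat_lit 156) (nat_lit 216) (nat_lit 198)) (PT.lf (nat_lit 29564) (nat_lit 6) (nat_lit 389) (nat_lit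 4) (nat_lit 157) (nat_lit 216) (nat_lit 197))))) (PT.nd (nat_lit 234) (PT.nd (nat_lit 78) (PT.lf (nat_lit 30324) (nat_lit 6) (nat_lit 399) (nat_lit 4) (nat_lit 158) (nat_lit 216) (nat_lit 196)) (PT.nd (nat_lit 78) (PT.lf (nat_lit 31160) (nat_lit 6) (nat_lit 410) (nat_lit 4) (nat_lit 159) (nat_lit 216) (nat_lit 195)) (PT.lf (nat_lit 31996) (nat_lit 6) (nat_lit 421) (nat_lit 4) (nat_lit 160) (nat_lit 216) (nat_lit 194)))) (PT.nd (nat_lit 2574) (PT.nd (nat_lit 2496) (PT.lf (nat_lit 32908) (nat_lit 6) (nat_lit 433) (nat_lit 4) (nat_lit 161) (nat_lit 216) (nat_lit 193)) (PT.lf (nat_lit 32908) (nat_lit 6) (nat_lit 433) (nat_lit 2) (nat_lit 193) (nat_lit 216) (nat_lit 161))) (PT.nd (nat_lit 78) (PT.lf (nat_lit 31996) (nat_lit 6) (nat_lit 421) (nat_lit 2) (nat_lit 194) (nat_lit 216) (nat_lit 160)) (PT.lf (nat_lit 31160) (nat_lit 6) (nat_lit 410) (nat_lit 2) (nat_lit 195) (nat_lit 216) (nat_lit 159)))))) (PT.nd (nat_lit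 546) (PT.nd (nat_lit 234) (PT.nd (nat_lit 78) (PT.lf (nat_lit 30324) (nat_lit 6) (nat_lit 399) (nat_lit 2) (nat_lit 196) (nat_lit 216) (nat_lit 158)) (PT.nd (nat_lit 78) (PT.lf (nat_lit 29564) (nat_lit 6) (nat_lit 389) (nat_lit 2) (nat_lit 197) (nat_lit 216) (nat_lit 157)) (PT.lf (nat_lit 28804) (nat_lit 6) (nat_lit 379) (nat_lit 2) (nat_lit 198) (nat_lit 216) (nat_lit 156)))) (PT.nd (nat_lit 156) (PT.nd (nat_lit 78) (PT.lf (nat_lit 28044) (nat_lit 6) (nat_lit 369) (nat_lit 2) (nat_lit 199) (nat_lit 216) (nat_lit 155)) (PT.lf (nat_lit 27284) (nat_lit 6) (nat_lit 359) (nat_lit 2) (nat_lit 200) (nat_lit 216) (nat_lit 154))) (PT.nd (nat_lit 78) (PT.lf (nat_lit 26600) (nat_lit 6) (nat_lit 350) (nat_lit 2) (nat_lit 201) (nat_lit 216) (nat_lit 153)) (PT.lf (nat_lit 25916) (nat_lit 6) (nat_lit 341) (nat_lit 2) (nat_lit 202) (nat_lit 216) (nat_lit 152))))) (PT.nd (nat_lit 312) (PT.nd (nat_lit 156) (PT.nd (nat_lit 78) (PT.lf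 (nat_lit 25232) (nat_lit 6) (nat_lit 332) (nat_lit 2) (nat_lit 203) (nat_lit 216) (nat_lit 151)) (PT.lf (nat_lit 24548) (nat_lit 6) (nat_lit 323) (nat_lit 2) (nat_lit 204) (nat_lit 216) (nat_lit 150))) (PT.nd (nat_lit 78) (PT.lf (nat_lit 23940) (nat_lit 6) (nat_lit 315) (nat_lit 2) (nat_lit 205) (nat_lit 216) (nat_lit 149)) (PT.lf (nat_lit 23332) (nat_lit 6) (nat_lit 307) (nat_lit 2) (nat_lit 206) (nat_lit 216) (nat_lit 148)))) (PT.nd (nat_lit 156) (PT.nd (nat_lit 78) (PT.lf (nat_lit 22724) (nat_lit 6) (nat_lit 299) (nat_lit 2) (nat_lit 207) (nat_lit 216) (nat_lit 147)) (PT.lf (nat_lit 22116) (nat_lit 6) (nat_lit 291) (nat_lit 2) (nat_lit 208) (nat_lit 216) (nat_lit 146))) (PT.nd (nat_lit 78) (PT.lf (nat_lit 21584) (nat_lit 6) (nat_lit 284) (nat_lit 2) (nat_lit 209) (nat_lit 216) (nat_lit 145)) (PT.lf (nat_lit 20976) (nat_lit 6) (nat_lit 276) (nat_lit 2) (nat_lit 210) (nat_lit 216) (nat_lit 144))))))) (PT.nd (nat_lit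 52806) (PT.nd (nat_lit 546) (PT.nd (nat_lit 234) (PT.nd (nat_lit 78) (PT.lf (nat_lit 20444) (nat_lit 6) (nat_lit 269) (nat_lit 2) (nat_lit 211) (nat_lit 216) (nat_lit 143)) (PT.nd (nat_lit 78) (PT.lf (nat_lit 19912) (nat_lit 6) (nat_lit 262) (nat_lit 2) (nat_lit 212) (nat_lit 216) (nat_lit 142)) (PT.lf (nat_lit 19380) (nat_lit 6) (nat_lit 255) (nat_lit 2) (nat_lit 213) (nat_lit 216) (nat_lit 141)))) (PT.nd (nat_lit 156) (PT.nd (nat_lit 78) (PT.lf (nat_lit 18848) (nat_lit 6) (nat_lit 248) (nat_lit 2) (nat_lit 214) (nat_lit 216) (nat_lit 140)) (PT.lf (nat_lit 18392) (nat_lit 6) (nat_lit 242) (nat_lit 2) (nat_lit 215) (nat_lit 216) (nat_lit 139))) (PT.nd (nat_lit 78) (PT.lf (nat_lit 17860) (nat_lit 3) (nat_lit 235) (nat_lit 0) (nat_lit 216) (nat_lit 216) (nat_lit 138)) (PT.lf (nat_lit 17328) (nat_lit 6) (nat_lit 228) (nat_lit 0) (nat_lit 217) (nat_lit 216) (nat_lit 137))))) (PT.nd (nat_lit 234) (PT.nd (nat_lit 78)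 (PT.lf (nat_lit 16796) (nat_lit 6) (nat_lit 221) (nat_lit 0) (nat_lit 218) (nat_lit 216) (nat_lit 136)) (PT.nd (nat_lit 78) (PT.lf (nat_lit 16264) (nat_lit 6) (nat_lit 214) (nat_lit 0) (nat_lit 219) (nat_lit 216) (nat_lit 135)) (PT.lf (nat_lit 15732) (nat_lit 6) (nat_lit 207) (nat_lit 0) (nat_lit 220) (nat_lit 216) (nat_lit 134)))) (PT.nd (nat_lit 234) (PT.nd (nat_lit 156) (PT.lf (nat_lit 15276) (nat_lit 6) (nat_lit 201) (nat_lit 0) (nat_lit 221) (nat_lit 216) (nat_lit 133)) (PT.lf (nat_lit 14288) (nat_lit 6) (nat_lit 188) (nat_lit 0) (nat_lit 223) (nat_lit 216) (nat_lit 131))) (PT.nd (nat_lit 78) (PT.lf (nat_lit 13832) (nat_lit 6) (nat_lit 182) (nat_lit 0) (nat_lit 224) (nat_lit 216) (nat_lit 130)) (PT.lf (nat_lit 13376) (nat_lit 6) (nat_lit 176) (nat_lit 0) (nat_lit 225) (nat_lit 216) (nat_lit 129)))))) (PT.nd (nat_lit 624) (PT.nd (nat_lit 312) (PT.nd (nat_lit 78) (PT.lf (nat_lit 12616) (nat_lit 6) (nat_lit 166)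 (nat_lit 5) (nat_lit 127) (nat_lit 217) (nat_lit 226)) (PT.nd (nat_lit 78) (PT.lf (nat_lit 12996) (nat_lit 6) (nat_lit 171) (nat_lit 5) (nat_lit 128) (nat_lit 217) (nat_lit 225)) (PT.lf (nat_lit 13452) (nat_lit 6) (nat_lit 177) (nat_lit 5) (nat_lit 129) (nat_lit 217) (nat_lit 224)))) (PT.nd (nat_lit 156) (PT.nd (nat_lit 78) (PT.lf (nat_lit 14364) (nat_lit 6) (nat_lit 189) (nat_lit 5) (nat_lit 131) (nat_lit 217) (nat_lit 222)) (PT.lf (nat_lit 14820) (nat_lit 6) (nat_lit 195) (nat_lit 5) (nat_lit 132) (nat_lit 217) (nat_lit 221))) (PT.nd (nat_lit 78) (PT.lf (nat_lit 15352) (nat_lit 6) (nat_lit 202) (nat_lit 5) (nat_lit 133) (nat_lit 217) (nat_lit 220)) (PT.lf (nat_lit 15808) (nat_lit 6) (nat_lit 208) (nat_lit 5) (nat_lit 134) (nat_lit 217) (nat_lit 219))))) (PT.nd (nat_lit 312) (PT.nd (nat_lit 156) (PT.nd (nat_lit 78) (PT.lf (nat_lit 16340) (nat_lit 6) (nat_lit 215) (nat_lit 5) (nat_lit 135) (nat_lit 217) (nat_lit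 218)) (PT.lf (nat_lit 16872) (nat_lit 3) (nat_lit 222) (nat_lit 4) (nat_lit 136) (nat_lit 217) (nat_lit 217))) (PT.nd (nat_lit 78) (PT.lf (nat_lit 17328) (nat_lit 6) (nat_lit 228) (nat_lit 4) (nat_lit 137) (nat_lit 217) (nat_lit 216)) (PT.lf (nat_lit 17784) (nat_lit 6) (nat_lit 234) (nat_lit 4) (nat_lit 138) (nat_lit 217) (nat_lit 215)))) (PT.nd (nat_lit 156) (PT.nd (nat_lit 78) (PT.lf (nat_lit 18316) (nat_lit 6) (nat_lit 241) (nat_lit 4) (nat_lit 139) (nat_lit 217) (nat_lit 214)) (PT.lf (nat_lit 18772) (nat_lit 6) (nat_lit 247) (nat_lit 4) (nat_lit 140) (nat_lit 217) (nat_lit 213))) (PT.nd (nat_lit 78) (PT.lf (nat_lit 19304) (nat_lit 6) (nat_lit 254) (nat_lit 4) (nat_lit 141) (nat_lit 217) (nat_lit 212)) (PT.lf (nat_lit 19836) (nat_lit 6) (nat_lit 261) (nat_lit 4) (nat_lit 142) (nat_lit 217) (nat_lit 211))))))))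
noncomputable def pc59 : PT := (PT.nd (nat_lit 5382) (PT.nd (nat_lit 4212) (PT.nd (nat_lit 546) (PT.nd (nat_lit 234) (PT.nd (nat_lit 78) (PT.lf (nat_lit 20368) (nat_lit 6) (nat_lit 268) (nat_lit 4) (nat_lit 143) (nat_lit 217) (nat_lit 210)) (PT.nd (nat_lit 78) (PT.lf (nat_lit 20900) (nat_lit 6) (nat_lit 275) (nat_lit 4) (nat_lit 144) (nat_lit 217) (nat_lit 209)) (PT.lf (nat_lit 21508) (nat_lit 6) (nat_lit 283) (nat_lit 4) (nat_lit 145) (nat_lit 217) (nat_lit 208)))) (PT.nd (nat_lit 156) (PT.nd (nat_lit 78) (PT.lf (nat_lit 22040) (nat_lit 6) (nat_lit 290) (nat_lit 4) (nat_lit 146) (nat_lit 217) (nat_lit 207)) (PT.lf (nat_lit 22648) (nat_lit 6) (nat_lit 298) (nat_lit 4) (nat_lit 147) (nat_lit 217) (nat_lit 206))) (PT.nd (nat_lit 78) (PT.lf (nat_lit 23256) (nat_lit 6) (nat_lit 306) (nat_lit 4) (nat_lit 148) (nat_lit 217) (nat_lit 205)) (PT.lf (nat_lit 23864) (nat_lit 6) (nat_lit 314) (nat_lit 4) (nat_lit 149) (nat_lit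 217) (nat_lit 204))))) (PT.nd (nat_lit 234) (PT.nd (nat_lit 78) (PT.lf (nat_lit 24472) (nat_lit 6) (nat_lit 322) (nat_lit 4) (nat_lit 150) (nat_lit 217) (nat_lit 203)) (PT.nd (nat_lit 78) (PT.lf (nat_lit 25156) (nat_lit 6) (nat_lit 331) (nat_lit 4) (nat_lit 151) (nat_lit 217) (nat_lit 202)) (PT.lf (nat_lit 25840) (nat_lit 6) (nat_lit 340) (nat_lit 4) (nat_lit 152) (nat_lit 217) (nat_lit 201)))) (PT.nd (nat_lit 156) (PT.nd (nat_lit 78) (PT.lf (nat_lit 26524) (nat_lit 6) (nat_lit 349) (nat_lit 4) (nat_lit 153) (nat_lit 217) (nat_lit 200)) (PT.lf (nat_lit 27208) (nat_lit 6) (nat_lit 358) (nat_lit 4) (nat_lit 154) (nat_lit 217) (nat_lit 199))) (PT.nd (nat_lit 78) (PT.lf (nat_lit 27968) (nat_lit 6) (nat_lit 368) (nat_lit 4) (nat_lit 155) (nat_lit 217) (nat_lit 198)) (PT.lf (nat_lit 28728) (nat_lit 6) (nat_lit 378) (nat_lit 4) (nat_lit 156) (nat_lit 217) (nat_lit 197)))))) (PT.nd (nat_lit 546) (PT.nd (nat_lit 234) (PT.nd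 (nat_lit 78) (PT.lf (nat_lit 28728) (nat_lit 6) (nat_lit 378) (nat_lit 2) (nat_lit 197) (nat_lit 217) (nat_lit 156)) (PT.nd (nat_lit 78) (PT.lf (nat_lit 27968) (nat_lit 6) (nat_lit 368) (nat_lit 2) (nat_lit 198) (nat_lit 217) (nat_lit 155)) (PT.lf (nat_lit 27208) (nat_lit 6) (nat_lit 358) (nat_lit 2) (nat_lit 199) (nat_lit 217) (nat_lit 154)))) (PT.nd (nat_lit 156) (PT.nd (nat_lit 78) (PT.lf (nat_lit 26524) (nat_lit 6) (nat_lit 349) (nat_lit 2) (nat_lit 200) (nat_lit 217) (nat_lit 153)) (PT.lf (nat_lit 25840) (nat_lit 6) (nat_lit 340) (nat_lit 2) (nat_lit 201) (nat_lit 217) (nat_lit 152))) (PT.nd (nat_lit 78) (PT.lf (nat_lit 25156) (nat_lit 6) (nat_lit 331) (nat_lit 2) (nat_lit 202) (nat_lit 217) (nat_lit 151)) (PT.lf (nat_lit 24472) (nat_lit 6) (nat_lit 322) (nat_lit 2) (nat_lit 203) (nat_lit 217) (nat_lit 150))))) (PT.nd (nat_lit 312) (PT.nd (nat_lit 156) (PT.nd (nat_lit 78) (PT.lf (nat_lit 23864) (nat_lit 6)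 (nat_lit 314) (nat_lit 2) (nat_lit 204) (nat_lit 217) (nat_lit 149)) (PT.lf (nat_lit 23256) (nat_lit 6) (nat_lit 306) (nat_lit 2) (nat_lit 205) (nat_lit 217) (nat_lit 148))) (PT.nd (nat_lit 78) (PT.lf (nat_lit 22648) (nat_lit 6) (nat_lit 298) (nat_lit 2) (nat_lit 206) (nat_lit 217) (nat_lit 147)) (PT.lf (nat_lit 22040) (nat_lit 6) (nat_lit 290) (nat_lit 2) (nat_lit 207) (nat_lit 217) (nat_lit 146)))) (PT.nd (nat_lit 156) (PT.nd (nat_lit 78) (PT.lf (nat_lit 21508) (nat_lit 6) (nat_lit 283) (nat_lit 2) (nat_lit 208) (nat_lit 217) (nat_lit 145)) (PT.lf (nat_lit 20900) (nat_lit 6) (nat_lit 275) (nat_lit 2) (nat_lit 209) (nat_lit 217) (nat_lit 144))) (PT.nd (nat_lit 78) (PT.lf (nat_lit 20368) (nat_lit 6) (nat_lit 268) (nat_lit 2) (nat_lit 210) (nat_lit 217) (nat_lit 143)) (PT.lf (nat_lit 19836) (nat_lit 6) (nat_lit 261) (nat_lit 2) (nat_lit 211) (nat_lit 217) (nat_lit 142))))))) (PT.nd (nat_lit 52728) (PT.nd (nat_lit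 546) (PT.nd (nat_lit 234) (PT.nd (nat_lit 78) (PT.lf (nat_lit 19304) (nat_lit 6) (nat_lit 254) (nat_lit 2) (nat_lit 212) (nat_lit 217) (nat_lit 141)) (PT.nd (nat_lit 78) (PT.lf (nat_lit 18772) (nat_lit 6) (nat_lit 247) (nat_lit 2) (nat_lit 213) (nat_lit 217) (nat_lit 140)) (PT.lf (nat_lit 18316) (nat_lit 6) (nat_lit 241) (nat_lit 2) (nat_lit 214) (nat_lit 217) (nat_lit 139)))) (PT.nd (nat_lit 156) (PT.nd (nat_lit 78) (PT.lf (nat_lit 17784) (nat_lit 6) (nat_lit 234) (nat_lit 2) (nat_lit 215) (nat_lit 217) (nat_lit 138)) (PT.lf (nat_lit 17328) (nat_lit 6) (nat_lit 228) (nat_lit 2) (nat_lit 216) (nat_lit 217) (nat_lit 137))) (PT.nd (nat_lit 78) (PT.lf (nat_lit 16872) (nat_lit 3) (nat_lit 222) (nat_lit 0) (nat_lit 217) (nat_lit 217) (nat_lit 136)) (PT.lf (nat_lit 16340) (nat_lit 6) (nat_lit 215) (nat_lit 0) (nat_lit 218) (nat_lit 217) (nat_lit 135))))) (PT.nd (nat_lit 390) (PT.nd (nat_lit 156) (PT.nd (nat_lit 78) (PT.lf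 (nat_lit 15808) (nat_lit 6) (nat_lit 208) (nat_lit 0) (nat_lit 219) (nat_lit 217) (nat_lit 134)) (PT.lf (nat_lit 15352) (nat_lit 6) (nat_lit 202) (nat_lit 0) (nat_lit 220) (nat_lit 217) (nat_lit 133))) (PT.nd (nat_lit 78) (PT.lf (nat_lit 14820) (nat_lit 6) (nat_lit 195) (nat_lit 0) (nat_lit 221) (nat_lit 217) (nat_lit 132)) (PT.lf (nat_lit 14364) (nat_lit 6) (nat_lit 189) (nat_lit 0) (nat_lit 222) (nat_lit 217) (nat_lit 131)))) (PT.nd (nat_lit 156) (PT.nd (nat_lit 78) (PT.lf (nat_lit 13452) (nat_lit 6) (nat_lit 177) (nat_lit 0) (nat_lit 224) (nat_lit 217) (nat_lit 129)) (PT.lf (nat_lit 12996) (nat_lit 6) (nat_lit 171) (nat_lit 0) (nat_lit 225) (nat_lit 217) (nat_lit 128))) (PT.nd (nat_lit 51558) (PT.lf (nat_lit 12616) (nat_lit 6) (nat_lit 166) (nat_lit 0) (nat_lit 226) (nat_lit 217) (nat_lit 127)) (PT.lf (nat_lit 12236) (nat_lit 6) (nat_lit 161) (nat_lit 5) (nat_lit 126) (nat_lit 218) (nat_lit 226)))))) (PT.nd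 (nat_lit 702) (PT.nd (nat_lit 390) (PT.nd (nat_lit 234) (PT.lf (nat_lit 12692) (nat_lit 6) (nat_lit 167) (nat_lit 5) (nat_lit 127) (nat_lit 218) (nat_lit 225)) (PT.nd (nat_lit 78) (PT.lf (nat_lit 13984) (nat_lit 6) (nat_lit 184) (nat_lit 5) (nat_lit 130) (nat_lit 218) (nat_lit 222)) (PT.lf (nat_lit 14440) (nat_lit 6) (nat_lit 190) (nat_lit 5) (nat_lit 131) (nat_lit 218) (nat_lit 221)))) (PT.nd (nat_lit 156) (PT.nd (nat_lit 78) (PT.lf (nat_lit 14896) (nat_lit 6) (nat_lit 196) (nat_lit 5) (nat_lit 132) (nat_lit 218) (nat_lit 220)) (PT.lf (nat_lit 15428) (nat_lit 6) (nat_lit 203) (nat_lit 5) (nat_lit 133) (nat_lit 218) (nat_lit 219))) (PT.nd (nat_lit 78) (PT.lf (nat_lit 15884) (nat_lit 3) (nat_lit 209) (nat_lit 4) (nat_lit 134) (nat_lit 218) (nat_lit 218)) (PT.lf (nat_lit 16340) (nat_lit 6) (nat_lit 215) (nat_lit 4) (nat_lit 135) (nat_lit 218) (nat_lit 217))))) (PT.nd (nat_lit 312) (PT.nd (nat_lit 156) (PT.nd (nat_lit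 78) (PT.lf (nat_lit 16796) (nat_lit 6) (nat_lit 221) (nat_lit 4) (nat_lit 136) (nat_lit 218) (nat_lit 216)) (PT.lf (nat_lit 17252) (nat_lit 6) (nat_lit 227) (nat_lit 4) (nat_lit 137) (nat_lit 218) (nat_lit 215))) (PT.nd (nat_lit 78) (PT.lf (nat_lit 17708) (nat_lit 6) (nat_lit 233) (nat_lit 4) (nat_lit 138) (nat_lit 218) (nat_lit 214)) (PT.lf (nat_lit 18240) (nat_lit 6) (nat_lit 240) (nat_lit 4) (nat_lit 139) (nat_lit 218) (nat_lit 213)))) (PT.nd (nat_lit 156) (PT.nd (nat_lit 78) (PT.lf (nat_lit 18696) (nat_lit 6) (nat_lit 246) (nat_lit 4) (nat_lit 140) (nat_lit 218) (nat_lit 212)) (PT.lf (nat_lit 19228) (nat_lit 6) (nat_lit 253) (nat_lit 4) (nat_lit 141) (nat_lit 218) (nat_lit 211))) (PT.nd (nat_lit 78) (PT.lf (nat_lit 19760) (nat_lit 6) (nat_lit 260) (nat_lit 4) (nat_lit 142) (nat_lit 218) (nat_lit 210)) (PT.lf (nat_lit 20292) (nat_lit 6) (nat_lit 267) (nat_lit 4) (nat_lit 143) (nat_lit 218) (nat_lit 209))))))))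
noncomputable def pc60 : PT := (PT.nd (nat_lit 5928) (PT.nd (nat_lit 4758) (PT.nd (nat_lit 546) (PT.nd (nat_lit 234) (PT.nd (nat_lit 78) (PT.lf (nat_lit 20824) (nat_lit 6) (nat_lit 274) (nat_lit 4) (nat_lit 144) (nat_lit 218) (nat_lit 208)) (PT.nd (nat_lit 78) (PT.lf (nat_lit 21432) (nat_lit 6) (nat_lit 282) (nat_lit 4) (nat_lit 145) (nat_lit 218) (nat_lit 207)) (PT.lf (nat_lit 21964) (nat_lit 6) (nat_lit 289) (nat_lit 4) (nat_lit 146) (nat_lit 218) (nat_lit 206)))) (PT.nd (nat_lit 156) (PT.nd (nat_lit 78) (PT.lf (nat_lit 22572) (nat_lit 6) (nat_lit 297) (nat_lit 4) (nat_lit 147) (nat_lit 218) (nat_lit 205)) (PT.lf (nat_lit 23180) (nat_lit 6) (nat_lit 305) (nat_lit 4) (nat_lit 148) (nat_lit 218) (nat_lit 204))) (PT.nd (nat_lit 78) (PT.lf (nat_lit 23788) (nat_lit 6) (nat_lit 313) (nat_lit 4) (nat_lit 149) (nat_lit 218) (nat_lit 203)) (PT.lf (nat_lit 24396) (nat_lit 6) (nat_lit 321) (nat_lit 4) (nat_lit 150) (nat_lit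 218) (nat_lit 202))))) (PT.nd (nat_lit 3900) (PT.nd (nat_lit 78) (PT.lf (nat_lit 25080) (nat_lit 6) (nat_lit 330) (nat_lit 4) (nat_lit 151) (nat_lit 218) (nat_lit 201)) (PT.nd (nat_lit 3744) (PT.lf (nat_lit 25764) (nat_lit 6) (nat_lit 339) (nat_lit 4) (nat_lit 152) (nat_lit 218) (nat_lit 200)) (PT.lf (nat_lit 25764) (nat_lit 6) (nat_lit 339) (nat_lit 2) (nat_lit 200) (nat_lit 218) (nat_lit 152)))) (PT.nd (nat_lit 156) (PT.nd (nat_lit 78) (PT.lf (nat_lit 25080) (nat_lit 6) (nat_lit 330) (nat_lit 2) (nat_lit 201) (nat_lit 218) (nat_lit 151)) (PT.lf (nat_lit 24396) (nat_lit 6) (nat_lit 321) (nat_lit 2) (nat_lit 202) (nat_lit 218) (nat_lit 150))) (PT.nd (nat_lit 78) (PT.lf (nat_lit 23788) (nat_lit 6) (nat_lit 313) (nat_lit 2) (nat_lit 203) (nat_lit 218) (nat_lit 149)) (PT.lf (nat_lit 23180) (nat_lit 6) (nat_lit 305) (nat_lit 2) (nat_lit 204) (nat_lit 218) (nat_lit 148)))))) (PT.nd (nat_lit 546) (PT.nd (nat_lit 234)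 (PT.nd (nat_lit 78) (PT.lf (nat_lit 22572) (nat_lit 6) (nat_lit 297) (nat_lit 2) (nat_lit 205) (nat_lit 218) (nat_lit 147)) (PT.nd (nat_lit 78) (PT.lf (nat_lit 21964) (nat_lit 6) (nat_lit 289) (nat_lit 2) (nat_lit 206) (nat_lit 218) (nat_lit 146)) (PT.lf (nat_lit 21432) (nat_lit 6) (nat_lit 282) (nat_lit 2) (nat_lit 207) (nat_lit 218) (nat_lit 145)))) (PT.nd (nat_lit 156) (PT.nd (nat_lit 78) (PT.lf (nat_lit 20824) (nat_lit 6) (nat_lit 274) (nat_lit 2) (nat_lit 208) (nat_lit 218) (nat_lit 144)) (PT.lf (nat_lit 20292) (nat_lit 6) (nat_lit 267) (nat_lit 2) (nat_lit 209) (nat_lit 218) (nat_lit 143))) (PT.nd (nat_lit 78) (PT.lf (nat_lit 19760) (nat_lit 6) (nat_lit 260) (nat_lit 2) (nat_lit 210) (nat_lit 218) (nat_lit 142)) (PT.lf (nat_lit 19228) (nat_lit 6) (nat_lit 253) (nat_lit 2) (nat_lit 211) (nat_lit 218) (nat_lit 141))))) (PT.nd (nat_lit 312) (PT.nd (nat_lit 156) (PT.nd (nat_lit 78) (PT.lf (nat_lit 18696) (nat_lit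 6) (nat_lit 246) (nat_lit 2) (nat_lit 212) (nat_lit 218) (nat_lit 140)) (PT.lf (nat_lit 18240) (nat_lit 6) (nat_lit 240) (nat_lit 2) (nat_lit 213) (nat_lit 218) (nat_lit 139))) (PT.nd (nat_lit 78) (PT.lf (nat_lit 17708) (nat_lit 6) (nat_lit 233) (nat_lit 2) (nat_lit 214) (nat_lit 218) (nat_lit 138)) (PT.lf (nat_lit 17252) (nat_lit 6) (nat_lit 227) (nat_lit 2) (nat_lit 215) (nat_lit 218) (nat_lit 137)))) (PT.nd (nat_lit 156) (PT.nd (nat_lit 78) (PT.lf (nat_lit 16796) (nat_lit 6) (nat_lit 221) (nat_lit 2) (nat_lit 216) (nat_lit 218) (nat_lit 136)) (PT.lf (nat_lit 16340) (nat_lit 6) (nat_lit 215) (nat_lit 2) (nat_lit 217) (nat_lit 218) (nat_lit 135))) (PT.nd (nat_lit 78) (PT.lf (nat_lit 15884) (nat_lit 3) (nat_lit 209) (nat_lit 0) (nat_lit 218) (nat_lit 218) (nat_lit 134)) (PT.lf (nat_lit 15428) (nat_lit 6) (nat_lit 203) (nat_lit 0) (nat_lit 219) (nat_lit 218) (nat_lit 133))))))) (PT.nd (nat_lit 52650) (PT.nd (nat_lit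 52026) (PT.nd (nat_lit 390) (PT.nd (nat_lit 78) (PT.lf (nat_lit 14896) (nat_lit 6) (nat_lit 196) (nat_lit 0) (nat_lit 220) (nat_lit 218) (nat_lit 132)) (PT.nd (nat_lit 78) (PT.lf (nat_lit 14440) (nat_lit 6) (nat_lit 190) (nat_lit 0) (nat_lit 221) (nat_lit 218) (nat_lit 131)) (PT.lf (nat_lit 13984) (nat_lit 6) (nat_lit 184) (nat_lit 0) (nat_lit 222) (nat_lit 218) (nat_lit 130)))) (PT.nd (nat_lit 51480) (PT.nd (nat_lit 78) (PT.lf (nat_lit 12692) (nat_lit 6) (nat_lit 167) (nat_lit 0) (nat_lit 225) (nat_lit 218) (nat_lit 127)) (PT.lf (nat_lit 12236) (nat_lit 6) (nat_lit 161) (nat_lit 0) (nat_lit 226) (nat_lit 218) (nat_lit 126))) (PT.nd (nat_lit 78) (PT.lf (nat_lit 11476) (nat_lit 6) (nat_lit 151) (nat_lit 5) (nat_lit 124) (nat_lit 219) (nat_lit 227)) (PT.lf (nat_lit 11932) (nat_lit 6) (nat_lit 157) (nat_lit 5) (nat_lit 125) (nat_lit 219) (nat_lit 226))))) (PT.nd (nat_lit 312) (PT.nd (nat_lit 156) (PT.lf (nat_lit 12312)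 (nat_lit 6) (nat_lit 162) (nat_lit 5) (nat_lit 126) (nat_lit 219) (nat_lit 225)) (PT.nd (nat_lit 78) (PT.lf (nat_lit 13148) (nat_lit 6) (nat_lit 173) (nat_lit 5) (nat_lit 128) (nat_lit 219) (nat_lit 223)) (PT.lf (nat_lit 13604) (nat_lit 6) (nat_lit 179) (nat_lit 5) (nat_lit 129) (nat_lit 219) (nat_lit 222)))) (PT.nd (nat_lit 156) (PT.nd (nat_lit 78) (PT.lf (nat_lit 14060) (nat_lit 6) (nat_lit 185) (nat_lit 5) (nat_lit 130) (nat_lit 219) (nat_lit 221)) (PT.lf (nat_lit 14516) (nat_lit 6) (nat_lit 191) (nat_lit 5) (nat_lit 131) (nat_lit 219) (nat_lit 220))) (PT.nd (nat_lit 78) (PT.lf (nat_lit 14972) (nat_lit 3) (nat_lit 197) (nat_lit 4) (nat_lit 132) (nat_lit 219) (nat_lit 219)) (PT.lf (nat_lit 15428) (nat_lit 6) (nat_lit 203) (nat_lit 4) (nat_lit 133) (nat_lit 219) (nat_lit 218)))))) (PT.nd (nat_lit 546) (PT.nd (nat_lit 234) (PT.nd (nat_lit 78) (PT.lf (nat_lit 15808) (nat_lit 6) (nat_lit 208) (nat_lit 4) (nat_lit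 134) (nat_lit 219) (nat_lit 217)) (PT.nd (nat_lit 78) (PT.lf (nat_lit 16264) (nat_lit 6) (nat_lit 214) (nat_lit 4) (nat_lit 135) (nat_lit 219) (nat_lit 216)) (PT.lf (nat_lit 16720) (nat_lit 6) (nat_lit 220) (nat_lit 4) (nat_lit 136) (nat_lit 219) (nat_lit 215)))) (PT.nd (nat_lit 156) (PT.nd (nat_lit 78) (PT.lf (nat_lit 17176) (nat_lit 6) (nat_lit 226) (nat_lit 4) (nat_lit 137) (nat_lit 219) (nat_lit 214)) (PT.lf (nat_lit 17632) (nat_lit 6) (nat_lit 232) (nat_lit 4) (nat_lit 138) (nat_lit 219) (nat_lit 213))) (PT.nd (nat_lit 78) (PT.lf (nat_lit 18164) (nat_lit 6) (nat_lit 239) (nat_lit 4) (nat_lit 139) (nat_lit 219) (nat_lit 212)) (PT.lf (nat_lit 18620) (nat_lit 6) (nat_lit 245) (nat_lit 4) (nat_lit 140) (nat_lit 219) (nat_lit 211))))) (PT.nd (nat_lit 312) (PT.nd (nat_lit 156) (PT.nd (nat_lit 78) (PT.lf (nat_lit 19152) (nat_lit 6) (nat_lit 252) (nat_lit 4) (nat_lit 141) (nat_lit 219) (nat_lit 210)) (PT.lf (nat_lit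 19684) (nat_lit 6) (nat_lit 259) (nat_lit 4) (nat_lit 142) (nat_lit 219) (nat_lit 209))) (PT.nd (nat_lit 78) (PT.lf (nat_lit 20216) (nat_lit 6) (nat_lit 266) (nat_lit 4) (nat_lit 143) (nat_lit 219) (nat_lit 208)) (PT.lf (nat_lit 20748) (nat_lit 6) (nat_lit 273) (nat_lit 4) (nat_lit 144) (nat_lit 219) (nat_lit 207)))) (PT.nd (nat_lit 156) (PT.nd (nat_lit 78) (PT.lf (nat_lit 21356) (nat_lit 6) (nat_lit 281) (nat_lit 4) (nat_lit 145) (nat_lit 219) (nat_lit 206)) (PT.lf (nat_lit 21888) (nat_lit 6) (nat_lit 288) (nat_lit 4) (nat_lit 146) (nat_lit 219) (nat_lit 205))) (PT.nd (nat_lit 78) (PT.lf (nat_lit 22496) (nat_lit 6) (nat_lit 296) (nat_lit 4) (nat_lit 147) (nat_lit 219) (nat_lit 204)) (PT.lf (nat_lit 23104) (nat_lit 6) (nat_lit 304) (nat_lit 4) (nat_lit 148) (nat_lit 219) (nat_lit 203))))))))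
noncomputable def pc61 : PT := (PT.nd (nat_lit 53664) (PT.nd (nat_lit 1092) (PT.nd (nat_lit 546) (PT.nd (nat_lit 234) (PT.nd (nat_lit 78) (PT.lf (nat_lit 23104) (nat_lit 6) (nat_lit 304) (nat_lit 2) (nat_lit 203) (nat_lit 219) (nat_lit 148)) (PT.nd (nat_lit 78) (PT.lf (nat_lit 22496) (nat_lit 6) (nat_lit 296) (nat_lit 2) (nat_lit 204) (nat_lit 219) (nat_lit 147)) (PT.lf (nat_lit 21888) (nat_lit 6) (nat_lit 288) (nat_lit 2) (nat_lit 205) (nat_lit 219) (nat_lit 146)))) (PT.nd (nat_lit 156) (PT.nd (nat_lit 78) (PT.lf (nat_lit 21356) (nat_lit 6) (nat_lit 281) (nat_lit 2) (nat_lit 206) (nat_lit 219) (nat_lit 145)) (PT.lf (nat_lit 20748) (nat_lit 6) (nat_lit 273) (nat_lit 2) (nat_lit 207) (nat_lit 219) (nat_lit 144))) (PT.nd (nat_lit 78) (PT.lf (nat_lit 20216) (nat_lit 6) (nat_lit 266) (nat_lit 2) (nat_lit 208) (nat_lit 219) (nat_lit 143)) (PT.lf (nat_lit 19684) (nat_lit 6) (nat_lit 259) (nat_lit 2) (nat_lit 209) (nat_lit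 219) (nat_lit 142))))) (PT.nd (nat_lit 234) (PT.nd (nat_lit 78) (PT.lf (nat_lit 19152) (nat_lit 6) (nat_lit 252) (nat_lit 2) (nat_lit 210) (nat_lit 219) (nat_lit 141)) (PT.nd (nat_lit 78) (PT.lf (nat_lit 18620) (nat_lit 6) (nat_lit 245) (nat_lit 2) (nat_lit 211) (nat_lit 219) (nat_lit 140)) (PT.lf (nat_lit 18164) (nat_lit 6) (nat_lit 239) (nat_lit 2) (nat_lit 212) (nat_lit 219) (nat_lit 139)))) (PT.nd (nat_lit 156) (PT.nd (nat_lit 78) (PT.lf (nat_lit 17632) (nat_lit 6) (nat_lit 232) (nat_lit 2) (nat_lit 213) (nat_lit 219) (nat_lit 138)) (PT.lf (nat_lit 17176) (nat_lit 6) (nat_lit 226) (nat_lit 2) (nat_lit 214) (nat_lit 219) (nat_lit 137))) (PT.nd (nat_lit 78) (PT.lf (nat_lit 16720) (nat_lit 6) (nat_lit 220) (nat_lit 2) (nat_lit 215) (nat_lit 219) (nat_lit 136)) (PT.lf (nat_lit 16264) (nat_lit 6) (nat_lit 214) (nat_lit 2) (nat_lit 216) (nat_lit 219) (nat_lit 135)))))) (PT.nd (nat_lit 624) (PT.nd (nat_lit 234) (PT.nd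 (nat_lit 78) (PT.lf (nat_lit 15808) (nat_lit 6) (nat_lit 208) (nat_lit 2) (nat_lit 217) (nat_lit 219) (nat_lit 134)) (PT.nd (nat_lit 78) (PT.lf (nat_lit 15428) (nat_lit 6) (nat_lit 203) (nat_lit 2) (nat_lit 218) (nat_lit 219) (nat_lit 133)) (PT.lf (nat_lit 14972) (nat_lit 3) (nat_lit 197) (nat_lit 0) (nat_lit 219) (nat_lit 219) (nat_lit 132)))) (PT.nd (nat_lit 156) (PT.nd (nat_lit 78) (PT.lf (nat_lit 14516) (nat_lit 6) (nat_lit 191) (nat_lit 0) (nat_lit 220) (nat_lit 219) (nat_lit 131)) (PT.lf (nat_lit 14060) (nat_lit 6) (nat_lit 185) (nat_lit 0) (nat_lit 221) (nat_lit 219) (nat_lit 130))) (PT.nd (nat_lit 78) (PT.lf (nat_lit 13604) (nat_lit 6) (nat_lit 179) (nat_lit 0) (nat_lit 222) (nat_lit 219) (nat_lit 129)) (PT.lf (nat_lit 13148) (nat_lit 6) (nat_lit 173) (nat_lit 0) (nat_lit 223) (nat_lit 219) (nat_lit 128))))) (PT.nd (nat_lit 51480) (PT.nd (nat_lit 156) (PT.nd (nat_lit 78) (PT.lf (nat_lit 12312) (nat_lit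 6) (nat_lit 162) (nat_lit 0) (nat_lit 225) (nat_lit 219) (nat_lit 126)) (PT.lf (nat_lit 11932) (nat_lit 6) (nat_lit 157) (nat_lit 0) (nat_lit 226) (nat_lit 219) (nat_lit 125))) (PT.nd (nat_lit 51246) (PT.lf (nat_lit 11476) (nat_lit 6) (nat_lit 151) (nat_lit 0) (nat_lit 227) (nat_lit 219) (nat_lit 124)) (PT.lf (nat_lit 11172) (nat_lit 6) (nat_lit 147) (nat_lit 5) (nat_lit 123) (nat_lit 220) (nat_lit 227)))) (PT.nd (nat_lit 312) (PT.nd (nat_lit 234) (PT.lf (nat_lit 11552) (nat_lit 6) (nat_lit 152) (nat_lit 5) (nat_lit 124) (nat_lit 220) (nat_lit 226)) (PT.lf (nat_lit 12844) (nat_lit 6) (nat_lit 169) (nat_lit 5) (nat_lit 127) (nat_lit 220) (nat_lit 223))) (PT.nd (nat_lit 78) (PT.lf (nat_lit 13224) (nat_lit 6) (nat_lit 174) (nat_lit 5) (nat_lit 128) (nat_lit 220) (nat_lit 222)) (PT.lf (nat_lit 13680) (nat_lit 6) (nat_lit 180) (nat_lit 5) (nat_lit 129) (nat_lit 220) (nat_lit 221))))))) (PT.nd (nat_lit 1170) (PT.nd (nat_lit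 546) (PT.nd (nat_lit 234) (PT.nd (nat_lit 78) (PT.lf (nat_lit 14136) (nat_lit 3) (nat_lit 186) (nat_lit 4) (nat_lit 130) (nat_lit 220) (nat_lit 220)) (PT.nd (nat_lit 78) (PT.lf (nat_lit 14516) (nat_lit 6) (nat_lit 191) (nat_lit 4) (nat_lit 131) (nat_lit 220) (nat_lit 219)) (PT.lf (nat_lit 14896) (nat_lit 6) (nat_lit 196) (nat_lit 4) (nat_lit 132) (nat_lit 220) (nat_lit 218)))) (PT.nd (nat_lit 156) (PT.nd (nat_lit 78) (PT.lf (nat_lit 15352) (nat_lit 6) (nat_lit 202) (nat_lit 4) (nat_lit 133) (nat_lit 220) (nat_lit 217)) (PT.lf (nat_lit 15732) (nat_lit 6) (nat_lit 207) (nat_lit 4) (nat_lit 134) (nat_lit 220) (nat_lit 216))) (PT.nd (nat_lit 78) (PT.lf (nat_lit 16188) (nat_lit 6) (nat_lit 213) (nat_lit 4) (nat_lit 135) (nat_lit 220) (nat_lit 215)) (PT.lf (nat_lit 16644) (nat_lit 6) (nat_lit 219) (nat_lit 4) (nat_lit 136) (nat_lit 220) (nat_lit 214))))) (PT.nd (nat_lit 312) (PT.nd (nat_lit 156) (PT.nd (nat_lit 78) (PT.lf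 (nat_lit 17100) (nat_lit 6) (nat_lit 225) (nat_lit 4) (nat_lit 137) (nat_lit 220) (nat_lit 213)) (PT.lf (nat_lit 17556) (nat_lit 6) (nat_lit 231) (nat_lit 4) (nat_lit 138) (nat_lit 220) (nat_lit 212))) (PT.nd (nat_lit 78) (PT.lf (nat_lit 18088) (nat_lit 6) (nat_lit 238) (nat_lit 4) (nat_lit 139) (nat_lit 220) (nat_lit 211)) (PT.lf (nat_lit 18544) (nat_lit 6) (nat_lit 244) (nat_lit 4) (nat_lit 140) (nat_lit 220) (nat_lit 210)))) (PT.nd (nat_lit 156) (PT.nd (nat_lit 78) (PT.lf (nat_lit 19076) (nat_lit 6) (nat_lit 251) (nat_lit 4) (nat_lit 141) (nat_lit 220) (nat_lit 209)) (PT.lf (nat_lit 19608) (nat_lit 6) (nat_lit 258) (nat_lit 4) (nat_lit 142) (nat_lit 220) (nat_lit 208))) (PT.nd (nat_lit 78) (PT.lf (nat_lit 20140) (nat_lit 6) (nat_lit 265) (nat_lit 4) (nat_lit 143) (nat_lit 220) (nat_lit 207)) (PT.lf (nat_lit 20672) (nat_lit 6) (nat_lit 272) (nat_lit 4) (nat_lit 144) (nat_lit 220) (nat_lit 206)))))) (PT.nd (nat_lit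 5148) (PT.nd (nat_lit 4836) (PT.nd (nat_lit 4680) (PT.lf (nat_lit 21280) (nat_lit 6) (nat_lit 280) (nat_lit 4) (nat_lit 145) (nat_lit 220) (nat_lit 205)) (PT.nd (nat_lit 78) (PT.lf (nat_lit 21280) (nat_lit 6) (nat_lit 280) (nat_lit 2) (nat_lit 205) (nat_lit 220) (nat_lit 145)) (PT.lf (nat_lit 20672) (nat_lit 6) (nat_lit 272) (nat_lit 2) (nat_lit 206) (nat_lit 220) (nat_lit 144)))) (PT.nd (nat_lit 156) (PT.nd (nat_lit 78) (PT.lf (nat_lit 20140) (nat_lit 6) (nat_lit 265) (nat_lit 2) (nat_lit 207) (nat_lit 220) (nat_lit 143)) (PT.lf (nat_lit 19608) (nat_lit 6) (nat_lit 258) (nat_lit 2) (nat_lit 208) (nat_lit 220) (nat_lit 142))) (PT.nd (nat_lit 78) (PT.lf (nat_lit 19076) (nat_lit 6) (nat_lit 251) (nat_lit 2) (nat_lit 209) (nat_lit 220) (nat_lit 141)) (PT.lf (nat_lit 18544) (nat_lit 6) (nat_lit 244) (nat_lit 2) (nat_lit 210) (nat_lit 220) (nat_lit 140))))) (PT.nd (nat_lit 312) (PT.nd (nat_lit 156) (PT.nd (nat_lit 78)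 (PT.lf (nat_lit 18088) (nat_lit 6) (nat_lit 238) (nat_lit 2) (nat_lit 211) (nat_lit 220) (nat_lit 139)) (PT.lf (nat_lit 17556) (nat_lit 6) (nat_lit 231) (nat_lit 2) (nat_lit 212) (nat_lit 220) (nat_lit 138))) (PT.nd (nat_lit 78) (PT.lf (nat_lit 17100) (nat_lit 6) (nat_lit 225) (nat_lit 2) (nat_lit 213) (nat_lit 220) (nat_lit 137)) (PT.lf (nat_lit 16644) (nat_lit 6) (nat_lit 219) (nat_lit 2) (nat_lit 214) (nat_lit 220) (nat_lit 136)))) (PT.nd (nat_lit 156) (PT.nd (nat_lit 78) (PT.lf (nat_lit 16188) (nat_lit 6) (nat_lit 213) (nat_lit 2) (nat_lit 215) (nat_lit 220) (nat_lit 135)) (PT.lf (nat_lit 15732) (nat_lit 6) (nat_lit 207) (nat_lit 2) (nat_lit 216) (nat_lit 220) (nat_lit 134))) (PT.nd (nat_lit 78) (PT.lf (nat_lit 15352) (nat_lit 6) (nat_lit 202) (nat_lit 2) (nat_lit 217) (nat_lit 220) (nat_lit 133)) (PT.lf (nat_lit 14896) (nat_lit 6) (nat_lit 196) (nat_lit 2) (nat_lit 218) (nat_lit 220) (nat_lit 132))))))))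
noncomputable def pc62 : PT := (PT.nd (nat_lit 58968) (PT.nd (nat_lit 52650) (PT.nd (nat_lit 52104) (PT.nd (nat_lit 234) (PT.nd (nat_lit 78) (PT.lf (nat_lit 14516) (nat_lit 6) (nat_lit 191) (nat_lit 2) (nat_lit 219) (nat_lit 220) (nat_lit 131)) (PT.nd (nat_lit 78) (PT.lf (nat_lit 14136) (nat_lit 3) (nat_lit 186) (nat_lit 0) (nat_lit 220) (nat_lit 220) (nat_lit 130)) (PT.lf (nat_lit 13680) (nat_lit 6) (nat_lit 180) (nat_lit 0) (nat_lit 221) (nat_lit 220) (nat_lit 129)))) (PT.nd (nat_lit 312) (PT.nd (nat_lit 78) (PT.lf (nat_lit 13224) (nat_lit 6) (nat_lit 174) (nat_lit 0) (nat_lit 222) (nat_lit 220) (nat_lit 128)) (PT.lf (nat_lit 12844) (nat_lit 6) (nat_lit 169) (nat_lit 0) (nat_lit 223) (nat_lit 220) (nat_lit 127))) (PT.nd (nat_lit 78) (PT.lf (nat_lit 11552) (nat_lit 6) (nat_lit 152) (nat_lit 0) (nat_lit 226) (nat_lit 220) (nat_lit 124)) (PT.lf (nat_lit 11172) (nat_lit 6) (nat_lit 147) (nat_lit 0) (nat_lit 227)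 (nat_lit 220) (nat_lit 123))))) (PT.nd (nat_lit 234) (PT.nd (nat_lit 78) (PT.lf (nat_lit 12464) (nat_lit 6) (nat_lit 164) (nat_lit 5) (nat_lit 126) (nat_lit 221) (nat_lit 223)) (PT.nd (nat_lit 78) (PT.lf (nat_lit 12920) (nat_lit 6) (nat_lit 170) (nat_lit 5) (nat_lit 127) (nat_lit 221) (nat_lit 222)) (PT.lf (nat_lit 13300) (nat_lit 3) (nat_lit 175) (nat_lit 4) (nat_lit 128) (nat_lit 221) (nat_lit 221)))) (PT.nd (nat_lit 156) (PT.nd (nat_lit 78) (PT.lf (nat_lit 13680) (nat_lit 6) (nat_lit 180) (nat_lit 4) (nat_lit 129) (nat_lit 221) (nat_lit 220)) (PT.lf (nat_lit 14060) (nat_lit 6) (nat_lit 185) (nat_lit 4) (nat_lit 130) (nat_lit 221) (nat_lit 219))) (PT.nd (nat_lit 78) (PT.lf (nat_lit 14440) (nat_lit 6) (nat_lit 190) (nat_lit 4) (nat_lit 131) (nat_lit 221) (nat_lit 218)) (PT.lf (nat_lit 14820) (nat_lit 6) (nat_lit 195) (nat_lit 4) (nat_lit 132) (nat_lit 221) (nat_lit 217)))))) (PT.nd (nat_lit 624) (PT.nd (nat_lit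 312) (PT.nd (nat_lit 78) (PT.lf (nat_lit 15276) (nat_lit 6) (nat_lit 201) (nat_lit 4) (nat_lit 133) (nat_lit 221) (nat_lit 216)) (PT.nd (nat_lit 78) (PT.lf (nat_lit 15656) (nat_lit 6) (nat_lit 206) (nat_lit 4) (nat_lit 134) (nat_lit 221) (nat_lit 215)) (PT.lf (nat_lit 16112) (nat_lit 6) (nat_lit 212) (nat_lit 4) (nat_lit 135) (nat_lit 221) (nat_lit 214)))) (PT.nd (nat_lit 156) (PT.nd (nat_lit 78) (PT.lf (nat_lit 17024) (nat_lit 6) (nat_lit 224) (nat_lit 4) (nat_lit 137) (nat_lit 221) (nat_lit 212)) (PT.lf (nat_lit 17480) (nat_lit 6) (nat_lit 230) (nat_lit 4) (nat_lit 138) (nat_lit 221) (nat_lit 211))) (PT.nd (nat_lit 78) (PT.lf (nat_lit 18012) (nat_lit 6) (nat_lit 237) (nat_lit 4) (nat_lit 139) (nat_lit 221) (nat_lit 210)) (PT.lf (nat_lit 18468) (nat_lit 6) (nat_lit 243) (nat_lit 4) (nat_lit 140) (nat_lit 221) (nat_lit 209))))) (PT.nd (nat_lit 5304) (PT.nd (nat_lit 5148) (PT.nd (nat_lit 78) (PT.lf (nat_lit 19000)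 (nat_lit 6) (nat_lit 250) (nat_lit 4) (nat_lit 141) (nat_lit 221) (nat_lit 208)) (PT.lf (nat_lit 19532) (nat_lit 6) (nat_lit 257) (nat_lit 4) (nat_lit 142) (nat_lit 221) (nat_lit 207))) (PT.nd (nat_lit 78) (PT.lf (nat_lit 19532) (nat_lit 6) (nat_lit 257) (nat_lit 2) (nat_lit 207) (nat_lit 221) (nat_lit 142)) (PT.lf (nat_lit 19000) (nat_lit 6) (nat_lit 250) (nat_lit 2) (nat_lit 208) (nat_lit 221) (nat_lit 141)))) (PT.nd (nat_lit 156) (PT.nd (nat_lit 78) (PT.lf (nat_lit 18468) (nat_lit 6) (nat_lit 243) (nat_lit 2) (nat_lit 209) (nat_lit 221) (nat_lit 140)) (PT.lf (nat_lit 18012) (nat_lit 6) (nat_lit 237) (nat_lit 2) (nat_lit 210) (nat_lit 221) (nat_lit 139))) (PT.nd (nat_lit 78) (PT.lf (nat_lit 17480) (nat_lit 6) (nat_lit 230) (nat_lit 2) (nat_lit 211) (nat_lit 221) (nat_lit 138)) (PT.lf (nat_lit 17024) (nat_lit 6) (nat_lit 224) (nat_lit 2) (nat_lit 212) (nat_lit 221) (nat_lit 137))))))) (PT.nd (nat_lit 52728) (PT.nd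 (nat_lit 546) (PT.nd (nat_lit 234) (PT.nd (nat_lit 78) (PT.lf (nat_lit 16112) (nat_lit 6) (nat_lit 212) (nat_lit 2) (nat_lit 214) (nat_lit 221) (nat_lit 135)) (PT.nd (nat_lit 78) (PT.lf (nat_lit 15656) (nat_lit 6) (nat_lit 206) (nat_lit 2) (nat_lit 215) (nat_lit 221) (nat_lit 134)) (PT.lf (nat_lit 15276) (nat_lit 6) (nat_lit 201) (nat_lit 2) (nat_lit 216) (nat_lit 221) (nat_lit 133)))) (PT.nd (nat_lit 156) (PT.nd (nat_lit 78) (PT.lf (nat_lit 14820) (nat_lit 6) (nat_lit 195) (nat_lit 2) (nat_lit 217) (nat_lit 221) (nat_lit 132)) (PT.lf (nat_lit 14440) (nat_lit 6) (nat_lit 190) (nat_lit 2) (nat_lit 218) (nat_lit 221) (nat_lit 131))) (PT.nd (nat_lit 78) (PT.lf (nat_lit 14060) (nat_lit 6) (nat_lit 185) (nat_lit 2) (nat_lit 219) (nat_lit 221) (nat_lit 130)) (PT.lf (nat_lit 13680) (nat_lit 6) (nat_lit 180) (nat_lit 2) (nat_lit 220) (nat_lit 221) (nat_lit 129))))) (PT.nd (nat_lit 51870) (PT.nd (nat_lit 78) (PT.lf (nat_lit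 13300) (nat_lit 3) (nat_lit 175) (nat_lit 0) (nat_lit 221) (nat_lit 221) (nat_lit 128)) (PT.nd (nat_lit 78) (PT.lf (nat_lit 12920) (nat_lit 6) (nat_lit 170) (nat_lit 0) (nat_lit 222) (nat_lit 221) (nat_lit 127)) (PT.lf (nat_lit 12464) (nat_lit 6) (nat_lit 164) (nat_lit 0) (nat_lit 223) (nat_lit 221) (nat_lit 126)))) (PT.nd (nat_lit 156) (PT.nd (nat_lit 78) (PT.lf (nat_lit 12160) (nat_lit 6) (nat_lit 160) (nat_lit 5) (nat_lit 125) (nat_lit 222) (nat_lit 223)) (PT.lf (nat_lit 12540) (nat_lit 3) (nat_lit 165) (nat_lit 4) (nat_lit 126) (nat_lit 222) (nat_lit 222))) (PT.nd (nat_lit 78) (PT.lf (nat_lit 12920) (nat_lit 6) (nat_lit 170) (nat_lit 4) (nat_lit 127) (nat_lit 222) (nat_lit 221)) (PT.lf (nat_lit 13224) (nat_lit 6) (nat_lit 174) (nat_lit 4) (nat_lit 128) (nat_lit 222) (nat_lit 220)))))) (PT.nd (nat_lit 702) (PT.nd (nat_lit 390) (PT.nd (nat_lit 78) (PT.lf (nat_lit 13604) (nat_lit 6) (nat_lit 179) (nat_lit 4) (nat_lit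 129) (nat_lit 222) (nat_lit 219)) (PT.nd (nat_lit 78) (PT.lf (nat_lit 13984) (nat_lit 6) (nat_lit 184) (nat_lit 4) (nat_lit 130) (nat_lit 222) (nat_lit 218)) (PT.lf (nat_lit 14364) (nat_lit 6) (nat_lit 189) (nat_lit 4) (nat_lit 131) (nat_lit 222) (nat_lit 217)))) (PT.nd (nat_lit 156) (PT.nd (nat_lit 78) (PT.lf (nat_lit 15580) (nat_lit 6) (nat_lit 205) (nat_lit 4) (nat_lit 134) (nat_lit 222) (nat_lit 214)) (PT.lf (nat_lit 16036) (nat_lit 6) (nat_lit 211) (nat_lit 4) (nat_lit 135) (nat_lit 222) (nat_lit 213))) (PT.nd (nat_lit 78) (PT.lf (nat_lit 16492) (nat_lit 6) (nat_lit 217) (nat_lit 4) (nat_lit 136) (nat_lit 222) (nat_lit 212)) (PT.lf (nat_lit 16948) (nat_lit 6) (nat_lit 223) (nat_lit 4) (nat_lit 137) (nat_lit 222) (nat_lit 211))))) (PT.nd (nat_lit 5694) (PT.nd (nat_lit 5538) (PT.nd (nat_lit 78) (PT.lf (nat_lit 17404) (nat_lit 6) (nat_lit 229) (nat_lit 4) (nat_lit 138) (nat_lit 222) (nat_lit 210)) (PT.lf (nat_lit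 17936) (nat_lit 6) (nat_lit 236) (nat_lit 4) (nat_lit 139) (nat_lit 222) (nat_lit 209))) (PT.nd (nat_lit 78) (PT.lf (nat_lit 17936) (nat_lit 6) (nat_lit 236) (nat_lit 2) (nat_lit 209) (nat_lit 222) (nat_lit 139)) (PT.lf (nat_lit 17404) (nat_lit 6) (nat_lit 229) (nat_lit 2) (nat_lit 210) (nat_lit 222) (nat_lit 138)))) (PT.nd (nat_lit 156) (PT.nd (nat_lit 78) (PT.lf (nat_lit 16948) (nat_lit 6) (nat_lit 223) (nat_lit 2) (nat_lit 211) (nat_lit 222) (nat_lit 137)) (PT.lf (nat_lit 16492) (nat_lit 6) (nat_lit 217) (nat_lit 2) (nat_lit 212) (nat_lit 222) (nat_lit 136))) (PT.nd (nat_lit 78) (PT.lf (nat_lit 16036) (nat_lit 6) (nat_lit 211) (nat_lit 2) (nat_lit 213) (nat_lit 222) (nat_lit 135)) (PT.lf (nat_lit 15580) (nat_lit 6) (nat_lit 205) (nat_lit 2) (nat_lit 214) (nat_lit 222) (nat_lit 134))))))))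
noncomputable def pc63 : PT := (PT.nd (nat_lit 112008) (PT.nd (nat_lit 52884) (PT.nd (nat_lit 52182) (PT.nd (nat_lit 234) (PT.nd (nat_lit 78) (PT.lf (nat_lit 14364) (nat_lit 6) (nat_lit 189) (nat_lit 2) (nat_lit 217) (nat_lit 222) (nat_lit 131)) (PT.nd (nat_lit 78) (PT.lf (nat_lit 13984) (nat_lit 6) (nat_lit 184) (nat_lit 2) (nat_lit 218) (nat_lit 222) (nat_lit 130)) (PT.lf (nat_lit 13604) (nat_lit 6) (nat_lit 179) (nat_lit 2) (nat_lit 219) (nat_lit 222) (nat_lit 129)))) (PT.nd (nat_lit 156) (PT.nd (nat_lit 78) (PT.lf (nat_lit 13224) (nat_lit 6) (nat_lit 174) (nat_lit 2) (nat_lit 220) (nat_lit 222) (nat_lit 128)) (PT.lf (nat_lit 12920) (nat_lit 6) (nat_lit 170) (nat_lit 2) (nat_lit 221) (nat_lit 222) (nat_lit 127))) (PT.nd (nat_lit 78) (PT.lf (nat_lit 12540) (nat_lit 3) (nat_lit 165) (nat_lit 0) (nat_lit 222) (nat_lit 222) (nat_lit 126)) (PT.lf (nat_lit 12160) (nat_lit 6) (nat_lit 160) (nat_lit 0) (nat_lit 223)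 (nat_lit 222) (nat_lit 125))))) (PT.nd (nat_lit 234) (PT.nd (nat_lit 78) (PT.lf (nat_lit 12160) (nat_lit 6) (nat_lit 160) (nat_lit 4) (nat_lit 125) (nat_lit 223) (nat_lit 222)) (PT.nd (nat_lit 78) (PT.lf (nat_lit 12464) (nat_lit 6) (nat_lit 164) (nat_lit 4) (nat_lit 126) (nat_lit 223) (nat_lit 221)) (PT.lf (nat_lit 12844) (nat_lit 6) (nat_lit 169) (nat_lit 4) (nat_lit 127) (nat_lit 223) (nat_lit 220)))) (PT.nd (nat_lit 312) (PT.nd (nat_lit 234) (PT.lf (nat_lit 13148) (nat_lit 6) (nat_lit 173) (nat_lit 4) (nat_lit 128) (nat_lit 223) (nat_lit 219)) (PT.lf (nat_lit 14288) (nat_lit 6) (nat_lit 188) (nat_lit 4) (nat_lit 131) (nat_lit 223) (nat_lit 216))) (PT.nd (nat_lit 78) (PT.lf (nat_lit 14668) (nat_lit 6) (nat_lit 193) (nat_lit 4) (nat_lit 132) (nat_lit 223) (nat_lit 215)) (PT.lf (nat_lit 15124) (nat_lit 6) (nat_lit 199) (nat_lit 4) (nat_lit 133) (nat_lit 223) (nat_lit 214)))))) (PT.nd (nat_lit 6318) (PT.nd (nat_lit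 6006) (PT.nd (nat_lit 78) (PT.lf (nat_lit 15504) (nat_lit 6) (nat_lit 204) (nat_lit 4) (nat_lit 134) (nat_lit 223) (nat_lit 213)) (PT.nd (nat_lit 78) (PT.lf (nat_lit 15960) (nat_lit 6) (nat_lit 210) (nat_lit 4) (nat_lit 135) (nat_lit 223) (nat_lit 212)) (PT.lf (nat_lit 16416) (nat_lit 6) (nat_lit 216) (nat_lit 4) (nat_lit 136) (nat_lit 223) (nat_lit 211)))) (PT.nd (nat_lit 156) (PT.nd (nat_lit 78) (PT.lf (nat_lit 16416) (nat_lit 6) (nat_lit 216) (nat_lit 2) (nat_lit 211) (nat_lit 223) (nat_lit 136)) (PT.lf (nat_lit 15960) (nat_lit 6) (nat_lit 210) (nat_lit 2) (nat_lit 212) (nat_lit 223) (nat_lit 135))) (PT.nd (nat_lit 78) (PT.lf (nat_lit 15504) (nat_lit 6) (nat_lit 204) (nat_lit 2) (nat_lit 213) (nat_lit 223) (nat_lit 134)) (PT.lf (nat_lit 15124) (nat_lit 6) (nat_lit 199) (nat_lit 2) (nat_lit 214) (nat_lit 223) (nat_lit 133))))) (PT.nd (nat_lit 468) (PT.nd (nat_lit 312) (PT.nd (nat_lit 78) (PT.lf (nat_lit 14668)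 (nat_lit 6) (nat_lit 193) (nat_lit 2) (nat_lit 215) (nat_lit 223) (nat_lit 132)) (PT.lf (nat_lit 14288) (nat_lit 6) (nat_lit 188) (nat_lit 2) (nat_lit 216) (nat_lit 223) (nat_lit 131))) (PT.nd (nat_lit 78) (PT.lf (nat_lit 13148) (nat_lit 6) (nat_lit 173) (nat_lit 2) (nat_lit 219) (nat_lit 223) (nat_lit 128)) (PT.lf (nat_lit 12844) (nat_lit 6) (nat_lit 169) (nat_lit 2) (nat_lit 220) (nat_lit 223) (nat_lit 127)))) (PT.nd (nat_lit 52182) (PT.nd (nat_lit 78) (PT.lf (nat_lit 12464) (nat_lit 6) (nat_lit 164) (nat_lit 2) (nat_lit 221) (nat_lit 223) (nat_lit 126)) (PT.lf (nat_lit 12160) (nat_lit 6) (nat_lit 160) (nat_lit 2) (nat_lit 222) (nat_lit 223) (nat_lit 125))) (PT.nd (nat_lit 78) (PT.lf (nat_lit 13452) (nat_lit 6) (nat_lit 177) (nat_lit 4) (nat_lit 129) (nat_lit 224) (nat_lit 217)) (PT.lf (nat_lit 13832) (nat_lit 6) (nat_lit 182) (nat_lit 4) (nat_lit 130) (nat_lit 224) (nat_lit 216))))))) (PT.nd (nat_lit 66066)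 (PT.nd (nat_lit 6708) (PT.nd (nat_lit 6396) (PT.nd (nat_lit 78) (PT.lf (nat_lit 14212) (nat_lit 6) (nat_lit 187) (nat_lit 4) (nat_lit 131) (nat_lit 224) (nat_lit 215)) (PT.nd (nat_lit 78) (PT.lf (nat_lit 14592) (nat_lit 6) (nat_lit 192) (nat_lit 4) (nat_lit 132) (nat_lit 224) (nat_lit 214)) (PT.lf (nat_lit 15048) (nat_lit 6) (nat_lit 198) (nat_lit 4) (nat_lit 133) (nat_lit 224) (nat_lit 213)))) (PT.nd (nat_lit 156) (PT.nd (nat_lit 78) (PT.lf (nat_lit 15048) (nat_lit 6) (nat_lit 198) (nat_lit 2) (nat_lit 213) (nat_lit 224) (nat_lit 133)) (PT.lf (nat_lit 14592) (nat_lit 6) (nat_lit 192) (nat_lit 2) (nat_lit 214) (nat_lit 224) (nat_lit 132))) (PT.nd (nat_lit 78) (PT.lf (nat_lit 14212) (nat_lit 6) (nat_lit 187) (nat_lit 2) (nat_lit 215) (nat_lit 224) (nat_lit 131)) (PT.lf (nat_lit 13832) (nat_lit 6) (nat_lit 182) (nat_lit 2) (nat_lit 216) (nat_lit 224) (nat_lit 130))))) (PT.nd (nat_lit 52494) (PT.nd (nat_lit 52338)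 (PT.nd (nat_lit 52260) (PT.lf (nat_lit 13452) (nat_lit 6) (nat_lit 177) (nat_lit 2) (nat_lit 217) (nat_lit 224) (nat_lit 129)) (PT.lf (nat_lit 12312) (nat_lit 6) (nat_lit 162) (nat_lit 4) (nat_lit 126) (nat_lit 225) (nat_lit 219))) (PT.nd (nat_lit 78) (PT.lf (nat_lit 12692) (nat_lit 6) (nat_lit 167) (nat_lit 4) (nat_lit 127) (nat_lit 225) (nat_lit 218)) (PT.lf (nat_lit 12996) (nat_lit 6) (nat_lit 171) (nat_lit 4) (nat_lit 128) (nat_lit 225) (nat_lit 217)))) (PT.nd (nat_lit 6708) (PT.nd (nat_lit 78) (PT.lf (nat_lit 13376) (nat_lit 6) (nat_lit 176) (nat_lit 4) (nat_lit 129) (nat_lit 225) (nat_lit 216)) (PT.lf (nat_lit 13756) (nat_lit 6) (nat_lit 181) (nat_lit 4) (nat_lit 130) (nat_lit 225) (nat_lit 215))) (PT.nd (nat_lit 78) (PT.lf (nat_lit 13756) (nat_lit 6) (nat_lit 181) (nat_lit 2) (nat_lit 215) (nat_lit 225) (nat_lit 130)) (PT.lf (nat_lit 13376) (nat_lit 6) (nat_lit 176) (nat_lit 2) (nat_lit 216) (nat_lit 225)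 (nat_lit 129)))))) (PT.nd (nat_lit 59358) (PT.nd (nat_lit 52104) (PT.nd (nat_lit 78) (PT.lf (nat_lit 12996) (nat_lit 6) (nat_lit 171) (nat_lit 2) (nat_lit 217) (nat_lit 225) (nat_lit 128)) (PT.nd (nat_lit 78) (PT.lf (nat_lit 12692) (nat_lit 6) (nat_lit 167) (nat_lit 2) (nat_lit 218) (nat_lit 225) (nat_lit 127)) (PT.lf (nat_lit 12312) (nat_lit 6) (nat_lit 162) (nat_lit 2) (nat_lit 219) (nat_lit 225) (nat_lit 126)))) (PT.nd (nat_lit 156) (PT.nd (nat_lit 78) (PT.lf (nat_lit 11552) (nat_lit 6) (nat_lit 152) (nat_lit 4) (nat_lit 124) (nat_lit 226) (nat_lit 220)) (PT.lf (nat_lit 11932) (nat_lit 6) (nat_lit 157) (nat_lit 4) (nat_lit 125) (nat_lit 226) (nat_lit 219))) (PT.nd (nat_lit 78) (PT.lf (nat_lit 12236) (nat_lit 6) (nat_lit 161) (nat_lit 4) (nat_lit 126) (nat_lit 226) (nat_lit 218)) (PT.lf (nat_lit 12616) (nat_lit 6) (nat_lit 166) (nat_lit 4) (nat_lit 127) (nat_lit 226) (nat_lit 217))))) (PT.nd (nat_lit 52026) (PT.nd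 (nat_lit 156) (PT.nd (nat_lit 78) (PT.lf (nat_lit 12616) (nat_lit 6) (nat_lit 166) (nat_lit 2) (nat_lit 217) (nat_lit 226) (nat_lit 127)) (PT.lf (nat_lit 12236) (nat_lit 6) (nat_lit 161) (nat_lit 2) (nat_lit 218) (nat_lit 226) (nat_lit 126))) (PT.nd (nat_lit 78) (PT.lf (nat_lit 11932) (nat_lit 6) (nat_lit 157) (nat_lit 2) (nat_lit 219) (nat_lit 226) (nat_lit 125)) (PT.lf (nat_lit 11552) (nat_lit 6) (nat_lit 152) (nat_lit 2) (nat_lit 220) (nat_lit 226) (nat_lit 124)))) (PT.nd (nat_lit 7488) (PT.nd (nat_lit 78) (PT.lf (nat_lit 11172) (nat_lit 6) (nat_lit 147) (nat_lit 4) (nat_lit 123) (nat_lit 227) (nat_lit 220)) (PT.lf (nat_lit 11476) (nat_lit 6) (nat_lit 151) (nat_lit 4) (nat_lit 124) (nat_lit 227) (nat_lit 219))) (PT.nd (nat_lit 78) (PT.lf (nat_lit 11476) (nat_lit 6) (nat_lit 151) (nat_lit 2) (nat_lit 219) (nat_lit 227) (nat_lit 124)) (PT.lf (nat_lit 11172) (nat_lit 6) (nat_lit 147) (nat_lit 2) (nat_lit 220) (nat_lit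 227) (nat_lit 123))))))))
noncomputable def xc0 : XT := (XT.nd (nat_lit 296244) (nat_lit 0) (nat_lit 304) (XT.nd (nat_lit 177918) (nat_lit 0) (nat_lit 0) (XT.nd (nat_lit 118560) (nat_lit 0) (nat_lit 0) (XT.nd (nat_lit 59358) (nat_lit 0) (nat_lit 0) (XT.nd (nat_lit 59202) (nat_lit 0) (nat_lit 380) (XT.nd (nat_lit 59124) (nat_lit 0) (nat_lit 1140) (XT.lf (nat_lit 0) (nat_lit 1638252796) (nat_lit 380) (nat_lit 7365159738) (nat_lit 0) (nat_lit 908781441) (nat_lit 160) (nat_lit 5) (nat_lit 165) (nat_lit 4) (nat_lit 160) (nat_lit 4) (nat_lit 465) (nat_lit 338) (nat_lit 337)) (XT.lf (nat_lit 0) (nat_lit 2369102650) (nat_lit 380) (nat_lit 1231960972) (nat_lit 380) (nat_lit 1231960972) (nat_lit 175) (nat_lit 4) (nat_lit 180) (nat_lit 5) (nat_lit 180) (nat_lit 4) (nat_lit 462) (nat_lit 339) (nat_lit 339))) (XT.nd (nat_lit 78) (nat_lit 380) (nat_lit 0) (XT.lf (nat_lit 0) (nat_lit 2374639337) (nat_lit 380) (nat_lit 5756779853)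 (nat_lit 0) (nat_lit 1615697340) (nat_lit 170) (nat_lit 5) (nat_lit 175) (nat_lit 4) (nat_lit 170) (nat_lit 4) (nat_lit 463) (nat_lit 339) (nat_lit 338)) (XT.lf (nat_lit 0) (nat_lit 3214448017) (nat_lit 380) (nat_lit 4059051925) (nat_lit 380) (nat_lit 2556049146) (nat_lit 165) (nat_lit 4) (nat_lit 170) (nat_lit 5) (nat_lit 170) (nat_lit 4) (nat_lit 464) (nat_lit 339) (nat_lit 337)))) (XT.nd (nat_lit 59046) (nat_lit 0) (nat_lit 1140) (XT.nd (nat_lit 58968) (nat_lit 0) (nat_lit 1976) (XT.lf (nat_lit 0) (nat_lit 2307433502) (nat_lit 380) (nat_lit 7487524705) (nat_lit 0) (nat_lit 118733370) (nat_lit 160) (nat_lit 5) (nat_lit 165) (nat_lit 4) (nat_lit 160) (nat_lit 4) (nat_lit 465) (nat_lit 339) (nat_lit 336)) (XT.lf (nat_lit 0) (nat_lit 3117551564) (nat_lit 380) (nat_lit 818147077) (nat_lit 380) (nat_lit 818147077) (nat_lit 186) (nat_lit 4) (nat_lit 191) (nat_lit 5) (nat_lit 191) (nat_lit 4) (nat_lit 460) (nat_lit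 340) (nat_lit 340))) (XT.nd (nat_lit 78) (nat_lit 380) (nat_lit 0) (XT.lf (nat_lit 0) (nat_lit 3127634697) (nat_lit 456) (nat_lit 4120792642) (nat_lit 0) (nat_lit 2338031442) (nat_lit 180) (nat_lit 5) (nat_lit 186) (nat_lit 4) (nat_lit 180) (nat_lit 4) (nat_lit 461) (nat_lit 340) (nat_lit 339)) (XT.lf (nat_lit 0) (nat_lit 4679789041) (nat_lit 380) (nat_lit 3275357955) (nat_lit 380) (nat_lit 1711633863) (nat_lit 175) (nat_lit 4) (nat_lit 180) (nat_lit 5) (nat_lit 180) (nat_lit 4) (nat_lit 462) (nat_lit 340) (nat_lit 338))))) (XT.nd (nat_lit 59046) (nat_lit 0) (nat_lit 1140) (XT.nd (nat_lit 156) (nat_lit 380) (nat_lit 0) (XT.nd (nat_lit 78) (nat_lit 380) (nat_lit 0) (XT.lf (nat_lit 0) (nat_lit 3074774232) (nat_lit 380) (nat_lit 5876171402) (nat_lit 0) (nat_lit 797650615) (nat_lit 170) (nat_lit 5) (nat_lit 175) (nat_lit 4) (nat_lit 170) (nat_lit 4) (nat_lit 463) (nat_lit 340) (nat_lit 337)) (XT.lf (nat_lit 0) (nat_lit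 3034753935) (nat_lit 380) (nat_lit 4901805674) (nat_lit 380) (nat_lit 1895210702) (nat_lit 165) (nat_lit 4) (nat_lit 170) (nat_lit 5) (nat_lit 170) (nat_lit 4) (nat_lit 464) (nat_lit 340) (nat_lit 336))) (XT.nd (nat_lit 58812) (nat_lit 0) (nat_lit 2812) (XT.lf (nat_lit 0) (nat_lit 2179471287) (nat_lit 304) (nat_lit 741931808) (nat_lit 380) (nat_lit 6995187929) (nat_lit 160) (nat_lit 5) (nat_lit 164) (nat_lit 5) (nat_lit 165) (nat_lit 4) (nat_lit 465) (nat_lit 340) (nat_lit 335)) (XT.lf (nat_lit 0) (nat_lit 3883439047) (nat_lit 456) (nat_lit 396705004) (nat_lit 456) (nat_lit 396705004) (nat_lit 197) (nat_lit 4) (nat_lit 203) (nat_lit 5) (nat_lit 203) (nat_lit 4) (nat_lit 458) (nat_lit 341) (nat_lit 341)))) (XT.nd (nat_lit 156) (nat_lit 836) (nat_lit 0) (XT.nd (nat_lit 78) (nat_lit 380) (nat_lit 0) (XT.lf (nat_lit 0) (nat_lit 3898167541) (nat_lit 456) (nat_lit 2455350002) (nat_lit 0) (nat_lit 3076664315) (nat_lit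 191) (nat_lit 5) (nat_lit 197) (nat_lit 4) (nat_lit 191) (nat_lit 4) (nat_lit 459) (nat_lit 341) (nat_lit 340)) (XT.lf (nat_lit 0) (nat_lit 6178144013) (nat_lit 380) (nat_lit 2478584702) (nat_lit 380) (nat_lit 851686157) (nat_lit 186) (nat_lit 4) (nat_lit 191) (nat_lit 5) (nat_lit 191) (nat_lit 4) (nat_lit 460) (nat_lit 341) (nat_lit 339))) (XT.nd (nat_lit 78) (nat_lit 380) (nat_lit 0) (XT.lf (nat_lit 0) (nat_lit 3859897480) (nat_lit 456) (nat_lit 4237245883) (nat_lit 0) (nat_lit 1490778069) (nat_lit 180) (nat_lit 5) (nat_lit 186) (nat_lit 4) (nat_lit 180) (nat_lit 4) (nat_lit 461) (nat_lit 341) (nat_lit 338)) (XT.lf (nat_lit 0) (nat_lit 4504517355) (nat_lit 380) (nat_lit 4146260104) (nat_lit 380) (nat_lit 1018198696) (nat_lit 175) (nat_lit 4) (nat_lit 180) (nat_lit 5) (nat_lit 180) (nat_lit 4) (nat_lit 462) (nat_lit 341) (nat_lit 337)))))) (XT.nd (nat_lit 59202) (nat_lit 0) (nat_lit 380) (XT.nd (nat_lit 58890)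 (nat_lit 0) (nat_lit 1976) (XT.nd (nat_lit 156) (nat_lit 380) (nat_lit 0) (XT.nd (nat_lit 78) (nat_lit 380) (nat_lit 0) (XT.lf (nat_lit 0) (nat_lit 3636019300) (nat_lit 304) (nat_lit 80882427) (nat_lit 380) (nat_lit 6034644037) (nat_lit 170) (nat_lit 5) (nat_lit 174) (nat_lit 5) (nat_lit 175) (nat_lit 4) (nat_lit 463) (nat_lit 341) (nat_lit 336)) (XT.lf (nat_lit 0) (nat_lit 2735185503) (nat_lit 380) (nat_lit 5805827018) (nat_lit 380) (nat_lit 1294460797) (nat_lit 165) (nat_lit 4) (nat_lit 170) (nat_lit 5) (nat_lit 170) (nat_lit 4) (nat_lit 464) (nat_lit 341) (nat_lit 335))) (XT.nd (nat_lit 58656) (nat_lit 0) (nat_lit 3268) (XT.lf (nat_lit 0) (nat_lit 1810558539) (nat_lit 304) (nat_lit 1666208714) (nat_lit 380) (nat_lit 6444198905) (nat_lit 160) (nat_lit 5) (nat_lit 164) (nat_lit 5) (nat_lit 165) (nat_lit 4) (nat_lit 465) (nat_lit 341) (nat_lit 334)) (XT.lf (nat_lit 0) (nat_lit 33069217) (nat_lit 456) (nat_lit 4535861590)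 (nat_lit 0) (nat_lit 33069217) (nat_lit 203) (nat_lit 5) (nat_lit 209) (nat_lit 4) (nat_lit 203) (nat_lit 4) (nat_lit 456) (nat_lit 342) (nat_lit 342)))) (XT.nd (nat_lit 156) (nat_lit 760) (nat_lit 0) (XT.nd (nat_lit 78) (nat_lit 532) (nat_lit 0) (XT.lf (nat_lit 0) (nat_lit 4687199001) (nat_lit 456) (nat_lit 758543531) (nat_lit 0) (nat_lit 3832507045) (nat_lit 203) (nat_lit 5) (nat_lit 209) (nat_lit 4) (nat_lit 203) (nat_lit 4) (nat_lit 457) (nat_lit 342) (nat_lit 341)) (XT.lf (nat_lit 0) (nat_lit 24460762) (nat_lit 532) (nat_lit 1643214505) (nat_lit 76) (nat_lit 7686735236) (nat_lit 196) (nat_lit 5) (nat_lit 203) (nat_lit 5) (nat_lit 197) (nat_lit 4) (nat_lit 458) (nat_lit 342) (nat_lit 340))) (XT.nd (nat_lit 78) (nat_lit 380) (nat_lit 0) (XT.lf (nat_lit 0) (nat_lit 4663780837) (nat_lit 456) (nat_lit 2568898417) (nat_lit 0) (nat_lit 2198949002) (nat_lit 191) (nat_lit 5) (nat_lit 197) (nat_lit 4) (nat_lit 191)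 (nat_lit 4) (nat_lit 459) (nat_lit 342) (nat_lit 339)) (XT.lf (nat_lit 0) (nat_lit 6007244328) (nat_lit 380) (nat_lit 3378888112) (nat_lit 380) (nat_lit 124453023) (nat_lit 186) (nat_lit 4) (nat_lit 191) (nat_lit 5) (nat_lit 191) (nat_lit 4) (nat_lit 460) (nat_lit 342) (nat_lit 338))))) (XT.nd (nat_lit 58812) (nat_lit 0) (nat_lit 2888) (XT.nd (nat_lit 156) (nat_lit 760) (nat_lit 0) (XT.nd (nat_lit 78) (nat_lit 380) (nat_lit 0) (XT.lf (nat_lit 0) (nat_lit 4535106954) (nat_lit 456) (nat_lit 4470198033) (nat_lit 0) (nat_lit 585542320) (nat_lit 180) (nat_lit 5) (nat_lit 186) (nat_lit 4) (nat_lit 180) (nat_lit 4) (nat_lit 461) (nat_lit 342) (nat_lit 337)) (XT.lf (nat_lit 0) (nat_lit 4212321509) (nat_lit 380) (nat_lit 5076969924) (nat_lit 380) (nat_lit 383344508) (nat_lit 175) (nat_lit 4) (nat_lit 180) (nat_lit 5) (nat_lit 180) (nat_lit 4) (nat_lit 462) (nat_lit 342) (nat_lit 336))) (XT.nd (nat_lit 78) (nat_lit 380)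 (nat_lit 0) (XT.lf (nat_lit 0) (nat_lit 3275809444) (nat_lit 304) (nat_lit 1030579771) (nat_lit 380) (nat_lit 5449474706) (nat_lit 170) (nat_lit 5) (nat_lit 174) (nat_lit 5) (nat_lit 175) (nat_lit 4) (nat_lit 463) (nat_lit 342) (nat_lit 335)) (XT.lf (nat_lit 0) (nat_lit 2315625242) (nat_lit 380) (nat_lit 6771470476) (nat_lit 380) (nat_lit 753563842) (nat_lit 165) (nat_lit 4) (nat_lit 170) (nat_lit 5) (nat_lit 170) (nat_lit 4) (nat_lit 464) (nat_lit 342) (nat_lit 334)))) (XT.nd (nat_lit 156) (nat_lit 456) (nat_lit 0) (XT.nd (nat_lit 78) (nat_lit 456) (nat_lit 0) (XT.lf (nat_lit 0) (nat_lit 474144848) (nat_lit 532) (nat_lit 3580797544) (nat_lit 0) (nat_lit 474144848) (nat_lit 215) (nat_lit 5) (nat_lit 222) (nat_lit 4) (nat_lit 215) (nat_lit 4) (nat_lit 454) (nat_lit 343) (nat_lit 343)) (XT.lf (nat_lit 0) (nat_lit 984510212) (nat_lit 456) (nat_lit 4517605969) (nat_lit 456) (nat_lit 3628384458) (nat_lit 209) (nat_lit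 4) (nat_lit 215) (nat_lit 5) (nat_lit 215) (nat_lit 4) (nat_lit 455) (nat_lit 343) (nat_lit 342))) (XT.nd (nat_lit 78) (nat_lit 0) (nat_lit 0) (XT.lf (nat_lit 0) (nat_lit 71579769) (nat_lit 380) (nat_lit 835641555) (nat_lit 456) (nat_lit 8297392783) (nat_lit 203) (nat_lit 5) (nat_lit 208) (nat_lit 5) (nat_lit 209) (nat_lit 4) (nat_lit 456) (nat_lit 343) (nat_lit 341)) (XT.lf (nat_lit 0) (nat_lit 5487436308) (nat_lit 456) (nat_lit 869218973) (nat_lit 0) (nat_lit 2923025267) (nat_lit 203) (nat_lit 5) (nat_lit 209) (nat_lit 4) (nat_lit 203) (nat_lit 4) (nat_lit 457) (nat_lit 343) (nat_lit 340))))))) (XT.nd (nat_lit 59592) (nat_lit 76) (nat_lit 0) (XT.nd (nat_lit 58968) (nat_lit 0) (nat_lit 1520) (XT.nd (nat_lit 312) (nat_lit 1140) (nat_lit 0) (XT.nd (nat_lit 156) (nat_lit 836) (nat_lit 0) (XT.nd (nat_lit 78) (nat_lit 380) (nat_lit 0) (XT.lf (nat_lit 0) (nat_lit 776746425) (nat_lit 532) (nat_lit 1816886487) (nat_lit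 76) (nat_lit 6762825717) (nat_lit 196) (nat_lit 5) (nat_lit 203) (nat_lit 5) (nat_lit 197) (nat_lit 4) (nat_lit 458) (nat_lit 343) (nat_lit 339)) (XT.lf (nat_lit 0) (nat_lit 5373804446) (nat_lit 456) (nat_lit 2796039777) (nat_lit 0) (nat_lit 1264677401) (nat_lit 191) (nat_lit 5) (nat_lit 197) (nat_lit 4) (nat_lit 191) (nat_lit 4) (nat_lit 459) (nat_lit 343) (nat_lit 338))) (XT.nd (nat_lit 78) (nat_lit 380) (nat_lit 0) (XT.lf (nat_lit 0) (nat_lit 538533609) (nat_lit 456) (nat_lit 3795409991) (nat_lit 76) (nat_lit 5180189601) (nat_lit 185) (nat_lit 5) (nat_lit 191) (nat_lit 5) (nat_lit 186) (nat_lit 4) (nat_lit 460) (nat_lit 343) (nat_lit 337)) (XT.lf (nat_lit 0) (nat_lit 4772960323) (nat_lit 380) (nat_lit 383054629) (nat_lit 456) (nat_lit 4439172862) (nat_lit 180) (nat_lit 5) (nat_lit 185) (nat_lit 5) (nat_lit 186) (nat_lit 4) (nat_lit 461) (nat_lit 343) (nat_lit 336)))) (XT.nd (nat_lit 156) (nat_lit 380) (nat_lit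 0) (XT.nd (nat_lit 78) (nat_lit 304) (nat_lit 0) (XT.lf (nat_lit 0) (nat_lit 190644103) (nat_lit 456) (nat_lit 5875928971) (nat_lit 76) (nat_lit 3611163490) (nat_lit 174) (nat_lit 5) (nat_lit 180) (nat_lit 5) (nat_lit 175) (nat_lit 4) (nat_lit 462) (nat_lit 343) (nat_lit 335)) (XT.lf (nat_lit 0) (nat_lit 2797006675) (nat_lit 304) (nat_lit 2041213488) (nat_lit 380) (nat_lit 4923437203) (nat_lit 170) (nat_lit 5) (nat_lit 174) (nat_lit 5) (nat_lit 175) (nat_lit 4) (nat_lit 463) (nat_lit 343) (nat_lit 334))) (XT.nd (nat_lit 58422) (nat_lit 0) (nat_lit 4788) (XT.lf (nat_lit 0) (nat_lit 1775908619) (nat_lit 380) (nat_lit 7799114731) (nat_lit 380) (nat_lit 272307722) (nat_lit 165) (nat_lit 4) (nat_lit 170) (nat_lit 5) (nat_lit 170) (nat_lit 4) (nat_lit 464) (nat_lit 343) (nat_lit 333)) (XT.lf (nat_lit 0) (nat_lit 924417590) (nat_lit 532) (nat_lit 2609468770) (nat_lit 0) (nat_lit 924417590) (nat_lit 228) (nat_lit 5) (nat_lit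 235) (nat_lit 4) (nat_lit 228) (nat_lit 4) (nat_lit 452) (nat_lit 344) (nat_lit 344))))) (XT.nd (nat_lit 312) (nat_lit 1748) (nat_lit 0) (XT.nd (nat_lit 156) (nat_lit 532) (nat_lit 0) (XT.nd (nat_lit 78) (nat_lit 532) (nat_lit 0) (XT.lf (nat_lit 0) (nat_lit 2773487174) (nat_lit 456) (nat_lit 3569293297) (nat_lit 456) (nat_lit 2644147237) (nat_lit 222) (nat_lit 4) (nat_lit 228) (nat_lit 5) (nat_lit 228) (nat_lit 4) (nat_lit 453) (nat_lit 344) (nat_lit 343)) (XT.lf (nat_lit 0) (nat_lit 1819535938) (nat_lit 532) (nat_lit 7216045253) (nat_lit 0) (nat_lit 23308485) (nat_lit 215) (nat_lit 5) (nat_lit 222) (nat_lit 4) (nat_lit 215) (nat_lit 4) (nat_lit 454) (nat_lit 344) (nat_lit 342))) (XT.nd (nat_lit 78) (nat_lit 76) (nat_lit 0) (XT.lf (nat_lit 0) (nat_lit 875244491) (nat_lit 456) (nat_lit 5462349974) (nat_lit 456) (nat_lit 2794336727) (nat_lit 209) (nat_lit 4) (nat_lit 215) (nat_lit 5) (nat_lit 215) (nat_lit 4) (nat_lit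 455) (nat_lit 344) (nat_lit 341)) (XT.lf (nat_lit 0) (nat_lit 1694920300) (nat_lit 532) (nat_lit 98966196) (nat_lit 76) (nat_lit 7412758061) (nat_lit 208) (nat_lit 5) (nat_lit 215) (nat_lit 5) (nat_lit 209) (nat_lit 4) (nat_lit 456) (nat_lit 344) (nat_lit 340)))) (XT.nd (nat_lit 156) (nat_lit 836) (nat_lit 0) (XT.nd (nat_lit 78) (nat_lit 532) (nat_lit 0) (XT.lf (nat_lit 0) (nat_lit 6233532784) (nat_lit 456) (nat_lit 1090613258) (nat_lit 0) (nat_lit 1958397006) (nat_lit 203) (nat_lit 5) (nat_lit 209) (nat_lit 4) (nat_lit 203) (nat_lit 4) (nat_lit 457) (nat_lit 344) (nat_lit 339)) (XT.lf (nat_lit 0) (nat_lit 1474147707) (nat_lit 532) (nat_lit 2102752727) (nat_lit 76) (nat_lit 5783045885) (nat_lit 196) (nat_lit 5) (nat_lit 203) (nat_lit 5) (nat_lit 197) (nat_lit 4) (nat_lit 458) (nat_lit 344) (nat_lit 338))) (XT.nd (nat_lit 78) (nat_lit 456) (nat_lit 0) (XT.lf (nat_lit 0) (nat_lit 6028516807) (nat_lit 456) (nat_lit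 3136863157) (nat_lit 0) (nat_lit 273483129) (nat_lit 191) (nat_lit 5) (nat_lit 197) (nat_lit 4) (nat_lit 191) (nat_lit 4) (nat_lit 459) (nat_lit 344) (nat_lit 337)) (XT.lf (nat_lit 0) (nat_lit 1143806441) (nat_lit 456) (nat_lit 4203486663) (nat_lit 76) (nat_lit 4171828480) (nat_lit 185) (nat_lit 5) (nat_lit 191) (nat_lit 5) (nat_lit 186) (nat_lit 4) (nat_lit 460) (nat_lit 344) (nat_lit 336)))))) (XT.nd (nat_lit 58812) (nat_lit 0) (nat_lit 1216) (XT.nd (nat_lit 58500) (nat_lit 0) (nat_lit 4408) (XT.nd (nat_lit 156) (nat_lit 760) (nat_lit 0) (XT.nd (nat_lit 78) (nat_lit 456) (nat_lit 0) (XT.lf (nat_lit 0) (nat_lit 4305686819) (nat_lit 380) (nat_lit 1418928664) (nat_lit 456) (nat_lit 3876294159) (nat_lit 180) (nat_lit 5) (nat_lit 185) (nat_lit 5) (nat_lit 186) (nat_lit 4) (nat_lit 461) (nat_lit 344) (nat_lit 335)) (XT.lf (nat_lit 0) (nat_lit 702261223) (nat_lit 456) (nat_lit 6412322339) (nat_lit 76) (nat_lit 2569679325)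 (nat_lit 174) (nat_lit 5) (nat_lit 180) (nat_lit 5) (nat_lit 175) (nat_lit 4) (nat_lit 462) (nat_lit 344) (nat_lit 334))) (XT.nd (nat_lit 78) (nat_lit 456) (nat_lit 0) (XT.lf (nat_lit 0) (nat_lit 2199423226) (nat_lit 304) (nat_lit 3113179907) (nat_lit 380) (nat_lit 4456325239) (nat_lit 170) (nat_lit 5) (nat_lit 174) (nat_lit 5) (nat_lit 175) (nat_lit 4) (nat_lit 463) (nat_lit 344) (nat_lit 333)) (XT.lf (nat_lit 0) (nat_lit 147535620) (nat_lit 456) (nat_lit 8740637120) (nat_lit 76) (nat_lit 967298317) (nat_lit 164) (nat_lit 5) (nat_lit 170) (nat_lit 5) (nat_lit 165) (nat_lit 4) (nat_lit 464) (nat_lit 344) (nat_lit 332)))) (XT.nd (nat_lit 156) (nat_lit 988) (nat_lit 0) (XT.nd (nat_lit 78) (nat_lit 532) (nat_lit 0) (XT.lf (nat_lit 0) (nat_lit 1384428070) (nat_lit 532) (nat_lit 1620780530) (nat_lit 0) (nat_lit 1384428070) (nat_lit 242) (nat_lit 5) (nat_lit 249) (nat_lit 4) (nat_lit 242) (nat_lit 4) (nat_lit 450) (nat_lit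 345) (nat_lit 345)) (XT.lf (nat_lit 0) (nat_lit 4600440712) (nat_lit 532) (nat_lit 2604841811) (nat_lit 532) (nat_lit 1642319850) (nat_lit 235) (nat_lit 4) (nat_lit 242) (nat_lit 5) (nat_lit 242) (nat_lit 4) (nat_lit 451) (nat_lit 345) (nat_lit 344))) (XT.nd (nat_lit 78) (nat_lit 456) (nat_lit 0) (XT.lf (nat_lit 0) (nat_lit 2757072252) (nat_lit 532) (nat_lit 5271966677) (nat_lit 0) (nat_lit 888277210) (nat_lit 228) (nat_lit 5) (nat_lit 235) (nat_lit 4) (nat_lit 228) (nat_lit 4) (nat_lit 452) (nat_lit 345) (nat_lit 343)) (XT.lf (nat_lit 0) (nat_lit 2667073048) (nat_lit 456) (nat_lit 4548536025) (nat_lit 456) (nat_lit 1772735042) (nat_lit 222) (nat_lit 4) (nat_lit 228) (nat_lit 5) (nat_lit 228) (nat_lit 4) (nat_lit 453) (nat_lit 345) (nat_lit 342))))) (XT.nd (nat_lit 312) (nat_lit 1748) (nat_lit 0) (XT.nd (nat_lit 156) (nat_lit 456) (nat_lit 0) (XT.nd (nat_lit 78) (nat_lit 456) (nat_lit 0) (XT.lf (nat_lit 0) (nat_lit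 1675204714) (nat_lit 456) (nat_lit 968472121) (nat_lit 532) (nat_lit 6417232945) (nat_lit 215) (nat_lit 5) (nat_lit 221) (nat_lit 5) (nat_lit 222) (nat_lit 4) (nat_lit 454) (nat_lit 345) (nat_lit 341)) (XT.lf (nat_lit 0) (nat_lit 656670201) (nat_lit 456) (nat_lit 6462986961) (nat_lit 456) (nat_lit 2015135698) (nat_lit 209) (nat_lit 4) (nat_lit 215) (nat_lit 5) (nat_lit 215) (nat_lit 4) (nat_lit 455) (nat_lit 345) (nat_lit 340))) (XT.nd (nat_lit 78) (nat_lit 380) (nat_lit 0) (XT.lf (nat_lit 0) (nat_lit 2429641844) (nat_lit 532) (nat_lit 377908027) (nat_lit 76) (nat_lit 6402540374) (nat_lit 208) (nat_lit 5) (nat_lit 215) (nat_lit 5) (nat_lit 209) (nat_lit 4) (nat_lit 456) (nat_lit 345) (nat_lit 339)) (XT.lf (nat_lit 0) (nat_lit 6925781016) (nat_lit 456) (nat_lit 1422813210) (nat_lit 0) (nat_lit 938243977) (nat_lit 203) (nat_lit 5) (nat_lit 209) (nat_lit 4) (nat_lit 203) (nat_lit 4) (nat_lit 457) (nat_lit 345) (nat_lit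 338)))) (XT.nd (nat_lit 156) (nat_lit 836) (nat_lit 0) (XT.nd (nat_lit 78) (nat_lit 380) (nat_lit 0) (XT.lf (nat_lit 0) (nat_lit 2116938100) (nat_lit 532) (nat_lit 2500925330) (nat_lit 76) (nat_lit 4747011512) (nat_lit 196) (nat_lit 5) (nat_lit 203) (nat_lit 5) (nat_lit 197) (nat_lit 4) (nat_lit 458) (nat_lit 345) (nat_lit 337)) (XT.lf (nat_lit 0) (nat_lit 5847951345) (nat_lit 380) (nat_lit 785322157) (nat_lit 456) (nat_lit 2811278887) (nat_lit 191) (nat_lit 5) (nat_lit 196) (nat_lit 5) (nat_lit 197) (nat_lit 4) (nat_lit 459) (nat_lit 345) (nat_lit 336))) (XT.nd (nat_lit 78) (nat_lit 380) (nat_lit 0) (XT.lf (nat_lit 0) (nat_lit 1693235058) (nat_lit 456) (nat_lit 4726923150) (nat_lit 76) (nat_lit 3105410520) (nat_lit 185) (nat_lit 5) (nat_lit 191) (nat_lit 5) (nat_lit 186) (nat_lit 4) (nat_lit 460) (nat_lit 345) (nat_lit 335)) (XT.lf (nat_lit 0) (nat_lit 3722574815) (nat_lit 380) (nat_lit 2514704461) (nat_lit 456)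 (nat_lit 3370812806) (nat_lit 180) (nat_lit 5) (nat_lit 185) (nat_lit 5) (nat_lit 186) (nat_lit 4) (nat_lit 461) (nat_lit 345) (nat_lit 334))))))))
noncomputable def xc1 : XT := (XT.nd (nat_lit 118404) (nat_lit 0) (nat_lit 380) (XT.nd (nat_lit 59280) (nat_lit 0) (nat_lit 380) (XT.nd (nat_lit 58656) (nat_lit 0) (nat_lit 1596) (XT.nd (nat_lit 58344) (nat_lit 0) (nat_lit 4864) (XT.nd (nat_lit 156) (nat_lit 456) (nat_lit 0) (XT.nd (nat_lit 78) (nat_lit 304) (nat_lit 0) (XT.lf (nat_lit 0) (nat_lit 1156735118) (nat_lit 456) (nat_lit 7067215960) (nat_lit 76) (nat_lit 1468316171) (nat_lit 174) (nat_lit 5) (nat_lit 180) (nat_lit 5) (nat_lit 175) (nat_lit 4) (nat_lit 462) (nat_lit 345) (nat_lit 333)) (XT.lf (nat_lit 0) (nat_lit 1482824752) (nat_lit 304) (nat_lit 4246899407) (nat_lit 380) (nat_lit 4047955632) (nat_lit 170) (nat_lit 5) (nat_lit 174) (nat_lit 5) (nat_lit 175) (nat_lit 4) (nat_lit 463) (nat_lit 345) (nat_lit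 332))) (XT.nd (nat_lit 58110) (nat_lit 0) (nat_lit 6992) (XT.lf (nat_lit 0) (nat_lit 330556857) (nat_lit 380) (nat_lit 175883556) (nat_lit 456) (nat_lit 9358611214) (nat_lit 164) (nat_lit 5) (nat_lit 169) (nat_lit 5) (nat_lit 170) (nat_lit 5) (nat_lit 464) (nat_lit 345) (nat_lit 331)) (XT.lf (nat_lit 0) (nat_lit 1854735443) (nat_lit 608) (nat_lit 613602437) (nat_lit 0) (nat_lit 1854735443) (nat_lit 256) (nat_lit 5) (nat_lit 264) (nat_lit 4) (nat_lit 256) (nat_lit 4) (nat_lit 448) (nat_lit 346) (nat_lit 346)))) (XT.nd (nat_lit 156) (nat_lit 1064) (nat_lit 0) (XT.nd (nat_lit 78) (nat_lit 532) (nat_lit 0) (XT.lf (nat_lit 0) (nat_lit 6467577592) (nat_lit 532) (nat_lit 1623164738) (nat_lit 532) (nat_lit 621756890) (nat_lit 249) (nat_lit 4) (nat_lit 256) (nat_lit 5) (nat_lit 256) (nat_lit 4) (nat_lit 449) (nat_lit 346) (nat_lit 345)) (XT.lf (nat_lit 0) (nat_lit 3715543326) (nat_lit 532) (nat_lit 3293182753) (nat_lit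 0) (nat_lit 1771248965) (nat_lit 242) (nat_lit 5) (nat_lit 249) (nat_lit 4) (nat_lit 242) (nat_lit 4) (nat_lit 450) (nat_lit 346) (nat_lit 344))) (XT.nd (nat_lit 78) (nat_lit 532) (nat_lit 0) (XT.lf (nat_lit 0) (nat_lit 4496850917) (nat_lit 532) (nat_lit 3620048950) (nat_lit 532) (nat_lit 732105607) (nat_lit 235) (nat_lit 4) (nat_lit 242) (nat_lit 5) (nat_lit 242) (nat_lit 4) (nat_lit 451) (nat_lit 346) (nat_lit 343)) (XT.lf (nat_lit 0) (nat_lit 3487527580) (nat_lit 456) (nat_lit 126639242) (nat_lit 532) (nat_lit 5305257864) (nat_lit 228) (nat_lit 5) (nat_lit 234) (nat_lit 5) (nat_lit 235) (nat_lit 4) (nat_lit 452) (nat_lit 346) (nat_lit 342))))) (XT.nd (nat_lit 312) (nat_lit 1748) (nat_lit 0) (XT.nd (nat_lit 156) (nat_lit 532) (nat_lit 0) (XT.nd (nat_lit 78) (nat_lit 532) (nat_lit 0) (XT.lf (nat_lit 0) (nat_lit 2454203066) (nat_lit 456) (nat_lit 5582259437) (nat_lit 456) (nat_lit 954714982) (nat_lit 222) (nat_lit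 4) (nat_lit 228) (nat_lit 5) (nat_lit 228) (nat_lit 4) (nat_lit 453) (nat_lit 346) (nat_lit 341)) (XT.lf (nat_lit 0) (nat_lit 1399488749) (nat_lit 456) (nat_lit 2015768180) (nat_lit 532) (nat_lit 5649094228) (nat_lit 215) (nat_lit 5) (nat_lit 221) (nat_lit 5) (nat_lit 222) (nat_lit 4) (nat_lit 454) (nat_lit 346) (nat_lit 340))) (XT.nd (nat_lit 78) (nat_lit 76) (nat_lit 0) (XT.lf (nat_lit 0) (nat_lit 328701625) (nat_lit 456) (nat_lit 7519909337) (nat_lit 456) (nat_lit 1290475802) (nat_lit 209) (nat_lit 4) (nat_lit 215) (nat_lit 5) (nat_lit 215) (nat_lit 4) (nat_lit 455) (nat_lit 346) (nat_lit 339)) (XT.lf (nat_lit 0) (nat_lit 3111209339) (nat_lit 532) (nat_lit 766293895) (nat_lit 76) (nat_lit 5337458583) (nat_lit 208) (nat_lit 5) (nat_lit 215) (nat_lit 5) (nat_lit 209) (nat_lit 4) (nat_lit 456) (nat_lit 346) (nat_lit 338)))) (XT.nd (nat_lit 156) (nat_lit 836) (nat_lit 0) (XT.nd (nat_lit 78) (nat_lit 532) (nat_lit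 0) (XT.lf (nat_lit 0) (nat_lit 7425693656) (nat_lit 380) (nat_lit 139665618) (nat_lit 456) (nat_lit 1727190284) (nat_lit 203) (nat_lit 5) (nat_lit 208) (nat_lit 5) (nat_lit 209) (nat_lit 4) (nat_lit 457) (nat_lit 346) (nat_lit 337)) (XT.lf (nat_lit 0) (nat_lit 2705369677) (nat_lit 532) (nat_lit 3011560441) (nat_lit 76) (nat_lit 3654316311) (nat_lit 196) (nat_lit 5) (nat_lit 203) (nat_lit 5) (nat_lit 197) (nat_lit 4) (nat_lit 458) (nat_lit 346) (nat_lit 336))) (XT.nd (nat_lit 78) (nat_lit 456) (nat_lit 0) (XT.lf (nat_lit 0) (nat_lit 5279138299) (nat_lit 380) (nat_lit 1906251545) (nat_lit 456) (nat_lit 2266260337) (nat_lit 191) (nat_lit 5) (nat_lit 196) (nat_lit 5) (nat_lit 197) (nat_lit 4) (nat_lit 459) (nat_lit 346) (nat_lit 335)) (XT.lf (nat_lit 0) (nat_lit 2187034922) (nat_lit 456) (nat_lit 5365924720) (nat_lit 76) (nat_lit 1980517518) (nat_lit 185) (nat_lit 5) (nat_lit 191) (nat_lit 5) (nat_lit 186) (nat_lit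 4) (nat_lit 460) (nat_lit 346) (nat_lit 334)))))) (XT.nd (nat_lit 58500) (nat_lit 0) (nat_lit 2584) (XT.nd (nat_lit 58188) (nat_lit 0) (nat_lit 6004) (XT.nd (nat_lit 156) (nat_lit 380) (nat_lit 0) (XT.nd (nat_lit 78) (nat_lit 456) (nat_lit 0) (XT.lf (nat_lit 0) (nat_lit 3023395641) (nat_lit 380) (nat_lit 3670811735) (nat_lit 456) (nat_lit 2922530574) (nat_lit 180) (nat_lit 5) (nat_lit 185) (nat_lit 5) (nat_lit 186) (nat_lit 4) (nat_lit 461) (nat_lit 346) (nat_lit 333)) (XT.lf (nat_lit 0) (nat_lit 1554244013) (nat_lit 456) (nat_lit 7840866654) (nat_lit 76) (nat_lit 306642120) (nat_lit 174) (nat_lit 5) (nat_lit 180) (nat_lit 5) (nat_lit 175) (nat_lit 4) (nat_lit 462) (nat_lit 346) (nat_lit 332))) (XT.nd (nat_lit 78) (nat_lit 76) (nat_lit 0) (XT.lf (nat_lit 0) (nat_lit 646930234) (nat_lit 304) (nat_lit 5442816582) (nat_lit 380) (nat_lit 3698168238) (nat_lit 170) (nat_lit 5) (nat_lit 174) (nat_lit 5) (nat_lit 175)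 (nat_lit 4) (nat_lit 463) (nat_lit 346) (nat_lit 331)) (XT.lf (nat_lit 0) (nat_lit 817522544) (nat_lit 380) (nat_lit 573547714) (nat_lit 76) (nat_lit 8484853565) (nat_lit 169) (nat_lit 5) (nat_lit 174) (nat_lit 5) (nat_lit 170) (nat_lit 5) (nat_lit 464) (nat_lit 346) (nat_lit 330)))) (XT.nd (nat_lit 156) (nat_lit 1140) (nat_lit 0) (XT.nd (nat_lit 78) (nat_lit 76) (nat_lit 0) (XT.lf (nat_lit 0) (nat_lit 418724799) (nat_lit 532) (nat_lit 1919912046) (nat_lit 532) (nat_lit 1919912046) (nat_lit 264) (nat_lit 4) (nat_lit 271) (nat_lit 5) (nat_lit 271) (nat_lit 4) (nat_lit 446) (nat_lit 347) (nat_lit 347)) (XT.lf (nat_lit 0) (nat_lit 413233148) (nat_lit 608) (nat_lit 207133765) (nat_lit 76) (nat_lit 7961174385) (nat_lit 263) (nat_lit 5) (nat_lit 271) (nat_lit 5) (nat_lit 264) (nat_lit 4) (nat_lit 447) (nat_lit 347) (nat_lit 346))) (XT.nd (nat_lit 78) (nat_lit 608) (nat_lit 0) (XT.lf (nat_lit 0) (nat_lit 4696127114) (nat_lit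 608) (nat_lit 1277431868) (nat_lit 0) (nat_lit 2673283261) (nat_lit 256) (nat_lit 5) (nat_lit 264) (nat_lit 4) (nat_lit 256) (nat_lit 4) (nat_lit 448) (nat_lit 347) (nat_lit 345)) (XT.lf (nat_lit 0) (nat_lit 324444772) (nat_lit 608) (nat_lit 2349237812) (nat_lit 76) (nat_lit 6040164586) (nat_lit 248) (nat_lit 5) (nat_lit 256) (nat_lit 5) (nat_lit 249) (nat_lit 4) (nat_lit 449) (nat_lit 347) (nat_lit 344))))) (XT.nd (nat_lit 312) (nat_lit 1444) (nat_lit 0) (XT.nd (nat_lit 156) (nat_lit 912) (nat_lit 0) (XT.nd (nat_lit 78) (nat_lit 608) (nat_lit 0) (XT.lf (nat_lit 0) (nat_lit 4611681772) (nat_lit 532) (nat_lit 3448068077) (nat_lit 0) (nat_lit 722330582) (nat_lit 242) (nat_lit 5) (nat_lit 249) (nat_lit 4) (nat_lit 242) (nat_lit 4) (nat_lit 450) (nat_lit 347) (nat_lit 343)) (XT.lf (nat_lit 0) (nat_lit 124503279) (nat_lit 608) (nat_lit 4563000625) (nat_lit 76) (nat_lit 4164291940) (nat_lit 234) (nat_lit 5) (nat_lit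 242) (nat_lit 5) (nat_lit 235) (nat_lit 4) (nat_lit 451) (nat_lit 347) (nat_lit 342))) (XT.nd (nat_lit 78) (nat_lit 456) (nat_lit 0) (XT.lf (nat_lit 0) (nat_lit 3218664720) (nat_lit 456) (nat_lit 1207160978) (nat_lit 532) (nat_lit 4497001259) (nat_lit 228) (nat_lit 5) (nat_lit 234) (nat_lit 5) (nat_lit 235) (nat_lit 4) (nat_lit 452) (nat_lit 347) (nat_lit 341)) (XT.lf (nat_lit 0) (nat_lit 2134793749) (nat_lit 456) (nat_lit 6670868915) (nat_lit 456) (nat_lit 189766266) (nat_lit 222) (nat_lit 4) (nat_lit 228) (nat_lit 5) (nat_lit 228) (nat_lit 4) (nat_lit 453) (nat_lit 347) (nat_lit 340)))) (XT.nd (nat_lit 156) (nat_lit 912) (nat_lit 0) (XT.nd (nat_lit 78) (nat_lit 0) (nat_lit 0) (XT.lf (nat_lit 0) (nat_lit 1015744819) (nat_lit 456) (nat_lit 3118680638) (nat_lit 532) (nat_lit 4934792769) (nat_lit 215) (nat_lit 5) (nat_lit 221) (nat_lit 5) (nat_lit 222) (nat_lit 4) (nat_lit 454) (nat_lit 347) (nat_lit 339)) (XT.lf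 (nat_lit 0) (nat_lit 8525448066) (nat_lit 532) (nat_lit 107363051) (nat_lit 0) (nat_lit 511989344) (nat_lit 215) (nat_lit 5) (nat_lit 222) (nat_lit 4) (nat_lit 215) (nat_lit 4) (nat_lit 455) (nat_lit 347) (nat_lit 338))) (XT.nd (nat_lit 78) (nat_lit 380) (nat_lit 0) (XT.lf (nat_lit 0) (nat_lit 3739890066) (nat_lit 532) (nat_lit 1264276107) (nat_lit 76) (nat_lit 4217095009) (nat_lit 208) (nat_lit 5) (nat_lit 215) (nat_lit 5) (nat_lit 209) (nat_lit 4) (nat_lit 456) (nat_lit 347) (nat_lit 337)) (XT.lf (nat_lit 0) (nat_lit 6871014958) (nat_lit 380) (nat_lit 1287139622) (nat_lit 456) (nat_lit 1141412052) (nat_lit 203) (nat_lit 5) (nat_lit 208) (nat_lit 5) (nat_lit 209) (nat_lit 4) (nat_lit 457) (nat_lit 347) (nat_lit 336))))))) (XT.nd (nat_lit 58968) (nat_lit 0) (nat_lit 0) (XT.nd (nat_lit 58344) (nat_lit 0) (nat_lit 4484) (XT.nd (nat_lit 312) (nat_lit 836) (nat_lit 0) (XT.nd (nat_lit 156) (nat_lit 836) (nat_lit 0)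 (XT.nd (nat_lit 78) (nat_lit 380) (nat_lit 0) (XT.lf (nat_lit 0) (nat_lit 3239673197) (nat_lit 532) (nat_lit 3634858310) (nat_lit 76) (nat_lit 2504531773) (nat_lit 196) (nat_lit 5) (nat_lit 203) (nat_lit 5) (nat_lit 197) (nat_lit 4) (nat_lit 458) (nat_lit 347) (nat_lit 335)) (XT.lf (nat_lit 0) (nat_lit 4597172950) (nat_lit 380) (nat_lit 3086110169) (nat_lit 456) (nat_lit 1776912118) (nat_lit 191) (nat_lit 5) (nat_lit 196) (nat_lit 5) (nat_lit 197) (nat_lit 4) (nat_lit 459) (nat_lit 347) (nat_lit 334))) (XT.nd (nat_lit 78) (nat_lit 380) (nat_lit 0) (XT.lf (nat_lit 0) (nat_lit 2625399680) (nat_lit 456) (nat_lit 6120741964) (nat_lit 76) (nat_lit 796708340) (nat_lit 185) (nat_lit 5) (nat_lit 191) (nat_lit 5) (nat_lit 186) (nat_lit 4) (nat_lit 460) (nat_lit 347) (nat_lit 333)) (XT.lf (nat_lit 0) (nat_lit 2207875107) (nat_lit 380) (nat_lit 4887703862) (nat_lit 456) (nat_lit 2531271667) (nat_lit 180) (nat_lit 5) (nat_lit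 185) (nat_lit 5) (nat_lit 186) (nat_lit 4) (nat_lit 461) (nat_lit 347) (nat_lit 332)))) (XT.nd (nat_lit 156) (nat_lit 380) (nat_lit 0) (XT.nd (nat_lit 78) (nat_lit 0) (nat_lit 0) (XT.lf (nat_lit 0) (nat_lit 972999919) (nat_lit 380) (nat_lit 927968863) (nat_lit 456) (nat_lit 7811633940) (nat_lit 174) (nat_lit 5) (nat_lit 179) (nat_lit 5) (nat_lit 180) (nat_lit 5) (nat_lit 462) (nat_lit 347) (nat_lit 331)) (XT.lf (nat_lit 0) (nat_lit 6394815850) (nat_lit 456) (nat_lit 304540940) (nat_lit 76) (nat_lit 3100241314) (nat_lit 174) (nat_lit 5) (nat_lit 180) (nat_lit 5) (nat_lit 175) (nat_lit 4) (nat_lit 463) (nat_lit 347) (nat_lit 330))) (XT.nd (nat_lit 57798) (nat_lit 0) (nat_lit 8360) (XT.lf (nat_lit 0) (nat_lit 1073699238) (nat_lit 380) (nat_lit 1593041991) (nat_lit 76) (nat_lit 7221494777) (nat_lit 169) (nat_lit 5) (nat_lit 174) (nat_lit 5) (nat_lit 170) (nat_lit 5) (nat_lit 464) (nat_lit 347) (nat_lit 329)) (XT.lf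 (nat_lit 0) (nat_lit 1480347818) (nat_lit 608) (nat_lit 1357838618) (nat_lit 608) (nat_lit 1357838618) (nat_lit 279) (nat_lit 4) (nat_lit 287) (nat_lit 5) (nat_lit 287) (nat_lit 4) (nat_lit 444) (nat_lit 348) (nat_lit 348))))) (XT.nd (nat_lit 312) (nat_lit 2128) (nat_lit 0) (XT.nd (nat_lit 156) (nat_lit 608) (nat_lit 0) (XT.nd (nat_lit 78) (nat_lit 532) (nat_lit 0) (XT.lf (nat_lit 0) (nat_lit 1475935167) (nat_lit 608) (nat_lit 6565211429) (nat_lit 0) (nat_lit 413233148) (nat_lit 271) (nat_lit 5) (nat_lit 279) (nat_lit 4) (nat_lit 271) (nat_lit 4) (nat_lit 445) (nat_lit 348) (nat_lit 347)) (XT.lf (nat_lit 0) (nat_lit 787956296) (nat_lit 532) (nat_lit 4917202287) (nat_lit 532) (nat_lit 2812635542) (nat_lit 264) (nat_lit 4) (nat_lit 271) (nat_lit 5) (nat_lit 271) (nat_lit 4) (nat_lit 446) (nat_lit 348) (nat_lit 346))) (XT.nd (nat_lit 78) (nat_lit 532) (nat_lit 0) (XT.lf (nat_lit 0) (nat_lit 1392589441) (nat_lit 608)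 (nat_lit 312972078) (nat_lit 76) (nat_lit 6877229948) (nat_lit 263) (nat_lit 5) (nat_lit 271) (nat_lit 5) (nat_lit 264) (nat_lit 4) (nat_lit 447) (nat_lit 348) (nat_lit 345)) (XT.lf (nat_lit 0) (nat_lit 5633638867) (nat_lit 608) (nat_lit 1428132548) (nat_lit 0) (nat_lit 1587157888) (nat_lit 256) (nat_lit 5) (nat_lit 264) (nat_lit 4) (nat_lit 256) (nat_lit 4) (nat_lit 448) (nat_lit 348) (nat_lit 344)))) (XT.nd (nat_lit 156) (nat_lit 1064) (nat_lit 0) (XT.nd (nat_lit 78) (nat_lit 456) (nat_lit 0) (XT.lf (nat_lit 0) (nat_lit 1212632850) (nat_lit 608) (nat_lit 2559484582) (nat_lit 76) (nat_lit 4944394697) (nat_lit 248) (nat_lit 5) (nat_lit 256) (nat_lit 5) (nat_lit 249) (nat_lit 4) (nat_lit 449) (nat_lit 348) (nat_lit 343)) (XT.lf (nat_lit 0) (nat_lit 5076773897) (nat_lit 456) (nat_lit 383337893) (nat_lit 532) (nat_lit 3325428761) (nat_lit 242) (nat_lit 5) (nat_lit 248) (nat_lit 5) (nat_lit 249) (nat_lit 4) (nat_lit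 450) (nat_lit 348) (nat_lit 342))) (XT.nd (nat_lit 78) (nat_lit 456) (nat_lit 0) (XT.lf (nat_lit 0) (nat_lit 920573202) (nat_lit 608) (nat_lit 4883381327) (nat_lit 76) (nat_lit 3051948073) (nat_lit 234) (nat_lit 5) (nat_lit 242) (nat_lit 5) (nat_lit 235) (nat_lit 4) (nat_lit 451) (nat_lit 348) (nat_lit 341)) (XT.lf (nat_lit 0) (nat_lit 2844616252) (nat_lit 456) (nat_lit 2341906995) (nat_lit 532) (nat_lit 3741117916) (nat_lit 228) (nat_lit 5) (nat_lit 234) (nat_lit 5) (nat_lit 235) (nat_lit 4) (nat_lit 452) (nat_lit 348) (nat_lit 340)))))) (XT.nd (nat_lit 624) (nat_lit 1216) (nat_lit 0) (XT.nd (nat_lit 312) (nat_lit 1748) (nat_lit 0) (XT.nd (nat_lit 156) (nat_lit 532) (nat_lit 0) (XT.nd (nat_lit 78) (nat_lit 456) (nat_lit 0) (XT.lf (nat_lit 0) (nat_lit 515559572) (nat_lit 532) (nat_lit 7295772118) (nat_lit 76) (nat_lit 1189700590) (nat_lit 221) (nat_lit 5) (nat_lit 228) (nat_lit 5) (nat_lit 222) (nat_lit 4) (nat_lit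 453) (nat_lit 348) (nat_lit 339)) (XT.lf (nat_lit 0) (nat_lit 523822434) (nat_lit 456) (nat_lit 4277642010) (nat_lit 532) (nat_lit 4274048451) (nat_lit 215) (nat_lit 5) (nat_lit 221) (nat_lit 5) (nat_lit 222) (nat_lit 4) (nat_lit 454) (nat_lit 348) (nat_lit 338))) (XT.nd (nat_lit 78) (nat_lit 456) (nat_lit 0) (XT.lf (nat_lit 0) (nat_lit 4963064) (nat_lit 532) (nat_lit 651668707) (nat_lit 76) (nat_lit 8495175703) (nat_lit 214) (nat_lit 5) (nat_lit 221) (nat_lit 5) (nat_lit 215) (nat_lit 5) (nat_lit 455) (nat_lit 348) (nat_lit 337)) (XT.lf (nat_lit 0) (nat_lit 4315930566) (nat_lit 532) (nat_lit 1872049950) (nat_lit 76) (nat_lit 3041010295) (nat_lit 208) (nat_lit 5) (nat_lit 215) (nat_lit 5) (nat_lit 209) (nat_lit 4) (nat_lit 456) (nat_lit 348) (nat_lit 336)))) (XT.nd (nat_lit 156) (nat_lit 836) (nat_lit 0) (XT.nd (nat_lit 78) (nat_lit 532) (nat_lit 0) (XT.lf (nat_lit 0) (nat_lit 6206067488) (nat_lit 380) (nat_lit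 2492159254) (nat_lit 456) (nat_lit 609788886) (nat_lit 203) (nat_lit 5) (nat_lit 208) (nat_lit 5) (nat_lit 209) (nat_lit 4) (nat_lit 457) (nat_lit 348) (nat_lit 335)) (XT.lf (nat_lit 0) (nat_lit 3720058190) (nat_lit 532) (nat_lit 4371063367) (nat_lit 76) (nat_lit 1297207003) (nat_lit 196) (nat_lit 5) (nat_lit 203) (nat_lit 5) (nat_lit 197) (nat_lit 4) (nat_lit 458) (nat_lit 348) (nat_lit 334))) (XT.nd (nat_lit 78) (nat_lit 456) (nat_lit 0) (XT.lf (nat_lit 0) (nat_lit 3801787861) (nat_lit 380) (nat_lit 4325360716) (nat_lit 456) (nat_lit 1343042330) (nat_lit 191) (nat_lit 5) (nat_lit 196) (nat_lit 5) (nat_lit 197) (nat_lit 4) (nat_lit 459) (nat_lit 348) (nat_lit 333)) (XT.lf (nat_lit 0) (nat_lit 2559023864) (nat_lit 380) (nat_lit 452414753) (nat_lit 456) (nat_lit 6542193510) (nat_lit 185) (nat_lit 5) (nat_lit 190) (nat_lit 5) (nat_lit 191) (nat_lit 5) (nat_lit 460) (nat_lit 348) (nat_lit 332))))) (XT.nd (nat_lit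 57876) (nat_lit 0) (nat_lit 7752) (XT.nd (nat_lit 156) (nat_lit 760) (nat_lit 0) (XT.nd (nat_lit 78) (nat_lit 76) (nat_lit 0) (XT.lf (nat_lit 0) (nat_lit 1275693403) (nat_lit 380) (nat_lit 6165858055) (nat_lit 456) (nat_lit 2196882650) (nat_lit 180) (nat_lit 5) (nat_lit 185) (nat_lit 5) (nat_lit 186) (nat_lit 4) (nat_lit 461) (nat_lit 348) (nat_lit 331)) (XT.lf (nat_lit 0) (nat_lit 2193667398) (nat_lit 456) (nat_lit 34813712) (nat_lit 76) (nat_lit 7496407759) (nat_lit 179) (nat_lit 5) (nat_lit 185) (nat_lit 5) (nat_lit 180) (nat_lit 5) (nat_lit 462) (nat_lit 348) (nat_lit 330))) (XT.nd (nat_lit 78) (nat_lit 380) (nat_lit 0) (XT.lf (nat_lit 0) (nat_lit 6648025959) (nat_lit 456) (nat_lit 1365952266) (nat_lit 76) (nat_lit 1798695795) (nat_lit 174) (nat_lit 5) (nat_lit 180) (nat_lit 5) (nat_lit 175) (nat_lit 4) (nat_lit 463) (nat_lit 348) (nat_lit 329)) (XT.lf (nat_lit 0) (nat_lit 1272924763) (nat_lit 380) (nat_lit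 2732661085) (nat_lit 76) (nat_lit 5896450078) (nat_lit 169) (nat_lit 5) (nat_lit 174) (nat_lit 5) (nat_lit 170) (nat_lit 5) (nat_lit 464) (nat_lit 348) (nat_lit 328)))) (XT.nd (nat_lit 156) (nat_lit 1216) (nat_lit 0) (XT.nd (nat_lit 78) (nat_lit 608) (nat_lit 0) (XT.lf (nat_lit 0) (nat_lit 2564375966) (nat_lit 608) (nat_lit 785599344) (nat_lit 608) (nat_lit 785599344) (nat_lit 295) (nat_lit 4) (nat_lit 303) (nat_lit 5) (nat_lit 303) (nat_lit 4) (nat_lit 442) (nat_lit 349) (nat_lit 349)) (XT.lf (nat_lit 0) (nat_lit 2566567972) (nat_lit 608) (nat_lit 4303761242) (nat_lit 0) (nat_lit 1460932790) (nat_lit 287) (nat_lit 5) (nat_lit 295) (nat_lit 4) (nat_lit 287) (nat_lit 4) (nat_lit 443) (nat_lit 349) (nat_lit 348))) (XT.nd (nat_lit 78) (nat_lit 608) (nat_lit 0) (XT.lf (nat_lit 0) (nat_lit 2912592334) (nat_lit 608) (nat_lit 3834869967) (nat_lit 608) (nat_lit 1645278726) (nat_lit 279) (nat_lit 4) (nat_lit 287) (nat_lit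 5) (nat_lit 287) (nat_lit 4) (nat_lit 444) (nat_lit 349) (nat_lit 347)) (XT.lf (nat_lit 0) (nat_lit 1787210636) (nat_lit 532) (nat_lit 707593273) (nat_lit 608) (nat_lit 5960877582) (nat_lit 271) (nat_lit 5) (nat_lit 278) (nat_lit 5) (nat_lit 279) (nat_lit 4) (nat_lit 445) (nat_lit 349) (nat_lit 346))))))))
noncomputable def xc2 : XT := (XT.nd (nat_lit 59904) (nat_lit 0) (nat_lit 0) (XT.nd (nat_lit 1248) (nat_lit 836) (nat_lit 0) (XT.nd (nat_lit 624) (nat_lit 3116) (nat_lit 0) (XT.nd (nat_lit 312) (nat_lit 2052) (nat_lit 0) (XT.nd (nat_lit 156) (nat_lit 1140) (nat_lit 0) (XT.nd (nat_lit 78) (nat_lit 76) (nat_lit 0) (XT.lf (nat_lit 0) (nat_lit 639456980) (nat_lit 532) (nat_lit 6045192628) (nat_lit 532) (nat_lit 1835233818) (nat_lit 264) (nat_lit 4) (nat_lit 271) (nat_lit 5) (nat_lit 271) (nat_lit 4) (nat_lit 446) (nat_lit 349) (nat_lit 345)) (XT.lf (nat_lit 0) (nat_lit 2323485607) (nat_lit 608) (nat_lit 517925731)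 (nat_lit 76) (nat_lit 5744016246) (nat_lit 263) (nat_lit 5) (nat_lit 271) (nat_lit 5) (nat_lit 264) (nat_lit 4) (nat_lit 447) (nat_lit 349) (nat_lit 344))) (XT.nd (nat_lit 78) (nat_lit 608) (nat_lit 0) (XT.lf (nat_lit 0) (nat_lit 6522373796) (nat_lit 608) (nat_lit 1679366011) (nat_lit 0) (nat_lit 450668837) (nat_lit 256) (nat_lit 5) (nat_lit 264) (nat_lit 4) (nat_lit 256) (nat_lit 4) (nat_lit 448) (nat_lit 349) (nat_lit 343)) (XT.lf (nat_lit 0) (nat_lit 2051310103) (nat_lit 608) (nat_lit 2871707530) (nat_lit 76) (nat_lit 3797558244) (nat_lit 248) (nat_lit 5) (nat_lit 256) (nat_lit 5) (nat_lit 249) (nat_lit 4) (nat_lit 449) (nat_lit 349) (nat_lit 342)))) (XT.nd (nat_lit 156) (nat_lit 988) (nat_lit 0) (XT.nd (nat_lit 78) (nat_lit 608) (nat_lit 0) (XT.lf (nat_lit 0) (nat_lit 4712318496) (nat_lit 456) (nat_lit 1551453036) (nat_lit 532) (nat_lit 2526533118) (nat_lit 242) (nat_lit 5) (nat_lit 248) (nat_lit 5) (nat_lit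 249) (nat_lit 4) (nat_lit 450) (nat_lit 349) (nat_lit 341)) (XT.lf (nat_lit 0) (nat_lit 1666018041) (nat_lit 608) (nat_lit 5308668990) (nat_lit 76) (nat_lit 1886735396) (nat_lit 234) (nat_lit 5) (nat_lit 242) (nat_lit 5) (nat_lit 235) (nat_lit 4) (nat_lit 451) (nat_lit 349) (nat_lit 340))) (XT.nd (nat_lit 78) (nat_lit 532) (nat_lit 0) (XT.lf (nat_lit 0) (nat_lit 2365235491) (nat_lit 456) (nat_lit 3531322290) (nat_lit 532) (nat_lit 3037311411) (nat_lit 228) (nat_lit 5) (nat_lit 234) (nat_lit 5) (nat_lit 235) (nat_lit 4) (nat_lit 452) (nat_lit 349) (nat_lit 339)) (XT.lf (nat_lit 0) (nat_lit 1166592956) (nat_lit 532) (nat_lit 7840053976) (nat_lit 76) (nat_lit 1392837) (nat_lit 221) (nat_lit 5) (nat_lit 228) (nat_lit 5) (nat_lit 222) (nat_lit 4) (nat_lit 453) (nat_lit 349) (nat_lit 338))))) (XT.nd (nat_lit 312) (nat_lit 1748) (nat_lit 0) (XT.nd (nat_lit 156) (nat_lit 836) (nat_lit 0) (XT.nd (nat_lit 78) (nat_lit 532)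 (nat_lit 0) (XT.lf (nat_lit 0) (nat_lit 5417131977) (nat_lit 532) (nat_lit 75468379) (nat_lit 76) (nat_lit 3590627344) (nat_lit 221) (nat_lit 5) (nat_lit 228) (nat_lit 5) (nat_lit 222) (nat_lit 4) (nat_lit 454) (nat_lit 349) (nat_lit 337)) (XT.lf (nat_lit 0) (nat_lit 572584416) (nat_lit 532) (nat_lit 1311876743) (nat_lit 76) (nat_lit 7275629336) (nat_lit 214) (nat_lit 5) (nat_lit 221) (nat_lit 5) (nat_lit 215) (nat_lit 5) (nat_lit 455) (nat_lit 349) (nat_lit 336))) (XT.nd (nat_lit 78) (nat_lit 380) (nat_lit 0) (XT.lf (nat_lit 0) (nat_lit 4839556739) (nat_lit 532) (nat_lit 2589853767) (nat_lit 76) (nat_lit 1808743230) (nat_lit 208) (nat_lit 5) (nat_lit 215) (nat_lit 5) (nat_lit 209) (nat_lit 4) (nat_lit 456) (nat_lit 349) (nat_lit 335)) (XT.lf (nat_lit 0) (nat_lit 5430590482) (nat_lit 380) (nat_lit 3755197072) (nat_lit 456) (nat_lit 132112305) (nat_lit 203) (nat_lit 5) (nat_lit 208) (nat_lit 5) (nat_lit 209) (nat_lit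 4) (nat_lit 457) (nat_lit 349) (nat_lit 334)))) (XT.nd (nat_lit 156) (nat_lit 836) (nat_lit 0) (XT.nd (nat_lit 78) (nat_lit 380) (nat_lit 0) (XT.lf (nat_lit 0) (nat_lit 4146713042) (nat_lit 532) (nat_lit 5220464320) (nat_lit 76) (nat_lit 31868539) (nat_lit 196) (nat_lit 5) (nat_lit 203) (nat_lit 5) (nat_lit 197) (nat_lit 4) (nat_lit 458) (nat_lit 349) (nat_lit 333)) (XT.lf (nat_lit 0) (nat_lit 2892671116) (nat_lit 380) (nat_lit 5624489169) (nat_lit 456) (nat_lit 964480827) (nat_lit 191) (nat_lit 5) (nat_lit 196) (nat_lit 5) (nat_lit 197) (nat_lit 4) (nat_lit 459) (nat_lit 349) (nat_lit 332))) (XT.nd (nat_lit 78) (nat_lit 380) (nat_lit 0) (XT.lf (nat_lit 0) (nat_lit 1575210726) (nat_lit 380) (nat_lit 1772789235) (nat_lit 456) (nat_lit 6217773918) (nat_lit 185) (nat_lit 5) (nat_lit 190) (nat_lit 5) (nat_lit 191) (nat_lit 5) (nat_lit 460) (nat_lit 349) (nat_lit 331)) (XT.lf (nat_lit 0) (nat_lit 226484967) (nat_lit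 380) (nat_lit 7505775550) (nat_lit 456) (nat_lit 1919232390) (nat_lit 180) (nat_lit 5) (nat_lit 185) (nat_lit 5) (nat_lit 186) (nat_lit 4) (nat_lit 461) (nat_lit 349) (nat_lit 330)))))) (XT.nd (nat_lit 58032) (nat_lit 0) (nat_lit 4484) (XT.nd (nat_lit 57720) (nat_lit 0) (nat_lit 8360) (XT.nd (nat_lit 156) (nat_lit 380) (nat_lit 0) (XT.nd (nat_lit 78) (nat_lit 380) (nat_lit 0) (XT.lf (nat_lit 0) (nat_lit 2437296354) (nat_lit 456) (nat_lit 1147036882) (nat_lit 76) (nat_lit 6154185974) (nat_lit 179) (nat_lit 5) (nat_lit 185) (nat_lit 5) (nat_lit 180) (nat_lit 5) (nat_lit 462) (nat_lit 349) (nat_lit 329)) (XT.lf (nat_lit 0) (nat_lit 6845276143) (nat_lit 456) (nat_lit 2546204588) (nat_lit 76) (nat_lit 435751206) (nat_lit 174) (nat_lit 5) (nat_lit 180) (nat_lit 5) (nat_lit 175) (nat_lit 4) (nat_lit 463) (nat_lit 349) (nat_lit 328))) (XT.nd (nat_lit 57486) (nat_lit 0) (nat_lit 10868) (XT.lf (nat_lit 0) (nat_lit 1415277246)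 (nat_lit 380) (nat_lit 3992851906) (nat_lit 76) (nat_lit 4509199842) (nat_lit 169) (nat_lit 5) (nat_lit 174) (nat_lit 5) (nat_lit 170) (nat_lit 5) (nat_lit 464) (nat_lit 349) (nat_lit 327)) (XT.lf (nat_lit 0) (nat_lit 3672116064) (nat_lit 608) (nat_lit 202537602) (nat_lit 608) (nat_lit 202537602) (nat_lit 312) (nat_lit 4) (nat_lit 320) (nat_lit 5) (nat_lit 320) (nat_lit 4) (nat_lit 440) (nat_lit 350) (nat_lit 350)))) (XT.nd (nat_lit 156) (nat_lit 1216) (nat_lit 0) (XT.nd (nat_lit 78) (nat_lit 608) (nat_lit 0) (XT.lf (nat_lit 0) (nat_lit 3681046556) (nat_lit 684) (nat_lit 2000491305) (nat_lit 0) (nat_lit 2530743714) (nat_lit 303) (nat_lit 5) (nat_lit 312) (nat_lit 4) (nat_lit 303) (nat_lit 4) (nat_lit 441) (nat_lit 350) (nat_lit 349)) (XT.lf (nat_lit 0) (nat_lit 5082028323) (nat_lit 608) (nat_lit 2733928820) (nat_lit 608) (nat_lit 455878092) (nat_lit 295) (nat_lit 4) (nat_lit 303) (nat_lit 5) (nat_lit 303) (nat_lit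 4) (nat_lit 442) (nat_lit 350) (nat_lit 348))) (XT.nd (nat_lit 78) (nat_lit 608) (nat_lit 0) (XT.lf (nat_lit 0) (nat_lit 3625164316) (nat_lit 608) (nat_lit 4399655529) (nat_lit 0) (nat_lit 307825189) (nat_lit 287) (nat_lit 5) (nat_lit 295) (nat_lit 4) (nat_lit 287) (nat_lit 4) (nat_lit 443) (nat_lit 350) (nat_lit 347)) (XT.lf (nat_lit 0) (nat_lit 2768263561) (nat_lit 608) (nat_lit 5003295814) (nat_lit 608) (nat_lit 623254668) (nat_lit 279) (nat_lit 4) (nat_lit 287) (nat_lit 5) (nat_lit 287) (nat_lit 4) (nat_lit 444) (nat_lit 350) (nat_lit 346))))) (XT.nd (nat_lit 312) (nat_lit 2128) (nat_lit 0) (XT.nd (nat_lit 156) (nat_lit 608) (nat_lit 0) (XT.nd (nat_lit 78) (nat_lit 532) (nat_lit 0) (XT.lf (nat_lit 0) (nat_lit 1584839471) (nat_lit 532) (nat_lit 1883846341) (nat_lit 608) (nat_lit 4989630744) (nat_lit 271) (nat_lit 5) (nat_lit 278) (nat_lit 5) (nat_lit 279) (nat_lit 4) (nat_lit 445) (nat_lit 350) (nat_lit 345))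 (XT.lf (nat_lit 0) (nat_lit 391893415) (nat_lit 532) (nat_lit 7224237464) (nat_lit 532) (nat_lit 907235624) (nat_lit 264) (nat_lit 4) (nat_lit 271) (nat_lit 5) (nat_lit 271) (nat_lit 4) (nat_lit 446) (nat_lit 350) (nat_lit 344))) (XT.nd (nat_lit 78) (nat_lit 532) (nat_lit 0) (XT.lf (nat_lit 0) (nat_lit 3206286702) (nat_lit 608) (nat_lit 822075100) (nat_lit 76) (nat_lit 4561088881) (nat_lit 263) (nat_lit 5) (nat_lit 271) (nat_lit 5) (nat_lit 264) (nat_lit 4) (nat_lit 447) (nat_lit 350) (nat_lit 343)) (XT.lf (nat_lit 0) (nat_lit 6621107681) (nat_lit 532) (nat_lit 746418992) (nat_lit 608) (nat_lit 1289658035) (nat_lit 256) (nat_lit 5) (nat_lit 263) (nat_lit 5) (nat_lit 264) (nat_lit 4) (nat_lit 448) (nat_lit 350) (nat_lit 342)))) (XT.nd (nat_lit 156) (nat_lit 1064) (nat_lit 0) (XT.nd (nat_lit 78) (nat_lit 456) (nat_lit 0) (XT.lf (nat_lit 0) (nat_lit 2840805427) (nat_lit 608) (nat_lit 3286029097) (nat_lit 76) (nat_lit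 2599205488) (nat_lit 248) (nat_lit 5) (nat_lit 256) (nat_lit 5) (nat_lit 249) (nat_lit 4) (nat_lit 449) (nat_lit 350) (nat_lit 341)) (XT.lf (nat_lit 0) (nat_lit 4245350447) (nat_lit 456) (nat_lit 2772873537) (nat_lit 532) (nat_lit 1778245658) (nat_lit 242) (nat_lit 5) (nat_lit 248) (nat_lit 5) (nat_lit 249) (nat_lit 4) (nat_lit 450) (nat_lit 350) (nat_lit 340))) (XT.nd (nat_lit 78) (nat_lit 456) (nat_lit 0) (XT.lf (nat_lit 0) (nat_lit 2361130127) (nat_lit 608) (nat_lit 5839030391) (nat_lit 76) (nat_lit 668196961) (nat_lit 234) (nat_lit 5) (nat_lit 242) (nat_lit 5) (nat_lit 235) (nat_lit 4) (nat_lit 451) (nat_lit 350) (nat_lit 339)) (XT.lf (nat_lit 0) (nat_lit 1780334445) (nat_lit 456) (nat_lit 4775873301) (nat_lit 532) (nat_lit 2385305741) (nat_lit 228) (nat_lit 5) (nat_lit 234) (nat_lit 5) (nat_lit 235) (nat_lit 4) (nat_lit 452) (nat_lit 350) (nat_lit 338))))))) (XT.nd (nat_lit 58500) (nat_lit 0) (nat_lit 2508)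 (XT.nd (nat_lit 624) (nat_lit 1216) (nat_lit 0) (XT.nd (nat_lit 312) (nat_lit 1748) (nat_lit 0) (XT.nd (nat_lit 156) (nat_lit 988) (nat_lit 0) (XT.nd (nat_lit 78) (nat_lit 0) (nat_lit 0) (XT.lf (nat_lit 0) (nat_lit 515681792) (nat_lit 456) (nat_lit 1258567677) (nat_lit 532) (nat_lit 7242065889) (nat_lit 221) (nat_lit 5) (nat_lit 227) (nat_lit 5) (nat_lit 228) (nat_lit 5) (nat_lit 453) (nat_lit 350) (nat_lit 337)) (XT.lf (nat_lit 0) (nat_lit 5985278947) (nat_lit 532) (nat_lit 775071545) (nat_lit 76) (nat_lit 2331942990) (nat_lit 221) (nat_lit 5) (nat_lit 228) (nat_lit 5) (nat_lit 222) (nat_lit 4) (nat_lit 454) (nat_lit 350) (nat_lit 336))) (XT.nd (nat_lit 78) (nat_lit 456) (nat_lit 0) (XT.lf (nat_lit 0) (nat_lit 1088466517) (nat_lit 532) (nat_lit 2080834158) (nat_lit 76) (nat_lit 6000500334) (nat_lit 214) (nat_lit 5) (nat_lit 221) (nat_lit 5) (nat_lit 215) (nat_lit 5) (nat_lit 455) (nat_lit 350) (nat_lit 335)) (XT.lf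 (nat_lit 0) (nat_lit 5310973927) (nat_lit 532) (nat_lit 3417969050) (nat_lit 76) (nat_lit 519810572) (nat_lit 208) (nat_lit 5) (nat_lit 215) (nat_lit 5) (nat_lit 209) (nat_lit 4) (nat_lit 456) (nat_lit 350) (nat_lit 334)))) (XT.nd (nat_lit 156) (nat_lit 836) (nat_lit 0) (XT.nd (nat_lit 78) (nat_lit 456) (nat_lit 0) (XT.lf (nat_lit 0) (nat_lit 287977937) (nat_lit 456) (nat_lit 4786837963) (nat_lit 76) (nat_lit 4254369412) (nat_lit 202) (nat_lit 5) (nat_lit 208) (nat_lit 5) (nat_lit 203) (nat_lit 5) (nat_lit 457) (nat_lit 350) (nat_lit 333)) (XT.lf (nat_lit 0) (nat_lit 3219155377) (nat_lit 456) (nat_lit 1309149559) (nat_lit 532) (nat_lit 4882744576) (nat_lit 196) (nat_lit 5) (nat_lit 202) (nat_lit 5) (nat_lit 203) (nat_lit 5) (nat_lit 458) (nat_lit 350) (nat_lit 332))) (XT.nd (nat_lit 78) (nat_lit 456) (nat_lit 0) (XT.lf (nat_lit 0) (nat_lit 1869466199) (nat_lit 380) (nat_lit 6984004989) (nat_lit 456) (nat_lit 641079154)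 (nat_lit 191) (nat_lit 5) (nat_lit 196) (nat_lit 5) (nat_lit 197) (nat_lit 4) (nat_lit 459) (nat_lit 350) (nat_lit 331)) (XT.lf (nat_lit 0) (nat_lit 475629132) (nat_lit 380) (nat_lit 3154345065) (nat_lit 456) (nat_lit 5949410637) (nat_lit 185) (nat_lit 5) (nat_lit 190) (nat_lit 5) (nat_lit 191) (nat_lit 5) (nat_lit 460) (nat_lit 350) (nat_lit 330))))) (XT.nd (nat_lit 57564) (nat_lit 0) (nat_lit 10184) (XT.nd (nat_lit 156) (nat_lit 760) (nat_lit 0) (XT.nd (nat_lit 78) (nat_lit 456) (nat_lit 0) (XT.lf (nat_lit 0) (nat_lit 7973924303) (nat_lit 456) (nat_lit 927831266) (nat_lit 76) (nat_lit 764154501) (nat_lit 185) (nat_lit 5) (nat_lit 191) (nat_lit 5) (nat_lit 186) (nat_lit 4) (nat_lit 461) (nat_lit 350) (nat_lit 329)) (XT.lf (nat_lit 0) (nat_lit 2625633830) (nat_lit 456) (nat_lit 2376866828) (nat_lit 76) (nat_lit 4751124782) (nat_lit 179) (nat_lit 5) (nat_lit 185) (nat_lit 5) (nat_lit 180) (nat_lit 5) (nat_lit 462)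 (nat_lit 350) (nat_lit 328))) (XT.nd (nat_lit 78) (nat_lit 380) (nat_lit 0) (XT.lf (nat_lit 0) (nat_lit 5990879253) (nat_lit 380) (nat_lit 1002271916) (nat_lit 456) (nat_lit 2849996248) (nat_lit 174) (nat_lit 5) (nat_lit 179) (nat_lit 5) (nat_lit 180) (nat_lit 5) (nat_lit 463) (nat_lit 350) (nat_lit 327)) (XT.lf (nat_lit 0) (nat_lit 1500812512) (nat_lit 380) (nat_lit 5374108647) (nat_lit 76) (nat_lit 3059200051) (nat_lit 169) (nat_lit 5) (nat_lit 174) (nat_lit 5) (nat_lit 170) (nat_lit 5) (nat_lit 464) (nat_lit 350) (nat_lit 326)))) (XT.nd (nat_lit 156) (nat_lit 684) (nat_lit 0) (XT.nd (nat_lit 78) (nat_lit 608) (nat_lit 0) (XT.lf (nat_lit 0) (nat_lit 394621124) (nat_lit 684) (nat_lit 3231422082) (nat_lit 0) (nat_lit 394621124) (nat_lit 320) (nat_lit 5) (nat_lit 329) (nat_lit 4) (nat_lit 320) (nat_lit 4) (nat_lit 438) (nat_lit 351) (nat_lit 351)) (XT.lf (nat_lit 0) (nat_lit 351874221) (nat_lit 608) (nat_lit 4471141058)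 (nat_lit 608) (nat_lit 3274365980) (nat_lit 312) (nat_lit 4) (nat_lit 320) (nat_lit 5) (nat_lit 320) (nat_lit 4) (nat_lit 439) (nat_lit 351) (nat_lit 350))) (XT.nd (nat_lit 78) (nat_lit 608) (nat_lit 0) (XT.lf (nat_lit 0) (nat_lit 747021898) (nat_lit 684) (nat_lit 861099741) (nat_lit 76) (nat_lit 6546843986) (nat_lit 311) (nat_lit 5) (nat_lit 320) (nat_lit 5) (nat_lit 312) (nat_lit 4) (nat_lit 440) (nat_lit 351) (nat_lit 349)) (XT.lf (nat_lit 0) (nat_lit 4785689678) (nat_lit 684) (nat_lit 2093635162) (nat_lit 0) (nat_lit 1334330051) (nat_lit 303) (nat_lit 5) (nat_lit 312) (nat_lit 4) (nat_lit 303) (nat_lit 4) (nat_lit 441) (nat_lit 351) (nat_lit 348)))))) (XT.nd (nat_lit 624) (nat_lit 3496) (nat_lit 0) (XT.nd (nat_lit 312) (nat_lit 1748) (nat_lit 0) (XT.nd (nat_lit 156) (nat_lit 1216) (nat_lit 0) (XT.nd (nat_lit 78) (nat_lit 532) (nat_lit 0) (XT.lf (nat_lit 0) (nat_lit 604437689) (nat_lit 684) (nat_lit 3336030674)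 (nat_lit 76) (nat_lit 4333345388) (nat_lit 294) (nat_lit 5) (nat_lit 303) (nat_lit 5) (nat_lit 295) (nat_lit 4) (nat_lit 442) (nat_lit 351) (nat_lit 347)) (XT.lf (nat_lit 0) (nat_lit 3737936040) (nat_lit 532) (nat_lit 905077280) (nat_lit 608) (nat_lit 3692280791) (nat_lit 287) (nat_lit 5) (nat_lit 294) (nat_lit 5) (nat_lit 295) (nat_lit 4) (nat_lit 443) (nat_lit 351) (nat_lit 346))) (XT.nd (nat_lit 78) (nat_lit 532) (nat_lit 0) (XT.lf (nat_lit 0) (nat_lit 346194979) (nat_lit 684) (nat_lit 5872894854) (nat_lit 76) (nat_lit 2179134588) (nat_lit 278) (nat_lit 5) (nat_lit 287) (nat_lit 5) (nat_lit 279) (nat_lit 4) (nat_lit 444) (nat_lit 351) (nat_lit 345)) (XT.lf (nat_lit 0) (nat_lit 1284748473) (nat_lit 532) (nat_lit 3110495681) (nat_lit 608) (nat_lit 4067096194) (nat_lit 271) (nat_lit 5) (nat_lit 278) (nat_lit 5) (nat_lit 279) (nat_lit 4) (nat_lit 445) (nat_lit 351) (nat_lit 344)))) (XT.nd (nat_lit 156) (nat_lit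 1140) (nat_lit 0) (XT.nd (nat_lit 78) (nat_lit 76) (nat_lit 0) (XT.lf (nat_lit 0) (nat_lit 45168517) (nat_lit 532) (nat_lit 8454799166) (nat_lit 532) (nat_lit 28277042) (nat_lit 264) (nat_lit 4) (nat_lit 271) (nat_lit 5) (nat_lit 271) (nat_lit 4) (nat_lit 446) (nat_lit 351) (nat_lit 343)) (XT.lf (nat_lit 0) (nat_lit 4041338924) (nat_lit 608) (nat_lit 1225539458) (nat_lit 76) (nat_lit 3327983961) (nat_lit 263) (nat_lit 5) (nat_lit 271) (nat_lit 5) (nat_lit 264) (nat_lit 4) (nat_lit 447) (nat_lit 351) (nat_lit 342))) (XT.nd (nat_lit 78) (nat_lit 608) (nat_lit 0) (XT.lf (nat_lit 0) (nat_lit 6166430686) (nat_lit 532) (nat_lit 2001452359) (nat_lit 608) (nat_lit 495407239) (nat_lit 256) (nat_lit 5) (nat_lit 263) (nat_lit 5) (nat_lit 264) (nat_lit 4) (nat_lit 448) (nat_lit 351) (nat_lit 341)) (XT.lf (nat_lit 0) (nat_lit 3581428426) (nat_lit 608) (nat_lit 3802611762) (nat_lit 76) (nat_lit 1348866486) (nat_lit 248) (nat_lit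 5) (nat_lit 256) (nat_lit 5) (nat_lit 249) (nat_lit 4) (nat_lit 449) (nat_lit 351) (nat_lit 340))))) (XT.nd (nat_lit 312) (nat_lit 1900) (nat_lit 0) (XT.nd (nat_lit 156) (nat_lit 532) (nat_lit 0) (XT.nd (nat_lit 78) (nat_lit 608) (nat_lit 0) (XT.lf (nat_lit 0) (nat_lit 3675686625) (nat_lit 456) (nat_lit 4048078384) (nat_lit 532) (nat_lit 1080272934) (nat_lit 242) (nat_lit 5) (nat_lit 248) (nat_lit 5) (nat_lit 249) (nat_lit 4) (nat_lit 450) (nat_lit 351) (nat_lit 339)) (XT.lf (nat_lit 0) (nat_lit 2397982834) (nat_lit 532) (nat_lit 612173857) (nat_lit 608) (nat_lit 5866474297) (nat_lit 234) (nat_lit 5) (nat_lit 241) (nat_lit 5) (nat_lit 242) (nat_lit 5) (nat_lit 451) (nat_lit 351) (nat_lit 338))) (XT.nd (nat_lit 78) (nat_lit 76) (nat_lit 0) (XT.lf (nat_lit 0) (nat_lit 1089683741) (nat_lit 456) (nat_lit 6076048088) (nat_lit 532) (nat_lit 1784845218) (nat_lit 228) (nat_lit 5) (nat_lit 234) (nat_lit 5) (nat_lit 235)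 (nat_lit 4) (nat_lit 452) (nat_lit 351) (nat_lit 337)) (XT.lf (nat_lit 0) (nat_lit 2332551824) (nat_lit 532) (nat_lit 240752697) (nat_lit 76) (nat_lit 6452682085) (nat_lit 227) (nat_lit 5) (nat_lit 234) (nat_lit 5) (nat_lit 228) (nat_lit 5) (nat_lit 453) (nat_lit 351) (nat_lit 336)))) (XT.nd (nat_lit 156) (nat_lit 912) (nat_lit 0) (XT.nd (nat_lit 78) (nat_lit 532) (nat_lit 0) (XT.lf (nat_lit 0) (nat_lit 6502727154) (nat_lit 532) (nat_lit 1582131441) (nat_lit 76) (nat_lit 1017923217) (nat_lit 221) (nat_lit 5) (nat_lit 228) (nat_lit 5) (nat_lit 222) (nat_lit 4) (nat_lit 454) (nat_lit 351) (nat_lit 335)) (XT.lf (nat_lit 0) (nat_lit 1552811674) (nat_lit 532) (nat_lit 2958842505) (nat_lit 76) (nat_lit 4669288648) (nat_lit 214) (nat_lit 5) (nat_lit 221) (nat_lit 5) (nat_lit 215) (nat_lit 5) (nat_lit 455) (nat_lit 351) (nat_lit 334))) (XT.nd (nat_lit 78) (nat_lit 456) (nat_lit 0) (XT.lf (nat_lit 0) (nat_lit 4898528997)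 (nat_lit 456) (nat_lit 837274142) (nat_lit 532) (nat_lit 3524882546) (nat_lit 208) (nat_lit 5) (nat_lit 214) (nat_lit 5) (nat_lit 215) (nat_lit 5) (nat_lit 456) (nat_lit 351) (nat_lit 333)) (XT.lf (nat_lit 0) (nat_lit 653445366) (nat_lit 456) (nat_lit 5799501116) (nat_lit 76) (nat_lit 2888957638) (nat_lit 202) (nat_lit 5) (nat_lit 208) (nat_lit 5) (nat_lit 203) (nat_lit 5) (nat_lit 457) (nat_lit 351) (nat_lit 332))))))))
noncomputable def xc3 : XT := (XT.nd (nat_lit 59592) (nat_lit 0) (nat_lit 0) (XT.nd (nat_lit 58344) (nat_lit 0) (nat_lit 1596) (XT.nd (nat_lit 57720) (nat_lit 0) (nat_lit 8284) (XT.nd (nat_lit 312) (nat_lit 1216) (nat_lit 0) (XT.nd (nat_lit 156) (nat_lit 456) (nat_lit 0) (XT.nd (nat_lit 78) (nat_lit 380) (nat_lit 0) (XT.lf (nat_lit 0) (nat_lit 2146673627) (nat_lit 456) (nat_lit 2710404701) (nat_lit 532) (nat_lit 4567423874) (nat_lit 196) (nat_lit 5) (nat_lit 202) (nat_lit 5) (nat_lit 203) (nat_lit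 5) (nat_lit 458) (nat_lit 351) (nat_lit 331)) (XT.lf (nat_lit 0) (nat_lit 731771853) (nat_lit 380) (nat_lit 8404441320) (nat_lit 456) (nat_lit 372710487) (nat_lit 191) (nat_lit 5) (nat_lit 196) (nat_lit 5) (nat_lit 197) (nat_lit 4) (nat_lit 459) (nat_lit 351) (nat_lit 330))) (XT.nd (nat_lit 78) (nat_lit 380) (nat_lit 0) (XT.lf (nat_lit 0) (nat_lit 3862277460) (nat_lit 456) (nat_lit 730444899) (nat_lit 76) (nat_lit 5001651857) (nat_lit 190) (nat_lit 5) (nat_lit 196) (nat_lit 5) (nat_lit 191) (nat_lit 5) (nat_lit 460) (nat_lit 351) (nat_lit 329)) (XT.lf (nat_lit 0) (nat_lit 7481702246) (nat_lit 380) (nat_lit 685515562) (nat_lit 456) (nat_lit 1514461840) (nat_lit 185) (nat_lit 5) (nat_lit 190) (nat_lit 5) (nat_lit 191) (nat_lit 5) (nat_lit 461) (nat_lit 351) (nat_lit 328)))) (XT.nd (nat_lit 156) (nat_lit 380) (nat_lit 0) (XT.nd (nat_lit 78) (nat_lit 380) (nat_lit 0) (XT.lf (nat_lit 0) (nat_lit 2758753685) (nat_lit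 456) (nat_lit 3724785834) (nat_lit 76) (nat_lit 3286673963) (nat_lit 179) (nat_lit 5) (nat_lit 185) (nat_lit 5) (nat_lit 180) (nat_lit 5) (nat_lit 462) (nat_lit 351) (nat_lit 327)) (XT.lf (nat_lit 0) (nat_lit 4579068211) (nat_lit 380) (nat_lit 2509408767) (nat_lit 456) (nat_lit 2772014361) (nat_lit 174) (nat_lit 5) (nat_lit 179) (nat_lit 5) (nat_lit 180) (nat_lit 5) (nat_lit 463) (nat_lit 351) (nat_lit 326))) (XT.nd (nat_lit 57174) (nat_lit 0) (nat_lit 12844) (XT.lf (nat_lit 0) (nat_lit 1529564105) (nat_lit 380) (nat_lit 6876972977) (nat_lit 76) (nat_lit 1545882076) (nat_lit 169) (nat_lit 5) (nat_lit 174) (nat_lit 5) (nat_lit 170) (nat_lit 5) (nat_lit 464) (nat_lit 351) (nat_lit 325)) (XT.lf (nat_lit 0) (nat_lit 1005403762) (nat_lit 760) (nat_lit 1955275948) (nat_lit 0) (nat_lit 1005403762) (nat_lit 338) (nat_lit 5) (nat_lit 348) (nat_lit 4) (nat_lit 338) (nat_lit 4) (nat_lit 436) (nat_lit 352) (nat_lit 352)))))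 (XT.nd (nat_lit 312) (nat_lit 2508) (nat_lit 0) (XT.nd (nat_lit 156) (nat_lit 684) (nat_lit 0) (XT.nd (nat_lit 78) (nat_lit 684) (nat_lit 0) (XT.lf (nat_lit 0) (nat_lit 2778682984) (nat_lit 684) (nat_lit 3226385327) (nat_lit 684) (nat_lit 1981260537) (nat_lit 329) (nat_lit 4) (nat_lit 338) (nat_lit 5) (nat_lit 338) (nat_lit 4) (nat_lit 437) (nat_lit 352) (nat_lit 351)) (XT.lf (nat_lit 0) (nat_lit 1530553875) (nat_lit 608) (nat_lit 447856641) (nat_lit 684) (nat_lit 6063548991) (nat_lit 320) (nat_lit 5) (nat_lit 328) (nat_lit 5) (nat_lit 329) (nat_lit 4) (nat_lit 438) (nat_lit 352) (nat_lit 350))) (XT.nd (nat_lit 78) (nat_lit 76) (nat_lit 0) (XT.lf (nat_lit 0) (nat_lit 260260488) (nat_lit 608) (nat_lit 5714645859) (nat_lit 608) (nat_lit 2123851303) (nat_lit 312) (nat_lit 4) (nat_lit 320) (nat_lit 5) (nat_lit 320) (nat_lit 4) (nat_lit 439) (nat_lit 352) (nat_lit 349)) (XT.lf (nat_lit 0) (nat_lit 1848825125) (nat_lit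 684) (nat_lit 1006470644) (nat_lit 76) (nat_lit 5301569294) (nat_lit 311) (nat_lit 5) (nat_lit 320) (nat_lit 5) (nat_lit 312) (nat_lit 4) (nat_lit 440) (nat_lit 352) (nat_lit 348)))) (XT.nd (nat_lit 156) (nat_lit 1216) (nat_lit 0) (XT.nd (nat_lit 78) (nat_lit 684) (nat_lit 0) (XT.lf (nat_lit 0) (nat_lit 5845106271) (nat_lit 684) (nat_lit 2279959403) (nat_lit 0) (nat_lit 91336385) (nat_lit 303) (nat_lit 5) (nat_lit 312) (nat_lit 4) (nat_lit 303) (nat_lit 4) (nat_lit 441) (nat_lit 352) (nat_lit 347)) (XT.lf (nat_lit 0) (nat_lit 1612831908) (nat_lit 684) (nat_lit 3579805491) (nat_lit 76) (nat_lit 3084474647) (nat_lit 294) (nat_lit 5) (nat_lit 303) (nat_lit 5) (nat_lit 295) (nat_lit 4) (nat_lit 442) (nat_lit 352) (nat_lit 346))) (XT.nd (nat_lit 78) (nat_lit 684) (nat_lit 0) (XT.lf (nat_lit 0) (nat_lit 3445869685) (nat_lit 532) (nat_lit 2171109349) (nat_lit 608) (nat_lit 2722301941) (nat_lit 287) (nat_lit 5) (nat_lit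 294) (nat_lit 5) (nat_lit 295) (nat_lit 4) (nat_lit 443) (nat_lit 352) (nat_lit 345)) (XT.lf (nat_lit 0) (nat_lit 1260503025) (nat_lit 684) (nat_lit 6220737507) (nat_lit 76) (nat_lit 921703786) (nat_lit 278) (nat_lit 5) (nat_lit 287) (nat_lit 5) (nat_lit 279) (nat_lit 4) (nat_lit 444) (nat_lit 352) (nat_lit 344)))))) (XT.nd (nat_lit 624) (nat_lit 2888) (nat_lit 0) (XT.nd (nat_lit 312) (nat_lit 2052) (nat_lit 0) (XT.nd (nat_lit 156) (nat_lit 1140) (nat_lit 0) (XT.nd (nat_lit 78) (nat_lit 76) (nat_lit 0) (XT.lf (nat_lit 0) (nat_lit 886819958) (nat_lit 532) (nat_lit 4388022331) (nat_lit 608) (nat_lit 3192912153) (nat_lit 271) (nat_lit 5) (nat_lit 278) (nat_lit 5) (nat_lit 279) (nat_lit 4) (nat_lit 445) (nat_lit 352) (nat_lit 343)) (XT.lf (nat_lit 0) (nat_lit 802036859) (nat_lit 608) (nat_lit 408769273) (nat_lit 76) (nat_lit 7323398361) (nat_lit 270) (nat_lit 5) (nat_lit 278) (nat_lit 5) (nat_lit 271) (nat_lit 5) (nat_lit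 446) (nat_lit 352) (nat_lit 342))) (XT.nd (nat_lit 78) (nat_lit 608) (nat_lit 0) (XT.lf (nat_lit 0) (nat_lit 4828969744) (nat_lit 608) (nat_lit 1728477026) (nat_lit 76) (nat_lit 2044217914) (nat_lit 263) (nat_lit 5) (nat_lit 271) (nat_lit 5) (nat_lit 264) (nat_lit 4) (nat_lit 447) (nat_lit 352) (nat_lit 341)) (XT.lf (nat_lit 0) (nat_lit 246725925) (nat_lit 608) (nat_lit 3060552694) (nat_lit 76) (nat_lit 5363475982) (nat_lit 255) (nat_lit 5) (nat_lit 263) (nat_lit 5) (nat_lit 256) (nat_lit 5) (nat_lit 448) (nat_lit 352) (nat_lit 340)))) (XT.nd (nat_lit 156) (nat_lit 1064) (nat_lit 0) (XT.nd (nat_lit 78) (nat_lit 456) (nat_lit 0) (XT.lf (nat_lit 0) (nat_lit 4273469540) (nat_lit 608) (nat_lit 4421658106) (nat_lit 76) (nat_lit 46050908) (nat_lit 248) (nat_lit 5) (nat_lit 256) (nat_lit 5) (nat_lit 249) (nat_lit 4) (nat_lit 449) (nat_lit 352) (nat_lit 339)) (XT.lf (nat_lit 0) (nat_lit 3003103632) (nat_lit 456) (nat_lit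 5377567657) (nat_lit 532) (nat_lit 432341231) (nat_lit 242) (nat_lit 5) (nat_lit 248) (nat_lit 5) (nat_lit 249) (nat_lit 4) (nat_lit 450) (nat_lit 352) (nat_lit 338))) (XT.nd (nat_lit 78) (nat_lit 456) (nat_lit 0) (XT.lf (nat_lit 0) (nat_lit 1657680456) (nat_lit 532) (nat_lit 1956448889) (nat_lit 608) (nat_lit 5272101312) (nat_lit 234) (nat_lit 5) (nat_lit 241) (nat_lit 5) (nat_lit 242) (nat_lit 5) (nat_lit 451) (nat_lit 352) (nat_lit 337)) (XT.lf (nat_lit 0) (nat_lit 293012535) (nat_lit 456) (nat_lit 7432356522) (nat_lit 532) (nat_lit 1235694366) (nat_lit 228) (nat_lit 5) (nat_lit 234) (nat_lit 5) (nat_lit 235) (nat_lit 4) (nat_lit 452) (nat_lit 352) (nat_lit 336))))) (XT.nd (nat_lit 312) (nat_lit 1368) (nat_lit 0) (XT.nd (nat_lit 156) (nat_lit 988) (nat_lit 0) (XT.nd (nat_lit 78) (nat_lit 456) (nat_lit 0) (XT.lf (nat_lit 0) (nat_lit 2844172156) (nat_lit 532) (nat_lit 1096631005) (nat_lit 76) (nat_lit 5096205078)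 (nat_lit 227) (nat_lit 5) (nat_lit 234) (nat_lit 5) (nat_lit 228) (nat_lit 5) (nat_lit 453) (nat_lit 352) (nat_lit 335)) (XT.lf (nat_lit 0) (nat_lit 6615370492) (nat_lit 456) (nat_lit 356624469) (nat_lit 532) (nat_lit 2142655536) (nat_lit 221) (nat_lit 5) (nat_lit 227) (nat_lit 5) (nat_lit 228) (nat_lit 5) (nat_lit 454) (nat_lit 352) (nat_lit 334))) (XT.nd (nat_lit 78) (nat_lit 456) (nat_lit 0) (XT.lf (nat_lit 0) (nat_lit 1965801982) (nat_lit 532) (nat_lit 3946246100) (nat_lit 76) (nat_lit 3281472233) (nat_lit 214) (nat_lit 5) (nat_lit 221) (nat_lit 5) (nat_lit 215) (nat_lit 5) (nat_lit 455) (nat_lit 352) (nat_lit 333)) (XT.lf (nat_lit 0) (nat_lit 3852839514) (nat_lit 456) (nat_lit 2259732594) (nat_lit 532) (nat_lit 3161415492) (nat_lit 208) (nat_lit 5) (nat_lit 214) (nat_lit 5) (nat_lit 215) (nat_lit 5) (nat_lit 456) (nat_lit 352) (nat_lit 332)))) (XT.nd (nat_lit 156) (nat_lit 456) (nat_lit 0) (XT.nd (nat_lit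 78) (nat_lit 456) (nat_lit 0) (XT.lf (nat_lit 0) (nat_lit 966165977) (nat_lit 456) (nat_lit 6924838201) (nat_lit 76) (nat_lit 1465074250) (nat_lit 202) (nat_lit 5) (nat_lit 208) (nat_lit 5) (nat_lit 203) (nat_lit 5) (nat_lit 457) (nat_lit 352) (nat_lit 331)) (XT.lf (nat_lit 0) (nat_lit 960929604) (nat_lit 456) (nat_lit 4172022879) (nat_lit 532) (nat_lit 4306460955) (nat_lit 196) (nat_lit 5) (nat_lit 202) (nat_lit 5) (nat_lit 203) (nat_lit 5) (nat_lit 458) (nat_lit 352) (nat_lit 330))) (XT.nd (nat_lit 78) (nat_lit 456) (nat_lit 0) (XT.lf (nat_lit 0) (nat_lit 9008268381) (nat_lit 456) (nat_lit 362967117) (nat_lit 532) (nat_lit 153416435) (nat_lit 196) (nat_lit 5) (nat_lit 202) (nat_lit 5) (nat_lit 203) (nat_lit 5) (nat_lit 459) (nat_lit 352) (nat_lit 329)) (XT.lf (nat_lit 0) (nat_lit 4044039047) (nat_lit 456) (nat_lit 2045427180) (nat_lit 76) (nat_lit 3521300915) (nat_lit 190) (nat_lit 5) (nat_lit 196) (nat_lit 5)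 (nat_lit 191) (nat_lit 5) (nat_lit 460) (nat_lit 352) (nat_lit 328))))))) (XT.nd (nat_lit 58188) (nat_lit 0) (nat_lit 1216) (XT.nd (nat_lit 57564) (nat_lit 0) (nat_lit 7752) (XT.nd (nat_lit 57252) (nat_lit 0) (nat_lit 12160) (XT.nd (nat_lit 156) (nat_lit 760) (nat_lit 0) (XT.nd (nat_lit 78) (nat_lit 456) (nat_lit 0) (XT.lf (nat_lit 0) (nat_lit 6104417899) (nat_lit 380) (nat_lit 2207305525) (nat_lit 456) (nat_lit 1387094268) (nat_lit 185) (nat_lit 5) (nat_lit 190) (nat_lit 5) (nat_lit 191) (nat_lit 5) (nat_lit 461) (nat_lit 352) (nat_lit 327)) (XT.lf (nat_lit 0) (nat_lit 2836708122) (nat_lit 456) (nat_lit 5191322497) (nat_lit 76) (nat_lit 1760259223) (nat_lit 179) (nat_lit 5) (nat_lit 185) (nat_lit 5) (nat_lit 180) (nat_lit 5) (nat_lit 462) (nat_lit 352) (nat_lit 326))) (XT.nd (nat_lit 78) (nat_lit 380) (nat_lit 0) (XT.lf (nat_lit 0) (nat_lit 3047964694) (nat_lit 380) (nat_lit 4080459477) (nat_lit 456) (nat_lit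 2750903673) (nat_lit 174) (nat_lit 5) (nat_lit 179) (nat_lit 5) (nat_lit 180) (nat_lit 5) (nat_lit 463) (nat_lit 352) (nat_lit 325)) (XT.lf (nat_lit 0) (nat_lit 1469985401) (nat_lit 304) (nat_lit 31764131) (nat_lit 380) (nat_lit 8470476357) (nat_lit 169) (nat_lit 5) (nat_lit 173) (nat_lit 5) (nat_lit 174) (nat_lit 5) (nat_lit 464) (nat_lit 352) (nat_lit 324)))) (XT.nd (nat_lit 156) (nat_lit 1444) (nat_lit 0) (XT.nd (nat_lit 78) (nat_lit 684) (nat_lit 0) (XT.lf (nat_lit 0) (nat_lit 1629198491) (nat_lit 760) (nat_lit 655155777) (nat_lit 0) (nat_lit 1629198491) (nat_lit 357) (nat_lit 5) (nat_lit 367) (nat_lit 4) (nat_lit 357) (nat_lit 4) (nat_lit 434) (nat_lit 353) (nat_lit 353)) (XT.lf (nat_lit 0) (nat_lit 5256229075) (nat_lit 684) (nat_lit 1959290285) (nat_lit 684) (nat_lit 663862453) (nat_lit 348) (nat_lit 4) (nat_lit 357) (nat_lit 5) (nat_lit 357) (nat_lit 4) (nat_lit 435) (nat_lit 353) (nat_lit 352))) (XT.nd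 (nat_lit 78) (nat_lit 684) (nat_lit 0) (XT.lf (nat_lit 0) (nat_lit 3246584608) (nat_lit 760) (nat_lit 3954834811) (nat_lit 0) (nat_lit 731432532) (nat_lit 338) (nat_lit 5) (nat_lit 348) (nat_lit 4) (nat_lit 338) (nat_lit 4) (nat_lit 436) (nat_lit 353) (nat_lit 351)) (XT.lf (nat_lit 0) (nat_lit 2689819994) (nat_lit 684) (nat_lit 4516869813) (nat_lit 684) (nat_lit 781007157) (nat_lit 329) (nat_lit 4) (nat_lit 338) (nat_lit 5) (nat_lit 338) (nat_lit 4) (nat_lit 437) (nat_lit 353) (nat_lit 350))))) (XT.nd (nat_lit 312) (nat_lit 2432) (nat_lit 0) (XT.nd (nat_lit 156) (nat_lit 684) (nat_lit 0) (XT.nd (nat_lit 78) (nat_lit 608) (nat_lit 0) (XT.lf (nat_lit 0) (nat_lit 1387075042) (nat_lit 608) (nat_lit 1741495638) (nat_lit 684) (nat_lit 4915288120) (nat_lit 320) (nat_lit 5) (nat_lit 328) (nat_lit 5) (nat_lit 329) (nat_lit 4) (nat_lit 438) (nat_lit 353) (nat_lit 349)) (XT.lf (nat_lit 0) (nat_lit 76997093) (nat_lit 608)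 (nat_lit 7005368033) (nat_lit 608) (nat_lit 1019145844) (nat_lit 312) (nat_lit 4) (nat_lit 320) (nat_lit 5) (nat_lit 320) (nat_lit 4) (nat_lit 439) (nat_lit 353) (nat_lit 348))) (XT.nd (nat_lit 78) (nat_lit 608) (nat_lit 0) (XT.lf (nat_lit 0) (nat_lit 2906079190) (nat_lit 684) (nat_lit 1243690108) (nat_lit 76) (nat_lit 4010364895) (nat_lit 311) (nat_lit 5) (nat_lit 320) (nat_lit 5) (nat_lit 312) (nat_lit 4) (nat_lit 440) (nat_lit 353) (nat_lit 347)) (XT.lf (nat_lit 0) (nat_lit 5652942990) (nat_lit 608) (nat_lit 1214655150) (nat_lit 684) (nat_lit 1352768293) (nat_lit 303) (nat_lit 5) (nat_lit 311) (nat_lit 5) (nat_lit 312) (nat_lit 4) (nat_lit 441) (nat_lit 353) (nat_lit 346)))) (XT.nd (nat_lit 156) (nat_lit 1216) (nat_lit 0) (XT.nd (nat_lit 78) (nat_lit 532) (nat_lit 0) (XT.lf (nat_lit 0) (nat_lit 2575678934) (nat_lit 684) (nat_lit 3918267097) (nat_lit 76) (nat_lit 1787844576) (nat_lit 294) (nat_lit 5) (nat_lit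 303) (nat_lit 5) (nat_lit 295) (nat_lit 4) (nat_lit 442) (nat_lit 353) (nat_lit 345)) (XT.lf (nat_lit 0) (nat_lit 3058741573) (nat_lit 532) (nat_lit 3486676665) (nat_lit 608) (nat_lit 1799229454) (nat_lit 287) (nat_lit 5) (nat_lit 294) (nat_lit 5) (nat_lit 295) (nat_lit 4) (nat_lit 443) (nat_lit 353) (nat_lit 344))) (XT.nd (nat_lit 78) (nat_lit 532) (nat_lit 0) (XT.lf (nat_lit 0) (nat_lit 1740302587) (nat_lit 608) (nat_lit 390434488) (nat_lit 684) (nat_lit 6278268739) (nat_lit 278) (nat_lit 5) (nat_lit 286) (nat_lit 5) (nat_lit 287) (nat_lit 5) (nat_lit 444) (nat_lit 353) (nat_lit 343)) (XT.lf (nat_lit 0) (nat_lit 390897875) (nat_lit 532) (nat_lit 5716927282) (nat_lit 608) (nat_lit 2366735805) (nat_lit 271) (nat_lit 5) (nat_lit 278) (nat_lit 5) (nat_lit 279) (nat_lit 4) (nat_lit 445) (nat_lit 353) (nat_lit 342)))))) (XT.nd (nat_lit 624) (nat_lit 3192) (nat_lit 0) (XT.nd (nat_lit 312) (nat_lit 1596) (nat_lit 0)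 (XT.nd (nat_lit 156) (nat_lit 1140) (nat_lit 0) (XT.nd (nat_lit 78) (nat_lit 532) (nat_lit 0) (XT.lf (nat_lit 0) (nat_lit 1586008875) (nat_lit 608) (nat_lit 960976661) (nat_lit 76) (nat_lit 5994545573) (nat_lit 270) (nat_lit 5) (nat_lit 278) (nat_lit 5) (nat_lit 271) (nat_lit 5) (nat_lit 446) (nat_lit 353) (nat_lit 341)) (XT.lf (nat_lit 0) (nat_lit 5569488036) (nat_lit 608) (nat_lit 2331085035) (nat_lit 76) (nat_lit 709287304) (nat_lit 263) (nat_lit 5) (nat_lit 271) (nat_lit 5) (nat_lit 264) (nat_lit 4) (nat_lit 447) (nat_lit 353) (nat_lit 340))) (XT.nd (nat_lit 78) (nat_lit 532) (nat_lit 0) (XT.lf (nat_lit 0) (nat_lit 934451977) (nat_lit 608) (nat_lit 3728654853) (nat_lit 76) (nat_lit 4016448208) (nat_lit 255) (nat_lit 5) (nat_lit 263) (nat_lit 5) (nat_lit 256) (nat_lit 5) (nat_lit 448) (nat_lit 353) (nat_lit 339)) (XT.lf (nat_lit 0) (nat_lit 3598658881) (nat_lit 532) (nat_lit 1327158068) (nat_lit 608) (nat_lit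 3824869614) (nat_lit 248) (nat_lit 5) (nat_lit 255) (nat_lit 5) (nat_lit 256) (nat_lit 5) (nat_lit 449) (nat_lit 353) (nat_lit 338)))) (XT.nd (nat_lit 156) (nat_lit 532) (nat_lit 0) (XT.nd (nat_lit 78) (nat_lit 532) (nat_lit 0) (XT.lf (nat_lit 0) (nat_lit 163628997) (nat_lit 532) (nat_lit 6597135691) (nat_lit 76) (nat_lit 2062610677) (nat_lit 241) (nat_lit 5) (nat_lit 248) (nat_lit 5) (nat_lit 242) (nat_lit 5) (nat_lit 450) (nat_lit 353) (nat_lit 337)) (XT.lf (nat_lit 0) (nat_lit 812613593) (nat_lit 532) (nat_lit 3356275312) (nat_lit 608) (nat_lit 4728359264) (nat_lit 234) (nat_lit 5) (nat_lit 241) (nat_lit 5) (nat_lit 242) (nat_lit 5) (nat_lit 451) (nat_lit 353) (nat_lit 336))) (XT.nd (nat_lit 78) (nat_lit 532) (nat_lit 0) (XT.lf (nat_lit 0) (nat_lit 8239299367) (nat_lit 608) (nat_lit 601991443) (nat_lit 76) (nat_lit 131606711) (nat_lit 234) (nat_lit 5) (nat_lit 242) (nat_lit 5) (nat_lit 235) (nat_lit 4) (nat_lit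 452) (nat_lit 353) (nat_lit 335)) (XT.lf (nat_lit 0) (nat_lit 3305962954) (nat_lit 532) (nat_lit 2059052030) (nat_lit 76) (nat_lit 3684436562) (nat_lit 227) (nat_lit 5) (nat_lit 234) (nat_lit 5) (nat_lit 228) (nat_lit 5) (nat_lit 453) (nat_lit 353) (nat_lit 334))))) (XT.nd (nat_lit 312) (nat_lit 1292) (nat_lit 0) (XT.nd (nat_lit 156) (nat_lit 912) (nat_lit 0) (XT.nd (nat_lit 78) (nat_lit 532) (nat_lit 0) (XT.lf (nat_lit 0) (nat_lit 5596180772) (nat_lit 456) (nat_lit 1801837109) (nat_lit 532) (nat_lit 1729791278) (nat_lit 221) (nat_lit 5) (nat_lit 227) (nat_lit 5) (nat_lit 228) (nat_lit 5) (nat_lit 454) (nat_lit 353) (nat_lit 333)) (XT.lf (nat_lit 0) (nat_lit 2327599398) (nat_lit 532) (nat_lit 5043432161) (nat_lit 76) (nat_lit 1836506848) (nat_lit 214) (nat_lit 5) (nat_lit 221) (nat_lit 5) (nat_lit 215) (nat_lit 5) (nat_lit 455) (nat_lit 353) (nat_lit 332))) (XT.nd (nat_lit 78) (nat_lit 456) (nat_lit 0) (XT.lf (nat_lit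 0) (nat_lit 2696794179) (nat_lit 456) (nat_lit 3741214603) (nat_lit 532) (nat_lit 2850724125) (nat_lit 208) (nat_lit 5) (nat_lit 214) (nat_lit 5) (nat_lit 215) (nat_lit 5) (nat_lit 456) (nat_lit 353) (nat_lit 331)) (XT.lf (nat_lit 0) (nat_lit 1208303560) (nat_lit 380) (nat_lit 18076210) (nat_lit 456) (nat_lit 8145331677) (nat_lit 202) (nat_lit 5) (nat_lit 207) (nat_lit 5) (nat_lit 208) (nat_lit 5) (nat_lit 457) (nat_lit 353) (nat_lit 330)))) (XT.nd (nat_lit 156) (nat_lit 760) (nat_lit 0) (XT.nd (nat_lit 78) (nat_lit 532) (nat_lit 0) (XT.lf (nat_lit 0) (nat_lit 5358233629) (nat_lit 456) (nat_lit 334101652) (nat_lit 76) (nat_lit 3763409829) (nat_lit 202) (nat_lit 5) (nat_lit 208) (nat_lit 5) (nat_lit 203) (nat_lit 5) (nat_lit 458) (nat_lit 353) (nat_lit 329)) (XT.lf (nat_lit 0) (nat_lit 24105085) (nat_lit 532) (nat_lit 1876641907) (nat_lit 76) (nat_lit 7640843394) (nat_lit 195) (nat_lit 5) (nat_lit 202) (nat_lit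 5) (nat_lit 196) (nat_lit 5) (nat_lit 459) (nat_lit 353) (nat_lit 328))) (XT.nd (nat_lit 78) (nat_lit 380) (nat_lit 0) (XT.lf (nat_lit 0) (nat_lit 4172242137) (nat_lit 456) (nat_lit 3476071350) (nat_lit 76) (nat_lit 1980318313) (nat_lit 190) (nat_lit 5) (nat_lit 196) (nat_lit 5) (nat_lit 191) (nat_lit 5) (nat_lit 460) (nat_lit 353) (nat_lit 327)) (XT.lf (nat_lit 0) (nat_lit 4610813531) (nat_lit 380) (nat_lit 3791656958) (nat_lit 456) (nat_lit 1314960983) (nat_lit 185) (nat_lit 5) (nat_lit 190) (nat_lit 5) (nat_lit 191) (nat_lit 5) (nat_lit 461) (nat_lit 353) (nat_lit 326))))))))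
noncomputable def xc4 : XT := (XT.nd (nat_lit 59280) (nat_lit 0) (nat_lit 0) (XT.nd (nat_lit 58032) (nat_lit 0) (nat_lit 1292) (XT.nd (nat_lit 57408) (nat_lit 0) (nat_lit 7980) (XT.nd (nat_lit 57096) (nat_lit 0) (nat_lit 12540) (XT.nd (nat_lit 156) (nat_lit 76) (nat_lit 0) (XT.nd (nat_lit 78) (nat_lit 380) (nat_lit 0) (XT.lf (nat_lit 0) (nat_lit 2859527711) (nat_lit 456) (nat_lit 6777051929) (nat_lit 76) (nat_lit 171281966) (nat_lit 179) (nat_lit 5) (nat_lit 185) (nat_lit 5) (nat_lit 180) (nat_lit 5) (nat_lit 462) (nat_lit 353) (nat_lit 325)) (XT.lf (nat_lit 0) (nat_lit 1396968268) (nat_lit 380) (nat_lit 5716040143) (nat_lit 456) (nat_lit 2786655905) (nat_lit 174) (nat_lit 5) (nat_lit 179) (nat_lit 5) (nat_lit 180) (nat_lit 5) (nat_lit 463) (nat_lit 353) (nat_lit 324))) (XT.nd (nat_lit 56862) (nat_lit 0) (nat_lit 14744) (XT.lf (nat_lit 0) (nat_lit 1429483798) (nat_lit 456) (nat_lit 264086077) (nat_lit 76) (nat_lit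 8299736776) (nat_lit 173) (nat_lit 5) (nat_lit 179) (nat_lit 5) (nat_lit 174) (nat_lit 5) (nat_lit 464) (nat_lit 353) (nat_lit 323)) (XT.lf (nat_lit 0) (nat_lit 679357708) (nat_lit 760) (nat_lit 1591812826) (nat_lit 760) (nat_lit 1591812826) (nat_lit 367) (nat_lit 4) (nat_lit 377) (nat_lit 5) (nat_lit 377) (nat_lit 4) (nat_lit 432) (nat_lit 354) (nat_lit 354)))) (XT.nd (nat_lit 156) (nat_lit 1444) (nat_lit 0) (XT.nd (nat_lit 78) (nat_lit 0) (nat_lit 0) (XT.lf (nat_lit 0) (nat_lit 6628393) (nat_lit 684) (nat_lit 663862453) (nat_lit 760) (nat_lit 7105957621) (nat_lit 357) (nat_lit 5) (nat_lit 366) (nat_lit 5) (nat_lit 367) (nat_lit 4) (nat_lit 433) (nat_lit 354) (nat_lit 353)) (XT.lf (nat_lit 0) (nat_lit 4545659924) (nat_lit 760) (nat_lit 1353231361) (nat_lit 0) (nat_lit 1928895703) (nat_lit 357) (nat_lit 5) (nat_lit 367) (nat_lit 4) (nat_lit 357) (nat_lit 4) (nat_lit 434) (nat_lit 354) (nat_lit 352))) (XT.nd (nat_lit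 78) (nat_lit 684) (nat_lit 0) (XT.lf (nat_lit 0) (nat_lit 580362479) (nat_lit 760) (nat_lit 2714459298) (nat_lit 76) (nat_lit 4585844432) (nat_lit 347) (nat_lit 5) (nat_lit 357) (nat_lit 5) (nat_lit 348) (nat_lit 4) (nat_lit 435) (nat_lit 354) (nat_lit 351)) (XT.lf (nat_lit 0) (nat_lit 3843233398) (nat_lit 684) (nat_lit 599910015) (nat_lit 760) (nat_lit 3491685919) (nat_lit 338) (nat_lit 5) (nat_lit 347) (nat_lit 5) (nat_lit 348) (nat_lit 4) (nat_lit 436) (nat_lit 354) (nat_lit 350))))) (XT.nd (nat_lit 312) (nat_lit 2508) (nat_lit 0) (XT.nd (nat_lit 156) (nat_lit 684) (nat_lit 0) (XT.nd (nat_lit 78) (nat_lit 608) (nat_lit 0) (XT.lf (nat_lit 0) (nat_lit 369929332) (nat_lit 760) (nat_lit 5480808313) (nat_lit 76) (nat_lit 2139647411) (nat_lit 328) (nat_lit 5) (nat_lit 338) (nat_lit 5) (nat_lit 329) (nat_lit 4) (nat_lit 437) (nat_lit 354) (nat_lit 349)) (XT.lf (nat_lit 0) (nat_lit 1153287963) (nat_lit 608) (nat_lit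 3081693436) (nat_lit 684) (nat_lit 3812149733) (nat_lit 320) (nat_lit 5) (nat_lit 328) (nat_lit 5) (nat_lit 329) (nat_lit 4) (nat_lit 438) (nat_lit 354) (nat_lit 348))) (XT.nd (nat_lit 78) (nat_lit 608) (nat_lit 0) (XT.lf (nat_lit 0) (nat_lit 42519362) (nat_lit 684) (nat_lit 197229375) (nat_lit 76) (nat_lit 7865831090) (nat_lit 319) (nat_lit 5) (nat_lit 328) (nat_lit 5) (nat_lit 320) (nat_lit 5) (nat_lit 439) (nat_lit 354) (nat_lit 347)) (XT.lf (nat_lit 0) (nat_lit 3919198703) (nat_lit 684) (nat_lit 1572851161) (nat_lit 76) (nat_lit 2672724435) (nat_lit 311) (nat_lit 5) (nat_lit 320) (nat_lit 5) (nat_lit 312) (nat_lit 4) (nat_lit 440) (nat_lit 354) (nat_lit 346)))) (XT.nd (nat_lit 156) (nat_lit 1216) (nat_lit 0) (XT.nd (nat_lit 78) (nat_lit 684) (nat_lit 0) (XT.lf (nat_lit 0) (nat_lit 5276524623) (nat_lit 608) (nat_lit 2570066082) (nat_lit 684) (nat_lit 379098374) (nat_lit 303) (nat_lit 5) (nat_lit 311) (nat_lit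 5) (nat_lit 312) (nat_lit 4) (nat_lit 441) (nat_lit 354) (nat_lit 345)) (XT.lf (nat_lit 0) (nat_lit 3493356355) (nat_lit 684) (nat_lit 4351548222) (nat_lit 76) (nat_lit 442946692) (nat_lit 294) (nat_lit 5) (nat_lit 303) (nat_lit 5) (nat_lit 295) (nat_lit 4) (nat_lit 442) (nat_lit 354) (nat_lit 344))) (XT.nd (nat_lit 78) (nat_lit 684) (nat_lit 0) (XT.lf (nat_lit 0) (nat_lit 2576399889) (nat_lit 532) (nat_lit 4852295137) (nat_lit 608) (nat_lit 922701342) (nat_lit 287) (nat_lit 5) (nat_lit 294) (nat_lit 5) (nat_lit 295) (nat_lit 4) (nat_lit 443) (nat_lit 354) (nat_lit 343)) (XT.lf (nat_lit 0) (nat_lit 1195508962) (nat_lit 608) (nat_lit 1765586926) (nat_lit 684) (nat_lit 5455238251) (nat_lit 278) (nat_lit 5) (nat_lit 286) (nat_lit 5) (nat_lit 287) (nat_lit 5) (nat_lit 444) (nat_lit 354) (nat_lit 342)))))) (XT.nd (nat_lit 624) (nat_lit 3344) (nat_lit 0) (XT.nd (nat_lit 312) (nat_lit 1596) (nat_lit 0) (XT.nd (nat_lit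 156) (nat_lit 1140) (nat_lit 0) (XT.nd (nat_lit 78) (nat_lit 608) (nat_lit 0) (XT.lf (nat_lit 0) (nat_lit 6895838810) (nat_lit 684) (nat_lit 200547087) (nat_lit 76) (nat_lit 1386350294) (nat_lit 278) (nat_lit 5) (nat_lit 287) (nat_lit 5) (nat_lit 279) (nat_lit 4) (nat_lit 445) (nat_lit 354) (nat_lit 341)) (XT.lf (nat_lit 0) (nat_lit 2323537646) (nat_lit 608) (nat_lit 1611592603) (nat_lit 76) (nat_lit 4615116464) (nat_lit 270) (nat_lit 5) (nat_lit 278) (nat_lit 5) (nat_lit 271) (nat_lit 5) (nat_lit 446) (nat_lit 354) (nat_lit 340))) (XT.nd (nat_lit 78) (nat_lit 608) (nat_lit 0) (XT.lf (nat_lit 0) (nat_lit 5581307578) (nat_lit 532) (nat_lit 686332749) (nat_lit 608) (nat_lit 2351723179) (nat_lit 263) (nat_lit 5) (nat_lit 270) (nat_lit 5) (nat_lit 271) (nat_lit 5) (nat_lit 447) (nat_lit 354) (nat_lit 339)) (XT.lf (nat_lit 0) (nat_lit 1574537968) (nat_lit 608) (nat_lit 4498211563) (nat_lit 76) (nat_lit 2617009845) (nat_lit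 255) (nat_lit 5) (nat_lit 263) (nat_lit 5) (nat_lit 256) (nat_lit 5) (nat_lit 448) (nat_lit 354) (nat_lit 338)))) (XT.nd (nat_lit 156) (nat_lit 532) (nat_lit 0) (XT.nd (nat_lit 78) (nat_lit 532) (nat_lit 0) (XT.lf (nat_lit 0) (nat_lit 2775551923) (nat_lit 532) (nat_lit 2755209450) (nat_lit 608) (nat_lit 3230832358) (nat_lit 248) (nat_lit 5) (nat_lit 255) (nat_lit 5) (nat_lit 256) (nat_lit 5) (nat_lit 449) (nat_lit 354) (nat_lit 337)) (XT.lf (nat_lit 0) (nat_lit 705026517) (nat_lit 532) (nat_lit 7491748833) (nat_lit 76) (nat_lit 638327022) (nat_lit 241) (nat_lit 5) (nat_lit 248) (nat_lit 5) (nat_lit 242) (nat_lit 5) (nat_lit 450) (nat_lit 354) (nat_lit 336))) (XT.nd (nat_lit 78) (nat_lit 532) (nat_lit 0) (XT.lf (nat_lit 0) (nat_lit 4675545987) (nat_lit 532) (nat_lit 135745170) (nat_lit 76) (nat_lit 4098378828) (nat_lit 241) (nat_lit 5) (nat_lit 248) (nat_lit 5) (nat_lit 242) (nat_lit 5) (nat_lit 451) (nat_lit 354)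 (nat_lit 335)) (XT.lf (nat_lit 0) (nat_lit 7378821908) (nat_lit 532) (nat_lit 1336211051) (nat_lit 608) (nat_lit 270904847) (nat_lit 234) (nat_lit 5) (nat_lit 241) (nat_lit 5) (nat_lit 242) (nat_lit 5) (nat_lit 452) (nat_lit 354) (nat_lit 334))))) (XT.nd (nat_lit 312) (nat_lit 1368) (nat_lit 0) (XT.nd (nat_lit 156) (nat_lit 988) (nat_lit 0) (XT.nd (nat_lit 78) (nat_lit 456) (nat_lit 0) (XT.lf (nat_lit 0) (nat_lit 3718105311) (nat_lit 532) (nat_lit 3128393190) (nat_lit 76) (nat_lit 2216822900) (nat_lit 227) (nat_lit 5) (nat_lit 234) (nat_lit 5) (nat_lit 228) (nat_lit 5) (nat_lit 453) (nat_lit 354) (nat_lit 333)) (XT.lf (nat_lit 0) (nat_lit 4469512329) (nat_lit 456) (nat_lit 3304753789) (nat_lit 532) (nat_lit 1368130780) (nat_lit 221) (nat_lit 5) (nat_lit 227) (nat_lit 5) (nat_lit 228) (nat_lit 5) (nat_lit 454) (nat_lit 354) (nat_lit 332))) (XT.nd (nat_lit 78) (nat_lit 456) (nat_lit 0) (XT.lf (nat_lit 0) (nat_lit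 2638345804) (nat_lit 532) (nat_lit 6250830957) (nat_lit 76) (nat_lit 333825839) (nat_lit 214) (nat_lit 5) (nat_lit 221) (nat_lit 5) (nat_lit 215) (nat_lit 5) (nat_lit 455) (nat_lit 354) (nat_lit 331)) (XT.lf (nat_lit 0) (nat_lit 1429939641) (nat_lit 456) (nat_lit 5282301140) (nat_lit 532) (nat_lit 2592686607) (nat_lit 208) (nat_lit 5) (nat_lit 214) (nat_lit 5) (nat_lit 215) (nat_lit 5) (nat_lit 456) (nat_lit 354) (nat_lit 330)))) (XT.nd (nat_lit 156) (nat_lit 912) (nat_lit 0) (XT.nd (nat_lit 78) (nat_lit 380) (nat_lit 0) (XT.lf (nat_lit 0) (nat_lit 1444991691) (nat_lit 532) (nat_lit 135201512) (nat_lit 76) (nat_lit 7808400045) (nat_lit 207) (nat_lit 5) (nat_lit 214) (nat_lit 5) (nat_lit 208) (nat_lit 5) (nat_lit 457) (nat_lit 354) (nat_lit 329)) (XT.lf (nat_lit 0) (nat_lit 5537791903) (nat_lit 456) (nat_lit 1729268773) (nat_lit 76) (nat_lit 2206347309) (nat_lit 202) (nat_lit 5) (nat_lit 208) (nat_lit 5) (nat_lit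 203) (nat_lit 5) (nat_lit 458) (nat_lit 354) (nat_lit 328))) (XT.nd (nat_lit 78) (nat_lit 380) (nat_lit 0) (XT.lf (nat_lit 0) (nat_lit 146709217) (nat_lit 532) (nat_lit 3352388262) (nat_lit 76) (nat_lit 6060878119) (nat_lit 195) (nat_lit 5) (nat_lit 202) (nat_lit 5) (nat_lit 196) (nat_lit 5) (nat_lit 459) (nat_lit 354) (nat_lit 327)) (XT.lf (nat_lit 0) (nat_lit 4246937007) (nat_lit 456) (nat_lit 5022938446) (nat_lit 76) (nat_lit 378099745) (nat_lit 190) (nat_lit 5) (nat_lit 196) (nat_lit 5) (nat_lit 191) (nat_lit 5) (nat_lit 460) (nat_lit 354) (nat_lit 326))))))) (XT.nd (nat_lit 57876) (nat_lit 0) (nat_lit 2584) (XT.nd (nat_lit 57252) (nat_lit 0) (nat_lit 9804) (XT.nd (nat_lit 56940) (nat_lit 0) (nat_lit 14668) (XT.nd (nat_lit 156) (nat_lit 456) (nat_lit 0) (XT.nd (nat_lit 78) (nat_lit 456) (nat_lit 0) (XT.lf (nat_lit 0) (nat_lit 3000303414) (nat_lit 380) (nat_lit 5439191174) (nat_lit 456) (nat_lit 1298033696)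 (nat_lit 185) (nat_lit 5) (nat_lit 190) (nat_lit 5) (nat_lit 191) (nat_lit 5) (nat_lit 461) (nat_lit 354) (nat_lit 325)) (XT.lf (nat_lit 0) (nat_lit 1336402978) (nat_lit 380) (nat_lit 1500561061) (nat_lit 456) (nat_lit 6991777562) (nat_lit 179) (nat_lit 5) (nat_lit 184) (nat_lit 5) (nat_lit 185) (nat_lit 5) (nat_lit 462) (nat_lit 354) (nat_lit 324))) (XT.nd (nat_lit 78) (nat_lit 456) (nat_lit 0) (XT.lf (nat_lit 0) (nat_lit 7044655601) (nat_lit 456) (nat_lit 369655981) (nat_lit 76) (nat_lit 2507148510) (nat_lit 179) (nat_lit 5) (nat_lit 185) (nat_lit 5) (nat_lit 180) (nat_lit 5) (nat_lit 463) (nat_lit 354) (nat_lit 323)) (XT.lf (nat_lit 0) (nat_lit 1311169201) (nat_lit 456) (nat_lit 2099700754) (nat_lit 76) (nat_lit 6604831145) (nat_lit 173) (nat_lit 5) (nat_lit 179) (nat_lit 5) (nat_lit 174) (nat_lit 5) (nat_lit 464) (nat_lit 354) (nat_lit 322)))) (XT.nd (nat_lit 156) (nat_lit 836) (nat_lit 0) (XT.nd (nat_lit 78)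 (nat_lit 836) (nat_lit 0) (XT.lf (nat_lit 0) (nat_lit 2049980432) (nat_lit 760) (nat_lit 882197152) (nat_lit 760) (nat_lit 882197152) (nat_lit 388) (nat_lit 4) (nat_lit 398) (nat_lit 5) (nat_lit 398) (nat_lit 4) (nat_lit 430) (nat_lit 355) (nat_lit 355)) (XT.lf (nat_lit 0) (nat_lit 2045166189) (nat_lit 836) (nat_lit 4961474999) (nat_lit 0) (nat_lit 670447810) (nat_lit 377) (nat_lit 5) (nat_lit 388) (nat_lit 4) (nat_lit 377) (nat_lit 4) (nat_lit 431) (nat_lit 355) (nat_lit 354))) (XT.nd (nat_lit 78) (nat_lit 76) (nat_lit 0) (XT.lf (nat_lit 0) (nat_lit 1316599627) (nat_lit 760) (nat_lit 4566266232) (nat_lit 760) (nat_lit 1843784737) (nat_lit 367) (nat_lit 4) (nat_lit 377) (nat_lit 5) (nat_lit 377) (nat_lit 4) (nat_lit 432) (nat_lit 355) (nat_lit 353)) (XT.lf (nat_lit 0) (nat_lit 1958971337) (nat_lit 836) (nat_lit 86695783) (nat_lit 76) (nat_lit 5731967000) (nat_lit 366) (nat_lit 5) (nat_lit 377) (nat_lit 5) (nat_lit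 367) (nat_lit 4) (nat_lit 433) (nat_lit 355) (nat_lit 352))))) (XT.nd (nat_lit 312) (nat_lit 1976) (nat_lit 0) (XT.nd (nat_lit 156) (nat_lit 1444) (nat_lit 0) (XT.nd (nat_lit 78) (nat_lit 760) (nat_lit 0) (XT.lf (nat_lit 0) (nat_lit 5791189338) (nat_lit 760) (nat_lit 1482007609) (nat_lit 0) (nat_lit 556634714) (nat_lit 357) (nat_lit 5) (nat_lit 367) (nat_lit 4) (nat_lit 357) (nat_lit 4) (nat_lit 434) (nat_lit 355) (nat_lit 351)) (XT.lf (nat_lit 0) (nat_lit 1773445448) (nat_lit 760) (nat_lit 2897319609) (nat_lit 76) (nat_lit 3212466221) (nat_lit 347) (nat_lit 5) (nat_lit 357) (nat_lit 5) (nat_lit 348) (nat_lit 4) (nat_lit 435) (nat_lit 355) (nat_lit 350))) (XT.nd (nat_lit 78) (nat_lit 760) (nat_lit 0) (XT.lf (nat_lit 0) (nat_lit 3615977728) (nat_lit 684) (nat_lit 1986184510) (nat_lit 760) (nat_lit 2335913446) (nat_lit 338) (nat_lit 5) (nat_lit 347) (nat_lit 5) (nat_lit 348) (nat_lit 4) (nat_lit 436) (nat_lit 355)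 (nat_lit 349)) (XT.lf (nat_lit 0) (nat_lit 1467251703) (nat_lit 760) (nat_lit 5758862411) (nat_lit 76) (nat_lit 768233051) (nat_lit 328) (nat_lit 5) (nat_lit 338) (nat_lit 5) (nat_lit 329) (nat_lit 4) (nat_lit 437) (nat_lit 355) (nat_lit 348)))) (XT.nd (nat_lit 156) (nat_lit 1292) (nat_lit 0) (XT.nd (nat_lit 78) (nat_lit 76) (nat_lit 0) (XT.lf (nat_lit 0) (nat_lit 829100957) (nat_lit 608) (nat_lit 4468975604) (nat_lit 684) (nat_lit 2753701225) (nat_lit 320) (nat_lit 5) (nat_lit 328) (nat_lit 5) (nat_lit 329) (nat_lit 4) (nat_lit 438) (nat_lit 355) (nat_lit 347)) (XT.lf (nat_lit 0) (nat_lit 1055113124) (nat_lit 684) (nat_lit 574965693) (nat_lit 76) (nat_lit 6480649681) (nat_lit 319) (nat_lit 5) (nat_lit 328) (nat_lit 5) (nat_lit 320) (nat_lit 5) (nat_lit 439) (nat_lit 355) (nat_lit 346))) (XT.nd (nat_lit 78) (nat_lit 684) (nat_lit 0) (XT.lf (nat_lit 0) (nat_lit 4888580964) (nat_lit 684) (nat_lit 1994082885) (nat_lit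 76) (nat_lit 1288123350) (nat_lit 311) (nat_lit 5) (nat_lit 320) (nat_lit 5) (nat_lit 312) (nat_lit 4) (nat_lit 440) (nat_lit 355) (nat_lit 345)) (XT.lf (nat_lit 0) (nat_lit 542276318) (nat_lit 684) (nat_lit 3428298851) (nat_lit 76) (nat_lit 4261737578) (nat_lit 302) (nat_lit 5) (nat_lit 311) (nat_lit 5) (nat_lit 303) (nat_lit 5) (nat_lit 441) (nat_lit 355) (nat_lit 344)))))) (XT.nd (nat_lit 624) (nat_lit 3116) (nat_lit 0) (XT.nd (nat_lit 312) (nat_lit 2280) (nat_lit 0) (XT.nd (nat_lit 156) (nat_lit 684) (nat_lit 0) (XT.nd (nat_lit 78) (nat_lit 532) (nat_lit 0) (XT.lf (nat_lit 0) (nat_lit 3409097621) (nat_lit 608) (nat_lit 963381333) (nat_lit 684) (nat_lit 3922692360) (nat_lit 294) (nat_lit 5) (nat_lit 302) (nat_lit 5) (nat_lit 303) (nat_lit 5) (nat_lit 442) (nat_lit 355) (nat_lit 343)) (XT.lf (nat_lit 0) (nat_lit 1998655480) (nat_lit 532) (nat_lit 6268500301) (nat_lit 608) (nat_lit 92373868) (nat_lit 287) (nat_lit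 5) (nat_lit 294) (nat_lit 5) (nat_lit 295) (nat_lit 4) (nat_lit 443) (nat_lit 355) (nat_lit 342))) (XT.nd (nat_lit 78) (nat_lit 0) (nat_lit 0) (XT.lf (nat_lit 0) (nat_lit 553797410) (nat_lit 608) (nat_lit 3192043844) (nat_lit 684) (nat_lit 4679212190) (nat_lit 278) (nat_lit 5) (nat_lit 286) (nat_lit 5) (nat_lit 287) (nat_lit 5) (nat_lit 444) (nat_lit 355) (nat_lit 341)) (XT.lf (nat_lit 0) (nat_lit 7608030520) (nat_lit 608) (nat_lit 33234607) (nat_lit 684) (nat_lit 850976749) (nat_lit 278) (nat_lit 5) (nat_lit 286) (nat_lit 5) (nat_lit 287) (nat_lit 5) (nat_lit 445) (nat_lit 355) (nat_lit 340)))) (XT.nd (nat_lit 156) (nat_lit 1140) (nat_lit 0) (XT.nd (nat_lit 78) (nat_lit 532) (nat_lit 0) (XT.lf (nat_lit 0) (nat_lit 3014912399) (nat_lit 608) (nat_lit 2360872241) (nat_lit 76) (nat_lit 3184570079) (nat_lit 270) (nat_lit 5) (nat_lit 278) (nat_lit 5) (nat_lit 271) (nat_lit 5) (nat_lit 446) (nat_lit 355) (nat_lit 339))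 (XT.lf (nat_lit 0) (nat_lit 4779947693) (nat_lit 532) (nat_lit 2144304830) (nat_lit 608) (nat_lit 1705914241) (nat_lit 263) (nat_lit 5) (nat_lit 270) (nat_lit 5) (nat_lit 271) (nat_lit 5) (nat_lit 447) (nat_lit 355) (nat_lit 338))) (XT.nd (nat_lit 78) (nat_lit 532) (nat_lit 0) (XT.lf (nat_lit 0) (nat_lit 2167234910) (nat_lit 608) (nat_lit 5369524612) (nat_lit 76) (nat_lit 1164612093) (nat_lit 255) (nat_lit 5) (nat_lit 263) (nat_lit 5) (nat_lit 256) (nat_lit 5) (nat_lit 448) (nat_lit 355) (nat_lit 337)) (XT.lf (nat_lit 0) (nat_lit 1850185814) (nat_lit 532) (nat_lit 4238051265) (nat_lit 608) (nat_lit 2685673317) (nat_lit 248) (nat_lit 5) (nat_lit 255) (nat_lit 5) (nat_lit 256) (nat_lit 5) (nat_lit 449) (nat_lit 355) (nat_lit 336))))) (XT.nd (nat_lit 312) (nat_lit 1520) (nat_lit 0) (XT.nd (nat_lit 156) (nat_lit 1064) (nat_lit 0) (XT.nd (nat_lit 78) (nat_lit 0) (nat_lit 0) (XT.lf (nat_lit 0) (nat_lit 351320166) (nat_lit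 456) (nat_lit 851945101) (nat_lit 532) (nat_lit 7644878387) (nat_lit 241) (nat_lit 5) (nat_lit 247) (nat_lit 5) (nat_lit 248) (nat_lit 5) (nat_lit 450) (nat_lit 355) (nat_lit 335)) (XT.lf (nat_lit 0) (nat_lit 5139366665) (nat_lit 532) (nat_lit 1177531618) (nat_lit 76) (nat_lit 2606501344) (nat_lit 241) (nat_lit 5) (nat_lit 248) (nat_lit 5) (nat_lit 242) (nat_lit 5) (nat_lit 451) (nat_lit 355) (nat_lit 334))) (XT.nd (nat_lit 78) (nat_lit 456) (nat_lit 0) (XT.lf (nat_lit 0) (nat_lit 141154784) (nat_lit 608) (nat_lit 2720079635) (nat_lit 76) (nat_lit 6139123389) (nat_lit 233) (nat_lit 5) (nat_lit 241) (nat_lit 5) (nat_lit 234) (nat_lit 5) (nat_lit 452) (nat_lit 355) (nat_lit 333)) (XT.lf (nat_lit 0) (nat_lit 4080760853) (nat_lit 532) (nat_lit 4305073837) (nat_lit 76) (nat_lit 692788559) (nat_lit 227) (nat_lit 5) (nat_lit 234) (nat_lit 5) (nat_lit 228) (nat_lit 5) (nat_lit 453) (nat_lit 355) (nat_lit 332)))) (XT.nd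 (nat_lit 156) (nat_lit 532) (nat_lit 0) (XT.nd (nat_lit 78) (nat_lit 532) (nat_lit 0) (XT.lf (nat_lit 0) (nat_lit 3234923332) (nat_lit 456) (nat_lit 4865963889) (nat_lit 532) (nat_lit 1057532213) (nat_lit 221) (nat_lit 5) (nat_lit 227) (nat_lit 5) (nat_lit 228) (nat_lit 5) (nat_lit 454) (nat_lit 355) (nat_lit 331)) (XT.lf (nat_lit 0) (nat_lit 1662768092) (nat_lit 456) (nat_lit 1243468390) (nat_lit 532) (nat_lit 6333521008) (nat_lit 214) (nat_lit 5) (nat_lit 220) (nat_lit 5) (nat_lit 221) (nat_lit 5) (nat_lit 455) (nat_lit 355) (nat_lit 330))) (XT.nd (nat_lit 78) (nat_lit 76) (nat_lit 0) (XT.lf (nat_lit 0) (nat_lit 51779094) (nat_lit 456) (nat_lit 6883596553) (nat_lit 532) (nat_lit 2387201747) (nat_lit 208) (nat_lit 5) (nat_lit 214) (nat_lit 5) (nat_lit 215) (nat_lit 5) (nat_lit 456) (nat_lit 355) (nat_lit 329)) (XT.lf (nat_lit 0) (nat_lit 1620138169) (nat_lit 532) (nat_lit 1574437958) (nat_lit 76) (nat_lit 6212193313)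 (nat_lit 207) (nat_lit 5) (nat_lit 214) (nat_lit 5) (nat_lit 208) (nat_lit 5) (nat_lit 457) (nat_lit 355) (nat_lit 328))))))))
noncomputable def xc5 : XT := (XT.nd (nat_lit 58968) (nat_lit 0) (nat_lit 0) (XT.nd (nat_lit 57720) (nat_lit 0) (nat_lit 4560) (XT.nd (nat_lit 57096) (nat_lit 0) (nat_lit 12540) (XT.nd (nat_lit 312) (nat_lit 912) (nat_lit 0) (XT.nd (nat_lit 156) (nat_lit 760) (nat_lit 0) (XT.nd (nat_lit 78) (nat_lit 532) (nat_lit 0) (XT.lf (nat_lit 0) (nat_lit 5665458728) (nat_lit 456) (nat_lit 3237721648) (nat_lit 76) (nat_lit 589353393) (nat_lit 202) (nat_lit 5) (nat_lit 208) (nat_lit 5) (nat_lit 203) (nat_lit 5) (nat_lit 458) (nat_lit 355) (nat_lit 327)) (XT.lf (nat_lit 0) (nat_lit 216456122) (nat_lit 532) (nat_lit 4943205260) (nat_lit 76) (nat_lit 4420173318) (nat_lit 195) (nat_lit 5) (nat_lit 202) (nat_lit 5) (nat_lit 196) (nat_lit 5) (nat_lit 459) (nat_lit 355) (nat_lit 326))) (XT.nd (nat_lit 78)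 (nat_lit 380) (nat_lit 0) (XT.lf (nat_lit 0) (nat_lit 2973540213) (nat_lit 380) (nat_lit 1303073149) (nat_lit 456) (nat_lit 5392022349) (nat_lit 190) (nat_lit 5) (nat_lit 195) (nat_lit 5) (nat_lit 196) (nat_lit 5) (nat_lit 460) (nat_lit 355) (nat_lit 325)) (XT.lf (nat_lit 0) (nat_lit 1272255977) (nat_lit 380) (nat_lit 7150554265) (nat_lit 456) (nat_lit 1336305770) (nat_lit 185) (nat_lit 5) (nat_lit 190) (nat_lit 5) (nat_lit 191) (nat_lit 5) (nat_lit 461) (nat_lit 355) (nat_lit 324)))) (XT.nd (nat_lit 156) (nat_lit 456) (nat_lit 0) (XT.nd (nat_lit 78) (nat_lit 380) (nat_lit 0) (XT.lf (nat_lit 0) (nat_lit 2763915700) (nat_lit 456) (nat_lit 472277272) (nat_lit 76) (nat_lit 6614846890) (nat_lit 184) (nat_lit 5) (nat_lit 190) (nat_lit 5) (nat_lit 185) (nat_lit 5) (nat_lit 462) (nat_lit 355) (nat_lit 323)) (XT.lf (nat_lit 0) (nat_lit 6930763218) (nat_lit 456) (nat_lit 2237603800) (nat_lit 76) (nat_lit 776208216) (nat_lit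 179) (nat_lit 5) (nat_lit 185) (nat_lit 5) (nat_lit 180) (nat_lit 5) (nat_lit 463) (nat_lit 355) (nat_lit 322))) (XT.nd (nat_lit 56550) (nat_lit 0) (nat_lit 17936) (XT.lf (nat_lit 0) (nat_lit 1137215222) (nat_lit 456) (nat_lit 4056857601) (nat_lit 76) (nat_lit 4845536077) (nat_lit 173) (nat_lit 5) (nat_lit 179) (nat_lit 5) (nat_lit 174) (nat_lit 5) (nat_lit 464) (nat_lit 355) (nat_lit 321)) (XT.lf (nat_lit 0) (nat_lit 3449639516) (nat_lit 836) (nat_lit 159088003) (nat_lit 836) (nat_lit 159088003) (nat_lit 409) (nat_lit 4) (nat_lit 420) (nat_lit 5) (nat_lit 420) (nat_lit 4) (nat_lit 428) (nat_lit 356) (nat_lit 356))))) (XT.nd (nat_lit 312) (nat_lit 2204) (nat_lit 0) (XT.nd (nat_lit 156) (nat_lit 1596) (nat_lit 0) (XT.nd (nat_lit 78) (nat_lit 760) (nat_lit 0) (XT.lf (nat_lit 0) (nat_lit 3453351571) (nat_lit 836) (nat_lit 2105289729) (nat_lit 0) (nat_lit 2023094570) (nat_lit 398) (nat_lit 5) (nat_lit 409) (nat_lit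 4) (nat_lit 398) (nat_lit 4) (nat_lit 429) (nat_lit 356) (nat_lit 355)) (XT.lf (nat_lit 0) (nat_lit 4059213597) (nat_lit 760) (nat_lit 3201343364) (nat_lit 760) (nat_lit 368873616) (nat_lit 388) (nat_lit 4) (nat_lit 398) (nat_lit 5) (nat_lit 398) (nat_lit 4) (nat_lit 430) (nat_lit 356) (nat_lit 354))) (XT.nd (nat_lit 78) (nat_lit 760) (nat_lit 0) (XT.lf (nat_lit 0) (nat_lit 2628021298) (nat_lit 760) (nat_lit 755745743) (nat_lit 836) (nat_lit 4294594195) (nat_lit 377) (nat_lit 5) (nat_lit 387) (nat_lit 5) (nat_lit 388) (nat_lit 4) (nat_lit 431) (nat_lit 356) (nat_lit 353)) (XT.lf (nat_lit 0) (nat_lit 1190235740) (nat_lit 760) (nat_lit 5992248685) (nat_lit 760) (nat_lit 546218054) (nat_lit 367) (nat_lit 4) (nat_lit 377) (nat_lit 5) (nat_lit 377) (nat_lit 4) (nat_lit 432) (nat_lit 356) (nat_lit 352)))) (XT.nd (nat_lit 156) (nat_lit 1444) (nat_lit 0) (XT.nd (nat_lit 78) (nat_lit 684) (nat_lit 0) (XT.lf (nat_lit 0)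 (nat_lit 3206436733) (nat_lit 836) (nat_lit 264456261) (nat_lit 76) (nat_lit 4309286185) (nat_lit 366) (nat_lit 5) (nat_lit 377) (nat_lit 5) (nat_lit 367) (nat_lit 4) (nat_lit 433) (nat_lit 356) (nat_lit 351)) (XT.lf (nat_lit 0) (nat_lit 6130785710) (nat_lit 684) (nat_lit 870338774) (nat_lit 760) (nat_lit 832002843) (nat_lit 357) (nat_lit 5) (nat_lit 366) (nat_lit 5) (nat_lit 367) (nat_lit 4) (nat_lit 434) (nat_lit 356) (nat_lit 350))) (XT.nd (nat_lit 78) (nat_lit 684) (nat_lit 0) (XT.lf (nat_lit 0) (nat_lit 2924561003) (nat_lit 760) (nat_lit 3167495144) (nat_lit 76) (nat_lit 1795108081) (nat_lit 347) (nat_lit 5) (nat_lit 357) (nat_lit 5) (nat_lit 348) (nat_lit 4) (nat_lit 435) (nat_lit 356) (nat_lit 349)) (XT.lf (nat_lit 0) (nat_lit 3301069307) (nat_lit 684) (nat_lit 3418214235) (nat_lit 760) (nat_lit 1223404977) (nat_lit 338) (nat_lit 5) (nat_lit 347) (nat_lit 5) (nat_lit 348) (nat_lit 4) (nat_lit 436) (nat_lit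 356) (nat_lit 348)))))) (XT.nd (nat_lit 624) (nat_lit 4028) (nat_lit 0) (XT.nd (nat_lit 312) (nat_lit 1900) (nat_lit 0) (XT.nd (nat_lit 156) (nat_lit 684) (nat_lit 0) (XT.nd (nat_lit 78) (nat_lit 608) (nat_lit 0) (XT.lf (nat_lit 0) (nat_lit 1868253477) (nat_lit 684) (nat_lit 657649749) (nat_lit 760) (nat_lit 5473697638) (nat_lit 328) (nat_lit 5) (nat_lit 337) (nat_lit 5) (nat_lit 338) (nat_lit 5) (nat_lit 437) (nat_lit 356) (nat_lit 347)) (XT.lf (nat_lit 0) (nat_lit 414386891) (nat_lit 608) (nat_lit 5903886172) (nat_lit 684) (nat_lit 1739527520) (nat_lit 320) (nat_lit 5) (nat_lit 328) (nat_lit 5) (nat_lit 329) (nat_lit 4) (nat_lit 438) (nat_lit 356) (nat_lit 346))) (XT.nd (nat_lit 78) (nat_lit 608) (nat_lit 0) (XT.lf (nat_lit 0) (nat_lit 2024639678) (nat_lit 684) (nat_lit 1043493624) (nat_lit 76) (nat_lit 5049113221) (nat_lit 319) (nat_lit 5) (nat_lit 328) (nat_lit 5) (nat_lit 320) (nat_lit 5) (nat_lit 439) (nat_lit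 356) (nat_lit 345)) (XT.lf (nat_lit 0) (nat_lit 5669658594) (nat_lit 608) (nat_lit 145894776) (nat_lit 684) (nat_lit 2362602938) (nat_lit 311) (nat_lit 5) (nat_lit 319) (nat_lit 5) (nat_lit 320) (nat_lit 5) (nat_lit 440) (nat_lit 356) (nat_lit 344)))) (XT.nd (nat_lit 156) (nat_lit 608) (nat_lit 0) (XT.nd (nat_lit 78) (nat_lit 608) (nat_lit 0) (XT.lf (nat_lit 0) (nat_lit 1414541126) (nat_lit 684) (nat_lit 4003616495) (nat_lit 76) (nat_lit 2822110375) (nat_lit 302) (nat_lit 5) (nat_lit 311) (nat_lit 5) (nat_lit 303) (nat_lit 5) (nat_lit 441) (nat_lit 356) (nat_lit 343)) (XT.lf (nat_lit 0) (nat_lit 2784779480) (nat_lit 608) (nat_lit 2425593383) (nat_lit 684) (nat_lit 3093441118) (nat_lit 294) (nat_lit 5) (nat_lit 302) (nat_lit 5) (nat_lit 303) (nat_lit 5) (nat_lit 442) (nat_lit 356) (nat_lit 342))) (XT.nd (nat_lit 78) (nat_lit 0) (nat_lit 0) (XT.lf (nat_lit 0) (nat_lit 683001852) (nat_lit 608) (nat_lit 7048262378)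 (nat_lit 76) (nat_lit 637696625) (nat_lit 286) (nat_lit 5) (nat_lit 294) (nat_lit 5) (nat_lit 287) (nat_lit 5) (nat_lit 443) (nat_lit 356) (nat_lit 341)) (XT.lf (nat_lit 0) (nat_lit 4486482602) (nat_lit 608) (nat_lit 182656314) (nat_lit 76) (nat_lit 3766004196) (nat_lit 286) (nat_lit 5) (nat_lit 294) (nat_lit 5) (nat_lit 287) (nat_lit 5) (nat_lit 444) (nat_lit 356) (nat_lit 340))))) (XT.nd (nat_lit 312) (nat_lit 1672) (nat_lit 0) (XT.nd (nat_lit 156) (nat_lit 1140) (nat_lit 0) (XT.nd (nat_lit 78) (nat_lit 608) (nat_lit 0) (XT.lf (nat_lit 0) (nat_lit 6828217846) (nat_lit 608) (nat_lit 1522880743) (nat_lit 684) (nat_lit 151849113) (nat_lit 278) (nat_lit 5) (nat_lit 286) (nat_lit 5) (nat_lit 287) (nat_lit 5) (nat_lit 445) (nat_lit 356) (nat_lit 339)) (XT.lf (nat_lit 0) (nat_lit 3660404260) (nat_lit 608) (nat_lit 3209109412) (nat_lit 76) (nat_lit 1702345420) (nat_lit 270) (nat_lit 5) (nat_lit 278) (nat_lit 5) (nat_lit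 271) (nat_lit 5) (nat_lit 446) (nat_lit 356) (nat_lit 338))) (XT.nd (nat_lit 78) (nat_lit 608) (nat_lit 0) (XT.lf (nat_lit 0) (nat_lit 3879141118) (nat_lit 532) (nat_lit 3655774636) (nat_lit 608) (nat_lit 1107451957) (nat_lit 263) (nat_lit 5) (nat_lit 270) (nat_lit 5) (nat_lit 271) (nat_lit 5) (nat_lit 447) (nat_lit 356) (nat_lit 337)) (XT.lf (nat_lit 0) (nat_lit 2369170219) (nat_lit 532) (nat_lit 345850507) (nat_lit 608) (nat_lit 5999330675) (nat_lit 255) (nat_lit 5) (nat_lit 262) (nat_lit 5) (nat_lit 263) (nat_lit 5) (nat_lit 448) (nat_lit 356) (nat_lit 336)))) (XT.nd (nat_lit 156) (nat_lit 1064) (nat_lit 0) (XT.nd (nat_lit 78) (nat_lit 76) (nat_lit 0) (XT.lf (nat_lit 0) (nat_lit 822197665) (nat_lit 532) (nat_lit 5776265018) (nat_lit 608) (nat_lit 2189178703) (nat_lit 248) (nat_lit 5) (nat_lit 255) (nat_lit 5) (nat_lit 256) (nat_lit 5) (nat_lit 449) (nat_lit 356) (nat_lit 335)) (XT.lf (nat_lit 0) (nat_lit 1662435731)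 (nat_lit 608) (nat_lit 739433801) (nat_lit 76) (nat_lit 6460556892) (nat_lit 247) (nat_lit 5) (nat_lit 255) (nat_lit 5) (nat_lit 248) (nat_lit 5) (nat_lit 450) (nat_lit 356) (nat_lit 334))) (XT.nd (nat_lit 78) (nat_lit 608) (nat_lit 0) (XT.lf (nat_lit 0) (nat_lit 5555256805) (nat_lit 532) (nat_lit 2323811868) (nat_lit 76) (nat_lit 1059479330) (nat_lit 241) (nat_lit 5) (nat_lit 248) (nat_lit 5) (nat_lit 242) (nat_lit 5) (nat_lit 451) (nat_lit 356) (nat_lit 333)) (XT.lf (nat_lit 0) (nat_lit 500831747) (nat_lit 608) (nat_lit 3940961907) (nat_lit 76) (nat_lit 4574376672) (nat_lit 233) (nat_lit 5) (nat_lit 241) (nat_lit 5) (nat_lit 234) (nat_lit 5) (nat_lit 452) (nat_lit 356) (nat_lit 332))))))) (XT.nd (nat_lit 57564) (nat_lit 0) (nat_lit 7904) (XT.nd (nat_lit 624) (nat_lit 1292) (nat_lit 0) (XT.nd (nat_lit 312) (nat_lit 1824) (nat_lit 0) (XT.nd (nat_lit 156) (nat_lit 532) (nat_lit 0) (XT.nd (nat_lit 78) (nat_lit 456)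 (nat_lit 0) (XT.lf (nat_lit 0) (nat_lit 3499846955) (nat_lit 456) (nat_lit 900068684) (nat_lit 532) (nat_lit 4695330571) (nat_lit 227) (nat_lit 5) (nat_lit 233) (nat_lit 5) (nat_lit 234) (nat_lit 5) (nat_lit 453) (nat_lit 356) (nat_lit 331)) (XT.lf (nat_lit 0) (nat_lit 1891929630) (nat_lit 456) (nat_lit 6486079646) (nat_lit 532) (nat_lit 797873773) (nat_lit 221) (nat_lit 5) (nat_lit 227) (nat_lit 5) (nat_lit 228) (nat_lit 5) (nat_lit 454) (nat_lit 356) (nat_lit 330))) (XT.nd (nat_lit 78) (nat_lit 0) (nat_lit 0) (XT.lf (nat_lit 0) (nat_lit 240984708) (nat_lit 456) (nat_lit 2884899029) (nat_lit 532) (nat_lit 6132035767) (nat_lit 214) (nat_lit 5) (nat_lit 220) (nat_lit 5) (nat_lit 221) (nat_lit 5) (nat_lit 455) (nat_lit 356) (nat_lit 329)) (XT.lf (nat_lit 0) (nat_lit 7116838816) (nat_lit 532) (nat_lit 1419365298) (nat_lit 76) (nat_lit 805298975) (nat_lit 214) (nat_lit 5) (nat_lit 221) (nat_lit 5) (nat_lit 215) (nat_lit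 5) (nat_lit 456) (nat_lit 356) (nat_lit 328)))) (XT.nd (nat_lit 156) (nat_lit 912) (nat_lit 0) (XT.nd (nat_lit 78) (nat_lit 380) (nat_lit 0) (XT.lf (nat_lit 0) (nat_lit 1744042781) (nat_lit 532) (nat_lit 3125817302) (nat_lit 76) (nat_lit 4556543969) (nat_lit 207) (nat_lit 5) (nat_lit 214) (nat_lit 5) (nat_lit 208) (nat_lit 5) (nat_lit 457) (nat_lit 356) (nat_lit 327)) (XT.lf (nat_lit 0) (nat_lit 4645775703) (nat_lit 380) (nat_lit 1102667718) (nat_lit 456) (nat_lit 3764543359) (nat_lit 202) (nat_lit 5) (nat_lit 207) (nat_lit 5) (nat_lit 208) (nat_lit 5) (nat_lit 458) (nat_lit 356) (nat_lit 326))) (XT.nd (nat_lit 78) (nat_lit 380) (nat_lit 0) (XT.lf (nat_lit 0) (nat_lit 233373153) (nat_lit 532) (nat_lit 6649716752) (nat_lit 76) (nat_lit 2718085576) (nat_lit 195) (nat_lit 5) (nat_lit 202) (nat_lit 5) (nat_lit 196) (nat_lit 5) (nat_lit 459) (nat_lit 356) (nat_lit 325)) (XT.lf (nat_lit 0) (nat_lit 1203099427) (nat_lit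 380) (nat_lit 3052618476) (nat_lit 456) (nat_lit 5435014838) (nat_lit 190) (nat_lit 5) (nat_lit 195) (nat_lit 5) (nat_lit 196) (nat_lit 5) (nat_lit 460) (nat_lit 356) (nat_lit 324))))) (XT.nd (nat_lit 56628) (nat_lit 0) (nat_lit 17100) (XT.nd (nat_lit 156) (nat_lit 836) (nat_lit 0) (XT.nd (nat_lit 78) (nat_lit 456) (nat_lit 0) (XT.lf (nat_lit 0) (nat_lit 8356137737) (nat_lit 456) (nat_lit 566478249) (nat_lit 76) (nat_lit 859512597) (nat_lit 190) (nat_lit 5) (nat_lit 196) (nat_lit 5) (nat_lit 191) (nat_lit 5) (nat_lit 461) (nat_lit 356) (nat_lit 323)) (XT.lf (nat_lit 0) (nat_lit 2645575548) (nat_lit 456) (nat_lit 2381967288) (nat_lit 76) (nat_lit 4847117869) (nat_lit 184) (nat_lit 5) (nat_lit 190) (nat_lit 5) (nat_lit 185) (nat_lit 5) (nat_lit 462) (nat_lit 356) (nat_lit 322))) (XT.nd (nat_lit 78) (nat_lit 456) (nat_lit 0) (XT.lf (nat_lit 0) (nat_lit 5736433341) (nat_lit 380) (nat_lit 1032486801) (nat_lit 456) (nat_lit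 3200145995) (nat_lit 179) (nat_lit 5) (nat_lit 184) (nat_lit 5) (nat_lit 185) (nat_lit 5) (nat_lit 463) (nat_lit 356) (nat_lit 321)) (XT.lf (nat_lit 0) (nat_lit 907553644) (nat_lit 456) (nat_lit 6136324130) (nat_lit 76) (nat_lit 3021161653) (nat_lit 173) (nat_lit 5) (nat_lit 179) (nat_lit 5) (nat_lit 174) (nat_lit 5) (nat_lit 464) (nat_lit 356) (nat_lit 320)))) (XT.nd (nat_lit 156) (nat_lit 836) (nat_lit 0) (XT.nd (nat_lit 78) (nat_lit 836) (nat_lit 0) (XT.lf (nat_lit 0) (nat_lit 582187487) (nat_lit 912) (nat_lit 2558631438) (nat_lit 0) (nat_lit 582187487) (nat_lit 420) (nat_lit 5) (nat_lit 432) (nat_lit 4) (nat_lit 420) (nat_lit 4) (nat_lit 426) (nat_lit 357) (nat_lit 357)) (XT.lf (nat_lit 0) (nat_lit 817067513) (nat_lit 836) (nat_lit 4080673688) (nat_lit 836) (nat_lit 2592634304) (nat_lit 409) (nat_lit 4) (nat_lit 420) (nat_lit 5) (nat_lit 420) (nat_lit 4) (nat_lit 427) (nat_lit 357) (nat_lit 356))) (XT.nd (nat_lit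 78) (nat_lit 760) (nat_lit 0) (XT.lf (nat_lit 0) (nat_lit 1120354596) (nat_lit 912) (nat_lit 683785239) (nat_lit 76) (nat_lit 5732022613) (nat_lit 408) (nat_lit 5) (nat_lit 420) (nat_lit 5) (nat_lit 409) (nat_lit 4) (nat_lit 428) (nat_lit 357) (nat_lit 355)) (XT.lf (nat_lit 0) (nat_lit 4843956598) (nat_lit 836) (nat_lit 2186519706) (nat_lit 0) (nat_lit 552624709) (nat_lit 398) (nat_lit 5) (nat_lit 409) (nat_lit 4) (nat_lit 398) (nat_lit 4) (nat_lit 429) (nat_lit 357) (nat_lit 354)))))) (XT.nd (nat_lit 624) (nat_lit 3876) (nat_lit 0) (XT.nd (nat_lit 312) (nat_lit 2888) (nat_lit 0) (XT.nd (nat_lit 156) (nat_lit 836) (nat_lit 0) (XT.nd (nat_lit 78) (nat_lit 760) (nat_lit 0) (XT.lf (nat_lit 0) (nat_lit 972837464) (nat_lit 836) (nat_lit 3700918589) (nat_lit 76) (nat_lit 2957590099) (nat_lit 387) (nat_lit 5) (nat_lit 398) (nat_lit 5) (nat_lit 388) (nat_lit 4) (nat_lit 430) (nat_lit 357) (nat_lit 353)) (XT.lf (nat_lit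 0) (nat_lit 2453026748) (nat_lit 760) (nat_lit 2233527772) (nat_lit 836) (nat_lit 2994356106) (nat_lit 377) (nat_lit 5) (nat_lit 387) (nat_lit 5) (nat_lit 388) (nat_lit 4) (nat_lit 431) (nat_lit 357) (nat_lit 352))) (XT.nd (nat_lit 78) (nat_lit 0) (nat_lit 0) (XT.lf (nat_lit 0) (nat_lit 700276931) (nat_lit 836) (nat_lit 6757156063) (nat_lit 76) (nat_lit 274598045) (nat_lit 366) (nat_lit 5) (nat_lit 377) (nat_lit 5) (nat_lit 367) (nat_lit 4) (nat_lit 432) (nat_lit 357) (nat_lit 351)) (XT.lf (nat_lit 0) (nat_lit 4413333200) (nat_lit 836) (nat_lit 526809685) (nat_lit 76) (nat_lit 2843942619) (nat_lit 366) (nat_lit 5) (nat_lit 377) (nat_lit 5) (nat_lit 367) (nat_lit 4) (nat_lit 433) (nat_lit 357) (nat_lit 350)))) (XT.nd (nat_lit 156) (nat_lit 1444) (nat_lit 0) (XT.nd (nat_lit 78) (nat_lit 684) (nat_lit 0) (XT.lf (nat_lit 0) (nat_lit 332114439) (nat_lit 760) (nat_lit 2014802299) (nat_lit 76) (nat_lit 5490748886) (nat_lit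 356) (nat_lit 5) (nat_lit 366) (nat_lit 5) (nat_lit 357) (nat_lit 5) (nat_lit 434) (nat_lit 357) (nat_lit 349)) (XT.lf (nat_lit 0) (nat_lit 4034160563) (nat_lit 760) (nat_lit 3525091856) (nat_lit 76) (nat_lit 333214185) (nat_lit 347) (nat_lit 5) (nat_lit 357) (nat_lit 5) (nat_lit 348) (nat_lit 4) (nat_lit 435) (nat_lit 357) (nat_lit 348))) (XT.nd (nat_lit 78) (nat_lit 760) (nat_lit 0) (XT.lf (nat_lit 0) (nat_lit 2898384641) (nat_lit 684) (nat_lit 4896560772) (nat_lit 760) (nat_lit 153724236) (nat_lit 338) (nat_lit 5) (nat_lit 347) (nat_lit 5) (nat_lit 348) (nat_lit 4) (nat_lit 436) (nat_lit 357) (nat_lit 347)) (XT.lf (nat_lit 0) (nat_lit 1406629291) (nat_lit 684) (nat_lit 2140757616) (nat_lit 760) (nat_lit 4458739545) (nat_lit 328) (nat_lit 5) (nat_lit 337) (nat_lit 5) (nat_lit 338) (nat_lit 5) (nat_lit 437) (nat_lit 357) (nat_lit 346))))) (XT.nd (nat_lit 312) (nat_lit 1900) (nat_lit 0) (XT.nd (nat_lit 156) (nat_lit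 1292) (nat_lit 0) (XT.nd (nat_lit 78) (nat_lit 684) (nat_lit 0) (XT.lf (nat_lit 0) (nat_lit 7296561928) (nat_lit 760) (nat_lit 89823163) (nat_lit 76) (nat_lit 678804978) (nat_lit 328) (nat_lit 5) (nat_lit 338) (nat_lit 5) (nat_lit 329) (nat_lit 4) (nat_lit 438) (nat_lit 357) (nat_lit 345)) (XT.lf (nat_lit 0) (nat_lit 2951479229) (nat_lit 684) (nat_lit 1602996907) (nat_lit 76) (nat_lit 3570660323) (nat_lit 319) (nat_lit 5) (nat_lit 328) (nat_lit 5) (nat_lit 320) (nat_lit 5) (nat_lit 439) (nat_lit 357) (nat_lit 344))) (XT.nd (nat_lit 78) (nat_lit 684) (nat_lit 0) (XT.lf (nat_lit 0) (nat_lit 5062587174) (nat_lit 608) (nat_lit 1645735363) (nat_lit 684) (nat_lit 1478405116) (nat_lit 311) (nat_lit 5) (nat_lit 319) (nat_lit 5) (nat_lit 320) (nat_lit 5) (nat_lit 440) (nat_lit 357) (nat_lit 343)) (XT.lf (nat_lit 0) (nat_lit 2243010058) (nat_lit 684) (nat_lit 4672881646) (nat_lit 76) (nat_lit 1333715470) (nat_lit 302) (nat_lit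 5) (nat_lit 311) (nat_lit 5) (nat_lit 303) (nat_lit 5) (nat_lit 441) (nat_lit 357) (nat_lit 342)))) (XT.nd (nat_lit 156) (nat_lit 684) (nat_lit 0) (XT.nd (nat_lit 78) (nat_lit 608) (nat_lit 0) (XT.lf (nat_lit 0) (nat_lit 2066076199) (nat_lit 608) (nat_lit 3938376345) (nat_lit 684) (nat_lit 2309388400) (nat_lit 294) (nat_lit 5) (nat_lit 302) (nat_lit 5) (nat_lit 303) (nat_lit 5) (nat_lit 442) (nat_lit 357) (nat_lit 341)) (XT.lf (nat_lit 0) (nat_lit 540729117) (nat_lit 532) (nat_lit 877162308) (nat_lit 608) (nat_lit 6961772185) (nat_lit 286) (nat_lit 5) (nat_lit 293) (nat_lit 5) (nat_lit 294) (nat_lit 5) (nat_lit 443) (nat_lit 357) (nat_lit 340))) (XT.nd (nat_lit 78) (nat_lit 684) (nat_lit 0) (XT.lf (nat_lit 0) (nat_lit 5186336612) (nat_lit 608) (nat_lit 1008028027) (nat_lit 76) (nat_lit 2252181939) (nat_lit 286) (nat_lit 5) (nat_lit 294) (nat_lit 5) (nat_lit 287) (nat_lit 5) (nat_lit 444) (nat_lit 357) (nat_lit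 339)) (XT.lf (nat_lit 0) (nat_lit 494879861) (nat_lit 684) (nat_lit 2566547656) (nat_lit 76) (nat_lit 5453547651) (nat_lit 277) (nat_lit 5) (nat_lit 286) (nat_lit 5) (nat_lit 278) (nat_lit 5) (nat_lit 445) (nat_lit 357) (nat_lit 338))))))))
noncomputable def xc6 : XT := (XT.nd (nat_lit 58656) (nat_lit 0) (nat_lit 456) (XT.nd (nat_lit 1248) (nat_lit 1292) (nat_lit 0) (XT.nd (nat_lit 624) (nat_lit 2812) (nat_lit 0) (XT.nd (nat_lit 312) (nat_lit 2128) (nat_lit 0) (XT.nd (nat_lit 156) (nat_lit 608) (nat_lit 0) (XT.nd (nat_lit 78) (nat_lit 532) (nat_lit 0) (XT.lf (nat_lit 0) (nat_lit 4260266365) (nat_lit 608) (nat_lit 4156636758) (nat_lit 76) (nat_lit 167861224) (nat_lit 270) (nat_lit 5) (nat_lit 278) (nat_lit 5) (nat_lit 271) (nat_lit 5) (nat_lit 446) (nat_lit 357) (nat_lit 337)) (XT.lf (nat_lit 0) (nat_lit 2878534595) (nat_lit 532) (nat_lit 5221334901) (nat_lit 608) (nat_lit 556101636) (nat_lit 263) (nat_lit 5) (nat_lit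 270) (nat_lit 5) (nat_lit 271) (nat_lit 5) (nat_lit 447) (nat_lit 357) (nat_lit 336))) (XT.nd (nat_lit 78) (nat_lit 0) (nat_lit 0) (XT.lf (nat_lit 0) (nat_lit 1297252907) (nat_lit 532) (nat_lit 1926628925) (nat_lit 608) (nat_lit 5504706558) (nat_lit 255) (nat_lit 5) (nat_lit 262) (nat_lit 5) (nat_lit 263) (nat_lit 5) (nat_lit 448) (nat_lit 357) (nat_lit 335)) (XT.lf (nat_lit 0) (nat_lit 7063643310) (nat_lit 608) (nat_lit 304765483) (nat_lit 76) (nat_lit 1434343191) (nat_lit 255) (nat_lit 5) (nat_lit 263) (nat_lit 5) (nat_lit 256) (nat_lit 5) (nat_lit 449) (nat_lit 357) (nat_lit 334)))) (XT.nd (nat_lit 156) (nat_lit 1064) (nat_lit 0) (XT.nd (nat_lit 78) (nat_lit 456) (nat_lit 0) (XT.lf (nat_lit 0) (nat_lit 2076612605) (nat_lit 608) (nat_lit 1928902412) (nat_lit 76) (nat_lit 4872563370) (nat_lit 247) (nat_lit 5) (nat_lit 255) (nat_lit 5) (nat_lit 248) (nat_lit 5) (nat_lit 450) (nat_lit 357) (nat_lit 333)) (XT.lf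 (nat_lit 0) (nat_lit 5376439822) (nat_lit 456) (nat_lit 550513979) (nat_lit 532) (nat_lit 3028095764) (nat_lit 241) (nat_lit 5) (nat_lit 247) (nat_lit 5) (nat_lit 248) (nat_lit 5) (nat_lit 451) (nat_lit 357) (nat_lit 332))) (XT.nd (nat_lit 78) (nat_lit 456) (nat_lit 0) (XT.lf (nat_lit 0) (nat_lit 811820057) (nat_lit 608) (nat_lit 5268482596) (nat_lit 76) (nat_lit 2953114085) (nat_lit 233) (nat_lit 5) (nat_lit 241) (nat_lit 5) (nat_lit 234) (nat_lit 5) (nat_lit 452) (nat_lit 357) (nat_lit 331)) (XT.lf (nat_lit 0) (nat_lit 2114248646) (nat_lit 456) (nat_lit 2560537067) (nat_lit 532) (nat_lit 4438429273) (nat_lit 227) (nat_lit 5) (nat_lit 233) (nat_lit 5) (nat_lit 234) (nat_lit 5) (nat_lit 453) (nat_lit 357) (nat_lit 330))))) (XT.nd (nat_lit 312) (nat_lit 1292) (nat_lit 0) (XT.nd (nat_lit 156) (nat_lit 988) (nat_lit 0) (XT.nd (nat_lit 78) (nat_lit 76) (nat_lit 0) (XT.lf (nat_lit 0) (nat_lit 440004558) (nat_lit 456)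 (nat_lit 8165736402) (nat_lit 532) (nat_lit 589053634) (nat_lit 221) (nat_lit 5) (nat_lit 227) (nat_lit 5) (nat_lit 228) (nat_lit 5) (nat_lit 454) (nat_lit 357) (nat_lit 329)) (XT.lf (nat_lit 0) (nat_lit 3303562728) (nat_lit 532) (nat_lit 1274557722) (nat_lit 76) (nat_lit 4699251530) (nat_lit 220) (nat_lit 5) (nat_lit 227) (nat_lit 5) (nat_lit 221) (nat_lit 5) (nat_lit 455) (nat_lit 357) (nat_lit 328))) (XT.nd (nat_lit 78) (nat_lit 532) (nat_lit 0) (XT.lf (nat_lit 0) (nat_lit 6355136085) (nat_lit 456) (nat_lit 899127663) (nat_lit 532) (nat_lit 2107496898) (nat_lit 214) (nat_lit 5) (nat_lit 220) (nat_lit 5) (nat_lit 221) (nat_lit 5) (nat_lit 456) (nat_lit 357) (nat_lit 327)) (XT.lf (nat_lit 0) (nat_lit 1816754115) (nat_lit 532) (nat_lit 4789947929) (nat_lit 76) (nat_lit 2840802738) (nat_lit 207) (nat_lit 5) (nat_lit 214) (nat_lit 5) (nat_lit 208) (nat_lit 5) (nat_lit 457) (nat_lit 357) (nat_lit 326)))) (XT.nd (nat_lit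 156) (nat_lit 380) (nat_lit 0) (XT.nd (nat_lit 78) (nat_lit 532) (nat_lit 0) (XT.lf (nat_lit 0) (nat_lit 2919338546) (nat_lit 380) (nat_lit 2864558029) (nat_lit 456) (nat_lit 3750936098) (nat_lit 202) (nat_lit 5) (nat_lit 207) (nat_lit 5) (nat_lit 208) (nat_lit 5) (nat_lit 458) (nat_lit 357) (nat_lit 325)) (XT.lf (nat_lit 0) (nat_lit 197466944) (nat_lit 532) (nat_lit 8472591957) (nat_lit 76) (nat_lit 953947408) (nat_lit 195) (nat_lit 5) (nat_lit 202) (nat_lit 5) (nat_lit 196) (nat_lit 5) (nat_lit 459) (nat_lit 357) (nat_lit 324))) (XT.nd (nat_lit 78) (nat_lit 380) (nat_lit 0) (XT.lf (nat_lit 0) (nat_lit 4186198792) (nat_lit 532) (nat_lit 675466060) (nat_lit 76) (nat_lit 4852570975) (nat_lit 195) (nat_lit 5) (nat_lit 202) (nat_lit 5) (nat_lit 196) (nat_lit 5) (nat_lit 460) (nat_lit 357) (nat_lit 323)) (XT.lf (nat_lit 0) (nat_lit 7294227199) (nat_lit 380) (nat_lit 956739787) (nat_lit 456) (nat_lit 1555377716) (nat_lit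 190) (nat_lit 5) (nat_lit 195) (nat_lit 5) (nat_lit 196) (nat_lit 5) (nat_lit 461) (nat_lit 357) (nat_lit 322)))))) (XT.nd (nat_lit 56784) (nat_lit 0) (nat_lit 12464) (XT.nd (nat_lit 56472) (nat_lit 0) (nat_lit 17860) (XT.nd (nat_lit 156) (nat_lit 456) (nat_lit 0) (XT.nd (nat_lit 78) (nat_lit 380) (nat_lit 0) (XT.lf (nat_lit 0) (nat_lit 2473220362) (nat_lit 456) (nat_lit 4410943131) (nat_lit 76) (nat_lit 3015623438) (nat_lit 184) (nat_lit 5) (nat_lit 190) (nat_lit 5) (nat_lit 185) (nat_lit 5) (nat_lit 462) (nat_lit 357) (nat_lit 321)) (XT.lf (nat_lit 0) (nat_lit 3640613018) (nat_lit 380) (nat_lit 2917277392) (nat_lit 456) (nat_lit 3437075443) (nat_lit 179) (nat_lit 5) (nat_lit 184) (nat_lit 5) (nat_lit 185) (nat_lit 5) (nat_lit 463) (nat_lit 357) (nat_lit 320))) (XT.nd (nat_lit 56238) (nat_lit 0) (nat_lit 20596) (XT.lf (nat_lit 0) (nat_lit 622094403) (nat_lit 456) (nat_lit 8338915817) (nat_lit 76) (nat_lit 1130992431)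 (nat_lit 173) (nat_lit 5) (nat_lit 179) (nat_lit 5) (nat_lit 174) (nat_lit 5) (nat_lit 464) (nat_lit 357) (nat_lit 319)) (XT.lf (nat_lit 0) (nat_lit 1339824305) (nat_lit 912) (nat_lit 1000516588) (nat_lit 0) (nat_lit 1339824305) (nat_lit 444) (nat_lit 5) (nat_lit 456) (nat_lit 4) (nat_lit 444) (nat_lit 4) (nat_lit 424) (nat_lit 358) (nat_lit 358)))) (XT.nd (nat_lit 156) (nat_lit 912) (nat_lit 0) (XT.nd (nat_lit 78) (nat_lit 912) (nat_lit 0) (XT.lf (nat_lit 0) (nat_lit 3827056903) (nat_lit 912) (nat_lit 2561969102) (nat_lit 912) (nat_lit 1013812927) (nat_lit 432) (nat_lit 4) (nat_lit 444) (nat_lit 5) (nat_lit 444) (nat_lit 4) (nat_lit 425) (nat_lit 358) (nat_lit 357)) (XT.lf (nat_lit 0) (nat_lit 2287390133) (nat_lit 836) (nat_lit 362781391) (nat_lit 912) (nat_lit 4796481374) (nat_lit 420) (nat_lit 5) (nat_lit 431) (nat_lit 5) (nat_lit 432) (nat_lit 4) (nat_lit 426) (nat_lit 358) (nat_lit 356))) (XT.nd (nat_lit 78)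 (nat_lit 76) (nat_lit 0) (XT.lf (nat_lit 0) (nat_lit 737512535) (nat_lit 836) (nat_lit 5609467943) (nat_lit 836) (nat_lit 1144766245) (nat_lit 409) (nat_lit 4) (nat_lit 420) (nat_lit 5) (nat_lit 420) (nat_lit 4) (nat_lit 427) (nat_lit 358) (nat_lit 355)) (XT.lf (nat_lit 0) (nat_lit 2515737711) (nat_lit 912) (nat_lit 813168522) (nat_lit 76) (nat_lit 4209109342) (nat_lit 408) (nat_lit 5) (nat_lit 420) (nat_lit 5) (nat_lit 409) (nat_lit 4) (nat_lit 428) (nat_lit 358) (nat_lit 354))))) (XT.nd (nat_lit 312) (nat_lit 2204) (nat_lit 0) (XT.nd (nat_lit 156) (nat_lit 1596) (nat_lit 0) (XT.nd (nat_lit 78) (nat_lit 836) (nat_lit 0) (XT.lf (nat_lit 0) (nat_lit 5230387375) (nat_lit 760) (nat_lit 971374416) (nat_lit 836) (nat_lit 1383943904) (nat_lit 398) (nat_lit 5) (nat_lit 408) (nat_lit 5) (nat_lit 409) (nat_lit 4) (nat_lit 429) (nat_lit 358) (nat_lit 353)) (XT.lf (nat_lit 0) (nat_lit 2269890020) (nat_lit 836) (nat_lit 3916674927)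 (nat_lit 76) (nat_lit 1448017397) (nat_lit 387) (nat_lit 5) (nat_lit 398) (nat_lit 5) (nat_lit 388) (nat_lit 4) (nat_lit 430) (nat_lit 358) (nat_lit 352))) (XT.nd (nat_lit 78) (nat_lit 836) (nat_lit 0) (XT.lf (nat_lit 0) (nat_lit 2195060784) (nat_lit 760) (nat_lit 3754567899) (nat_lit 836) (nat_lit 1735197702) (nat_lit 377) (nat_lit 5) (nat_lit 387) (nat_lit 5) (nat_lit 388) (nat_lit 4) (nat_lit 431) (nat_lit 358) (nat_lit 351)) (XT.lf (nat_lit 0) (nat_lit 663555543) (nat_lit 760) (nat_lit 1243393951) (nat_lit 836) (nat_lit 5829553232) (nat_lit 366) (nat_lit 5) (nat_lit 376) (nat_lit 5) (nat_lit 377) (nat_lit 5) (nat_lit 432) (nat_lit 358) (nat_lit 350)))) (XT.nd (nat_lit 156) (nat_lit 1444) (nat_lit 0) (XT.nd (nat_lit 78) (nat_lit 760) (nat_lit 0) (XT.lf (nat_lit 0) (nat_lit 5580134032) (nat_lit 836) (nat_lit 873858937) (nat_lit 76) (nat_lit 1335361659) (nat_lit 366) (nat_lit 5) (nat_lit 377) (nat_lit 5) (nat_lit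 367) (nat_lit 4) (nat_lit 433) (nat_lit 358) (nat_lit 349)) (XT.lf (nat_lit 0) (nat_lit 1444477000) (nat_lit 760) (nat_lit 2418797508) (nat_lit 76) (nat_lit 3980188121) (nat_lit 356) (nat_lit 5) (nat_lit 366) (nat_lit 5) (nat_lit 357) (nat_lit 5) (nat_lit 434) (nat_lit 358) (nat_lit 348))) (XT.nd (nat_lit 78) (nat_lit 760) (nat_lit 0) (XT.lf (nat_lit 0) (nat_lit 3921013767) (nat_lit 684) (nat_lit 1189387792) (nat_lit 760) (nat_lit 2788584481) (nat_lit 347) (nat_lit 5) (nat_lit 356) (nat_lit 5) (nat_lit 357) (nat_lit 5) (nat_lit 435) (nat_lit 358) (nat_lit 347)) (XT.lf (nat_lit 0) (nat_lit 862091518) (nat_lit 760) (nat_lit 5553927258) (nat_lit 76) (nat_lit 1539889210) (nat_lit 337) (nat_lit 5) (nat_lit 347) (nat_lit 5) (nat_lit 338) (nat_lit 5) (nat_lit 436) (nat_lit 358) (nat_lit 346))))))) (XT.nd (nat_lit 1248) (nat_lit 4104) (nat_lit 0) (XT.nd (nat_lit 624) (nat_lit 4028) (nat_lit 0) (XT.nd (nat_lit 312) (nat_lit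 1900) (nat_lit 0) (XT.nd (nat_lit 156) (nat_lit 1216) (nat_lit 0) (XT.nd (nat_lit 78) (nat_lit 76) (nat_lit 0) (XT.lf (nat_lit 0) (nat_lit 855586416) (nat_lit 684) (nat_lit 3671462746) (nat_lit 760) (nat_lit 3486978412) (nat_lit 328) (nat_lit 5) (nat_lit 337) (nat_lit 5) (nat_lit 338) (nat_lit 5) (nat_lit 437) (nat_lit 358) (nat_lit 345)) (XT.lf (nat_lit 0) (nat_lit 165560268) (nat_lit 760) (nat_lit 684912597) (nat_lit 76) (nat_lit 7223290119) (nat_lit 327) (nat_lit 5) (nat_lit 337) (nat_lit 5) (nat_lit 328) (nat_lit 5) (nat_lit 438) (nat_lit 358) (nat_lit 344))) (XT.nd (nat_lit 78) (nat_lit 608) (nat_lit 0) (XT.lf (nat_lit 0) (nat_lit 3835995245) (nat_lit 684) (nat_lit 2253694954) (nat_lit 76) (nat_lit 2044711203) (nat_lit 319) (nat_lit 5) (nat_lit 328) (nat_lit 5) (nat_lit 320) (nat_lit 5) (nat_lit 439) (nat_lit 358) (nat_lit 343)) (XT.lf (nat_lit 0) (nat_lit 4363895974) (nat_lit 608) (nat_lit 3194868099) (nat_lit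 684) (nat_lit 637910011) (nat_lit 311) (nat_lit 5) (nat_lit 319) (nat_lit 5) (nat_lit 320) (nat_lit 5) (nat_lit 440) (nat_lit 358) (nat_lit 342)))) (XT.nd (nat_lit 156) (nat_lit 608) (nat_lit 0) (XT.nd (nat_lit 78) (nat_lit 608) (nat_lit 0) (XT.lf (nat_lit 0) (nat_lit 2822608030) (nat_lit 608) (nat_lit 206742282) (nat_lit 684) (nat_lit 5230956785) (nat_lit 302) (nat_lit 5) (nat_lit 310) (nat_lit 5) (nat_lit 311) (nat_lit 5) (nat_lit 441) (nat_lit 358) (nat_lit 341)) (XT.lf (nat_lit 0) (nat_lit 1252705933) (nat_lit 608) (nat_lit 5502323468) (nat_lit 684) (nat_lit 1570226734) (nat_lit 294) (nat_lit 5) (nat_lit 302) (nat_lit 5) (nat_lit 303) (nat_lit 5) (nat_lit 442) (nat_lit 358) (nat_lit 340))) (XT.nd (nat_lit 78) (nat_lit 532) (nat_lit 0) (XT.lf (nat_lit 0) (nat_lit 2114835418) (nat_lit 684) (nat_lit 335302367) (nat_lit 76) (nat_lit 5941495501) (nat_lit 293) (nat_lit 5) (nat_lit 302) (nat_lit 5) (nat_lit 294) (nat_lit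 5) (nat_lit 443) (nat_lit 358) (nat_lit 339)) (XT.lf (nat_lit 0) (nat_lit 5842082118) (nat_lit 608) (nat_lit 1929904554) (nat_lit 76) (nat_lit 687353552) (nat_lit 286) (nat_lit 5) (nat_lit 294) (nat_lit 5) (nat_lit 287) (nat_lit 5) (nat_lit 444) (nat_lit 358) (nat_lit 338))))) (XT.nd (nat_lit 312) (nat_lit 1672) (nat_lit 0) (XT.nd (nat_lit 156) (nat_lit 1140) (nat_lit 0) (XT.nd (nat_lit 78) (nat_lit 532) (nat_lit 0) (XT.lf (nat_lit 0) (nat_lit 1094649140) (nat_lit 684) (nat_lit 3557447485) (nat_lit 76) (nat_lit 3876283702) (nat_lit 277) (nat_lit 5) (nat_lit 286) (nat_lit 5) (nat_lit 278) (nat_lit 5) (nat_lit 445) (nat_lit 358) (nat_lit 337)) (XT.lf (nat_lit 0) (nat_lit 3385724198) (nat_lit 532) (nat_lit 1438348468) (nat_lit 608) (nat_lit 3774816101) (nat_lit 270) (nat_lit 5) (nat_lit 277) (nat_lit 5) (nat_lit 278) (nat_lit 5) (nat_lit 446) (nat_lit 358) (nat_lit 336))) (XT.nd (nat_lit 78) (nat_lit 608) (nat_lit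 0) (XT.lf (nat_lit 0) (nat_lit 1777735730) (nat_lit 532) (nat_lit 6841599569) (nat_lit 608) (nat_lit 51647063) (nat_lit 263) (nat_lit 5) (nat_lit 270) (nat_lit 5) (nat_lit 271) (nat_lit 5) (nat_lit 447) (nat_lit 358) (nat_lit 335)) (XT.lf (nat_lit 0) (nat_lit 123489869) (nat_lit 532) (nat_lit 3562865991) (nat_lit 608) (nat_lit 5057885544) (nat_lit 255) (nat_lit 5) (nat_lit 262) (nat_lit 5) (nat_lit 263) (nat_lit 5) (nat_lit 448) (nat_lit 358) (nat_lit 334)))) (XT.nd (nat_lit 156) (nat_lit 1064) (nat_lit 0) (XT.nd (nat_lit 78) (nat_lit 608) (nat_lit 0) (XT.lf (nat_lit 0) (nat_lit 7294823531) (nat_lit 532) (nat_lit 194404273) (nat_lit 608) (nat_lit 1329914987) (nat_lit 255) (nat_lit 5) (nat_lit 262) (nat_lit 5) (nat_lit 263) (nat_lit 5) (nat_lit 449) (nat_lit 358) (nat_lit 333)) (XT.lf (nat_lit 0) (nat_lit 2443677310) (nat_lit 608) (nat_lit 3222159753) (nat_lit 76) (nat_lit 3229314241) (nat_lit 247) (nat_lit 5) (nat_lit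 255) (nat_lit 5) (nat_lit 248) (nat_lit 5) (nat_lit 450) (nat_lit 358) (nat_lit 332))) (XT.nd (nat_lit 78) (nat_lit 608) (nat_lit 0) (XT.lf (nat_lit 0) (nat_lit 4026652680) (nat_lit 456) (nat_lit 2231716213) (nat_lit 532) (nat_lit 2714466582) (nat_lit 241) (nat_lit 5) (nat_lit 247) (nat_lit 5) (nat_lit 248) (nat_lit 5) (nat_lit 451) (nat_lit 358) (nat_lit 331)) (XT.lf (nat_lit 0) (nat_lit 1074241669) (nat_lit 608) (nat_lit 6703162301) (nat_lit 76) (nat_lit 1274699837) (nat_lit 233) (nat_lit 5) (nat_lit 241) (nat_lit 5) (nat_lit 234) (nat_lit 5) (nat_lit 452) (nat_lit 358) (nat_lit 330)))))) (XT.nd (nat_lit 624) (nat_lit 1216) (nat_lit 0) (XT.nd (nat_lit 312) (nat_lit 1444) (nat_lit 0) (XT.nd (nat_lit 156) (nat_lit 988) (nat_lit 0) (XT.nd (nat_lit 78) (nat_lit 0) (nat_lit 0) (XT.lf (nat_lit 0) (nat_lit 620860090) (nat_lit 456) (nat_lit 4280060958) (nat_lit 532) (nat_lit 4231706732) (nat_lit 227) (nat_lit 5) (nat_lit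 233) (nat_lit 5) (nat_lit 234) (nat_lit 5) (nat_lit 453) (nat_lit 358) (nat_lit 329)) (XT.lf (nat_lit 0) (nat_lit 8103717940) (nat_lit 456) (nat_lit 692229058) (nat_lit 532) (nat_lit 418978976) (nat_lit 227) (nat_lit 5) (nat_lit 233) (nat_lit 5) (nat_lit 234) (nat_lit 5) (nat_lit 454) (nat_lit 358) (nat_lit 328))) (XT.nd (nat_lit 78) (nat_lit 456) (nat_lit 0) (XT.lf (nat_lit 0) (nat_lit 3433241851) (nat_lit 532) (nat_lit 2896778120) (nat_lit 76) (nat_lit 2968224604) (nat_lit 220) (nat_lit 5) (nat_lit 227) (nat_lit 5) (nat_lit 221) (nat_lit 5) (nat_lit 455) (nat_lit 358) (nat_lit 327)) (XT.lf (nat_lit 0) (nat_lit 4672215023) (nat_lit 456) (nat_lit 2675005552) (nat_lit 532) (nat_lit 2036147113) (nat_lit 214) (nat_lit 5) (nat_lit 220) (nat_lit 5) (nat_lit 221) (nat_lit 5) (nat_lit 456) (nat_lit 358) (nat_lit 326)))) (XT.nd (nat_lit 156) (nat_lit 532) (nat_lit 0) (XT.nd (nat_lit 78) (nat_lit 380) (nat_lit 0) (XT.lf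 (nat_lit 0) (nat_lit 1838300688) (nat_lit 532) (nat_lit 6567482439) (nat_lit 76) (nat_lit 1064296780) (nat_lit 207) (nat_lit 5) (nat_lit 214) (nat_lit 5) (nat_lit 208) (nat_lit 5) (nat_lit 457) (nat_lit 358) (nat_lit 325)) (XT.lf (nat_lit 0) (nat_lit 1078778491) (nat_lit 380) (nat_lit 4689176281) (nat_lit 456) (nat_lit 3790202795) (nat_lit 202) (nat_lit 5) (nat_lit 207) (nat_lit 5) (nat_lit 208) (nat_lit 5) (nat_lit 458) (nat_lit 358) (nat_lit 324))) (XT.nd (nat_lit 78) (nat_lit 456) (nat_lit 0) (XT.lf (nat_lit 0) (nat_lit 119466182) (nat_lit 456) (nat_lit 759967857) (nat_lit 76) (nat_lit 8768687242) (nat_lit 201) (nat_lit 5) (nat_lit 207) (nat_lit 5) (nat_lit 202) (nat_lit 5) (nat_lit 459) (nat_lit 358) (nat_lit 323)) (XT.lf (nat_lit 0) (nat_lit 4072159592) (nat_lit 532) (nat_lit 2654548671) (nat_lit 76) (nat_lit 3012363305) (nat_lit 195) (nat_lit 5) (nat_lit 202) (nat_lit 5) (nat_lit 196) (nat_lit 5) (nat_lit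 460) (nat_lit 358) (nat_lit 322))))) (XT.nd (nat_lit 56394) (nat_lit 0) (nat_lit 18316) (XT.nd (nat_lit 156) (nat_lit 380) (nat_lit 0) (XT.nd (nat_lit 78) (nat_lit 456) (nat_lit 0) (XT.lf (nat_lit 0) (nat_lit 5249972207) (nat_lit 380) (nat_lit 2848883244) (nat_lit 456) (nat_lit 1733086439) (nat_lit 190) (nat_lit 5) (nat_lit 195) (nat_lit 5) (nat_lit 196) (nat_lit 5) (nat_lit 461) (nat_lit 358) (nat_lit 321)) (XT.lf (nat_lit 0) (nat_lit 2246782550) (nat_lit 456) (nat_lit 6560000479) (nat_lit 76) (nat_lit 1119645361) (nat_lit 184) (nat_lit 5) (nat_lit 190) (nat_lit 5) (nat_lit 185) (nat_lit 5) (nat_lit 462) (nat_lit 358) (nat_lit 320))) (XT.nd (nat_lit 56160) (nat_lit 0) (nat_lit 21052) (XT.lf (nat_lit 0) (nat_lit 1423897339) (nat_lit 380) (nat_lit 4868587292) (nat_lit 456) (nat_lit 3729902040) (nat_lit 179) (nat_lit 5) (nat_lit 184) (nat_lit 5) (nat_lit 185) (nat_lit 5) (nat_lit 463) (nat_lit 358) (nat_lit 319))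 (XT.lf (nat_lit 0) (nat_lit 595781777) (nat_lit 912) (nat_lit 1521761644) (nat_lit 912) (nat_lit 1521761644) (nat_lit 456) (nat_lit 4) (nat_lit 468) (nat_lit 5) (nat_lit 468) (nat_lit 4) (nat_lit 422) (nat_lit 359) (nat_lit 359)))) (XT.nd (nat_lit 156) (nat_lit 1824) (nat_lit 0) (XT.nd (nat_lit 78) (nat_lit 836) (nat_lit 0) (XT.lf (nat_lit 0) (nat_lit 587967992) (nat_lit 988) (nat_lit 423006339) (nat_lit 76) (nat_lit 6308364143) (nat_lit 455) (nat_lit 5) (nat_lit 468) (nat_lit 5) (nat_lit 456) (nat_lit 4) (nat_lit 423) (nat_lit 359) (nat_lit 358)) (XT.lf (nat_lit 0) (nat_lit 4224491226) (nat_lit 912) (nat_lit 2039308954) (nat_lit 0) (nat_lit 1097215752) (nat_lit 444) (nat_lit 5) (nat_lit 456) (nat_lit 4) (nat_lit 444) (nat_lit 4) (nat_lit 424) (nat_lit 359) (nat_lit 357))) (XT.nd (nat_lit 78) (nat_lit 836) (nat_lit 0) (XT.lf (nat_lit 0) (nat_lit 489059462) (nat_lit 988) (nat_lit 3657175531) (nat_lit 76) (nat_lit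 3257907188) (nat_lit 431) (nat_lit 5) (nat_lit 444) (nat_lit 5) (nat_lit 432) (nat_lit 4) (nat_lit 425) (nat_lit 359) (nat_lit 356)) (XT.lf (nat_lit 0) (nat_lit 2160021458) (nat_lit 836) (nat_lit 1945491654) (nat_lit 912) (nat_lit 3342996078) (nat_lit 420) (nat_lit 5) (nat_lit 431) (nat_lit 5) (nat_lit 432) (nat_lit 4) (nat_lit 426) (nat_lit 359) (nat_lit 355))))))))
noncomputable def xc7 : XT := (XT.nd (nat_lit 1248) (nat_lit 6612) (nat_lit 0) (XT.nd (nat_lit 624) (nat_lit 4712) (nat_lit 0) (XT.nd (nat_lit 312) (nat_lit 2356) (nat_lit 0) (XT.nd (nat_lit 156) (nat_lit 1596) (nat_lit 0) (XT.nd (nat_lit 78) (nat_lit 0) (nat_lit 0) (XT.lf (nat_lit 0) (nat_lit 260042451) (nat_lit 912) (nat_lit 6917829122) (nat_lit 76) (nat_lit 316583907) (nat_lit 408) (nat_lit 5) (nat_lit 420) (nat_lit 5) (nat_lit 409) (nat_lit 4) (nat_lit 427) (nat_lit 359) (nat_lit 354)) (XT.lf (nat_lit 0) (nat_lit 3872693480) (nat_lit 912) (nat_lit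 1022486789) (nat_lit 76) (nat_lit 2646052193) (nat_lit 408) (nat_lit 5) (nat_lit 420) (nat_lit 5) (nat_lit 409) (nat_lit 4) (nat_lit 428) (nat_lit 359) (nat_lit 353))) (XT.nd (nat_lit 78) (nat_lit 836) (nat_lit 0) (XT.lf (nat_lit 0) (nat_lit 4980248539) (nat_lit 760) (nat_lit 2544649746) (nat_lit 836) (nat_lit 64700684) (nat_lit 398) (nat_lit 5) (nat_lit 408) (nat_lit 5) (nat_lit 409) (nat_lit 4) (nat_lit 429) (nat_lit 359) (nat_lit 352)) (XT.lf (nat_lit 0) (nat_lit 3423317359) (nat_lit 760) (nat_lit 104994879) (nat_lit 836) (nat_lit 4110862449) (nat_lit 387) (nat_lit 5) (nat_lit 397) (nat_lit 5) (nat_lit 398) (nat_lit 5) (nat_lit 430) (nat_lit 359) (nat_lit 351)))) (XT.nd (nat_lit 156) (nat_lit 760) (nat_lit 0) (XT.nd (nat_lit 78) (nat_lit 836) (nat_lit 0) (XT.lf (nat_lit 0) (nat_lit 1854022241) (nat_lit 760) (nat_lit 5319462611) (nat_lit 836) (nat_lit 516625198) (nat_lit 377) (nat_lit 5) (nat_lit 387) (nat_lit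 5) (nat_lit 388) (nat_lit 4) (nat_lit 431) (nat_lit 359) (nat_lit 350)) (XT.lf (nat_lit 0) (nat_lit 265872601) (nat_lit 760) (nat_lit 2809583690) (nat_lit 836) (nat_lit 4666853543) (nat_lit 366) (nat_lit 5) (nat_lit 376) (nat_lit 5) (nat_lit 377) (nat_lit 5) (nat_lit 432) (nat_lit 359) (nat_lit 349))) (XT.nd (nat_lit 78) (nat_lit 760) (nat_lit 0) (XT.lf (nat_lit 0) (nat_lit 6488791991) (nat_lit 760) (nat_lit 219932754) (nat_lit 836) (nat_lit 1087235311) (nat_lit 366) (nat_lit 5) (nat_lit 376) (nat_lit 5) (nat_lit 377) (nat_lit 5) (nat_lit 433) (nat_lit 359) (nat_lit 348)) (XT.lf (nat_lit 0) (nat_lit 2516432924) (nat_lit 760) (nat_lit 2909083759) (nat_lit 76) (nat_lit 2425111966) (nat_lit 356) (nat_lit 5) (nat_lit 366) (nat_lit 5) (nat_lit 357) (nat_lit 5) (nat_lit 434) (nat_lit 359) (nat_lit 347))))) (XT.nd (nat_lit 312) (nat_lit 2508) (nat_lit 0) (XT.nd (nat_lit 156) (nat_lit 760) (nat_lit 0) (XT.nd (nat_lit 78)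 (nat_lit 760) (nat_lit 0) (XT.lf (nat_lit 0) (nat_lit 3385748211) (nat_lit 684) (nat_lit 2762725371) (nat_lit 760) (nat_lit 1758356158) (nat_lit 347) (nat_lit 5) (nat_lit 356) (nat_lit 5) (nat_lit 357) (nat_lit 5) (nat_lit 435) (nat_lit 359) (nat_lit 346)) (XT.lf (nat_lit 0) (nat_lit 1816591444) (nat_lit 684) (nat_lit 17961843) (nat_lit 760) (nat_lit 6129949719) (nat_lit 337) (nat_lit 5) (nat_lit 346) (nat_lit 5) (nat_lit 347) (nat_lit 5) (nat_lit 436) (nat_lit 359) (nat_lit 345))) (XT.nd (nat_lit 78) (nat_lit 76) (nat_lit 0) (XT.lf (nat_lit 0) (nat_lit 214908758) (nat_lit 684) (nat_lit 5250365417) (nat_lit 760) (nat_lit 2558033155) (nat_lit 328) (nat_lit 5) (nat_lit 337) (nat_lit 5) (nat_lit 338) (nat_lit 5) (nat_lit 437) (nat_lit 359) (nat_lit 344)) (XT.lf (nat_lit 0) (nat_lit 1052505379) (nat_lit 760) (nat_lit 1379452281) (nat_lit 76) (nat_lit 5651560791) (nat_lit 327) (nat_lit 5) (nat_lit 337) (nat_lit 5) (nat_lit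 328) (nat_lit 5) (nat_lit 438) (nat_lit 359) (nat_lit 343)))) (XT.nd (nat_lit 156) (nat_lit 1216) (nat_lit 0) (XT.nd (nat_lit 78) (nat_lit 684) (nat_lit 0) (XT.lf (nat_lit 0) (nat_lit 4678534594) (nat_lit 684) (nat_lit 2995842940) (nat_lit 76) (nat_lit 470667448) (nat_lit 319) (nat_lit 5) (nat_lit 328) (nat_lit 5) (nat_lit 320) (nat_lit 5) (nat_lit 439) (nat_lit 359) (nat_lit 342)) (XT.lf (nat_lit 0) (nat_lit 157123889) (nat_lit 684) (nat_lit 4635722216) (nat_lit 76) (nat_lit 3415132724) (nat_lit 310) (nat_lit 5) (nat_lit 319) (nat_lit 5) (nat_lit 311) (nat_lit 5) (nat_lit 440) (nat_lit 359) (nat_lit 341))) (XT.nd (nat_lit 78) (nat_lit 608) (nat_lit 0) (XT.lf (nat_lit 0) (nat_lit 1966087810) (nat_lit 608) (nat_lit 1815542704) (nat_lit 684) (nat_lit 4490586241) (nat_lit 302) (nat_lit 5) (nat_lit 310) (nat_lit 5) (nat_lit 311) (nat_lit 5) (nat_lit 441) (nat_lit 359) (nat_lit 340)) (XT.lf (nat_lit 0) (nat_lit 344349714)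 (nat_lit 608) (nat_lit 7118048063) (nat_lit 684) (nat_lit 875666252) (nat_lit 294) (nat_lit 5) (nat_lit 302) (nat_lit 5) (nat_lit 303) (nat_lit 5) (nat_lit 442) (nat_lit 359) (nat_lit 339)))))) (XT.nd (nat_lit 624) (nat_lit 3040) (nat_lit 0) (XT.nd (nat_lit 312) (nat_lit 1748) (nat_lit 0) (XT.nd (nat_lit 156) (nat_lit 1216) (nat_lit 0) (XT.nd (nat_lit 78) (nat_lit 532) (nat_lit 0) (XT.lf (nat_lit 0) (nat_lit 2771842826) (nat_lit 684) (nat_lit 1299559500) (nat_lit 76) (nat_lit 4333517540) (nat_lit 293) (nat_lit 5) (nat_lit 302) (nat_lit 5) (nat_lit 294) (nat_lit 5) (nat_lit 443) (nat_lit 359) (nat_lit 338)) (XT.lf (nat_lit 0) (nat_lit 5518646939) (nat_lit 532) (nat_lit 941441799) (nat_lit 608) (nat_lit 2013318082) (nat_lit 286) (nat_lit 5) (nat_lit 293) (nat_lit 5) (nat_lit 294) (nat_lit 5) (nat_lit 444) (nat_lit 359) (nat_lit 337))) (XT.nd (nat_lit 78) (nat_lit 532) (nat_lit 0) (XT.lf (nat_lit 0) (nat_lit 1649685456)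 (nat_lit 684) (nat_lit 4646832026) (nat_lit 76) (nat_lit 2246670676) (nat_lit 277) (nat_lit 5) (nat_lit 286) (nat_lit 5) (nat_lit 278) (nat_lit 5) (nat_lit 445) (nat_lit 359) (nat_lit 336)) (XT.lf (nat_lit 0) (nat_lit 2243174601) (nat_lit 532) (nat_lit 3100983504) (nat_lit 608) (nat_lit 3270237510) (nat_lit 270) (nat_lit 5) (nat_lit 277) (nat_lit 5) (nat_lit 278) (nat_lit 5) (nat_lit 446) (nat_lit 359) (nat_lit 335)))) (XT.nd (nat_lit 156) (nat_lit 1140) (nat_lit 0) (XT.nd (nat_lit 78) (nat_lit 0) (nat_lit 0) (XT.lf (nat_lit 0) (nat_lit 400783388) (nat_lit 608) (nat_lit 8113731184) (nat_lit 76) (nat_lit 172839980) (nat_lit 262) (nat_lit 5) (nat_lit 270) (nat_lit 5) (nat_lit 263) (nat_lit 5) (nat_lit 447) (nat_lit 359) (nat_lit 334)) (XT.lf (nat_lit 0) (nat_lit 4110107484) (nat_lit 608) (nat_lit 1137462910) (nat_lit 76) (nat_lit 3513596524) (nat_lit 262) (nat_lit 5) (nat_lit 270) (nat_lit 5) (nat_lit 263) (nat_lit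 5) (nat_lit 448) (nat_lit 359) (nat_lit 333))) (XT.nd (nat_lit 78) (nat_lit 608) (nat_lit 0) (XT.lf (nat_lit 0) (nat_lit 5980494535) (nat_lit 532) (nat_lit 1898086811) (nat_lit 608) (nat_lit 958174920) (nat_lit 255) (nat_lit 5) (nat_lit 262) (nat_lit 5) (nat_lit 263) (nat_lit 5) (nat_lit 449) (nat_lit 359) (nat_lit 332)) (XT.lf (nat_lit 0) (nat_lit 2763773792) (nat_lit 608) (nat_lit 4619712984) (nat_lit 76) (nat_lit 1530165095) (nat_lit 247) (nat_lit 5) (nat_lit 255) (nat_lit 5) (nat_lit 248) (nat_lit 5) (nat_lit 450) (nat_lit 359) (nat_lit 331))))) (XT.nd (nat_lit 312) (nat_lit 1520) (nat_lit 0) (XT.nd (nat_lit 156) (nat_lit 456) (nat_lit 0) (XT.nd (nat_lit 78) (nat_lit 608) (nat_lit 0) (XT.lf (nat_lit 0) (nat_lit 2571955044) (nat_lit 456) (nat_lit 3970706744) (nat_lit 532) (nat_lit 2449390324) (nat_lit 241) (nat_lit 5) (nat_lit 247) (nat_lit 5) (nat_lit 248) (nat_lit 5) (nat_lit 451) (nat_lit 359) (nat_lit 330))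 (XT.lf (nat_lit 0) (nat_lit 823578153) (nat_lit 532) (nat_lit 467657685) (nat_lit 608) (nat_lit 7780942298) (nat_lit 233) (nat_lit 5) (nat_lit 240) (nat_lit 5) (nat_lit 241) (nat_lit 5) (nat_lit 452) (nat_lit 359) (nat_lit 329))) (XT.nd (nat_lit 78) (nat_lit 456) (nat_lit 0) (XT.lf (nat_lit 0) (nat_lit 5084779008) (nat_lit 608) (nat_lit 968039618) (nat_lit 76) (nat_lit 3100546208) (nat_lit 233) (nat_lit 5) (nat_lit 241) (nat_lit 5) (nat_lit 234) (nat_lit 5) (nat_lit 453) (nat_lit 359) (nat_lit 328)) (XT.lf (nat_lit 0) (nat_lit 6463850156) (nat_lit 456) (nat_lit 2483781050) (nat_lit 532) (nat_lit 288675296) (nat_lit 227) (nat_lit 5) (nat_lit 233) (nat_lit 5) (nat_lit 234) (nat_lit 5) (nat_lit 454) (nat_lit 359) (nat_lit 327)))) (XT.nd (nat_lit 156) (nat_lit 532) (nat_lit 0) (XT.nd (nat_lit 78) (nat_lit 456) (nat_lit 0) (XT.lf (nat_lit 0) (nat_lit 3513407330) (nat_lit 532) (nat_lit 4629473207) (nat_lit 76) (nat_lit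 1177696231) (nat_lit 220) (nat_lit 5) (nat_lit 227) (nat_lit 5) (nat_lit 221) (nat_lit 5) (nat_lit 455) (nat_lit 359) (nat_lit 326)) (XT.lf (nat_lit 0) (nat_lit 2878118615) (nat_lit 456) (nat_lit 4512329114) (nat_lit 532) (nat_lit 2015990917) (nat_lit 214) (nat_lit 5) (nat_lit 220) (nat_lit 5) (nat_lit 221) (nat_lit 5) (nat_lit 456) (nat_lit 359) (nat_lit 325))) (XT.nd (nat_lit 78) (nat_lit 0) (nat_lit 0) (XT.lf (nat_lit 0) (nat_lit 1029828640) (nat_lit 456) (nat_lit 783952246) (nat_lit 532) (nat_lit 7680255596) (nat_lit 207) (nat_lit 5) (nat_lit 213) (nat_lit 5) (nat_lit 214) (nat_lit 5) (nat_lit 457) (nat_lit 359) (nat_lit 324)) (XT.lf (nat_lit 0) (nat_lit 5706303397) (nat_lit 532) (nat_lit 865129142) (nat_lit 76) (nat_lit 3011424234) (nat_lit 207) (nat_lit 5) (nat_lit 214) (nat_lit 5) (nat_lit 208) (nat_lit 5) (nat_lit 458) (nat_lit 359) (nat_lit 323)))))))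
noncomputable def xc8 : XT := (XT.nd (nat_lit 57174) (nat_lit 0) (nat_lit 6460) (XT.nd (nat_lit 56550) (nat_lit 0) (nat_lit 15428) (XT.nd (nat_lit 312) (nat_lit 0) (nat_lit 0) (XT.nd (nat_lit 156) (nat_lit 836) (nat_lit 0) (XT.nd (nat_lit 78) (nat_lit 456) (nat_lit 0) (XT.lf (nat_lit 0) (nat_lit 3562129) (nat_lit 456) (nat_lit 2777791941) (nat_lit 76) (nat_lit 6892091349) (nat_lit 201) (nat_lit 5) (nat_lit 207) (nat_lit 5) (nat_lit 202) (nat_lit 5) (nat_lit 459) (nat_lit 359) (nat_lit 322)) (XT.lf (nat_lit 0) (nat_lit 3905744264) (nat_lit 532) (nat_lit 4750703383) (nat_lit 76) (nat_lit 1108958285) (nat_lit 195) (nat_lit 5) (nat_lit 202) (nat_lit 5) (nat_lit 196) (nat_lit 5) (nat_lit 460) (nat_lit 359) (nat_lit 321))) (XT.nd (nat_lit 78) (nat_lit 456) (nat_lit 0) (XT.lf (nat_lit 0) (nat_lit 3087851473) (nat_lit 380) (nat_lit 4806237320) (nat_lit 456) (nat_lit 1964954487) (nat_lit 190) (nat_lit 5) (nat_lit 195) (nat_lit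 5) (nat_lit 196) (nat_lit 5) (nat_lit 461) (nat_lit 359) (nat_lit 320)) (XT.lf (nat_lit 0) (nat_lit 1118966124) (nat_lit 380) (nat_lit 852743767) (nat_lit 456) (nat_lit 7982774909) (nat_lit 184) (nat_lit 5) (nat_lit 189) (nat_lit 5) (nat_lit 190) (nat_lit 5) (nat_lit 462) (nat_lit 359) (nat_lit 319)))) (XT.nd (nat_lit 56082) (nat_lit 0) (nat_lit 20672) (XT.nd (nat_lit 56004) (nat_lit 0) (nat_lit 22572) (XT.lf (nat_lit 0) (nat_lit 5978536806) (nat_lit 456) (nat_lit 902588072) (nat_lit 76) (nat_lit 3170095708) (nat_lit 184) (nat_lit 5) (nat_lit 190) (nat_lit 5) (nat_lit 185) (nat_lit 5) (nat_lit 463) (nat_lit 359) (nat_lit 318)) (XT.lf (nat_lit 0) (nat_lit 2238040329) (nat_lit 1140) (nat_lit 681168010) (nat_lit 1140) (nat_lit 681168010) (nat_lit 481) (nat_lit 4) (nat_lit 496) (nat_lit 5) (nat_lit 496) (nat_lit 4) (nat_lit 420) (nat_lit 360) (nat_lit 360))) (XT.nd (nat_lit 78) (nat_lit 912) (nat_lit 0) (XT.lf (nat_lit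 0) (nat_lit 2230883711) (nat_lit 988) (nat_lit 4420536174) (nat_lit 0) (nat_lit 587967992) (nat_lit 468) (nat_lit 5) (nat_lit 481) (nat_lit 4) (nat_lit 468) (nat_lit 4) (nat_lit 421) (nat_lit 360) (nat_lit 359)) (XT.lf (nat_lit 0) (nat_lit 1154163010) (nat_lit 912) (nat_lit 4689376889) (nat_lit 912) (nat_lit 1435759485) (nat_lit 456) (nat_lit 4) (nat_lit 468) (nat_lit 5) (nat_lit 468) (nat_lit 4) (nat_lit 422) (nat_lit 360) (nat_lit 358))))) (XT.nd (nat_lit 312) (nat_lit 2508) (nat_lit 0) (XT.nd (nat_lit 156) (nat_lit 1824) (nat_lit 0) (XT.nd (nat_lit 78) (nat_lit 836) (nat_lit 0) (XT.lf (nat_lit 0) (nat_lit 2140635004) (nat_lit 988) (nat_lit 508653992) (nat_lit 76) (nat_lit 4671210171) (nat_lit 455) (nat_lit 5) (nat_lit 468) (nat_lit 5) (nat_lit 456) (nat_lit 4) (nat_lit 423) (nat_lit 360) (nat_lit 357)) (XT.lf (nat_lit 0) (nat_lit 5205409029) (nat_lit 836) (nat_lit 530383994) (nat_lit 912) (nat_lit 1627210908)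 (nat_lit 444) (nat_lit 5) (nat_lit 455) (nat_lit 5) (nat_lit 456) (nat_lit 4) (nat_lit 424) (nat_lit 360) (nat_lit 356))) (XT.nd (nat_lit 78) (nat_lit 836) (nat_lit 0) (XT.lf (nat_lit 0) (nat_lit 1940943883) (nat_lit 988) (nat_lit 3823110070) (nat_lit 76) (nat_lit 1642632926) (nat_lit 431) (nat_lit 5) (nat_lit 444) (nat_lit 5) (nat_lit 432) (nat_lit 4) (nat_lit 425) (nat_lit 360) (nat_lit 355)) (XT.lf (nat_lit 0) (nat_lit 1954407547) (nat_lit 836) (nat_lit 3568902553) (nat_lit 912) (nat_lit 1928425537) (nat_lit 420) (nat_lit 5) (nat_lit 431) (nat_lit 5) (nat_lit 432) (nat_lit 4) (nat_lit 426) (nat_lit 360) (nat_lit 354)))) (XT.nd (nat_lit 156) (nat_lit 1596) (nat_lit 0) (XT.nd (nat_lit 78) (nat_lit 0) (nat_lit 0) (XT.lf (nat_lit 0) (nat_lit 320162536) (nat_lit 836) (nat_lit 1299573379) (nat_lit 912) (nat_lit 5878488818) (nat_lit 408) (nat_lit 5) (nat_lit 419) (nat_lit 5) (nat_lit 420) (nat_lit 5) (nat_lit 427)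 (nat_lit 360) (nat_lit 353)) (XT.lf (nat_lit 0) (nat_lit 5191754045) (nat_lit 912) (nat_lit 1311822126) (nat_lit 76) (nat_lit 1042238203) (nat_lit 408) (nat_lit 5) (nat_lit 420) (nat_lit 5) (nat_lit 409) (nat_lit 4) (nat_lit 428) (nat_lit 360) (nat_lit 352))) (XT.nd (nat_lit 78) (nat_lit 760) (nat_lit 0) (XT.lf (nat_lit 0) (nat_lit 1199454080) (nat_lit 836) (nat_lit 2952971111) (nat_lit 76) (nat_lit 3442272059) (nat_lit 397) (nat_lit 5) (nat_lit 408) (nat_lit 5) (nat_lit 398) (nat_lit 5) (nat_lit 429) (nat_lit 360) (nat_lit 351)) (XT.lf (nat_lit 0) (nat_lit 3037234162) (nat_lit 760) (nat_lit 1720488654) (nat_lit 836) (nat_lit 2887219663) (nat_lit 387) (nat_lit 5) (nat_lit 397) (nat_lit 5) (nat_lit 398) (nat_lit 5) (nat_lit 430) (nat_lit 360) (nat_lit 350)))))) (XT.nd (nat_lit 624) (nat_lit 4408) (nat_lit 0) (XT.nd (nat_lit 312) (nat_lit 2204) (nat_lit 0) (XT.nd (nat_lit 156) (nat_lit 1520) (nat_lit 0) (XT.nd (nat_lit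 78) (nat_lit 0) (nat_lit 0) (XT.lf (nat_lit 0) (nat_lit 653159138) (nat_lit 836) (nat_lit 6271283412) (nat_lit 76) (nat_lit 772235200) (nat_lit 376) (nat_lit 5) (nat_lit 387) (nat_lit 5) (nat_lit 377) (nat_lit 5) (nat_lit 431) (nat_lit 360) (nat_lit 349)) (XT.lf (nat_lit 0) (nat_lit 4205854569) (nat_lit 836) (nat_lit 213647840) (nat_lit 76) (nat_lit 3329960247) (nat_lit 376) (nat_lit 5) (nat_lit 387) (nat_lit 5) (nat_lit 377) (nat_lit 5) (nat_lit 432) (nat_lit 360) (nat_lit 348))) (XT.nd (nat_lit 78) (nat_lit 684) (nat_lit 0) (XT.lf (nat_lit 0) (nat_lit 3400455) (nat_lit 836) (nat_lit 1834578485) (nat_lit 76) (nat_lit 5965772010) (nat_lit 365) (nat_lit 5) (nat_lit 376) (nat_lit 5) (nat_lit 366) (nat_lit 5) (nat_lit 433) (nat_lit 360) (nat_lit 347)) (XT.lf (nat_lit 0) (nat_lit 3548402588) (nat_lit 760) (nat_lit 3485853322) (nat_lit 76) (nat_lit 824910589) (nat_lit 356) (nat_lit 5) (nat_lit 366) (nat_lit 5) (nat_lit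 357) (nat_lit 5) (nat_lit 434) (nat_lit 360) (nat_lit 346)))) (XT.nd (nat_lit 156) (nat_lit 760) (nat_lit 0) (XT.nd (nat_lit 78) (nat_lit 760) (nat_lit 0) (XT.lf (nat_lit 0) (nat_lit 2763604215) (nat_lit 684) (nat_lit 4382987303) (nat_lit 760) (nat_lit 769453106) (nat_lit 347) (nat_lit 5) (nat_lit 356) (nat_lit 5) (nat_lit 357) (nat_lit 5) (nat_lit 435) (nat_lit 360) (nat_lit 345)) (XT.lf (nat_lit 0) (nat_lit 1132475370) (nat_lit 684) (nat_lit 1643906607) (nat_lit 760) (nat_lit 5197889596) (nat_lit 337) (nat_lit 5) (nat_lit 346) (nat_lit 5) (nat_lit 347) (nat_lit 5) (nat_lit 436) (nat_lit 360) (nat_lit 344))) (XT.nd (nat_lit 78) (nat_lit 760) (nat_lit 0) (XT.lf (nat_lit 0) (nat_lit 6365777849) (nat_lit 760) (nat_lit 508892022) (nat_lit 76) (nat_lit 1159232525) (nat_lit 337) (nat_lit 5) (nat_lit 347) (nat_lit 5) (nat_lit 338) (nat_lit 5) (nat_lit 437) (nat_lit 360) (nat_lit 343)) (XT.lf (nat_lit 0) (nat_lit 1898140310)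 (nat_lit 760) (nat_lit 2164228741) (nat_lit 76) (nat_lit 4032280955) (nat_lit 327) (nat_lit 5) (nat_lit 337) (nat_lit 5) (nat_lit 328) (nat_lit 5) (nat_lit 438) (nat_lit 360) (nat_lit 342))))) (XT.nd (nat_lit 312) (nat_lit 2508) (nat_lit 0) (XT.nd (nat_lit 156) (nat_lit 608) (nat_lit 0) (XT.nd (nat_lit 78) (nat_lit 684) (nat_lit 0) (XT.lf (nat_lit 0) (nat_lit 4319608353) (nat_lit 608) (nat_lit 1167398858) (nat_lit 684) (nat_lit 2669912574) (nat_lit 319) (nat_lit 5) (nat_lit 327) (nat_lit 5) (nat_lit 328) (nat_lit 5) (nat_lit 439) (nat_lit 360) (nat_lit 341)) (XT.lf (nat_lit 0) (nat_lit 901295717) (nat_lit 684) (nat_lit 5536115718) (nat_lit 76) (nat_lit 1783178325) (nat_lit 310) (nat_lit 5) (nat_lit 319) (nat_lit 5) (nat_lit 311) (nat_lit 5) (nat_lit 440) (nat_lit 360) (nat_lit 340))) (XT.nd (nat_lit 78) (nat_lit 0) (nat_lit 0) (XT.lf (nat_lit 0) (nat_lit 1015778911) (nat_lit 608) (nat_lit 3475592319) (nat_lit 684)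 (nat_lit 3794145078) (nat_lit 302) (nat_lit 5) (nat_lit 310) (nat_lit 5) (nat_lit 311) (nat_lit 5) (nat_lit 441) (nat_lit 360) (nat_lit 339)) (XT.lf (nat_lit 0) (nat_lit 7698599769) (nat_lit 608) (nat_lit 435342767) (nat_lit 684) (nat_lit 218184966) (nat_lit 302) (nat_lit 5) (nat_lit 310) (nat_lit 5) (nat_lit 311) (nat_lit 5) (nat_lit 442) (nat_lit 360) (nat_lit 338)))) (XT.nd (nat_lit 156) (nat_lit 1292) (nat_lit 0) (XT.nd (nat_lit 78) (nat_lit 532) (nat_lit 0) (XT.lf (nat_lit 0) (nat_lit 3385660528) (nat_lit 684) (nat_lit 2359512181) (nat_lit 76) (nat_lit 2674426065) (nat_lit 293) (nat_lit 5) (nat_lit 302) (nat_lit 5) (nat_lit 294) (nat_lit 5) (nat_lit 443) (nat_lit 360) (nat_lit 337)) (XT.lf (nat_lit 0) (nat_lit 4407029973) (nat_lit 532) (nat_lit 2632319831) (nat_lit 608) (nat_lit 1449427056) (nat_lit 286) (nat_lit 5) (nat_lit 293) (nat_lit 5) (nat_lit 294) (nat_lit 5) (nat_lit 444) (nat_lit 360) (nat_lit 336)))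 (XT.nd (nat_lit 78) (nat_lit 608) (nat_lit 0) (XT.lf (nat_lit 0) (nat_lit 2160206470) (nat_lit 684) (nat_lit 5835128489) (nat_lit 76) (nat_lit 564069506) (nat_lit 277) (nat_lit 5) (nat_lit 286) (nat_lit 5) (nat_lit 278) (nat_lit 5) (nat_lit 445) (nat_lit 360) (nat_lit 335)) (XT.nd (nat_lit 78) (nat_lit 76) (nat_lit 0) (XT.lf (nat_lit 0) (nat_lit 1001157177) (nat_lit 532) (nat_lit 4818465110) (nat_lit 608) (nat_lit 2811690771) (nat_lit 270) (nat_lit 5) (nat_lit 277) (nat_lit 5) (nat_lit 278) (nat_lit 5) (nat_lit 446) (nat_lit 360) (nat_lit 334)) (XT.lf (nat_lit 0) (nat_lit 821565378) (nat_lit 608) (nat_lit 732209889) (nat_lit 76) (nat_lit 7151072201) (nat_lit 269) (nat_lit 5) (nat_lit 277) (nat_lit 5) (nat_lit 270) (nat_lit 5) (nat_lit 447) (nat_lit 360) (nat_lit 333))))))))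
noncomputable def xc9 : XT := (XT.nd (nat_lit 58266) (nat_lit 0) (nat_lit 0) (XT.nd (nat_lit 57018) (nat_lit 0) (nat_lit 13756) (XT.nd (nat_lit 624) (nat_lit 2736) (nat_lit 0) (XT.nd (nat_lit 312) (nat_lit 1596) (nat_lit 0) (XT.nd (nat_lit 156) (nat_lit 1064) (nat_lit 0) (XT.nd (nat_lit 78) (nat_lit 532) (nat_lit 0) (XT.lf (nat_lit 0) (nat_lit 4489285900) (nat_lit 608) (nat_lit 2498254218) (nat_lit 76) (nat_lit 1791951789) (nat_lit 262) (nat_lit 5) (nat_lit 270) (nat_lit 5) (nat_lit 263) (nat_lit 5) (nat_lit 448) (nat_lit 360) (nat_lit 332)) (XT.lf (nat_lit 0) (nat_lit 4564109289) (nat_lit 532) (nat_lit 3658310868) (nat_lit 608) (nat_lit 633367890) (nat_lit 255) (nat_lit 5) (nat_lit 262) (nat_lit 5) (nat_lit 263) (nat_lit 5) (nat_lit 449) (nat_lit 360) (nat_lit 331))) (XT.nd (nat_lit 78) (nat_lit 456) (nat_lit 0) (XT.lf (nat_lit 0) (nat_lit 2809963616) (nat_lit 532) (nat_lit 228547847) (nat_lit 608) (nat_lit 5895046200)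 (nat_lit 247) (nat_lit 5) (nat_lit 254) (nat_lit 5) (nat_lit 255) (nat_lit 5) (nat_lit 450) (nat_lit 360) (nat_lit 330)) (XT.lf (nat_lit 0) (nat_lit 1011776445) (nat_lit 456) (nat_lit 5768167529) (nat_lit 532) (nat_lit 2232763041) (nat_lit 241) (nat_lit 5) (nat_lit 247) (nat_lit 5) (nat_lit 248) (nat_lit 5) (nat_lit 451) (nat_lit 360) (nat_lit 329)))) (XT.nd (nat_lit 156) (nat_lit 988) (nat_lit 0) (XT.nd (nat_lit 78) (nat_lit 532) (nat_lit 0) (XT.lf (nat_lit 0) (nat_lit 1473929532) (nat_lit 532) (nat_lit 806879226) (nat_lit 76) (nat_lit 6812617999) (nat_lit 240) (nat_lit 5) (nat_lit 247) (nat_lit 5) (nat_lit 241) (nat_lit 5) (nat_lit 452) (nat_lit 360) (nat_lit 328)) (XT.lf (nat_lit 0) (nat_lit 5224799274) (nat_lit 608) (nat_lit 2656371060) (nat_lit 76) (nat_lit 1294296590) (nat_lit 233) (nat_lit 5) (nat_lit 241) (nat_lit 5) (nat_lit 234) (nat_lit 5) (nat_lit 453) (nat_lit 360) (nat_lit 327))) (XT.nd (nat_lit 78)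 (nat_lit 532) (nat_lit 0) (XT.lf (nat_lit 0) (nat_lit 4715725463) (nat_lit 456) (nat_lit 4335519477) (nat_lit 532) (nat_lit 207891783) (nat_lit 227) (nat_lit 5) (nat_lit 233) (nat_lit 5) (nat_lit 234) (nat_lit 5) (nat_lit 454) (nat_lit 360) (nat_lit 326)) (XT.lf (nat_lit 0) (nat_lit 2866538418) (nat_lit 456) (nat_lit 681980049) (nat_lit 532) (nat_lit 5795770290) (nat_lit 220) (nat_lit 5) (nat_lit 226) (nat_lit 5) (nat_lit 227) (nat_lit 5) (nat_lit 455) (nat_lit 360) (nat_lit 325))))) (XT.nd (nat_lit 312) (nat_lit 1368) (nat_lit 0) (XT.nd (nat_lit 156) (nat_lit 836) (nat_lit 0) (XT.nd (nat_lit 78) (nat_lit 76) (nat_lit 0) (XT.lf (nat_lit 0) (nat_lit 972143294) (nat_lit 456) (nat_lit 6411818869) (nat_lit 532) (nat_lit 2047020406) (nat_lit 214) (nat_lit 5) (nat_lit 220) (nat_lit 5) (nat_lit 221) (nat_lit 5) (nat_lit 456) (nat_lit 360) (nat_lit 324)) (XT.lf (nat_lit 0) (nat_lit 1751762156) (nat_lit 532) (nat_lit 951208486)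 (nat_lit 76) (nat_lit 6816241716) (nat_lit 213) (nat_lit 5) (nat_lit 220) (nat_lit 5) (nat_lit 214) (nat_lit 5) (nat_lit 457) (nat_lit 360) (nat_lit 323))) (XT.nd (nat_lit 78) (nat_lit 380) (nat_lit 0) (XT.lf (nat_lit 0) (nat_lit 5600979174) (nat_lit 532) (nat_lit 2908983648) (nat_lit 76) (nat_lit 1098935936) (nat_lit 207) (nat_lit 5) (nat_lit 214) (nat_lit 5) (nat_lit 208) (nat_lit 5) (nat_lit 458) (nat_lit 360) (nat_lit 322)) (XT.lf (nat_lit 0) (nat_lit 4787530753) (nat_lit 380) (nat_lit 4746447642) (nat_lit 456) (nat_lit 166264535) (nat_lit 202) (nat_lit 5) (nat_lit 207) (nat_lit 5) (nat_lit 208) (nat_lit 5) (nat_lit 459) (nat_lit 360) (nat_lit 321)))) (XT.nd (nat_lit 156) (nat_lit 456) (nat_lit 0) (XT.nd (nat_lit 78) (nat_lit 380) (nat_lit 0) (XT.lf (nat_lit 0) (nat_lit 2822736775) (nat_lit 456) (nat_lit 869798075) (nat_lit 532) (nat_lit 6100601448) (nat_lit 195) (nat_lit 5) (nat_lit 201) (nat_lit 5) (nat_lit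 202) (nat_lit 5) (nat_lit 460) (nat_lit 360) (nat_lit 320)) (XT.lf (nat_lit 0) (nat_lit 807017106) (nat_lit 380) (nat_lit 6829569604) (nat_lit 456) (nat_lit 2251072789) (nat_lit 190) (nat_lit 5) (nat_lit 195) (nat_lit 5) (nat_lit 196) (nat_lit 5) (nat_lit 461) (nat_lit 360) (nat_lit 319))) (XT.nd (nat_lit 78) (nat_lit 380) (nat_lit 0) (XT.lf (nat_lit 0) (nat_lit 1658315564) (nat_lit 456) (nat_lit 1240247439) (nat_lit 76) (nat_lit 7085195742) (nat_lit 189) (nat_lit 5) (nat_lit 195) (nat_lit 5) (nat_lit 190) (nat_lit 5) (nat_lit 462) (nat_lit 360) (nat_lit 318)) (XT.lf (nat_lit 0) (nat_lit 5620024824) (nat_lit 456) (nat_lit 3331471529) (nat_lit 76) (nat_lit 1129900529) (nat_lit 184) (nat_lit 5) (nat_lit 190) (nat_lit 5) (nat_lit 185) (nat_lit 5) (nat_lit 463) (nat_lit 360) (nat_lit 317)))))) (XT.nd (nat_lit 624) (nat_lit 5016) (nat_lit 0) (XT.nd (nat_lit 312) (nat_lit 2812) (nat_lit 0) (XT.nd (nat_lit 156) (nat_lit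 2128) (nat_lit 0) (XT.nd (nat_lit 78) (nat_lit 0) (nat_lit 0) (XT.lf (nat_lit 0) (nat_lit 176861467) (nat_lit 1900) (nat_lit 3209706016) (nat_lit 0) (nat_lit 176861467) (nat_lit 496) (nat_lit 5) (nat_lit 521) (nat_lit 4) (nat_lit 496) (nat_lit 4) (nat_lit 418) (nat_lit 361) (nat_lit 361)) (XT.lf (nat_lit 0) (nat_lit 3917977542) (nat_lit 1900) (nat_lit 1036716378) (nat_lit 0) (nat_lit 2208688028) (nat_lit 496) (nat_lit 5) (nat_lit 521) (nat_lit 4) (nat_lit 496) (nat_lit 4) (nat_lit 419) (nat_lit 361) (nat_lit 360))) (XT.nd (nat_lit 78) (nat_lit 912) (nat_lit 0) (XT.lf (nat_lit 0) (nat_lit 307752359) (nat_lit 1216) (nat_lit 2763403780) (nat_lit 76) (nat_lit 4130244522) (nat_lit 480) (nat_lit 5) (nat_lit 496) (nat_lit 5) (nat_lit 481) (nat_lit 4) (nat_lit 420) (nat_lit 361) (nat_lit 359)) (XT.lf (nat_lit 0) (nat_lit 2738348983) (nat_lit 912) (nat_lit 1106367971) (nat_lit 988) (nat_lit 3395909739) (nat_lit 468) (nat_lit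 5) (nat_lit 480) (nat_lit 5) (nat_lit 481) (nat_lit 4) (nat_lit 421) (nat_lit 361) (nat_lit 358)))) (XT.nd (nat_lit 156) (nat_lit 1824) (nat_lit 0) (XT.nd (nat_lit 78) (nat_lit 0) (nat_lit 0) (XT.lf (nat_lit 0) (nat_lit 132780431) (nat_lit 988) (nat_lit 6240294263) (nat_lit 76) (nat_lit 908275249) (nat_lit 455) (nat_lit 5) (nat_lit 468) (nat_lit 5) (nat_lit 456) (nat_lit 4) (nat_lit 422) (nat_lit 361) (nat_lit 357)) (XT.lf (nat_lit 0) (nat_lit 3657000875) (nat_lit 988) (nat_lit 669525141) (nat_lit 76) (nat_lit 2996504148) (nat_lit 455) (nat_lit 5) (nat_lit 468) (nat_lit 5) (nat_lit 456) (nat_lit 4) (nat_lit 423) (nat_lit 361) (nat_lit 356))) (XT.nd (nat_lit 78) (nat_lit 988) (nat_lit 0) (XT.lf (nat_lit 0) (nat_lit 5006248045) (nat_lit 836) (nat_lit 2211927760) (nat_lit 912) (nat_lit 148038784) (nat_lit 444) (nat_lit 5) (nat_lit 455) (nat_lit 5) (nat_lit 456) (nat_lit 4) (nat_lit 424) (nat_lit 361) (nat_lit 355))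 (XT.lf (nat_lit 0) (nat_lit 3343455639) (nat_lit 912) (nat_lit 12330458) (nat_lit 988) (nat_lit 4054817972) (nat_lit 431) (nat_lit 5) (nat_lit 443) (nat_lit 5) (nat_lit 444) (nat_lit 5) (nat_lit 425) (nat_lit 361) (nat_lit 354))))) (XT.nd (nat_lit 312) (nat_lit 2432) (nat_lit 0) (XT.nd (nat_lit 156) (nat_lit 1672) (nat_lit 0) (XT.nd (nat_lit 78) (nat_lit 76) (nat_lit 0) (XT.lf (nat_lit 0) (nat_lit 1670467765) (nat_lit 836) (nat_lit 5233650720) (nat_lit 912) (nat_lit 552215018) (nat_lit 420) (nat_lit 5) (nat_lit 431) (nat_lit 5) (nat_lit 432) (nat_lit 4) (nat_lit 426) (nat_lit 361) (nat_lit 353)) (XT.lf (nat_lit 0) (nat_lit 2943893956) (nat_lit 912) (nat_lit 17952653) (nat_lit 76) (nat_lit 4541477350) (nat_lit 419) (nat_lit 5) (nat_lit 431) (nat_lit 5) (nat_lit 420) (nat_lit 5) (nat_lit 427) (nat_lit 361) (nat_lit 352))) (XT.nd (nat_lit 78) (nat_lit 836) (nat_lit 0) (XT.lf (nat_lit 0) (nat_lit 5866428920) (nat_lit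 836) (nat_lit 610974615) (nat_lit 912) (nat_lit 1074280236) (nat_lit 408) (nat_lit 5) (nat_lit 419) (nat_lit 5) (nat_lit 420) (nat_lit 5) (nat_lit 428) (nat_lit 361) (nat_lit 351)) (XT.lf (nat_lit 0) (nat_lit 2424620794) (nat_lit 836) (nat_lit 3378590037) (nat_lit 76) (nat_lit 1797946209) (nat_lit 397) (nat_lit 5) (nat_lit 408) (nat_lit 5) (nat_lit 398) (nat_lit 5) (nat_lit 429) (nat_lit 361) (nat_lit 350)))) (XT.nd (nat_lit 156) (nat_lit 836) (nat_lit 0) (XT.nd (nat_lit 78) (nat_lit 836) (nat_lit 0) (XT.lf (nat_lit 0) (nat_lit 2569223380) (nat_lit 760) (nat_lit 3379854065) (nat_lit 836) (nat_lit 1703001066) (nat_lit 387) (nat_lit 5) (nat_lit 397) (nat_lit 5) (nat_lit 398) (nat_lit 5) (nat_lit 430) (nat_lit 361) (nat_lit 349)) (XT.lf (nat_lit 0) (nat_lit 904418211) (nat_lit 760) (nat_lit 878326387) (nat_lit 836) (nat_lit 5921697445) (nat_lit 376) (nat_lit 5) (nat_lit 386) (nat_lit 5) (nat_lit 387) (nat_lit 5) (nat_lit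 431) (nat_lit 361) (nat_lit 348))) (XT.nd (nat_lit 78) (nat_lit 836) (nat_lit 0) (XT.lf (nat_lit 0) (nat_lit 5299458719) (nat_lit 836) (nat_lit 773434211) (nat_lit 76) (nat_lit 1685053646) (nat_lit 376) (nat_lit 5) (nat_lit 387) (nat_lit 5) (nat_lit 377) (nat_lit 5) (nat_lit 432) (nat_lit 361) (nat_lit 347)) (XT.lf (nat_lit 0) (nat_lit 1040461824) (nat_lit 836) (nat_lit 2454289769) (nat_lit 76) (nat_lit 4318018917) (nat_lit 365) (nat_lit 5) (nat_lit 376) (nat_lit 5) (nat_lit 366) (nat_lit 5) (nat_lit 433) (nat_lit 361) (nat_lit 346))))))) (XT.nd (nat_lit 1248) (nat_lit 5396) (nat_lit 0) (XT.nd (nat_lit 624) (nat_lit 4180) (nat_lit 0) (XT.nd (nat_lit 312) (nat_lit 2052) (nat_lit 0) (XT.nd (nat_lit 156) (nat_lit 684) (nat_lit 0) (XT.nd (nat_lit 78) (nat_lit 760) (nat_lit 0) (XT.lf (nat_lit 0) (nat_lit 3714237511) (nat_lit 684) (nat_lit 831954776) (nat_lit 760) (nat_lit 3322779206) (nat_lit 356) (nat_lit 5) (nat_lit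 365) (nat_lit 5) (nat_lit 366) (nat_lit 5) (nat_lit 434) (nat_lit 361) (nat_lit 345)) (XT.lf (nat_lit 0) (nat_lit 176171256) (nat_lit 760) (nat_lit 5873455528) (nat_lit 76) (nat_lit 1876984342) (nat_lit 346) (nat_lit 5) (nat_lit 356) (nat_lit 5) (nat_lit 347) (nat_lit 5) (nat_lit 435) (nat_lit 361) (nat_lit 344))) (XT.nd (nat_lit 78) (nat_lit 0) (nat_lit 0) (XT.lf (nat_lit 0) (nat_lit 359697693) (nat_lit 684) (nat_lit 3318118387) (nat_lit 760) (nat_lit 4307604053) (nat_lit 337) (nat_lit 5) (nat_lit 346) (nat_lit 5) (nat_lit 347) (nat_lit 5) (nat_lit 436) (nat_lit 361) (nat_lit 343)) (XT.lf (nat_lit 0) (nat_lit 6723621114) (nat_lit 684) (nat_lit 507216899) (nat_lit 760) (nat_lit 814940422) (nat_lit 337) (nat_lit 5) (nat_lit 346) (nat_lit 5) (nat_lit 347) (nat_lit 5) (nat_lit 437) (nat_lit 361) (nat_lit 342)))) (XT.nd (nat_lit 156) (nat_lit 684) (nat_lit 0) (XT.nd (nat_lit 78) (nat_lit 608) (nat_lit 0) (XT.lf (nat_lit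 0) (nat_lit 2702796683) (nat_lit 760) (nat_lit 3039549734) (nat_lit 76) (nat_lit 2364815602) (nat_lit 327) (nat_lit 5) (nat_lit 337) (nat_lit 5) (nat_lit 328) (nat_lit 5) (nat_lit 438) (nat_lit 361) (nat_lit 341)) (XT.lf (nat_lit 0) (nat_lit 3395844619) (nat_lit 608) (nat_lit 2861724183) (nat_lit 684) (nat_lit 1912544891) (nat_lit 319) (nat_lit 5) (nat_lit 327) (nat_lit 5) (nat_lit 328) (nat_lit 5) (nat_lit 439) (nat_lit 361) (nat_lit 340))) (XT.nd (nat_lit 78) (nat_lit 0) (nat_lit 0) (XT.lf (nat_lit 0) (nat_lit 1603263609) (nat_lit 684) (nat_lit 6530169977) (nat_lit 76) (nat_lit 101161071) (nat_lit 310) (nat_lit 5) (nat_lit 319) (nat_lit 5) (nat_lit 311) (nat_lit 5) (nat_lit 440) (nat_lit 361) (nat_lit 339)) (XT.lf (nat_lit 0) (nat_lit 5159037076) (nat_lit 684) (nat_lit 28315043) (nat_lit 76) (nat_lit 3112855127) (nat_lit 310) (nat_lit 5) (nat_lit 319) (nat_lit 5) (nat_lit 311) (nat_lit 5) (nat_lit 441) (nat_lit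 361) (nat_lit 338))))) (XT.nd (nat_lit 312) (nat_lit 1672) (nat_lit 0) (XT.nd (nat_lit 156) (nat_lit 1216) (nat_lit 0) (XT.nd (nat_lit 78) (nat_lit 608) (nat_lit 0) (XT.lf (nat_lit 0) (nat_lit 401318125) (nat_lit 684) (nat_lit 1752356915) (nat_lit 76) (nat_lit 6213642331) (nat_lit 301) (nat_lit 5) (nat_lit 310) (nat_lit 5) (nat_lit 302) (nat_lit 5) (nat_lit 442) (nat_lit 361) (nat_lit 337)) (XT.lf (nat_lit 0) (nat_lit 3956529237) (nat_lit 684) (nat_lit 3515576077) (nat_lit 76) (nat_lit 963570454) (nat_lit 293) (nat_lit 5) (nat_lit 302) (nat_lit 5) (nat_lit 294) (nat_lit 5) (nat_lit 443) (nat_lit 361) (nat_lit 336))) (XT.nd (nat_lit 78) (nat_lit 684) (nat_lit 0) (XT.lf (nat_lit 0) (nat_lit 3198761350) (nat_lit 532) (nat_lit 4376809066) (nat_lit 608) (nat_lit 929976401) (nat_lit 286) (nat_lit 5) (nat_lit 293) (nat_lit 5) (nat_lit 294) (nat_lit 5) (nat_lit 444) (nat_lit 361) (nat_lit 335)) (XT.lf (nat_lit 0) (nat_lit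 1446366795) (nat_lit 608) (nat_lit 1187757300) (nat_lit 684) (nat_lit 5942757280) (nat_lit 277) (nat_lit 5) (nat_lit 285) (nat_lit 5) (nat_lit 286) (nat_lit 5) (nat_lit 445) (nat_lit 361) (nat_lit 334)))) (XT.nd (nat_lit 156) (nat_lit 1064) (nat_lit 0) (XT.nd (nat_lit 78) (nat_lit 608) (nat_lit 0) (XT.lf (nat_lit 0) (nat_lit 6252864468) (nat_lit 684) (nat_lit 336345286) (nat_lit 76) (nat_lit 2060393723) (nat_lit 277) (nat_lit 5) (nat_lit 286) (nat_lit 5) (nat_lit 278) (nat_lit 5) (nat_lit 446) (nat_lit 361) (nat_lit 333)) (XT.lf (nat_lit 0) (nat_lit 1202492770) (nat_lit 608) (nat_lit 2132002900) (nat_lit 76) (nat_lit 5389159979) (nat_lit 269) (nat_lit 5) (nat_lit 277) (nat_lit 5) (nat_lit 270) (nat_lit 5) (nat_lit 447) (nat_lit 361) (nat_lit 332))) (XT.nd (nat_lit 78) (nat_lit 532) (nat_lit 0) (XT.lf (nat_lit 0) (nat_lit 4823238028) (nat_lit 608) (nat_lit 3961037289) (nat_lit 76) (nat_lit 14964274) (nat_lit 262)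 (nat_lit 5) (nat_lit 270) (nat_lit 5) (nat_lit 263) (nat_lit 5) (nat_lit 448) (nat_lit 361) (nat_lit 331)) (XT.lf (nat_lit 0) (nat_lit 3045112347) (nat_lit 532) (nat_lit 5475766726) (nat_lit 608) (nat_lit 355366522) (nat_lit 255) (nat_lit 5) (nat_lit 262) (nat_lit 5) (nat_lit 263) (nat_lit 5) (nat_lit 449) (nat_lit 361) (nat_lit 330)))))) (XT.nd (nat_lit 624) (nat_lit 2204) (nat_lit 0) (XT.nd (nat_lit 312) (nat_lit 1520) (nat_lit 0) (XT.nd (nat_lit 156) (nat_lit 1064) (nat_lit 0) (XT.nd (nat_lit 78) (nat_lit 0) (nat_lit 0) (XT.lf (nat_lit 0) (nat_lit 1211345518) (nat_lit 532) (nat_lit 2065611632) (nat_lit 608) (nat_lit 5677740156) (nat_lit 247) (nat_lit 5) (nat_lit 254) (nat_lit 5) (nat_lit 255) (nat_lit 5) (nat_lit 450) (nat_lit 361) (nat_lit 329)) (XT.lf (nat_lit 0) (nat_lit 6974557917) (nat_lit 608) (nat_lit 645911132) (nat_lit 76) (nat_lit 1414254243) (nat_lit 247) (nat_lit 5) (nat_lit 255) (nat_lit 5) (nat_lit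 248) (nat_lit 5) (nat_lit 451) (nat_lit 361) (nat_lit 328))) (XT.nd (nat_lit 78) (nat_lit 532) (nat_lit 0) (XT.lf (nat_lit 0) (nat_lit 1614745532) (nat_lit 532) (nat_lit 2533026733) (nat_lit 76) (nat_lit 4968238718) (nat_lit 240) (nat_lit 5) (nat_lit 247) (nat_lit 5) (nat_lit 241) (nat_lit 5) (nat_lit 452) (nat_lit 361) (nat_lit 327)) (XT.lf (nat_lit 0) (nat_lit 4742253140) (nat_lit 532) (nat_lit 578508643) (nat_lit 608) (nat_lit 3878186437) (nat_lit 233) (nat_lit 5) (nat_lit 240) (nat_lit 5) (nat_lit 241) (nat_lit 5) (nat_lit 453) (nat_lit 361) (nat_lit 326)))) (XT.nd (nat_lit 156) (nat_lit 532) (nat_lit 0) (XT.nd (nat_lit 78) (nat_lit 532) (nat_lit 0) (XT.lf (nat_lit 0) (nat_lit 2858658323) (nat_lit 456) (nat_lit 6248170511) (nat_lit 532) (nat_lit 176596757) (nat_lit 227) (nat_lit 5) (nat_lit 233) (nat_lit 5) (nat_lit 234) (nat_lit 5) (nat_lit 454) (nat_lit 361) (nat_lit 325)) (XT.lf (nat_lit 0) (nat_lit 923261877)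 (nat_lit 456) (nat_lit 2619046404) (nat_lit 532) (nat_lit 5827007174) (nat_lit 220) (nat_lit 5) (nat_lit 226) (nat_lit 5) (nat_lit 227) (nat_lit 5) (nat_lit 455) (nat_lit 361) (nat_lit 324))) (XT.nd (nat_lit 78) (nat_lit 532) (nat_lit 0) (XT.lf (nat_lit 0) (nat_lit 7334555636) (nat_lit 532) (nat_lit 1032733890) (nat_lit 76) (nat_lit 1089583669) (nat_lit 220) (nat_lit 5) (nat_lit 227) (nat_lit 5) (nat_lit 221) (nat_lit 5) (nat_lit 456) (nat_lit 361) (nat_lit 323)) (XT.lf (nat_lit 0) (nat_lit 1646387880) (nat_lit 532) (nat_lit 3031786092) (nat_lit 76) (nat_lit 4867560084) (nat_lit 213) (nat_lit 5) (nat_lit 220) (nat_lit 5) (nat_lit 214) (nat_lit 5) (nat_lit 457) (nat_lit 361) (nat_lit 322))))) (XT.nd (nat_lit 312) (nat_lit 836) (nat_lit 0) (XT.nd (nat_lit 156) (nat_lit 532) (nat_lit 0) (XT.nd (nat_lit 78) (nat_lit 380) (nat_lit 0) (XT.lf (nat_lit 0) (nat_lit 4562818890) (nat_lit 456) (nat_lit 887882486) (nat_lit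 532) (nat_lit 4185617150) (nat_lit 207) (nat_lit 5) (nat_lit 213) (nat_lit 5) (nat_lit 214) (nat_lit 5) (nat_lit 458) (nat_lit 361) (nat_lit 321)) (XT.lf (nat_lit 0) (nat_lit 2563688493) (nat_lit 380) (nat_lit 6776215337) (nat_lit 456) (nat_lit 388634802) (nat_lit 202) (nat_lit 5) (nat_lit 207) (nat_lit 5) (nat_lit 208) (nat_lit 5) (nat_lit 459) (nat_lit 361) (nat_lit 320))) (XT.nd (nat_lit 78) (nat_lit 0) (nat_lit 0) (XT.lf (nat_lit 0) (nat_lit 505652526) (nat_lit 456) (nat_lit 2928867233) (nat_lit 532) (nat_lit 6387712343) (nat_lit 195) (nat_lit 5) (nat_lit 201) (nat_lit 5) (nat_lit 202) (nat_lit 5) (nat_lit 460) (nat_lit 361) (nat_lit 319)) (XT.lf (nat_lit 0) (nat_lit 7336593798) (nat_lit 532) (nat_lit 1572527277) (nat_lit 76) (nat_lit 1008473784) (nat_lit 195) (nat_lit 5) (nat_lit 202) (nat_lit 5) (nat_lit 196) (nat_lit 5) (nat_lit 461) (nat_lit 361) (nat_lit 318)))) (XT.nd (nat_lit 55770) (nat_lit 0) (nat_lit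 25612) (XT.nd (nat_lit 78) (nat_lit 380) (nat_lit 0) (XT.lf (nat_lit 0) (nat_lit 1299002772) (nat_lit 456) (nat_lit 3704842317) (nat_lit 76) (nat_lit 5010566089) (nat_lit 189) (nat_lit 5) (nat_lit 195) (nat_lit 5) (nat_lit 190) (nat_lit 5) (nat_lit 462) (nat_lit 361) (nat_lit 317)) (XT.lf (nat_lit 0) (nat_lit 4224177039) (nat_lit 380) (nat_lit 989812689) (nat_lit 456) (nat_lit 4898994034) (nat_lit 184) (nat_lit 5) (nat_lit 189) (nat_lit 5) (nat_lit 190) (nat_lit 5) (nat_lit 463) (nat_lit 361) (nat_lit 316))) (XT.nd (nat_lit 78) (nat_lit 1748) (nat_lit 0) (XT.lf (nat_lit 0) (nat_lit 1056792903) (nat_lit 1748) (nat_lit 1414615098) (nat_lit 0) (nat_lit 1056792903) (nat_lit 544) (nat_lit 5) (nat_lit 567) (nat_lit 4) (nat_lit 544) (nat_lit 4) (nat_lit 416) (nat_lit 362) (nat_lit 362)) (XT.lf (nat_lit 0) (nat_lit 2446038810) (nat_lit 1748) (nat_lit 3211759398) (nat_lit 1748) (nat_lit 1433414588) (nat_lit 521) (nat_lit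 4) (nat_lit 544) (nat_lit 5) (nat_lit 544) (nat_lit 4) (nat_lit 417) (nat_lit 362) (nat_lit 361))))))))
noncomputable def xc10 : XT := (XT.nd (nat_lit 2496) (nat_lit 5396) (nat_lit 0) (XT.nd (nat_lit 1248) (nat_lit 8360) (nat_lit 0) (XT.nd (nat_lit 624) (nat_lit 5016) (nat_lit 0) (XT.nd (nat_lit 312) (nat_lit 2812) (nat_lit 0) (XT.nd (nat_lit 156) (nat_lit 2128) (nat_lit 0) (XT.nd (nat_lit 78) (nat_lit 0) (nat_lit 0) (XT.lf (nat_lit 0) (nat_lit 662555612) (nat_lit 1824) (nat_lit 1408917519) (nat_lit 1900) (nat_lit 5055899270) (nat_lit 496) (nat_lit 5) (nat_lit 520) (nat_lit 5) (nat_lit 521) (nat_lit 4) (nat_lit 418) (nat_lit 362) (nat_lit 360)) (XT.lf (nat_lit 0) (nat_lit 5592391158) (nat_lit 1900) (nat_lit 1108519716) (nat_lit 0) (nat_lit 463852308) (nat_lit 496) (nat_lit 5) (nat_lit 521) (nat_lit 4) (nat_lit 496) (nat_lit 4) (nat_lit 419) (nat_lit 362) (nat_lit 359))) (XT.nd (nat_lit 78) (nat_lit 912) (nat_lit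 0) (XT.lf (nat_lit 0) (nat_lit 1924395753) (nat_lit 1216) (nat_lit 2884175147) (nat_lit 76) (nat_lit 2394682684) (nat_lit 480) (nat_lit 5) (nat_lit 496) (nat_lit 5) (nat_lit 481) (nat_lit 4) (nat_lit 420) (nat_lit 362) (nat_lit 358)) (XT.lf (nat_lit 0) (nat_lit 2580444105) (nat_lit 912) (nat_lit 2846585775) (nat_lit 988) (nat_lit 1816136345) (nat_lit 468) (nat_lit 5) (nat_lit 480) (nat_lit 5) (nat_lit 481) (nat_lit 4) (nat_lit 421) (nat_lit 362) (nat_lit 357)))) (XT.nd (nat_lit 156) (nat_lit 1824) (nat_lit 0) (XT.nd (nat_lit 78) (nat_lit 0) (nat_lit 0) (XT.lf (nat_lit 0) (nat_lit 838440350) (nat_lit 912) (nat_lit 812967792) (nat_lit 988) (nat_lit 5633084727) (nat_lit 455) (nat_lit 5) (nat_lit 467) (nat_lit 5) (nat_lit 468) (nat_lit 5) (nat_lit 422) (nat_lit 362) (nat_lit 356)) (XT.lf (nat_lit 0) (nat_lit 5137660258) (nat_lit 988) (nat_lit 905682874) (nat_lit 76) (nat_lit 1283589326) (nat_lit 455) (nat_lit 5) (nat_lit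 468) (nat_lit 5) (nat_lit 456) (nat_lit 4) (nat_lit 423) (nat_lit 362) (nat_lit 355))) (XT.nd (nat_lit 78) (nat_lit 912) (nat_lit 0) (XT.lf (nat_lit 0) (nat_lit 1277235055) (nat_lit 912) (nat_lit 2647687580) (nat_lit 76) (nat_lit 3445702846) (nat_lit 443) (nat_lit 5) (nat_lit 455) (nat_lit 5) (nat_lit 444) (nat_lit 5) (nat_lit 424) (nat_lit 362) (nat_lit 354)) (XT.lf (nat_lit 0) (nat_lit 3015298128) (nat_lit 912) (nat_lit 1729833842) (nat_lit 988) (nat_lit 2670543496) (nat_lit 431) (nat_lit 5) (nat_lit 443) (nat_lit 5) (nat_lit 444) (nat_lit 5) (nat_lit 425) (nat_lit 362) (nat_lit 353))))) (XT.nd (nat_lit 312) (nat_lit 2432) (nat_lit 0) (XT.nd (nat_lit 156) (nat_lit 1672) (nat_lit 0) (XT.nd (nat_lit 78) (nat_lit 0) (nat_lit 0) (XT.lf (nat_lit 0) (nat_lit 775864340) (nat_lit 912) (nat_lit 6159318199) (nat_lit 76) (nat_lit 527019964) (nat_lit 419) (nat_lit 5) (nat_lit 431) (nat_lit 5) (nat_lit 420) (nat_lit 5) (nat_lit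 426) (nat_lit 362) (nat_lit 352)) (XT.lf (nat_lit 0) (nat_lit 4233432363) (nat_lit 912) (nat_lit 430719168) (nat_lit 76) (nat_lit 2845595693) (nat_lit 419) (nat_lit 5) (nat_lit 431) (nat_lit 5) (nat_lit 420) (nat_lit 5) (nat_lit 427) (nat_lit 362) (nat_lit 351))) (XT.nd (nat_lit 78) (nat_lit 760) (nat_lit 0) (XT.lf (nat_lit 0) (nat_lit 172242404) (nat_lit 912) (nat_lit 2147229522) (nat_lit 76) (nat_lit 5239285064) (nat_lit 407) (nat_lit 5) (nat_lit 419) (nat_lit 5) (nat_lit 408) (nat_lit 5) (nat_lit 428) (nat_lit 362) (nat_lit 350)) (XT.lf (nat_lit 0) (nat_lit 3612128475) (nat_lit 836) (nat_lit 3885954039) (nat_lit 76) (nat_lit 110906758) (nat_lit 397) (nat_lit 5) (nat_lit 408) (nat_lit 5) (nat_lit 398) (nat_lit 5) (nat_lit 429) (nat_lit 362) (nat_lit 349)))) (XT.nd (nat_lit 156) (nat_lit 836) (nat_lit 0) (XT.nd (nat_lit 78) (nat_lit 836) (nat_lit 0) (XT.lf (nat_lit 0) (nat_lit 2019101478) (nat_lit 760) (nat_lit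 5083741842) (nat_lit 836) (nat_lit 557742258) (nat_lit 387) (nat_lit 5) (nat_lit 397) (nat_lit 5) (nat_lit 398) (nat_lit 5) (nat_lit 430) (nat_lit 362) (nat_lit 348)) (XT.lf (nat_lit 0) (nat_lit 294648351) (nat_lit 760) (nat_lit 2584370618) (nat_lit 836) (nat_lit 4834460710) (nat_lit 376) (nat_lit 5) (nat_lit 386) (nat_lit 5) (nat_lit 387) (nat_lit 5) (nat_lit 431) (nat_lit 362) (nat_lit 347))) (XT.nd (nat_lit 78) (nat_lit 836) (nat_lit 0) (XT.lf (nat_lit 0) (nat_lit 6350577154) (nat_lit 760) (nat_lit 4422947) (nat_lit 836) (nat_lit 1412798770) (nat_lit 376) (nat_lit 5) (nat_lit 386) (nat_lit 5) (nat_lit 387) (nat_lit 5) (nat_lit 432) (nat_lit 362) (nat_lit 346)) (XT.lf (nat_lit 0) (nat_lit 2038614772) (nat_lit 836) (nat_lit 3159485890) (nat_lit 76) (nat_lit 2625062793) (nat_lit 365) (nat_lit 5) (nat_lit 376) (nat_lit 5) (nat_lit 366) (nat_lit 5) (nat_lit 433) (nat_lit 362) (nat_lit 345)))))) (XT.nd (nat_lit 624)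 (nat_lit 4180) (nat_lit 0) (XT.nd (nat_lit 312) (nat_lit 1976) (nat_lit 0) (XT.nd (nat_lit 156) (nat_lit 760) (nat_lit 0) (XT.nd (nat_lit 78) (nat_lit 760) (nat_lit 0) (XT.lf (nat_lit 0) (nat_lit 2963724284) (nat_lit 684) (nat_lit 2546797603) (nat_lit 760) (nat_lit 2369519018) (nat_lit 356) (nat_lit 5) (nat_lit 365) (nat_lit 5) (nat_lit 366) (nat_lit 5) (nat_lit 434) (nat_lit 362) (nat_lit 344)) (XT.lf (nat_lit 0) (nat_lit 1071670415) (nat_lit 760) (nat_lit 6687982578) (nat_lit 76) (nat_lit 178808937) (nat_lit 346) (nat_lit 5) (nat_lit 356) (nat_lit 5) (nat_lit 347) (nat_lit 5) (nat_lit 435) (nat_lit 362) (nat_lit 343))) (XT.nd (nat_lit 78) (nat_lit 760) (nat_lit 0) (XT.lf (nat_lit 0) (nat_lit 4542468708) (nat_lit 760) (nat_lit 495460230) (nat_lit 76) (nat_lit 2959958930) (nat_lit 346) (nat_lit 5) (nat_lit 356) (nat_lit 5) (nat_lit 347) (nat_lit 5) (nat_lit 436) (nat_lit 362) (nat_lit 342)) (XT.lf (nat_lit 0) (nat_lit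 5104427) (nat_lit 760) (nat_lit 2232706936) (nat_lit 76) (nat_lit 5821063002) (nat_lit 336) (nat_lit 5) (nat_lit 346) (nat_lit 5) (nat_lit 337) (nat_lit 5) (nat_lit 437) (nat_lit 362) (nat_lit 341)))) (XT.nd (nat_lit 156) (nat_lit 684) (nat_lit 0) (XT.nd (nat_lit 78) (nat_lit 608) (nat_lit 0) (XT.lf (nat_lit 0) (nat_lit 3466790050) (nat_lit 760) (nat_lit 4005758522) (nat_lit 76) (nat_lit 648510823) (nat_lit 327) (nat_lit 5) (nat_lit 337) (nat_lit 5) (nat_lit 328) (nat_lit 5) (nat_lit 438) (nat_lit 362) (nat_lit 340)) (XT.lf (nat_lit 0) (nat_lit 2380707008) (nat_lit 608) (nat_lit 4606718042) (nat_lit 684) (nat_lit 1197268761) (nat_lit 319) (nat_lit 5) (nat_lit 327) (nat_lit 5) (nat_lit 328) (nat_lit 5) (nat_lit 439) (nat_lit 362) (nat_lit 339))) (XT.nd (nat_lit 78) (nat_lit 0) (nat_lit 0) (XT.lf (nat_lit 0) (nat_lit 620775443) (nat_lit 608) (nat_lit 1653261474) (nat_lit 684) (nat_lit 5975747414) (nat_lit 310) (nat_lit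 5) (nat_lit 318) (nat_lit 5) (nat_lit 319) (nat_lit 5) (nat_lit 440) (nat_lit 362) (nat_lit 338)) (XT.lf (nat_lit 0) (nat_lit 5791912651) (nat_lit 684) (nat_lit 1152417504) (nat_lit 76) (nat_lit 1371824719) (nat_lit 310) (nat_lit 5) (nat_lit 319) (nat_lit 5) (nat_lit 311) (nat_lit 5) (nat_lit 441) (nat_lit 362) (nat_lit 337))))) (XT.nd (nat_lit 312) (nat_lit 1672) (nat_lit 0) (XT.nd (nat_lit 156) (nat_lit 1216) (nat_lit 0) (XT.nd (nat_lit 78) (nat_lit 608) (nat_lit 0) (XT.lf (nat_lit 0) (nat_lit 975669435) (nat_lit 684) (nat_lit 2947570329) (nat_lit 76) (nat_lit 4460634835) (nat_lit 301) (nat_lit 5) (nat_lit 310) (nat_lit 5) (nat_lit 302) (nat_lit 5) (nat_lit 442) (nat_lit 362) (nat_lit 336)) (XT.lf (nat_lit 0) (nat_lit 3679586061) (nat_lit 608) (nat_lit 810348078) (nat_lit 684) (nat_lit 3963117785) (nat_lit 293) (nat_lit 5) (nat_lit 301) (nat_lit 5) (nat_lit 302) (nat_lit 5) (nat_lit 443) (nat_lit 362) (nat_lit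 335))) (XT.nd (nat_lit 78) (nat_lit 684) (nat_lit 0) (XT.lf (nat_lit 0) (nat_lit 1893367237) (nat_lit 532) (nat_lit 6175593616) (nat_lit 608) (nat_lit 454762409) (nat_lit 286) (nat_lit 5) (nat_lit 293) (nat_lit 5) (nat_lit 294) (nat_lit 5) (nat_lit 444) (nat_lit 362) (nat_lit 334)) (XT.lf (nat_lit 0) (nat_lit 65846695) (nat_lit 608) (nat_lit 3002131163) (nat_lit 684) (nat_lit 5527720809) (nat_lit 277) (nat_lit 5) (nat_lit 285) (nat_lit 5) (nat_lit 286) (nat_lit 5) (nat_lit 445) (nat_lit 362) (nat_lit 333)))) (XT.nd (nat_lit 156) (nat_lit 1064) (nat_lit 0) (XT.nd (nat_lit 78) (nat_lit 608) (nat_lit 0) (XT.lf (nat_lit 0) (nat_lit 6648993447) (nat_lit 684) (nat_lit 1759880721) (nat_lit 76) (nat_lit 260301097) (nat_lit 277) (nat_lit 5) (nat_lit 286) (nat_lit 5) (nat_lit 278) (nat_lit 5) (nat_lit 446) (nat_lit 362) (nat_lit 332)) (XT.lf (nat_lit 0) (nat_lit 1538845967) (nat_lit 608) (nat_lit 3632683140) (nat_lit 76)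 (nat_lit 3572354740) (nat_lit 269) (nat_lit 5) (nat_lit 277) (nat_lit 5) (nat_lit 270) (nat_lit 5) (nat_lit 447) (nat_lit 362) (nat_lit 331))) (XT.nd (nat_lit 78) (nat_lit 532) (nat_lit 0) (XT.lf (nat_lit 0) (nat_lit 3281831795) (nat_lit 532) (nat_lit 1842223975) (nat_lit 608) (nat_lit 3696122729) (nat_lit 262) (nat_lit 5) (nat_lit 269) (nat_lit 5) (nat_lit 270) (nat_lit 5) (nat_lit 448) (nat_lit 362) (nat_lit 330)) (XT.lf (nat_lit 0) (nat_lit 1422908025) (nat_lit 532) (nat_lit 7351167115) (nat_lit 608) (nat_lit 124061796) (nat_lit 255) (nat_lit 5) (nat_lit 262) (nat_lit 5) (nat_lit 263) (nat_lit 5) (nat_lit 449) (nat_lit 362) (nat_lit 329))))))) (XT.nd (nat_lit 56706) (nat_lit 0) (nat_lit 15352) (XT.nd (nat_lit 624) (nat_lit 2204) (nat_lit 0) (XT.nd (nat_lit 312) (nat_lit 1520) (nat_lit 0) (XT.nd (nat_lit 156) (nat_lit 1064) (nat_lit 0) (XT.nd (nat_lit 78) (nat_lit 532) (nat_lit 0) (XT.lf (nat_lit 0) (nat_lit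 3472333657) (nat_lit 608) (nat_lit 485817837) (nat_lit 76) (nat_lit 5019065010) (nat_lit 254) (nat_lit 5) (nat_lit 262) (nat_lit 5) (nat_lit 255) (nat_lit 5) (nat_lit 450) (nat_lit 362) (nat_lit 328)) (XT.lf (nat_lit 0) (nat_lit 6659238764) (nat_lit 532) (nat_lit 473426078) (nat_lit 608) (nat_lit 1925323038) (nat_lit 247) (nat_lit 5) (nat_lit 254) (nat_lit 5) (nat_lit 255) (nat_lit 5) (nat_lit 451) (nat_lit 362) (nat_lit 327))) (XT.nd (nat_lit 78) (nat_lit 532) (nat_lit 0) (XT.lf (nat_lit 0) (nat_lit 1708391844) (nat_lit 532) (nat_lit 4366342665) (nat_lit 76) (nat_lit 3065312105) (nat_lit 240) (nat_lit 5) (nat_lit 247) (nat_lit 5) (nat_lit 241) (nat_lit 5) (nat_lit 452) (nat_lit 362) (nat_lit 326)) (XT.lf (nat_lit 0) (nat_lit 2848846898) (nat_lit 532) (nat_lit 2529007606) (nat_lit 608) (nat_lit 3845860418) (nat_lit 233) (nat_lit 5) (nat_lit 240) (nat_lit 5) (nat_lit 241) (nat_lit 5) (nat_lit 453) (nat_lit 362)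 (nat_lit 325)))) (XT.nd (nat_lit 156) (nat_lit 988) (nat_lit 0) (XT.nd (nat_lit 78) (nat_lit 76) (nat_lit 0) (XT.lf (nat_lit 0) (nat_lit 891920473) (nat_lit 456) (nat_lit 8222484213) (nat_lit 532) (nat_lit 194777945) (nat_lit 227) (nat_lit 5) (nat_lit 233) (nat_lit 5) (nat_lit 234) (nat_lit 5) (nat_lit 454) (nat_lit 362) (nat_lit 324)) (XT.lf (nat_lit 0) (nat_lit 3494373340) (nat_lit 532) (nat_lit 1116744225) (nat_lit 76) (nat_lit 4784557136) (nat_lit 226) (nat_lit 5) (nat_lit 233) (nat_lit 5) (nat_lit 227) (nat_lit 5) (nat_lit 455) (nat_lit 362) (nat_lit 323))) (XT.nd (nat_lit 78) (nat_lit 532) (nat_lit 0) (XT.lf (nat_lit 0) (nat_lit 6341317115) (nat_lit 456) (nat_lit 907031927) (nat_lit 532) (nat_lit 2235648831) (nat_lit 220) (nat_lit 5) (nat_lit 226) (nat_lit 5) (nat_lit 227) (nat_lit 5) (nat_lit 456) (nat_lit 362) (nat_lit 322)) (XT.lf (nat_lit 0) (nat_lit 1490930403) (nat_lit 532) (nat_lit 5226226478) (nat_lit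 76) (nat_lit 2856588819) (nat_lit 213) (nat_lit 5) (nat_lit 220) (nat_lit 5) (nat_lit 214) (nat_lit 5) (nat_lit 457) (nat_lit 362) (nat_lit 321))))) (XT.nd (nat_lit 312) (nat_lit 836) (nat_lit 0) (XT.nd (nat_lit 156) (nat_lit 532) (nat_lit 0) (XT.nd (nat_lit 78) (nat_lit 380) (nat_lit 0) (XT.lf (nat_lit 0) (nat_lit 2303682927) (nat_lit 456) (nat_lit 2953608503) (nat_lit 532) (nat_lit 4407797791) (nat_lit 207) (nat_lit 5) (nat_lit 213) (nat_lit 5) (nat_lit 214) (nat_lit 5) (nat_lit 458) (nat_lit 362) (nat_lit 320)) (XT.lf (nat_lit 0) (nat_lit 223278508) (nat_lit 380) (nat_lit 8871477048) (nat_lit 456) (nat_lit 663588537) (nat_lit 202) (nat_lit 5) (nat_lit 207) (nat_lit 5) (nat_lit 208) (nat_lit 5) (nat_lit 459) (nat_lit 362) (nat_lit 319))) (XT.nd (nat_lit 78) (nat_lit 456) (nat_lit 0) (XT.lf (nat_lit 0) (nat_lit 3136832979) (nat_lit 456) (nat_lit 1904704643) (nat_lit 76) (nat_lit 4811062426) (nat_lit 201) (nat_lit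 5) (nat_lit 207) (nat_lit 5) (nat_lit 202) (nat_lit 5) (nat_lit 460) (nat_lit 362) (nat_lit 318)) (XT.lf (nat_lit 0) (nat_lit 5881102303) (nat_lit 456) (nat_lit 1115807413) (nat_lit 532) (nat_lit 2951893036) (nat_lit 195) (nat_lit 5) (nat_lit 201) (nat_lit 5) (nat_lit 202) (nat_lit 5) (nat_lit 461) (nat_lit 362) (nat_lit 317)))) (XT.nd (nat_lit 55614) (nat_lit 0) (nat_lit 29032) (XT.nd (nat_lit 78) (nat_lit 380) (nat_lit 0) (XT.lf (nat_lit 0) (nat_lit 886365540) (nat_lit 456) (nat_lit 6290460459) (nat_lit 76) (nat_lit 2869773425) (nat_lit 189) (nat_lit 5) (nat_lit 195) (nat_lit 5) (nat_lit 190) (nat_lit 5) (nat_lit 462) (nat_lit 362) (nat_lit 316)) (XT.lf (nat_lit 0) (nat_lit 1568920437) (nat_lit 380) (nat_lit 3192799543) (nat_lit 456) (nat_lit 5384244679) (nat_lit 184) (nat_lit 5) (nat_lit 189) (nat_lit 5) (nat_lit 190) (nat_lit 5) (nat_lit 463) (nat_lit 362) (nat_lit 315))) (XT.nd (nat_lit 78) (nat_lit 76) (nat_lit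 0) (XT.lf (nat_lit 0) (nat_lit 420775588) (nat_lit 1596) (nat_lit 1537116479) (nat_lit 1596) (nat_lit 1537116479) (nat_lit 567) (nat_lit 4) (nat_lit 588) (nat_lit 5) (nat_lit 588) (nat_lit 4) (nat_lit 414) (nat_lit 363) (nat_lit 363)) (XT.lf (nat_lit 0) (nat_lit 415257040) (nat_lit 1672) (nat_lit 1011370717) (nat_lit 76) (nat_lit 5596396078) (nat_lit 566) (nat_lit 5) (nat_lit 588) (nat_lit 5) (nat_lit 567) (nat_lit 4) (nat_lit 415) (nat_lit 363) (nat_lit 362)))))) (XT.nd (nat_lit 624) (nat_lit 5244) (nat_lit 0) (XT.nd (nat_lit 312) (nat_lit 3040) (nat_lit 0) (XT.nd (nat_lit 156) (nat_lit 1900) (nat_lit 0) (XT.nd (nat_lit 78) (nat_lit 1824) (nat_lit 0) (XT.lf (nat_lit 0) (nat_lit 3892629281) (nat_lit 1748) (nat_lit 2864097126) (nat_lit 0) (nat_lit 300372765) (nat_lit 544) (nat_lit 5) (nat_lit 567) (nat_lit 4) (nat_lit 544) (nat_lit 4) (nat_lit 416) (nat_lit 363) (nat_lit 361)) (XT.lf (nat_lit 0) (nat_lit 305539469)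 (nat_lit 1824) (nat_lit 4718542091) (nat_lit 76) (nat_lit 2068481174) (nat_lit 520) (nat_lit 5) (nat_lit 544) (nat_lit 5) (nat_lit 521) (nat_lit 4) (nat_lit 417) (nat_lit 363) (nat_lit 360))) (XT.nd (nat_lit 78) (nat_lit 76) (nat_lit 0) (XT.lf (nat_lit 0) (nat_lit 543915177) (nat_lit 1824) (nat_lit 3212984085) (nat_lit 1900) (nat_lit 3372331513) (nat_lit 496) (nat_lit 5) (nat_lit 520) (nat_lit 5) (nat_lit 521) (nat_lit 4) (nat_lit 418) (nat_lit 363) (nat_lit 359)) (XT.lf (nat_lit 0) (nat_lit 72929324) (nat_lit 1900) (nat_lit 1261300228) (nat_lit 76) (nat_lit 5833113725) (nat_lit 495) (nat_lit 5) (nat_lit 520) (nat_lit 5) (nat_lit 496) (nat_lit 5) (nat_lit 419) (nat_lit 363) (nat_lit 358)))) (XT.nd (nat_lit 156) (nat_lit 988) (nat_lit 0) (XT.nd (nat_lit 78) (nat_lit 912) (nat_lit 0) (XT.lf (nat_lit 0) (nat_lit 3506095421) (nat_lit 1216) (nat_lit 3078188312) (nat_lit 76) (nat_lit 622205363) (nat_lit 480) (nat_lit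 5) (nat_lit 496) (nat_lit 5) (nat_lit 481) (nat_lit 4) (nat_lit 420) (nat_lit 363) (nat_lit 357)) (XT.lf (nat_lit 0) (nat_lit 2349020721) (nat_lit 912) (nat_lit 4625554072) (nat_lit 988) (nat_lit 272510040) (nat_lit 468) (nat_lit 5) (nat_lit 480) (nat_lit 5) (nat_lit 481) (nat_lit 4) (nat_lit 421) (nat_lit 363) (nat_lit 356))) (XT.nd (nat_lit 78) (nat_lit 0) (nat_lit 0) (XT.lf (nat_lit 0) (nat_lit 554775687) (nat_lit 912) (nat_lit 2585724938) (nat_lit 988) (nat_lit 4148396185) (nat_lit 455) (nat_lit 5) (nat_lit 467) (nat_lit 5) (nat_lit 468) (nat_lit 5) (nat_lit 422) (nat_lit 363) (nat_lit 355)) (XT.lf (nat_lit 0) (nat_lit 6111845868) (nat_lit 912) (nat_lit 474428237) (nat_lit 988) (nat_lit 745871865) (nat_lit 455) (nat_lit 5) (nat_lit 467) (nat_lit 5) (nat_lit 468) (nat_lit 5) (nat_lit 423) (nat_lit 363) (nat_lit 354))))) (XT.nd (nat_lit 312) (nat_lit 2508) (nat_lit 0) (XT.nd (nat_lit 156) (nat_lit 912) (nat_lit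 0) (XT.nd (nat_lit 78) (nat_lit 912) (nat_lit 0) (XT.lf (nat_lit 0) (nat_lit 2664685279) (nat_lit 912) (nat_lit 3013189783) (nat_lit 76) (nat_lit 1698516895) (nat_lit 443) (nat_lit 5) (nat_lit 455) (nat_lit 5) (nat_lit 444) (nat_lit 5) (nat_lit 424) (nat_lit 363) (nat_lit 353)) (XT.lf (nat_lit 0) (nat_lit 2609998520) (nat_lit 912) (nat_lit 3488721028) (nat_lit 988) (nat_lit 1323399647) (nat_lit 431) (nat_lit 5) (nat_lit 443) (nat_lit 5) (nat_lit 444) (nat_lit 5) (nat_lit 425) (nat_lit 363) (nat_lit 352))) (XT.nd (nat_lit 78) (nat_lit 0) (nat_lit 0) (XT.lf (nat_lit 0) (nat_lit 845214644) (nat_lit 836) (nat_lit 1222618368) (nat_lit 912) (nat_lit 5401388432) (nat_lit 419) (nat_lit 5) (nat_lit 430) (nat_lit 5) (nat_lit 431) (nat_lit 5) (nat_lit 426) (nat_lit 363) (nat_lit 351)) (XT.lf (nat_lit 0) (nat_lit 5486778132) (nat_lit 912) (nat_lit 922497865) (nat_lit 76) (nat_lit 1108262627) (nat_lit 419) (nat_lit 5) (nat_lit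 431) (nat_lit 5) (nat_lit 420) (nat_lit 5) (nat_lit 427) (nat_lit 363) (nat_lit 350)))) (XT.nd (nat_lit 156) (nat_lit 836) (nat_lit 0) (XT.nd (nat_lit 78) (nat_lit 760) (nat_lit 0) (XT.lf (nat_lit 0) (nat_lit 1367694448) (nat_lit 912) (nat_lit 2696668501) (nat_lit 76) (nat_lit 3502699034) (nat_lit 407) (nat_lit 5) (nat_lit 419) (nat_lit 5) (nat_lit 408) (nat_lit 5) (nat_lit 428) (nat_lit 363) (nat_lit 349)) (XT.lf (nat_lit 0) (nat_lit 3132067186) (nat_lit 760) (nat_lit 1641030282) (nat_lit 836) (nat_lit 2844886458) (nat_lit 397) (nat_lit 5) (nat_lit 407) (nat_lit 5) (nat_lit 408) (nat_lit 5) (nat_lit 429) (nat_lit 363) (nat_lit 348))) (XT.nd (nat_lit 78) (nat_lit 0) (nat_lit 0) (XT.lf (nat_lit 0) (nat_lit 541805570) (nat_lit 836) (nat_lit 6287378807) (nat_lit 76) (nat_lit 841211353) (nat_lit 386) (nat_lit 5) (nat_lit 397) (nat_lit 5) (nat_lit 387) (nat_lit 5) (nat_lit 430) (nat_lit 363) (nat_lit 347)) (XT.lf (nat_lit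 0) (nat_lit 3939922061) (nat_lit 836) (nat_lit 393739668) (nat_lit 76) (nat_lit 3390182275) (nat_lit 386) (nat_lit 5) (nat_lit 397) (nat_lit 5) (nat_lit 387) (nat_lit 5) (nat_lit 431) (nat_lit 363) (nat_lit 346))))))))
noncomputable def xc11 : XT := (XT.nd (nat_lit 57798) (nat_lit 0) (nat_lit 7904) (XT.nd (nat_lit 1248) (nat_lit 6080) (nat_lit 0) (XT.nd (nat_lit 624) (nat_lit 3800) (nat_lit 0) (XT.nd (nat_lit 312) (nat_lit 2052) (nat_lit 0) (XT.nd (nat_lit 156) (nat_lit 1444) (nat_lit 0) (XT.nd (nat_lit 78) (nat_lit 836) (nat_lit 0) (XT.lf (nat_lit 0) (nat_lit 5622179141) (nat_lit 760) (nat_lit 1762067866) (nat_lit 836) (nat_lit 394549313) (nat_lit 376) (nat_lit 5) (nat_lit 386) (nat_lit 5) (nat_lit 387) (nat_lit 5) (nat_lit 432) (nat_lit 363) (nat_lit 345)) (XT.lf (nat_lit 0) (nat_lit 2998250731) (nat_lit 836) (nat_lit 3950443394) (nat_lit 76) (nat_lit 886239734) (nat_lit 365) (nat_lit 5) (nat_lit 376) (nat_lit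 5) (nat_lit 366) (nat_lit 5) (nat_lit 433) (nat_lit 363) (nat_lit 344))) (XT.nd (nat_lit 78) (nat_lit 760) (nat_lit 0) (XT.lf (nat_lit 0) (nat_lit 2127014761) (nat_lit 684) (nat_lit 4309327750) (nat_lit 760) (nat_lit 1456145105) (nat_lit 356) (nat_lit 5) (nat_lit 365) (nat_lit 5) (nat_lit 366) (nat_lit 5) (nat_lit 434) (nat_lit 363) (nat_lit 343)) (XT.lf (nat_lit 0) (nat_lit 349840145) (nat_lit 684) (nat_lit 1587956988) (nat_lit 760) (nat_lit 6013698266) (nat_lit 346) (nat_lit 5) (nat_lit 355) (nat_lit 5) (nat_lit 356) (nat_lit 5) (nat_lit 435) (nat_lit 363) (nat_lit 342)))) (XT.nd (nat_lit 156) (nat_lit 1292) (nat_lit 0) (XT.nd (nat_lit 78) (nat_lit 760) (nat_lit 0) (XT.lf (nat_lit 0) (nat_lit 5370333262) (nat_lit 760) (nat_lit 1434032026) (nat_lit 76) (nat_lit 1207321292) (nat_lit 346) (nat_lit 5) (nat_lit 356) (nat_lit 5) (nat_lit 347) (nat_lit 5) (nat_lit 436) (nat_lit 363) (nat_lit 341)) (XT.lf (nat_lit 0)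 (nat_lit 774463843) (nat_lit 760) (nat_lit 3238265814) (nat_lit 76) (nat_lit 4060518308) (nat_lit 336) (nat_lit 5) (nat_lit 346) (nat_lit 5) (nat_lit 337) (nat_lit 5) (nat_lit 437) (nat_lit 363) (nat_lit 340))) (XT.nd (nat_lit 78) (nat_lit 608) (nat_lit 0) (XT.lf (nat_lit 0) (nat_lit 3065615859) (nat_lit 684) (nat_lit 1132154857) (nat_lit 760) (nat_lit 3938429853) (nat_lit 327) (nat_lit 5) (nat_lit 336) (nat_lit 5) (nat_lit 337) (nat_lit 5) (nat_lit 438) (nat_lit 363) (nat_lit 339)) (XT.lf (nat_lit 0) (nat_lit 1273797425) (nat_lit 608) (nat_lit 6403064748) (nat_lit 684) (nat_lit 523803683) (nat_lit 319) (nat_lit 5) (nat_lit 327) (nat_lit 5) (nat_lit 328) (nat_lit 5) (nat_lit 439) (nat_lit 363) (nat_lit 338))))) (XT.nd (nat_lit 312) (nat_lit 1824) (nat_lit 0) (XT.nd (nat_lit 156) (nat_lit 1292) (nat_lit 0) (XT.nd (nat_lit 78) (nat_lit 608) (nat_lit 0) (XT.lf (nat_lit 0) (nat_lit 2907760329) (nat_lit 684) (nat_lit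 549664610) (nat_lit 76) (nat_lit 4808862167) (nat_lit 318) (nat_lit 5) (nat_lit 327) (nat_lit 5) (nat_lit 319) (nat_lit 5) (nat_lit 440) (nat_lit 363) (nat_lit 337)) (XT.lf (nat_lit 0) (nat_lit 5960384522) (nat_lit 608) (nat_lit 426032595) (nat_lit 684) (nat_lit 1947024911) (nat_lit 310) (nat_lit 5) (nat_lit 318) (nat_lit 5) (nat_lit 319) (nat_lit 5) (nat_lit 441) (nat_lit 363) (nat_lit 336))) (XT.nd (nat_lit 78) (nat_lit 608) (nat_lit 0) (XT.lf (nat_lit 0) (nat_lit 1507955736) (nat_lit 684) (nat_lit 4238220085) (nat_lit 76) (nat_lit 2655658192) (nat_lit 301) (nat_lit 5) (nat_lit 310) (nat_lit 5) (nat_lit 302) (nat_lit 5) (nat_lit 442) (nat_lit 363) (nat_lit 335)) (XT.lf (nat_lit 0) (nat_lit 2336605304) (nat_lit 608) (nat_lit 2650904526) (nat_lit 684) (nat_lit 3484195721) (nat_lit 293) (nat_lit 5) (nat_lit 301) (nat_lit 5) (nat_lit 302) (nat_lit 5) (nat_lit 443) (nat_lit 363) (nat_lit 334)))) (XT.nd (nat_lit 156)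 (nat_lit 1216) (nat_lit 0) (XT.nd (nat_lit 78) (nat_lit 76) (nat_lit 0) (XT.lf (nat_lit 0) (nat_lit 490335717) (nat_lit 532) (nat_lit 8029378887) (nat_lit 608) (nat_lit 23598723) (nat_lit 286) (nat_lit 5) (nat_lit 293) (nat_lit 5) (nat_lit 294) (nat_lit 5) (nat_lit 444) (nat_lit 363) (nat_lit 333)) (XT.lf (nat_lit 0) (nat_lit 3467407805) (nat_lit 608) (nat_lit 1395495105) (nat_lit 76) (nat_lit 3752851414) (nat_lit 285) (nat_lit 5) (nat_lit 293) (nat_lit 5) (nat_lit 286) (nat_lit 5) (nat_lit 445) (nat_lit 363) (nat_lit 332))) (XT.nd (nat_lit 78) (nat_lit 608) (nat_lit 0) (XT.lf (nat_lit 0) (nat_lit 5396327522) (nat_lit 608) (nat_lit 1615827896) (nat_lit 684) (nat_lit 1677800863) (nat_lit 277) (nat_lit 5) (nat_lit 285) (nat_lit 5) (nat_lit 286) (nat_lit 5) (nat_lit 446) (nat_lit 363) (nat_lit 331)) (XT.lf (nat_lit 0) (nat_lit 1830756873) (nat_lit 608) (nat_lit 5234839111) (nat_lit 76) (nat_lit 1699944013) (nat_lit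 269) (nat_lit 5) (nat_lit 277) (nat_lit 5) (nat_lit 270) (nat_lit 5) (nat_lit 447) (nat_lit 363) (nat_lit 330)))))) (XT.nd (nat_lit 624) (nat_lit 2812) (nat_lit 0) (XT.nd (nat_lit 312) (nat_lit 1596) (nat_lit 0) (XT.nd (nat_lit 156) (nat_lit 1064) (nat_lit 0) (XT.nd (nat_lit 78) (nat_lit 76) (nat_lit 0) (XT.lf (nat_lit 0) (nat_lit 1623239469) (nat_lit 532) (nat_lit 3757123854) (nat_lit 608) (nat_lit 3462183392) (nat_lit 262) (nat_lit 5) (nat_lit 269) (nat_lit 5) (nat_lit 270) (nat_lit 5) (nat_lit 448) (nat_lit 363) (nat_lit 329)) (XT.lf (nat_lit 0) (nat_lit 64219032) (nat_lit 608) (nat_lit 301966915) (nat_lit 76) (nat_lit 8555189287) (nat_lit 261) (nat_lit 5) (nat_lit 269) (nat_lit 5) (nat_lit 262) (nat_lit 5) (nat_lit 449) (nat_lit 363) (nat_lit 328))) (XT.nd (nat_lit 78) (nat_lit 532) (nat_lit 0) (XT.lf (nat_lit 0) (nat_lit 3630071111) (nat_lit 608) (nat_lit 2271377912) (nat_lit 76) (nat_lit 3099567993) (nat_lit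 254) (nat_lit 5) (nat_lit 262) (nat_lit 5) (nat_lit 255) (nat_lit 5) (nat_lit 450) (nat_lit 363) (nat_lit 327)) (XT.lf (nat_lit 0) (nat_lit 4815200353) (nat_lit 532) (nat_lit 2439171402) (nat_lit 608) (nat_lit 1828137250) (nat_lit 247) (nat_lit 5) (nat_lit 254) (nat_lit 5) (nat_lit 255) (nat_lit 5) (nat_lit 451) (nat_lit 363) (nat_lit 326)))) (XT.nd (nat_lit 156) (nat_lit 532) (nat_lit 0) (XT.nd (nat_lit 78) (nat_lit 532) (nat_lit 0) (XT.lf (nat_lit 0) (nat_lit 1754905192) (nat_lit 532) (nat_lit 6307545967) (nat_lit 76) (nat_lit 1103091914) (nat_lit 240) (nat_lit 5) (nat_lit 247) (nat_lit 5) (nat_lit 241) (nat_lit 5) (nat_lit 452) (nat_lit 363) (nat_lit 325)) (XT.lf (nat_lit 0) (nat_lit 846820039) (nat_lit 532) (nat_lit 4540764679) (nat_lit 608) (nat_lit 3862362327) (nat_lit 233) (nat_lit 5) (nat_lit 240) (nat_lit 5) (nat_lit 241) (nat_lit 5) (nat_lit 453) (nat_lit 363) (nat_lit 324))) (XT.nd (nat_lit 78) (nat_lit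 532) (nat_lit 0) (XT.lf (nat_lit 0) (nat_lit 8160408622) (nat_lit 532) (nat_lit 927282869) (nat_lit 608) (nat_lit 248452131) (nat_lit 233) (nat_lit 5) (nat_lit 240) (nat_lit 5) (nat_lit 241) (nat_lit 5) (nat_lit 454) (nat_lit 363) (nat_lit 323)) (XT.lf (nat_lit 0) (nat_lit 3404069009) (nat_lit 532) (nat_lit 3255544075) (nat_lit 76) (nat_lit 2763776260) (nat_lit 226) (nat_lit 5) (nat_lit 233) (nat_lit 5) (nat_lit 227) (nat_lit 5) (nat_lit 455) (nat_lit 363) (nat_lit 322))))) (XT.nd (nat_lit 312) (nat_lit 1368) (nat_lit 0) (XT.nd (nat_lit 156) (nat_lit 456) (nat_lit 0) (XT.nd (nat_lit 78) (nat_lit 532) (nat_lit 0) (XT.lf (nat_lit 0) (nat_lit 4139498814) (nat_lit 456) (nat_lit 2981184320) (nat_lit 532) (nat_lit 2391776615) (nat_lit 220) (nat_lit 5) (nat_lit 226) (nat_lit 5) (nat_lit 227) (nat_lit 5) (nat_lit 456) (nat_lit 363) (nat_lit 321)) (XT.lf (nat_lit 0) (nat_lit 1285328763) (nat_lit 532) (nat_lit 7535390209)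 (nat_lit 76) (nat_lit 782539307) (nat_lit 213) (nat_lit 5) (nat_lit 220) (nat_lit 5) (nat_lit 214) (nat_lit 5) (nat_lit 457) (nat_lit 363) (nat_lit 320))) (XT.nd (nat_lit 78) (nat_lit 456) (nat_lit 0) (XT.lf (nat_lit 0) (nat_lit 5013904654) (nat_lit 532) (nat_lit 70073041) (nat_lit 76) (nat_lit 4611379806) (nat_lit 213) (nat_lit 5) (nat_lit 220) (nat_lit 5) (nat_lit 214) (nat_lit 5) (nat_lit 458) (nat_lit 363) (nat_lit 319)) (XT.lf (nat_lit 0) (nat_lit 7575824828) (nat_lit 456) (nat_lit 1245205927) (nat_lit 532) (nat_lit 968188380) (nat_lit 207) (nat_lit 5) (nat_lit 213) (nat_lit 5) (nat_lit 214) (nat_lit 5) (nat_lit 459) (nat_lit 363) (nat_lit 318)))) (XT.nd (nat_lit 156) (nat_lit 456) (nat_lit 0) (XT.nd (nat_lit 78) (nat_lit 456) (nat_lit 0) (XT.lf (nat_lit 0) (nat_lit 2790881073) (nat_lit 456) (nat_lit 4426402900) (nat_lit 76) (nat_lit 2667137609) (nat_lit 201) (nat_lit 5) (nat_lit 207) (nat_lit 5) (nat_lit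 202) (nat_lit 5) (nat_lit 460) (nat_lit 363) (nat_lit 317)) (XT.lf (nat_lit 0) (nat_lit 3291516536) (nat_lit 456) (nat_lit 3320467181) (nat_lit 532) (nat_lit 3369420051) (nat_lit 195) (nat_lit 5) (nat_lit 201) (nat_lit 5) (nat_lit 202) (nat_lit 5) (nat_lit 461) (nat_lit 363) (nat_lit 316))) (XT.nd (nat_lit 78) (nat_lit 0) (nat_lit 0) (XT.lf (nat_lit 0) (nat_lit 420242049) (nat_lit 456) (nat_lit 8998115834) (nat_lit 76) (nat_lit 661978223) (nat_lit 189) (nat_lit 5) (nat_lit 195) (nat_lit 5) (nat_lit 190) (nat_lit 5) (nat_lit 462) (nat_lit 363) (nat_lit 315)) (XT.lf (nat_lit 0) (nat_lit 4263456264) (nat_lit 456) (nat_lit 1193443269) (nat_lit 76) (nat_lit 4723444612) (nat_lit 189) (nat_lit 5) (nat_lit 195) (nat_lit 5) (nat_lit 190) (nat_lit 5) (nat_lit 463) (nat_lit 363) (nat_lit 314))))))) (XT.nd (nat_lit 1248) (nat_lit 9576) (nat_lit 0) (XT.nd (nat_lit 624) (nat_lit 5776) (nat_lit 0) (XT.nd (nat_lit 312) (nat_lit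 5396) (nat_lit 0) (XT.nd (nat_lit 156) (nat_lit 1672) (nat_lit 0) (XT.nd (nat_lit 78) (nat_lit 1596) (nat_lit 0) (XT.lf (nat_lit 0) (nat_lit 2312382888) (nat_lit 1444) (nat_lit 575674096) (nat_lit 1444) (nat_lit 575674096) (nat_lit 609) (nat_lit 4) (nat_lit 628) (nat_lit 5) (nat_lit 628) (nat_lit 4) (nat_lit 412) (nat_lit 364) (nat_lit 364)) (XT.lf (nat_lit 0) (nat_lit 2302450779) (nat_lit 1596) (nat_lit 4240728854) (nat_lit 0) (nat_lit 415257040) (nat_lit 588) (nat_lit 5) (nat_lit 609) (nat_lit 4) (nat_lit 588) (nat_lit 4) (nat_lit 413) (nat_lit 364) (nat_lit 363))) (XT.nd (nat_lit 78) (nat_lit 76) (nat_lit 0) (XT.lf (nat_lit 0) (nat_lit 807629745) (nat_lit 1596) (nat_lit 4960236629) (nat_lit 1596) (nat_lit 1222852949) (nat_lit 567) (nat_lit 4) (nat_lit 588) (nat_lit 5) (nat_lit 588) (nat_lit 4) (nat_lit 414) (nat_lit 364) (nat_lit 362)) (XT.lf (nat_lit 0) (nat_lit 2207704861) (nat_lit 1672) (nat_lit 1091731564)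 (nat_lit 76) (nat_lit 3724742253) (nat_lit 566) (nat_lit 5) (nat_lit 588) (nat_lit 5) (nat_lit 567) (nat_lit 4) (nat_lit 415) (nat_lit 364) (nat_lit 361)))) (XT.nd (nat_lit 156) (nat_lit 1900) (nat_lit 0) (XT.nd (nat_lit 78) (nat_lit 1824) (nat_lit 0) (XT.lf (nat_lit 0) (nat_lit 4080093928) (nat_lit 1672) (nat_lit 1568289301) (nat_lit 1748) (nat_lit 1410604663) (nat_lit 544) (nat_lit 5) (nat_lit 566) (nat_lit 5) (nat_lit 567) (nat_lit 4) (nat_lit 416) (nat_lit 364) (nat_lit 360)) (XT.lf (nat_lit 0) (nat_lit 1991501677) (nat_lit 1824) (nat_lit 4872377884) (nat_lit 76) (nat_lit 231242163) (nat_lit 520) (nat_lit 5) (nat_lit 544) (nat_lit 5) (nat_lit 521) (nat_lit 4) (nat_lit 417) (nat_lit 364) (nat_lit 359))) (XT.nd (nat_lit 78) (nat_lit 76) (nat_lit 0) (XT.lf (nat_lit 0) (nat_lit 353851706) (nat_lit 1824) (nat_lit 5054483448) (nat_lit 1900) (nat_lit 1724145137) (nat_lit 496) (nat_lit 5) (nat_lit 520) (nat_lit 5)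 (nat_lit 521) (nat_lit 4) (nat_lit 418) (nat_lit 364) (nat_lit 358)) (XT.lf (nat_lit 0) (nat_lit 1666424745) (nat_lit 1900) (nat_lit 1499266901) (nat_lit 76) (nat_lit 4005348618) (nat_lit 495) (nat_lit 5) (nat_lit 520) (nat_lit 5) (nat_lit 496) (nat_lit 5) (nat_lit 419) (nat_lit 364) (nat_lit 357))))) (XT.nd (nat_lit 312) (nat_lit 2660) (nat_lit 0) (XT.nd (nat_lit 156) (nat_lit 988) (nat_lit 0) (XT.nd (nat_lit 78) (nat_lit 988) (nat_lit 0) (XT.lf (nat_lit 0) (nat_lit 3857617791) (nat_lit 1140) (nat_lit 1203668862) (nat_lit 1216) (nat_lit 2149665515) (nat_lit 480) (nat_lit 5) (nat_lit 495) (nat_lit 5) (nat_lit 496) (nat_lit 5) (nat_lit 420) (nat_lit 364) (nat_lit 356)) (XT.lf (nat_lit 0) (nat_lit 1219369737) (nat_lit 988) (nat_lit 5216418147) (nat_lit 76) (nat_lit 816435726) (nat_lit 467) (nat_lit 5) (nat_lit 480) (nat_lit 5) (nat_lit 468) (nat_lit 5) (nat_lit 421) (nat_lit 364) (nat_lit 355))) (XT.nd (nat_lit 78)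 (nat_lit 76) (nat_lit 0) (XT.lf (nat_lit 0) (nat_lit 196045453) (nat_lit 912) (nat_lit 4398620889) (nat_lit 988) (nat_lit 2700016660) (nat_lit 455) (nat_lit 5) (nat_lit 467) (nat_lit 5) (nat_lit 468) (nat_lit 5) (nat_lit 422) (nat_lit 364) (nat_lit 354)) (XT.lf (nat_lit 0) (nat_lit 661680308) (nat_lit 988) (nat_lit 1623476837) (nat_lit 76) (nat_lit 5053316072) (nat_lit 454) (nat_lit 5) (nat_lit 467) (nat_lit 5) (nat_lit 455) (nat_lit 5) (nat_lit 423) (nat_lit 364) (nat_lit 353)))) (XT.nd (nat_lit 156) (nat_lit 912) (nat_lit 0) (XT.nd (nat_lit 78) (nat_lit 912) (nat_lit 0) (XT.lf (nat_lit 0) (nat_lit 3927283498) (nat_lit 836) (nat_lit 90099023) (nat_lit 912) (nat_lit 3366141281) (nat_lit 443) (nat_lit 5) (nat_lit 454) (nat_lit 5) (nat_lit 455) (nat_lit 5) (nat_lit 424) (nat_lit 364) (nat_lit 352)) (XT.lf (nat_lit 0) (nat_lit 2127397874) (nat_lit 912) (nat_lit 5289681775) (nat_lit 988) (nat_lit 12858134) (nat_lit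 431) (nat_lit 5) (nat_lit 443) (nat_lit 5) (nat_lit 444) (nat_lit 5) (nat_lit 425) (nat_lit 364) (nat_lit 351))) (XT.nd (nat_lit 78) (nat_lit 0) (nat_lit 0) (XT.lf (nat_lit 0) (nat_lit 305216537) (nat_lit 836) (nat_lit 3022027260) (nat_lit 912) (nat_lit 4150304912) (nat_lit 419) (nat_lit 5) (nat_lit 430) (nat_lit 5) (nat_lit 431) (nat_lit 5) (nat_lit 426) (nat_lit 364) (nat_lit 350)) (XT.lf (nat_lit 0) (nat_lit 6028715486) (nat_lit 836) (nat_lit 680123093) (nat_lit 912) (nat_lit 817774316) (nat_lit 419) (nat_lit 5) (nat_lit 430) (nat_lit 5) (nat_lit 431) (nat_lit 5) (nat_lit 427) (nat_lit 364) (nat_lit 349)))))) (XT.nd (nat_lit 624) (nat_lit 4712) (nat_lit 0) (XT.nd (nat_lit 312) (nat_lit 2356) (nat_lit 0) (XT.nd (nat_lit 156) (nat_lit 836) (nat_lit 0) (XT.nd (nat_lit 78) (nat_lit 760) (nat_lit 0) (XT.lf (nat_lit 0) (nat_lit 2526634078) (nat_lit 912) (nat_lit 3326812314) (nat_lit 76) (nat_lit 1723295113) (nat_lit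 407) (nat_lit 5) (nat_lit 419) (nat_lit 5) (nat_lit 408) (nat_lit 5) (nat_lit 428) (nat_lit 364) (nat_lit 348)) (XT.lf (nat_lit 0) (nat_lit 2459263254) (nat_lit 760) (nat_lit 3439080445) (nat_lit 836) (nat_lit 1729993616) (nat_lit 397) (nat_lit 5) (nat_lit 407) (nat_lit 5) (nat_lit 408) (nat_lit 5) (nat_lit 429) (nat_lit 364) (nat_lit 347))) (XT.nd (nat_lit 78) (nat_lit 0) (nat_lit 0) (XT.lf (nat_lit 0) (nat_lit 654638002) (nat_lit 760) (nat_lit 947978142) (nat_lit 836) (nat_lit 6078777409) (nat_lit 386) (nat_lit 5) (nat_lit 396) (nat_lit 5) (nat_lit 397) (nat_lit 5) (nat_lit 430) (nat_lit 364) (nat_lit 346)) (XT.lf (nat_lit 0) (nat_lit 4965737737) (nat_lit 836) (nat_lit 1161282797) (nat_lit 76) (nat_lit 1608521189) (nat_lit 386) (nat_lit 5) (nat_lit 397) (nat_lit 5) (nat_lit 387) (nat_lit 5) (nat_lit 431) (nat_lit 364) (nat_lit 345)))) (XT.nd (nat_lit 156) (nat_lit 760) (nat_lit 0) (XT.nd (nat_lit 78) (nat_lit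 760) (nat_lit 0) (XT.lf (nat_lit 0) (nat_lit 577675231) (nat_lit 836) (nat_lit 2984625169) (nat_lit 76) (nat_lit 4228788540) (nat_lit 375) (nat_lit 5) (nat_lit 386) (nat_lit 5) (nat_lit 376) (nat_lit 5) (nat_lit 432) (nat_lit 364) (nat_lit 344)) (XT.lf (nat_lit 0) (nat_lit 3014580228) (nat_lit 760) (nat_lit 911081143) (nat_lit 836) (nat_lit 3922306661) (nat_lit 365) (nat_lit 5) (nat_lit 375) (nat_lit 5) (nat_lit 376) (nat_lit 5) (nat_lit 433) (nat_lit 364) (nat_lit 343))) (XT.nd (nat_lit 78) (nat_lit 76) (nat_lit 0) (XT.lf (nat_lit 0) (nat_lit 1203780822) (nat_lit 684) (nat_lit 6120236405) (nat_lit 760) (nat_lit 582299280) (nat_lit 356) (nat_lit 5) (nat_lit 365) (nat_lit 5) (nat_lit 366) (nat_lit 5) (nat_lit 434) (nat_lit 364) (nat_lit 342)) (XT.lf (nat_lit 0) (nat_lit 2770228154) (nat_lit 760) (nat_lit 631724551) (nat_lit 76) (nat_lit 4563857197) (nat_lit 355) (nat_lit 5) (nat_lit 365) (nat_lit 5) (nat_lit 356)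 (nat_lit 5) (nat_lit 435) (nat_lit 364) (nat_lit 341))))) (XT.nd (nat_lit 312) (nat_lit 1900) (nat_lit 0) (XT.nd (nat_lit 156) (nat_lit 1368) (nat_lit 0) (XT.nd (nat_lit 78) (nat_lit 760) (nat_lit 0) (XT.lf (nat_lit 0) (nat_lit 5561781532) (nat_lit 684) (nat_lit 601522952) (nat_lit 760) (nat_lit 1863485795) (nat_lit 346) (nat_lit 5) (nat_lit 355) (nat_lit 5) (nat_lit 356) (nat_lit 5) (nat_lit 436) (nat_lit 364) (nat_lit 340)) (XT.lf (nat_lit 0) (nat_lit 1504127624) (nat_lit 760) (nat_lit 4333937157) (nat_lit 76) (nat_lit 2250945912) (nat_lit 336) (nat_lit 5) (nat_lit 346) (nat_lit 5) (nat_lit 337) (nat_lit 5) (nat_lit 437) (nat_lit 364) (nat_lit 339))) (XT.nd (nat_lit 78) (nat_lit 684) (nat_lit 0) (XT.lf (nat_lit 0) (nat_lit 1920957506) (nat_lit 684) (nat_lit 2972311067) (nat_lit 760) (nat_lit 3259378043) (nat_lit 327) (nat_lit 5) (nat_lit 336) (nat_lit 5) (nat_lit 337) (nat_lit 5) (nat_lit 438) (nat_lit 364) (nat_lit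 338)) (XT.lf (nat_lit 0) (nat_lit 73746160) (nat_lit 608) (nat_lit 33165680) (nat_lit 684) (nat_lit 8111105907) (nat_lit 318) (nat_lit 5) (nat_lit 326) (nat_lit 5) (nat_lit 327) (nat_lit 5) (nat_lit 439) (nat_lit 364) (nat_lit 337)))) (XT.nd (nat_lit 156) (nat_lit 1292) (nat_lit 0) (XT.nd (nat_lit 78) (nat_lit 608) (nat_lit 0) (XT.lf (nat_lit 0) (nat_lit 3505039205) (nat_lit 684) (nat_lit 1804610433) (nat_lit 76) (nat_lit 2974452678) (nat_lit 318) (nat_lit 5) (nat_lit 327) (nat_lit 5) (nat_lit 319) (nat_lit 5) (nat_lit 440) (nat_lit 364) (nat_lit 336)) (XT.lf (nat_lit 0) (nat_lit 4654630043) (nat_lit 608) (nat_lit 2294753288) (nat_lit 684) (nat_lit 1402560160) (nat_lit 310) (nat_lit 5) (nat_lit 318) (nat_lit 5) (nat_lit 319) (nat_lit 5) (nat_lit 441) (nat_lit 364) (nat_lit 335))) (XT.nd (nat_lit 78) (nat_lit 608) (nat_lit 0) (XT.lf (nat_lit 0) (nat_lit 1998385765) (nat_lit 684) (nat_lit 5624812321) (nat_lit 76)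 (nat_lit 798004569) (nat_lit 301) (nat_lit 5) (nat_lit 310) (nat_lit 5) (nat_lit 302) (nat_lit 5) (nat_lit 442) (nat_lit 364) (nat_lit 334)) (XT.lf (nat_lit 0) (nat_lit 897096825) (nat_lit 608) (nat_lit 4546015332) (nat_lit 684) (nat_lit 3048658590) (nat_lit 293) (nat_lit 5) (nat_lit 301) (nat_lit 5) (nat_lit 302) (nat_lit 5) (nat_lit 443) (nat_lit 364) (nat_lit 333))))))))
noncomputable def xc12 : XT := (XT.nd (nat_lit 57642) (nat_lit 0) (nat_lit 3876) (XT.nd (nat_lit 1248) (nat_lit 1368) (nat_lit 0) (XT.nd (nat_lit 624) (nat_lit 3040) (nat_lit 0) (XT.nd (nat_lit 312) (nat_lit 1672) (nat_lit 0) (XT.nd (nat_lit 156) (nat_lit 1216) (nat_lit 0) (XT.nd (nat_lit 78) (nat_lit 532) (nat_lit 0) (XT.lf (nat_lit 0) (nat_lit 374580382) (nat_lit 684) (nat_lit 1009089870) (nat_lit 76) (nat_lit 7180293888) (nat_lit 292) (nat_lit 5) (nat_lit 301) (nat_lit 5) (nat_lit 293) (nat_lit 5) (nat_lit 444) (nat_lit 364) (nat_lit 332))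 (XT.lf (nat_lit 0) (nat_lit 3824462529) (nat_lit 608) (nat_lit 2954609929) (nat_lit 76) (nat_lit 1858145911) (nat_lit 285) (nat_lit 5) (nat_lit 293) (nat_lit 5) (nat_lit 286) (nat_lit 5) (nat_lit 445) (nat_lit 364) (nat_lit 331))) (XT.nd (nat_lit 78) (nat_lit 608) (nat_lit 0) (XT.lf (nat_lit 0) (nat_lit 3782349172) (nat_lit 608) (nat_lit 3551726598) (nat_lit 684) (nat_lit 1378047244) (nat_lit 277) (nat_lit 5) (nat_lit 285) (nat_lit 5) (nat_lit 286) (nat_lit 5) (nat_lit 446) (nat_lit 364) (nat_lit 330)) (XT.lf (nat_lit 0) (nat_lit 1847998069) (nat_lit 532) (nat_lit 231847198) (nat_lit 608) (nat_lit 6708757216) (nat_lit 269) (nat_lit 5) (nat_lit 276) (nat_lit 5) (nat_lit 277) (nat_lit 5) (nat_lit 447) (nat_lit 364) (nat_lit 329)))) (XT.nd (nat_lit 156) (nat_lit 1064) (nat_lit 0) (XT.nd (nat_lit 78) (nat_lit 608) (nat_lit 0) (XT.lf (nat_lit 0) (nat_lit 5593059550) (nat_lit 608) (nat_lit 136313152) (nat_lit 76) (nat_lit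 3136964344) (nat_lit 269) (nat_lit 5) (nat_lit 277) (nat_lit 5) (nat_lit 270) (nat_lit 5) (nat_lit 448) (nat_lit 364) (nat_lit 328)) (XT.lf (nat_lit 0) (nat_lit 225495491) (nat_lit 608) (nat_lit 2122461995) (nat_lit 76) (nat_lit 6597686586) (nat_lit 261) (nat_lit 5) (nat_lit 269) (nat_lit 5) (nat_lit 262) (nat_lit 5) (nat_lit 449) (nat_lit 364) (nat_lit 327))) (XT.nd (nat_lit 78) (nat_lit 532) (nat_lit 0) (XT.lf (nat_lit 0) (nat_lit 3742366515) (nat_lit 608) (nat_lit 4161921939) (nat_lit 76) (nat_lit 1121977023) (nat_lit 254) (nat_lit 5) (nat_lit 262) (nat_lit 5) (nat_lit 255) (nat_lit 5) (nat_lit 450) (nat_lit 364) (nat_lit 326)) (XT.lf (nat_lit 0) (nat_lit 2865464165) (nat_lit 532) (nat_lit 4464957912) (nat_lit 608) (nat_lit 1778060289) (nat_lit 247) (nat_lit 5) (nat_lit 254) (nat_lit 5) (nat_lit 255) (nat_lit 5) (nat_lit 451) (nat_lit 364) (nat_lit 325))))) (XT.nd (nat_lit 312) (nat_lit 1444) (nat_lit 0) (XT.nd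 (nat_lit 156) (nat_lit 1064) (nat_lit 0) (XT.nd (nat_lit 78) (nat_lit 0) (nat_lit 0) (XT.lf (nat_lit 0) (nat_lit 828944209) (nat_lit 456) (nat_lit 931406919) (nat_lit 532) (nat_lit 7432038289) (nat_lit 240) (nat_lit 5) (nat_lit 246) (nat_lit 5) (nat_lit 247) (nat_lit 5) (nat_lit 452) (nat_lit 364) (nat_lit 324)) (XT.lf (nat_lit 0) (nat_lit 5358166943) (nat_lit 532) (nat_lit 1248026925) (nat_lit 76) (nat_lit 2671296794) (nat_lit 240) (nat_lit 5) (nat_lit 247) (nat_lit 5) (nat_lit 241) (nat_lit 5) (nat_lit 453) (nat_lit 364) (nat_lit 323))) (XT.nd (nat_lit 78) (nat_lit 532) (nat_lit 0) (XT.lf (nat_lit 0) (nat_lit 6015310151) (nat_lit 532) (nat_lit 3011673218) (nat_lit 608) (nat_lit 337329677) (nat_lit 233) (nat_lit 5) (nat_lit 240) (nat_lit 5) (nat_lit 241) (nat_lit 5) (nat_lit 454) (nat_lit 364) (nat_lit 322)) (XT.lf (nat_lit 0) (nat_lit 3265365448) (nat_lit 532) (nat_lit 5506085162) (nat_lit 76) (nat_lit 681139533)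 (nat_lit 226) (nat_lit 5) (nat_lit 233) (nat_lit 5) (nat_lit 227) (nat_lit 5) (nat_lit 455) (nat_lit 364) (nat_lit 321)))) (XT.nd (nat_lit 156) (nat_lit 912) (nat_lit 0) (XT.nd (nat_lit 78) (nat_lit 76) (nat_lit 0) (XT.lf (nat_lit 0) (nat_lit 1825132625) (nat_lit 456) (nat_lit 5119206907) (nat_lit 532) (nat_lit 2598073816) (nat_lit 220) (nat_lit 5) (nat_lit 226) (nat_lit 5) (nat_lit 227) (nat_lit 5) (nat_lit 456) (nat_lit 364) (nat_lit 320)) (XT.lf (nat_lit 0) (nat_lit 1040594457) (nat_lit 532) (nat_lit 330601414) (nat_lit 76) (nat_lit 8262865650) (nat_lit 219) (nat_lit 5) (nat_lit 226) (nat_lit 5) (nat_lit 220) (nat_lit 5) (nat_lit 457) (nat_lit 364) (nat_lit 319))) (XT.nd (nat_lit 78) (nat_lit 456) (nat_lit 0) (XT.lf (nat_lit 0) (nat_lit 4735697733) (nat_lit 532) (nat_lit 2528570595) (nat_lit 76) (nat_lit 2462561868) (nat_lit 213) (nat_lit 5) (nat_lit 220) (nat_lit 5) (nat_lit 214) (nat_lit 5) (nat_lit 458) (nat_lit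 364) (nat_lit 318)) (XT.lf (nat_lit 0) (nat_lit 5051171954) (nat_lit 456) (nat_lit 3453318502) (nat_lit 532) (nat_lit 1316968041) (nat_lit 207) (nat_lit 5) (nat_lit 213) (nat_lit 5) (nat_lit 214) (nat_lit 5) (nat_lit 459) (nat_lit 364) (nat_lit 317)))))) (XT.nd (nat_lit 55770) (nat_lit 0) (nat_lit 21128) (XT.nd (nat_lit 55458) (nat_lit 0) (nat_lit 30324) (XT.nd (nat_lit 156) (nat_lit 456) (nat_lit 0) (XT.nd (nat_lit 78) (nat_lit 456) (nat_lit 0) (XT.lf (nat_lit 0) (nat_lit 2393245343) (nat_lit 456) (nat_lit 7067062869) (nat_lit 76) (nat_lit 457466631) (nat_lit 201) (nat_lit 5) (nat_lit 207) (nat_lit 5) (nat_lit 202) (nat_lit 5) (nat_lit 460) (nat_lit 364) (nat_lit 316)) (XT.lf (nat_lit 0) (nat_lit 582062147) (nat_lit 456) (nat_lit 5592968004) (nat_lit 532) (nat_lit 3840513234) (nat_lit 195) (nat_lit 5) (nat_lit 201) (nat_lit 5) (nat_lit 202) (nat_lit 5) (nat_lit 461) (nat_lit 364) (nat_lit 315))) (XT.nd (nat_lit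 78) (nat_lit 456) (nat_lit 0) (XT.lf (nat_lit 0) (nat_lit 8413223497) (nat_lit 456) (nat_lit 1623191022) (nat_lit 532) (nat_lit 78773502) (nat_lit 195) (nat_lit 5) (nat_lit 201) (nat_lit 5) (nat_lit 202) (nat_lit 5) (nat_lit 462) (nat_lit 364) (nat_lit 314)) (XT.lf (nat_lit 0) (nat_lit 3722140432) (nat_lit 456) (nat_lit 4057660112) (nat_lit 76) (nat_lit 2436272413) (nat_lit 189) (nat_lit 5) (nat_lit 195) (nat_lit 5) (nat_lit 190) (nat_lit 5) (nat_lit 463) (nat_lit 364) (nat_lit 313)))) (XT.nd (nat_lit 156) (nat_lit 3040) (nat_lit 0) (XT.nd (nat_lit 78) (nat_lit 0) (nat_lit 0) (XT.lf (nat_lit 0) (nat_lit 407220190) (nat_lit 1444) (nat_lit 2619919279) (nat_lit 0) (nat_lit 407220190) (nat_lit 628) (nat_lit 5) (nat_lit 647) (nat_lit 4) (nat_lit 628) (nat_lit 4) (nat_lit 410) (nat_lit 365) (nat_lit 365)) (XT.lf (nat_lit 0) (nat_lit 4245491937) (nat_lit 1444) (nat_lit 370196840) (nat_lit 0) (nat_lit 2282055571) (nat_lit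 628) (nat_lit 5) (nat_lit 647) (nat_lit 4) (nat_lit 628) (nat_lit 4) (nat_lit 411) (nat_lit 365) (nat_lit 364))) (XT.nd (nat_lit 78) (nat_lit 1520) (nat_lit 0) (XT.lf (nat_lit 0) (nat_lit 766051213) (nat_lit 1520) (nat_lit 2340950528) (nat_lit 76) (nat_lit 3821062694) (nat_lit 608) (nat_lit 5) (nat_lit 628) (nat_lit 5) (nat_lit 609) (nat_lit 4) (nat_lit 412) (nat_lit 365) (nat_lit 363)) (XT.lf (nat_lit 0) (nat_lit 2641392690) (nat_lit 1520) (nat_lit 1525419393) (nat_lit 1596) (nat_lit 2792836116) (nat_lit 588) (nat_lit 5) (nat_lit 608) (nat_lit 5) (nat_lit 609) (nat_lit 4) (nat_lit 413) (nat_lit 365) (nat_lit 362))))) (XT.nd (nat_lit 312) (nat_lit 4028) (nat_lit 0) (XT.nd (nat_lit 156) (nat_lit 3496) (nat_lit 0) (XT.nd (nat_lit 78) (nat_lit 0) (nat_lit 0) (XT.lf (nat_lit 0) (nat_lit 586830757) (nat_lit 1672) (nat_lit 6290834868) (nat_lit 76) (nat_lit 115083448) (nat_lit 566) (nat_lit 5) (nat_lit 588) (nat_lit 5)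 (nat_lit 567) (nat_lit 4) (nat_lit 414) (nat_lit 365) (nat_lit 361)) (XT.lf (nat_lit 0) (nat_lit 3967379058) (nat_lit 1672) (nat_lit 1240472111) (nat_lit 76) (nat_lit 1818877901) (nat_lit 566) (nat_lit 5) (nat_lit 588) (nat_lit 5) (nat_lit 567) (nat_lit 4) (nat_lit 415) (nat_lit 365) (nat_lit 360))) (XT.nd (nat_lit 78) (nat_lit 1748) (nat_lit 0) (XT.lf (nat_lit 0) (nat_lit 307248793) (nat_lit 1748) (nat_lit 3167711117) (nat_lit 76) (nat_lit 3587227890) (nat_lit 543) (nat_lit 5) (nat_lit 566) (nat_lit 5) (nat_lit 544) (nat_lit 5) (nat_lit 416) (nat_lit 365) (nat_lit 359)) (XT.lf (nat_lit 0) (nat_lit 1990621252) (nat_lit 1748) (nat_lit 1664115980) (nat_lit 1824) (nat_lit 3444123580) (nat_lit 520) (nat_lit 5) (nat_lit 543) (nat_lit 5) (nat_lit 544) (nat_lit 5) (nat_lit 417) (nat_lit 365) (nat_lit 358)))) (XT.nd (nat_lit 156) (nat_lit 2128) (nat_lit 0) (XT.nd (nat_lit 78) (nat_lit 76) (nat_lit 0) (XT.lf (nat_lit 0)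 (nat_lit 92290663) (nat_lit 1824) (nat_lit 6934137766) (nat_lit 1900) (nat_lit 110693796) (nat_lit 496) (nat_lit 5) (nat_lit 520) (nat_lit 5) (nat_lit 521) (nat_lit 4) (nat_lit 418) (nat_lit 365) (nat_lit 357)) (XT.lf (nat_lit 0) (nat_lit 3226289212) (nat_lit 1900) (nat_lit 1809232304) (nat_lit 76) (nat_lit 2140599694) (nat_lit 495) (nat_lit 5) (nat_lit 520) (nat_lit 5) (nat_lit 496) (nat_lit 5) (nat_lit 419) (nat_lit 365) (nat_lit 356))) (XT.nd (nat_lit 78) (nat_lit 988) (nat_lit 0) (XT.lf (nat_lit 0) (nat_lit 3510465274) (nat_lit 1140) (nat_lit 3076641538) (nat_lit 1216) (nat_lit 629607186) (nat_lit 480) (nat_lit 5) (nat_lit 495) (nat_lit 5) (nat_lit 496) (nat_lit 5) (nat_lit 420) (nat_lit 365) (nat_lit 355)) (XT.lf (nat_lit 0) (nat_lit 1640403783) (nat_lit 912) (nat_lit 1039529066) (nat_lit 988) (nat_lit 4578646395) (nat_lit 467) (nat_lit 5) (nat_lit 479) (nat_lit 5) (nat_lit 480) (nat_lit 5) (nat_lit 421) (nat_lit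 365) (nat_lit 354))))))) (XT.nd (nat_lit 1248) (nat_lit 7296) (nat_lit 0) (XT.nd (nat_lit 624) (nat_lit 4636) (nat_lit 0) (XT.nd (nat_lit 312) (nat_lit 2508) (nat_lit 0) (XT.nd (nat_lit 156) (nat_lit 1824) (nat_lit 0) (XT.nd (nat_lit 78) (nat_lit 988) (nat_lit 0) (XT.lf (nat_lit 0) (nat_lit 6016020101) (nat_lit 988) (nat_lit 234771044) (nat_lit 76) (nat_lit 1051031678) (nat_lit 467) (nat_lit 5) (nat_lit 480) (nat_lit 5) (nat_lit 468) (nat_lit 5) (nat_lit 422) (nat_lit 365) (nat_lit 353)) (XT.lf (nat_lit 0) (nat_lit 2024797842) (nat_lit 988) (nat_lit 2107186369) (nat_lit 76) (nat_lit 3214096161) (nat_lit 454) (nat_lit 5) (nat_lit 467) (nat_lit 5) (nat_lit 455) (nat_lit 5) (nat_lit 423) (nat_lit 365) (nat_lit 352))) (XT.nd (nat_lit 78) (nat_lit 988) (nat_lit 0) (XT.lf (nat_lit 0) (nat_lit 3403935108) (nat_lit 836) (nat_lit 1942780790) (nat_lit 912) (nat_lit 2045090743) (nat_lit 443) (nat_lit 5) (nat_lit 454) (nat_lit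 5) (nat_lit 455) (nat_lit 5) (nat_lit 424) (nat_lit 365) (nat_lit 351)) (XT.lf (nat_lit 0) (nat_lit 1245048934) (nat_lit 988) (nat_lit 5880018475) (nat_lit 76) (nat_lit 313903065) (nat_lit 430) (nat_lit 5) (nat_lit 443) (nat_lit 5) (nat_lit 431) (nat_lit 5) (nat_lit 425) (nat_lit 365) (nat_lit 350)))) (XT.nd (nat_lit 156) (nat_lit 1596) (nat_lit 0) (XT.nd (nat_lit 78) (nat_lit 912) (nat_lit 0) (XT.lf (nat_lit 0) (nat_lit 4553160646) (nat_lit 988) (nat_lit 309669848) (nat_lit 76) (nat_lit 2624385669) (nat_lit 430) (nat_lit 5) (nat_lit 443) (nat_lit 5) (nat_lit 431) (nat_lit 5) (nat_lit 426) (nat_lit 365) (nat_lit 349)) (XT.lf (nat_lit 0) (nat_lit 361533308) (nat_lit 912) (nat_lit 2162677396) (nat_lit 76) (nat_lit 5012652216) (nat_lit 418) (nat_lit 5) (nat_lit 430) (nat_lit 5) (nat_lit 419) (nat_lit 5) (nat_lit 427) (nat_lit 365) (nat_lit 348))) (XT.nd (nat_lit 78) (nat_lit 760) (nat_lit 0) (XT.lf (nat_lit 0) (nat_lit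 3549222744) (nat_lit 836) (nat_lit 100948460) (nat_lit 912) (nat_lit 3937615039) (nat_lit 407) (nat_lit 5) (nat_lit 418) (nat_lit 5) (nat_lit 419) (nat_lit 5) (nat_lit 428) (nat_lit 365) (nat_lit 347)) (XT.lf (nat_lit 0) (nat_lit 1705103836) (nat_lit 760) (nat_lit 5282474956) (nat_lit 836) (nat_lit 652489303) (nat_lit 397) (nat_lit 5) (nat_lit 407) (nat_lit 5) (nat_lit 408) (nat_lit 5) (nat_lit 429) (nat_lit 365) (nat_lit 346))))) (XT.nd (nat_lit 312) (nat_lit 2204) (nat_lit 0) (XT.nd (nat_lit 156) (nat_lit 1596) (nat_lit 0) (XT.nd (nat_lit 78) (nat_lit 760) (nat_lit 0) (XT.lf (nat_lit 0) (nat_lit 2633150027) (nat_lit 836) (nat_lit 160168166) (nat_lit 76) (nat_lit 4900322996) (nat_lit 396) (nat_lit 5) (nat_lit 407) (nat_lit 5) (nat_lit 397) (nat_lit 5) (nat_lit 430) (nat_lit 365) (nat_lit 345)) (XT.lf (nat_lit 0) (nat_lit 5735003133) (nat_lit 760) (nat_lit 221389501) (nat_lit 836) (nat_lit 1792194306) (nat_lit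 386) (nat_lit 5) (nat_lit 396) (nat_lit 5) (nat_lit 397) (nat_lit 5) (nat_lit 431) (nat_lit 365) (nat_lit 344))) (XT.nd (nat_lit 78) (nat_lit 760) (nat_lit 0) (XT.lf (nat_lit 0) (nat_lit 1507259453) (nat_lit 836) (nat_lit 3900083602) (nat_lit 76) (nat_lit 2397368234) (nat_lit 375) (nat_lit 5) (nat_lit 386) (nat_lit 5) (nat_lit 376) (nat_lit 5) (nat_lit 432) (nat_lit 365) (nat_lit 343)) (XT.lf (nat_lit 0) (nat_lit 2053377527) (nat_lit 760) (nat_lit 2768056568) (nat_lit 836) (nat_lit 3040832516) (nat_lit 365) (nat_lit 5) (nat_lit 375) (nat_lit 5) (nat_lit 376) (nat_lit 5) (nat_lit 433) (nat_lit 365) (nat_lit 342)))) (XT.nd (nat_lit 156) (nat_lit 1444) (nat_lit 0) (XT.nd (nat_lit 78) (nat_lit 0) (nat_lit 0) (XT.lf (nat_lit 0) (nat_lit 191606230) (nat_lit 684) (nat_lit 57820557) (nat_lit 760) (nat_lit 7672065938) (nat_lit 355) (nat_lit 5) (nat_lit 364) (nat_lit 5) (nat_lit 365) (nat_lit 5) (nat_lit 434) (nat_lit 365)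 (nat_lit 341)) (XT.lf (nat_lit 0) (nat_lit 3566801888) (nat_lit 760) (nat_lit 1696049313) (nat_lit 76) (nat_lit 2718609613) (nat_lit 355) (nat_lit 5) (nat_lit 365) (nat_lit 5) (nat_lit 356) (nat_lit 5) (nat_lit 435) (nat_lit 365) (nat_lit 340))) (XT.nd (nat_lit 78) (nat_lit 760) (nat_lit 0) (XT.lf (nat_lit 0) (nat_lit 4449964612) (nat_lit 684) (nat_lit 2476087144) (nat_lit 760) (nat_lit 1117065963) (nat_lit 346) (nat_lit 5) (nat_lit 355) (nat_lit 5) (nat_lit 356) (nat_lit 5) (nat_lit 436) (nat_lit 365) (nat_lit 339)) (XT.lf (nat_lit 0) (nat_lit 2194381913) (nat_lit 760) (nat_lit 5520150640) (nat_lit 76) (nat_lit 391636178) (nat_lit 336) (nat_lit 5) (nat_lit 346) (nat_lit 5) (nat_lit 337) (nat_lit 5) (nat_lit 437) (nat_lit 365) (nat_lit 338)))))) (XT.nd (nat_lit 624) (nat_lit 3420) (nat_lit 0) (XT.nd (nat_lit 312) (nat_lit 1900) (nat_lit 0) (XT.nd (nat_lit 156) (nat_lit 1216) (nat_lit 0) (XT.nd (nat_lit 78) (nat_lit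 76) (nat_lit 0) (XT.lf (nat_lit 0) (nat_lit 685228776) (nat_lit 684) (nat_lit 4864061069) (nat_lit 760) (nat_lit 2621199469) (nat_lit 327) (nat_lit 5) (nat_lit 336) (nat_lit 5) (nat_lit 337) (nat_lit 5) (nat_lit 438) (nat_lit 365) (nat_lit 337)) (XT.lf (nat_lit 0) (nat_lit 710159418) (nat_lit 760) (nat_lit 1218371868) (nat_lit 76) (nat_lit 6307777513) (nat_lit 326) (nat_lit 5) (nat_lit 336) (nat_lit 5) (nat_lit 327) (nat_lit 5) (nat_lit 439) (nat_lit 365) (nat_lit 336))) (XT.nd (nat_lit 78) (nat_lit 608) (nat_lit 0) (XT.lf (nat_lit 0) (nat_lit 4062077287) (nat_lit 684) (nat_lit 3152695743) (nat_lit 76) (nat_lit 1088544527) (nat_lit 318) (nat_lit 5) (nat_lit 327) (nat_lit 5) (nat_lit 319) (nat_lit 5) (nat_lit 440) (nat_lit 365) (nat_lit 335)) (XT.lf (nat_lit 0) (nat_lit 3255167540) (nat_lit 608) (nat_lit 4216839362) (nat_lit 684) (nat_lit 899840122) (nat_lit 310) (nat_lit 5) (nat_lit 318) (nat_lit 5) (nat_lit 319)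 (nat_lit 5) (nat_lit 441) (nat_lit 365) (nat_lit 334)))) (XT.nd (nat_lit 156) (nat_lit 1216) (nat_lit 0) (XT.nd (nat_lit 78) (nat_lit 0) (nat_lit 0) (XT.lf (nat_lit 0) (nat_lit 1326628141) (nat_lit 608) (nat_lit 1127846434) (nat_lit 684) (nat_lit 5987367091) (nat_lit 301) (nat_lit 5) (nat_lit 309) (nat_lit 5) (nat_lit 310) (nat_lit 5) (nat_lit 442) (nat_lit 365) (nat_lit 333)) (XT.lf (nat_lit 0) (nat_lit 5861071872) (nat_lit 684) (nat_lit 631116679) (nat_lit 76) (nat_lit 2020983790) (nat_lit 301) (nat_lit 5) (nat_lit 310) (nat_lit 5) (nat_lit 302) (nat_lit 5) (nat_lit 443) (nat_lit 365) (nat_lit 332))) (XT.nd (nat_lit 78) (nat_lit 532) (nat_lit 0) (XT.lf (nat_lit 0) (nat_lit 736887154) (nat_lit 684) (nat_lit 2603202865) (nat_lit 76) (nat_lit 5245805228) (nat_lit 292) (nat_lit 5) (nat_lit 301) (nat_lit 5) (nat_lit 293) (nat_lit 5) (nat_lit 444) (nat_lit 365) (nat_lit 331)) (XT.lf (nat_lit 0) (nat_lit 4046519499)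 (nat_lit 532) (nat_lit 92938450) (nat_lit 608) (nat_lit 4520637754) (nat_lit 285) (nat_lit 5) (nat_lit 292) (nat_lit 5) (nat_lit 293) (nat_lit 5) (nat_lit 445) (nat_lit 365) (nat_lit 330))))) (XT.nd (nat_lit 312) (nat_lit 1596) (nat_lit 0) (XT.nd (nat_lit 156) (nat_lit 608) (nat_lit 0) (XT.nd (nat_lit 78) (nat_lit 608) (nat_lit 0) (XT.lf (nat_lit 0) (nat_lit 2068473320) (nat_lit 608) (nat_lit 5544694918) (nat_lit 684) (nat_lit 1122550169) (nat_lit 277) (nat_lit 5) (nat_lit 285) (nat_lit 5) (nat_lit 286) (nat_lit 5) (nat_lit 446) (nat_lit 365) (nat_lit 329)) (XT.lf (nat_lit 0) (nat_lit 52177723) (nat_lit 532) (nat_lit 2244084689) (nat_lit 608) (nat_lit 6516616868) (nat_lit 269) (nat_lit 5) (nat_lit 276) (nat_lit 5) (nat_lit 277) (nat_lit 5) (nat_lit 447) (nat_lit 365) (nat_lit 328))) (XT.nd (nat_lit 78) (nat_lit 608) (nat_lit 0) (XT.lf (nat_lit 0) (nat_lit 5772541605) (nat_lit 608) (nat_lit 1976682326) (nat_lit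 76) (nat_lit 1142128615) (nat_lit 269) (nat_lit 5) (nat_lit 277) (nat_lit 5) (nat_lit 270) (nat_lit 5) (nat_lit 448) (nat_lit 365) (nat_lit 327)) (XT.lf (nat_lit 0) (nat_lit 341974623) (nat_lit 608) (nat_lit 4046902504) (nat_lit 76) (nat_lit 4582481617) (nat_lit 261) (nat_lit 5) (nat_lit 269) (nat_lit 5) (nat_lit 262) (nat_lit 5) (nat_lit 449) (nat_lit 365) (nat_lit 326)))) (XT.nd (nat_lit 156) (nat_lit 532) (nat_lit 0) (XT.nd (nat_lit 78) (nat_lit 532) (nat_lit 0) (XT.lf (nat_lit 0) (nat_lit 2888643811) (nat_lit 532) (nat_lit 926636431) (nat_lit 608) (nat_lit 5237571216) (nat_lit 254) (nat_lit 5) (nat_lit 261) (nat_lit 5) (nat_lit 262) (nat_lit 5) (nat_lit 450) (nat_lit 365) (nat_lit 325)) (XT.lf (nat_lit 0) (nat_lit 809265597) (nat_lit 532) (nat_lit 6551580037) (nat_lit 608) (nat_lit 1775072517) (nat_lit 247) (nat_lit 5) (nat_lit 254) (nat_lit 5) (nat_lit 255) (nat_lit 5) (nat_lit 451) (nat_lit 365) (nat_lit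 324))) (XT.nd (nat_lit 78) (nat_lit 456) (nat_lit 0) (XT.lf (nat_lit 0) (nat_lit 1734883294) (nat_lit 608) (nat_lit 1298632338) (nat_lit 76) (nat_lit 6186877510) (nat_lit 246) (nat_lit 5) (nat_lit 254) (nat_lit 5) (nat_lit 247) (nat_lit 5) (nat_lit 452) (nat_lit 365) (nat_lit 323)) (XT.lf (nat_lit 0) (nat_lit 5287589548) (nat_lit 532) (nat_lit 3440555697) (nat_lit 76) (nat_lit 578251333) (nat_lit 240) (nat_lit 5) (nat_lit 247) (nat_lit 5) (nat_lit 241) (nat_lit 5) (nat_lit 453) (nat_lit 365) (nat_lit 322))))))))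
noncomputable def xc13 : XT := (XT.nd (nat_lit 57486) (nat_lit 0) (nat_lit 912) (XT.nd (nat_lit 56238) (nat_lit 0) (nat_lit 15732) (XT.nd (nat_lit 624) (nat_lit 912) (nat_lit 0) (XT.nd (nat_lit 312) (nat_lit 1368) (nat_lit 0) (XT.nd (nat_lit 156) (nat_lit 532) (nat_lit 0) (XT.nd (nat_lit 78) (nat_lit 532) (nat_lit 0) (XT.lf (nat_lit 0) (nat_lit 3760638056) (nat_lit 532) (nat_lit 5158716286) (nat_lit 608) (nat_lit 474605653) (nat_lit 233) (nat_lit 5) (nat_lit 240) (nat_lit 5) (nat_lit 241) (nat_lit 5) (nat_lit 454) (nat_lit 365) (nat_lit 321)) (XT.lf (nat_lit 0) (nat_lit 1604213148) (nat_lit 456) (nat_lit 1483627810) (nat_lit 532) (nat_lit 6395254936) (nat_lit 226) (nat_lit 5) (nat_lit 232) (nat_lit 5) (nat_lit 233) (nat_lit 5) (nat_lit 455) (nat_lit 365) (nat_lit 320))) (XT.nd (nat_lit 78) (nat_lit 532) (nat_lit 0) (XT.lf (nat_lit 0) (nat_lit 6723162141) (nat_lit 532) (nat_lit 594784669) (nat_lit 76) (nat_lit 2255845348)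 (nat_lit 226) (nat_lit 5) (nat_lit 233) (nat_lit 5) (nat_lit 227) (nat_lit 5) (nat_lit 456) (nat_lit 365) (nat_lit 319)) (XT.lf (nat_lit 0) (nat_lit 765319076) (nat_lit 532) (nat_lit 2821107650) (nat_lit 76) (nat_lit 6079567031) (nat_lit 219) (nat_lit 5) (nat_lit 226) (nat_lit 5) (nat_lit 220) (nat_lit 5) (nat_lit 457) (nat_lit 365) (nat_lit 318)))) (XT.nd (nat_lit 156) (nat_lit 456) (nat_lit 0) (XT.nd (nat_lit 78) (nat_lit 456) (nat_lit 0) (XT.lf (nat_lit 0) (nat_lit 4407604529) (nat_lit 532) (nat_lit 5102987067) (nat_lit 76) (nat_lit 249227192) (nat_lit 213) (nat_lit 5) (nat_lit 220) (nat_lit 5) (nat_lit 214) (nat_lit 5) (nat_lit 458) (nat_lit 365) (nat_lit 317)) (XT.lf (nat_lit 0) (nat_lit 2409716195) (nat_lit 456) (nat_lit 5728019548) (nat_lit 532) (nat_lit 1717484576) (nat_lit 207) (nat_lit 5) (nat_lit 213) (nat_lit 5) (nat_lit 214) (nat_lit 5) (nat_lit 459) (nat_lit 365) (nat_lit 316))) (XT.nd (nat_lit 78)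 (nat_lit 0) (nat_lit 0) (XT.lf (nat_lit 0) (nat_lit 112747588) (nat_lit 380) (nat_lit 1842988166) (nat_lit 456) (nat_lit 7996697837) (nat_lit 201) (nat_lit 5) (nat_lit 206) (nat_lit 5) (nat_lit 207) (nat_lit 5) (nat_lit 460) (nat_lit 365) (nat_lit 315)) (XT.lf (nat_lit 0) (nat_lit 5700475273) (nat_lit 456) (nat_lit 2218836228) (nat_lit 76) (nat_lit 2131631539) (nat_lit 201) (nat_lit 5) (nat_lit 207) (nat_lit 5) (nat_lit 202) (nat_lit 5) (nat_lit 461) (nat_lit 365) (nat_lit 314))))) (XT.nd (nat_lit 55302) (nat_lit 0) (nat_lit 30324) (XT.nd (nat_lit 55146) (nat_lit 0) (nat_lit 34808) (XT.nd (nat_lit 78) (nat_lit 456) (nat_lit 0) (XT.lf (nat_lit 0) (nat_lit 5550445185) (nat_lit 456) (nat_lit 3975723931) (nat_lit 532) (nat_lit 625132370) (nat_lit 195) (nat_lit 5) (nat_lit 201) (nat_lit 5) (nat_lit 202) (nat_lit 5) (nat_lit 462) (nat_lit 365) (nat_lit 313)) (XT.lf (nat_lit 0) (nat_lit 3127373732) (nat_lit 456) (nat_lit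 7045429987) (nat_lit 76) (nat_lit 80565117) (nat_lit 189) (nat_lit 5) (nat_lit 195) (nat_lit 5) (nat_lit 190) (nat_lit 5) (nat_lit 463) (nat_lit 365) (nat_lit 312))) (XT.nd (nat_lit 78) (nat_lit 1292) (nat_lit 0) (XT.lf (nat_lit 0) (nat_lit 1413983604) (nat_lit 1292) (nat_lit 578846109) (nat_lit 0) (nat_lit 1413983604) (nat_lit 664) (nat_lit 5) (nat_lit 681) (nat_lit 4) (nat_lit 664) (nat_lit 4) (nat_lit 408) (nat_lit 366) (nat_lit 366)) (XT.lf (nat_lit 0) (nat_lit 3624995021) (nat_lit 1292) (nat_lit 2629297864) (nat_lit 1292) (nat_lit 586538669) (nat_lit 647) (nat_lit 4) (nat_lit 664) (nat_lit 5) (nat_lit 664) (nat_lit 4) (nat_lit 409) (nat_lit 366) (nat_lit 365)))) (XT.nd (nat_lit 156) (nat_lit 3040) (nat_lit 0) (XT.nd (nat_lit 78) (nat_lit 0) (nat_lit 0) (XT.lf (nat_lit 0) (nat_lit 1588917477) (nat_lit 1368) (nat_lit 1200380426) (nat_lit 1444) (nat_lit 4079978366) (nat_lit 628) (nat_lit 5) (nat_lit 646) (nat_lit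 5) (nat_lit 647) (nat_lit 4) (nat_lit 410) (nat_lit 366) (nat_lit 364)) (XT.lf (nat_lit 0) (nat_lit 6177613407) (nat_lit 1444) (nat_lit 435008281) (nat_lit 0) (nat_lit 286534333) (nat_lit 628) (nat_lit 5) (nat_lit 647) (nat_lit 4) (nat_lit 628) (nat_lit 4) (nat_lit 411) (nat_lit 366) (nat_lit 363))) (XT.nd (nat_lit 78) (nat_lit 1520) (nat_lit 0) (XT.lf (nat_lit 0) (nat_lit 2636317761) (nat_lit 1520) (nat_lit 2452910934) (nat_lit 76) (nat_lit 1840699136) (nat_lit 608) (nat_lit 5) (nat_lit 628) (nat_lit 5) (nat_lit 609) (nat_lit 4) (nat_lit 412) (nat_lit 366) (nat_lit 362)) (XT.lf (nat_lit 0) (nat_lit 2495822287) (nat_lit 1520) (nat_lit 3506299019) (nat_lit 1596) (nat_lit 960089436) (nat_lit 588) (nat_lit 5) (nat_lit 608) (nat_lit 5) (nat_lit 609) (nat_lit 4) (nat_lit 413) (nat_lit 366) (nat_lit 361)))))) (XT.nd (nat_lit 624) (nat_lit 5396) (nat_lit 0) (XT.nd (nat_lit 312) (nat_lit 4028) (nat_lit 0) (XT.nd (nat_lit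 156) (nat_lit 3496) (nat_lit 0) (XT.nd (nat_lit 78) (nat_lit 0) (nat_lit 0) (XT.lf (nat_lit 0) (nat_lit 508161830) (nat_lit 1596) (nat_lit 1851586762) (nat_lit 1672) (nat_lit 4636040877) (nat_lit 566) (nat_lit 5) (nat_lit 587) (nat_lit 5) (nat_lit 588) (nat_lit 5) (nat_lit 414) (nat_lit 366) (nat_lit 360)) (XT.lf (nat_lit 0) (nat_lit 5572207011) (nat_lit 1596) (nat_lit 123564953) (nat_lit 1672) (nat_lit 1334888000) (nat_lit 566) (nat_lit 5) (nat_lit 587) (nat_lit 5) (nat_lit 588) (nat_lit 5) (nat_lit 415) (nat_lit 366) (nat_lit 359))) (XT.nd (nat_lit 78) (nat_lit 1748) (nat_lit 0) (XT.lf (nat_lit 0) (nat_lit 1973769258) (nat_lit 1748) (nat_lit 3435566904) (nat_lit 76) (nat_lit 1657265103) (nat_lit 543) (nat_lit 5) (nat_lit 566) (nat_lit 5) (nat_lit 544) (nat_lit 5) (nat_lit 416) (nat_lit 366) (nat_lit 358)) (XT.lf (nat_lit 0) (nat_lit 1686786569) (nat_lit 1748) (nat_lit 3600067972) (nat_lit 1824) (nat_lit 1817107800)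 (nat_lit 520) (nat_lit 5) (nat_lit 543) (nat_lit 5) (nat_lit 544) (nat_lit 5) (nat_lit 417) (nat_lit 366) (nat_lit 357)))) (XT.nd (nat_lit 156) (nat_lit 2128) (nat_lit 0) (XT.nd (nat_lit 78) (nat_lit 1824) (nat_lit 0) (XT.lf (nat_lit 0) (nat_lit 1462278812) (nat_lit 1824) (nat_lit 258568311) (nat_lit 76) (nat_lit 5421862857) (nat_lit 519) (nat_lit 5) (nat_lit 543) (nat_lit 5) (nat_lit 520) (nat_lit 5) (nat_lit 418) (nat_lit 366) (nat_lit 356)) (XT.lf (nat_lit 0) (nat_lit 4753134435) (nat_lit 1900) (nat_lit 2191317991) (nat_lit 76) (nat_lit 238135678) (nat_lit 495) (nat_lit 5) (nat_lit 520) (nat_lit 5) (nat_lit 496) (nat_lit 5) (nat_lit 419) (nat_lit 366) (nat_lit 355))) (XT.nd (nat_lit 78) (nat_lit 912) (nat_lit 0) (XT.lf (nat_lit 0) (nat_lit 844972840) (nat_lit 1216) (nat_lit 4138535329) (nat_lit 76) (nat_lit 2240239368) (nat_lit 479) (nat_lit 5) (nat_lit 495) (nat_lit 5) (nat_lit 480) (nat_lit 5) (nat_lit 420)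 (nat_lit 366) (nat_lit 354)) (XT.lf (nat_lit 0) (nat_lit 1165607012) (nat_lit 912) (nat_lit 2946599768) (nat_lit 988) (nat_lit 3154005219) (nat_lit 467) (nat_lit 5) (nat_lit 479) (nat_lit 5) (nat_lit 480) (nat_lit 5) (nat_lit 421) (nat_lit 366) (nat_lit 353))))) (XT.nd (nat_lit 312) (nat_lit 2584) (nat_lit 0) (XT.nd (nat_lit 156) (nat_lit 1824) (nat_lit 0) (XT.nd (nat_lit 78) (nat_lit 912) (nat_lit 0) (XT.lf (nat_lit 0) (nat_lit 99288188) (nat_lit 988) (nat_lit 743533913) (nat_lit 76) (nat_lit 6467370035) (nat_lit 466) (nat_lit 5) (nat_lit 479) (nat_lit 5) (nat_lit 467) (nat_lit 5) (nat_lit 422) (nat_lit 366) (nat_lit 352)) (XT.lf (nat_lit 0) (nat_lit 3353797536) (nat_lit 988) (nat_lit 2666775694) (nat_lit 76) (nat_lit 1334494044) (nat_lit 454) (nat_lit 5) (nat_lit 467) (nat_lit 5) (nat_lit 455) (nat_lit 5) (nat_lit 423) (nat_lit 366) (nat_lit 351))) (XT.nd (nat_lit 78) (nat_lit 988) (nat_lit 0) (XT.lf (nat_lit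 0) (nat_lit 2804349710) (nat_lit 836) (nat_lit 3837682552) (nat_lit 912) (nat_lit 759434948) (nat_lit 443) (nat_lit 5) (nat_lit 454) (nat_lit 5) (nat_lit 455) (nat_lit 5) (nat_lit 424) (nat_lit 366) (nat_lit 350)) (XT.lf (nat_lit 0) (nat_lit 902513741) (nat_lit 912) (nat_lit 1575380177) (nat_lit 988) (nat_lit 4971289163) (nat_lit 430) (nat_lit 5) (nat_lit 442) (nat_lit 5) (nat_lit 443) (nat_lit 5) (nat_lit 425) (nat_lit 366) (nat_lit 349)))) (XT.nd (nat_lit 156) (nat_lit 1672) (nat_lit 0) (XT.nd (nat_lit 78) (nat_lit 912) (nat_lit 0) (XT.lf (nat_lit 0) (nat_lit 5746522398) (nat_lit 988) (nat_lit 998760308) (nat_lit 76) (nat_lit 752935728) (nat_lit 430) (nat_lit 5) (nat_lit 443) (nat_lit 5) (nat_lit 431) (nat_lit 5) (nat_lit 426) (nat_lit 366) (nat_lit 348)) (XT.lf (nat_lit 0) (nat_lit 1494739178) (nat_lit 912) (nat_lit 2912504673) (nat_lit 76) (nat_lit 3141140741) (nat_lit 418) (nat_lit 5) (nat_lit 430) (nat_lit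 5) (nat_lit 419) (nat_lit 5) (nat_lit 427) (nat_lit 366) (nat_lit 347))) (XT.nd (nat_lit 78) (nat_lit 836) (nat_lit 0) (XT.lf (nat_lit 0) (nat_lit 2756807119) (nat_lit 836) (nat_lit 1992912087) (nat_lit 912) (nat_lit 2850261867) (nat_lit 407) (nat_lit 5) (nat_lit 418) (nat_lit 5) (nat_lit 419) (nat_lit 5) (nat_lit 428) (nat_lit 366) (nat_lit 346)) (XT.lf (nat_lit 0) (nat_lit 382959699) (nat_lit 836) (nat_lit 6786407153) (nat_lit 76) (nat_lit 483763622) (nat_lit 396) (nat_lit 5) (nat_lit 407) (nat_lit 5) (nat_lit 397) (nat_lit 5) (nat_lit 429) (nat_lit 366) (nat_lit 345))))))) (XT.nd (nat_lit 1248) (nat_lit 6384) (nat_lit 0) (XT.nd (nat_lit 624) (nat_lit 3876) (nat_lit 0) (XT.nd (nat_lit 312) (nat_lit 2204) (nat_lit 0) (XT.nd (nat_lit 156) (nat_lit 1596) (nat_lit 0) (XT.nd (nat_lit 78) (nat_lit 760) (nat_lit 0) (XT.lf (nat_lit 0) (nat_lit 3632013649) (nat_lit 836) (nat_lit 1048528241) (nat_lit 76) (nat_lit 3026637508)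 (nat_lit 396) (nat_lit 5) (nat_lit 407) (nat_lit 5) (nat_lit 397) (nat_lit 5) (nat_lit 430) (nat_lit 366) (nat_lit 344)) (XT.lf (nat_lit 0) (nat_lit 4802371437) (nat_lit 760) (nat_lit 2119351255) (nat_lit 836) (nat_lit 841073128) (nat_lit 386) (nat_lit 5) (nat_lit 396) (nat_lit 5) (nat_lit 397) (nat_lit 5) (nat_lit 431) (nat_lit 366) (nat_lit 343))) (XT.nd (nat_lit 78) (nat_lit 760) (nat_lit 0) (XT.lf (nat_lit 0) (nat_lit 2399742480) (nat_lit 836) (nat_lit 4900789805) (nat_lit 76) (nat_lit 519187658) (nat_lit 375) (nat_lit 5) (nat_lit 386) (nat_lit 5) (nat_lit 376) (nat_lit 5) (nat_lit 432) (nat_lit 366) (nat_lit 342)) (XT.lf (nat_lit 0) (nat_lit 1006452556) (nat_lit 760) (nat_lit 4673637105) (nat_lit 836) (nat_lit 2197862154) (nat_lit 365) (nat_lit 5) (nat_lit 375) (nat_lit 5) (nat_lit 376) (nat_lit 5) (nat_lit 433) (nat_lit 366) (nat_lit 341)))) (XT.nd (nat_lit 156) (nat_lit 1444) (nat_lit 0) (XT.nd (nat_lit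 78) (nat_lit 684) (nat_lit 0) (XT.lf (nat_lit 0) (nat_lit 1053210848) (nat_lit 836) (nat_lit 911621746) (nat_lit 76) (nat_lit 5972798483) (nat_lit 364) (nat_lit 5) (nat_lit 375) (nat_lit 5) (nat_lit 365) (nat_lit 5) (nat_lit 434) (nat_lit 366) (nat_lit 340)) (XT.lf (nat_lit 0) (nat_lit 4325559323) (nat_lit 760) (nat_lit 2848139739) (nat_lit 76) (nat_lit 824800637) (nat_lit 355) (nat_lit 5) (nat_lit 365) (nat_lit 5) (nat_lit 356) (nat_lit 5) (nat_lit 435) (nat_lit 366) (nat_lit 339))) (XT.nd (nat_lit 78) (nat_lit 760) (nat_lit 0) (XT.lf (nat_lit 0) (nat_lit 3249869548) (nat_lit 684) (nat_lit 4401061743) (nat_lit 760) (nat_lit 409902872) (nat_lit 346) (nat_lit 5) (nat_lit 355) (nat_lit 5) (nat_lit 356) (nat_lit 5) (nat_lit 436) (nat_lit 366) (nat_lit 338)) (XT.lf (nat_lit 0) (nat_lit 1317169843) (nat_lit 684) (nat_lit 1538315318) (nat_lit 760) (nat_lit 5269043891) (nat_lit 336) (nat_lit 5) (nat_lit 345) (nat_lit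 5) (nat_lit 346) (nat_lit 5) (nat_lit 437) (nat_lit 366) (nat_lit 337))))) (XT.nd (nat_lit 312) (nat_lit 1900) (nat_lit 0) (XT.nd (nat_lit 156) (nat_lit 1216) (nat_lit 0) (XT.nd (nat_lit 78) (nat_lit 760) (nat_lit 0) (XT.lf (nat_lit 0) (nat_lit 6170260442) (nat_lit 760) (nat_lit 633634263) (nat_lit 76) (nat_lit 1385757583) (nat_lit 336) (nat_lit 5) (nat_lit 346) (nat_lit 5) (nat_lit 337) (nat_lit 5) (nat_lit 438) (nat_lit 366) (nat_lit 336)) (XT.lf (nat_lit 0) (nat_lit 1274307031) (nat_lit 760) (nat_lit 2601561969) (nat_lit 76) (nat_lit 4380119969) (nat_lit 326) (nat_lit 5) (nat_lit 336) (nat_lit 5) (nat_lit 327) (nat_lit 5) (nat_lit 439) (nat_lit 366) (nat_lit 335))) (XT.nd (nat_lit 78) (nat_lit 608) (nat_lit 0) (XT.lf (nat_lit 0) (nat_lit 3723789890) (nat_lit 608) (nat_lit 860892616) (nat_lit 684) (nat_lit 3739146070) (nat_lit 318) (nat_lit 5) (nat_lit 326) (nat_lit 5) (nat_lit 327) (nat_lit 5) (nat_lit 440)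 (nat_lit 366) (nat_lit 334)) (XT.lf (nat_lit 0) (nat_lit 1761448202) (nat_lit 608) (nat_lit 6193044577) (nat_lit 684) (nat_lit 438667650) (nat_lit 310) (nat_lit 5) (nat_lit 318) (nat_lit 5) (nat_lit 319) (nat_lit 5) (nat_lit 441) (nat_lit 366) (nat_lit 333)))) (XT.nd (nat_lit 156) (nat_lit 1216) (nat_lit 0) (XT.nd (nat_lit 78) (nat_lit 608) (nat_lit 0) (XT.lf (nat_lit 0) (nat_lit 2876269167) (nat_lit 684) (nat_lit 241288755) (nat_lit 76) (nat_lit 5346203857) (nat_lit 309) (nat_lit 5) (nat_lit 318) (nat_lit 5) (nat_lit 310) (nat_lit 5) (nat_lit 442) (nat_lit 366) (nat_lit 332)) (XT.lf (nat_lit 0) (nat_lit 6243858015) (nat_lit 684) (nat_lit 2243978135) (nat_lit 76) (nat_lit 48036471) (nat_lit 301) (nat_lit 5) (nat_lit 310) (nat_lit 5) (nat_lit 302) (nat_lit 5) (nat_lit 443) (nat_lit 366) (nat_lit 331))) (XT.nd (nat_lit 78) (nat_lit 532) (nat_lit 0) (XT.lf (nat_lit 0) (nat_lit 1057186050) (nat_lit 684) (nat_lit 4295502493)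 (nat_lit 76) (nat_lit 3256561514) (nat_lit 292) (nat_lit 5) (nat_lit 301) (nat_lit 5) (nat_lit 293) (nat_lit 5) (nat_lit 444) (nat_lit 366) (nat_lit 330)) (XT.lf (nat_lit 0) (nat_lit 2299122100) (nat_lit 532) (nat_lit 2125384410) (nat_lit 608) (nat_lit 4259649010) (nat_lit 285) (nat_lit 5) (nat_lit 292) (nat_lit 5) (nat_lit 293) (nat_lit 5) (nat_lit 445) (nat_lit 366) (nat_lit 329)))))) (XT.nd (nat_lit 624) (nat_lit 2964) (nat_lit 0) (XT.nd (nat_lit 312) (nat_lit 1596) (nat_lit 0) (XT.nd (nat_lit 156) (nat_lit 1140) (nat_lit 0) (XT.nd (nat_lit 78) (nat_lit 76) (nat_lit 0) (XT.lf (nat_lit 0) (nat_lit 254027858) (nat_lit 608) (nat_lit 7595514414) (nat_lit 684) (nat_lit 911209443) (nat_lit 277) (nat_lit 5) (nat_lit 285) (nat_lit 5) (nat_lit 286) (nat_lit 5) (nat_lit 446) (nat_lit 366) (nat_lit 328)) (XT.lf (nat_lit 0) (nat_lit 2480895161) (nat_lit 684) (nat_lit 1821845507) (nat_lit 76) (nat_lit 4535623201) (nat_lit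 276) (nat_lit 5) (nat_lit 285) (nat_lit 5) (nat_lit 277) (nat_lit 5) (nat_lit 447) (nat_lit 366) (nat_lit 327))) (XT.nd (nat_lit 78) (nat_lit 608) (nat_lit 0) (XT.lf (nat_lit 0) (nat_lit 4991825663) (nat_lit 532) (nat_lit 922504573) (nat_lit 608) (nat_lit 3003363779) (nat_lit 269) (nat_lit 5) (nat_lit 276) (nat_lit 5) (nat_lit 277) (nat_lit 5) (nat_lit 448) (nat_lit 366) (nat_lit 326)) (XT.lf (nat_lit 0) (nat_lit 413702106) (nat_lit 608) (nat_lit 6076043125) (nat_lit 76) (nat_lit 2508784104) (nat_lit 261) (nat_lit 5) (nat_lit 269) (nat_lit 5) (nat_lit 262) (nat_lit 5) (nat_lit 449) (nat_lit 366) (nat_lit 325)))) (XT.nd (nat_lit 156) (nat_lit 1064) (nat_lit 0) (XT.nd (nat_lit 78) (nat_lit 0) (nat_lit 0) (XT.lf (nat_lit 0) (nat_lit 799974751) (nat_lit 532) (nat_lit 3050621418) (nat_lit 608) (nat_lit 5230154109) (nat_lit 254) (nat_lit 5) (nat_lit 261) (nat_lit 5) (nat_lit 262) (nat_lit 5) (nat_lit 450) (nat_lit 366)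 (nat_lit 324)) (XT.lf (nat_lit 0) (nat_lit 7354446730) (nat_lit 608) (nat_lit 1336441103) (nat_lit 76) (nat_lit 473763435) (nat_lit 254) (nat_lit 5) (nat_lit 262) (nat_lit 5) (nat_lit 255) (nat_lit 5) (nat_lit 451) (nat_lit 366) (nat_lit 323))) (XT.nd (nat_lit 78) (nat_lit 456) (nat_lit 0) (XT.lf (nat_lit 0) (nat_lit 1668778719) (nat_lit 608) (nat_lit 3523125261) (nat_lit 76) (nat_lit 4057855508) (nat_lit 246) (nat_lit 5) (nat_lit 254) (nat_lit 5) (nat_lit 247) (nat_lit 5) (nat_lit 452) (nat_lit 366) (nat_lit 322)) (XT.lf (nat_lit 0) (nat_lit 3583476181) (nat_lit 456) (nat_lit 1597220773) (nat_lit 532) (nat_lit 4155881731) (nat_lit 240) (nat_lit 5) (nat_lit 246) (nat_lit 5) (nat_lit 247) (nat_lit 5) (nat_lit 453) (nat_lit 366) (nat_lit 321))))) (XT.nd (nat_lit 312) (nat_lit 1368) (nat_lit 0) (XT.nd (nat_lit 156) (nat_lit 988) (nat_lit 0) (XT.nd (nat_lit 78) (nat_lit 76) (nat_lit 0) (XT.lf (nat_lit 0) (nat_lit 1395508153)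 (nat_lit 532) (nat_lit 7369254048) (nat_lit 608) (nat_lit 660333892) (nat_lit 233) (nat_lit 5) (nat_lit 240) (nat_lit 5) (nat_lit 241) (nat_lit 5) (nat_lit 454) (nat_lit 366) (nat_lit 320)) (XT.lf (nat_lit 0) (nat_lit 2872240471) (nat_lit 608) (nat_lit 843901580) (nat_lit 76) (nat_lit 5798760221) (nat_lit 232) (nat_lit 5) (nat_lit 240) (nat_lit 5) (nat_lit 233) (nat_lit 5) (nat_lit 455) (nat_lit 366) (nat_lit 319))) (XT.nd (nat_lit 78) (nat_lit 532) (nat_lit 0) (XT.lf (nat_lit 0) (nat_lit 6465742413) (nat_lit 532) (nat_lit 3103672115) (nat_lit 76) (nat_lit 37020392) (nat_lit 226) (nat_lit 5) (nat_lit 233) (nat_lit 5) (nat_lit 227) (nat_lit 5) (nat_lit 456) (nat_lit 366) (nat_lit 318)) (XT.lf (nat_lit 0) (nat_lit 440786318) (nat_lit 532) (nat_lit 5426565386) (nat_lit 76) (nat_lit 3832087971) (nat_lit 219) (nat_lit 5) (nat_lit 226) (nat_lit 5) (nat_lit 220) (nat_lit 5) (nat_lit 457) (nat_lit 366) (nat_lit 317))))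 (XT.nd (nat_lit 156) (nat_lit 912) (nat_lit 0) (XT.nd (nat_lit 78) (nat_lit 0) (nat_lit 0) (XT.lf (nat_lit 0) (nat_lit 1986385222) (nat_lit 456) (nat_lit 2056463078) (nat_lit 532) (nat_lit 5751220875) (nat_lit 213) (nat_lit 5) (nat_lit 219) (nat_lit 5) (nat_lit 220) (nat_lit 5) (nat_lit 458) (nat_lit 366) (nat_lit 316)) (XT.lf (nat_lit 0) (nat_lit 7722892483) (nat_lit 532) (nat_lit 344993532) (nat_lit 76) (nat_lit 1822586433) (nat_lit 213) (nat_lit 5) (nat_lit 220) (nat_lit 5) (nat_lit 214) (nat_lit 5) (nat_lit 459) (nat_lit 366) (nat_lit 315))) (XT.nd (nat_lit 78) (nat_lit 380) (nat_lit 0) (XT.lf (nat_lit 0) (nat_lit 1487507438) (nat_lit 532) (nat_lit 2712217083) (nat_lit 76) (nat_lit 5788500365) (nat_lit 206) (nat_lit 5) (nat_lit 213) (nat_lit 5) (nat_lit 207) (nat_lit 5) (nat_lit 460) (nat_lit 366) (nat_lit 314)) (XT.lf (nat_lit 0) (nat_lit 4953780705) (nat_lit 380) (nat_lit 225786404) (nat_lit 456) (nat_lit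 4908220821) (nat_lit 201) (nat_lit 5) (nat_lit 206) (nat_lit 5) (nat_lit 207) (nat_lit 5) (nat_lit 461) (nat_lit 366) (nat_lit 313))))))))
noncomputable def xc14 : XT := (XT.nd (nat_lit 57408) (nat_lit 0) (nat_lit 456) (XT.nd (nat_lit 56160) (nat_lit 0) (nat_lit 11400) (XT.nd (nat_lit 55536) (nat_lit 0) (nat_lit 21584) (XT.nd (nat_lit 55224) (nat_lit 0) (nat_lit 31388) (XT.nd (nat_lit 55068) (nat_lit 0) (nat_lit 35644) (XT.nd (nat_lit 54990) (nat_lit 0) (nat_lit 36936) (XT.lf (nat_lit 0) (nat_lit 2566260917) (nat_lit 456) (nat_lit 6397685637) (nat_lit 532) (nat_lit 1225026111) (nat_lit 195) (nat_lit 5) (nat_lit 201) (nat_lit 5) (nat_lit 202) (nat_lit 5) (nat_lit 462) (nat_lit 366) (nat_lit 312)) (XT.lf (nat_lit 0) (nat_lit 1522558617) (nat_lit 1140) (nat_lit 929329227) (nat_lit 1140) (nat_lit 929329227) (nat_lit 681) (nat_lit 4) (nat_lit 696) (nat_lit 5) (nat_lit 696) (nat_lit 4) (nat_lit 406) (nat_lit 367) (nat_lit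 367))) (XT.nd (nat_lit 78) (nat_lit 0) (nat_lit 0) (XT.lf (nat_lit 0) (nat_lit 922037798) (nat_lit 1216) (nat_lit 586538669) (nat_lit 1292) (nat_lit 5279255926) (nat_lit 664) (nat_lit 5) (nat_lit 680) (nat_lit 5) (nat_lit 681) (nat_lit 4) (nat_lit 407) (nat_lit 367) (nat_lit 366)) (XT.lf (nat_lit 0) (nat_lit 4875858924) (nat_lit 1292) (nat_lit 1188996814) (nat_lit 0) (nat_lit 749485350) (nat_lit 664) (nat_lit 5) (nat_lit 681) (nat_lit 4) (nat_lit 664) (nat_lit 4) (nat_lit 408) (nat_lit 367) (nat_lit 365)))) (XT.nd (nat_lit 156) (nat_lit 1520) (nat_lit 0) (XT.nd (nat_lit 78) (nat_lit 1368) (nat_lit 0) (XT.lf (nat_lit 0) (nat_lit 1405817335) (nat_lit 1368) (nat_lit 3289327650) (nat_lit 76) (nat_lit 2146924648) (nat_lit 646) (nat_lit 5) (nat_lit 664) (nat_lit 5) (nat_lit 647) (nat_lit 4) (nat_lit 409) (nat_lit 367) (nat_lit 364)) (XT.lf (nat_lit 0) (nat_lit 1479228737) (nat_lit 1368) (nat_lit 3259258277) (nat_lit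 1444) (nat_lit 2132660657) (nat_lit 628) (nat_lit 5) (nat_lit 646) (nat_lit 5) (nat_lit 647) (nat_lit 4) (nat_lit 410) (nat_lit 367) (nat_lit 363))) (XT.nd (nat_lit 78) (nat_lit 1444) (nat_lit 0) (XT.lf (nat_lit 0) (nat_lit 1173294053) (nat_lit 1444) (nat_lit 583835186) (nat_lit 76) (nat_lit 5144467108) (nat_lit 627) (nat_lit 5) (nat_lit 646) (nat_lit 5) (nat_lit 628) (nat_lit 5) (nat_lit 411) (nat_lit 367) (nat_lit 362)) (XT.lf (nat_lit 0) (nat_lit 4300893938) (nat_lit 1444) (nat_lit 175530749) (nat_lit 1520) (nat_lit 2456755108) (nat_lit 608) (nat_lit 5) (nat_lit 627) (nat_lit 5) (nat_lit 628) (nat_lit 5) (nat_lit 412) (nat_lit 367) (nat_lit 361))))) (XT.nd (nat_lit 312) (nat_lit 4864) (nat_lit 0) (XT.nd (nat_lit 156) (nat_lit 1748) (nat_lit 0) (XT.nd (nat_lit 78) (nat_lit 1596) (nat_lit 0) (XT.lf (nat_lit 0) (nat_lit 829167081) (nat_lit 1596) (nat_lit 4687908876) (nat_lit 76) (nat_lit 1448994887) (nat_lit 587)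 (nat_lit 5) (nat_lit 608) (nat_lit 5) (nat_lit 588) (nat_lit 5) (nat_lit 413) (nat_lit 367) (nat_lit 360)) (XT.lf (nat_lit 0) (nat_lit 245650213) (nat_lit 1596) (nat_lit 3855949016) (nat_lit 1672) (nat_lit 2898621955) (nat_lit 566) (nat_lit 5) (nat_lit 587) (nat_lit 5) (nat_lit 588) (nat_lit 5) (nat_lit 414) (nat_lit 367) (nat_lit 359))) (XT.nd (nat_lit 78) (nat_lit 1672) (nat_lit 0) (XT.lf (nat_lit 0) (nat_lit 364372842) (nat_lit 1672) (nat_lit 1759555479) (nat_lit 76) (nat_lit 4911768663) (nat_lit 565) (nat_lit 5) (nat_lit 587) (nat_lit 5) (nat_lit 566) (nat_lit 5) (nat_lit 415) (nat_lit 367) (nat_lit 358)) (XT.lf (nat_lit 0) (nat_lit 3296931146) (nat_lit 1672) (nat_lit 313213044) (nat_lit 1748) (nat_lit 3462228329) (nat_lit 543) (nat_lit 5) (nat_lit 565) (nat_lit 5) (nat_lit 566) (nat_lit 5) (nat_lit 416) (nat_lit 367) (nat_lit 357)))) (XT.nd (nat_lit 156) (nat_lit 3040) (nat_lit 0) (XT.nd (nat_lit 78) (nat_lit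 76) (nat_lit 0) (XT.lf (nat_lit 0) (nat_lit 1312672397) (nat_lit 1748) (nat_lit 5574299922) (nat_lit 1824) (nat_lit 223486418) (nat_lit 520) (nat_lit 5) (nat_lit 543) (nat_lit 5) (nat_lit 544) (nat_lit 5) (nat_lit 417) (nat_lit 367) (nat_lit 356)) (XT.lf (nat_lit 0) (nat_lit 3003418332) (nat_lit 1824) (nat_lit 681105779) (nat_lit 76) (nat_lit 3465106953) (nat_lit 519) (nat_lit 5) (nat_lit 543) (nat_lit 5) (nat_lit 520) (nat_lit 5) (nat_lit 418) (nat_lit 367) (nat_lit 355))) (XT.nd (nat_lit 78) (nat_lit 1216) (nat_lit 0) (XT.lf (nat_lit 0) (nat_lit 4533343071) (nat_lit 1824) (nat_lit 1725418669) (nat_lit 1900) (nat_lit 931457693) (nat_lit 495) (nat_lit 5) (nat_lit 519) (nat_lit 5) (nat_lit 520) (nat_lit 5) (nat_lit 419) (nat_lit 367) (nat_lit 354)) (XT.lf (nat_lit 0) (nat_lit 2278070610) (nat_lit 1216) (nat_lit 4648671744) (nat_lit 76) (nat_lit 305347026) (nat_lit 479) (nat_lit 5) (nat_lit 495) (nat_lit 5) (nat_lit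 480) (nat_lit 5) (nat_lit 420) (nat_lit 367) (nat_lit 353)))))) (XT.nd (nat_lit 624) (nat_lit 4712) (nat_lit 0) (XT.nd (nat_lit 312) (nat_lit 2660) (nat_lit 0) (XT.nd (nat_lit 156) (nat_lit 1824) (nat_lit 0) (XT.nd (nat_lit 78) (nat_lit 76) (nat_lit 0) (XT.lf (nat_lit 0) (nat_lit 616707669) (nat_lit 912) (nat_lit 4894674250) (nat_lit 988) (nat_lit 1763850377) (nat_lit 467) (nat_lit 5) (nat_lit 479) (nat_lit 5) (nat_lit 480) (nat_lit 5) (nat_lit 421) (nat_lit 367) (nat_lit 352)) (XT.lf (nat_lit 0) (nat_lit 1441045314) (nat_lit 988) (nat_lit 1342236601) (nat_lit 76) (nat_lit 4536353314) (nat_lit 466) (nat_lit 5) (nat_lit 479) (nat_lit 5) (nat_lit 467) (nat_lit 5) (nat_lit 422) (nat_lit 367) (nat_lit 351))) (XT.nd (nat_lit 78) (nat_lit 912) (nat_lit 0) (XT.lf (nat_lit 0) (nat_lit 4059039295) (nat_lit 912) (nat_lit 594018030) (nat_lit 988) (nat_lit 2712302987) (nat_lit 454) (nat_lit 5) (nat_lit 466) (nat_lit 5) (nat_lit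 467) (nat_lit 5) (nat_lit 423) (nat_lit 367) (nat_lit 350)) (XT.lf (nat_lit 0) (nat_lit 484886396) (nat_lit 912) (nat_lit 5287407167) (nat_lit 76) (nat_lit 1640151934) (nat_lit 442) (nat_lit 5) (nat_lit 454) (nat_lit 5) (nat_lit 443) (nat_lit 5) (nat_lit 424) (nat_lit 367) (nat_lit 349)))) (XT.nd (nat_lit 156) (nat_lit 1748) (nat_lit 0) (XT.nd (nat_lit 78) (nat_lit 0) (nat_lit 0) (XT.lf (nat_lit 0) (nat_lit 165952316) (nat_lit 912) (nat_lit 3512492789) (nat_lit 988) (nat_lit 3782293848) (nat_lit 430) (nat_lit 5) (nat_lit 442) (nat_lit 5) (nat_lit 443) (nat_lit 5) (nat_lit 425) (nat_lit 367) (nat_lit 348)) (XT.lf (nat_lit 0) (nat_lit 5736476856) (nat_lit 912) (nat_lit 1176980249) (nat_lit 988) (nat_lit 596989530) (nat_lit 430) (nat_lit 5) (nat_lit 442) (nat_lit 5) (nat_lit 443) (nat_lit 5) (nat_lit 426) (nat_lit 367) (nat_lit 347))) (XT.nd (nat_lit 78) (nat_lit 836) (nat_lit 0) (XT.lf (nat_lit 0) (nat_lit 2593012947)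 (nat_lit 912) (nat_lit 3742363757) (nat_lit 76) (nat_lit 1225911919) (nat_lit 418) (nat_lit 5) (nat_lit 430) (nat_lit 5) (nat_lit 419) (nat_lit 5) (nat_lit 427) (nat_lit 367) (nat_lit 346)) (XT.lf (nat_lit 0) (nat_lit 1883935784) (nat_lit 836) (nat_lit 3930436029) (nat_lit 912) (nat_lit 1799185714) (nat_lit 407) (nat_lit 5) (nat_lit 418) (nat_lit 5) (nat_lit 419) (nat_lit 5) (nat_lit 428) (nat_lit 367) (nat_lit 345))))) (XT.nd (nat_lit 312) (nat_lit 2280) (nat_lit 0) (XT.nd (nat_lit 156) (nat_lit 1596) (nat_lit 0) (XT.nd (nat_lit 78) (nat_lit 760) (nat_lit 0) (XT.lf (nat_lit 0) (nat_lit 1383627505) (nat_lit 912) (nat_lit 66438320) (nat_lit 76) (nat_lit 6217237083) (nat_lit 406) (nat_lit 5) (nat_lit 418) (nat_lit 5) (nat_lit 407) (nat_lit 5) (nat_lit 429) (nat_lit 367) (nat_lit 344)) (XT.lf (nat_lit 0) (nat_lit 4595348377) (nat_lit 836) (nat_lit 2019376294) (nat_lit 76) (nat_lit 1107373823) (nat_lit 396) (nat_lit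 5) (nat_lit 407) (nat_lit 5) (nat_lit 397) (nat_lit 5) (nat_lit 430) (nat_lit 367) (nat_lit 343))) (XT.nd (nat_lit 78) (nat_lit 760) (nat_lit 0) (XT.lf (nat_lit 0) (nat_lit 72179288) (nat_lit 836) (nat_lit 3992068320) (nat_lit 76) (nat_lit 3714128476) (nat_lit 385) (nat_lit 5) (nat_lit 396) (nat_lit 5) (nat_lit 386) (nat_lit 5) (nat_lit 431) (nat_lit 367) (nat_lit 342)) (XT.lf (nat_lit 0) (nat_lit 1839546288) (nat_lit 760) (nat_lit 1425181238) (nat_lit 836) (nat_lit 4571208196) (nat_lit 375) (nat_lit 5) (nat_lit 385) (nat_lit 5) (nat_lit 386) (nat_lit 5) (nat_lit 432) (nat_lit 367) (nat_lit 341)))) (XT.nd (nat_lit 156) (nat_lit 1444) (nat_lit 0) (XT.nd (nat_lit 78) (nat_lit 836) (nat_lit 0) (XT.lf (nat_lit 0) (nat_lit 6502786802) (nat_lit 836) (nat_lit 124944793) (nat_lit 76) (nat_lit 1267281757) (nat_lit 375) (nat_lit 5) (nat_lit 386) (nat_lit 5) (nat_lit 376) (nat_lit 5) (nat_lit 433) (nat_lit 367) (nat_lit 340))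 (XT.lf (nat_lit 0) (nat_lit 1821093573) (nat_lit 836) (nat_lit 2098974692) (nat_lit 76) (nat_lit 4035063471) (nat_lit 364) (nat_lit 5) (nat_lit 375) (nat_lit 5) (nat_lit 365) (nat_lit 5) (nat_lit 434) (nat_lit 367) (nat_lit 339))) (XT.nd (nat_lit 78) (nat_lit 760) (nat_lit 0) (XT.lf (nat_lit 0) (nat_lit 3920981146) (nat_lit 684) (nat_lit 1133174181) (nat_lit 760) (nat_lit 2962630765) (nat_lit 355) (nat_lit 5) (nat_lit 364) (nat_lit 5) (nat_lit 365) (nat_lit 5) (nat_lit 435) (nat_lit 367) (nat_lit 338)) (XT.lf (nat_lit 0) (nat_lit 254893398) (nat_lit 760) (nat_lit 6120597773) (nat_lit 76) (nat_lit 1704421847) (nat_lit 345) (nat_lit 5) (nat_lit 355) (nat_lit 5) (nat_lit 346) (nat_lit 5) (nat_lit 436) (nat_lit 367) (nat_lit 337))))))) (XT.nd (nat_lit 1248) (nat_lit 3420) (nat_lit 0) (XT.nd (nat_lit 624) (nat_lit 3496) (nat_lit 0) (XT.nd (nat_lit 312) (nat_lit 1976) (nat_lit 0) (XT.nd (nat_lit 156) (nat_lit 1368) (nat_lit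 0) (XT.nd (nat_lit 78) (nat_lit 684) (nat_lit 0) (XT.lf (nat_lit 0) (nat_lit 3480908983) (nat_lit 760) (nat_lit 44162155) (nat_lit 76) (nat_lit 4619163471) (nat_lit 345) (nat_lit 5) (nat_lit 355) (nat_lit 5) (nat_lit 346) (nat_lit 5) (nat_lit 437) (nat_lit 367) (nat_lit 336)) (XT.lf (nat_lit 0) (nat_lit 6171844699) (nat_lit 684) (nat_lit 589281684) (nat_lit 760) (nat_lit 1448922619) (nat_lit 336) (nat_lit 5) (nat_lit 345) (nat_lit 5) (nat_lit 346) (nat_lit 5) (nat_lit 438) (nat_lit 367) (nat_lit 335))) (XT.nd (nat_lit 78) (nat_lit 608) (nat_lit 0) (XT.lf (nat_lit 0) (nat_lit 1799097105) (nat_lit 760) (nat_lit 4077333765) (nat_lit 76) (nat_lit 2400644684) (nat_lit 326) (nat_lit 5) (nat_lit 336) (nat_lit 5) (nat_lit 327) (nat_lit 5) (nat_lit 439) (nat_lit 367) (nat_lit 334)) (XT.lf (nat_lit 0) (nat_lit 2196479725) (nat_lit 608) (nat_lit 2878498554) (nat_lit 684) (nat_lit 3270626768) (nat_lit 318) (nat_lit 5) (nat_lit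 326) (nat_lit 5) (nat_lit 327) (nat_lit 5) (nat_lit 440) (nat_lit 367) (nat_lit 333)))) (XT.nd (nat_lit 156) (nat_lit 1292) (nat_lit 0) (XT.nd (nat_lit 78) (nat_lit 76) (nat_lit 0) (XT.lf (nat_lit 0) (nat_lit 172886259) (nat_lit 608) (nat_lit 8224143915) (nat_lit 684) (nat_lit 18861894) (nat_lit 310) (nat_lit 5) (nat_lit 318) (nat_lit 5) (nat_lit 319) (nat_lit 5) (nat_lit 441) (nat_lit 367) (nat_lit 332)) (XT.lf (nat_lit 0) (nat_lit 3266337555) (nat_lit 684) (nat_lit 1887161866) (nat_lit 76) (nat_lit 3333424114) (nat_lit 309) (nat_lit 5) (nat_lit 318) (nat_lit 5) (nat_lit 310) (nat_lit 5) (nat_lit 442) (nat_lit 367) (nat_lit 331))) (XT.nd (nat_lit 78) (nat_lit 684) (nat_lit 0) (XT.lf (nat_lit 0) (nat_lit 4592826631) (nat_lit 608) (nat_lit 2005993762) (nat_lit 684) (nat_lit 1960916104) (nat_lit 301) (nat_lit 5) (nat_lit 309) (nat_lit 5) (nat_lit 310) (nat_lit 5) (nat_lit 443) (nat_lit 367) (nat_lit 330)) (XT.lf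 (nat_lit 0) (nat_lit 1335602677) (nat_lit 684) (nat_lit 6086652400) (nat_lit 76) (nat_lit 1211782650) (nat_lit 292) (nat_lit 5) (nat_lit 301) (nat_lit 5) (nat_lit 293) (nat_lit 5) (nat_lit 444) (nat_lit 367) (nat_lit 329))))) (XT.nd (nat_lit 312) (nat_lit 1748) (nat_lit 0) (XT.nd (nat_lit 156) (nat_lit 1216) (nat_lit 0) (XT.nd (nat_lit 78) (nat_lit 0) (nat_lit 0) (XT.lf (nat_lit 0) (nat_lit 452200127) (nat_lit 532) (nat_lit 4215295223) (nat_lit 608) (nat_lit 4042156397) (nat_lit 285) (nat_lit 5) (nat_lit 292) (nat_lit 5) (nat_lit 293) (nat_lit 5) (nat_lit 445) (nat_lit 367) (nat_lit 328)) (XT.lf (nat_lit 0) (nat_lit 7141025461) (nat_lit 532) (nat_lit 919020847) (nat_lit 608) (nat_lit 726851328) (nat_lit 285) (nat_lit 5) (nat_lit 292) (nat_lit 5) (nat_lit 293) (nat_lit 5) (nat_lit 446) (nat_lit 367) (nat_lit 327))) (XT.nd (nat_lit 78) (nat_lit 532) (nat_lit 0) (XT.lf (nat_lit 0) (nat_lit 2622833937) (nat_lit 684)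 (nat_lit 3796990134) (nat_lit 76) (nat_lit 2445461811) (nat_lit 276) (nat_lit 5) (nat_lit 285) (nat_lit 5) (nat_lit 277) (nat_lit 5) (nat_lit 447) (nat_lit 367) (nat_lit 326)) (XT.lf (nat_lit 0) (nat_lit 2958790991) (nat_lit 532) (nat_lit 3061597094) (nat_lit 608) (nat_lit 2924945560) (nat_lit 269) (nat_lit 5) (nat_lit 276) (nat_lit 5) (nat_lit 277) (nat_lit 5) (nat_lit 448) (nat_lit 367) (nat_lit 325)))) (XT.nd (nat_lit 156) (nat_lit 1140) (nat_lit 0) (XT.nd (nat_lit 78) (nat_lit 0) (nat_lit 0) (XT.lf (nat_lit 0) (nat_lit 440706069) (nat_lit 608) (nat_lit 8210679599) (nat_lit 76) (nat_lit 375780831) (nat_lit 261) (nat_lit 5) (nat_lit 269) (nat_lit 5) (nat_lit 262) (nat_lit 5) (nat_lit 449) (nat_lit 367) (nat_lit 324)) (XT.lf (nat_lit 0) (nat_lit 3850003685) (nat_lit 608) (nat_lit 1376658602) (nat_lit 76) (nat_lit 3883277084) (nat_lit 261) (nat_lit 5) (nat_lit 269) (nat_lit 5) (nat_lit 262) (nat_lit 5) (nat_lit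 450) (nat_lit 367) (nat_lit 323))) (XT.nd (nat_lit 78) (nat_lit 608) (nat_lit 0) (XT.lf (nat_lit 0) (nat_lit 5605163149) (nat_lit 532) (nat_lit 1714350845) (nat_lit 608) (nat_lit 1875013172) (nat_lit 254) (nat_lit 5) (nat_lit 261) (nat_lit 5) (nat_lit 262) (nat_lit 5) (nat_lit 451) (nat_lit 367) (nat_lit 322)) (XT.lf (nat_lit 0) (nat_lit 1556629426) (nat_lit 608) (nat_lit 5856278662) (nat_lit 76) (nat_lit 1867699526) (nat_lit 246) (nat_lit 5) (nat_lit 254) (nat_lit 5) (nat_lit 247) (nat_lit 5) (nat_lit 452) (nat_lit 367) (nat_lit 321)))))) (XT.nd (nat_lit 624) (nat_lit 380) (nat_lit 0) (XT.nd (nat_lit 312) (nat_lit 1520) (nat_lit 0) (XT.nd (nat_lit 156) (nat_lit 1064) (nat_lit 0) (XT.nd (nat_lit 78) (nat_lit 0) (nat_lit 0) (XT.lf (nat_lit 0) (nat_lit 1187757764) (nat_lit 456) (nat_lit 3843529506) (nat_lit 532) (nat_lit 4336884749) (nat_lit 240) (nat_lit 5) (nat_lit 246) (nat_lit 5) (nat_lit 247) (nat_lit 5) (nat_lit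 453) (nat_lit 367) (nat_lit 320)) (XT.lf (nat_lit 0) (nat_lit 8389559843) (nat_lit 456) (nat_lit 181785365) (nat_lit 532) (nat_lit 886224365) (nat_lit 240) (nat_lit 5) (nat_lit 246) (nat_lit 5) (nat_lit 247) (nat_lit 5) (nat_lit 454) (nat_lit 367) (nat_lit 319))) (XT.nd (nat_lit 78) (nat_lit 456) (nat_lit 0) (XT.lf (nat_lit 0) (nat_lit 2619596181) (nat_lit 608) (nat_lit 3382920634) (nat_lit 76) (nat_lit 3545482599) (nat_lit 232) (nat_lit 5) (nat_lit 240) (nat_lit 5) (nat_lit 233) (nat_lit 5) (nat_lit 455) (nat_lit 367) (nat_lit 318)) (XT.lf (nat_lit 0) (nat_lit 3899069139) (nat_lit 456) (nat_lit 2275836529) (nat_lit 532) (nat_lit 3465390242) (nat_lit 226) (nat_lit 5) (nat_lit 232) (nat_lit 5) (nat_lit 233) (nat_lit 5) (nat_lit 456) (nat_lit 367) (nat_lit 317)))) (XT.nd (nat_lit 156) (nat_lit 988) (nat_lit 0) (XT.nd (nat_lit 78) (nat_lit 0) (nat_lit 0) (XT.lf (nat_lit 0) (nat_lit 66868914) (nat_lit 532) (nat_lit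 8147996371) (nat_lit 76) (nat_lit 1519547105) (nat_lit 219) (nat_lit 5) (nat_lit 226) (nat_lit 5) (nat_lit 220) (nat_lit 5) (nat_lit 457) (nat_lit 367) (nat_lit 316)) (XT.lf (nat_lit 0) (nat_lit 3635215684) (nat_lit 532) (nat_lit 792093530) (nat_lit 76) (nat_lit 5402406981) (nat_lit 219) (nat_lit 5) (nat_lit 226) (nat_lit 5) (nat_lit 220) (nat_lit 5) (nat_lit 458) (nat_lit 367) (nat_lit 315))) (XT.nd (nat_lit 78) (nat_lit 532) (nat_lit 0) (XT.lf (nat_lit 0) (nat_lit 6737912122) (nat_lit 456) (nat_lit 539535897) (nat_lit 532) (nat_lit 2649427684) (nat_lit 213) (nat_lit 5) (nat_lit 219) (nat_lit 5) (nat_lit 220) (nat_lit 5) (nat_lit 459) (nat_lit 367) (nat_lit 314)) (XT.lf (nat_lit 0) (nat_lit 969034863) (nat_lit 532) (nat_lit 5655211194) (nat_lit 76) (nat_lit 3401303542) (nat_lit 206) (nat_lit 5) (nat_lit 213) (nat_lit 5) (nat_lit 207) (nat_lit 5) (nat_lit 460) (nat_lit 367) (nat_lit 313))))) (XT.nd (nat_lit 55068)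 (nat_lit 0) (nat_lit 33820) (XT.nd (nat_lit 54912) (nat_lit 0) (nat_lit 37620) (XT.nd (nat_lit 78) (nat_lit 0) (nat_lit 0) (XT.lf (nat_lit 0) (nat_lit 1940673921) (nat_lit 380) (nat_lit 2680654477) (nat_lit 456) (nat_lit 5504579569) (nat_lit 201) (nat_lit 5) (nat_lit 206) (nat_lit 5) (nat_lit 207) (nat_lit 5) (nat_lit 461) (nat_lit 367) (nat_lit 312)) (XT.lf (nat_lit 0) (nat_lit 8353035636) (nat_lit 456) (nat_lit 533410825) (nat_lit 76) (nat_lit 1341699684) (nat_lit 201) (nat_lit 5) (nat_lit 207) (nat_lit 5) (nat_lit 202) (nat_lit 5) (nat_lit 462) (nat_lit 367) (nat_lit 311))) (XT.nd (nat_lit 78) (nat_lit 0) (nat_lit 0) (XT.lf (nat_lit 0) (nat_lit 159717919) (nat_lit 1140) (nat_lit 3038190589) (nat_lit 0) (nat_lit 159717919) (nat_lit 696) (nat_lit 5) (nat_lit 711) (nat_lit 4) (nat_lit 696) (nat_lit 4) (nat_lit 404) (nat_lit 368) (nat_lit 368)) (XT.lf (nat_lit 0) (nat_lit 3670382387) (nat_lit 1140) (nat_lit 1565471419)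 (nat_lit 0) (nat_lit 1502589986) (nat_lit 696) (nat_lit 5) (nat_lit 711) (nat_lit 4) (nat_lit 696) (nat_lit 4) (nat_lit 405) (nat_lit 368) (nat_lit 367)))) (XT.nd (nat_lit 156) (nat_lit 1368) (nat_lit 0) (XT.nd (nat_lit 78) (nat_lit 1216) (nat_lit 0) (XT.lf (nat_lit 0) (nat_lit 268810395) (nat_lit 1216) (nat_lit 3750082068) (nat_lit 76) (nat_lit 2744226921) (nat_lit 680) (nat_lit 5) (nat_lit 696) (nat_lit 5) (nat_lit 681) (nat_lit 4) (nat_lit 406) (nat_lit 368) (nat_lit 366)) (XT.lf (nat_lit 0) (nat_lit 846053490) (nat_lit 1216) (nat_lit 2729563804) (nat_lit 1292) (nat_lit 3213380015) (nat_lit 664) (nat_lit 5) (nat_lit 680) (nat_lit 5) (nat_lit 681) (nat_lit 4) (nat_lit 407) (nat_lit 368) (nat_lit 365))) (XT.nd (nat_lit 78) (nat_lit 1292) (nat_lit 0) (XT.lf (nat_lit 0) (nat_lit 85471996) (nat_lit 1292) (nat_lit 1292435206) (nat_lit 76) (nat_lit 5438387280) (nat_lit 663) (nat_lit 5) (nat_lit 680) (nat_lit 5) (nat_lit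 664) (nat_lit 5) (nat_lit 408) (nat_lit 368) (nat_lit 364)) (XT.lf (nat_lit 0) (nat_lit 3359954483) (nat_lit 1368) (nat_lit 3430693643) (nat_lit 76) (nat_lit 54011051) (nat_lit 646) (nat_lit 5) (nat_lit 664) (nat_lit 5) (nat_lit 647) (nat_lit 4) (nat_lit 409) (nat_lit 368) (nat_lit 363))))))))
noncomputable def xc15 : XT := (XT.nd (nat_lit 2496) (nat_lit 8816) (nat_lit 0) (XT.nd (nat_lit 1248) (nat_lit 9500) (nat_lit 0) (XT.nd (nat_lit 624) (nat_lit 5852) (nat_lit 0) (XT.nd (nat_lit 312) (nat_lit 5168) (nat_lit 0) (XT.nd (nat_lit 156) (nat_lit 3040) (nat_lit 0) (XT.nd (nat_lit 78) (nat_lit 76) (nat_lit 0) (XT.lf (nat_lit 0) (nat_lit 1305236850) (nat_lit 1368) (nat_lit 5352177092) (nat_lit 1444) (nat_lit 217027478) (nat_lit 628) (nat_lit 5) (nat_lit 646) (nat_lit 5) (nat_lit 647) (nat_lit 4) (nat_lit 410) (nat_lit 368) (nat_lit 362)) (XT.lf (nat_lit 0) (nat_lit 3029972766) (nat_lit 1444) (nat_lit 804152303) (nat_lit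 76) (nat_lit 3071192887) (nat_lit 627) (nat_lit 5) (nat_lit 646) (nat_lit 5) (nat_lit 628) (nat_lit 5) (nat_lit 411) (nat_lit 368) (nat_lit 361))) (XT.nd (nat_lit 78) (nat_lit 1596) (nat_lit 0) (XT.lf (nat_lit 0) (nat_lit 4047256280) (nat_lit 1444) (nat_lit 2251033091) (nat_lit 1520) (nat_lit 639308314) (nat_lit 608) (nat_lit 5) (nat_lit 627) (nat_lit 5) (nat_lit 628) (nat_lit 5) (nat_lit 412) (nat_lit 368) (nat_lit 360)) (XT.lf (nat_lit 0) (nat_lit 1983807541) (nat_lit 1520) (nat_lit 594536062) (nat_lit 1596) (nat_lit 4392797813) (nat_lit 587) (nat_lit 5) (nat_lit 607) (nat_lit 5) (nat_lit 608) (nat_lit 5) (nat_lit 413) (nat_lit 368) (nat_lit 359)))) (XT.nd (nat_lit 156) (nat_lit 3496) (nat_lit 0) (XT.nd (nat_lit 78) (nat_lit 1672) (nat_lit 0) (XT.lf (nat_lit 0) (nat_lit 5812860179) (nat_lit 1596) (nat_lit 83837168) (nat_lit 76) (nat_lit 1109352721) (nat_lit 587) (nat_lit 5) (nat_lit 608) (nat_lit 5) (nat_lit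 588) (nat_lit 5) (nat_lit 414) (nat_lit 368) (nat_lit 358)) (XT.lf (nat_lit 0) (nat_lit 2014648517) (nat_lit 1672) (nat_lit 2137993223) (nat_lit 76) (nat_lit 2889318458) (nat_lit 565) (nat_lit 5) (nat_lit 587) (nat_lit 5) (nat_lit 566) (nat_lit 5) (nat_lit 415) (nat_lit 368) (nat_lit 357))) (XT.nd (nat_lit 78) (nat_lit 1824) (nat_lit 0) (XT.lf (nat_lit 0) (nat_lit 2882740478) (nat_lit 1672) (nat_lit 2343388097) (nat_lit 1748) (nat_lit 1853192983) (nat_lit 543) (nat_lit 5) (nat_lit 565) (nat_lit 5) (nat_lit 566) (nat_lit 5) (nat_lit 416) (nat_lit 368) (nat_lit 356)) (XT.lf (nat_lit 0) (nat_lit 856184763) (nat_lit 1748) (nat_lit 466670898) (nat_lit 1824) (nat_lit 5795262628) (nat_lit 519) (nat_lit 5) (nat_lit 542) (nat_lit 5) (nat_lit 543) (nat_lit 5) (nat_lit 417) (nat_lit 368) (nat_lit 355))))) (XT.nd (nat_lit 312) (nat_lit 2812) (nat_lit 0) (XT.nd (nat_lit 156) (nat_lit 1140) (nat_lit 0) (XT.nd (nat_lit 78) (nat_lit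 1900) (nat_lit 0) (XT.lf (nat_lit 0) (nat_lit 4512837420) (nat_lit 1824) (nat_lit 1174634886) (nat_lit 76) (nat_lit 1470469129) (nat_lit 519) (nat_lit 5) (nat_lit 543) (nat_lit 5) (nat_lit 520) (nat_lit 5) (nat_lit 418) (nat_lit 368) (nat_lit 354)) (XT.lf (nat_lit 0) (nat_lit 528154606) (nat_lit 1900) (nat_lit 3200182459) (nat_lit 76) (nat_lit 3470799274) (nat_lit 494) (nat_lit 5) (nat_lit 519) (nat_lit 5) (nat_lit 495) (nat_lit 5) (nat_lit 419) (nat_lit 368) (nat_lit 353))) (XT.nd (nat_lit 78) (nat_lit 0) (nat_lit 0) (XT.lf (nat_lit 0) (nat_lit 1997851465) (nat_lit 1140) (nat_lit 1691637300) (nat_lit 1216) (nat_lit 3552116127) (nat_lit 479) (nat_lit 5) (nat_lit 494) (nat_lit 5) (nat_lit 495) (nat_lit 5) (nat_lit 420) (nat_lit 368) (nat_lit 352)) (XT.lf (nat_lit 0) (nat_lit 6878049226) (nat_lit 1216) (nat_lit 6424126) (nat_lit 76) (nat_lit 401169472) (nat_lit 479) (nat_lit 5) (nat_lit 495) (nat_lit 5) (nat_lit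 480) (nat_lit 5) (nat_lit 421) (nat_lit 368) (nat_lit 351)))) (XT.nd (nat_lit 156) (nat_lit 912) (nat_lit 0) (XT.nd (nat_lit 78) (nat_lit 912) (nat_lit 0) (XT.lf (nat_lit 0) (nat_lit 2749897892) (nat_lit 988) (nat_lit 2015805133) (nat_lit 76) (nat_lit 2564758950) (nat_lit 466) (nat_lit 5) (nat_lit 479) (nat_lit 5) (nat_lit 467) (nat_lit 5) (nat_lit 422) (nat_lit 368) (nat_lit 350)) (XT.lf (nat_lit 0) (nat_lit 3345589674) (nat_lit 912) (nat_lit 2582693822) (nat_lit 988) (nat_lit 1448576092) (nat_lit 454) (nat_lit 5) (nat_lit 466) (nat_lit 5) (nat_lit 467) (nat_lit 5) (nat_lit 423) (nat_lit 368) (nat_lit 349))) (XT.nd (nat_lit 78) (nat_lit 0) (nat_lit 0) (XT.lf (nat_lit 0) (nat_lit 1362033315) (nat_lit 836) (nat_lit 325377964) (nat_lit 912) (nat_lit 5737261954) (nat_lit 442) (nat_lit 5) (nat_lit 453) (nat_lit 5) (nat_lit 454) (nat_lit 5) (nat_lit 424) (nat_lit 368) (nat_lit 348)) (XT.lf (nat_lit 0) (nat_lit 4849321333)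 (nat_lit 912) (nat_lit 640404033) (nat_lit 76) (nat_lit 1983874297) (nat_lit 442) (nat_lit 5) (nat_lit 454) (nat_lit 5) (nat_lit 443) (nat_lit 5) (nat_lit 425) (nat_lit 368) (nat_lit 347)))))) (XT.nd (nat_lit 624) (nat_lit 4408) (nat_lit 0) (XT.nd (nat_lit 312) (nat_lit 2356) (nat_lit 0) (XT.nd (nat_lit 156) (nat_lit 912) (nat_lit 0) (XT.nd (nat_lit 78) (nat_lit 836) (nat_lit 0) (XT.lf (nat_lit 0) (nat_lit 521139908) (nat_lit 988) (nat_lit 2636627641) (nat_lit 76) (nat_lit 4366117508) (nat_lit 429) (nat_lit 5) (nat_lit 442) (nat_lit 5) (nat_lit 430) (nat_lit 5) (nat_lit 426) (nat_lit 368) (nat_lit 346)) (XT.lf (nat_lit 0) (nat_lit 2918075903) (nat_lit 836) (nat_lit 743536939) (nat_lit 912) (nat_lit 3913870679) (nat_lit 418) (nat_lit 5) (nat_lit 429) (nat_lit 5) (nat_lit 430) (nat_lit 5) (nat_lit 427) (nat_lit 368) (nat_lit 345))) (XT.nd (nat_lit 78) (nat_lit 76) (nat_lit 0) (XT.lf (nat_lit 0) (nat_lit 930266436)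 (nat_lit 836) (nat_lit 5914280098) (nat_lit 912) (nat_lit 783974394) (nat_lit 407) (nat_lit 5) (nat_lit 418) (nat_lit 5) (nat_lit 419) (nat_lit 5) (nat_lit 428) (nat_lit 368) (nat_lit 344)) (XT.lf (nat_lit 0) (nat_lit 2358276872) (nat_lit 912) (nat_lit 1072766485) (nat_lit 76) (nat_lit 4251636069) (nat_lit 406) (nat_lit 5) (nat_lit 418) (nat_lit 5) (nat_lit 407) (nat_lit 5) (nat_lit 429) (nat_lit 368) (nat_lit 343)))) (XT.nd (nat_lit 156) (nat_lit 760) (nat_lit 0) (XT.nd (nat_lit 78) (nat_lit 836) (nat_lit 0) (XT.lf (nat_lit 0) (nat_lit 4659552166) (nat_lit 760) (nat_lit 869626012) (nat_lit 836) (nat_lit 2209113225) (nat_lit 396) (nat_lit 5) (nat_lit 406) (nat_lit 5) (nat_lit 407) (nat_lit 5) (nat_lit 430) (nat_lit 368) (nat_lit 342)) (XT.lf (nat_lit 0) (nat_lit 938329230) (nat_lit 836) (nat_lit 5113668627) (nat_lit 76) (nat_lit 1743241019) (nat_lit 385) (nat_lit 5) (nat_lit 396) (nat_lit 5) (nat_lit 386) (nat_lit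 5) (nat_lit 431) (nat_lit 368) (nat_lit 341))) (XT.nd (nat_lit 78) (nat_lit 0) (nat_lit 0) (XT.lf (nat_lit 0) (nat_lit 671687019) (nat_lit 760) (nat_lit 3425343090) (nat_lit 836) (nat_lit 3756445353) (nat_lit 375) (nat_lit 5) (nat_lit 385) (nat_lit 5) (nat_lit 386) (nat_lit 5) (nat_lit 432) (nat_lit 368) (nat_lit 340)) (XT.lf (nat_lit 0) (nat_lit 6579974708) (nat_lit 760) (nat_lit 720827874) (nat_lit 836) (nat_lit 612436245) (nat_lit 375) (nat_lit 5) (nat_lit 385) (nat_lit 5) (nat_lit 386) (nat_lit 5) (nat_lit 433) (nat_lit 368) (nat_lit 339))))) (XT.nd (nat_lit 312) (nat_lit 2128) (nat_lit 0) (XT.nd (nat_lit 156) (nat_lit 760) (nat_lit 0) (XT.nd (nat_lit 78) (nat_lit 684) (nat_lit 0) (XT.lf (nat_lit 0) (nat_lit 2552132060) (nat_lit 836) (nat_lit 3373431188) (nat_lit 76) (nat_lit 2048463200) (nat_lit 364) (nat_lit 5) (nat_lit 375) (nat_lit 5) (nat_lit 365) (nat_lit 5) (nat_lit 434) (nat_lit 368) (nat_lit 338))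 (XT.lf (nat_lit 0) (nat_lit 2598429542) (nat_lit 684) (nat_lit 3152841585) (nat_lit 760) (nat_lit 2285088131) (nat_lit 355) (nat_lit 5) (nat_lit 364) (nat_lit 5) (nat_lit 365) (nat_lit 5) (nat_lit 435) (nat_lit 368) (nat_lit 337))) (XT.nd (nat_lit 78) (nat_lit 0) (nat_lit 0) (XT.lf (nat_lit 0) (nat_lit 575041741) (nat_lit 684) (nat_lit 303029844) (nat_lit 760) (nat_lit 7222236182) (nat_lit 345) (nat_lit 5) (nat_lit 354) (nat_lit 5) (nat_lit 355) (nat_lit 5) (nat_lit 436) (nat_lit 368) (nat_lit 336)) (XT.lf (nat_lit 0) (nat_lit 4077174054) (nat_lit 760) (nat_lit 1478002705) (nat_lit 76) (nat_lit 2609990863) (nat_lit 345) (nat_lit 5) (nat_lit 355) (nat_lit 5) (nat_lit 346) (nat_lit 5) (nat_lit 437) (nat_lit 368) (nat_lit 335)))) (XT.nd (nat_lit 156) (nat_lit 684) (nat_lit 0) (XT.nd (nat_lit 78) (nat_lit 760) (nat_lit 0) (XT.lf (nat_lit 0) (nat_lit 4688014264) (nat_lit 684) (nat_lit 2635286663) (nat_lit 760) (nat_lit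 908362899) (nat_lit 336) (nat_lit 5) (nat_lit 345) (nat_lit 5) (nat_lit 346) (nat_lit 5) (nat_lit 438) (nat_lit 368) (nat_lit 334)) (XT.lf (nat_lit 0) (nat_lit 2284735440) (nat_lit 760) (nat_lit 5646265989) (nat_lit 76) (nat_lit 368575393) (nat_lit 326) (nat_lit 5) (nat_lit 336) (nat_lit 5) (nat_lit 327) (nat_lit 5) (nat_lit 439) (nat_lit 368) (nat_lit 333))) (XT.nd (nat_lit 78) (nat_lit 76) (nat_lit 0) (XT.lf (nat_lit 0) (nat_lit 575397081) (nat_lit 608) (nat_lit 4950598319) (nat_lit 684) (nat_lit 2842803338) (nat_lit 318) (nat_lit 5) (nat_lit 326) (nat_lit 5) (nat_lit 327) (nat_lit 5) (nat_lit 440) (nat_lit 368) (nat_lit 332)) (XT.lf (nat_lit 0) (nat_lit 377224983) (nat_lit 684) (nat_lit 1506048001) (nat_lit 76) (nat_lit 6556287128) (nat_lit 317) (nat_lit 5) (nat_lit 326) (nat_lit 5) (nat_lit 318) (nat_lit 5) (nat_lit 441) (nat_lit 368) (nat_lit 331))))))) (XT.nd (nat_lit 1248) (nat_lit 1900) (nat_lit 0) (XT.nd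 (nat_lit 624) (nat_lit 3192) (nat_lit 0) (XT.nd (nat_lit 312) (nat_lit 1824) (nat_lit 0) (XT.nd (nat_lit 156) (nat_lit 684) (nat_lit 0) (XT.nd (nat_lit 78) (nat_lit 608) (nat_lit 0) (XT.lf (nat_lit 0) (nat_lit 3616219358) (nat_lit 684) (nat_lit 3629035597) (nat_lit 76) (nat_lit 1266253328) (nat_lit 309) (nat_lit 5) (nat_lit 318) (nat_lit 5) (nat_lit 310) (nat_lit 5) (nat_lit 442) (nat_lit 368) (nat_lit 330)) (XT.lf (nat_lit 0) (nat_lit 2796780483) (nat_lit 608) (nat_lit 4116969990) (nat_lit 684) (nat_lit 1671269808) (nat_lit 301) (nat_lit 5) (nat_lit 309) (nat_lit 5) (nat_lit 310) (nat_lit 5) (nat_lit 443) (nat_lit 368) (nat_lit 329))) (XT.nd (nat_lit 78) (nat_lit 0) (nat_lit 0) (XT.lf (nat_lit 0) (nat_lit 676945089) (nat_lit 608) (nat_lit 901152007) (nat_lit 684) (nat_lit 7082053867) (nat_lit 292) (nat_lit 5) (nat_lit 300) (nat_lit 5) (nat_lit 301) (nat_lit 5) (nat_lit 444) (nat_lit 368) (nat_lit 328)) (XT.lf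 (nat_lit 0) (nat_lit 4878226100) (nat_lit 684) (nat_lit 1475363895) (nat_lit 76) (nat_lit 2382810261) (nat_lit 292) (nat_lit 5) (nat_lit 301) (nat_lit 5) (nat_lit 293) (nat_lit 5) (nat_lit 445) (nat_lit 368) (nat_lit 327)))) (XT.nd (nat_lit 156) (nat_lit 608) (nat_lit 0) (XT.nd (nat_lit 78) (nat_lit 684) (nat_lit 0) (XT.lf (nat_lit 0) (nat_lit 5163127383) (nat_lit 532) (nat_lit 3075217548) (nat_lit 608) (nat_lit 575949857) (nat_lit 285) (nat_lit 5) (nat_lit 292) (nat_lit 5) (nat_lit 293) (nat_lit 5) (nat_lit 446) (nat_lit 368) (nat_lit 326)) (XT.lf (nat_lit 0) (nat_lit 2721795631) (nat_lit 684) (nat_lit 5874715041) (nat_lit 76) (nat_lit 297151978) (nat_lit 276) (nat_lit 5) (nat_lit 285) (nat_lit 5) (nat_lit 277) (nat_lit 5) (nat_lit 447) (nat_lit 368) (nat_lit 325))) (XT.nd (nat_lit 78) (nat_lit 76) (nat_lit 0) (XT.lf (nat_lit 0) (nat_lit 822433220) (nat_lit 532) (nat_lit 5260809518) (nat_lit 608) (nat_lit 2891189818)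 (nat_lit 269) (nat_lit 5) (nat_lit 276) (nat_lit 5) (nat_lit 277) (nat_lit 5) (nat_lit 448) (nat_lit 368) (nat_lit 324)) (XT.lf (nat_lit 0) (nat_lit 444085786) (nat_lit 608) (nat_lit 1388115717) (nat_lit 76) (nat_lit 7224658189) (nat_lit 268) (nat_lit 5) (nat_lit 276) (nat_lit 5) (nat_lit 269) (nat_lit 5) (nat_lit 449) (nat_lit 368) (nat_lit 323))))) (XT.nd (nat_lit 312) (nat_lit 1520) (nat_lit 0) (XT.nd (nat_lit 156) (nat_lit 608) (nat_lit 0) (XT.nd (nat_lit 78) (nat_lit 532) (nat_lit 0) (XT.lf (nat_lit 0) (nat_lit 3810331500) (nat_lit 608) (nat_lit 3648515361) (nat_lit 76) (nat_lit 1681646741) (nat_lit 261) (nat_lit 5) (nat_lit 269) (nat_lit 5) (nat_lit 262) (nat_lit 5) (nat_lit 450) (nat_lit 368) (nat_lit 322)) (XT.lf (nat_lit 0) (nat_lit 3272430494) (nat_lit 532) (nat_lit 3970733103) (nat_lit 608) (nat_lit 1982651365) (nat_lit 254) (nat_lit 5) (nat_lit 261) (nat_lit 5) (nat_lit 262) (nat_lit 5) (nat_lit 451)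 (nat_lit 368) (nat_lit 321))) (XT.nd (nat_lit 78) (nat_lit 0) (nat_lit 0) (XT.lf (nat_lit 0) (nat_lit 1011362258) (nat_lit 532) (nat_lit 389558448) (nat_lit 608) (nat_lit 7911978326) (nat_lit 246) (nat_lit 5) (nat_lit 253) (nat_lit 5) (nat_lit 254) (nat_lit 5) (nat_lit 452) (nat_lit 368) (nat_lit 320)) (XT.lf (nat_lit 0) (nat_lit 4844057372) (nat_lit 608) (nat_lit 1301082790) (nat_lit 76) (nat_lit 3255953697) (nat_lit 246) (nat_lit 5) (nat_lit 254) (nat_lit 5) (nat_lit 247) (nat_lit 5) (nat_lit 453) (nat_lit 368) (nat_lit 319)))) (XT.nd (nat_lit 156) (nat_lit 456) (nat_lit 0) (XT.nd (nat_lit 78) (nat_lit 608) (nat_lit 0) (XT.lf (nat_lit 0) (nat_lit 5853095407) (nat_lit 456) (nat_lit 2501400269) (nat_lit 532) (nat_lit 1136588130) (nat_lit 240) (nat_lit 5) (nat_lit 246) (nat_lit 5) (nat_lit 247) (nat_lit 5) (nat_lit 454) (nat_lit 368) (nat_lit 318)) (XT.lf (nat_lit 0) (nat_lit 2319393397) (nat_lit 608) (nat_lit 6034879248)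 (nat_lit 76) (nat_lit 1228335964) (nat_lit 232) (nat_lit 5) (nat_lit 240) (nat_lit 5) (nat_lit 233) (nat_lit 5) (nat_lit 455) (nat_lit 368) (nat_lit 317))) (XT.nd (nat_lit 78) (nat_lit 0) (nat_lit 0) (XT.lf (nat_lit 0) (nat_lit 1181297965) (nat_lit 456) (nat_lit 4655129561) (nat_lit 532) (nat_lit 3839243087) (nat_lit 226) (nat_lit 5) (nat_lit 232) (nat_lit 5) (nat_lit 233) (nat_lit 5) (nat_lit 456) (nat_lit 368) (nat_lit 316)) (XT.lf (nat_lit 0) (nat_lit 8563063651) (nat_lit 456) (nat_lit 859987777) (nat_lit 532) (nat_lit 347557448) (nat_lit 226) (nat_lit 5) (nat_lit 232) (nat_lit 5) (nat_lit 233) (nat_lit 5) (nat_lit 457) (nat_lit 368) (nat_lit 315)))))) (XT.nd (nat_lit 55224) (nat_lit 0) (nat_lit 30856) (XT.nd (nat_lit 312) (nat_lit 380) (nat_lit 0) (XT.nd (nat_lit 156) (nat_lit 532) (nat_lit 0) (XT.nd (nat_lit 78) (nat_lit 456) (nat_lit 0) (XT.lf (nat_lit 0) (nat_lit 3191356919) (nat_lit 532) (nat_lit 3660953198)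 (nat_lit 76) (nat_lit 3014327508) (nat_lit 219) (nat_lit 5) (nat_lit 226) (nat_lit 5) (nat_lit 220) (nat_lit 5) (nat_lit 458) (nat_lit 368) (nat_lit 314)) (XT.lf (nat_lit 0) (nat_lit 3800738538) (nat_lit 456) (nat_lit 2993770755) (nat_lit 532) (nat_lit 3170069441) (nat_lit 213) (nat_lit 5) (nat_lit 219) (nat_lit 5) (nat_lit 220) (nat_lit 5) (nat_lit 459) (nat_lit 368) (nat_lit 313))) (XT.nd (nat_lit 78) (nat_lit 0) (nat_lit 0) (XT.lf (nat_lit 0) (nat_lit 399382677) (nat_lit 532) (nat_lit 8718867564) (nat_lit 76) (nat_lit 946186770) (nat_lit 206) (nat_lit 5) (nat_lit 213) (nat_lit 5) (nat_lit 207) (nat_lit 5) (nat_lit 460) (nat_lit 368) (nat_lit 312)) (XT.lf (nat_lit 0) (nat_lit 4019269159) (nat_lit 532) (nat_lit 1178430066) (nat_lit 76) (nat_lit 4967744295) (nat_lit 206) (nat_lit 5) (nat_lit 213) (nat_lit 5) (nat_lit 207) (nat_lit 5) (nat_lit 461) (nat_lit 368) (nat_lit 311)))) (XT.nd (nat_lit 54756) (nat_lit 0)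 (nat_lit 37620) (XT.nd (nat_lit 54678) (nat_lit 0) (nat_lit 39748) (XT.lf (nat_lit 0) (nat_lit 6539176137) (nat_lit 380) (nat_lit 1175608449) (nat_lit 456) (nat_lit 2553620948) (nat_lit 201) (nat_lit 5) (nat_lit 206) (nat_lit 5) (nat_lit 207) (nat_lit 5) (nat_lit 462) (nat_lit 368) (nat_lit 310)) (XT.lf (nat_lit 0) (nat_lit 1276950119) (nat_lit 988) (nat_lit 781826217) (nat_lit 0) (nat_lit 1276950119) (nat_lit 724) (nat_lit 5) (nat_lit 737) (nat_lit 4) (nat_lit 724) (nat_lit 4) (nat_lit 402) (nat_lit 369) (nat_lit 369))) (XT.nd (nat_lit 78) (nat_lit 1140) (nat_lit 0) (XT.lf (nat_lit 0) (nat_lit 2853153379) (nat_lit 988) (nat_lit 3047587489) (nat_lit 988) (nat_lit 792216276) (nat_lit 711) (nat_lit 4) (nat_lit 724) (nat_lit 5) (nat_lit 724) (nat_lit 4) (nat_lit 403) (nat_lit 369) (nat_lit 368)) (XT.lf (nat_lit 0) (nat_lit 596477411) (nat_lit 1064) (nat_lit 1909956684) (nat_lit 1140) (nat_lit 4209301762) (nat_lit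 696) (nat_lit 5) (nat_lit 710) (nat_lit 5) (nat_lit 711) (nat_lit 4) (nat_lit 404) (nat_lit 369) (nat_lit 367))))) (XT.nd (nat_lit 312) (nat_lit 4256) (nat_lit 0) (XT.nd (nat_lit 156) (nat_lit 1292) (nat_lit 0) (XT.nd (nat_lit 78) (nat_lit 1216) (nat_lit 0) (XT.lf (nat_lit 0) (nat_lit 5109400162) (nat_lit 1064) (nat_lit 704318661) (nat_lit 1140) (nat_lit 926081205) (nat_lit 696) (nat_lit 5) (nat_lit 710) (nat_lit 5) (nat_lit 711) (nat_lit 4) (nat_lit 405) (nat_lit 369) (nat_lit 366)) (XT.lf (nat_lit 0) (nat_lit 2342137204) (nat_lit 1216) (nat_lit 3856724541) (nat_lit 76) (nat_lit 566146951) (nat_lit 680) (nat_lit 5) (nat_lit 696) (nat_lit 5) (nat_lit 681) (nat_lit 4) (nat_lit 406) (nat_lit 369) (nat_lit 365))) (XT.nd (nat_lit 78) (nat_lit 76) (nat_lit 0) (XT.lf (nat_lit 0) (nat_lit 708037225) (nat_lit 1216) (nat_lit 4905149960) (nat_lit 1292) (nat_lit 1178414575) (nat_lit 664) (nat_lit 5) (nat_lit 680) (nat_lit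 5) (nat_lit 681) (nat_lit 4) (nat_lit 407) (nat_lit 369) (nat_lit 364)) (XT.lf (nat_lit 0) (nat_lit 2059152931) (nat_lit 1292) (nat_lit 1476097210) (nat_lit 76) (nat_lit 3284076455) (nat_lit 663) (nat_lit 5) (nat_lit 680) (nat_lit 5) (nat_lit 664) (nat_lit 5) (nat_lit 408) (nat_lit 369) (nat_lit 363)))) (XT.nd (nat_lit 156) (nat_lit 1520) (nat_lit 0) (XT.nd (nat_lit 78) (nat_lit 1444) (nat_lit 0) (XT.lf (nat_lit 0) (nat_lit 3198592503) (nat_lit 1292) (nat_lit 2099369660) (nat_lit 1368) (nat_lit 1550442595) (nat_lit 646) (nat_lit 5) (nat_lit 663) (nat_lit 5) (nat_lit 664) (nat_lit 5) (nat_lit 409) (nat_lit 369) (nat_lit 362)) (XT.lf (nat_lit 0) (nat_lit 1051870376) (nat_lit 1368) (nat_lit 597811584) (nat_lit 1444) (nat_lit 5229182667) (nat_lit 627) (nat_lit 5) (nat_lit 645) (nat_lit 5) (nat_lit 646) (nat_lit 5) (nat_lit 410) (nat_lit 369) (nat_lit 361))) (XT.nd (nat_lit 78) (nat_lit 1520) (nat_lit 0) (XT.lf (nat_lit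 0) (nat_lit 4856787218) (nat_lit 1444) (nat_lit 1089463718) (nat_lit 76) (nat_lit 964203019) (nat_lit 627) (nat_lit 5) (nat_lit 646) (nat_lit 5) (nat_lit 628) (nat_lit 5) (nat_lit 411) (nat_lit 369) (nat_lit 360)) (XT.lf (nat_lit 0) (nat_lit 1132046668) (nat_lit 1520) (nat_lit 3222516591) (nat_lit 76) (nat_lit 2588713219) (nat_lit 607) (nat_lit 5) (nat_lit 627) (nat_lit 5) (nat_lit 608) (nat_lit 5) (nat_lit 412) (nat_lit 369) (nat_lit 359))))))))
noncomputable def xc16 : XT := (XT.nd (nat_lit 1248) (nat_lit 8892) (nat_lit 0) (XT.nd (nat_lit 624) (nat_lit 4712) (nat_lit 0) (XT.nd (nat_lit 312) (nat_lit 4864) (nat_lit 0) (XT.nd (nat_lit 156) (nat_lit 3268) (nat_lit 0) (XT.nd (nat_lit 78) (nat_lit 76) (nat_lit 0) (XT.lf (nat_lit 0) (nat_lit 1612976565) (nat_lit 1520) (nat_lit 2693648332) (nat_lit 1596) (nat_lit 2670806077) (nat_lit 587) (nat_lit 5) (nat_lit 607) (nat_lit 5) (nat_lit 608) (nat_lit 5) (nat_lit 413)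 (nat_lit 369) (nat_lit 358)) (XT.lf (nat_lit 0) (nat_lit 482469366) (nat_lit 1596) (nat_lit 486916713) (nat_lit 76) (nat_lit 6043672822) (nat_lit 586) (nat_lit 5) (nat_lit 607) (nat_lit 5) (nat_lit 587) (nat_lit 5) (nat_lit 414) (nat_lit 369) (nat_lit 357))) (XT.nd (nat_lit 78) (nat_lit 1672) (nat_lit 0) (XT.lf (nat_lit 0) (nat_lit 3634093486) (nat_lit 1672) (nat_lit 2585247614) (nat_lit 76) (nat_lit 830284301) (nat_lit 565) (nat_lit 5) (nat_lit 587) (nat_lit 5) (nat_lit 566) (nat_lit 5) (nat_lit 415) (nat_lit 369) (nat_lit 356)) (XT.lf (nat_lit 0) (nat_lit 2399421052) (nat_lit 1672) (nat_lit 4412032022) (nat_lit 1748) (nat_lit 276216096) (nat_lit 543) (nat_lit 5) (nat_lit 565) (nat_lit 5) (nat_lit 566) (nat_lit 5) (nat_lit 416) (nat_lit 369) (nat_lit 355)))) (XT.nd (nat_lit 156) (nat_lit 3040) (nat_lit 0) (XT.nd (nat_lit 78) (nat_lit 0) (nat_lit 0) (XT.lf (nat_lit 0) (nat_lit 317271448) (nat_lit 1748) (nat_lit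 2527610680) (nat_lit 1824) (nat_lit 4282064359) (nat_lit 519) (nat_lit 5) (nat_lit 542) (nat_lit 5) (nat_lit 543) (nat_lit 5) (nat_lit 417) (nat_lit 369) (nat_lit 354)) (XT.lf (nat_lit 0) (nat_lit 5424518275) (nat_lit 1748) (nat_lit 570312578) (nat_lit 1824) (nat_lit 1172739441) (nat_lit 519) (nat_lit 5) (nat_lit 542) (nat_lit 5) (nat_lit 543) (nat_lit 5) (nat_lit 418) (nat_lit 369) (nat_lit 353))) (XT.nd (nat_lit 78) (nat_lit 1140) (nat_lit 0) (XT.lf (nat_lit 0) (nat_lit 1943587795) (nat_lit 1900) (nat_lit 3822243956) (nat_lit 76) (nat_lit 1443494677) (nat_lit 494) (nat_lit 5) (nat_lit 519) (nat_lit 5) (nat_lit 495) (nat_lit 5) (nat_lit 419) (nat_lit 369) (nat_lit 352)) (XT.lf (nat_lit 0) (nat_lit 1337169322) (nat_lit 1140) (nat_lit 3733900436) (nat_lit 1216) (nat_lit 2181402266) (nat_lit 479) (nat_lit 5) (nat_lit 494) (nat_lit 5) (nat_lit 495) (nat_lit 5) (nat_lit 420) (nat_lit 369) (nat_lit 351))))) (XT.nd (nat_lit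 312) (nat_lit 1900) (nat_lit 0) (XT.nd (nat_lit 156) (nat_lit 1824) (nat_lit 0) (XT.nd (nat_lit 78) (nat_lit 912) (nat_lit 0) (XT.lf (nat_lit 0) (nat_lit 918462634) (nat_lit 1216) (nat_lit 711718772) (nat_lit 76) (nat_lit 5666844009) (nat_lit 478) (nat_lit 5) (nat_lit 494) (nat_lit 5) (nat_lit 479) (nat_lit 5) (nat_lit 421) (nat_lit 369) (nat_lit 350)) (XT.lf (nat_lit 0) (nat_lit 4026359199) (nat_lit 988) (nat_lit 2764503655) (nat_lit 76) (nat_lit 551813771) (nat_lit 466) (nat_lit 5) (nat_lit 479) (nat_lit 5) (nat_lit 467) (nat_lit 5) (nat_lit 422) (nat_lit 369) (nat_lit 349))) (XT.nd (nat_lit 78) (nat_lit 912) (nat_lit 0) (XT.lf (nat_lit 0) (nat_lit 2556618090) (nat_lit 912) (nat_lit 4614578479) (nat_lit 988) (nat_lit 218548632) (nat_lit 454) (nat_lit 5) (nat_lit 466) (nat_lit 5) (nat_lit 467) (nat_lit 5) (nat_lit 423) (nat_lit 369) (nat_lit 348)) (XT.lf (nat_lit 0) (nat_lit 510923435) (nat_lit 836) (nat_lit 2356610109)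 (nat_lit 912) (nat_lit 4570541042) (nat_lit 442) (nat_lit 5) (nat_lit 453) (nat_lit 5) (nat_lit 454) (nat_lit 5) (nat_lit 424) (nat_lit 369) (nat_lit 347)))) (XT.nd (nat_lit 156) (nat_lit 912) (nat_lit 0) (XT.nd (nat_lit 78) (nat_lit 988) (nat_lit 0) (XT.lf (nat_lit 0) (nat_lit 5965492575) (nat_lit 836) (nat_lit 23011721) (nat_lit 912) (nat_lit 1499315506) (nat_lit 442) (nat_lit 5) (nat_lit 453) (nat_lit 5) (nat_lit 454) (nat_lit 5) (nat_lit 425) (nat_lit 369) (nat_lit 346)) (XT.lf (nat_lit 0) (nat_lit 1597626297) (nat_lit 988) (nat_lit 3582342362) (nat_lit 76) (nat_lit 2358664904) (nat_lit 429) (nat_lit 5) (nat_lit 442) (nat_lit 5) (nat_lit 430) (nat_lit 5) (nat_lit 426) (nat_lit 369) (nat_lit 345))) (XT.nd (nat_lit 78) (nat_lit 76) (nat_lit 0) (XT.lf (nat_lit 0) (nat_lit 1929375696) (nat_lit 836) (nat_lit 2775115624) (nat_lit 912) (nat_lit 2886412866) (nat_lit 418) (nat_lit 5) (nat_lit 429) (nat_lit 5) (nat_lit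 430) (nat_lit 5) (nat_lit 427) (nat_lit 369) (nat_lit 344)) (XT.lf (nat_lit 0) (nat_lit 195870662) (nat_lit 912) (nat_lit 106463504) (nat_lit 76) (nat_lit 7342464200) (nat_lit 417) (nat_lit 5) (nat_lit 429) (nat_lit 5) (nat_lit 418) (nat_lit 5) (nat_lit 428) (nat_lit 369) (nat_lit 343)))))) (XT.nd (nat_lit 624) (nat_lit 4104) (nat_lit 0) (XT.nd (nat_lit 312) (nat_lit 2356) (nat_lit 0) (XT.nd (nat_lit 156) (nat_lit 836) (nat_lit 0) (XT.nd (nat_lit 78) (nat_lit 760) (nat_lit 0) (XT.lf (nat_lit 0) (nat_lit 3298458941) (nat_lit 912) (nat_lit 2160819311) (nat_lit 76) (nat_lit 2240164428) (nat_lit 406) (nat_lit 5) (nat_lit 418) (nat_lit 5) (nat_lit 407) (nat_lit 5) (nat_lit 429) (nat_lit 369) (nat_lit 342)) (XT.lf (nat_lit 0) (nat_lit 3526746201) (nat_lit 760) (nat_lit 2909069889) (nat_lit 836) (nat_lit 1319909450) (nat_lit 396) (nat_lit 5) (nat_lit 406) (nat_lit 5) (nat_lit 407) (nat_lit 5) (nat_lit 430) (nat_lit 369)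 (nat_lit 341))) (XT.nd (nat_lit 78) (nat_lit 0) (nat_lit 0) (XT.lf (nat_lit 0) (nat_lit 1491447257) (nat_lit 760) (nat_lit 279112112) (nat_lit 836) (nat_lit 6042904411) (nat_lit 385) (nat_lit 5) (nat_lit 395) (nat_lit 5) (nat_lit 396) (nat_lit 5) (nat_lit 431) (nat_lit 369) (nat_lit 340)) (XT.lf (nat_lit 0) (nat_lit 4897337185) (nat_lit 836) (nat_lit 573993558) (nat_lit 76) (nat_lit 2401008084) (nat_lit 385) (nat_lit 5) (nat_lit 396) (nat_lit 5) (nat_lit 386) (nat_lit 5) (nat_lit 432) (nat_lit 369) (nat_lit 339)))) (XT.nd (nat_lit 156) (nat_lit 760) (nat_lit 0) (XT.nd (nat_lit 78) (nat_lit 760) (nat_lit 0) (XT.lf (nat_lit 0) (nat_lit 137380529) (nat_lit 836) (nat_lit 2637060282) (nat_lit 76) (nat_lit 5158227642) (nat_lit 374) (nat_lit 5) (nat_lit 385) (nat_lit 5) (nat_lit 375) (nat_lit 5) (nat_lit 433) (nat_lit 369) (nat_lit 338)) (XT.lf (nat_lit 0) (nat_lit 3246612989) (nat_lit 836) (nat_lit 4735491019) (nat_lit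 76) (nat_lit 12218610) (nat_lit 364) (nat_lit 5) (nat_lit 375) (nat_lit 5) (nat_lit 365) (nat_lit 5) (nat_lit 434) (nat_lit 369) (nat_lit 337))) (XT.nd (nat_lit 78) (nat_lit 76) (nat_lit 0) (XT.lf (nat_lit 0) (nat_lit 1187721345) (nat_lit 684) (nat_lit 5224032433) (nat_lit 760) (nat_lit 1645581617) (nat_lit 355) (nat_lit 5) (nat_lit 364) (nat_lit 5) (nat_lit 365) (nat_lit 5) (nat_lit 435) (nat_lit 369) (nat_lit 336)) (XT.lf (nat_lit 0) (nat_lit 1480748316) (nat_lit 760) (nat_lit 898613178) (nat_lit 76) (nat_lit 5742408221) (nat_lit 354) (nat_lit 5) (nat_lit 364) (nat_lit 5) (nat_lit 355) (nat_lit 5) (nat_lit 436) (nat_lit 369) (nat_lit 335))))) (XT.nd (nat_lit 312) (nat_lit 1976) (nat_lit 0) (XT.nd (nat_lit 156) (nat_lit 760) (nat_lit 0) (XT.nd (nat_lit 78) (nat_lit 684) (nat_lit 0) (XT.lf (nat_lit 0) (nat_lit 4635962265) (nat_lit 760) (nat_lit 3002189014) (nat_lit 76) (nat_lit 549356059) (nat_lit 345) (nat_lit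 5) (nat_lit 355) (nat_lit 5) (nat_lit 346) (nat_lit 5) (nat_lit 437) (nat_lit 369) (nat_lit 334)) (XT.lf (nat_lit 0) (nat_lit 3113243989) (nat_lit 684) (nat_lit 4734643720) (nat_lit 760) (nat_lit 406799863) (nat_lit 336) (nat_lit 5) (nat_lit 345) (nat_lit 5) (nat_lit 346) (nat_lit 5) (nat_lit 438) (nat_lit 369) (nat_lit 333))) (XT.nd (nat_lit 78) (nat_lit 0) (nat_lit 0) (XT.lf (nat_lit 0) (nat_lit 1003006486) (nat_lit 684) (nat_lit 1739701289) (nat_lit 760) (nat_lit 5580567913) (nat_lit 326) (nat_lit 5) (nat_lit 335) (nat_lit 5) (nat_lit 336) (nat_lit 5) (nat_lit 439) (nat_lit 369) (nat_lit 332)) (XT.lf (nat_lit 0) (nat_lit 5945312986) (nat_lit 760) (nat_lit 1125141224) (nat_lit 76) (nat_lit 1322816491) (nat_lit 326) (nat_lit 5) (nat_lit 336) (nat_lit 5) (nat_lit 327) (nat_lit 5) (nat_lit 440) (nat_lit 369) (nat_lit 331)))) (XT.nd (nat_lit 156) (nat_lit 684) (nat_lit 0) (XT.nd (nat_lit 78) (nat_lit 608) (nat_lit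 0) (XT.lf (nat_lit 0) (nat_lit 735930475) (nat_lit 684) (nat_lit 3279070582) (nat_lit 76) (nat_lit 4449598979) (nat_lit 317) (nat_lit 5) (nat_lit 326) (nat_lit 5) (nat_lit 318) (nat_lit 5) (nat_lit 441) (nat_lit 369) (nat_lit 330)) (XT.lf (nat_lit 0) (nat_lit 3064187622) (nat_lit 608) (nat_lit 867496527) (nat_lit 684) (nat_lit 4605728873) (nat_lit 309) (nat_lit 5) (nat_lit 317) (nat_lit 5) (nat_lit 318) (nat_lit 5) (nat_lit 442) (nat_lit 369) (nat_lit 329))) (XT.nd (nat_lit 78) (nat_lit 76) (nat_lit 0) (XT.lf (nat_lit 0) (nat_lit 903374062) (nat_lit 608) (nat_lit 6285081667) (nat_lit 684) (nat_lit 1423284481) (nat_lit 301) (nat_lit 5) (nat_lit 309) (nat_lit 5) (nat_lit 310) (nat_lit 5) (nat_lit 443) (nat_lit 369) (nat_lit 328)) (XT.lf (nat_lit 0) (nat_lit 1795705536) (nat_lit 684) (nat_lit 1283790800) (nat_lit 76) (nat_lit 5607884844) (nat_lit 300) (nat_lit 5) (nat_lit 309) (nat_lit 5) (nat_lit 301) (nat_lit 5)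 (nat_lit 444) (nat_lit 369) (nat_lit 327)))))))
noncomputable def xc17 : XT := (XT.nd (nat_lit 1248) (nat_lit 912) (nat_lit 0) (XT.nd (nat_lit 624) (nat_lit 3040) (nat_lit 0) (XT.nd (nat_lit 312) (nat_lit 1748) (nat_lit 0) (XT.nd (nat_lit 156) (nat_lit 684) (nat_lit 0) (XT.nd (nat_lit 78) (nat_lit 532) (nat_lit 0) (XT.lf (nat_lit 0) (nat_lit 5050663074) (nat_lit 684) (nat_lit 3496684889) (nat_lit 76) (nat_lit 217185939) (nat_lit 292) (nat_lit 5) (nat_lit 301) (nat_lit 5) (nat_lit 293) (nat_lit 5) (nat_lit 445) (nat_lit 369) (nat_lit 326)) (XT.lf (nat_lit 0) (nat_lit 3084819345) (nat_lit 532) (nat_lit 5290384214) (nat_lit 608) (nat_lit 467936442) (nat_lit 285) (nat_lit 5) (nat_lit 292) (nat_lit 5) (nat_lit 293) (nat_lit 5) (nat_lit 446) (nat_lit 369) (nat_lit 325))) (XT.nd (nat_lit 78) (nat_lit 0) (nat_lit 0) (XT.lf (nat_lit 0) (nat_lit 854852178) (nat_lit 608) (nat_lit 1935533642) (nat_lit 684) (nat_lit 6132868150)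 (nat_lit 276) (nat_lit 5) (nat_lit 284) (nat_lit 5) (nat_lit 285) (nat_lit 5) (nat_lit 447) (nat_lit 369) (nat_lit 324)) (XT.lf (nat_lit 0) (nat_lit 6112125996) (nat_lit 684) (nat_lit 1399486991) (nat_lit 76) (nat_lit 1493205027) (nat_lit 276) (nat_lit 5) (nat_lit 285) (nat_lit 5) (nat_lit 277) (nat_lit 5) (nat_lit 448) (nat_lit 369) (nat_lit 323)))) (XT.nd (nat_lit 156) (nat_lit 608) (nat_lit 0) (XT.nd (nat_lit 78) (nat_lit 532) (nat_lit 0) (XT.lf (nat_lit 0) (nat_lit 411625825) (nat_lit 608) (nat_lit 3689238164) (nat_lit 76) (nat_lit 4987000905) (nat_lit 268) (nat_lit 5) (nat_lit 276) (nat_lit 5) (nat_lit 269) (nat_lit 5) (nat_lit 449) (nat_lit 369) (nat_lit 322)) (XT.lf (nat_lit 0) (nat_lit 3141652966) (nat_lit 532) (nat_lit 588538306) (nat_lit 608) (nat_lit 5442261139) (nat_lit 261) (nat_lit 5) (nat_lit 268) (nat_lit 5) (nat_lit 269) (nat_lit 5) (nat_lit 450) (nat_lit 369) (nat_lit 321))) (XT.nd (nat_lit 78)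 (nat_lit 76) (nat_lit 0) (XT.lf (nat_lit 0) (nat_lit 832276606) (nat_lit 532) (nat_lit 6289972127) (nat_lit 608) (nat_lit 2136340530) (nat_lit 254) (nat_lit 5) (nat_lit 261) (nat_lit 5) (nat_lit 262) (nat_lit 5) (nat_lit 451) (nat_lit 369) (nat_lit 320)) (XT.lf (nat_lit 0) (nat_lit 1221654523) (nat_lit 608) (nat_lit 1503604317) (nat_lit 76) (nat_lit 6620986304) (nat_lit 253) (nat_lit 5) (nat_lit 261) (nat_lit 5) (nat_lit 254) (nat_lit 5) (nat_lit 452) (nat_lit 369) (nat_lit 319))))) (XT.nd (nat_lit 312) (nat_lit 1444) (nat_lit 0) (XT.nd (nat_lit 156) (nat_lit 608) (nat_lit 0) (XT.nd (nat_lit 78) (nat_lit 456) (nat_lit 0) (XT.lf (nat_lit 0) (nat_lit 4618805692) (nat_lit 608) (nat_lit 3884280353) (nat_lit 76) (nat_lit 932273636) (nat_lit 246) (nat_lit 5) (nat_lit 254) (nat_lit 5) (nat_lit 247) (nat_lit 5) (nat_lit 453) (nat_lit 369) (nat_lit 318)) (XT.lf (nat_lit 0) (nat_lit 3205830101) (nat_lit 456) (nat_lit 4885772234)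 (nat_lit 532) (nat_lit 1434500125) (nat_lit 240) (nat_lit 5) (nat_lit 246) (nat_lit 5) (nat_lit 247) (nat_lit 5) (nat_lit 454) (nat_lit 369) (nat_lit 317))) (XT.nd (nat_lit 78) (nat_lit 0) (nat_lit 0) (XT.lf (nat_lit 0) (nat_lit 810184840) (nat_lit 532) (nat_lit 1168918948) (nat_lit 608) (nat_lit 7639487856) (nat_lit 232) (nat_lit 5) (nat_lit 239) (nat_lit 5) (nat_lit 240) (nat_lit 5) (nat_lit 455) (nat_lit 369) (nat_lit 316)) (XT.lf (nat_lit 0) (nat_lit 5460653472) (nat_lit 608) (nat_lit 1629710091) (nat_lit 76) (nat_lit 2621999774) (nat_lit 232) (nat_lit 5) (nat_lit 240) (nat_lit 5) (nat_lit 233) (nat_lit 5) (nat_lit 456) (nat_lit 369) (nat_lit 315)))) (XT.nd (nat_lit 156) (nat_lit 456) (nat_lit 0) (XT.nd (nat_lit 78) (nat_lit 532) (nat_lit 0) (XT.lf (nat_lit 0) (nat_lit 5701015228) (nat_lit 456) (nat_lit 3315520894) (nat_lit 532) (nat_lit 791380302) (nat_lit 226) (nat_lit 5) (nat_lit 232) (nat_lit 5) (nat_lit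 233) (nat_lit 5) (nat_lit 457) (nat_lit 369) (nat_lit 314)) (XT.lf (nat_lit 0) (nat_lit 2698201015) (nat_lit 532) (nat_lit 6647370621) (nat_lit 76) (nat_lit 559534248) (nat_lit 219) (nat_lit 5) (nat_lit 226) (nat_lit 5) (nat_lit 220) (nat_lit 5) (nat_lit 458) (nat_lit 369) (nat_lit 313))) (XT.nd (nat_lit 78) (nat_lit 0) (nat_lit 0) (XT.lf (nat_lit 0) (nat_lit 745036843) (nat_lit 456) (nat_lit 5516859370) (nat_lit 532) (nat_lit 3741939922) (nat_lit 213) (nat_lit 5) (nat_lit 219) (nat_lit 5) (nat_lit 220) (nat_lit 5) (nat_lit 459) (nat_lit 369) (nat_lit 312)) (XT.lf (nat_lit 0) (nat_lit 8316786926) (nat_lit 456) (nat_lit 1585454786) (nat_lit 532) (nat_lit 202191751) (nat_lit 213) (nat_lit 5) (nat_lit 219) (nat_lit 5) (nat_lit 220) (nat_lit 5) (nat_lit 460) (nat_lit 369) (nat_lit 311)))))) (XT.nd (nat_lit 55068) (nat_lit 0) (nat_lit 29260) (XT.nd (nat_lit 54756) (nat_lit 0) (nat_lit 37544) (XT.nd (nat_lit 54600) (nat_lit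 0) (nat_lit 39748) (XT.nd (nat_lit 78) (nat_lit 380) (nat_lit 0) (XT.lf (nat_lit 0) (nat_lit 3378795427) (nat_lit 532) (nat_lit 4393357315) (nat_lit 76) (nat_lit 2434144507) (nat_lit 206) (nat_lit 5) (nat_lit 213) (nat_lit 5) (nat_lit 207) (nat_lit 5) (nat_lit 461) (nat_lit 369) (nat_lit 310)) (XT.lf (nat_lit 0) (nat_lit 3252310478) (nat_lit 380) (nat_lit 3781622079) (nat_lit 456) (nat_lit 3276134273) (nat_lit 201) (nat_lit 5) (nat_lit 206) (nat_lit 5) (nat_lit 207) (nat_lit 5) (nat_lit 462) (nat_lit 369) (nat_lit 309))) (XT.nd (nat_lit 78) (nat_lit 988) (nat_lit 0) (XT.lf (nat_lit 0) (nat_lit 1539233435) (nat_lit 836) (nat_lit 888298796) (nat_lit 836) (nat_lit 888298796) (nat_lit 737) (nat_lit 4) (nat_lit 748) (nat_lit 5) (nat_lit 748) (nat_lit 4) (nat_lit 400) (nat_lit 370) (nat_lit 370)) (XT.lf (nat_lit 0) (nat_lit 731579736) (nat_lit 912) (nat_lit 792216276) (nat_lit 988) (nat_lit 5127561650) (nat_lit 724)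 (nat_lit 5) (nat_lit 736) (nat_lit 5) (nat_lit 737) (nat_lit 4) (nat_lit 401) (nat_lit 370) (nat_lit 369)))) (XT.nd (nat_lit 156) (nat_lit 1140) (nat_lit 0) (XT.nd (nat_lit 78) (nat_lit 1064) (nat_lit 0) (XT.lf (nat_lit 0) (nat_lit 4817683371) (nat_lit 988) (nat_lit 1592669930) (nat_lit 0) (nat_lit 261833521) (nat_lit 724) (nat_lit 5) (nat_lit 737) (nat_lit 4) (nat_lit 724) (nat_lit 4) (nat_lit 402) (nat_lit 370) (nat_lit 368)) (XT.lf (nat_lit 0) (nat_lit 1414947901) (nat_lit 1064) (nat_lit 3908803338) (nat_lit 76) (nat_lit 1370480720) (nat_lit 710) (nat_lit 5) (nat_lit 724) (nat_lit 5) (nat_lit 711) (nat_lit 4) (nat_lit 403) (nat_lit 370) (nat_lit 367))) (XT.nd (nat_lit 78) (nat_lit 76) (nat_lit 0) (XT.lf (nat_lit 0) (nat_lit 492231391) (nat_lit 1064) (nat_lit 4174611128) (nat_lit 1140) (nat_lit 2050792593) (nat_lit 696) (nat_lit 5) (nat_lit 710) (nat_lit 5) (nat_lit 711) (nat_lit 4) (nat_lit 404) (nat_lit 370)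 (nat_lit 366)) (XT.lf (nat_lit 0) (nat_lit 1180857083) (nat_lit 1140) (nat_lit 1773564026) (nat_lit 76) (nat_lit 3787826287) (nat_lit 695) (nat_lit 5) (nat_lit 710) (nat_lit 5) (nat_lit 696) (nat_lit 5) (nat_lit 405) (nat_lit 370) (nat_lit 365))))) (XT.nd (nat_lit 312) (nat_lit 4484) (nat_lit 0) (XT.nd (nat_lit 156) (nat_lit 1368) (nat_lit 0) (XT.nd (nat_lit 78) (nat_lit 1292) (nat_lit 0) (XT.lf (nat_lit 0) (nat_lit 2732097682) (nat_lit 1140) (nat_lit 1665225749) (nat_lit 1216) (nat_lit 2370804505) (nat_lit 680) (nat_lit 5) (nat_lit 695) (nat_lit 5) (nat_lit 696) (nat_lit 5) (nat_lit 406) (nat_lit 370) (nat_lit 364)) (XT.lf (nat_lit 0) (nat_lit 500360458) (nat_lit 1216) (nat_lit 317299189) (nat_lit 1292) (nat_lit 5977838600) (nat_lit 663) (nat_lit 5) (nat_lit 679) (nat_lit 5) (nat_lit 680) (nat_lit 5) (nat_lit 407) (nat_lit 370) (nat_lit 363))) (XT.nd (nat_lit 78) (nat_lit 1368) (nat_lit 0) (XT.lf (nat_lit 0) (nat_lit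 4003794697) (nat_lit 1292) (nat_lit 1722505458) (nat_lit 76) (nat_lit 1097489455) (nat_lit 663) (nat_lit 5) (nat_lit 680) (nat_lit 5) (nat_lit 664) (nat_lit 5) (nat_lit 408) (nat_lit 370) (nat_lit 362)) (XT.lf (nat_lit 0) (nat_lit 349330591) (nat_lit 1368) (nat_lit 3936009284) (nat_lit 76) (nat_lit 2568183169) (nat_lit 645) (nat_lit 5) (nat_lit 663) (nat_lit 5) (nat_lit 646) (nat_lit 5) (nat_lit 409) (nat_lit 370) (nat_lit 361)))) (XT.nd (nat_lit 156) (nat_lit 3116) (nat_lit 0) (XT.nd (nat_lit 78) (nat_lit 0) (nat_lit 0) (XT.lf (nat_lit 0) (nat_lit 722364712) (nat_lit 1368) (nat_lit 2771614514) (nat_lit 1444) (nat_lit 3390505190) (nat_lit 627) (nat_lit 5) (nat_lit 645) (nat_lit 5) (nat_lit 646) (nat_lit 5) (nat_lit 410) (nat_lit 370) (nat_lit 360)) (XT.lf (nat_lit 0) (nat_lit 5469224542) (nat_lit 1368) (nat_lit 1192974846) (nat_lit 1444) (nat_lit 254652057) (nat_lit 627) (nat_lit 5) (nat_lit 645) (nat_lit 5) (nat_lit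 646) (nat_lit 5) (nat_lit 411) (nat_lit 370) (nat_lit 359))) (XT.nd (nat_lit 78) (nat_lit 1596) (nat_lit 0) (XT.lf (nat_lit 0) (nat_lit 2865068057) (nat_lit 1520) (nat_lit 3625444862) (nat_lit 76) (nat_lit 459775419) (nat_lit 607) (nat_lit 5) (nat_lit 627) (nat_lit 5) (nat_lit 608) (nat_lit 5) (nat_lit 412) (nat_lit 370) (nat_lit 358)) (XT.nd (nat_lit 78) (nat_lit 76) (nat_lit 0) (XT.lf (nat_lit 0) (nat_lit 1175247137) (nat_lit 1520) (nat_lit 4829908722) (nat_lit 1596) (nat_lit 979976784) (nat_lit 587) (nat_lit 5) (nat_lit 607) (nat_lit 5) (nat_lit 608) (nat_lit 5) (nat_lit 413) (nat_lit 370) (nat_lit 357)) (XT.lf (nat_lit 0) (nat_lit 2119701128) (nat_lit 1596) (nat_lit 972612448) (nat_lit 76) (nat_lit 3928855874) (nat_lit 586) (nat_lit 5) (nat_lit 607) (nat_lit 5) (nat_lit 587) (nat_lit 5) (nat_lit 414) (nat_lit 370) (nat_lit 356))))))))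
noncomputable def xc18 : XT := (XT.nd (nat_lit 2496) (nat_lit 6004) (nat_lit 0) (XT.nd (nat_lit 1248) (nat_lit 8436) (nat_lit 0) (XT.nd (nat_lit 624) (nat_lit 5320) (nat_lit 0) (XT.nd (nat_lit 312) (nat_lit 3952) (nat_lit 0) (XT.nd (nat_lit 156) (nat_lit 1824) (nat_lit 0) (XT.nd (nat_lit 78) (nat_lit 1748) (nat_lit 0) (XT.lf (nat_lit 0) (nat_lit 3948705079) (nat_lit 1596) (nat_lit 1282967623) (nat_lit 1672) (nat_lit 1826856298) (nat_lit 565) (nat_lit 5) (nat_lit 586) (nat_lit 5) (nat_lit 587) (nat_lit 5) (nat_lit 415) (nat_lit 370) (nat_lit 355)) (XT.lf (nat_lit 0) (nat_lit 1252673383) (nat_lit 1748) (nat_lit 5258876570) (nat_lit 76) (nat_lit 585703849) (nat_lit 542) (nat_lit 5) (nat_lit 565) (nat_lit 5) (nat_lit 543) (nat_lit 5) (nat_lit 416) (nat_lit 370) (nat_lit 354))) (XT.nd (nat_lit 78) (nat_lit 1824) (nat_lit 0) (XT.lf (nat_lit 0) (nat_lit 4337923262) (nat_lit 1748) (nat_lit 288663955) (nat_lit 76) (nat_lit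 2510552550) (nat_lit 542) (nat_lit 5) (nat_lit 565) (nat_lit 5) (nat_lit 543) (nat_lit 5) (nat_lit 417) (nat_lit 370) (nat_lit 353)) (XT.lf (nat_lit 0) (nat_lit 274168871) (nat_lit 1824) (nat_lit 2394613285) (nat_lit 76) (nat_lit 4509578596) (nat_lit 518) (nat_lit 5) (nat_lit 542) (nat_lit 5) (nat_lit 519) (nat_lit 5) (nat_lit 418) (nat_lit 370) (nat_lit 352)))) (XT.nd (nat_lit 156) (nat_lit 988) (nat_lit 0) (XT.nd (nat_lit 78) (nat_lit 1140) (nat_lit 0) (XT.lf (nat_lit 0) (nat_lit 2699470420) (nat_lit 1824) (nat_lit 632247731) (nat_lit 1900) (nat_lit 3889114397) (nat_lit 494) (nat_lit 5) (nat_lit 518) (nat_lit 5) (nat_lit 519) (nat_lit 5) (nat_lit 419) (nat_lit 370) (nat_lit 351)) (XT.lf (nat_lit 0) (nat_lit 603161158) (nat_lit 1140) (nat_lit 5818185368) (nat_lit 1216) (nat_lit 843388690) (nat_lit 479) (nat_lit 5) (nat_lit 494) (nat_lit 5) (nat_lit 495) (nat_lit 5) (nat_lit 420) (nat_lit 370) (nat_lit 350))) (XT.nd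 (nat_lit 78) (nat_lit 912) (nat_lit 0) (XT.lf (nat_lit 0) (nat_lit 2210134410) (nat_lit 1216) (nat_lit 1496235152) (nat_lit 76) (nat_lit 3603321170) (nat_lit 478) (nat_lit 5) (nat_lit 494) (nat_lit 5) (nat_lit 479) (nat_lit 5) (nat_lit 421) (nat_lit 370) (nat_lit 349)) (XT.lf (nat_lit 0) (nat_lit 3757570448) (nat_lit 912) (nat_lit 1523249302) (nat_lit 988) (nat_lit 2075266416) (nat_lit 466) (nat_lit 5) (nat_lit 478) (nat_lit 5) (nat_lit 479) (nat_lit 5) (nat_lit 422) (nat_lit 370) (nat_lit 348))))) (XT.nd (nat_lit 312) (nat_lit 2508) (nat_lit 0) (XT.nd (nat_lit 156) (nat_lit 1824) (nat_lit 0) (XT.nd (nat_lit 78) (nat_lit 0) (nat_lit 0) (XT.lf (nat_lit 0) (nat_lit 965431678) (nat_lit 988) (nat_lit 5718558587) (nat_lit 76) (nat_lit 719904910) (nat_lit 453) (nat_lit 5) (nat_lit 466) (nat_lit 5) (nat_lit 454) (nat_lit 5) (nat_lit 423) (nat_lit 370) (nat_lit 347)) (XT.lf (nat_lit 0) (nat_lit 4017636970) (nat_lit 988)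 (nat_lit 412141648) (nat_lit 76) (nat_lit 3023037775) (nat_lit 453) (nat_lit 5) (nat_lit 466) (nat_lit 5) (nat_lit 454) (nat_lit 5) (nat_lit 424) (nat_lit 370) (nat_lit 346))) (XT.nd (nat_lit 78) (nat_lit 988) (nat_lit 0) (XT.lf (nat_lit 0) (nat_lit 5007630722) (nat_lit 836) (nat_lit 2100924858) (nat_lit 912) (nat_lit 394607072) (nat_lit 442) (nat_lit 5) (nat_lit 453) (nat_lit 5) (nat_lit 454) (nat_lit 5) (nat_lit 425) (nat_lit 370) (nat_lit 345)) (XT.lf (nat_lit 0) (nat_lit 2640721413) (nat_lit 988) (nat_lit 4607608759) (nat_lit 76) (nat_lit 306445289) (nat_lit 429) (nat_lit 5) (nat_lit 442) (nat_lit 5) (nat_lit 430) (nat_lit 5) (nat_lit 426) (nat_lit 370) (nat_lit 344)))) (XT.nd (nat_lit 156) (nat_lit 1596) (nat_lit 0) (XT.nd (nat_lit 78) (nat_lit 76) (nat_lit 0) (XT.lf (nat_lit 0) (nat_lit 860663032) (nat_lit 836) (nat_lit 4853329106) (nat_lit 912) (nat_lit 1893725830) (nat_lit 418) (nat_lit 5) (nat_lit 429)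 (nat_lit 5) (nat_lit 430) (nat_lit 5) (nat_lit 427) (nat_lit 370) (nat_lit 343)) (XT.lf (nat_lit 0) (nat_lit 1149041438) (nat_lit 912) (nat_lit 1228023553) (nat_lit 76) (nat_lit 5284948192) (nat_lit 417) (nat_lit 5) (nat_lit 429) (nat_lit 5) (nat_lit 418) (nat_lit 5) (nat_lit 428) (nat_lit 370) (nat_lit 342))) (XT.nd (nat_lit 78) (nat_lit 760) (nat_lit 0) (XT.lf (nat_lit 0) (nat_lit 4204542411) (nat_lit 912) (nat_lit 3331023486) (nat_lit 76) (nat_lit 182033349) (nat_lit 406) (nat_lit 5) (nat_lit 418) (nat_lit 5) (nat_lit 407) (nat_lit 5) (nat_lit 429) (nat_lit 370) (nat_lit 341)) (XT.lf (nat_lit 0) (nat_lit 2311291130) (nat_lit 760) (nat_lit 4997041175) (nat_lit 836) (nat_lit 466221145) (nat_lit 396) (nat_lit 5) (nat_lit 406) (nat_lit 5) (nat_lit 407) (nat_lit 5) (nat_lit 430) (nat_lit 370) (nat_lit 340)))))) (XT.nd (nat_lit 624) (nat_lit 3800) (nat_lit 0) (XT.nd (nat_lit 312) (nat_lit 2204) (nat_lit 0) (XT.nd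 (nat_lit 156) (nat_lit 1596) (nat_lit 0) (XT.nd (nat_lit 78) (nat_lit 0) (nat_lit 0) (XT.lf (nat_lit 0) (nat_lit 205297048) (nat_lit 760) (nat_lit 2373874538) (nat_lit 836) (nat_lit 5253686846) (nat_lit 385) (nat_lit 5) (nat_lit 395) (nat_lit 5) (nat_lit 396) (nat_lit 5) (nat_lit 431) (nat_lit 370) (nat_lit 339)) (XT.lf (nat_lit 0) (nat_lit 5667103868) (nat_lit 836) (nat_lit 1895678584) (nat_lit 76) (nat_lit 329727937) (nat_lit 385) (nat_lit 5) (nat_lit 396) (nat_lit 5) (nat_lit 386) (nat_lit 5) (nat_lit 432) (nat_lit 370) (nat_lit 338))) (XT.nd (nat_lit 78) (nat_lit 760) (nat_lit 0) (XT.lf (nat_lit 0) (nat_lit 843284742) (nat_lit 836) (nat_lit 4031343306) (nat_lit 76) (nat_lit 3078791826) (nat_lit 374) (nat_lit 5) (nat_lit 385) (nat_lit 5) (nat_lit 375) (nat_lit 5) (nat_lit 433) (nat_lit 370) (nat_lit 337)) (XT.lf (nat_lit 0) (nat_lit 1816419106) (nat_lit 760) (nat_lit 2102037422) (nat_lit 836) (nat_lit 4097298727)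 (nat_lit 364) (nat_lit 5) (nat_lit 374) (nat_lit 5) (nat_lit 375) (nat_lit 5) (nat_lit 434) (nat_lit 370) (nat_lit 336)))) (XT.nd (nat_lit 156) (nat_lit 1444) (nat_lit 0) (XT.nd (nat_lit 78) (nat_lit 760) (nat_lit 0) (XT.lf (nat_lit 0) (nat_lit 7037886036) (nat_lit 836) (nat_lit 307608704) (nat_lit 76) (nat_lit 734187516) (nat_lit 364) (nat_lit 5) (nat_lit 375) (nat_lit 5) (nat_lit 365) (nat_lit 5) (nat_lit 435) (nat_lit 370) (nat_lit 335)) (XT.lf (nat_lit 0) (nat_lit 2050353315) (nat_lit 760) (nat_lit 2454008343) (nat_lit 76) (nat_lit 3640201746) (nat_lit 354) (nat_lit 5) (nat_lit 364) (nat_lit 5) (nat_lit 355) (nat_lit 5) (nat_lit 436) (nat_lit 370) (nat_lit 334))) (XT.nd (nat_lit 78) (nat_lit 760) (nat_lit 0) (XT.lf (nat_lit 0) (nat_lit 3583451479) (nat_lit 684) (nat_lit 1584327774) (nat_lit 760) (nat_lit 3043277535) (nat_lit 345) (nat_lit 5) (nat_lit 354) (nat_lit 5) (nat_lit 355) (nat_lit 5) (nat_lit 437)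 (nat_lit 370) (nat_lit 333)) (XT.lf (nat_lit 0) (nat_lit 55229212) (nat_lit 760) (nat_lit 6832576302) (nat_lit 76) (nat_lit 1391316485) (nat_lit 335) (nat_lit 5) (nat_lit 345) (nat_lit 5) (nat_lit 336) (nat_lit 5) (nat_lit 438) (nat_lit 370) (nat_lit 332))))) (XT.nd (nat_lit 312) (nat_lit 1824) (nat_lit 0) (XT.nd (nat_lit 156) (nat_lit 1292) (nat_lit 0) (XT.nd (nat_lit 78) (nat_lit 684) (nat_lit 0) (XT.lf (nat_lit 0) (nat_lit 3169500353) (nat_lit 760) (nat_lit 733383532) (nat_lit 76) (nat_lit 4445371433) (nat_lit 335) (nat_lit 5) (nat_lit 345) (nat_lit 5) (nat_lit 336) (nat_lit 5) (nat_lit 439) (nat_lit 370) (nat_lit 331)) (XT.lf (nat_lit 0) (nat_lit 5501602323) (nat_lit 684) (nat_lit 833855130) (nat_lit 760) (nat_lit 2083525839) (nat_lit 326) (nat_lit 5) (nat_lit 335) (nat_lit 5) (nat_lit 336) (nat_lit 5) (nat_lit 440) (nat_lit 370) (nat_lit 330))) (XT.nd (nat_lit 78) (nat_lit 608) (nat_lit 0) (XT.lf (nat_lit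 0) (nat_lit 1055250279) (nat_lit 684) (nat_lit 5147751902) (nat_lit 76) (nat_lit 2288069774) (nat_lit 317) (nat_lit 5) (nat_lit 326) (nat_lit 5) (nat_lit 318) (nat_lit 5) (nat_lit 441) (nat_lit 370) (nat_lit 329)) (XT.lf (nat_lit 0) (nat_lit 1141067439) (nat_lit 608) (nat_lit 3074852886) (nat_lit 684) (nat_lit 4348666288) (nat_lit 309) (nat_lit 5) (nat_lit 317) (nat_lit 5) (nat_lit 318) (nat_lit 5) (nat_lit 442) (nat_lit 370) (nat_lit 328)))) (XT.nd (nat_lit 156) (nat_lit 1140) (nat_lit 0) (XT.nd (nat_lit 78) (nat_lit 684) (nat_lit 0) (XT.lf (nat_lit 0) (nat_lit 7430108783) (nat_lit 684) (nat_lit 1073864056) (nat_lit 76) (nat_lit 135792624) (nat_lit 309) (nat_lit 5) (nat_lit 318) (nat_lit 5) (nat_lit 310) (nat_lit 5) (nat_lit 443) (nat_lit 370) (nat_lit 327)) (XT.lf (nat_lit 0) (nat_lit 1977136222) (nat_lit 684) (nat_lit 3334337372) (nat_lit 76) (nat_lit 3404493007) (nat_lit 300) (nat_lit 5) (nat_lit 309) (nat_lit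 5) (nat_lit 301) (nat_lit 5) (nat_lit 444) (nat_lit 370) (nat_lit 326))) (XT.nd (nat_lit 78) (nat_lit 532) (nat_lit 0) (XT.lf (nat_lit 0) (nat_lit 3162172883) (nat_lit 608) (nat_lit 2032964382) (nat_lit 684) (nat_lit 3598721187) (nat_lit 292) (nat_lit 5) (nat_lit 300) (nat_lit 5) (nat_lit 301) (nat_lit 5) (nat_lit 445) (nat_lit 370) (nat_lit 325)) (XT.lf (nat_lit 0) (nat_lit 905286325) (nat_lit 532) (nat_lit 7565389538) (nat_lit 608) (nat_lit 402768726) (nat_lit 285) (nat_lit 5) (nat_lit 292) (nat_lit 5) (nat_lit 293) (nat_lit 5) (nat_lit 446) (nat_lit 370) (nat_lit 324))))))) (XT.nd (nat_lit 55536) (nat_lit 0) (nat_lit 28880) (XT.nd (nat_lit 624) (nat_lit 2584) (nat_lit 0) (XT.nd (nat_lit 312) (nat_lit 1596) (nat_lit 0) (XT.nd (nat_lit 156) (nat_lit 1140) (nat_lit 0) (XT.nd (nat_lit 78) (nat_lit 608) (nat_lit 0) (XT.lf (nat_lit 0) (nat_lit 2827591746) (nat_lit 608) (nat_lit 1395861530) (nat_lit 76) (nat_lit 4730638961)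 (nat_lit 284) (nat_lit 5) (nat_lit 292) (nat_lit 5) (nat_lit 285) (nat_lit 5) (nat_lit 447) (nat_lit 370) (nat_lit 323)) (XT.lf (nat_lit 0) (nat_lit 5317038169) (nat_lit 608) (nat_lit 791963976) (nat_lit 684) (nat_lit 2927460732) (nat_lit 276) (nat_lit 5) (nat_lit 284) (nat_lit 5) (nat_lit 285) (nat_lit 5) (nat_lit 448) (nat_lit 370) (nat_lit 322))) (XT.nd (nat_lit 78) (nat_lit 532) (nat_lit 0) (XT.lf (nat_lit 0) (nat_lit 335523666) (nat_lit 608) (nat_lit 6096002599) (nat_lit 76) (nat_lit 2688823796) (nat_lit 268) (nat_lit 5) (nat_lit 276) (nat_lit 5) (nat_lit 269) (nat_lit 5) (nat_lit 449) (nat_lit 370) (nat_lit 321)) (XT.lf (nat_lit 0) (nat_lit 673583450) (nat_lit 532) (nat_lit 2943614982) (nat_lit 608) (nat_lit 5588476959) (nat_lit 261) (nat_lit 5) (nat_lit 268) (nat_lit 5) (nat_lit 269) (nat_lit 5) (nat_lit 450) (nat_lit 370) (nat_lit 320)))) (XT.nd (nat_lit 156) (nat_lit 988) (nat_lit 0) (XT.nd (nat_lit 78)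 (nat_lit 608) (nat_lit 0) (XT.lf (nat_lit 0) (nat_lit 6967865053) (nat_lit 608) (nat_lit 1693746439) (nat_lit 76) (nat_lit 631028567) (nat_lit 261) (nat_lit 5) (nat_lit 269) (nat_lit 5) (nat_lit 262) (nat_lit 5) (nat_lit 451) (nat_lit 370) (nat_lit 319)) (XT.lf (nat_lit 0) (nat_lit 1003860567) (nat_lit 608) (nat_lit 4114301059) (nat_lit 76) (nat_lit 4262795399) (nat_lit 253) (nat_lit 5) (nat_lit 261) (nat_lit 5) (nat_lit 254) (nat_lit 5) (nat_lit 452) (nat_lit 370) (nat_lit 318))) (XT.nd (nat_lit 78) (nat_lit 456) (nat_lit 0) (XT.lf (nat_lit 0) (nat_lit 2882947600) (nat_lit 532) (nat_lit 1474357088) (nat_lit 608) (nat_lit 5113641016) (nat_lit 246) (nat_lit 5) (nat_lit 253) (nat_lit 5) (nat_lit 254) (nat_lit 5) (nat_lit 453) (nat_lit 370) (nat_lit 317)) (XT.lf (nat_lit 0) (nat_lit 446725780) (nat_lit 456) (nat_lit 7335836309) (nat_lit 532) (nat_lit 1780077179) (nat_lit 240) (nat_lit 5) (nat_lit 246) (nat_lit 5)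 (nat_lit 247) (nat_lit 5) (nat_lit 454) (nat_lit 370) (nat_lit 316))))) (XT.nd (nat_lit 312) (nat_lit 988) (nat_lit 0) (XT.nd (nat_lit 156) (nat_lit 988) (nat_lit 0) (XT.nd (nat_lit 78) (nat_lit 532) (nat_lit 0) (XT.lf (nat_lit 0) (nat_lit 1612822163) (nat_lit 532) (nat_lit 2022687400) (nat_lit 76) (nat_lit 6020168501) (nat_lit 239) (nat_lit 5) (nat_lit 246) (nat_lit 5) (nat_lit 240) (nat_lit 5) (nat_lit 455) (nat_lit 370) (nat_lit 315)) (XT.lf (nat_lit 0) (nat_lit 5045133118) (nat_lit 608) (nat_lit 4539709498) (nat_lit 76) (nat_lit 165591915) (nat_lit 232) (nat_lit 5) (nat_lit 240) (nat_lit 5) (nat_lit 233) (nat_lit 5) (nat_lit 456) (nat_lit 370) (nat_lit 314))) (XT.nd (nat_lit 78) (nat_lit 532) (nat_lit 0) (XT.lf (nat_lit 0) (nat_lit 2723537207) (nat_lit 456) (nat_lit 5838706892) (nat_lit 532) (nat_lit 1284518953) (nat_lit 226) (nat_lit 5) (nat_lit 232) (nat_lit 5) (nat_lit 233) (nat_lit 5) (nat_lit 457) (nat_lit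 370) (nat_lit 313)) (XT.lf (nat_lit 0) (nat_lit 179446782) (nat_lit 456) (nat_lit 1989021843) (nat_lit 532) (nat_lit 7776409150) (nat_lit 219) (nat_lit 5) (nat_lit 225) (nat_lit 5) (nat_lit 226) (nat_lit 5) (nat_lit 458) (nat_lit 370) (nat_lit 312)))) (XT.nd (nat_lit 156) (nat_lit 532) (nat_lit 0) (XT.nd (nat_lit 78) (nat_lit 456) (nat_lit 0) (XT.lf (nat_lit 0) (nat_lit 5695179626) (nat_lit 532) (nat_lit 2398516255) (nat_lit 76) (nat_lit 1950651829) (nat_lit 219) (nat_lit 5) (nat_lit 226) (nat_lit 5) (nat_lit 220) (nat_lit 5) (nat_lit 459) (nat_lit 370) (nat_lit 311)) (XT.lf (nat_lit 0) (nat_lit 5112911715) (nat_lit 456) (nat_lit 4187793239) (nat_lit 532) (nat_lit 844936487) (nat_lit 213) (nat_lit 5) (nat_lit 219) (nat_lit 5) (nat_lit 220) (nat_lit 5) (nat_lit 460) (nat_lit 370) (nat_lit 310))) (XT.nd (nat_lit 78) (nat_lit 0) (nat_lit 0) (XT.lf (nat_lit 0) (nat_lit 2516781294) (nat_lit 456) (nat_lit 171387361)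 (nat_lit 532) (nat_lit 7560546270) (nat_lit 206) (nat_lit 5) (nat_lit 212) (nat_lit 5) (nat_lit 213) (nat_lit 5) (nat_lit 461) (nat_lit 370) (nat_lit 309)) (XT.lf (nat_lit 0) (nat_lit 6302412373) (nat_lit 532) (nat_lit 156072982) (nat_lit 76) (nat_lit 3894817018) (nat_lit 206) (nat_lit 5) (nat_lit 213) (nat_lit 5) (nat_lit 207) (nat_lit 5) (nat_lit 462) (nat_lit 370) (nat_lit 308)))))) (XT.nd (nat_lit 624) (nat_lit 8284) (nat_lit 0) (XT.nd (nat_lit 312) (nat_lit 2204) (nat_lit 0) (XT.nd (nat_lit 156) (nat_lit 1824) (nat_lit 0) (XT.nd (nat_lit 78) (nat_lit 0) (nat_lit 0) (XT.lf (nat_lit 0) (nat_lit 312290560) (nat_lit 836) (nat_lit 2673315549) (nat_lit 0) (nat_lit 312290560) (nat_lit 748) (nat_lit 5) (nat_lit 759) (nat_lit 4) (nat_lit 748) (nat_lit 4) (nat_lit 398) (nat_lit 371) (nat_lit 371)) (XT.lf (nat_lit 0) (nat_lit 3912464086) (nat_lit 836) (nat_lit 1181865454) (nat_lit 0) (nat_lit 1519046112) (nat_lit 748)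 (nat_lit 5) (nat_lit 759) (nat_lit 4) (nat_lit 748) (nat_lit 4) (nat_lit 399) (nat_lit 371) (nat_lit 370))) (XT.nd (nat_lit 78) (nat_lit 912) (nat_lit 0) (XT.lf (nat_lit 0) (nat_lit 571431741) (nat_lit 912) (nat_lit 3585614065) (nat_lit 76) (nat_lit 2475282133) (nat_lit 736) (nat_lit 5) (nat_lit 748) (nat_lit 5) (nat_lit 737) (nat_lit 4) (nat_lit 400) (nat_lit 371) (nat_lit 369)) (XT.lf (nat_lit 0) (nat_lit 658814749) (nat_lit 912) (nat_lit 3152670186) (nat_lit 988) (nat_lit 2841048712) (nat_lit 724) (nat_lit 5) (nat_lit 736) (nat_lit 5) (nat_lit 737) (nat_lit 4) (nat_lit 401) (nat_lit 371) (nat_lit 368)))) (XT.nd (nat_lit 156) (nat_lit 1140) (nat_lit 0) (XT.nd (nat_lit 78) (nat_lit 988) (nat_lit 0) (XT.lf (nat_lit 0) (nat_lit 388340754) (nat_lit 988) (nat_lit 1695837455) (nat_lit 76) (nat_lit 4589888558) (nat_lit 723) (nat_lit 5) (nat_lit 736) (nat_lit 5) (nat_lit 724) (nat_lit 5) (nat_lit 402) (nat_lit 371) (nat_lit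 367)) (XT.lf (nat_lit 0) (nat_lit 2648158557) (nat_lit 988) (nat_lit 941520422) (nat_lit 1064) (nat_lit 3107067931) (nat_lit 710) (nat_lit 5) (nat_lit 723) (nat_lit 5) (nat_lit 724) (nat_lit 5) (nat_lit 403) (nat_lit 371) (nat_lit 366))) (XT.nd (nat_lit 78) (nat_lit 0) (nat_lit 0) (XT.lf (nat_lit 0) (nat_lit 77384974) (nat_lit 1140) (nat_lit 6393266191) (nat_lit 76) (nat_lit 250332053) (nat_lit 695) (nat_lit 5) (nat_lit 710) (nat_lit 5) (nat_lit 696) (nat_lit 5) (nat_lit 404) (nat_lit 371) (nat_lit 365)) (XT.lf (nat_lit 0) (nat_lit 3247425034) (nat_lit 1140) (nat_lit 1983189782) (nat_lit 76) (nat_lit 1515408646) (nat_lit 695) (nat_lit 5) (nat_lit 710) (nat_lit 5) (nat_lit 696) (nat_lit 5) (nat_lit 405) (nat_lit 371) (nat_lit 364))))) (XT.nd (nat_lit 312) (nat_lit 4484) (nat_lit 0) (XT.nd (nat_lit 156) (nat_lit 1368) (nat_lit 0) (XT.nd (nat_lit 78) (nat_lit 1292) (nat_lit 0) (XT.lf (nat_lit 0) (nat_lit 2491425088)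 (nat_lit 1140) (nat_lit 3936871233) (nat_lit 1216) (nat_lit 344319581) (nat_lit 680) (nat_lit 5) (nat_lit 695) (nat_lit 5) (nat_lit 696) (nat_lit 5) (nat_lit 406) (nat_lit 371) (nat_lit 363)) (XT.lf (nat_lit 0) (nat_lit 210079900) (nat_lit 1216) (nat_lit 2571835068) (nat_lit 1292) (nat_lit 4018521137) (nat_lit 663) (nat_lit 5) (nat_lit 679) (nat_lit 5) (nat_lit 680) (nat_lit 5) (nat_lit 407) (nat_lit 371) (nat_lit 362))) (XT.nd (nat_lit 78) (nat_lit 1368) (nat_lit 0) (XT.lf (nat_lit 0) (nat_lit 4790397928) (nat_lit 1216) (nat_lit 1137145068) (nat_lit 1292) (nat_lit 901994612) (nat_lit 663) (nat_lit 5) (nat_lit 679) (nat_lit 5) (nat_lit 680) (nat_lit 5) (nat_lit 408) (nat_lit 371) (nat_lit 361)) (XT.lf (nat_lit 0) (nat_lit 2199693739) (nat_lit 1368) (nat_lit 4296617713) (nat_lit 76) (nat_lit 363560177) (nat_lit 645) (nat_lit 5) (nat_lit 663) (nat_lit 5) (nat_lit 646) (nat_lit 5) (nat_lit 409) (nat_lit 371) (nat_lit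 360)))) (XT.nd (nat_lit 156) (nat_lit 3040) (nat_lit 0) (XT.nd (nat_lit 78) (nat_lit 76) (nat_lit 0) (XT.lf (nat_lit 0) (nat_lit 328233646) (nat_lit 1368) (nat_lit 4981194650) (nat_lit 1444) (nat_lit 1582102987) (nat_lit 627) (nat_lit 5) (nat_lit 645) (nat_lit 5) (nat_lit 646) (nat_lit 5) (nat_lit 410) (nat_lit 371) (nat_lit 359)) (XT.lf (nat_lit 0) (nat_lit 1501257569) (nat_lit 1444) (nat_lit 1887486603) (nat_lit 76) (nat_lit 3535594676) (nat_lit 626) (nat_lit 5) (nat_lit 645) (nat_lit 5) (nat_lit 627) (nat_lit 5) (nat_lit 411) (nat_lit 371) (nat_lit 358))) (XT.nd (nat_lit 78) (nat_lit 1596) (nat_lit 0) (XT.lf (nat_lit 0) (nat_lit 2852142592) (nat_lit 1444) (nat_lit 1727896166) (nat_lit 1520) (nat_lit 2378455900) (nat_lit 607) (nat_lit 5) (nat_lit 626) (nat_lit 5) (nat_lit 627) (nat_lit 5) (nat_lit 412) (nat_lit 371) (nat_lit 357)) (XT.lf (nat_lit 0) (nat_lit 665905117) (nat_lit 1520) (nat_lit 5561170) (nat_lit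 1596) (nat_lit 6322694086) (nat_lit 586) (nat_lit 5) (nat_lit 606) (nat_lit 5) (nat_lit 607) (nat_lit 5) (nat_lit 413) (nat_lit 371) (nat_lit 356))))))))
noncomputable def xc19 : XT := (XT.nd (nat_lit 2496) (nat_lit 6536) (nat_lit 0) (XT.nd (nat_lit 1248) (nat_lit 8664) (nat_lit 0) (XT.nd (nat_lit 624) (nat_lit 5472) (nat_lit 0) (XT.nd (nat_lit 312) (nat_lit 4864) (nat_lit 0) (XT.nd (nat_lit 156) (nat_lit 1748) (nat_lit 0) (XT.nd (nat_lit 78) (nat_lit 1596) (nat_lit 0) (XT.lf (nat_lit 0) (nat_lit 3727449639) (nat_lit 1596) (nat_lit 1526021155) (nat_lit 76) (nat_lit 1777215974) (nat_lit 586) (nat_lit 5) (nat_lit 607) (nat_lit 5) (nat_lit 587) (nat_lit 5) (nat_lit 414) (nat_lit 371) (nat_lit 355)) (XT.lf (nat_lit 0) (nat_lit 3359418354) (nat_lit 1596) (nat_lit 3445974972) (nat_lit 1672) (nat_lit 263333549) (nat_lit 565) (nat_lit 5) (nat_lit 586) (nat_lit 5) (nat_lit 587) (nat_lit 5) (nat_lit 415) (nat_lit 371) (nat_lit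 354))) (XT.nd (nat_lit 78) (nat_lit 0) (nat_lit 0) (XT.lf (nat_lit 0) (nat_lit 1195830165) (nat_lit 1672) (nat_lit 1561820900) (nat_lit 1748) (nat_lit 4350358367) (nat_lit 542) (nat_lit 5) (nat_lit 564) (nat_lit 5) (nat_lit 565) (nat_lit 5) (nat_lit 416) (nat_lit 371) (nat_lit 353)) (XT.lf (nat_lit 0) (nat_lit 5803186268) (nat_lit 1748) (nat_lit 960603238) (nat_lit 76) (nat_lit 384900184) (nat_lit 542) (nat_lit 5) (nat_lit 565) (nat_lit 5) (nat_lit 543) (nat_lit 5) (nat_lit 417) (nat_lit 371) (nat_lit 352)))) (XT.nd (nat_lit 156) (nat_lit 1216) (nat_lit 0) (XT.nd (nat_lit 78) (nat_lit 1824) (nat_lit 0) (XT.lf (nat_lit 0) (nat_lit 1674993048) (nat_lit 1824) (nat_lit 3125507815) (nat_lit 76) (nat_lit 2389897508) (nat_lit 518) (nat_lit 5) (nat_lit 542) (nat_lit 5) (nat_lit 519) (nat_lit 5) (nat_lit 418) (nat_lit 371) (nat_lit 351)) (XT.lf (nat_lit 0) (nat_lit 1930075335) (nat_lit 1824) (nat_lit 2768674249) (nat_lit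 1900) (nat_lit 2534796437) (nat_lit 494) (nat_lit 5) (nat_lit 518) (nat_lit 5) (nat_lit 519) (nat_lit 5) (nat_lit 419) (nat_lit 371) (nat_lit 350))) (XT.nd (nat_lit 78) (nat_lit 1140) (nat_lit 0) (XT.lf (nat_lit 0) (nat_lit 462128323) (nat_lit 1900) (nat_lit 209198484) (nat_lit 76) (nat_lit 6606897537) (nat_lit 493) (nat_lit 5) (nat_lit 518) (nat_lit 5) (nat_lit 494) (nat_lit 5) (nat_lit 420) (nat_lit 371) (nat_lit 349)) (XT.lf (nat_lit 0) (nat_lit 3470617178) (nat_lit 1216) (nat_lit 2354977801) (nat_lit 76) (nat_lit 1498154825) (nat_lit 478) (nat_lit 5) (nat_lit 494) (nat_lit 5) (nat_lit 479) (nat_lit 5) (nat_lit 421) (nat_lit 371) (nat_lit 348))))) (XT.nd (nat_lit 312) (nat_lit 2660) (nat_lit 0) (XT.nd (nat_lit 156) (nat_lit 912) (nat_lit 0) (XT.nd (nat_lit 78) (nat_lit 988) (nat_lit 0) (XT.lf (nat_lit 0) (nat_lit 2858628019) (nat_lit 912) (nat_lit 3649162545) (nat_lit 988) (nat_lit 863024913) (nat_lit 466) (nat_lit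 5) (nat_lit 478) (nat_lit 5) (nat_lit 479) (nat_lit 5) (nat_lit 422) (nat_lit 371) (nat_lit 347)) (XT.lf (nat_lit 0) (nat_lit 727409874) (nat_lit 912) (nat_lit 1395880551) (nat_lit 988) (nat_lit 5295946327) (nat_lit 453) (nat_lit 5) (nat_lit 465) (nat_lit 5) (nat_lit 466) (nat_lit 5) (nat_lit 423) (nat_lit 371) (nat_lit 346))) (XT.nd (nat_lit 78) (nat_lit 912) (nat_lit 0) (XT.lf (nat_lit 0) (nat_lit 5139282414) (nat_lit 988) (nat_lit 1405282049) (nat_lit 76) (nat_lit 924317773) (nat_lit 453) (nat_lit 5) (nat_lit 466) (nat_lit 5) (nat_lit 454) (nat_lit 5) (nat_lit 424) (nat_lit 371) (nat_lit 345)) (XT.lf (nat_lit 0) (nat_lit 668088801) (nat_lit 912) (nat_lit 3551743306) (nat_lit 76) (nat_lit 3299975249) (nat_lit 441) (nat_lit 5) (nat_lit 453) (nat_lit 5) (nat_lit 442) (nat_lit 5) (nat_lit 425) (nat_lit 371) (nat_lit 344)))) (XT.nd (nat_lit 156) (nat_lit 1748) (nat_lit 0) (XT.nd (nat_lit 78) (nat_lit 0) (nat_lit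 0) (XT.lf (nat_lit 0) (nat_lit 1847467305) (nat_lit 912) (nat_lit 1815152177) (nat_lit 988) (nat_lit 3909461891) (nat_lit 429) (nat_lit 5) (nat_lit 441) (nat_lit 5) (nat_lit 442) (nat_lit 5) (nat_lit 426) (nat_lit 371) (nat_lit 343)) (XT.lf (nat_lit 0) (nat_lit 6692384194) (nat_lit 988) (nat_lit 284697707) (nat_lit 76) (nat_lit 648812101) (nat_lit 429) (nat_lit 5) (nat_lit 442) (nat_lit 5) (nat_lit 430) (nat_lit 5) (nat_lit 427) (nat_lit 371) (nat_lit 342))) (XT.nd (nat_lit 78) (nat_lit 836) (nat_lit 0) (XT.lf (nat_lit 0) (nat_lit 2068801196) (nat_lit 912) (nat_lit 2430611481) (nat_lit 76) (nat_lit 3181209110) (nat_lit 417) (nat_lit 5) (nat_lit 429) (nat_lit 5) (nat_lit 418) (nat_lit 5) (nat_lit 428) (nat_lit 371) (nat_lit 341)) (XT.lf (nat_lit 0) (nat_lit 3140410199) (nat_lit 836) (nat_lit 1949127436) (nat_lit 912) (nat_lit 2647365505) (nat_lit 406) (nat_lit 5) (nat_lit 417) (nat_lit 5) (nat_lit 418) (nat_lit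 5) (nat_lit 429) (nat_lit 371) (nat_lit 340)))))) (XT.nd (nat_lit 624) (nat_lit 4028) (nat_lit 0) (XT.nd (nat_lit 312) (nat_lit 2204) (nat_lit 0) (XT.nd (nat_lit 156) (nat_lit 1596) (nat_lit 0) (XT.nd (nat_lit 78) (nat_lit 0) (nat_lit 0) (XT.lf (nat_lit 0) (nat_lit 347666168) (nat_lit 836) (nat_lit 6784359491) (nat_lit 76) (nat_lit 662711112) (nat_lit 395) (nat_lit 5) (nat_lit 406) (nat_lit 5) (nat_lit 396) (nat_lit 5) (nat_lit 430) (nat_lit 371) (nat_lit 339)) (XT.lf (nat_lit 0) (nat_lit 3360582703) (nat_lit 836) (nat_lit 1150398495) (nat_lit 76) (nat_lit 3342527245) (nat_lit 395) (nat_lit 5) (nat_lit 406) (nat_lit 5) (nat_lit 396) (nat_lit 5) (nat_lit 431) (nat_lit 371) (nat_lit 338))) (XT.nd (nat_lit 78) (nat_lit 836) (nat_lit 0) (XT.lf (nat_lit 0) (nat_lit 4599371863) (nat_lit 760) (nat_lit 1814681241) (nat_lit 836) (nat_lit 1499796534) (nat_lit 385) (nat_lit 5) (nat_lit 395) (nat_lit 5) (nat_lit 396) (nat_lit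 5) (nat_lit 432) (nat_lit 371) (nat_lit 337)) (XT.lf (nat_lit 0) (nat_lit 1513585431) (nat_lit 836) (nat_lit 5512683627) (nat_lit 76) (nat_lit 949311699) (nat_lit 374) (nat_lit 5) (nat_lit 385) (nat_lit 5) (nat_lit 375) (nat_lit 5) (nat_lit 433) (nat_lit 371) (nat_lit 336)))) (XT.nd (nat_lit 156) (nat_lit 1444) (nat_lit 0) (XT.nd (nat_lit 78) (nat_lit 0) (nat_lit 0) (XT.lf (nat_lit 0) (nat_lit 286292378) (nat_lit 760) (nat_lit 4268398222) (nat_lit 836) (nat_lit 3483906869) (nat_lit 364) (nat_lit 5) (nat_lit 374) (nat_lit 5) (nat_lit 375) (nat_lit 5) (nat_lit 434) (nat_lit 371) (nat_lit 335)) (XT.lf (nat_lit 0) (nat_lit 6218344028) (nat_lit 760) (nat_lit 1427101825) (nat_lit 836) (nat_lit 457652103) (nat_lit 364) (nat_lit 5) (nat_lit 374) (nat_lit 5) (nat_lit 375) (nat_lit 5) (nat_lit 435) (nat_lit 371) (nat_lit 334))) (XT.nd (nat_lit 78) (nat_lit 684) (nat_lit 0) (XT.lf (nat_lit 0) (nat_lit 2583376407) (nat_lit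 760) (nat_lit 4099295488) (nat_lit 76) (nat_lit 1486100553) (nat_lit 354) (nat_lit 5) (nat_lit 364) (nat_lit 5) (nat_lit 355) (nat_lit 5) (nat_lit 436) (nat_lit 371) (nat_lit 333)) (XT.lf (nat_lit 0) (nat_lit 1887389760) (nat_lit 684) (nat_lit 3779116796) (nat_lit 760) (nat_lit 2569445193) (nat_lit 345) (nat_lit 5) (nat_lit 354) (nat_lit 5) (nat_lit 355) (nat_lit 5) (nat_lit 437) (nat_lit 371) (nat_lit 332))))) (XT.nd (nat_lit 312) (nat_lit 1900) (nat_lit 0) (XT.nd (nat_lit 156) (nat_lit 1368) (nat_lit 0) (XT.nd (nat_lit 78) (nat_lit 684) (nat_lit 0) (XT.lf (nat_lit 0) (nat_lit 481077509) (nat_lit 760) (nat_lit 315895657) (nat_lit 76) (nat_lit 7507817657) (nat_lit 344) (nat_lit 5) (nat_lit 354) (nat_lit 5) (nat_lit 345) (nat_lit 5) (nat_lit 438) (nat_lit 371) (nat_lit 331)) (XT.lf (nat_lit 0) (nat_lit 3565151694) (nat_lit 760) (nat_lit 2549428922) (nat_lit 76) (nat_lit 2259947465) (nat_lit 335) (nat_lit 5) (nat_lit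 345) (nat_lit 5) (nat_lit 336) (nat_lit 5) (nat_lit 439) (nat_lit 371) (nat_lit 330))) (XT.nd (nat_lit 78) (nat_lit 684) (nat_lit 0) (XT.lf (nat_lit 0) (nat_lit 3632728871) (nat_lit 684) (nat_lit 3063765121) (nat_lit 760) (nat_lit 1749454360) (nat_lit 326) (nat_lit 5) (nat_lit 335) (nat_lit 5) (nat_lit 336) (nat_lit 5) (nat_lit 440) (nat_lit 371) (nat_lit 329)) (XT.lf (nat_lit 0) (nat_lit 1335309618) (nat_lit 684) (nat_lit 7112824776) (nat_lit 76) (nat_lit 70851855) (nat_lit 317) (nat_lit 5) (nat_lit 326) (nat_lit 5) (nat_lit 318) (nat_lit 5) (nat_lit 441) (nat_lit 371) (nat_lit 328)))) (XT.nd (nat_lit 156) (nat_lit 1292) (nat_lit 0) (XT.nd (nat_lit 78) (nat_lit 608) (nat_lit 0) (XT.lf (nat_lit 0) (nat_lit 4466416730) (nat_lit 684) (nat_lit 867614656) (nat_lit 76) (nat_lit 3259060780) (nat_lit 317) (nat_lit 5) (nat_lit 326) (nat_lit 5) (nat_lit 318) (nat_lit 5) (nat_lit 442) (nat_lit 371) (nat_lit 327)) (XT.lf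 (nat_lit 0) (nat_lit 5518144938) (nat_lit 608) (nat_lit 2133954164) (nat_lit 684) (nat_lit 1016742035) (nat_lit 309) (nat_lit 5) (nat_lit 317) (nat_lit 5) (nat_lit 318) (nat_lit 5) (nat_lit 443) (nat_lit 371) (nat_lit 326))) (XT.nd (nat_lit 78) (nat_lit 608) (nat_lit 0) (XT.lf (nat_lit 0) (nat_lit 2118065125) (nat_lit 684) (nat_lit 5484377017) (nat_lit 76) (nat_lit 1143564195) (nat_lit 300) (nat_lit 5) (nat_lit 309) (nat_lit 5) (nat_lit 301) (nat_lit 5) (nat_lit 444) (nat_lit 371) (nat_lit 325)) (XT.lf (nat_lit 0) (nat_lit 954799258) (nat_lit 608) (nat_lit 4345516814) (nat_lit 684) (nat_lit 3524297118) (nat_lit 292) (nat_lit 5) (nat_lit 300) (nat_lit 5) (nat_lit 301) (nat_lit 5) (nat_lit 445) (nat_lit 371) (nat_lit 324))))))) (XT.nd (nat_lit 1248) (nat_lit 456) (nat_lit 0) (XT.nd (nat_lit 624) (nat_lit 2584) (nat_lit 0) (XT.nd (nat_lit 312) (nat_lit 1672) (nat_lit 0) (XT.nd (nat_lit 156) (nat_lit 1216) (nat_lit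 0) (XT.nd (nat_lit 78) (nat_lit 608) (nat_lit 0) (XT.lf (nat_lit 0) (nat_lit 7540143005) (nat_lit 608) (nat_lit 1000085519) (nat_lit 684) (nat_lit 364683326) (nat_lit 292) (nat_lit 5) (nat_lit 300) (nat_lit 5) (nat_lit 301) (nat_lit 5) (nat_lit 446) (nat_lit 371) (nat_lit 323)) (XT.lf (nat_lit 0) (nat_lit 2828512074) (nat_lit 608) (nat_lit 3738063280) (nat_lit 76) (nat_lit 2419712511) (nat_lit 284) (nat_lit 5) (nat_lit 292) (nat_lit 5) (nat_lit 285) (nat_lit 5) (nat_lit 447) (nat_lit 371) (nat_lit 322))) (XT.nd (nat_lit 78) (nat_lit 608) (nat_lit 0) (XT.lf (nat_lit 0) (nat_lit 2915230309) (nat_lit 608) (nat_lit 3158378276) (nat_lit 684) (nat_lit 2995776198) (nat_lit 276) (nat_lit 5) (nat_lit 284) (nat_lit 5) (nat_lit 285) (nat_lit 5) (nat_lit 448) (nat_lit 371) (nat_lit 321)) (XT.lf (nat_lit 0) (nat_lit 215749465) (nat_lit 608) (nat_lit 8609352851) (nat_lit 76) (nat_lit 329225615) (nat_lit 268) (nat_lit 5) (nat_lit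 276) (nat_lit 5) (nat_lit 269) (nat_lit 5) (nat_lit 449) (nat_lit 371) (nat_lit 320)))) (XT.nd (nat_lit 156) (nat_lit 1140) (nat_lit 0) (XT.nd (nat_lit 78) (nat_lit 532) (nat_lit 0) (XT.lf (nat_lit 0) (nat_lit 3472593688) (nat_lit 608) (nat_lit 1876969504) (nat_lit 76) (nat_lit 3890586679) (nat_lit 268) (nat_lit 5) (nat_lit 276) (nat_lit 5) (nat_lit 269) (nat_lit 5) (nat_lit 450) (nat_lit 371) (nat_lit 319)) (XT.lf (nat_lit 0) (nat_lit 4999449363) (nat_lit 532) (nat_lit 1787071911) (nat_lit 608) (nat_lit 2541328046) (nat_lit 261) (nat_lit 5) (nat_lit 268) (nat_lit 5) (nat_lit 269) (nat_lit 5) (nat_lit 451) (nat_lit 371) (nat_lit 318))) (XT.nd (nat_lit 78) (nat_lit 532) (nat_lit 0) (XT.lf (nat_lit 0) (nat_lit 740886997) (nat_lit 608) (nat_lit 6835015967) (nat_lit 76) (nat_lit 1841276656) (nat_lit 253) (nat_lit 5) (nat_lit 261) (nat_lit 5) (nat_lit 254) (nat_lit 5) (nat_lit 452) (nat_lit 371) (nat_lit 317)) (XT.lf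 (nat_lit 0) (nat_lit 97648129) (nat_lit 532) (nat_lit 3958785476) (nat_lit 608) (nat_lit 5451492644) (nat_lit 246) (nat_lit 5) (nat_lit 253) (nat_lit 5) (nat_lit 254) (nat_lit 5) (nat_lit 453) (nat_lit 371) (nat_lit 316))))) (XT.nd (nat_lit 312) (nat_lit 1520) (nat_lit 0) (XT.nd (nat_lit 156) (nat_lit 532) (nat_lit 0) (XT.nd (nat_lit 78) (nat_lit 532) (nat_lit 0) (XT.lf (nat_lit 0) (nat_lit 7205317968) (nat_lit 532) (nat_lit 239235708) (nat_lit 608) (nat_lit 2155808884) (nat_lit 246) (nat_lit 5) (nat_lit 253) (nat_lit 5) (nat_lit 254) (nat_lit 5) (nat_lit 454) (nat_lit 371) (nat_lit 315)) (XT.lf (nat_lit 0) (nat_lit 1205018827) (nat_lit 532) (nat_lit 4958511398) (nat_lit 76) (nat_lit 3530659909) (nat_lit 239) (nat_lit 5) (nat_lit 246) (nat_lit 5) (nat_lit 240) (nat_lit 5) (nat_lit 455) (nat_lit 371) (nat_lit 314))) (XT.nd (nat_lit 78) (nat_lit 0) (nat_lit 0) (XT.lf (nat_lit 0) (nat_lit 2208899326) (nat_lit 532)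 (nat_lit 2388643074) (nat_lit 608) (nat_lit 5192199949) (nat_lit 232) (nat_lit 5) (nat_lit 239) (nat_lit 5) (nat_lit 240) (nat_lit 5) (nat_lit 456) (nat_lit 371) (nat_lit 313)) (XT.lf (nat_lit 0) (nat_lit 8062402984) (nat_lit 608) (nat_lit 365678374) (nat_lit 76) (nat_lit 1459034520) (nat_lit 232) (nat_lit 5) (nat_lit 240) (nat_lit 5) (nat_lit 233) (nat_lit 5) (nat_lit 457) (nat_lit 371) (nat_lit 312)))) (XT.nd (nat_lit 156) (nat_lit 532) (nat_lit 0) (XT.nd (nat_lit 78) (nat_lit 456) (nat_lit 0) (XT.lf (nat_lit 0) (nat_lit 1612782896) (nat_lit 532) (nat_lit 2981799694) (nat_lit 76) (nat_lit 5391169686) (nat_lit 225) (nat_lit 5) (nat_lit 232) (nat_lit 5) (nat_lit 226) (nat_lit 5) (nat_lit 458) (nat_lit 371) (nat_lit 311)) (XT.lf (nat_lit 0) (nat_lit 4430292112) (nat_lit 456) (nat_lit 657953850) (nat_lit 532) (nat_lit 4998001209) (nat_lit 219) (nat_lit 5) (nat_lit 225) (nat_lit 5) (nat_lit 226) (nat_lit 5) (nat_lit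 459) (nat_lit 371) (nat_lit 310))) (XT.nd (nat_lit 78) (nat_lit 76) (nat_lit 0) (XT.lf (nat_lit 0) (nat_lit 1788622601) (nat_lit 456) (nat_lit 6860807288) (nat_lit 532) (nat_lit 1538997841) (nat_lit 213) (nat_lit 5) (nat_lit 219) (nat_lit 5) (nat_lit 220) (nat_lit 5) (nat_lit 460) (nat_lit 371) (nat_lit 309)) (XT.lf (nat_lit 0) (nat_lit 1968447134) (nat_lit 532) (nat_lit 906383121) (nat_lit 76) (nat_lit 7417456343) (nat_lit 212) (nat_lit 5) (nat_lit 219) (nat_lit 5) (nat_lit 213) (nat_lit 5) (nat_lit 461) (nat_lit 371) (nat_lit 308)))))) (XT.nd (nat_lit 54756) (nat_lit 0) (nat_lit 33288) (XT.nd (nat_lit 54444) (nat_lit 0) (nat_lit 39292) (XT.nd (nat_lit 54288) (nat_lit 0) (nat_lit 41192) (XT.nd (nat_lit 54210) (nat_lit 0) (nat_lit 42712) (XT.lf (nat_lit 0) (nat_lit 5540837246) (nat_lit 532) (nat_lit 3645092700) (nat_lit 76) (nat_lit 1211781173) (nat_lit 206) (nat_lit 5) (nat_lit 213) (nat_lit 5) (nat_lit 207) (nat_lit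 5) (nat_lit 462) (nat_lit 371) (nat_lit 307)) (XT.lf (nat_lit 0) (nat_lit 1543139516) (nat_lit 684) (nat_lit 195461714) (nat_lit 0) (nat_lit 1543139516) (nat_lit 768) (nat_lit 5) (nat_lit 777) (nat_lit 4) (nat_lit 768) (nat_lit 4) (nat_lit 396) (nat_lit 372) (nat_lit 372))) (XT.nd (nat_lit 78) (nat_lit 836) (nat_lit 0) (XT.lf (nat_lit 0) (nat_lit 3693057694) (nat_lit 684) (nat_lit 2688171357) (nat_lit 684) (nat_lit 198059297) (nat_lit 759) (nat_lit 4) (nat_lit 768) (nat_lit 5) (nat_lit 768) (nat_lit 4) (nat_lit 397) (nat_lit 372) (nat_lit 371)) (XT.lf (nat_lit 0) (nat_lit 1209688949) (nat_lit 760) (nat_lit 1830453299) (nat_lit 836) (nat_lit 3556165594) (nat_lit 748) (nat_lit 5) (nat_lit 758) (nat_lit 5) (nat_lit 759) (nat_lit 4) (nat_lit 398) (nat_lit 372) (nat_lit 370)))) (XT.nd (nat_lit 156) (nat_lit 988) (nat_lit 0) (XT.nd (nat_lit 78) (nat_lit 912) (nat_lit 0) (XT.lf (nat_lit 0) (nat_lit 5371291941) (nat_lit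 760) (nat_lit 913910192) (nat_lit 836) (nat_lit 329544485) (nat_lit 748) (nat_lit 5) (nat_lit 758) (nat_lit 5) (nat_lit 759) (nat_lit 4) (nat_lit 399) (nat_lit 372) (nat_lit 369)) (XT.lf (nat_lit 0) (nat_lit 2868788754) (nat_lit 912) (nat_lit 3686717872) (nat_lit 76) (nat_lit 78742533) (nat_lit 736) (nat_lit 5) (nat_lit 748) (nat_lit 5) (nat_lit 737) (nat_lit 4) (nat_lit 400) (nat_lit 372) (nat_lit 368))) (XT.nd (nat_lit 78) (nat_lit 76) (nat_lit 0) (XT.lf (nat_lit 0) (nat_lit 528693663) (nat_lit 912) (nat_lit 5543452887) (nat_lit 988) (nat_lit 583042225) (nat_lit 724) (nat_lit 5) (nat_lit 736) (nat_lit 5) (nat_lit 737) (nat_lit 4) (nat_lit 401) (nat_lit 372) (nat_lit 367)) (XT.lf (nat_lit 0) (nat_lit 2581175381) (nat_lit 988) (nat_lit 1870877730) (nat_lit 76) (nat_lit 2225086727) (nat_lit 723) (nat_lit 5) (nat_lit 736) (nat_lit 5) (nat_lit 724) (nat_lit 5) (nat_lit 402) (nat_lit 372) (nat_lit 366))))) (XT.nd (nat_lit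 312) (nat_lit 2660) (nat_lit 0) (XT.nd (nat_lit 156) (nat_lit 1216) (nat_lit 0) (XT.nd (nat_lit 78) (nat_lit 1140) (nat_lit 0) (XT.lf (nat_lit 0) (nat_lit 2443370106) (nat_lit 988) (nat_lit 3302953389) (nat_lit 1064) (nat_lit 954220288) (nat_lit 710) (nat_lit 5) (nat_lit 723) (nat_lit 5) (nat_lit 724) (nat_lit 5) (nat_lit 403) (nat_lit 372) (nat_lit 365)) (XT.lf (nat_lit 0) (nat_lit 76168883) (nat_lit 1064) (nat_lit 2087958710) (nat_lit 1140) (nat_lit 4561130345) (nat_lit 695) (nat_lit 5) (nat_lit 709) (nat_lit 5) (nat_lit 710) (nat_lit 5) (nat_lit 404) (nat_lit 372) (nat_lit 364))) (XT.nd (nat_lit 78) (nat_lit 1216) (nat_lit 0) (XT.lf (nat_lit 0) (nat_lit 4492610926) (nat_lit 1064) (nat_lit 799156515) (nat_lit 1140) (nat_lit 1459378746) (nat_lit 695) (nat_lit 5) (nat_lit 709) (nat_lit 5) (nat_lit 710) (nat_lit 5) (nat_lit 405) (nat_lit 372) (nat_lit 363)) (XT.lf (nat_lit 0) (nat_lit 1631891852) (nat_lit 1216)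 (nat_lit 4599313841) (nat_lit 76) (nat_lit 547128432) (nat_lit 679) (nat_lit 5) (nat_lit 695) (nat_lit 5) (nat_lit 680) (nat_lit 5) (nat_lit 406) (nat_lit 372) (nat_lit 362)))) (XT.nd (nat_lit 156) (nat_lit 1368) (nat_lit 0) (XT.nd (nat_lit 78) (nat_lit 1292) (nat_lit 0) (XT.lf (nat_lit 0) (nat_lit 4719141517) (nat_lit 1216) (nat_lit 140637474) (nat_lit 76) (nat_lit 1947020007) (nat_lit 679) (nat_lit 5) (nat_lit 695) (nat_lit 5) (nat_lit 680) (nat_lit 5) (nat_lit 407) (nat_lit 372) (nat_lit 361)) (XT.lf (nat_lit 0) (nat_lit 981593732) (nat_lit 1292) (nat_lit 2432639944) (nat_lit 76) (nat_lit 3422208854) (nat_lit 662) (nat_lit 5) (nat_lit 679) (nat_lit 5) (nat_lit 663) (nat_lit 5) (nat_lit 408) (nat_lit 372) (nat_lit 360))) (XT.nd (nat_lit 78) (nat_lit 76) (nat_lit 0) (XT.lf (nat_lit 0) (nat_lit 2133354507) (nat_lit 1292) (nat_lit 1900692864) (nat_lit 1368) (nat_lit 2833360150) (nat_lit 645) (nat_lit 5) (nat_lit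 662) (nat_lit 5) (nat_lit 663) (nat_lit 5) (nat_lit 409) (nat_lit 372) (nat_lit 359)) (XT.lf (nat_lit 0) (nat_lit 197169656) (nat_lit 1368) (nat_lit 132409128) (nat_lit 76) (nat_lit 6570343326) (nat_lit 644) (nat_lit 5) (nat_lit 662) (nat_lit 5) (nat_lit 645) (nat_lit 5) (nat_lit 410) (nat_lit 372) (nat_lit 358))))))))
noncomputable def xc20 : XT := (XT.nd (nat_lit 2496) (nat_lit 7980) (nat_lit 0) (XT.nd (nat_lit 1248) (nat_lit 8512) (nat_lit 0) (XT.nd (nat_lit 624) (nat_lit 6764) (nat_lit 0) (XT.nd (nat_lit 312) (nat_lit 5168) (nat_lit 0) (XT.nd (nat_lit 156) (nat_lit 1596) (nat_lit 0) (XT.nd (nat_lit 78) (nat_lit 1444) (nat_lit 0) (XT.lf (nat_lit 0) (nat_lit 3225278762) (nat_lit 1444) (nat_lit 2394456853) (nat_lit 76) (nat_lit 1313478659) (nat_lit 626) (nat_lit 5) (nat_lit 645) (nat_lit 5) (nat_lit 627) (nat_lit 5) (nat_lit 411) (nat_lit 372) (nat_lit 357)) (XT.lf (nat_lit 0) (nat_lit 2310586275) (nat_lit 1444)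 (nat_lit 3959089728) (nat_lit 1520) (nat_lit 698381758) (nat_lit 607) (nat_lit 5) (nat_lit 626) (nat_lit 5) (nat_lit 627) (nat_lit 5) (nat_lit 412) (nat_lit 372) (nat_lit 356))) (XT.nd (nat_lit 78) (nat_lit 0) (nat_lit 0) (XT.lf (nat_lit 0) (nat_lit 68330387) (nat_lit 1520) (nat_lit 2226654308) (nat_lit 1596) (nat_lit 4709211043) (nat_lit 586) (nat_lit 5) (nat_lit 606) (nat_lit 5) (nat_lit 607) (nat_lit 5) (nat_lit 413) (nat_lit 372) (nat_lit 355)) (XT.lf (nat_lit 0) (nat_lit 4891489384) (nat_lit 1520) (nat_lit 417567128) (nat_lit 1596) (nat_lit 1732503851) (nat_lit 586) (nat_lit 5) (nat_lit 606) (nat_lit 5) (nat_lit 607) (nat_lit 5) (nat_lit 414) (nat_lit 372) (nat_lit 354)))) (XT.nd (nat_lit 156) (nat_lit 1824) (nat_lit 0) (XT.nd (nat_lit 78) (nat_lit 1672) (nat_lit 0) (XT.lf (nat_lit 0) (nat_lit 1253420533) (nat_lit 1672) (nat_lit 4386720296) (nat_lit 76) (nat_lit 1440026520) (nat_lit 564) (nat_lit 5) (nat_lit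 586) (nat_lit 5) (nat_lit 565) (nat_lit 5) (nat_lit 415) (nat_lit 372) (nat_lit 353)) (XT.lf (nat_lit 0) (nat_lit 479507330) (nat_lit 1672) (nat_lit 3757392810) (nat_lit 1748) (nat_lit 2883196599) (nat_lit 542) (nat_lit 5) (nat_lit 564) (nat_lit 5) (nat_lit 565) (nat_lit 5) (nat_lit 416) (nat_lit 372) (nat_lit 352))) (XT.nd (nat_lit 78) (nat_lit 1748) (nat_lit 0) (XT.lf (nat_lit 0) (nat_lit 88318320) (nat_lit 1748) (nat_lit 1715265934) (nat_lit 76) (nat_lit 5357811834) (nat_lit 541) (nat_lit 5) (nat_lit 564) (nat_lit 5) (nat_lit 542) (nat_lit 5) (nat_lit 417) (nat_lit 372) (nat_lit 351)) (XT.lf (nat_lit 0) (nat_lit 3045663121) (nat_lit 1824) (nat_lit 3928408031) (nat_lit 76) (nat_lit 229769002) (nat_lit 518) (nat_lit 5) (nat_lit 542) (nat_lit 5) (nat_lit 519) (nat_lit 5) (nat_lit 418) (nat_lit 372) (nat_lit 350))))) (XT.nd (nat_lit 312) (nat_lit 2736) (nat_lit 0) (XT.nd (nat_lit 156) (nat_lit 2128) (nat_lit 0)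 (XT.nd (nat_lit 78) (nat_lit 76) (nat_lit 0) (XT.lf (nat_lit 0) (nat_lit 1088282104) (nat_lit 1824) (nat_lit 4947439405) (nat_lit 1900) (nat_lit 1211940257) (nat_lit 494) (nat_lit 5) (nat_lit 518) (nat_lit 5) (nat_lit 519) (nat_lit 5) (nat_lit 419) (nat_lit 372) (nat_lit 349)) (XT.lf (nat_lit 0) (nat_lit 1739591777) (nat_lit 1900) (nat_lit 1101738503) (nat_lit 76) (nat_lit 4451398897) (nat_lit 493) (nat_lit 5) (nat_lit 518) (nat_lit 5) (nat_lit 494) (nat_lit 5) (nat_lit 420) (nat_lit 372) (nat_lit 348))) (XT.nd (nat_lit 78) (nat_lit 988) (nat_lit 0) (XT.lf (nat_lit 0) (nat_lit 4046566309) (nat_lit 1140) (nat_lit 658111834) (nat_lit 1216) (nat_lit 2634444543) (nat_lit 478) (nat_lit 5) (nat_lit 493) (nat_lit 5) (nat_lit 494) (nat_lit 5) (nat_lit 421) (nat_lit 372) (nat_lit 347)) (XT.lf (nat_lit 0) (nat_lit 313019642) (nat_lit 988) (nat_lit 5504306162) (nat_lit 76) (nat_lit 1569575950) (nat_lit 465) (nat_lit 5) (nat_lit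 478) (nat_lit 5) (nat_lit 466) (nat_lit 5) (nat_lit 422) (nat_lit 372) (nat_lit 346)))) (XT.nd (nat_lit 156) (nat_lit 1824) (nat_lit 0) (XT.nd (nat_lit 78) (nat_lit 912) (nat_lit 0) (XT.lf (nat_lit 0) (nat_lit 3256335671) (nat_lit 988) (nat_lit 307880212) (nat_lit 76) (nat_lit 3871628692) (nat_lit 465) (nat_lit 5) (nat_lit 478) (nat_lit 5) (nat_lit 466) (nat_lit 5) (nat_lit 423) (nat_lit 372) (nat_lit 345)) (XT.lf (nat_lit 0) (nat_lit 5002577647) (nat_lit 912) (nat_lit 1235033494) (nat_lit 988) (nat_lit 1248573248) (nat_lit 453) (nat_lit 5) (nat_lit 465) (nat_lit 5) (nat_lit 466) (nat_lit 5) (nat_lit 424) (nat_lit 372) (nat_lit 344))) (XT.nd (nat_lit 78) (nat_lit 912) (nat_lit 0) (XT.lf (nat_lit 0) (nat_lit 1693324593) (nat_lit 912) (nat_lit 4689328163) (nat_lit 76) (nat_lit 1155148637) (nat_lit 441) (nat_lit 5) (nat_lit 453) (nat_lit 5) (nat_lit 442) (nat_lit 5) (nat_lit 425) (nat_lit 372) (nat_lit 343)) (XT.lf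 (nat_lit 0) (nat_lit 666419605) (nat_lit 912) (nat_lit 3987833167) (nat_lit 988) (nat_lit 2936494688) (nat_lit 429) (nat_lit 5) (nat_lit 441) (nat_lit 5) (nat_lit 442) (nat_lit 5) (nat_lit 426) (nat_lit 372) (nat_lit 342)))))) (XT.nd (nat_lit 624) (nat_lit 4332) (nat_lit 0) (XT.nd (nat_lit 312) (nat_lit 2356) (nat_lit 0) (XT.nd (nat_lit 156) (nat_lit 912) (nat_lit 0) (XT.nd (nat_lit 78) (nat_lit 836) (nat_lit 0) (XT.lf (nat_lit 0) (nat_lit 8867290) (nat_lit 988) (nat_lit 1508502611) (nat_lit 76) (nat_lit 6127786516) (nat_lit 428) (nat_lit 5) (nat_lit 441) (nat_lit 5) (nat_lit 429) (nat_lit 5) (nat_lit 427) (nat_lit 372) (nat_lit 341)) (XT.lf (nat_lit 0) (nat_lit 2955510625) (nat_lit 912) (nat_lit 3714698890) (nat_lit 76) (nat_lit 1030421958) (nat_lit 417) (nat_lit 5) (nat_lit 429) (nat_lit 5) (nat_lit 418) (nat_lit 5) (nat_lit 428) (nat_lit 372) (nat_lit 340))) (XT.nd (nat_lit 78) (nat_lit 76) (nat_lit 0) (XT.lf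 (nat_lit 0) (nat_lit 1811005579) (nat_lit 836) (nat_lit 4131641401) (nat_lit 912) (nat_lit 1814937847) (nat_lit 406) (nat_lit 5) (nat_lit 417) (nat_lit 5) (nat_lit 418) (nat_lit 5) (nat_lit 429) (nat_lit 372) (nat_lit 339)) (XT.lf (nat_lit 0) (nat_lit 1133405268) (nat_lit 912) (nat_lit 382004435) (nat_lit 76) (nat_lit 6300616084) (nat_lit 405) (nat_lit 5) (nat_lit 417) (nat_lit 5) (nat_lit 406) (nat_lit 5) (nat_lit 430) (nat_lit 372) (nat_lit 338)))) (XT.nd (nat_lit 156) (nat_lit 836) (nat_lit 0) (XT.nd (nat_lit 78) (nat_lit 760) (nat_lit 0) (XT.lf (nat_lit 0) (nat_lit 4109414988) (nat_lit 836) (nat_lit 2587653038) (nat_lit 76) (nat_lit 1178467570) (nat_lit 395) (nat_lit 5) (nat_lit 406) (nat_lit 5) (nat_lit 396) (nat_lit 5) (nat_lit 431) (nat_lit 372) (nat_lit 337)) (XT.lf (nat_lit 0) (nat_lit 3114890633) (nat_lit 760) (nat_lit 4014299716) (nat_lit 836) (nat_lit 807360343) (nat_lit 385) (nat_lit 5) (nat_lit 395)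 (nat_lit 5) (nat_lit 396) (nat_lit 5) (nat_lit 432) (nat_lit 372) (nat_lit 336))) (XT.nd (nat_lit 78) (nat_lit 0) (nat_lit 0) (XT.lf (nat_lit 0) (nat_lit 909236650) (nat_lit 760) (nat_lit 1247407806) (nat_lit 836) (nat_lit 5842353356) (nat_lit 374) (nat_lit 5) (nat_lit 384) (nat_lit 5) (nat_lit 385) (nat_lit 5) (nat_lit 433) (nat_lit 372) (nat_lit 335)) (XT.lf (nat_lit 0) (nat_lit 5164132986) (nat_lit 836) (nat_lit 1314596343) (nat_lit 76) (nat_lit 1583957527) (nat_lit 374) (nat_lit 5) (nat_lit 385) (nat_lit 5) (nat_lit 375) (nat_lit 5) (nat_lit 434) (nat_lit 372) (nat_lit 334))))) (XT.nd (nat_lit 312) (nat_lit 2052) (nat_lit 0) (XT.nd (nat_lit 156) (nat_lit 760) (nat_lit 0) (XT.nd (nat_lit 78) (nat_lit 684) (nat_lit 0) (XT.lf (nat_lit 0) (nat_lit 93788784) (nat_lit 836) (nat_lit 3556430044) (nat_lit 76) (nat_lit 4477596678) (nat_lit 363) (nat_lit 5) (nat_lit 374) (nat_lit 5) (nat_lit 364) (nat_lit 5) (nat_lit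 435) (nat_lit 372) (nat_lit 333)) (XT.lf (nat_lit 0) (nat_lit 2354449972) (nat_lit 684) (nat_lit 730318360) (nat_lit 760) (nat_lit 5109543175) (nat_lit 354) (nat_lit 5) (nat_lit 363) (nat_lit 5) (nat_lit 364) (nat_lit 5) (nat_lit 436) (nat_lit 372) (nat_lit 332))) (XT.nd (nat_lit 78) (nat_lit 76) (nat_lit 0) (XT.lf (nat_lit 0) (nat_lit 100154513) (nat_lit 684) (nat_lit 6028571053) (nat_lit 760) (nat_lit 2133548699) (nat_lit 345) (nat_lit 5) (nat_lit 354) (nat_lit 5) (nat_lit 355) (nat_lit 5) (nat_lit 437) (nat_lit 372) (nat_lit 331)) (XT.lf (nat_lit 0) (nat_lit 888547633) (nat_lit 760) (nat_lit 2160372327) (nat_lit 76) (nat_lit 5282590967) (nat_lit 344) (nat_lit 5) (nat_lit 354) (nat_lit 5) (nat_lit 345) (nat_lit 5) (nat_lit 438) (nat_lit 372) (nat_lit 330)))) (XT.nd (nat_lit 156) (nat_lit 684) (nat_lit 0) (XT.nd (nat_lit 78) (nat_lit 684) (nat_lit 0) (XT.lf (nat_lit 0) (nat_lit 3923304773) (nat_lit 760) (nat_lit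 4458996469) (nat_lit 76) (nat_lit 19933284) (nat_lit 335) (nat_lit 5) (nat_lit 345) (nat_lit 5) (nat_lit 336) (nat_lit 5) (nat_lit 439) (nat_lit 372) (nat_lit 329)) (XT.lf (nat_lit 0) (nat_lit 1669653026) (nat_lit 684) (nat_lit 5350208419) (nat_lit 760) (nat_lit 1454489064) (nat_lit 326) (nat_lit 5) (nat_lit 335) (nat_lit 5) (nat_lit 336) (nat_lit 5) (nat_lit 440) (nat_lit 372) (nat_lit 328))) (XT.nd (nat_lit 78) (nat_lit 608) (nat_lit 0) (XT.lf (nat_lit 0) (nat_lit 1594876214) (nat_lit 760) (nat_lit 633075495) (nat_lit 76) (nat_lit 6320028999) (nat_lit 325) (nat_lit 5) (nat_lit 335) (nat_lit 5) (nat_lit 326) (nat_lit 5) (nat_lit 441) (nat_lit 372) (nat_lit 327)) (XT.lf (nat_lit 0) (nat_lit 4685605463) (nat_lit 684) (nat_lit 2957931973) (nat_lit 76) (nat_lit 979356745) (nat_lit 317) (nat_lit 5) (nat_lit 326) (nat_lit 5) (nat_lit 318) (nat_lit 5) (nat_lit 442) (nat_lit 372) (nat_lit 326))))))) (XT.nd (nat_lit 1248)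 (nat_lit 988) (nat_lit 0) (XT.nd (nat_lit 624) (nat_lit 3268) (nat_lit 0) (XT.nd (nat_lit 312) (nat_lit 1824) (nat_lit 0) (XT.nd (nat_lit 156) (nat_lit 608) (nat_lit 0) (XT.nd (nat_lit 78) (nat_lit 684) (nat_lit 0) (XT.lf (nat_lit 0) (nat_lit 3372150884) (nat_lit 608) (nat_lit 4463909648) (nat_lit 684) (nat_lit 863287168) (nat_lit 309) (nat_lit 5) (nat_lit 317) (nat_lit 5) (nat_lit 318) (nat_lit 5) (nat_lit 443) (nat_lit 372) (nat_lit 325)) (XT.lf (nat_lit 0) (nat_lit 1034869124) (nat_lit 608) (nat_lit 1191413838) (nat_lit 684) (nat_lit 6551074498) (nat_lit 300) (nat_lit 5) (nat_lit 308) (nat_lit 5) (nat_lit 309) (nat_lit 5) (nat_lit 444) (nat_lit 372) (nat_lit 324))) (XT.nd (nat_lit 78) (nat_lit 608) (nat_lit 0) (XT.lf (nat_lit 0) (nat_lit 5373600875) (nat_lit 684) (nat_lit 1335926308) (nat_lit 76) (nat_lit 2147135791) (nat_lit 300) (nat_lit 5) (nat_lit 309) (nat_lit 5) (nat_lit 301) (nat_lit 5) (nat_lit 445)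 (nat_lit 372) (nat_lit 323)) (XT.lf (nat_lit 0) (nat_lit 5204019424) (nat_lit 608) (nat_lit 3379938767) (nat_lit 684) (nat_lit 353594546) (nat_lit 292) (nat_lit 5) (nat_lit 300) (nat_lit 5) (nat_lit 301) (nat_lit 5) (nat_lit 446) (nat_lit 372) (nat_lit 322)))) (XT.nd (nat_lit 156) (nat_lit 608) (nat_lit 0) (XT.nd (nat_lit 78) (nat_lit 608) (nat_lit 0) (XT.lf (nat_lit 0) (nat_lit 2787596896) (nat_lit 608) (nat_lit 6183883122) (nat_lit 76) (nat_lit 48484465) (nat_lit 284) (nat_lit 5) (nat_lit 292) (nat_lit 5) (nat_lit 285) (nat_lit 5) (nat_lit 447) (nat_lit 372) (nat_lit 321)) (XT.lf (nat_lit 0) (nat_lit 408985748) (nat_lit 608) (nat_lit 5587121969) (nat_lit 684) (nat_lit 3107685397) (nat_lit 276) (nat_lit 5) (nat_lit 284) (nat_lit 5) (nat_lit 285) (nat_lit 5) (nat_lit 448) (nat_lit 372) (nat_lit 320))) (XT.nd (nat_lit 78) (nat_lit 532) (nat_lit 0) (XT.lf (nat_lit 0) (nat_lit 79363354) (nat_lit 684) (nat_lit 2027560748)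 (nat_lit 76) (nat_lit 7082345584) (nat_lit 275) (nat_lit 5) (nat_lit 284) (nat_lit 5) (nat_lit 276) (nat_lit 5) (nat_lit 449) (nat_lit 372) (nat_lit 319)) (XT.lf (nat_lit 0) (nat_lit 3289044404) (nat_lit 608) (nat_lit 4525703490) (nat_lit 76) (nat_lit 1461286997) (nat_lit 268) (nat_lit 5) (nat_lit 276) (nat_lit 5) (nat_lit 269) (nat_lit 5) (nat_lit 450) (nat_lit 372) (nat_lit 318))))) (XT.nd (nat_lit 312) (nat_lit 1596) (nat_lit 0) (XT.nd (nat_lit 156) (nat_lit 1064) (nat_lit 0) (XT.nd (nat_lit 78) (nat_lit 76) (nat_lit 0) (XT.lf (nat_lit 0) (nat_lit 2287885784) (nat_lit 532) (nat_lit 4277818123) (nat_lit 608) (nat_lit 2798775796) (nat_lit 261) (nat_lit 5) (nat_lit 268) (nat_lit 5) (nat_lit 269) (nat_lit 5) (nat_lit 451) (nat_lit 372) (nat_lit 317)) (XT.lf (nat_lit 0) (nat_lit 438274749) (nat_lit 608) (nat_lit 213378236) (nat_lit 76) (nat_lit 8803161267) (nat_lit 260) (nat_lit 5) (nat_lit 268) (nat_lit 5) (nat_lit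 261) (nat_lit 5) (nat_lit 452) (nat_lit 372) (nat_lit 316))) (XT.nd (nat_lit 78) (nat_lit 532) (nat_lit 0) (XT.lf (nat_lit 0) (nat_lit 3728118297) (nat_lit 608) (nat_lit 2762937328) (nat_lit 76) (nat_lit 3055019317) (nat_lit 253) (nat_lit 5) (nat_lit 261) (nat_lit 5) (nat_lit 254) (nat_lit 5) (nat_lit 453) (nat_lit 372) (nat_lit 315)) (XT.lf (nat_lit 0) (nat_lit 4280690715) (nat_lit 532) (nat_lit 2798148910) (nat_lit 608) (nat_lit 2560419602) (nat_lit 246) (nat_lit 5) (nat_lit 253) (nat_lit 5) (nat_lit 254) (nat_lit 5) (nat_lit 454) (nat_lit 372) (nat_lit 314)))) (XT.nd (nat_lit 156) (nat_lit 1064) (nat_lit 0) (XT.nd (nat_lit 78) (nat_lit 0) (nat_lit 0) (XT.lf (nat_lit 0) (nat_lit 750273600) (nat_lit 532) (nat_lit 8009064175) (nat_lit 76) (nat_lit 974910387) (nat_lit 239) (nat_lit 5) (nat_lit 246) (nat_lit 5) (nat_lit 240) (nat_lit 5) (nat_lit 455) (nat_lit 372) (nat_lit 313)) (XT.lf (nat_lit 0) (nat_lit 4109631120)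 (nat_lit 532) (nat_lit 897808721) (nat_lit 76) (nat_lit 4823023858) (nat_lit 239) (nat_lit 5) (nat_lit 246) (nat_lit 5) (nat_lit 240) (nat_lit 5) (nat_lit 456) (nat_lit 372) (nat_lit 312))) (XT.nd (nat_lit 78) (nat_lit 532) (nat_lit 0) (XT.lf (nat_lit 0) (nat_lit 6385582633) (nat_lit 532) (nat_lit 1154772871) (nat_lit 608) (nat_lit 2388164447) (nat_lit 232) (nat_lit 5) (nat_lit 239) (nat_lit 5) (nat_lit 240) (nat_lit 5) (nat_lit 457) (nat_lit 372) (nat_lit 311)) (XT.lf (nat_lit 0) (nat_lit 1009564727) (nat_lit 532) (nat_lit 6259202778) (nat_lit 76) (nat_lit 2759405138) (nat_lit 225) (nat_lit 5) (nat_lit 232) (nat_lit 5) (nat_lit 226) (nat_lit 5) (nat_lit 458) (nat_lit 372) (nat_lit 310)))))) (XT.nd (nat_lit 54678) (nat_lit 0) (nat_lit 35492) (XT.nd (nat_lit 54366) (nat_lit 0) (nat_lit 40736) (XT.nd (nat_lit 156) (nat_lit 532) (nat_lit 0) (XT.nd (nat_lit 78) (nat_lit 0) (nat_lit 0) (XT.lf (nat_lit 0) (nat_lit 1082122088)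 (nat_lit 456) (nat_lit 3362914828) (nat_lit 532) (nat_lit 5684430439) (nat_lit 219) (nat_lit 5) (nat_lit 225) (nat_lit 5) (nat_lit 226) (nat_lit 5) (nat_lit 459) (nat_lit 372) (nat_lit 309)) (XT.lf (nat_lit 0) (nat_lit 7958921951) (nat_lit 532) (nat_lit 1635647169) (nat_lit 76) (nat_lit 638024773) (nat_lit 219) (nat_lit 5) (nat_lit 226) (nat_lit 5) (nat_lit 220) (nat_lit 5) (nat_lit 460) (nat_lit 372) (nat_lit 308))) (XT.nd (nat_lit 54132) (nat_lit 0) (nat_lit 42940) (XT.lf (nat_lit 0) (nat_lit 1214515244) (nat_lit 532) (nat_lit 4418976258) (nat_lit 76) (nat_lit 4703634521) (nat_lit 212) (nat_lit 5) (nat_lit 219) (nat_lit 5) (nat_lit 213) (nat_lit 5) (nat_lit 461) (nat_lit 372) (nat_lit 307)) (XT.lf (nat_lit 0) (nat_lit 2362782681) (nat_lit 532) (nat_lit 452385931) (nat_lit 532) (nat_lit 452385931) (nat_lit 777) (nat_lit 4) (nat_lit 784) (nat_lit 5) (nat_lit 784) (nat_lit 4) (nat_lit 394) (nat_lit 373) (nat_lit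 373)))) (XT.nd (nat_lit 156) (nat_lit 1520) (nat_lit 0) (XT.nd (nat_lit 78) (nat_lit 0) (nat_lit 0) (XT.lf (nat_lit 0) (nat_lit 2147679222) (nat_lit 608) (nat_lit 198059297) (nat_lit 684) (nat_lit 4203248290) (nat_lit 768) (nat_lit 5) (nat_lit 776) (nat_lit 5) (nat_lit 777) (nat_lit 4) (nat_lit 395) (nat_lit 373) (nat_lit 372)) (XT.lf (nat_lit 0) (nat_lit 5588369907) (nat_lit 684) (nat_lit 417524510) (nat_lit 0) (nat_lit 558343545) (nat_lit 768) (nat_lit 5) (nat_lit 777) (nat_lit 4) (nat_lit 768) (nat_lit 4) (nat_lit 396) (nat_lit 373) (nat_lit 371))) (XT.nd (nat_lit 78) (nat_lit 760) (nat_lit 0) (XT.lf (nat_lit 0) (nat_lit 2235390996) (nat_lit 760) (nat_lit 2955822882) (nat_lit 76) (nat_lit 1389285375) (nat_lit 758) (nat_lit 5) (nat_lit 768) (nat_lit 5) (nat_lit 759) (nat_lit 4) (nat_lit 397) (nat_lit 373) (nat_lit 370)) (XT.lf (nat_lit 0) (nat_lit 1111121560) (nat_lit 760) (nat_lit 4322468652) (nat_lit 836) (nat_lit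 1164650913) (nat_lit 748) (nat_lit 5) (nat_lit 758) (nat_lit 5) (nat_lit 759) (nat_lit 4) (nat_lit 398) (nat_lit 373) (nat_lit 369))))) (XT.nd (nat_lit 312) (nat_lit 3344) (nat_lit 0) (XT.nd (nat_lit 156) (nat_lit 988) (nat_lit 0) (XT.nd (nat_lit 78) (nat_lit 836) (nat_lit 0) (XT.lf (nat_lit 0) (nat_lit 1998473096) (nat_lit 836) (nat_lit 1384050321) (nat_lit 76) (nat_lit 3234617808) (nat_lit 747) (nat_lit 5) (nat_lit 758) (nat_lit 5) (nat_lit 748) (nat_lit 5) (nat_lit 399) (nat_lit 373) (nat_lit 368)) (XT.lf (nat_lit 0) (nat_lit 2776895960) (nat_lit 836) (nat_lit 2378219783) (nat_lit 912) (nat_lit 1482232602) (nat_lit 736) (nat_lit 5) (nat_lit 747) (nat_lit 5) (nat_lit 748) (nat_lit 5) (nat_lit 400) (nat_lit 373) (nat_lit 367))) (XT.nd (nat_lit 78) (nat_lit 0) (nat_lit 0) (XT.lf (nat_lit 0) (nat_lit 321562523) (nat_lit 912) (nat_lit 1312698485) (nat_lit 988) (nat_lit 5024678705) (nat_lit 723) (nat_lit 5) (nat_lit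 735) (nat_lit 5) (nat_lit 736) (nat_lit 5) (nat_lit 401) (nat_lit 373) (nat_lit 366)) (XT.lf (nat_lit 0) (nat_lit 4576458215) (nat_lit 912) (nat_lit 172107737) (nat_lit 988) (nat_lit 1933094435) (nat_lit 723) (nat_lit 5) (nat_lit 735) (nat_lit 5) (nat_lit 736) (nat_lit 5) (nat_lit 402) (nat_lit 373) (nat_lit 365)))) (XT.nd (nat_lit 156) (nat_lit 2280) (nat_lit 0) (XT.nd (nat_lit 78) (nat_lit 0) (nat_lit 0) (XT.lf (nat_lit 0) (nat_lit 1155549827) (nat_lit 1064) (nat_lit 4533227091) (nat_lit 76) (nat_lit 1016875432) (nat_lit 709) (nat_lit 5) (nat_lit 723) (nat_lit 5) (nat_lit 710) (nat_lit 5) (nat_lit 403) (nat_lit 373) (nat_lit 364)) (XT.lf (nat_lit 0) (nat_lit 4226987425) (nat_lit 1064) (nat_lit 233886609) (nat_lit 76) (nat_lit 2270056471) (nat_lit 709) (nat_lit 5) (nat_lit 723) (nat_lit 5) (nat_lit 710) (nat_lit 5) (nat_lit 404) (nat_lit 373) (nat_lit 363))) (XT.nd (nat_lit 78) (nat_lit 1140) (nat_lit 0) (XT.lf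 (nat_lit 0) (nat_lit 554788823) (nat_lit 1140) (nat_lit 2608351749) (nat_lit 76) (nat_lit 3594304140) (nat_lit 694) (nat_lit 5) (nat_lit 709) (nat_lit 5) (nat_lit 695) (nat_lit 5) (nat_lit 405) (nat_lit 373) (nat_lit 362)) (XT.lf (nat_lit 0) (nat_lit 1791725165) (nat_lit 1140) (nat_lit 1796085308) (nat_lit 1216) (nat_lit 3197414853) (nat_lit 679) (nat_lit 5) (nat_lit 694) (nat_lit 5) (nat_lit 695) (nat_lit 5) (nat_lit 406) (nat_lit 373) (nat_lit 361))))))))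
noncomputable def xc21 : XT := (XT.nd (nat_lit 2496) (nat_lit 10032) (nat_lit 0) (XT.nd (nat_lit 1248) (nat_lit 9196) (nat_lit 0) (XT.nd (nat_lit 624) (nat_lit 9196) (nat_lit 0) (XT.nd (nat_lit 312) (nat_lit 4408) (nat_lit 0) (XT.nd (nat_lit 156) (nat_lit 1368) (nat_lit 0) (XT.nd (nat_lit 78) (nat_lit 1292) (nat_lit 0) (XT.lf (nat_lit 0) (nat_lit 6261887770) (nat_lit 1140) (nat_lit 371466827) (nat_lit 1216) (nat_lit 181169713) (nat_lit 679) (nat_lit 5) (nat_lit 694) (nat_lit 5) (nat_lit 695) (nat_lit 5) (nat_lit 407) (nat_lit 373) (nat_lit 360)) (XT.lf (nat_lit 0) (nat_lit 2825731276) (nat_lit 1292) (nat_lit 2895154480) (nat_lit 76) (nat_lit 1123781447) (nat_lit 662) (nat_lit 5) (nat_lit 679) (nat_lit 5) (nat_lit 663) (nat_lit 5) (nat_lit 408) (nat_lit 373) (nat_lit 359))) (XT.nd (nat_lit 78) (nat_lit 76) (nat_lit 0) (XT.lf (nat_lit 0) (nat_lit 1637560808) (nat_lit 1292) (nat_lit 4205830563) (nat_lit 1368) (nat_lit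 1032936695) (nat_lit 645) (nat_lit 5) (nat_lit 662) (nat_lit 5) (nat_lit 663) (nat_lit 5) (nat_lit 409) (nat_lit 373) (nat_lit 358)) (XT.lf (nat_lit 0) (nat_lit 1942645963) (nat_lit 1368) (nat_lit 675829908) (nat_lit 76) (nat_lit 4290759679) (nat_lit 644) (nat_lit 5) (nat_lit 662) (nat_lit 5) (nat_lit 645) (nat_lit 5) (nat_lit 410) (nat_lit 373) (nat_lit 357)))) (XT.nd (nat_lit 156) (nat_lit 1520) (nat_lit 0) (XT.nd (nat_lit 78) (nat_lit 1520) (nat_lit 0) (XT.lf (nat_lit 0) (nat_lit 3970089749) (nat_lit 1368) (nat_lit 957554744) (nat_lit 1444) (nat_lit 2015745431) (nat_lit 626) (nat_lit 5) (nat_lit 644) (nat_lit 5) (nat_lit 645) (nat_lit 5) (nat_lit 411) (nat_lit 373) (nat_lit 356)) (XT.lf (nat_lit 0) (nat_lit 940082460) (nat_lit 1520) (nat_lit 5282179162) (nat_lit 76) (nat_lit 756656577) (nat_lit 606) (nat_lit 5) (nat_lit 626) (nat_lit 5) (nat_lit 607) (nat_lit 5) (nat_lit 412) (nat_lit 373) (nat_lit 355))) (XT.nd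 (nat_lit 78) (nat_lit 1520) (nat_lit 0) (XT.lf (nat_lit 0) (nat_lit 3893805269) (nat_lit 1520) (nat_lit 588974335) (nat_lit 76) (nat_lit 2532795571) (nat_lit 606) (nat_lit 5) (nat_lit 626) (nat_lit 5) (nat_lit 607) (nat_lit 5) (nat_lit 413) (nat_lit 373) (nat_lit 354)) (XT.lf (nat_lit 0) (nat_lit 4199369705) (nat_lit 1520) (nat_lit 2675005761) (nat_lit 1596) (nat_lit 179234366) (nat_lit 586) (nat_lit 5) (nat_lit 606) (nat_lit 5) (nat_lit 607) (nat_lit 5) (nat_lit 414) (nat_lit 373) (nat_lit 353))))) (XT.nd (nat_lit 312) (nat_lit 4028) (nat_lit 0) (XT.nd (nat_lit 156) (nat_lit 3496) (nat_lit 0) (XT.nd (nat_lit 78) (nat_lit 0) (nat_lit 0) (XT.lf (nat_lit 0) (nat_lit 1952160356) (nat_lit 1596) (nat_lit 790570502) (nat_lit 1672) (nat_lit 4350156018) (nat_lit 564) (nat_lit 5) (nat_lit 585) (nat_lit 5) (nat_lit 586) (nat_lit 5) (nat_lit 415) (nat_lit 373) (nat_lit 352)) (XT.lf (nat_lit 0) (nat_lit 5689140259) (nat_lit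 1672) (nat_lit 302916204) (nat_lit 76) (nat_lit 1141501206) (nat_lit 564) (nat_lit 5) (nat_lit 586) (nat_lit 5) (nat_lit 565) (nat_lit 5) (nat_lit 416) (nat_lit 373) (nat_lit 351))) (XT.nd (nat_lit 78) (nat_lit 1748) (nat_lit 0) (XT.lf (nat_lit 0) (nat_lit 1477598607) (nat_lit 1748) (nat_lit 2552006593) (nat_lit 76) (nat_lit 3145677570) (nat_lit 541) (nat_lit 5) (nat_lit 564) (nat_lit 5) (nat_lit 542) (nat_lit 5) (nat_lit 417) (nat_lit 373) (nat_lit 350)) (XT.lf (nat_lit 0) (nat_lit 2401831739) (nat_lit 1748) (nat_lit 1997856276) (nat_lit 1824) (nat_lit 2818743928) (nat_lit 518) (nat_lit 5) (nat_lit 541) (nat_lit 5) (nat_lit 542) (nat_lit 5) (nat_lit 418) (nat_lit 373) (nat_lit 349)))) (XT.nd (nat_lit 156) (nat_lit 2128) (nat_lit 0) (XT.nd (nat_lit 78) (nat_lit 0) (nat_lit 0) (XT.lf (nat_lit 0) (nat_lit 78924050) (nat_lit 1900) (nat_lit 7089943946) (nat_lit 76) (nat_lit 94306939) (nat_lit 493) (nat_lit 5) (nat_lit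 518) (nat_lit 5) (nat_lit 494) (nat_lit 5) (nat_lit 419) (nat_lit 373) (nat_lit 348)) (XT.lf (nat_lit 0) (nat_lit 2987067909) (nat_lit 1900) (nat_lit 2067663842) (nat_lit 76) (nat_lit 2253903087) (nat_lit 493) (nat_lit 5) (nat_lit 518) (nat_lit 5) (nat_lit 494) (nat_lit 5) (nat_lit 420) (nat_lit 373) (nat_lit 347))) (XT.nd (nat_lit 78) (nat_lit 988) (nat_lit 0) (XT.lf (nat_lit 0) (nat_lit 3040492865) (nat_lit 1140) (nat_lit 2878175037) (nat_lit 1216) (nat_lit 1437030172) (nat_lit 478) (nat_lit 5) (nat_lit 493) (nat_lit 5) (nat_lit 494) (nat_lit 5) (nat_lit 421) (nat_lit 373) (nat_lit 346)) (XT.lf (nat_lit 0) (nat_lit 821518899) (nat_lit 912) (nat_lit 629151287) (nat_lit 988) (nat_lit 5953532659) (nat_lit 465) (nat_lit 5) (nat_lit 477) (nat_lit 5) (nat_lit 478) (nat_lit 5) (nat_lit 422) (nat_lit 373) (nat_lit 345)))))) (XT.nd (nat_lit 624) (nat_lit 4636) (nat_lit 0) (XT.nd (nat_lit 312) (nat_lit 2736) (nat_lit 0)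 (XT.nd (nat_lit 156) (nat_lit 912) (nat_lit 0) (XT.nd (nat_lit 78) (nat_lit 912) (nat_lit 0) (XT.lf (nat_lit 0) (nat_lit 4363472174) (nat_lit 988) (nat_lit 1409651502) (nat_lit 76) (nat_lit 1680632270) (nat_lit 465) (nat_lit 5) (nat_lit 478) (nat_lit 5) (nat_lit 466) (nat_lit 5) (nat_lit 423) (nat_lit 373) (nat_lit 344)) (XT.lf (nat_lit 0) (nat_lit 3858866801) (nat_lit 912) (nat_lit 3452544160) (nat_lit 988) (nat_lit 193351534) (nat_lit 453) (nat_lit 5) (nat_lit 465) (nat_lit 5) (nat_lit 466) (nat_lit 5) (nat_lit 424) (nat_lit 373) (nat_lit 343))) (XT.nd (nat_lit 78) (nat_lit 0) (nat_lit 0) (XT.lf (nat_lit 0) (nat_lit 1644082774) (nat_lit 836) (nat_lit 1049408381) (nat_lit 912) (nat_lit 4863575635) (nat_lit 441) (nat_lit 5) (nat_lit 452) (nat_lit 5) (nat_lit 453) (nat_lit 5) (nat_lit 425) (nat_lit 373) (nat_lit 342)) (XT.lf (nat_lit 0) (nat_lit 5617853200) (nat_lit 912) (nat_lit 586587701) (nat_lit 76) (nat_lit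 1406303277) (nat_lit 441) (nat_lit 5) (nat_lit 453) (nat_lit 5) (nat_lit 442) (nat_lit 5) (nat_lit 426) (nat_lit 373) (nat_lit 341)))) (XT.nd (nat_lit 156) (nat_lit 912) (nat_lit 0) (XT.nd (nat_lit 78) (nat_lit 836) (nat_lit 0) (XT.lf (nat_lit 0) (nat_lit 910940345) (nat_lit 988) (nat_lit 2823060307) (nat_lit 76) (nat_lit 3931613057) (nat_lit 428) (nat_lit 5) (nat_lit 441) (nat_lit 5) (nat_lit 429) (nat_lit 5) (nat_lit 427) (nat_lit 373) (nat_lit 340)) (XT.lf (nat_lit 0) (nat_lit 2633421129) (nat_lit 836) (nat_lit 1183782226) (nat_lit 912) (nat_lit 3904693017) (nat_lit 417) (nat_lit 5) (nat_lit 428) (nat_lit 5) (nat_lit 429) (nat_lit 5) (nat_lit 428) (nat_lit 373) (nat_lit 339))) (XT.nd (nat_lit 78) (nat_lit 76) (nat_lit 0) (XT.lf (nat_lit 0) (nat_lit 399062106) (nat_lit 836) (nat_lit 6363945308) (nat_lit 912) (nat_lit 1016668958) (nat_lit 406) (nat_lit 5) (nat_lit 417) (nat_lit 5) (nat_lit 418) (nat_lit 5) (nat_lit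 429) (nat_lit 373) (nat_lit 338)) (XT.lf (nat_lit 0) (nat_lit 1896869163) (nat_lit 912) (nat_lit 1848701041) (nat_lit 76) (nat_lit 4092930180) (nat_lit 405) (nat_lit 5) (nat_lit 417) (nat_lit 5) (nat_lit 406) (nat_lit 5) (nat_lit 430) (nat_lit 373) (nat_lit 337))))) (XT.nd (nat_lit 312) (nat_lit 2280) (nat_lit 0) (XT.nd (nat_lit 156) (nat_lit 836) (nat_lit 0) (XT.nd (nat_lit 78) (nat_lit 760) (nat_lit 0) (XT.lf (nat_lit 0) (nat_lit 3782304547) (nat_lit 760) (nat_lit 1049136317) (nat_lit 836) (nat_lit 3067398089) (nat_lit 395) (nat_lit 5) (nat_lit 405) (nat_lit 5) (nat_lit 406) (nat_lit 5) (nat_lit 431) (nat_lit 373) (nat_lit 336)) (XT.lf (nat_lit 0) (nat_lit 1545018614) (nat_lit 760) (nat_lit 6265608170) (nat_lit 836) (nat_lit 150039053) (nat_lit 385) (nat_lit 5) (nat_lit 395) (nat_lit 5) (nat_lit 396) (nat_lit 5) (nat_lit 432) (nat_lit 373) (nat_lit 335))) (XT.nd (nat_lit 78) (nat_lit 760) (nat_lit 0) (XT.lf (nat_lit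 0) (nat_lit 2775989027) (nat_lit 836) (nat_lit 728288903) (nat_lit 76) (nat_lit 4519336789) (nat_lit 384) (nat_lit 5) (nat_lit 395) (nat_lit 5) (nat_lit 385) (nat_lit 5) (nat_lit 433) (nat_lit 373) (nat_lit 334)) (XT.lf (nat_lit 0) (nat_lit 5084349657) (nat_lit 760) (nat_lit 660746760) (nat_lit 836) (nat_lit 2342974968) (nat_lit 374) (nat_lit 5) (nat_lit 384) (nat_lit 5) (nat_lit 385) (nat_lit 5) (nat_lit 434) (nat_lit 373) (nat_lit 333)))) (XT.nd (nat_lit 156) (nat_lit 760) (nat_lit 0) (XT.nd (nat_lit 78) (nat_lit 684) (nat_lit 0) (XT.lf (nat_lit 0) (nat_lit 603534946) (nat_lit 836) (nat_lit 5320581718) (nat_lit 76) (nat_lit 2229782152) (nat_lit 363) (nat_lit 5) (nat_lit 374) (nat_lit 5) (nat_lit 364) (nat_lit 5) (nat_lit 435) (nat_lit 373) (nat_lit 332)) (XT.lf (nat_lit 0) (nat_lit 539307743) (nat_lit 684) (nat_lit 3020804040) (nat_lit 760) (nat_lit 4660971089) (nat_lit 354) (nat_lit 5) (nat_lit 363) (nat_lit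 5) (nat_lit 364) (nat_lit 5) (nat_lit 436) (nat_lit 373) (nat_lit 331))) (XT.nd (nat_lit 78) (nat_lit 760) (nat_lit 0) (XT.lf (nat_lit 0) (nat_lit 6533965180) (nat_lit 684) (nat_lit 32412969) (nat_lit 760) (nat_lit 1723421298) (nat_lit 354) (nat_lit 5) (nat_lit 363) (nat_lit 5) (nat_lit 364) (nat_lit 5) (nat_lit 437) (nat_lit 373) (nat_lit 330)) (XT.lf (nat_lit 0) (nat_lit 1259193427) (nat_lit 760) (nat_lit 4097365324) (nat_lit 76) (nat_lit 3003106156) (nat_lit 344) (nat_lit 5) (nat_lit 354) (nat_lit 5) (nat_lit 345) (nat_lit 5) (nat_lit 438) (nat_lit 373) (nat_lit 329))))))) (XT.nd (nat_lit 1248) (nat_lit 2584) (nat_lit 0) (XT.nd (nat_lit 624) (nat_lit 3496) (nat_lit 0) (XT.nd (nat_lit 312) (nat_lit 1900) (nat_lit 0) (XT.nd (nat_lit 156) (nat_lit 1368) (nat_lit 0) (XT.nd (nat_lit 78) (nat_lit 0) (nat_lit 0) (XT.lf (nat_lit 0) (nat_lit 1953280360) (nat_lit 684) (nat_lit 2305790402) (nat_lit 760) (nat_lit 4172015341)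 (nat_lit 335) (nat_lit 5) (nat_lit 344) (nat_lit 5) (nat_lit 345) (nat_lit 5) (nat_lit 439) (nat_lit 373) (nat_lit 328)) (XT.lf (nat_lit 0) (nat_lit 7308208341) (nat_lit 760) (nat_lit 383301175) (nat_lit 76) (nat_lit 812640951) (nat_lit 335) (nat_lit 5) (nat_lit 345) (nat_lit 5) (nat_lit 336) (nat_lit 5) (nat_lit 440) (nat_lit 373) (nat_lit 327))) (XT.nd (nat_lit 78) (nat_lit 608) (nat_lit 0) (XT.lf (nat_lit 0) (nat_lit 1825992640) (nat_lit 760) (nat_lit 2749960442) (nat_lit 76) (nat_lit 4002274802) (nat_lit 325) (nat_lit 5) (nat_lit 335) (nat_lit 5) (nat_lit 326) (nat_lit 5) (nat_lit 441) (nat_lit 373) (nat_lit 326)) (XT.lf (nat_lit 0) (nat_lit 3499372216) (nat_lit 608) (nat_lit 1375723809) (nat_lit 684) (nat_lit 3778877851) (nat_lit 317) (nat_lit 5) (nat_lit 325) (nat_lit 5) (nat_lit 326) (nat_lit 5) (nat_lit 442) (nat_lit 373) (nat_lit 325)))) (XT.nd (nat_lit 156) (nat_lit 1216) (nat_lit 0) (XT.nd (nat_lit 78)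 (nat_lit 76) (nat_lit 0) (XT.lf (nat_lit 0) (nat_lit 1127988917) (nat_lit 608) (nat_lit 6853182922) (nat_lit 684) (nat_lit 750143140) (nat_lit 309) (nat_lit 5) (nat_lit 317) (nat_lit 5) (nat_lit 318) (nat_lit 5) (nat_lit 443) (nat_lit 373) (nat_lit 324)) (XT.lf (nat_lit 0) (nat_lit 2310446024) (nat_lit 684) (nat_lit 1282657577) (nat_lit 76) (nat_lit 5216756389) (nat_lit 308) (nat_lit 5) (nat_lit 317) (nat_lit 5) (nat_lit 309) (nat_lit 5) (nat_lit 444) (nat_lit 373) (nat_lit 323))) (XT.nd (nat_lit 78) (nat_lit 608) (nat_lit 0) (XT.lf (nat_lit 0) (nat_lit 5173660404) (nat_lit 608) (nat_lit 240993778) (nat_lit 684) (nat_lit 3475373517) (nat_lit 300) (nat_lit 5) (nat_lit 308) (nat_lit 5) (nat_lit 309) (nat_lit 5) (nat_lit 445) (nat_lit 373) (nat_lit 322)) (XT.lf (nat_lit 0) (nat_lit 2766426902) (nat_lit 608) (nat_lit 5821010435) (nat_lit 684) (nat_lit 384231607) (nat_lit 292) (nat_lit 5) (nat_lit 300) (nat_lit 5) (nat_lit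 301) (nat_lit 5) (nat_lit 446) (nat_lit 373) (nat_lit 321))))) (XT.nd (nat_lit 312) (nat_lit 1672) (nat_lit 0) (XT.nd (nat_lit 156) (nat_lit 1216) (nat_lit 0) (XT.nd (nat_lit 78) (nat_lit 0) (nat_lit 0) (XT.lf (nat_lit 0) (nat_lit 304857371) (nat_lit 532) (nat_lit 2415656844) (nat_lit 608) (nat_lit 6334307403) (nat_lit 284) (nat_lit 5) (nat_lit 291) (nat_lit 5) (nat_lit 292) (nat_lit 5) (nat_lit 447) (nat_lit 373) (nat_lit 320)) (XT.lf (nat_lit 0) (nat_lit 5890770398) (nat_lit 608) (nat_lit 2173789831) (nat_lit 76) (nat_lit 1074855112) (nat_lit 284) (nat_lit 5) (nat_lit 292) (nat_lit 5) (nat_lit 285) (nat_lit 5) (nat_lit 448) (nat_lit 373) (nat_lit 319))) (XT.nd (nat_lit 78) (nat_lit 608) (nat_lit 0) (XT.lf (nat_lit 0) (nat_lit 4523740555) (nat_lit 608) (nat_lit 4606620126) (nat_lit 684) (nat_lit 95221680) (nat_lit 276) (nat_lit 5) (nat_lit 284) (nat_lit 5) (nat_lit 285) (nat_lit 5) (nat_lit 449) (nat_lit 373)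 (nat_lit 318)) (XT.lf (nat_lit 0) (nat_lit 2024020937) (nat_lit 532) (nat_lit 1044868289) (nat_lit 608) (nat_lit 6244407082) (nat_lit 268) (nat_lit 5) (nat_lit 275) (nat_lit 5) (nat_lit 276) (nat_lit 5) (nat_lit 450) (nat_lit 373) (nat_lit 317)))) (XT.nd (nat_lit 156) (nat_lit 1064) (nat_lit 0) (XT.nd (nat_lit 78) (nat_lit 608) (nat_lit 0) (XT.lf (nat_lit 0) (nat_lit 6304633010) (nat_lit 608) (nat_lit 525640457) (nat_lit 76) (nat_lit 2572285967) (nat_lit 268) (nat_lit 5) (nat_lit 276) (nat_lit 5) (nat_lit 269) (nat_lit 5) (nat_lit 451) (nat_lit 373) (nat_lit 316)) (XT.lf (nat_lit 0) (nat_lit 120368464) (nat_lit 608) (nat_lit 3096885236) (nat_lit 76) (nat_lit 6276132711) (nat_lit 260) (nat_lit 5) (nat_lit 268) (nat_lit 5) (nat_lit 261) (nat_lit 5) (nat_lit 452) (nat_lit 373) (nat_lit 315))) (XT.nd (nat_lit 78) (nat_lit 532) (nat_lit 0) (XT.lf (nat_lit 0) (nat_lit 3355414239) (nat_lit 608) (nat_lit 5733898428) (nat_lit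 76) (nat_lit 496430390) (nat_lit 253) (nat_lit 5) (nat_lit 261) (nat_lit 5) (nat_lit 254) (nat_lit 5) (nat_lit 453) (nat_lit 373) (nat_lit 314)) (XT.lf (nat_lit 0) (nat_lit 1243459056) (nat_lit 532) (nat_lit 5424286086) (nat_lit 608) (nat_lit 3011950009) (nat_lit 246) (nat_lit 5) (nat_lit 253) (nat_lit 5) (nat_lit 254) (nat_lit 5) (nat_lit 454) (nat_lit 373) (nat_lit 313)))))) (XT.nd (nat_lit 54522) (nat_lit 0) (nat_lit 39748) (XT.nd (nat_lit 312) (nat_lit 988) (nat_lit 0) (XT.nd (nat_lit 156) (nat_lit 1064) (nat_lit 0) (XT.nd (nat_lit 78) (nat_lit 456) (nat_lit 0) (XT.lf (nat_lit 0) (nat_lit 268410217) (nat_lit 608) (nat_lit 1392231643) (nat_lit 76) (nat_lit 8114825955) (nat_lit 245) (nat_lit 5) (nat_lit 253) (nat_lit 5) (nat_lit 246) (nat_lit 5) (nat_lit 455) (nat_lit 373) (nat_lit 312)) (XT.lf (nat_lit 0) (nat_lit 3589310363) (nat_lit 532) (nat_lit 4090938689) (nat_lit 76) (nat_lit 2192203448) (nat_lit 239)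 (nat_lit 5) (nat_lit 246) (nat_lit 5) (nat_lit 240) (nat_lit 5) (nat_lit 456) (nat_lit 373) (nat_lit 311))) (XT.nd (nat_lit 78) (nat_lit 532) (nat_lit 0) (XT.lf (nat_lit 0) (nat_lit 3123540875) (nat_lit 532) (nat_lit 3857221094) (nat_lit 608) (nat_lit 2990532239) (nat_lit 232) (nat_lit 5) (nat_lit 239) (nat_lit 5) (nat_lit 240) (nat_lit 5) (nat_lit 457) (nat_lit 373) (nat_lit 310)) (XT.lf (nat_lit 0) (nat_lit 357412475) (nat_lit 532) (nat_lit 9656401201) (nat_lit 76) (nat_lit 58365135) (nat_lit 225) (nat_lit 5) (nat_lit 232) (nat_lit 5) (nat_lit 226) (nat_lit 5) (nat_lit 458) (nat_lit 373) (nat_lit 309)))) (XT.nd (nat_lit 156) (nat_lit 532) (nat_lit 0) (XT.nd (nat_lit 78) (nat_lit 456) (nat_lit 0) (XT.lf (nat_lit 0) (nat_lit 3767964363) (nat_lit 532) (nat_lit 2355597077) (nat_lit 76) (nat_lit 4050410489) (nat_lit 225) (nat_lit 5) (nat_lit 232) (nat_lit 5) (nat_lit 226) (nat_lit 5) (nat_lit 459) (nat_lit 373) (nat_lit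 308)) (XT.lf (nat_lit 0) (nat_lit 5106049091) (nat_lit 456) (nat_lit 2138392032) (nat_lit 532) (nat_lit 3033405510) (nat_lit 219) (nat_lit 5) (nat_lit 225) (nat_lit 5) (nat_lit 226) (nat_lit 5) (nat_lit 460) (nat_lit 373) (nat_lit 307))) (XT.nd (nat_lit 53976) (nat_lit 0) (nat_lit 43472) (XT.lf (nat_lit 0) (nat_lit 409736713) (nat_lit 532) (nat_lit 8055383644) (nat_lit 76) (nat_lit 1918457241) (nat_lit 212) (nat_lit 5) (nat_lit 219) (nat_lit 5) (nat_lit 213) (nat_lit 5) (nat_lit 461) (nat_lit 373) (nat_lit 306)) (XT.lf (nat_lit 0) (nat_lit 866232092) (nat_lit 532) (nat_lit 1522731172) (nat_lit 0) (nat_lit 866232092) (nat_lit 784) (nat_lit 5) (nat_lit 791) (nat_lit 4) (nat_lit 784) (nat_lit 4) (nat_lit 392) (nat_lit 374) (nat_lit 374))))) (XT.nd (nat_lit 312) (nat_lit 2432) (nat_lit 0) (XT.nd (nat_lit 156) (nat_lit 684) (nat_lit 0) (XT.nd (nat_lit 78) (nat_lit 76) (nat_lit 0) (XT.lf (nat_lit 0) (nat_lit 793981951)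 (nat_lit 532) (nat_lit 4185494307) (nat_lit 532) (nat_lit 1542967468) (nat_lit 777) (nat_lit 4) (nat_lit 784) (nat_lit 5) (nat_lit 784) (nat_lit 4) (nat_lit 393) (nat_lit 374) (nat_lit 373)) (XT.lf (nat_lit 0) (nat_lit 1676474351) (nat_lit 608) (nat_lit 1846761236) (nat_lit 76) (nat_lit 3012417640) (nat_lit 776) (nat_lit 5) (nat_lit 784) (nat_lit 5) (nat_lit 777) (nat_lit 4) (nat_lit 394) (nat_lit 374) (nat_lit 372))) (XT.nd (nat_lit 78) (nat_lit 76) (nat_lit 0) (XT.lf (nat_lit 0) (nat_lit 2078250434) (nat_lit 608) (nat_lit 2798682319) (nat_lit 684) (nat_lit 1673244423) (nat_lit 768) (nat_lit 5) (nat_lit 776) (nat_lit 5) (nat_lit 777) (nat_lit 4) (nat_lit 395) (nat_lit 374) (nat_lit 371)) (XT.lf (nat_lit 0) (nat_lit 1492650260) (nat_lit 684) (nat_lit 520292649) (nat_lit 76) (nat_lit 4553105665) (nat_lit 767) (nat_lit 5) (nat_lit 776) (nat_lit 5) (nat_lit 768) (nat_lit 5) (nat_lit 396) (nat_lit 374) (nat_lit 370))))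 (XT.nd (nat_lit 156) (nat_lit 912) (nat_lit 0) (XT.nd (nat_lit 78) (nat_lit 836) (nat_lit 0) (XT.lf (nat_lit 0) (nat_lit 3494111676) (nat_lit 684) (nat_lit 1153976606) (nat_lit 760) (nat_lit 1934955312) (nat_lit 758) (nat_lit 5) (nat_lit 767) (nat_lit 5) (nat_lit 768) (nat_lit 5) (nat_lit 397) (nat_lit 374) (nat_lit 369)) (XT.lf (nat_lit 0) (nat_lit 948090360) (nat_lit 760) (nat_lit 237792709) (nat_lit 836) (nat_lit 5415606343) (nat_lit 747) (nat_lit 5) (nat_lit 757) (nat_lit 5) (nat_lit 758) (nat_lit 5) (nat_lit 398) (nat_lit 374) (nat_lit 368))) (XT.nd (nat_lit 78) (nat_lit 912) (nat_lit 0) (XT.lf (nat_lit 0) (nat_lit 4296449359) (nat_lit 836) (nat_lit 1582531209) (nat_lit 76) (nat_lit 742003374) (nat_lit 747) (nat_lit 5) (nat_lit 758) (nat_lit 5) (nat_lit 748) (nat_lit 5) (nat_lit 399) (nat_lit 374) (nat_lit 367)) (XT.lf (nat_lit 0) (nat_lit 764497794) (nat_lit 912) (nat_lit 4097184910) (nat_lit 76) (nat_lit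 1780138028) (nat_lit 735) (nat_lit 5) (nat_lit 747) (nat_lit 5) (nat_lit 736) (nat_lit 5) (nat_lit 400) (nat_lit 374) (nat_lit 366))))))))
noncomputable def xc22 : XT := (XT.nd (nat_lit 2496) (nat_lit 13300) (nat_lit 0) (XT.nd (nat_lit 1248) (nat_lit 12920) (nat_lit 0) (XT.nd (nat_lit 624) (nat_lit 7448) (nat_lit 0) (XT.nd (nat_lit 312) (nat_lit 3572) (nat_lit 0) (XT.nd (nat_lit 156) (nat_lit 988) (nat_lit 0) (XT.nd (nat_lit 78) (nat_lit 76) (nat_lit 0) (XT.lf (nat_lit 0) (nat_lit 45624298) (nat_lit 912) (nat_lit 3779390217) (nat_lit 988) (nat_lit 2838935855) (nat_lit 723) (nat_lit 5) (nat_lit 735) (nat_lit 5) (nat_lit 736) (nat_lit 5) (nat_lit 401) (nat_lit 374) (nat_lit 365)) (XT.lf (nat_lit 0) (nat_lit 214876440) (nat_lit 988) (nat_lit 2414041625) (nat_lit 76) (nat_lit 4058409339) (nat_lit 722) (nat_lit 5) (nat_lit 735) (nat_lit 5) (nat_lit 723) (nat_lit 5) (nat_lit 402) (nat_lit 374) (nat_lit 364))) (XT.nd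 (nat_lit 78) (nat_lit 0) (nat_lit 0) (XT.lf (nat_lit 0) (nat_lit 1827510024) (nat_lit 988) (nat_lit 1407901316) (nat_lit 1064) (nat_lit 3476512139) (nat_lit 709) (nat_lit 5) (nat_lit 722) (nat_lit 5) (nat_lit 723) (nat_lit 5) (nat_lit 403) (nat_lit 374) (nat_lit 363)) (XT.lf (nat_lit 0) (nat_lit 6134971978) (nat_lit 988) (nat_lit 130345974) (nat_lit 1064) (nat_lit 472714302) (nat_lit 709) (nat_lit 5) (nat_lit 722) (nat_lit 5) (nat_lit 723) (nat_lit 5) (nat_lit 404) (nat_lit 374) (nat_lit 362)))) (XT.nd (nat_lit 156) (nat_lit 1292) (nat_lit 0) (XT.nd (nat_lit 78) (nat_lit 1140) (nat_lit 0) (XT.lf (nat_lit 0) (nat_lit 2523115530) (nat_lit 1140) (nat_lit 3028454870) (nat_lit 76) (nat_lit 1213437543) (nat_lit 694) (nat_lit 5) (nat_lit 709) (nat_lit 5) (nat_lit 695) (nat_lit 5) (nat_lit 405) (nat_lit 374) (nat_lit 361)) (XT.lf (nat_lit 0) (nat_lit 1339666450) (nat_lit 1140) (nat_lit 4181211164) (nat_lit 1216) (nat_lit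 1272616133) (nat_lit 679) (nat_lit 5) (nat_lit 694) (nat_lit 5) (nat_lit 695) (nat_lit 5) (nat_lit 406) (nat_lit 374) (nat_lit 360))) (XT.nd (nat_lit 78) (nat_lit 1216) (nat_lit 0) (XT.lf (nat_lit 0) (nat_lit 1688691456) (nat_lit 1216) (nat_lit 1050566194) (nat_lit 76) (nat_lit 4083950055) (nat_lit 678) (nat_lit 5) (nat_lit 694) (nat_lit 5) (nat_lit 679) (nat_lit 5) (nat_lit 407) (nat_lit 374) (nat_lit 359)) (XT.lf (nat_lit 0) (nat_lit 3425206290) (nat_lit 1216) (nat_lit 1225722949) (nat_lit 1292) (nat_lit 2203243577) (nat_lit 662) (nat_lit 5) (nat_lit 678) (nat_lit 5) (nat_lit 679) (nat_lit 5) (nat_lit 408) (nat_lit 374) (nat_lit 358))))) (XT.nd (nat_lit 312) (nat_lit 3192) (nat_lit 0) (XT.nd (nat_lit 156) (nat_lit 2888) (nat_lit 0) (XT.nd (nat_lit 78) (nat_lit 0) (nat_lit 0) (XT.lf (nat_lit 0) (nat_lit 729662017) (nat_lit 1368) (nat_lit 5813366935) (nat_lit 76) (nat_lit 343559636) (nat_lit 644) (nat_lit 5) (nat_lit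 662) (nat_lit 5) (nat_lit 645) (nat_lit 5) (nat_lit 409) (nat_lit 374) (nat_lit 357)) (XT.lf (nat_lit 0) (nat_lit 3660977652) (nat_lit 1368) (nat_lit 1283623342) (nat_lit 76) (nat_lit 1975375345) (nat_lit 644) (nat_lit 5) (nat_lit 662) (nat_lit 5) (nat_lit 645) (nat_lit 5) (nat_lit 410) (nat_lit 374) (nat_lit 356))) (XT.nd (nat_lit 78) (nat_lit 1520) (nat_lit 0) (XT.lf (nat_lit 0) (nat_lit 3327906070) (nat_lit 1368) (nat_lit 3283783107) (nat_lit 1444) (nat_lit 343127277) (nat_lit 626) (nat_lit 5) (nat_lit 644) (nat_lit 5) (nat_lit 645) (nat_lit 5) (nat_lit 411) (nat_lit 374) (nat_lit 355)) (XT.lf (nat_lit 0) (nat_lit 1001973795) (nat_lit 1444) (nat_lit 1549377155) (nat_lit 1520) (nat_lit 4439564844) (nat_lit 606) (nat_lit 5) (nat_lit 625) (nat_lit 5) (nat_lit 626) (nat_lit 5) (nat_lit 412) (nat_lit 374) (nat_lit 354)))) (XT.nd (nat_lit 156) (nat_lit 1596) (nat_lit 0) (XT.nd (nat_lit 78) (nat_lit 1596) (nat_lit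 0) (XT.lf (nat_lit 0) (nat_lit 5465562611) (nat_lit 1520) (nat_lit 1312311436) (nat_lit 76) (nat_lit 250488946) (nat_lit 606) (nat_lit 5) (nat_lit 626) (nat_lit 5) (nat_lit 607) (nat_lit 5) (nat_lit 413) (nat_lit 374) (nat_lit 353)) (XT.lf (nat_lit 0) (nat_lit 1327611143) (nat_lit 1596) (nat_lit 3635846817) (nat_lit 76) (nat_lit 2103441097) (nat_lit 585) (nat_lit 5) (nat_lit 606) (nat_lit 5) (nat_lit 586) (nat_lit 5) (nat_lit 414) (nat_lit 374) (nat_lit 352))) (XT.nd (nat_lit 78) (nat_lit 0) (nat_lit 0) (XT.lf (nat_lit 0) (nat_lit 1132316792) (nat_lit 1596) (nat_lit 3080920988) (nat_lit 1672) (nat_lit 2893594805) (nat_lit 564) (nat_lit 5) (nat_lit 585) (nat_lit 5) (nat_lit 586) (nat_lit 5) (nat_lit 415) (nat_lit 374) (nat_lit 351)) (XT.lf (nat_lit 0) (nat_lit 5992310369) (nat_lit 1596) (nat_lit 1131554297) (nat_lit 1672) (nat_lit 24354364) (nat_lit 564) (nat_lit 5) (nat_lit 585) (nat_lit 5) (nat_lit 586) (nat_lit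 5) (nat_lit 416) (nat_lit 374) (nat_lit 350)))))) (XT.nd (nat_lit 624) (nat_lit 4408) (nat_lit 0) (XT.nd (nat_lit 312) (nat_lit 3116) (nat_lit 0) (XT.nd (nat_lit 156) (nat_lit 1900) (nat_lit 0) (XT.nd (nat_lit 78) (nat_lit 1748) (nat_lit 0) (XT.lf (nat_lit 0) (nat_lit 2837979764) (nat_lit 1748) (nat_lit 3459868440) (nat_lit 76) (nat_lit 892732676) (nat_lit 541) (nat_lit 5) (nat_lit 564) (nat_lit 5) (nat_lit 542) (nat_lit 5) (nat_lit 417) (nat_lit 374) (nat_lit 349)) (XT.lf (nat_lit 0) (nat_lit 1455158068) (nat_lit 1748) (nat_lit 4271253150) (nat_lit 1824) (nat_lit 1507991994) (nat_lit 518) (nat_lit 5) (nat_lit 541) (nat_lit 5) (nat_lit 542) (nat_lit 5) (nat_lit 418) (nat_lit 374) (nat_lit 348))) (XT.nd (nat_lit 78) (nat_lit 1824) (nat_lit 0) (XT.lf (nat_lit 0) (nat_lit 1343413876) (nat_lit 1824) (nat_lit 826157092) (nat_lit 76) (nat_lit 5109986459) (nat_lit 517) (nat_lit 5) (nat_lit 541) (nat_lit 5) (nat_lit 518)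 (nat_lit 5) (nat_lit 419) (nat_lit 374) (nat_lit 347)) (XT.lf (nat_lit 0) (nat_lit 4205045925) (nat_lit 1900) (nat_lit 3107353296) (nat_lit 76) (nat_lit 13548345) (nat_lit 493) (nat_lit 5) (nat_lit 518) (nat_lit 5) (nat_lit 494) (nat_lit 5) (nat_lit 420) (nat_lit 374) (nat_lit 346)))) (XT.nd (nat_lit 156) (nat_lit 1900) (nat_lit 0) (XT.nd (nat_lit 78) (nat_lit 76) (nat_lit 0) (XT.lf (nat_lit 0) (nat_lit 1960210539) (nat_lit 1140) (nat_lit 5142995709) (nat_lit 1216) (nat_lit 270473348) (nat_lit 478) (nat_lit 5) (nat_lit 493) (nat_lit 5) (nat_lit 494) (nat_lit 5) (nat_lit 421) (nat_lit 374) (nat_lit 345)) (XT.lf (nat_lit 0) (nat_lit 2570342813) (nat_lit 1216) (nat_lit 321693162) (nat_lit 76) (nat_lit 4530628601) (nat_lit 477) (nat_lit 5) (nat_lit 493) (nat_lit 5) (nat_lit 478) (nat_lit 5) (nat_lit 422) (nat_lit 374) (nat_lit 344))) (XT.nd (nat_lit 78) (nat_lit 988) (nat_lit 0) (XT.lf (nat_lit 0) (nat_lit 4881470388)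 (nat_lit 912) (nat_lit 562593622) (nat_lit 988) (nat_lit 2028935284) (nat_lit 465) (nat_lit 5) (nat_lit 477) (nat_lit 5) (nat_lit 478) (nat_lit 5) (nat_lit 423) (nat_lit 374) (nat_lit 343)) (XT.lf (nat_lit 0) (nat_lit 819387247) (nat_lit 988) (nat_lit 4891914371) (nat_lit 76) (nat_lit 1813336027) (nat_lit 452) (nat_lit 5) (nat_lit 465) (nat_lit 5) (nat_lit 453) (nat_lit 5) (nat_lit 424) (nat_lit 374) (nat_lit 342))))) (XT.nd (nat_lit 312) (nat_lit 1748) (nat_lit 0) (XT.nd (nat_lit 156) (nat_lit 1824) (nat_lit 0) (XT.nd (nat_lit 78) (nat_lit 0) (nat_lit 0) (XT.lf (nat_lit 0) (nat_lit 353306935) (nat_lit 836) (nat_lit 3316765376) (nat_lit 912) (nat_lit 3907516957) (nat_lit 441) (nat_lit 5) (nat_lit 452) (nat_lit 5) (nat_lit 453) (nat_lit 5) (nat_lit 425) (nat_lit 374) (nat_lit 341)) (XT.lf (nat_lit 0) (nat_lit 5716419458) (nat_lit 836) (nat_lit 843845220) (nat_lit 912) (nat_lit 1071685373) (nat_lit 441) (nat_lit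 5) (nat_lit 452) (nat_lit 5) (nat_lit 453) (nat_lit 5) (nat_lit 426) (nat_lit 374) (nat_lit 340))) (XT.nd (nat_lit 78) (nat_lit 836) (nat_lit 0) (XT.lf (nat_lit 0) (nat_lit 1781009488) (nat_lit 988) (nat_lit 4218528573) (nat_lit 76) (nat_lit 1687942992) (nat_lit 428) (nat_lit 5) (nat_lit 441) (nat_lit 5) (nat_lit 429) (nat_lit 5) (nat_lit 427) (nat_lit 374) (nat_lit 339)) (XT.lf (nat_lit 0) (nat_lit 1192546399) (nat_lit 836) (nat_lit 3461081831) (nat_lit 912) (nat_lit 3090808371) (nat_lit 417) (nat_lit 5) (nat_lit 428) (nat_lit 5) (nat_lit 429) (nat_lit 5) (nat_lit 428) (nat_lit 374) (nat_lit 338)))) (XT.nd (nat_lit 156) (nat_lit 836) (nat_lit 0) (XT.nd (nat_lit 78) (nat_lit 912) (nat_lit 0) (XT.lf (nat_lit 0) (nat_lit 6715829980) (nat_lit 836) (nat_lit 847730480) (nat_lit 912) (nat_lit 239373577) (nat_lit 417) (nat_lit 5) (nat_lit 428) (nat_lit 5) (nat_lit 429) (nat_lit 5) (nat_lit 429) (nat_lit 374) (nat_lit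 337)) (XT.lf (nat_lit 0) (nat_lit 2627408395) (nat_lit 912) (nat_lit 3399150177) (nat_lit 76) (nat_lit 1835829779) (nat_lit 405) (nat_lit 5) (nat_lit 417) (nat_lit 5) (nat_lit 406) (nat_lit 5) (nat_lit 430) (nat_lit 374) (nat_lit 336))) (XT.nd (nat_lit 78) (nat_lit 76) (nat_lit 0) (XT.lf (nat_lit 0) (nat_lit 2184488094) (nat_lit 760) (nat_lit 3343727344) (nat_lit 836) (nat_lit 2395186776) (nat_lit 395) (nat_lit 5) (nat_lit 405) (nat_lit 5) (nat_lit 406) (nat_lit 5) (nat_lit 431) (nat_lit 374) (nat_lit 335)) (XT.lf (nat_lit 0) (nat_lit 470811757) (nat_lit 836) (nat_lit 116335992) (nat_lit 76) (nat_lit 7398903786) (nat_lit 394) (nat_lit 5) (nat_lit 405) (nat_lit 5) (nat_lit 395) (nat_lit 5) (nat_lit 432) (nat_lit 374) (nat_lit 334))))))) (XT.nd (nat_lit 1248) (nat_lit 4940) (nat_lit 0) (XT.nd (nat_lit 624) (nat_lit 3876) (nat_lit 0) (XT.nd (nat_lit 312) (nat_lit 2128) (nat_lit 0) (XT.nd (nat_lit 156) (nat_lit 836)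 (nat_lit 0) (XT.nd (nat_lit 78) (nat_lit 760) (nat_lit 0) (XT.lf (nat_lit 0) (nat_lit 3367296847) (nat_lit 836) (nat_lit 2440557120) (nat_lit 76) (nat_lit 2241678470) (nat_lit 384) (nat_lit 5) (nat_lit 395) (nat_lit 5) (nat_lit 385) (nat_lit 5) (nat_lit 433) (nat_lit 374) (nat_lit 333)) (XT.lf (nat_lit 0) (nat_lit 3322693047) (nat_lit 760) (nat_lit 2979731571) (nat_lit 836) (nat_lit 1812244079) (nat_lit 374) (nat_lit 5) (nat_lit 384) (nat_lit 5) (nat_lit 385) (nat_lit 5) (nat_lit 434) (nat_lit 374) (nat_lit 332))) (XT.nd (nat_lit 78) (nat_lit 0) (nat_lit 0) (XT.lf (nat_lit 0) (nat_lit 1006009688) (nat_lit 760) (nat_lit 72247865) (nat_lit 836) (nat_lit 7103150610) (nat_lit 363) (nat_lit 5) (nat_lit 373) (nat_lit 5) (nat_lit 374) (nat_lit 5) (nat_lit 435) (nat_lit 374) (nat_lit 331)) (XT.lf (nat_lit 0) (nat_lit 4008689645) (nat_lit 836) (nat_lit 1348764656) (nat_lit 76) (nat_lit 2891660812) (nat_lit 363) (nat_lit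 5) (nat_lit 374) (nat_lit 5) (nat_lit 364) (nat_lit 5) (nat_lit 436) (nat_lit 374) (nat_lit 330)))) (XT.nd (nat_lit 156) (nat_lit 684) (nat_lit 0) (XT.nd (nat_lit 78) (nat_lit 760) (nat_lit 0) (XT.lf (nat_lit 0) (nat_lit 4601492142) (nat_lit 684) (nat_lit 2382679181) (nat_lit 760) (nat_lit 1334276059) (nat_lit 354) (nat_lit 5) (nat_lit 363) (nat_lit 5) (nat_lit 364) (nat_lit 5) (nat_lit 437) (nat_lit 374) (nat_lit 329)) (XT.lf (nat_lit 0) (nat_lit 1593160242) (nat_lit 760) (nat_lit 6127634255) (nat_lit 76) (nat_lit 668469309) (nat_lit 344) (nat_lit 5) (nat_lit 354) (nat_lit 5) (nat_lit 345) (nat_lit 5) (nat_lit 438) (nat_lit 374) (nat_lit 328))) (XT.nd (nat_lit 78) (nat_lit 684) (nat_lit 0) (XT.lf (nat_lit 0) (nat_lit 4558955908) (nat_lit 760) (nat_lit 129074875) (nat_lit 76) (nat_lit 3773335850) (nat_lit 344) (nat_lit 5) (nat_lit 354) (nat_lit 5) (nat_lit 345) (nat_lit 5) (nat_lit 439) (nat_lit 374) (nat_lit 327))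 (XT.lf (nat_lit 0) (nat_lit 6015937422) (nat_lit 684) (nat_lit 1564809769) (nat_lit 760) (nat_lit 954230734) (nat_lit 335) (nat_lit 5) (nat_lit 344) (nat_lit 5) (nat_lit 345) (nat_lit 5) (nat_lit 440) (nat_lit 374) (nat_lit 326))))) (XT.nd (nat_lit 312) (nat_lit 1824) (nat_lit 0) (XT.nd (nat_lit 156) (nat_lit 684) (nat_lit 0) (XT.nd (nat_lit 78) (nat_lit 608) (nat_lit 0) (XT.lf (nat_lit 0) (nat_lit 2019150582) (nat_lit 760) (nat_lit 4963296361) (nat_lit 76) (nat_lit 1627484679) (nat_lit 325) (nat_lit 5) (nat_lit 335) (nat_lit 5) (nat_lit 326) (nat_lit 5) (nat_lit 441) (nat_lit 374) (nat_lit 325)) (XT.lf (nat_lit 0) (nat_lit 1230009721) (nat_lit 608) (nat_lit 3802843754) (nat_lit 684) (nat_lit 3653532148) (nat_lit 317) (nat_lit 5) (nat_lit 325) (nat_lit 5) (nat_lit 326) (nat_lit 5) (nat_lit 442) (nat_lit 374) (nat_lit 324))) (XT.nd (nat_lit 78) (nat_lit 684) (nat_lit 0) (XT.lf (nat_lit 0) (nat_lit 7561757514) (nat_lit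 608) (nat_lit 537109710) (nat_lit 684) (nat_lit 665660743) (nat_lit 317) (nat_lit 5) (nat_lit 325) (nat_lit 5) (nat_lit 326) (nat_lit 5) (nat_lit 443) (nat_lit 374) (nat_lit 323)) (XT.lf (nat_lit 0) (nat_lit 2361997186) (nat_lit 684) (nat_lit 3686340393) (nat_lit 76) (nat_lit 2795360893) (nat_lit 308) (nat_lit 5) (nat_lit 317) (nat_lit 5) (nat_lit 309) (nat_lit 5) (nat_lit 444) (nat_lit 374) (nat_lit 322)))) (XT.nd (nat_lit 156) (nat_lit 608) (nat_lit 0) (XT.nd (nat_lit 78) (nat_lit 608) (nat_lit 0) (XT.lf (nat_lit 0) (nat_lit 2711649468) (nat_lit 608) (nat_lit 2718599698) (nat_lit 684) (nat_lit 3494336139) (nat_lit 300) (nat_lit 5) (nat_lit 308) (nat_lit 5) (nat_lit 309) (nat_lit 5) (nat_lit 445) (nat_lit 374) (nat_lit 321)) (XT.lf (nat_lit 0) (nat_lit 226409520) (nat_lit 608) (nat_lit 8324257806) (nat_lit 684) (nat_lit 456606525) (nat_lit 292) (nat_lit 5) (nat_lit 300) (nat_lit 5) (nat_lit 301) (nat_lit 5) (nat_lit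 446) (nat_lit 374) (nat_lit 320))) (XT.nd (nat_lit 78) (nat_lit 532) (nat_lit 0) (XT.lf (nat_lit 0) (nat_lit 2627411175) (nat_lit 684) (nat_lit 2300604846) (nat_lit 76) (nat_lit 4162853446) (nat_lit 291) (nat_lit 5) (nat_lit 300) (nat_lit 5) (nat_lit 292) (nat_lit 5) (nat_lit 447) (nat_lit 374) (nat_lit 319)) (XT.lf (nat_lit 0) (nat_lit 4310663835) (nat_lit 532) (nat_lit 1445315081) (nat_lit 608) (nat_lit 3420318046) (nat_lit 284) (nat_lit 5) (nat_lit 291) (nat_lit 5) (nat_lit 292) (nat_lit 5) (nat_lit 448) (nat_lit 374) (nat_lit 318)))))) (XT.nd (nat_lit 624) (nat_lit 1520) (nat_lit 0) (XT.nd (nat_lit 312) (nat_lit 1672) (nat_lit 0) (XT.nd (nat_lit 156) (nat_lit 1064) (nat_lit 0) (XT.nd (nat_lit 78) (nat_lit 76) (nat_lit 0) (XT.lf (nat_lit 0) (nat_lit 1779322091) (nat_lit 608) (nat_lit 7169902725) (nat_lit 684) (nat_lit 314166052) (nat_lit 276) (nat_lit 5) (nat_lit 284) (nat_lit 5) (nat_lit 285) (nat_lit 5) (nat_lit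 449) (nat_lit 374) (nat_lit 317)) (XT.lf (nat_lit 0) (nat_lit 2820615672) (nat_lit 684) (nat_lit 809377934) (nat_lit 76) (nat_lit 5721783655) (nat_lit 275) (nat_lit 5) (nat_lit 284) (nat_lit 5) (nat_lit 276) (nat_lit 5) (nat_lit 450) (nat_lit 374) (nat_lit 316))) (XT.nd (nat_lit 78) (nat_lit 532) (nat_lit 0) (XT.lf (nat_lit 0) (nat_lit 6015315705) (nat_lit 608) (nat_lit 3417771513) (nat_lit 76) (nat_lit 8774043) (nat_lit 268) (nat_lit 5) (nat_lit 276) (nat_lit 5) (nat_lit 269) (nat_lit 5) (nat_lit 451) (nat_lit 374) (nat_lit 315)) (XT.lf (nat_lit 0) (nat_lit 3440707237) (nat_lit 532) (nat_lit 5847620877) (nat_lit 608) (nat_lit 245130461) (nat_lit 261) (nat_lit 5) (nat_lit 268) (nat_lit 5) (nat_lit 269) (nat_lit 5) (nat_lit 452) (nat_lit 374) (nat_lit 314)))) (XT.nd (nat_lit 156) (nat_lit 1064) (nat_lit 0) (XT.nd (nat_lit 78) (nat_lit 0) (nat_lit 0) (XT.lf (nat_lit 0) (nat_lit 794996138) (nat_lit 532) (nat_lit 2156546872)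 (nat_lit 608) (nat_lit 6675135785) (nat_lit 253) (nat_lit 5) (nat_lit 260) (nat_lit 5) (nat_lit 261) (nat_lit 5) (nat_lit 453) (nat_lit 374) (nat_lit 313)) (XT.lf (nat_lit 0) (nat_lit 6223494209) (nat_lit 608) (nat_lit 1882549983) (nat_lit 76) (nat_lit 1615394293) (nat_lit 253) (nat_lit 5) (nat_lit 261) (nat_lit 5) (nat_lit 254) (nat_lit 5) (nat_lit 454) (nat_lit 374) (nat_lit 312))) (XT.nd (nat_lit 78) (nat_lit 532) (nat_lit 0) (XT.lf (nat_lit 0) (nat_lit 5208262372) (nat_lit 532) (nat_lit 4364469010) (nat_lit 608) (nat_lit 245125046) (nat_lit 246) (nat_lit 5) (nat_lit 253) (nat_lit 5) (nat_lit 254) (nat_lit 5) (nat_lit 455) (nat_lit 374) (nat_lit 311)) (XT.lf (nat_lit 0) (nat_lit 2511898694) (nat_lit 456) (nat_lit 513469533) (nat_lit 532) (nat_lit 6890577149) (nat_lit 239) (nat_lit 5) (nat_lit 245) (nat_lit 5) (nat_lit 246) (nat_lit 5) (nat_lit 456) (nat_lit 374) (nat_lit 310))))) (XT.nd (nat_lit 312) (nat_lit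 0) (nat_lit 0) (XT.nd (nat_lit 156) (nat_lit 988) (nat_lit 0) (XT.nd (nat_lit 78) (nat_lit 532) (nat_lit 0) (XT.lf (nat_lit 0) (nat_lit 6375467284) (nat_lit 532) (nat_lit 252816315) (nat_lit 76) (nat_lit 3387330536) (nat_lit 239) (nat_lit 5) (nat_lit 246) (nat_lit 5) (nat_lit 240) (nat_lit 5) (nat_lit 457) (nat_lit 374) (nat_lit 309)) (XT.lf (nat_lit 0) (nat_lit 7080163753) (nat_lit 532) (nat_lit 2726644632) (nat_lit 608) (nat_lit 310183083) (nat_lit 232) (nat_lit 5) (nat_lit 239) (nat_lit 5) (nat_lit 240) (nat_lit 5) (nat_lit 458) (nat_lit 374) (nat_lit 308))) (XT.nd (nat_lit 78) (nat_lit 456) (nat_lit 0) (XT.lf (nat_lit 0) (nat_lit 3049078707) (nat_lit 532) (nat_lit 5899735347) (nat_lit 76) (nat_lit 1271117975) (nat_lit 225) (nat_lit 5) (nat_lit 232) (nat_lit 5) (nat_lit 226) (nat_lit 5) (nat_lit 459) (nat_lit 374) (nat_lit 307)) (XT.lf (nat_lit 0) (nat_lit 1489168635) (nat_lit 456) (nat_lit 4995704061) (nat_lit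 532) (nat_lit 3839747691) (nat_lit 219) (nat_lit 5) (nat_lit 225) (nat_lit 5) (nat_lit 226) (nat_lit 5) (nat_lit 460) (nat_lit 374) (nat_lit 306)))) (XT.nd (nat_lit 53898) (nat_lit 0) (nat_lit 42940) (XT.nd (nat_lit 53820) (nat_lit 0) (nat_lit 43472) (XT.lf (nat_lit 0) (nat_lit 9055041046) (nat_lit 456) (nat_lit 939540215) (nat_lit 532) (nat_lit 436717278) (nat_lit 219) (nat_lit 5) (nat_lit 225) (nat_lit 5) (nat_lit 226) (nat_lit 5) (nat_lit 461) (nat_lit 374) (nat_lit 305)) (XT.lf (nat_lit 0) (nat_lit 1200751573) (nat_lit 380) (nat_lit 1022009023) (nat_lit 380) (nat_lit 1022009023) (nat_lit 791) (nat_lit 4) (nat_lit 796) (nat_lit 5) (nat_lit 796) (nat_lit 4) (nat_lit 390) (nat_lit 375) (nat_lit 375))) (XT.nd (nat_lit 78) (nat_lit 456) (nat_lit 0) (XT.lf (nat_lit 0) (nat_lit 1185003500) (nat_lit 456) (nat_lit 355577853) (nat_lit 76) (nat_lit 4959182542) (nat_lit 790) (nat_lit 5) (nat_lit 796) (nat_lit 5) (nat_lit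 791) (nat_lit 4) (nat_lit 391) (nat_lit 375) (nat_lit 374)) (XT.lf (nat_lit 0) (nat_lit 3433745726) (nat_lit 456) (nat_lit 961505771) (nat_lit 532) (nat_lit 2115791018) (nat_lit 784) (nat_lit 5) (nat_lit 790) (nat_lit 5) (nat_lit 791) (nat_lit 4) (nat_lit 392) (nat_lit 375) (nat_lit 373))))))))
noncomputable def xc23 : XT := (XT.nd (nat_lit 2496) (nat_lit 15732) (nat_lit 0) (XT.nd (nat_lit 1248) (nat_lit 15960) (nat_lit 0) (XT.nd (nat_lit 624) (nat_lit 5548) (nat_lit 0) (XT.nd (nat_lit 312) (nat_lit 2432) (nat_lit 0) (XT.nd (nat_lit 156) (nat_lit 684) (nat_lit 0) (XT.nd (nat_lit 78) (nat_lit 0) (nat_lit 0) (XT.lf (nat_lit 0) (nat_lit 733342263) (nat_lit 532) (nat_lit 328336252) (nat_lit 608) (nat_lit 5462127912) (nat_lit 776) (nat_lit 5) (nat_lit 783) (nat_lit 5) (nat_lit 784) (nat_lit 5) (nat_lit 393) (nat_lit 375) (nat_lit 372)) (XT.lf (nat_lit 0) (nat_lit 4221017307) (nat_lit 608) (nat_lit 1942076144) (nat_lit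 76) (nat_lit 374519454) (nat_lit 776) (nat_lit 5) (nat_lit 784) (nat_lit 5) (nat_lit 777) (nat_lit 4) (nat_lit 394) (nat_lit 375) (nat_lit 371))) (XT.nd (nat_lit 78) (nat_lit 0) (nat_lit 0) (XT.lf (nat_lit 0) (nat_lit 819900952) (nat_lit 684) (nat_lit 4601876870) (nat_lit 76) (nat_lit 1131006872) (nat_lit 767) (nat_lit 5) (nat_lit 776) (nat_lit 5) (nat_lit 768) (nat_lit 5) (nat_lit 395) (nat_lit 375) (nat_lit 370)) (XT.lf (nat_lit 0) (nat_lit 3927179029) (nat_lit 684) (nat_lit 686357710) (nat_lit 76) (nat_lit 1955635512) (nat_lit 767) (nat_lit 5) (nat_lit 776) (nat_lit 5) (nat_lit 768) (nat_lit 5) (nat_lit 396) (nat_lit 375) (nat_lit 369)))) (XT.nd (nat_lit 156) (nat_lit 912) (nat_lit 0) (XT.nd (nat_lit 78) (nat_lit 760) (nat_lit 0) (XT.lf (nat_lit 0) (nat_lit 452484285) (nat_lit 760) (nat_lit 3289133599) (nat_lit 76) (nat_lit 2845234010) (nat_lit 757) (nat_lit 5) (nat_lit 767) (nat_lit 5) (nat_lit 758) (nat_lit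 5) (nat_lit 397) (nat_lit 375) (nat_lit 368)) (XT.lf (nat_lit 0) (nat_lit 707098217) (nat_lit 760) (nat_lit 2803640621) (nat_lit 836) (nat_lit 3095051744) (nat_lit 747) (nat_lit 5) (nat_lit 757) (nat_lit 5) (nat_lit 758) (nat_lit 5) (nat_lit 398) (nat_lit 375) (nat_lit 367))) (XT.nd (nat_lit 78) (nat_lit 912) (nat_lit 0) (XT.lf (nat_lit 0) (nat_lit 4777537943) (nat_lit 760) (nat_lit 1803780904) (nat_lit 836) (nat_lit 44765990) (nat_lit 747) (nat_lit 5) (nat_lit 757) (nat_lit 5) (nat_lit 758) (nat_lit 5) (nat_lit 399) (nat_lit 375) (nat_lit 366)) (XT.lf (nat_lit 0) (nat_lit 2241848305) (nat_lit 836) (nat_lit 729033269) (nat_lit 912) (nat_lit 3676613724) (nat_lit 735) (nat_lit 5) (nat_lit 746) (nat_lit 5) (nat_lit 747) (nat_lit 5) (nat_lit 400) (nat_lit 375) (nat_lit 365))))) (XT.nd (nat_lit 312) (nat_lit 3496) (nat_lit 0) (XT.nd (nat_lit 156) (nat_lit 1064) (nat_lit 0) (XT.nd (nat_lit 78) (nat_lit 988) (nat_lit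 0) (XT.lf (nat_lit 0) (nat_lit 5992304421) (nat_lit 912) (nat_lit 284156793) (nat_lit 76) (nat_lit 393945599) (nat_lit 735) (nat_lit 5) (nat_lit 747) (nat_lit 5) (nat_lit 736) (nat_lit 5) (nat_lit 401) (nat_lit 375) (nat_lit 364)) (XT.lf (nat_lit 0) (nat_lit 2311705562) (nat_lit 988) (nat_lit 2793845526) (nat_lit 76) (nat_lit 1588665460) (nat_lit 722) (nat_lit 5) (nat_lit 735) (nat_lit 5) (nat_lit 723) (nat_lit 5) (nat_lit 402) (nat_lit 375) (nat_lit 363))) (XT.nd (nat_lit 78) (nat_lit 76) (nat_lit 0) (XT.lf (nat_lit 0) (nat_lit 1417092541) (nat_lit 988) (nat_lit 3879362836) (nat_lit 1064) (nat_lit 1423072947) (nat_lit 709) (nat_lit 5) (nat_lit 722) (nat_lit 5) (nat_lit 723) (nat_lit 5) (nat_lit 403) (nat_lit 375) (nat_lit 362)) (XT.lf (nat_lit 0) (nat_lit 1527143581) (nat_lit 1064) (nat_lit 1056847165) (nat_lit 76) (nat_lit 4162098087) (nat_lit 708) (nat_lit 5) (nat_lit 722) (nat_lit 5) (nat_lit 709) (nat_lit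 5) (nat_lit 404) (nat_lit 375) (nat_lit 361)))) (XT.nd (nat_lit 156) (nat_lit 1216) (nat_lit 0) (XT.nd (nat_lit 78) (nat_lit 1216) (nat_lit 0) (XT.lf (nat_lit 0) (nat_lit 3256434764) (nat_lit 1064) (nat_lit 1216979957) (nat_lit 1140) (nat_lit 2300455598) (nat_lit 694) (nat_lit 5) (nat_lit 708) (nat_lit 5) (nat_lit 709) (nat_lit 5) (nat_lit 405) (nat_lit 375) (nat_lit 360)) (XT.lf (nat_lit 0) (nat_lit 616839713) (nat_lit 1216) (nat_lit 5980934397) (nat_lit 76) (nat_lit 205359349) (nat_lit 678) (nat_lit 5) (nat_lit 694) (nat_lit 5) (nat_lit 679) (nat_lit 5) (nat_lit 406) (nat_lit 375) (nat_lit 359))) (XT.nd (nat_lit 78) (nat_lit 1216) (nat_lit 0) (XT.lf (nat_lit 0) (nat_lit 3530015987) (nat_lit 1216) (nat_lit 1611702356) (nat_lit 76) (nat_lit 1691592637) (nat_lit 678) (nat_lit 5) (nat_lit 694) (nat_lit 5) (nat_lit 679) (nat_lit 5) (nat_lit 407) (nat_lit 375) (nat_lit 358)) (XT.lf (nat_lit 0) (nat_lit 2831016046)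 (nat_lit 1216) (nat_lit 3626555604) (nat_lit 1292) (nat_lit 407398082) (nat_lit 662) (nat_lit 5) (nat_lit 678) (nat_lit 5) (nat_lit 679) (nat_lit 5) (nat_lit 408) (nat_lit 375) (nat_lit 357)))))) (XT.nd (nat_lit 624) (nat_lit 8436) (nat_lit 0) (XT.nd (nat_lit 312) (nat_lit 3268) (nat_lit 0) (XT.nd (nat_lit 156) (nat_lit 2888) (nat_lit 0) (XT.nd (nat_lit 78) (nat_lit 0) (nat_lit 0) (XT.lf (nat_lit 0) (nat_lit 424844902) (nat_lit 1292) (nat_lit 2040040863) (nat_lit 1368) (nat_lit 4433007921) (nat_lit 644) (nat_lit 5) (nat_lit 661) (nat_lit 5) (nat_lit 662) (nat_lit 5) (nat_lit 409) (nat_lit 375) (nat_lit 356)) (XT.lf (nat_lit 0) (nat_lit 4973592937) (nat_lit 1292) (nat_lit 381724048) (nat_lit 1368) (nat_lit 1576782141) (nat_lit 644) (nat_lit 5) (nat_lit 661) (nat_lit 5) (nat_lit 662) (nat_lit 5) (nat_lit 410) (nat_lit 375) (nat_lit 355))) (XT.nd (nat_lit 78) (nat_lit 1444) (nat_lit 0) (XT.lf (nat_lit 0) (nat_lit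 1284687917) (nat_lit 1444) (nat_lit 4355354387) (nat_lit 76) (nat_lit 1327459830) (nat_lit 625) (nat_lit 5) (nat_lit 644) (nat_lit 5) (nat_lit 626) (nat_lit 5) (nat_lit 411) (nat_lit 375) (nat_lit 354)) (XT.lf (nat_lit 0) (nat_lit 235569784) (nat_lit 1444) (nat_lit 3904815156) (nat_lit 1520) (nat_lit 2863857599) (nat_lit 606) (nat_lit 5) (nat_lit 625) (nat_lit 5) (nat_lit 626) (nat_lit 5) (nat_lit 412) (nat_lit 375) (nat_lit 353)))) (XT.nd (nat_lit 156) (nat_lit 1672) (nat_lit 0) (XT.nd (nat_lit 78) (nat_lit 1596) (nat_lit 0) (XT.lf (nat_lit 0) (nat_lit 4925816739) (nat_lit 1444) (nat_lit 2098235851) (nat_lit 1520) (nat_lit 18248028) (nat_lit 606) (nat_lit 5) (nat_lit 625) (nat_lit 5) (nat_lit 626) (nat_lit 5) (nat_lit 413) (nat_lit 375) (nat_lit 352)) (XT.lf (nat_lit 0) (nat_lit 2592737631) (nat_lit 1520) (nat_lit 212937604) (nat_lit 1596) (nat_lit 4275885506) (nat_lit 585) (nat_lit 5) (nat_lit 605) (nat_lit 5)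 (nat_lit 606) (nat_lit 5) (nat_lit 414) (nat_lit 375) (nat_lit 351))) (XT.nd (nat_lit 78) (nat_lit 76) (nat_lit 0) (XT.lf (nat_lit 0) (nat_lit 243258191) (nat_lit 1596) (nat_lit 5412785920) (nat_lit 1672) (nat_lit 1466155313) (nat_lit 564) (nat_lit 5) (nat_lit 585) (nat_lit 5) (nat_lit 586) (nat_lit 5) (nat_lit 415) (nat_lit 375) (nat_lit 350)) (XT.lf (nat_lit 0) (nat_lit 1356781575) (nat_lit 1672) (nat_lit 2095449569) (nat_lit 76) (nat_lit 3711730565) (nat_lit 563) (nat_lit 5) (nat_lit 585) (nat_lit 5) (nat_lit 564) (nat_lit 5) (nat_lit 416) (nat_lit 375) (nat_lit 349))))) (XT.nd (nat_lit 312) (nat_lit 3116) (nat_lit 0) (XT.nd (nat_lit 156) (nat_lit 1900) (nat_lit 0) (XT.nd (nat_lit 78) (nat_lit 1748) (nat_lit 0) (XT.lf (nat_lit 0) (nat_lit 2758681389) (nat_lit 1672) (nat_lit 1420536953) (nat_lit 1748) (nat_lit 3027893615) (nat_lit 541) (nat_lit 5) (nat_lit 563) (nat_lit 5) (nat_lit 564) (nat_lit 5) (nat_lit 417)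 (nat_lit 375) (nat_lit 348)) (XT.lf (nat_lit 0) (nat_lit 436581739) (nat_lit 1748) (nat_lit 6588259638) (nat_lit 1824) (nat_lit 226949081) (nat_lit 518) (nat_lit 5) (nat_lit 541) (nat_lit 5) (nat_lit 542) (nat_lit 5) (nat_lit 418) (nat_lit 375) (nat_lit 347))) (XT.nd (nat_lit 78) (nat_lit 1824) (nat_lit 0) (XT.lf (nat_lit 0) (nat_lit 2580869326) (nat_lit 1824) (nat_lit 1896502229) (nat_lit 76) (nat_lit 2819942496) (nat_lit 517) (nat_lit 5) (nat_lit 541) (nat_lit 5) (nat_lit 518) (nat_lit 5) (nat_lit 419) (nat_lit 375) (nat_lit 346)) (XT.lf (nat_lit 0) (nat_lit 3108223019) (nat_lit 1824) (nat_lit 2300718233) (nat_lit 1900) (nat_lit 1935434141) (nat_lit 493) (nat_lit 5) (nat_lit 517) (nat_lit 5) (nat_lit 518) (nat_lit 5) (nat_lit 420) (nat_lit 375) (nat_lit 345)))) (XT.nd (nat_lit 156) (nat_lit 1900) (nat_lit 0) (XT.nd (nat_lit 78) (nat_lit 0) (nat_lit 0) (XT.lf (nat_lit 0) (nat_lit 799195173) (nat_lit 1140) (nat_lit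 55494946) (nat_lit 1216) (nat_lit 6538264563) (nat_lit 477) (nat_lit 5) (nat_lit 492) (nat_lit 5) (nat_lit 493) (nat_lit 5) (nat_lit 421) (nat_lit 375) (nat_lit 344)) (XT.lf (nat_lit 0) (nat_lit 3665862636) (nat_lit 1216) (nat_lit 1529457619) (nat_lit 76) (nat_lit 2247106213) (nat_lit 477) (nat_lit 5) (nat_lit 493) (nat_lit 5) (nat_lit 478) (nat_lit 5) (nat_lit 422) (nat_lit 375) (nat_lit 343))) (XT.nd (nat_lit 78) (nat_lit 988) (nat_lit 0) (XT.lf (nat_lit 0) (nat_lit 3631748722) (nat_lit 912) (nat_lit 2874489688) (nat_lit 988) (nat_lit 987189684) (nat_lit 465) (nat_lit 5) (nat_lit 477) (nat_lit 5) (nat_lit 478) (nat_lit 5) (nat_lit 423) (nat_lit 375) (nat_lit 342)) (XT.lf (nat_lit 0) (nat_lit 1324934262) (nat_lit 912) (nat_lit 476969537) (nat_lit 988) (nat_lit 5743938699) (nat_lit 452) (nat_lit 5) (nat_lit 464) (nat_lit 5) (nat_lit 465) (nat_lit 5) (nat_lit 424) (nat_lit 375) (nat_lit 341))))))) (XT.nd (nat_lit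 1248) (nat_lit 6840) (nat_lit 0) (XT.nd (nat_lit 624) (nat_lit 4484) (nat_lit 0) (XT.nd (nat_lit 312) (nat_lit 2584) (nat_lit 0) (XT.nd (nat_lit 156) (nat_lit 988) (nat_lit 0) (XT.nd (nat_lit 78) (nat_lit 836) (nat_lit 0) (XT.lf (nat_lit 0) (nat_lit 4622451871) (nat_lit 988) (nat_lit 1003275809) (nat_lit 76) (nat_lit 1973669180) (nat_lit 452) (nat_lit 5) (nat_lit 465) (nat_lit 5) (nat_lit 453) (nat_lit 5) (nat_lit 425) (nat_lit 375) (nat_lit 340)) (XT.lf (nat_lit 0) (nat_lit 4320623101) (nat_lit 836) (nat_lit 3160991538) (nat_lit 912) (nat_lit 172763596) (nat_lit 441) (nat_lit 5) (nat_lit 452) (nat_lit 5) (nat_lit 453) (nat_lit 5) (nat_lit 426) (nat_lit 375) (nat_lit 339))) (XT.nd (nat_lit 78) (nat_lit 0) (nat_lit 0) (XT.lf (nat_lit 0) (nat_lit 2011258521) (nat_lit 912) (nat_lit 612131768) (nat_lit 988) (nat_lit 5087297249) (nat_lit 428) (nat_lit 5) (nat_lit 440) (nat_lit 5) (nat_lit 441) (nat_lit 5) (nat_lit 427)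 (nat_lit 375) (nat_lit 338)) (XT.lf (nat_lit 0) (nat_lit 5460478969) (nat_lit 988) (nat_lit 326009486) (nat_lit 76) (nat_lit 1981865234) (nat_lit 428) (nat_lit 5) (nat_lit 441) (nat_lit 5) (nat_lit 429) (nat_lit 5) (nat_lit 428) (nat_lit 375) (nat_lit 337)))) (XT.nd (nat_lit 156) (nat_lit 836) (nat_lit 0) (XT.nd (nat_lit 78) (nat_lit 836) (nat_lit 0) (XT.lf (nat_lit 0) (nat_lit 510602856) (nat_lit 912) (nat_lit 2663600285) (nat_lit 76) (nat_lit 4653093967) (nat_lit 416) (nat_lit 5) (nat_lit 428) (nat_lit 5) (nat_lit 417) (nat_lit 5) (nat_lit 429) (nat_lit 375) (nat_lit 336)) (XT.lf (nat_lit 0) (nat_lit 2850574712) (nat_lit 836) (nat_lit 477837175) (nat_lit 912) (nat_lit 4559225122) (nat_lit 405) (nat_lit 5) (nat_lit 416) (nat_lit 5) (nat_lit 417) (nat_lit 5) (nat_lit 430) (nat_lit 375) (nat_lit 335))) (XT.nd (nat_lit 78) (nat_lit 76) (nat_lit 0) (XT.lf (nat_lit 0) (nat_lit 501714744) (nat_lit 760) (nat_lit 5690544134)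 (nat_lit 836) (nat_lit 1757131195) (nat_lit 395) (nat_lit 5) (nat_lit 405) (nat_lit 5) (nat_lit 406) (nat_lit 5) (nat_lit 431) (nat_lit 375) (nat_lit 334)) (XT.lf (nat_lit 0) (nat_lit 1077699825) (nat_lit 836) (nat_lit 1855266309) (nat_lit 76) (nat_lit 5079446392) (nat_lit 394) (nat_lit 5) (nat_lit 405) (nat_lit 5) (nat_lit 395) (nat_lit 5) (nat_lit 432) (nat_lit 375) (nat_lit 333))))) (XT.nd (nat_lit 312) (nat_lit 2128) (nat_lit 0) (XT.nd (nat_lit 156) (nat_lit 836) (nat_lit 0) (XT.nd (nat_lit 78) (nat_lit 760) (nat_lit 0) (XT.lf (nat_lit 0) (nat_lit 3836123173) (nat_lit 760) (nat_lit 89353403) (nat_lit 836) (nat_lit 4151391019) (nat_lit 384) (nat_lit 5) (nat_lit 394) (nat_lit 5) (nat_lit 395) (nat_lit 5) (nat_lit 433) (nat_lit 375) (nat_lit 332)) (XT.lf (nat_lit 0) (nat_lit 1473059025) (nat_lit 760) (nat_lit 5352856348) (nat_lit 836) (nat_lit 1316782261) (nat_lit 374) (nat_lit 5) (nat_lit 384) (nat_lit 5) (nat_lit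 385) (nat_lit 5) (nat_lit 434) (nat_lit 375) (nat_lit 331))) (XT.nd (nat_lit 78) (nat_lit 760) (nat_lit 0) (XT.lf (nat_lit 0) (nat_lit 1538712373) (nat_lit 836) (nat_lit 913955248) (nat_lit 76) (nat_lit 5757275320) (nat_lit 373) (nat_lit 5) (nat_lit 384) (nat_lit 5) (nat_lit 374) (nat_lit 5) (nat_lit 435) (nat_lit 375) (nat_lit 330)) (XT.lf (nat_lit 0) (nat_lit 4425897182) (nat_lit 836) (nat_lit 3320164554) (nat_lit 76) (nat_lit 532453100) (nat_lit 363) (nat_lit 5) (nat_lit 374) (nat_lit 5) (nat_lit 364) (nat_lit 5) (nat_lit 436) (nat_lit 375) (nat_lit 329)))) (XT.nd (nat_lit 156) (nat_lit 684) (nat_lit 0) (XT.nd (nat_lit 78) (nat_lit 760) (nat_lit 0) (XT.lf (nat_lit 0) (nat_lit 2577936253) (nat_lit 684) (nat_lit 4788991268) (nat_lit 760) (nat_lit 981608612) (nat_lit 354) (nat_lit 5) (nat_lit 363) (nat_lit 5) (nat_lit 364) (nat_lit 5) (nat_lit 437) (nat_lit 375) (nat_lit 328)) (XT.lf (nat_lit 0) (nat_lit 156786823)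 (nat_lit 684) (nat_lit 1745122716) (nat_lit 760) (nat_lit 6518183079) (nat_lit 344) (nat_lit 5) (nat_lit 353) (nat_lit 5) (nat_lit 354) (nat_lit 5) (nat_lit 438) (nat_lit 375) (nat_lit 327))) (XT.nd (nat_lit 78) (nat_lit 684) (nat_lit 0) (XT.lf (nat_lit 0) (nat_lit 4835394636) (nat_lit 760) (nat_lit 2279365610) (nat_lit 76) (nat_lit 1378081412) (nat_lit 344) (nat_lit 5) (nat_lit 354) (nat_lit 5) (nat_lit 345) (nat_lit 5) (nat_lit 439) (nat_lit 375) (nat_lit 326)) (XT.lf (nat_lit 0) (nat_lit 3811291488) (nat_lit 684) (nat_lit 4011011705) (nat_lit 760) (nat_lit 744847411) (nat_lit 335) (nat_lit 5) (nat_lit 344) (nat_lit 5) (nat_lit 345) (nat_lit 5) (nat_lit 440) (nat_lit 375) (nat_lit 325)))))) (XT.nd (nat_lit 624) (nat_lit 2964) (nat_lit 0) (XT.nd (nat_lit 312) (nat_lit 1824) (nat_lit 0) (XT.nd (nat_lit 156) (nat_lit 1292) (nat_lit 0) (XT.nd (nat_lit 78) (nat_lit 0) (nat_lit 0) (XT.lf (nat_lit 0) (nat_lit 1363749323)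 (nat_lit 684) (nat_lit 815974309) (nat_lit 760) (nat_lit 6463274763) (nat_lit 325) (nat_lit 5) (nat_lit 334) (nat_lit 5) (nat_lit 335) (nat_lit 5) (nat_lit 441) (nat_lit 375) (nat_lit 324)) (XT.lf (nat_lit 0) (nat_lit 5159881577) (nat_lit 760) (nat_lit 1122525450) (nat_lit 76) (nat_lit 2437716268) (nat_lit 325) (nat_lit 5) (nat_lit 335) (nat_lit 5) (nat_lit 326) (nat_lit 5) (nat_lit 442) (nat_lit 375) (nat_lit 323))) (XT.nd (nat_lit 78) (nat_lit 684) (nat_lit 0) (XT.lf (nat_lit 0) (nat_lit 5168725459) (nat_lit 608) (nat_lit 3029754967) (nat_lit 684) (nat_lit 600333512) (nat_lit 317) (nat_lit 5) (nat_lit 325) (nat_lit 5) (nat_lit 326) (nat_lit 5) (nat_lit 443) (nat_lit 375) (nat_lit 322)) (XT.lf (nat_lit 0) (nat_lit 2374237609) (nat_lit 684) (nat_lit 6190694440) (nat_lit 76) (nat_lit 314088511) (nat_lit 308) (nat_lit 5) (nat_lit 317) (nat_lit 5) (nat_lit 309) (nat_lit 5) (nat_lit 444) (nat_lit 375) (nat_lit 321))))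 (XT.nd (nat_lit 156) (nat_lit 1216) (nat_lit 0) (XT.nd (nat_lit 78) (nat_lit 0) (nat_lit 0) (XT.lf (nat_lit 0) (nat_lit 148146776) (nat_lit 608) (nat_lit 5258119275) (nat_lit 684) (nat_lit 3554365813) (nat_lit 300) (nat_lit 5) (nat_lit 308) (nat_lit 5) (nat_lit 309) (nat_lit 5) (nat_lit 445) (nat_lit 375) (nat_lit 320)) (XT.lf (nat_lit 0) (nat_lit 6646454312) (nat_lit 608) (nat_lit 1854915725) (nat_lit 684) (nat_lit 542456656) (nat_lit 300) (nat_lit 5) (nat_lit 308) (nat_lit 5) (nat_lit 309) (nat_lit 5) (nat_lit 446) (nat_lit 375) (nat_lit 319))) (XT.nd (nat_lit 78) (nat_lit 532) (nat_lit 0) (XT.lf (nat_lit 0) (nat_lit 2495455241) (nat_lit 684) (nat_lit 5006205324) (nat_lit 76) (nat_lit 1626717527) (nat_lit 291) (nat_lit 5) (nat_lit 300) (nat_lit 5) (nat_lit 292) (nat_lit 5) (nat_lit 447) (nat_lit 375) (nat_lit 318)) (XT.lf (nat_lit 0) (nat_lit 1543481395) (nat_lit 532) (nat_lit 4043642103) (nat_lit 608) (nat_lit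 3627420077) (nat_lit 284) (nat_lit 5) (nat_lit 291) (nat_lit 5) (nat_lit 292) (nat_lit 5) (nat_lit 448) (nat_lit 375) (nat_lit 317))))) (XT.nd (nat_lit 312) (nat_lit 1216) (nat_lit 0) (XT.nd (nat_lit 156) (nat_lit 1064) (nat_lit 0) (XT.nd (nat_lit 78) (nat_lit 684) (nat_lit 0) (XT.lf (nat_lit 0) (nat_lit 8241272841) (nat_lit 532) (nat_lit 495122094) (nat_lit 608) (nat_lit 566122037) (nat_lit 284) (nat_lit 5) (nat_lit 291) (nat_lit 5) (nat_lit 292) (nat_lit 5) (nat_lit 449) (nat_lit 375) (nat_lit 316)) (XT.lf (nat_lit 0) (nat_lit 2543035690) (nat_lit 684) (nat_lit 3723953798) (nat_lit 76) (nat_lit 3124525162) (nat_lit 275) (nat_lit 5) (nat_lit 284) (nat_lit 5) (nat_lit 276) (nat_lit 5) (nat_lit 450) (nat_lit 375) (nat_lit 315))) (XT.nd (nat_lit 78) (nat_lit 532) (nat_lit 0) (XT.lf (nat_lit 0) (nat_lit 3045470304) (nat_lit 532) (nat_lit 2654548848) (nat_lit 608) (nat_lit 3782333830) (nat_lit 268) (nat_lit 5) (nat_lit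 275) (nat_lit 5) (nat_lit 276) (nat_lit 5) (nat_lit 451) (nat_lit 375) (nat_lit 314)) (XT.lf (nat_lit 0) (nat_lit 373412595) (nat_lit 532) (nat_lit 8544303562) (nat_lit 608) (nat_lit 657340447) (nat_lit 261) (nat_lit 5) (nat_lit 268) (nat_lit 5) (nat_lit 269) (nat_lit 5) (nat_lit 452) (nat_lit 375) (nat_lit 313)))) (XT.nd (nat_lit 156) (nat_lit 608) (nat_lit 0) (XT.nd (nat_lit 78) (nat_lit 532) (nat_lit 0) (XT.lf (nat_lit 0) (nat_lit 2521486879) (nat_lit 608) (nat_lit 2346911844) (nat_lit 76) (nat_lit 4800396675) (nat_lit 260) (nat_lit 5) (nat_lit 268) (nat_lit 5) (nat_lit 261) (nat_lit 5) (nat_lit 453) (nat_lit 375) (nat_lit 312)) (XT.lf (nat_lit 0) (nat_lit 4651532523) (nat_lit 532) (nat_lit 1097938799) (nat_lit 608) (nat_lit 4014963101) (nat_lit 253) (nat_lit 5) (nat_lit 260) (nat_lit 5) (nat_lit 261) (nat_lit 5) (nat_lit 454) (nat_lit 375) (nat_lit 311))) (XT.nd (nat_lit 78) (nat_lit 76) (nat_lit 0) (XT.lf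 (nat_lit 0) (nat_lit 1916961081) (nat_lit 532) (nat_lit 7135655735) (nat_lit 608) (nat_lit 809157384) (nat_lit 246) (nat_lit 5) (nat_lit 253) (nat_lit 5) (nat_lit 254) (nat_lit 5) (nat_lit 455) (nat_lit 375) (nat_lit 310)) (XT.lf (nat_lit 0) (nat_lit 2434899543) (nat_lit 608) (nat_lit 877583213) (nat_lit 76) (nat_lit 6648130308) (nat_lit 245) (nat_lit 5) (nat_lit 253) (nat_lit 5) (nat_lit 246) (nat_lit 5) (nat_lit 456) (nat_lit 375) (nat_lit 309))))))))
noncomputable def xc24 : XT := (XT.nd (nat_lit 56082) (nat_lit 0) (nat_lit 6156) (XT.nd (nat_lit 54834) (nat_lit 0) (nat_lit 27816) (XT.nd (nat_lit 54210) (nat_lit 0) (nat_lit 40128) (XT.nd (nat_lit 312) (nat_lit 456) (nat_lit 0) (XT.nd (nat_lit 156) (nat_lit 532) (nat_lit 0) (XT.nd (nat_lit 78) (nat_lit 532) (nat_lit 0) (XT.lf (nat_lit 0) (nat_lit 5743622891) (nat_lit 532) (nat_lit 3705647599) (nat_lit 76) (nat_lit 611838848) (nat_lit 239) (nat_lit 5) (nat_lit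 246) (nat_lit 5) (nat_lit 240) (nat_lit 5) (nat_lit 457) (nat_lit 375) (nat_lit 308)) (XT.lf (nat_lit 0) (nat_lit 3556496504) (nat_lit 532) (nat_lit 5578539650) (nat_lit 608) (nat_lit 1028249073) (nat_lit 232) (nat_lit 5) (nat_lit 239) (nat_lit 5) (nat_lit 240) (nat_lit 5) (nat_lit 458) (nat_lit 375) (nat_lit 307))) (XT.nd (nat_lit 78) (nat_lit 0) (nat_lit 0) (XT.lf (nat_lit 0) (nat_lit 691032512) (nat_lit 456) (nat_lit 1600430723) (nat_lit 532) (nat_lit 7975835136) (nat_lit 225) (nat_lit 5) (nat_lit 231) (nat_lit 5) (nat_lit 232) (nat_lit 5) (nat_lit 459) (nat_lit 375) (nat_lit 306)) (XT.lf (nat_lit 0) (nat_lit 5690335159) (nat_lit 532) (nat_lit 2221311485) (nat_lit 76) (nat_lit 2461078528) (nat_lit 225) (nat_lit 5) (nat_lit 232) (nat_lit 5) (nat_lit 226) (nat_lit 5) (nat_lit 460) (nat_lit 375) (nat_lit 305)))) (XT.nd (nat_lit 53742) (nat_lit 0) (nat_lit 43396) (XT.nd (nat_lit 53664) (nat_lit 0) (nat_lit 43852)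 (XT.lf (nat_lit 0) (nat_lit 5290394138) (nat_lit 456) (nat_lit 3878343967) (nat_lit 532) (nat_lit 1311291330) (nat_lit 219) (nat_lit 5) (nat_lit 225) (nat_lit 5) (nat_lit 226) (nat_lit 5) (nat_lit 461) (nat_lit 375) (nat_lit 304)) (XT.lf (nat_lit 0) (nat_lit 384426527) (nat_lit 380) (nat_lit 2467447967) (nat_lit 0) (nat_lit 384426527) (nat_lit 796) (nat_lit 5) (nat_lit 801) (nat_lit 4) (nat_lit 796) (nat_lit 4) (nat_lit 388) (nat_lit 376) (nat_lit 376))) (XT.nd (nat_lit 78) (nat_lit 456) (nat_lit 0) (XT.lf (nat_lit 0) (nat_lit 3989274122) (nat_lit 380) (nat_lit 1306468461) (nat_lit 0) (nat_lit 1185003500) (nat_lit 796) (nat_lit 5) (nat_lit 801) (nat_lit 4) (nat_lit 796) (nat_lit 4) (nat_lit 389) (nat_lit 376) (nat_lit 375)) (XT.lf (nat_lit 0) (nat_lit 710741921) (nat_lit 456) (nat_lit 4117856864) (nat_lit 76) (nat_lit 1661632529) (nat_lit 790) (nat_lit 5) (nat_lit 796) (nat_lit 5) (nat_lit 791) (nat_lit 4) (nat_lit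 390) (nat_lit 376) (nat_lit 374))))) (XT.nd (nat_lit 312) (nat_lit 2128) (nat_lit 0) (XT.nd (nat_lit 156) (nat_lit 608) (nat_lit 0) (XT.nd (nat_lit 78) (nat_lit 532) (nat_lit 0) (XT.lf (nat_lit 0) (nat_lit 3874191291) (nat_lit 456) (nat_lit 423066513) (nat_lit 76) (nat_lit 2203708033) (nat_lit 790) (nat_lit 5) (nat_lit 796) (nat_lit 5) (nat_lit 791) (nat_lit 4) (nat_lit 391) (nat_lit 376) (nat_lit 373)) (XT.lf (nat_lit 0) (nat_lit 525828936) (nat_lit 532) (nat_lit 3175352064) (nat_lit 76) (nat_lit 2811766386) (nat_lit 783) (nat_lit 5) (nat_lit 790) (nat_lit 5) (nat_lit 784) (nat_lit 5) (nat_lit 392) (nat_lit 376) (nat_lit 372))) (XT.nd (nat_lit 78) (nat_lit 76) (nat_lit 0) (XT.lf (nat_lit 0) (nat_lit 595480243) (nat_lit 532) (nat_lit 3041512872) (nat_lit 608) (nat_lit 2889214568) (nat_lit 776) (nat_lit 5) (nat_lit 783) (nat_lit 5) (nat_lit 784) (nat_lit 5) (nat_lit 393) (nat_lit 376) (nat_lit 371)) (XT.lf (nat_lit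 0) (nat_lit 213150958) (nat_lit 608) (nat_lit 2106121299) (nat_lit 76) (nat_lit 4221504722) (nat_lit 775) (nat_lit 5) (nat_lit 783) (nat_lit 5) (nat_lit 776) (nat_lit 5) (nat_lit 394) (nat_lit 376) (nat_lit 370)))) (XT.nd (nat_lit 156) (nat_lit 1520) (nat_lit 0) (XT.nd (nat_lit 78) (nat_lit 0) (nat_lit 0) (XT.lf (nat_lit 0) (nat_lit 1750082138) (nat_lit 608) (nat_lit 1526276048) (nat_lit 684) (nat_lit 3280147901) (nat_lit 767) (nat_lit 5) (nat_lit 775) (nat_lit 5) (nat_lit 776) (nat_lit 5) (nat_lit 395) (nat_lit 376) (nat_lit 369)) (XT.lf (nat_lit 0) (nat_lit 5663565560) (nat_lit 608) (nat_lit 678614468) (nat_lit 684) (nat_lit 231542740) (nat_lit 767) (nat_lit 5) (nat_lit 775) (nat_lit 5) (nat_lit 776) (nat_lit 5) (nat_lit 396) (nat_lit 376) (nat_lit 368))) (XT.nd (nat_lit 78) (nat_lit 760) (nat_lit 0) (XT.lf (nat_lit 0) (nat_lit 2789791284) (nat_lit 760) (nat_lit 3556788510) (nat_lit 76) (nat_lit 245340212) (nat_lit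 757) (nat_lit 5) (nat_lit 767) (nat_lit 5) (nat_lit 758) (nat_lit 5) (nat_lit 397) (nat_lit 376) (nat_lit 367)) (XT.lf (nat_lit 0) (nat_lit 410984433) (nat_lit 760) (nat_lit 5400195838) (nat_lit 836) (nat_lit 800415736) (nat_lit 747) (nat_lit 5) (nat_lit 757) (nat_lit 5) (nat_lit 758) (nat_lit 5) (nat_lit 398) (nat_lit 376) (nat_lit 366)))))) (XT.nd (nat_lit 624) (nat_lit 7068) (nat_lit 0) (XT.nd (nat_lit 312) (nat_lit 3344) (nat_lit 0) (XT.nd (nat_lit 156) (nat_lit 988) (nat_lit 0) (XT.nd (nat_lit 78) (nat_lit 836) (nat_lit 0) (XT.lf (nat_lit 0) (nat_lit 2185718292) (nat_lit 836) (nat_lit 2189947764) (nat_lit 76) (nat_lit 2256624938) (nat_lit 746) (nat_lit 5) (nat_lit 757) (nat_lit 5) (nat_lit 747) (nat_lit 5) (nat_lit 399) (nat_lit 376) (nat_lit 365)) (XT.lf (nat_lit 0) (nat_lit 1870905517) (nat_lit 836) (nat_lit 3293499843) (nat_lit 912) (nat_lit 1490017748) (nat_lit 735) (nat_lit 5) (nat_lit 746) (nat_lit 5)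 (nat_lit 747) (nat_lit 5) (nat_lit 400) (nat_lit 376) (nat_lit 364))) (XT.nd (nat_lit 78) (nat_lit 912) (nat_lit 0) (XT.lf (nat_lit 0) (nat_lit 1452422655) (nat_lit 912) (nat_lit 693886032) (nat_lit 76) (nat_lit 4531555788) (nat_lit 734) (nat_lit 5) (nat_lit 746) (nat_lit 5) (nat_lit 735) (nat_lit 5) (nat_lit 401) (nat_lit 376) (nat_lit 363)) (XT.lf (nat_lit 0) (nat_lit 3464241610) (nat_lit 912) (nat_lit 925334370) (nat_lit 988) (nat_lit 2312885401) (nat_lit 722) (nat_lit 5) (nat_lit 734) (nat_lit 5) (nat_lit 735) (nat_lit 5) (nat_lit 402) (nat_lit 376) (nat_lit 362)))) (XT.nd (nat_lit 156) (nat_lit 2280) (nat_lit 0) (XT.nd (nat_lit 78) (nat_lit 0) (nat_lit 0) (XT.lf (nat_lit 0) (nat_lit 596272407) (nat_lit 1064) (nat_lit 5784690882) (nat_lit 76) (nat_lit 347561924) (nat_lit 708) (nat_lit 5) (nat_lit 722) (nat_lit 5) (nat_lit 709) (nat_lit 5) (nat_lit 403) (nat_lit 376) (nat_lit 361)) (XT.lf (nat_lit 0) (nat_lit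 3495619376) (nat_lit 1064) (nat_lit 1573343215) (nat_lit 76) (nat_lit 1686582454) (nat_lit 708) (nat_lit 5) (nat_lit 722) (nat_lit 5) (nat_lit 709) (nat_lit 5) (nat_lit 404) (nat_lit 376) (nat_lit 360))) (XT.nd (nat_lit 78) (nat_lit 1216) (nat_lit 0) (XT.lf (nat_lit 0) (nat_lit 2708237819) (nat_lit 1064) (nat_lit 3698519219) (nat_lit 1140) (nat_lit 377272161) (nat_lit 694) (nat_lit 5) (nat_lit 708) (nat_lit 5) (nat_lit 709) (nat_lit 5) (nat_lit 405) (nat_lit 376) (nat_lit 359)) (XT.lf (nat_lit 0) (nat_lit 220053247) (nat_lit 1140) (nat_lit 2258158221) (nat_lit 1216) (nat_lit 4335562916) (nat_lit 678) (nat_lit 5) (nat_lit 693) (nat_lit 5) (nat_lit 694) (nat_lit 5) (nat_lit 406) (nat_lit 376) (nat_lit 358))))) (XT.nd (nat_lit 312) (nat_lit 4408) (nat_lit 0) (XT.nd (nat_lit 156) (nat_lit 1368) (nat_lit 0) (XT.nd (nat_lit 78) (nat_lit 1292) (nat_lit 0) (XT.lf (nat_lit 0) (nat_lit 4604832999) (nat_lit 1140) (nat_lit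 745911995) (nat_lit 1216) (nat_lit 1494019765) (nat_lit 678) (nat_lit 5) (nat_lit 693) (nat_lit 5) (nat_lit 694) (nat_lit 5) (nat_lit 407) (nat_lit 376) (nat_lit 357)) (XT.lf (nat_lit 0) (nat_lit 1343903870) (nat_lit 1292) (nat_lit 4711801383) (nat_lit 76) (nat_lit 821327968) (nat_lit 661) (nat_lit 5) (nat_lit 678) (nat_lit 5) (nat_lit 662) (nat_lit 5) (nat_lit 408) (nat_lit 376) (nat_lit 356))) (XT.nd (nat_lit 78) (nat_lit 1368) (nat_lit 0) (XT.lf (nat_lit 0) (nat_lit 4178101942) (nat_lit 1292) (nat_lit 286221205) (nat_lit 76) (nat_lit 2446235980) (nat_lit 661) (nat_lit 5) (nat_lit 678) (nat_lit 5) (nat_lit 662) (nat_lit 5) (nat_lit 409) (nat_lit 376) (nat_lit 355)) (XT.lf (nat_lit 0) (nat_lit 90496463) (nat_lit 1368) (nat_lit 2712102564) (nat_lit 76) (nat_lit 4142782445) (nat_lit 643) (nat_lit 5) (nat_lit 661) (nat_lit 5) (nat_lit 644) (nat_lit 5) (nat_lit 410) (nat_lit 376) (nat_lit 354)))) (XT.nd (nat_lit 156)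 (nat_lit 3040) (nat_lit 0) (XT.nd (nat_lit 78) (nat_lit 0) (nat_lit 0) (XT.lf (nat_lit 0) (nat_lit 1822004543) (nat_lit 1368) (nat_lit 1066190959) (nat_lit 1444) (nat_lit 4093246053) (nat_lit 625) (nat_lit 5) (nat_lit 643) (nat_lit 5) (nat_lit 644) (nat_lit 5) (nat_lit 411) (nat_lit 376) (nat_lit 353)) (XT.lf (nat_lit 0) (nat_lit 5706710214) (nat_lit 1444) (nat_lit 589857091) (nat_lit 76) (nat_lit 722358301) (nat_lit 625) (nat_lit 5) (nat_lit 644) (nat_lit 5) (nat_lit 626) (nat_lit 5) (nat_lit 412) (nat_lit 376) (nat_lit 352))) (XT.nd (nat_lit 78) (nat_lit 1520) (nat_lit 0) (XT.lf (nat_lit 0) (nat_lit 1480860018) (nat_lit 1520) (nat_lit 2999830906) (nat_lit 76) (nat_lit 2576742113) (nat_lit 605) (nat_lit 5) (nat_lit 625) (nat_lit 5) (nat_lit 606) (nat_lit 5) (nat_lit 413) (nat_lit 376) (nat_lit 351)) (XT.lf (nat_lit 0) (nat_lit 1672307909) (nat_lit 1520) (nat_lit 2598302086) (nat_lit 1596) (nat_lit 2826759475)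 (nat_lit 585) (nat_lit 5) (nat_lit 605) (nat_lit 5) (nat_lit 606) (nat_lit 5) (nat_lit 414) (nat_lit 376) (nat_lit 350))))))) (XT.nd (nat_lit 1248) (nat_lit 7980) (nat_lit 0) (XT.nd (nat_lit 624) (nat_lit 5472) (nat_lit 0) (XT.nd (nat_lit 312) (nat_lit 4788) (nat_lit 0) (XT.nd (nat_lit 156) (nat_lit 1748) (nat_lit 0) (XT.nd (nat_lit 78) (nat_lit 1672) (nat_lit 0) (XT.lf (nat_lit 0) (nat_lit 6428600725) (nat_lit 1520) (nat_lit 651992718) (nat_lit 1596) (nat_lit 58222419) (nat_lit 585) (nat_lit 5) (nat_lit 605) (nat_lit 5) (nat_lit 606) (nat_lit 5) (nat_lit 415) (nat_lit 376) (nat_lit 349)) (XT.lf (nat_lit 0) (nat_lit 2709957853) (nat_lit 1672) (nat_lit 3105444086) (nat_lit 76) (nat_lit 1365719211) (nat_lit 563) (nat_lit 5) (nat_lit 585) (nat_lit 5) (nat_lit 564) (nat_lit 5) (nat_lit 416) (nat_lit 376) (nat_lit 348))) (XT.nd (nat_lit 78) (nat_lit 76) (nat_lit 0) (XT.lf (nat_lit 0) (nat_lit 1709936519) (nat_lit 1672)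 (nat_lit 3788830578) (nat_lit 1748) (nat_lit 1726176850) (nat_lit 541) (nat_lit 5) (nat_lit 563) (nat_lit 5) (nat_lit 564) (nat_lit 5) (nat_lit 417) (nat_lit 376) (nat_lit 347)) (XT.lf (nat_lit 0) (nat_lit 1026814152) (nat_lit 1748) (nat_lit 663490143) (nat_lit 76) (nat_lit 5579855745) (nat_lit 540) (nat_lit 5) (nat_lit 563) (nat_lit 5) (nat_lit 541) (nat_lit 5) (nat_lit 418) (nat_lit 376) (nat_lit 346)))) (XT.nd (nat_lit 156) (nat_lit 1216) (nat_lit 0) (XT.nd (nat_lit 78) (nat_lit 1824) (nat_lit 0) (XT.lf (nat_lit 0) (nat_lit 3790026398) (nat_lit 1824) (nat_lit 3039871570) (nat_lit 76) (nat_lit 486588789) (nat_lit 517) (nat_lit 5) (nat_lit 541) (nat_lit 5) (nat_lit 518) (nat_lit 5) (nat_lit 419) (nat_lit 376) (nat_lit 345)) (XT.lf (nat_lit 0) (nat_lit 1924273894) (nat_lit 1824) (nat_lit 4660391239) (nat_lit 1900) (nat_lit 779551630) (nat_lit 493) (nat_lit 5) (nat_lit 517) (nat_lit 5) (nat_lit 518) (nat_lit 5)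 (nat_lit 420) (nat_lit 376) (nat_lit 344))) (XT.nd (nat_lit 78) (nat_lit 1140) (nat_lit 0) (XT.lf (nat_lit 0) (nat_lit 1964652921) (nat_lit 1900) (nat_lit 447808755) (nat_lit 76) (nat_lit 5000799482) (nat_lit 492) (nat_lit 5) (nat_lit 517) (nat_lit 5) (nat_lit 493) (nat_lit 5) (nat_lit 421) (nat_lit 376) (nat_lit 343)) (XT.lf (nat_lit 0) (nat_lit 4650031921) (nat_lit 1140) (nat_lit 82831299) (nat_lit 1216) (nat_lit 2730728970) (nat_lit 477) (nat_lit 5) (nat_lit 492) (nat_lit 5) (nat_lit 493) (nat_lit 5) (nat_lit 422) (nat_lit 376) (nat_lit 342))))) (XT.nd (nat_lit 312) (nat_lit 2660) (nat_lit 0) (XT.nd (nat_lit 156) (nat_lit 1824) (nat_lit 0) (XT.nd (nat_lit 78) (nat_lit 0) (nat_lit 0) (XT.lf (nat_lit 0) (nat_lit 23767764) (nat_lit 988) (nat_lit 5209700575) (nat_lit 76) (nat_lit 2281800026) (nat_lit 464) (nat_lit 5) (nat_lit 477) (nat_lit 5) (nat_lit 465) (nat_lit 5) (nat_lit 423) (nat_lit 376) (nat_lit 341)) (XT.lf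 (nat_lit 0) (nat_lit 2766736743) (nat_lit 988) (nat_lit 72100438) (nat_lit 76) (nat_lit 4729380946) (nat_lit 464) (nat_lit 5) (nat_lit 477) (nat_lit 5) (nat_lit 465) (nat_lit 5) (nat_lit 424) (nat_lit 376) (nat_lit 340))) (XT.nd (nat_lit 78) (nat_lit 912) (nat_lit 0) (XT.lf (nat_lit 0) (nat_lit 5186311245) (nat_lit 912) (nat_lit 363258722) (nat_lit 988) (nat_lit 2072956820) (nat_lit 452) (nat_lit 5) (nat_lit 464) (nat_lit 5) (nat_lit 465) (nat_lit 5) (nat_lit 425) (nat_lit 376) (nat_lit 339)) (XT.lf (nat_lit 0) (nat_lit 685677540) (nat_lit 912) (nat_lit 4837076532) (nat_lit 76) (nat_lit 2155378275) (nat_lit 440) (nat_lit 5) (nat_lit 452) (nat_lit 5) (nat_lit 441) (nat_lit 5) (nat_lit 426) (nat_lit 376) (nat_lit 338)))) (XT.nd (nat_lit 156) (nat_lit 1748) (nat_lit 0) (XT.nd (nat_lit 78) (nat_lit 0) (nat_lit 0) (XT.lf (nat_lit 0) (nat_lit 461297674) (nat_lit 912) (nat_lit 2984568564) (nat_lit 988) (nat_lit 4289226965)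 (nat_lit 428) (nat_lit 5) (nat_lit 440) (nat_lit 5) (nat_lit 441) (nat_lit 5) (nat_lit 427) (nat_lit 376) (nat_lit 337)) (XT.lf (nat_lit 0) (nat_lit 5880658698) (nat_lit 912) (nat_lit 365922622) (nat_lit 988) (nat_lit 1546905505) (nat_lit 428) (nat_lit 5) (nat_lit 440) (nat_lit 5) (nat_lit 441) (nat_lit 5) (nat_lit 428) (nat_lit 376) (nat_lit 336))) (XT.nd (nat_lit 78) (nat_lit 836) (nat_lit 0) (XT.lf (nat_lit 0) (nat_lit 1225502057) (nat_lit 912) (nat_lit 4324965114) (nat_lit 76) (nat_lit 2302586055) (nat_lit 416) (nat_lit 5) (nat_lit 428) (nat_lit 5) (nat_lit 417) (nat_lit 5) (nat_lit 429) (nat_lit 376) (nat_lit 335)) (XT.lf (nat_lit 0) (nat_lit 1141679269) (nat_lit 836) (nat_lit 2867786320) (nat_lit 912) (nat_lit 3904604448) (nat_lit 405) (nat_lit 5) (nat_lit 416) (nat_lit 5) (nat_lit 417) (nat_lit 5) (nat_lit 430) (nat_lit 376) (nat_lit 334)))))) (XT.nd (nat_lit 624) (nat_lit 4028) (nat_lit 0) (XT.nd (nat_lit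 312) (nat_lit 2356) (nat_lit 0) (XT.nd (nat_lit 156) (nat_lit 760) (nat_lit 0) (XT.nd (nat_lit 78) (nat_lit 836) (nat_lit 0) (XT.lf (nat_lit 0) (nat_lit 6725877739) (nat_lit 836) (nat_lit 106871833) (nat_lit 912) (nat_lit 1143884789) (nat_lit 405) (nat_lit 5) (nat_lit 416) (nat_lit 5) (nat_lit 417) (nat_lit 5) (nat_lit 431) (nat_lit 376) (nat_lit 333)) (XT.lf (nat_lit 0) (nat_lit 1651574101) (nat_lit 836) (nat_lit 3680517765) (nat_lit 76) (nat_lit 2708111902) (nat_lit 394) (nat_lit 5) (nat_lit 405) (nat_lit 5) (nat_lit 395) (nat_lit 5) (nat_lit 432) (nat_lit 376) (nat_lit 332))) (XT.nd (nat_lit 78) (nat_lit 0) (nat_lit 0) (XT.lf (nat_lit 0) (nat_lit 1961266850) (nat_lit 760) (nat_lit 2503997216) (nat_lit 836) (nat_lit 3640076506) (nat_lit 384) (nat_lit 5) (nat_lit 394) (nat_lit 5) (nat_lit 395) (nat_lit 5) (nat_lit 433) (nat_lit 376) (nat_lit 331)) (XT.lf (nat_lit 0) (nat_lit 7318794867) (nat_lit 836) (nat_lit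 459175551) (nat_lit 76) (nat_lit 394138353) (nat_lit 384) (nat_lit 5) (nat_lit 395) (nat_lit 5) (nat_lit 385) (nat_lit 5) (nat_lit 434) (nat_lit 376) (nat_lit 330)))) (XT.nd (nat_lit 156) (nat_lit 760) (nat_lit 0) (XT.nd (nat_lit 78) (nat_lit 760) (nat_lit 0) (XT.lf (nat_lit 0) (nat_lit 1971515041) (nat_lit 836) (nat_lit 2910136166) (nat_lit 76) (nat_lit 3358134433) (nat_lit 373) (nat_lit 5) (nat_lit 384) (nat_lit 5) (nat_lit 374) (nat_lit 5) (nat_lit 435) (nat_lit 376) (nat_lit 329)) (XT.lf (nat_lit 0) (nat_lit 2913997763) (nat_lit 760) (nat_lit 1906778773) (nat_lit 836) (nat_lit 3488339466) (nat_lit 363) (nat_lit 5) (nat_lit 373) (nat_lit 5) (nat_lit 374) (nat_lit 5) (nat_lit 436) (nat_lit 376) (nat_lit 328))) (XT.nd (nat_lit 78) (nat_lit 76) (nat_lit 0) (XT.lf (nat_lit 0) (nat_lit 462503962) (nat_lit 684) (nat_lit 7252292882) (nat_lit 760) (nat_lit 665280655) (nat_lit 354) (nat_lit 5) (nat_lit 363) (nat_lit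 5) (nat_lit 364) (nat_lit 5) (nat_lit 437) (nat_lit 376) (nat_lit 327)) (XT.lf (nat_lit 0) (nat_lit 2192286649) (nat_lit 760) (nat_lit 2019522319) (nat_lit 76) (nat_lit 4240219983) (nat_lit 353) (nat_lit 5) (nat_lit 363) (nat_lit 5) (nat_lit 354) (nat_lit 5) (nat_lit 438) (nat_lit 376) (nat_lit 326))))) (XT.nd (nat_lit 312) (nat_lit 1900) (nat_lit 0) (XT.nd (nat_lit 156) (nat_lit 760) (nat_lit 0) (XT.nd (nat_lit 78) (nat_lit 684) (nat_lit 0) (XT.lf (nat_lit 0) (nat_lit 3994516737) (nat_lit 684) (nat_lit 1088362997) (nat_lit 760) (nat_lit 3442756096) (nat_lit 344) (nat_lit 5) (nat_lit 353) (nat_lit 5) (nat_lit 354) (nat_lit 5) (nat_lit 439) (nat_lit 376) (nat_lit 325)) (XT.lf (nat_lit 0) (nat_lit 1511500171) (nat_lit 684) (nat_lit 6516124582) (nat_lit 760) (nat_lit 573163294) (nat_lit 335) (nat_lit 5) (nat_lit 344) (nat_lit 5) (nat_lit 345) (nat_lit 5) (nat_lit 440) (nat_lit 376) (nat_lit 324))) (XT.nd (nat_lit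 78) (nat_lit 684) (nat_lit 0) (XT.lf (nat_lit 0) (nat_lit 2320238854) (nat_lit 760) (nat_lit 1013724504) (nat_lit 76) (nat_lit 5343228532) (nat_lit 334) (nat_lit 5) (nat_lit 344) (nat_lit 5) (nat_lit 335) (nat_lit 5) (nat_lit 441) (nat_lit 376) (nat_lit 323)) (XT.lf (nat_lit 0) (nat_lit 5198130715) (nat_lit 684) (nat_lit 59728228) (nat_lit 760) (nat_lit 3497308603) (nat_lit 325) (nat_lit 5) (nat_lit 334) (nat_lit 5) (nat_lit 335) (nat_lit 5) (nat_lit 442) (nat_lit 376) (nat_lit 322)))) (XT.nd (nat_lit 156) (nat_lit 608) (nat_lit 0) (XT.nd (nat_lit 78) (nat_lit 684) (nat_lit 0) (XT.lf (nat_lit 0) (nat_lit 2677176091) (nat_lit 608) (nat_lit 5583242813) (nat_lit 684) (nat_lit 574160063) (nat_lit 317) (nat_lit 5) (nat_lit 325) (nat_lit 5) (nat_lit 326) (nat_lit 5) (nat_lit 443) (nat_lit 376) (nat_lit 321)) (XT.lf (nat_lit 0) (nat_lit 104187008) (nat_lit 608) (nat_lit 2257643201) (nat_lit 684) (nat_lit 6553716733) (nat_lit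 308) (nat_lit 5) (nat_lit 316) (nat_lit 5) (nat_lit 317) (nat_lit 5) (nat_lit 444) (nat_lit 376) (nat_lit 320))) (XT.nd (nat_lit 78) (nat_lit 608) (nat_lit 0) (XT.lf (nat_lit 0) (nat_lit 5359043002) (nat_lit 684) (nat_lit 2484830872) (nat_lit 76) (nat_lit 1153980684) (nat_lit 308) (nat_lit 5) (nat_lit 317) (nat_lit 5) (nat_lit 309) (nat_lit 5) (nat_lit 445) (nat_lit 376) (nat_lit 319)) (XT.lf (nat_lit 0) (nat_lit 3955591922) (nat_lit 608) (nat_lit 4463226790) (nat_lit 684) (nat_lit 662937241) (nat_lit 300) (nat_lit 5) (nat_lit 308) (nat_lit 5) (nat_lit 309) (nat_lit 5) (nat_lit 446) (nat_lit 376) (nat_lit 318))))))))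
noncomputable def xc25 : XT := (XT.nd (nat_lit 54678) (nat_lit 0) (nat_lit 38228) (XT.nd (nat_lit 624) (nat_lit 2584) (nat_lit 0) (XT.nd (nat_lit 312) (nat_lit 1672) (nat_lit 0) (XT.nd (nat_lit 156) (nat_lit 1216) (nat_lit 0) (XT.nd (nat_lit 78) (nat_lit 0) (nat_lit 0) (XT.lf (nat_lit 0) (nat_lit 1343874360) (nat_lit 608) (nat_lit 985137132) (nat_lit 684) (nat_lit 6838262372) (nat_lit 291) (nat_lit 5) (nat_lit 299) (nat_lit 5) (nat_lit 300) (nat_lit 5) (nat_lit 447) (nat_lit 376) (nat_lit 317)) (XT.lf (nat_lit 0) (nat_lit 5385700420) (nat_lit 684) (nat_lit 1312353643) (nat_lit 76) (nat_lit 2556084871) (nat_lit 291) (nat_lit 5) (nat_lit 300) (nat_lit 5) (nat_lit 292) (nat_lit 5) (nat_lit 448) (nat_lit 376) (nat_lit 316))) (XT.nd (nat_lit 78) (nat_lit 684) (nat_lit 0) (XT.lf (nat_lit 0) (nat_lit 5343366444) (nat_lit 532) (nat_lit 3164613682) (nat_lit 608) (nat_lit 834672038) (nat_lit 284) (nat_lit 5) (nat_lit 291)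 (nat_lit 5) (nat_lit 292) (nat_lit 5) (nat_lit 449) (nat_lit 376) (nat_lit 315)) (XT.lf (nat_lit 0) (nat_lit 2222899140) (nat_lit 684) (nat_lit 6747395024) (nat_lit 76) (nat_lit 462492723) (nat_lit 275) (nat_lit 5) (nat_lit 284) (nat_lit 5) (nat_lit 276) (nat_lit 5) (nat_lit 450) (nat_lit 376) (nat_lit 314)))) (XT.nd (nat_lit 156) (nat_lit 1140) (nat_lit 0) (XT.nd (nat_lit 78) (nat_lit 532) (nat_lit 0) (XT.lf (nat_lit 0) (nat_lit 5342149300) (nat_lit 684) (nat_lit 42458455) (nat_lit 76) (nat_lit 4139772130) (nat_lit 275) (nat_lit 5) (nat_lit 284) (nat_lit 5) (nat_lit 276) (nat_lit 5) (nat_lit 451) (nat_lit 376) (nat_lit 313)) (XT.lf (nat_lit 0) (nat_lit 6837643771) (nat_lit 532) (nat_lit 1694967190) (nat_lit 608) (nat_lit 1085017252) (nat_lit 268) (nat_lit 5) (nat_lit 275) (nat_lit 5) (nat_lit 276) (nat_lit 5) (nat_lit 452) (nat_lit 376) (nat_lit 312))) (XT.nd (nat_lit 78) (nat_lit 532) (nat_lit 0) (XT.lf (nat_lit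 0) (nat_lit 2052267796) (nat_lit 608) (nat_lit 5591057818) (nat_lit 76) (nat_lit 2069039958) (nat_lit 260) (nat_lit 5) (nat_lit 268) (nat_lit 5) (nat_lit 261) (nat_lit 5) (nat_lit 453) (nat_lit 376) (nat_lit 311)) (XT.lf (nat_lit 0) (nat_lit 1339666774) (nat_lit 532) (nat_lit 3901694407) (nat_lit 608) (nat_lit 4567421234) (nat_lit 253) (nat_lit 5) (nat_lit 260) (nat_lit 5) (nat_lit 261) (nat_lit 5) (nat_lit 454) (nat_lit 376) (nat_lit 310))))) (XT.nd (nat_lit 312) (nat_lit 1520) (nat_lit 0) (XT.nd (nat_lit 156) (nat_lit 456) (nat_lit 0) (XT.nd (nat_lit 78) (nat_lit 608) (nat_lit 0) (XT.lf (nat_lit 0) (nat_lit 8436063040) (nat_lit 532) (nat_lit 60940433) (nat_lit 608) (nat_lit 1410068783) (nat_lit 253) (nat_lit 5) (nat_lit 260) (nat_lit 5) (nat_lit 261) (nat_lit 5) (nat_lit 455) (nat_lit 376) (nat_lit 309)) (XT.lf (nat_lit 0) (nat_lit 1814550560) (nat_lit 608) (nat_lit 4350723880) (nat_lit 76) (nat_lit 3841261084)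 (nat_lit 245) (nat_lit 5) (nat_lit 253) (nat_lit 5) (nat_lit 246) (nat_lit 5) (nat_lit 456) (nat_lit 376) (nat_lit 308))) (XT.nd (nat_lit 78) (nat_lit 0) (nat_lit 0) (XT.lf (nat_lit 0) (nat_lit 2815940654) (nat_lit 456) (nat_lit 2263456111) (nat_lit 532) (nat_lit 5028512575) (nat_lit 239) (nat_lit 5) (nat_lit 245) (nat_lit 5) (nat_lit 246) (nat_lit 5) (nat_lit 457) (nat_lit 376) (nat_lit 307)) (XT.lf (nat_lit 0) (nat_lit 8416307496) (nat_lit 532) (nat_lit 85912458) (nat_lit 76) (nat_lit 1708955327) (nat_lit 239) (nat_lit 5) (nat_lit 246) (nat_lit 5) (nat_lit 240) (nat_lit 5) (nat_lit 458) (nat_lit 376) (nat_lit 306)))) (XT.nd (nat_lit 156) (nat_lit 456) (nat_lit 0) (XT.nd (nat_lit 78) (nat_lit 456) (nat_lit 0) (XT.lf (nat_lit 0) (nat_lit 1513190223) (nat_lit 608) (nat_lit 3028703554) (nat_lit 76) (nat_lit 5773828369) (nat_lit 231) (nat_lit 5) (nat_lit 239) (nat_lit 5) (nat_lit 232) (nat_lit 5) (nat_lit 459) (nat_lit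 376) (nat_lit 305)) (XT.lf (nat_lit 0) (nat_lit 4383899962) (nat_lit 456) (nat_lit 475562579) (nat_lit 532) (nat_lit 5562738397) (nat_lit 225) (nat_lit 5) (nat_lit 231) (nat_lit 5) (nat_lit 232) (nat_lit 5) (nat_lit 460) (nat_lit 376) (nat_lit 304))) (XT.nd (nat_lit 53508) (nat_lit 0) (nat_lit 44232) (XT.lf (nat_lit 0) (nat_lit 1401644108) (nat_lit 456) (nat_lit 6891677816) (nat_lit 532) (nat_lit 2237074150) (nat_lit 219) (nat_lit 5) (nat_lit 225) (nat_lit 5) (nat_lit 226) (nat_lit 5) (nat_lit 461) (nat_lit 376) (nat_lit 303)) (XT.lf (nat_lit 0) (nat_lit 428335771) (nat_lit 228) (nat_lit 1400644220) (nat_lit 228) (nat_lit 1400644220) (nat_lit 801) (nat_lit 4) (nat_lit 804) (nat_lit 5) (nat_lit 804) (nat_lit 4) (nat_lit 386) (nat_lit 377) (nat_lit 377)))))) (XT.nd (nat_lit 624) (nat_lit 4028) (nat_lit 0) (XT.nd (nat_lit 312) (nat_lit 1140) (nat_lit 0) (XT.nd (nat_lit 156) (nat_lit 456) (nat_lit 0) (XT.nd (nat_lit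 78) (nat_lit 304) (nat_lit 0) (XT.lf (nat_lit 0) (nat_lit 422718070) (nat_lit 304) (nat_lit 2063672652) (nat_lit 76) (nat_lit 3979211277) (nat_lit 800) (nat_lit 5) (nat_lit 804) (nat_lit 5) (nat_lit 801) (nat_lit 4) (nat_lit 387) (nat_lit 377) (nat_lit 376)) (XT.lf (nat_lit 0) (nat_lit 1500057125) (nat_lit 304) (nat_lit 2102901446) (nat_lit 380) (nat_lit 2870168482) (nat_lit 796) (nat_lit 5) (nat_lit 800) (nat_lit 5) (nat_lit 801) (nat_lit 4) (nat_lit 388) (nat_lit 377) (nat_lit 375))) (XT.nd (nat_lit 78) (nat_lit 380) (nat_lit 0) (XT.lf (nat_lit 0) (nat_lit 295380106) (nat_lit 380) (nat_lit 1367783309) (nat_lit 76) (nat_lit 4818908086) (nat_lit 795) (nat_lit 5) (nat_lit 800) (nat_lit 5) (nat_lit 796) (nat_lit 5) (nat_lit 389) (nat_lit 377) (nat_lit 374)) (XT.lf (nat_lit 0) (nat_lit 2273532067) (nat_lit 380) (nat_lit 1148876152) (nat_lit 456) (nat_lit 3069675181) (nat_lit 790) (nat_lit 5) (nat_lit 795) (nat_lit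 5) (nat_lit 796) (nat_lit 5) (nat_lit 390) (nat_lit 377) (nat_lit 373)))) (XT.nd (nat_lit 156) (nat_lit 608) (nat_lit 0) (XT.nd (nat_lit 78) (nat_lit 456) (nat_lit 0) (XT.lf (nat_lit 0) (nat_lit 40006252) (nat_lit 456) (nat_lit 544278626) (nat_lit 76) (nat_lit 5919361150) (nat_lit 789) (nat_lit 5) (nat_lit 795) (nat_lit 5) (nat_lit 790) (nat_lit 5) (nat_lit 391) (nat_lit 377) (nat_lit 372)) (XT.lf (nat_lit 0) (nat_lit 3115901537) (nat_lit 532) (nat_lit 3338388620) (nat_lit 76) (nat_lit 61841476) (nat_lit 783) (nat_lit 5) (nat_lit 790) (nat_lit 5) (nat_lit 784) (nat_lit 5) (nat_lit 392) (nat_lit 377) (nat_lit 371))) (XT.nd (nat_lit 78) (nat_lit 76) (nat_lit 0) (XT.lf (nat_lit 0) (nat_lit 406175089) (nat_lit 532) (nat_lit 5782738704) (nat_lit 608) (nat_lit 341241175) (nat_lit 776) (nat_lit 5) (nat_lit 783) (nat_lit 5) (nat_lit 784) (nat_lit 5) (nat_lit 393) (nat_lit 377) (nat_lit 370)) (XT.lf (nat_lit 0) (nat_lit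 2691114210) (nat_lit 608) (nat_lit 2340032514) (nat_lit 76) (nat_lit 1513978538) (nat_lit 775) (nat_lit 5) (nat_lit 783) (nat_lit 5) (nat_lit 776) (nat_lit 5) (nat_lit 394) (nat_lit 377) (nat_lit 369))))) (XT.nd (nat_lit 312) (nat_lit 1824) (nat_lit 0) (XT.nd (nat_lit 156) (nat_lit 1520) (nat_lit 0) (XT.nd (nat_lit 78) (nat_lit 76) (nat_lit 0) (XT.lf (nat_lit 0) (nat_lit 1489105380) (nat_lit 608) (nat_lit 4227646123) (nat_lit 684) (nat_lit 844854266) (nat_lit 767) (nat_lit 5) (nat_lit 775) (nat_lit 5) (nat_lit 776) (nat_lit 5) (nat_lit 395) (nat_lit 377) (nat_lit 368)) (XT.lf (nat_lit 0) (nat_lit 2139289812) (nat_lit 684) (nat_lit 1214501656) (nat_lit 76) (nat_lit 3225455986) (nat_lit 766) (nat_lit 5) (nat_lit 775) (nat_lit 5) (nat_lit 767) (nat_lit 5) (nat_lit 396) (nat_lit 377) (nat_lit 367))) (XT.nd (nat_lit 78) (nat_lit 836) (nat_lit 0) (XT.lf (nat_lit 0) (nat_lit 2703063360) (nat_lit 684) (nat_lit 2415881709)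 (nat_lit 760) (nat_lit 1479242398) (nat_lit 757) (nat_lit 5) (nat_lit 766) (nat_lit 5) (nat_lit 767) (nat_lit 5) (nat_lit 397) (nat_lit 377) (nat_lit 366)) (XT.lf (nat_lit 0) (nat_lit 40508136) (nat_lit 760) (nat_lit 1418635281) (nat_lit 836) (nat_lit 5159389546) (nat_lit 746) (nat_lit 5) (nat_lit 756) (nat_lit 5) (nat_lit 757) (nat_lit 5) (nat_lit 398) (nat_lit 377) (nat_lit 365)))) (XT.nd (nat_lit 156) (nat_lit 912) (nat_lit 0) (XT.nd (nat_lit 78) (nat_lit 912) (nat_lit 0) (XT.lf (nat_lit 0) (nat_lit 4049976898) (nat_lit 760) (nat_lit 343859820) (nat_lit 836) (nat_lit 2246106159) (nat_lit 746) (nat_lit 5) (nat_lit 756) (nat_lit 5) (nat_lit 757) (nat_lit 5) (nat_lit 399) (nat_lit 377) (nat_lit 364)) (XT.lf (nat_lit 0) (nat_lit 662571586) (nat_lit 912) (nat_lit 5223592477) (nat_lit 76) (nat_lit 776589864) (nat_lit 734) (nat_lit 5) (nat_lit 746) (nat_lit 5) (nat_lit 735) (nat_lit 5) (nat_lit 400) (nat_lit 377) (nat_lit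 363))) (XT.nd (nat_lit 78) (nat_lit 912) (nat_lit 0) (XT.lf (nat_lit 0) (nat_lit 3552452638) (nat_lit 912) (nat_lit 1167824721) (nat_lit 76) (nat_lit 1966384803) (nat_lit 734) (nat_lit 5) (nat_lit 746) (nat_lit 5) (nat_lit 735) (nat_lit 5) (nat_lit 401) (nat_lit 377) (nat_lit 362)) (XT.lf (nat_lit 0) (nat_lit 2959974048) (nat_lit 912) (nat_lit 3493987776) (nat_lit 988) (nat_lit 258010126) (nat_lit 722) (nat_lit 5) (nat_lit 734) (nat_lit 5) (nat_lit 735) (nat_lit 5) (nat_lit 402) (nat_lit 377) (nat_lit 361)))))))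
noncomputable def xc26 : XT := (XT.nd (nat_lit 1248) (nat_lit 12692) (nat_lit 0) (XT.nd (nat_lit 624) (nat_lit 7828) (nat_lit 0) (XT.nd (nat_lit 312) (nat_lit 3800) (nat_lit 0) (XT.nd (nat_lit 156) (nat_lit 1140) (nat_lit 0) (XT.nd (nat_lit 78) (nat_lit 0) (nat_lit 0) (XT.lf (nat_lit 0) (nat_lit 387737129) (nat_lit 988) (nat_lit 2198448672) (nat_lit 1064) (nat_lit 4152343385) (nat_lit 708) (nat_lit 5) (nat_lit 721) (nat_lit 5) (nat_lit 722) (nat_lit 5) (nat_lit 403) (nat_lit 377) (nat_lit 360)) (XT.lf (nat_lit 0) (nat_lit 4611262086) (nat_lit 988) (nat_lit 833836498) (nat_lit 1064) (nat_lit 1321259118) (nat_lit 708) (nat_lit 5) (nat_lit 721) (nat_lit 5) (nat_lit 722) (nat_lit 5) (nat_lit 404) (nat_lit 377) (nat_lit 359))) (XT.nd (nat_lit 78) (nat_lit 0) (nat_lit 0) (XT.lf (nat_lit 0) (nat_lit 1500330677) (nat_lit 1140) (nat_lit 4705628763) (nat_lit 76) (nat_lit 589491378) (nat_lit 693) (nat_lit 5) (nat_lit 708)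 (nat_lit 5) (nat_lit 694) (nat_lit 5) (nat_lit 405) (nat_lit 377) (nat_lit 358)) (XT.lf (nat_lit 0) (nat_lit 4318732427) (nat_lit 1140) (nat_lit 439400216) (nat_lit 76) (nat_lit 2067657049) (nat_lit 693) (nat_lit 5) (nat_lit 708) (nat_lit 5) (nat_lit 694) (nat_lit 5) (nat_lit 406) (nat_lit 377) (nat_lit 357)))) (XT.nd (nat_lit 156) (nat_lit 1368) (nat_lit 0) (XT.nd (nat_lit 78) (nat_lit 1216) (nat_lit 0) (XT.lf (nat_lit 0) (nat_lit 296729009) (nat_lit 1216) (nat_lit 2943975905) (nat_lit 76) (nat_lit 3616699119) (nat_lit 677) (nat_lit 5) (nat_lit 693) (nat_lit 5) (nat_lit 678) (nat_lit 5) (nat_lit 407) (nat_lit 377) (nat_lit 356)) (XT.lf (nat_lit 0) (nat_lit 1423149536) (nat_lit 1216) (nat_lit 1651788580) (nat_lit 1292) (nat_lit 3815342780) (nat_lit 661) (nat_lit 5) (nat_lit 677) (nat_lit 5) (nat_lit 678) (nat_lit 5) (nat_lit 408) (nat_lit 377) (nat_lit 355))) (XT.nd (nat_lit 78) (nat_lit 1368) (nat_lit 0) (XT.lf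 (nat_lit 0) (nat_lit 5869015306) (nat_lit 1292) (nat_lit 1055337847) (nat_lit 76) (nat_lit 256066) (nat_lit 661) (nat_lit 5) (nat_lit 678) (nat_lit 5) (nat_lit 662) (nat_lit 5) (nat_lit 409) (nat_lit 377) (nat_lit 354)) (XT.lf (nat_lit 0) (nat_lit 1711103904) (nat_lit 1368) (nat_lit 3541183021) (nat_lit 76) (nat_lit 1707612163) (nat_lit 643) (nat_lit 5) (nat_lit 661) (nat_lit 5) (nat_lit 644) (nat_lit 5) (nat_lit 410) (nat_lit 377) (nat_lit 353))))) (XT.nd (nat_lit 312) (nat_lit 3420) (nat_lit 0) (XT.nd (nat_lit 156) (nat_lit 2964) (nat_lit 0) (XT.nd (nat_lit 78) (nat_lit 76) (nat_lit 0) (XT.lf (nat_lit 0) (nat_lit 957331223) (nat_lit 1368) (nat_lit 3517259668) (nat_lit 1444) (nat_lit 2522052520) (nat_lit 625) (nat_lit 5) (nat_lit 643) (nat_lit 5) (nat_lit 644) (nat_lit 5) (nat_lit 411) (nat_lit 377) (nat_lit 352)) (XT.lf (nat_lit 0) (nat_lit 222417351) (nat_lit 1444) (nat_lit 1491100018) (nat_lit 76) (nat_lit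 5321239749) (nat_lit 624) (nat_lit 5) (nat_lit 643) (nat_lit 5) (nat_lit 625) (nat_lit 5) (nat_lit 412) (nat_lit 377) (nat_lit 351))) (XT.nd (nat_lit 78) (nat_lit 1520) (nat_lit 0) (XT.lf (nat_lit 0) (nat_lit 2953231113) (nat_lit 1520) (nat_lit 3951248805) (nat_lit 76) (nat_lit 169515271) (nat_lit 605) (nat_lit 5) (nat_lit 625) (nat_lit 5) (nat_lit 606) (nat_lit 5) (nat_lit 413) (nat_lit 377) (nat_lit 350)) (XT.lf (nat_lit 0) (nat_lit 683517319) (nat_lit 1520) (nat_lit 5025634158) (nat_lit 1596) (nat_lit 1405456735) (nat_lit 585) (nat_lit 5) (nat_lit 605) (nat_lit 5) (nat_lit 606) (nat_lit 5) (nat_lit 414) (nat_lit 377) (nat_lit 349)))) (XT.nd (nat_lit 156) (nat_lit 1748) (nat_lit 0) (XT.nd (nat_lit 78) (nat_lit 1596) (nat_lit 0) (XT.lf (nat_lit 0) (nat_lit 1317994583) (nat_lit 1596) (nat_lit 1749700049) (nat_lit 76) (nat_lit 4088727146) (nat_lit 584) (nat_lit 5) (nat_lit 605) (nat_lit 5) (nat_lit 585) (nat_lit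 5) (nat_lit 415) (nat_lit 377) (nat_lit 348)) (XT.lf (nat_lit 0) (nat_lit 3006715918) (nat_lit 1596) (nat_lit 1036035247) (nat_lit 1672) (nat_lit 3156821542) (nat_lit 563) (nat_lit 5) (nat_lit 584) (nat_lit 5) (nat_lit 585) (nat_lit 5) (nat_lit 416) (nat_lit 377) (nat_lit 347))) (XT.nd (nat_lit 78) (nat_lit 76) (nat_lit 0) (XT.lf (nat_lit 0) (nat_lit 590057264) (nat_lit 1672) (nat_lit 6201212993) (nat_lit 1748) (nat_lit 452931051) (nat_lit 541) (nat_lit 5) (nat_lit 563) (nat_lit 5) (nat_lit 564) (nat_lit 5) (nat_lit 417) (nat_lit 377) (nat_lit 346)) (XT.lf (nat_lit 0) (nat_lit 2257254302) (nat_lit 1748) (nat_lit 1835585000) (nat_lit 76) (nat_lit 3196934900) (nat_lit 540) (nat_lit 5) (nat_lit 563) (nat_lit 5) (nat_lit 541) (nat_lit 5) (nat_lit 418) (nat_lit 377) (nat_lit 345)))))) (XT.nd (nat_lit 624) (nat_lit 5092) (nat_lit 0) (XT.nd (nat_lit 312) (nat_lit 2812) (nat_lit 0) (XT.nd (nat_lit 156) (nat_lit 1140) (nat_lit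 0) (XT.nd (nat_lit 78) (nat_lit 1900) (nat_lit 0) (XT.lf (nat_lit 0) (nat_lit 3067680033) (nat_lit 1748) (nat_lit 1916119959) (nat_lit 1824) (nat_lit 2353034257) (nat_lit 517) (nat_lit 5) (nat_lit 540) (nat_lit 5) (nat_lit 541) (nat_lit 5) (nat_lit 419) (nat_lit 377) (nat_lit 344)) (XT.lf (nat_lit 0) (nat_lit 342555874) (nat_lit 1900) (nat_lit 6721361379) (nat_lit 76) (nat_lit 321518914) (nat_lit 492) (nat_lit 5) (nat_lit 517) (nat_lit 5) (nat_lit 493) (nat_lit 5) (nat_lit 420) (nat_lit 377) (nat_lit 343))) (XT.nd (nat_lit 78) (nat_lit 1140) (nat_lit 0) (XT.lf (nat_lit 0) (nat_lit 3051466665) (nat_lit 1900) (nat_lit 1759021073) (nat_lit 76) (nat_lit 2624392994) (nat_lit 492) (nat_lit 5) (nat_lit 517) (nat_lit 5) (nat_lit 493) (nat_lit 5) (nat_lit 421) (nat_lit 377) (nat_lit 342)) (XT.lf (nat_lit 0) (nat_lit 3296824555) (nat_lit 1140) (nat_lit 2489488253) (nat_lit 1216) (nat_lit 1699566238) (nat_lit 477) (nat_lit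 5) (nat_lit 492) (nat_lit 5) (nat_lit 493) (nat_lit 5) (nat_lit 422) (nat_lit 377) (nat_lit 341)))) (XT.nd (nat_lit 156) (nat_lit 1824) (nat_lit 0) (XT.nd (nat_lit 78) (nat_lit 0) (nat_lit 0) (XT.lf (nat_lit 0) (nat_lit 895585252) (nat_lit 912) (nat_lit 97142241) (nat_lit 988) (nat_lit 6545667412) (nat_lit 464) (nat_lit 5) (nat_lit 476) (nat_lit 5) (nat_lit 477) (nat_lit 5) (nat_lit 423) (nat_lit 377) (nat_lit 340)) (XT.lf (nat_lit 0) (nat_lit 3710972637) (nat_lit 988) (nat_lit 1529311408) (nat_lit 76) (nat_lit 2351555097) (nat_lit 464) (nat_lit 5) (nat_lit 477) (nat_lit 5) (nat_lit 465) (nat_lit 5) (nat_lit 424) (nat_lit 377) (nat_lit 339))) (XT.nd (nat_lit 78) (nat_lit 912) (nat_lit 0) (XT.lf (nat_lit 0) (nat_lit 3685164817) (nat_lit 912) (nat_lit 2775273898) (nat_lit 988) (nat_lit 1186376430) (nat_lit 452) (nat_lit 5) (nat_lit 464) (nat_lit 5) (nat_lit 465) (nat_lit 5) (nat_lit 425) (nat_lit 377) (nat_lit 338))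 (XT.lf (nat_lit 0) (nat_lit 1279255488) (nat_lit 836) (nat_lit 233492159) (nat_lit 912) (nat_lit 6190515586) (nat_lit 440) (nat_lit 5) (nat_lit 451) (nat_lit 5) (nat_lit 452) (nat_lit 5) (nat_lit 426) (nat_lit 377) (nat_lit 337))))) (XT.nd (nat_lit 312) (nat_lit 3268) (nat_lit 0) (XT.nd (nat_lit 156) (nat_lit 912) (nat_lit 0) (XT.nd (nat_lit 78) (nat_lit 912) (nat_lit 0) (XT.lf (nat_lit 0) (nat_lit 4245252772) (nat_lit 912) (nat_lit 1154863376) (nat_lit 76) (nat_lit 2360661613) (nat_lit 440) (nat_lit 5) (nat_lit 452) (nat_lit 5) (nat_lit 441) (nat_lit 5) (nat_lit 427) (nat_lit 377) (nat_lit 336)) (XT.lf (nat_lit 0) (nat_lit 4224616771) (nat_lit 912) (nat_lit 2790875836) (nat_lit 988) (nat_lit 804288279) (nat_lit 428) (nat_lit 5) (nat_lit 440) (nat_lit 5) (nat_lit 441) (nat_lit 5) (nat_lit 428) (nat_lit 377) (nat_lit 335))) (XT.nd (nat_lit 78) (nat_lit 0) (nat_lit 0) (XT.lf (nat_lit 0) (nat_lit 1809284713) (nat_lit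 836) (nat_lit 100109065) (nat_lit 912) (nat_lit 5970836797) (nat_lit 416) (nat_lit 5) (nat_lit 427) (nat_lit 5) (nat_lit 428) (nat_lit 5) (nat_lit 429) (nat_lit 377) (nat_lit 334)) (XT.lf (nat_lit 0) (nat_lit 4662990664) (nat_lit 912) (nat_lit 643250464) (nat_lit 76) (nat_lit 2635613592) (nat_lit 416) (nat_lit 5) (nat_lit 428) (nat_lit 5) (nat_lit 417) (nat_lit 5) (nat_lit 430) (nat_lit 377) (nat_lit 333)))) (XT.nd (nat_lit 156) (nat_lit 1596) (nat_lit 0) (XT.nd (nat_lit 78) (nat_lit 836) (nat_lit 0) (XT.lf (nat_lit 0) (nat_lit 4907935925) (nat_lit 836) (nat_lit 2552081178) (nat_lit 912) (nat_lit 544927091) (nat_lit 405) (nat_lit 5) (nat_lit 416) (nat_lit 5) (nat_lit 417) (nat_lit 5) (nat_lit 431) (nat_lit 377) (nat_lit 332)) (XT.lf (nat_lit 0) (nat_lit 2192659634) (nat_lit 836) (nat_lit 5592806145) (nat_lit 76) (nat_lit 283970381) (nat_lit 394) (nat_lit 5) (nat_lit 405) (nat_lit 5) (nat_lit 395) (nat_lit 5) (nat_lit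 432) (nat_lit 377) (nat_lit 331))) (XT.nd (nat_lit 78) (nat_lit 1596) (nat_lit 0) (XT.lf (nat_lit 0) (nat_lit 4972131465) (nat_lit 836) (nat_lit 1269181) (nat_lit 76) (nat_lit 3161856680) (nat_lit 394) (nat_lit 5) (nat_lit 405) (nat_lit 5) (nat_lit 395) (nat_lit 5) (nat_lit 433) (nat_lit 377) (nat_lit 330)) (XT.nd (nat_lit 78) (nat_lit 836) (nat_lit 0) (XT.lf (nat_lit 0) (nat_lit 5728661265) (nat_lit 760) (nat_lit 2073178419) (nat_lit 836) (nat_lit 400662293) (nat_lit 384) (nat_lit 5) (nat_lit 394) (nat_lit 5) (nat_lit 395) (nat_lit 5) (nat_lit 434) (nat_lit 377) (nat_lit 329)) (XT.lf (nat_lit 0) (nat_lit 2370303602) (nat_lit 836) (nat_lit 4996509878) (nat_lit 76) (nat_lit 904265116) (nat_lit 373) (nat_lit 5) (nat_lit 384) (nat_lit 5) (nat_lit 374) (nat_lit 5) (nat_lit 435) (nat_lit 377) (nat_lit 328))))))))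
noncomputable def xc27 : XT := (XT.nd (nat_lit 55848) (nat_lit 0) (nat_lit 19152) (XT.nd (nat_lit 1248) (nat_lit 3800) (nat_lit 0) (XT.nd (nat_lit 624) (nat_lit 3192) (nat_lit 0) (XT.nd (nat_lit 312) (nat_lit 2052) (nat_lit 0) (XT.nd (nat_lit 156) (nat_lit 1444) (nat_lit 0) (XT.nd (nat_lit 78) (nat_lit 0) (nat_lit 0) (XT.lf (nat_lit 0) (nat_lit 775175233) (nat_lit 760) (nat_lit 4409793560) (nat_lit 836) (nat_lit 3156132091) (nat_lit 363) (nat_lit 5) (nat_lit 373) (nat_lit 5) (nat_lit 374) (nat_lit 5) (nat_lit 436) (nat_lit 377) (nat_lit 327)) (XT.lf (nat_lit 0) (nat_lit 6681063782) (nat_lit 760) (nat_lit 1367061614) (nat_lit 836) (nat_lit 364554259) (nat_lit 363) (nat_lit 5) (nat_lit 373) (nat_lit 5) (nat_lit 374) (nat_lit 5) (nat_lit 437) (nat_lit 377) (nat_lit 326))) (XT.nd (nat_lit 78) (nat_lit 684) (nat_lit 0) (XT.lf (nat_lit 0) (nat_lit 2448348787) (nat_lit 760) (nat_lit 4287216391) (nat_lit 76) (nat_lit 1749841282)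 (nat_lit 353) (nat_lit 5) (nat_lit 363) (nat_lit 5) (nat_lit 354) (nat_lit 5) (nat_lit 438) (nat_lit 377) (nat_lit 325)) (XT.lf (nat_lit 0) (nat_lit 1672118134) (nat_lit 684) (nat_lit 3631768077) (nat_lit 760) (nat_lit 3255828243) (nat_lit 344) (nat_lit 5) (nat_lit 353) (nat_lit 5) (nat_lit 354) (nat_lit 5) (nat_lit 439) (nat_lit 377) (nat_lit 324)))) (XT.nd (nat_lit 156) (nat_lit 1292) (nat_lit 0) (XT.nd (nat_lit 78) (nat_lit 760) (nat_lit 0) (XT.lf (nat_lit 0) (nat_lit 7760099283) (nat_lit 684) (nat_lit 445326170) (nat_lit 760) (nat_lit 430305332) (nat_lit 344) (nat_lit 5) (nat_lit 353) (nat_lit 5) (nat_lit 354) (nat_lit 5) (nat_lit 440) (nat_lit 377) (nat_lit 323)) (XT.lf (nat_lit 0) (nat_lit 2432863500) (nat_lit 760) (nat_lit 3470102330) (nat_lit 76) (nat_lit 2809717441) (nat_lit 334) (nat_lit 5) (nat_lit 344) (nat_lit 5) (nat_lit 335) (nat_lit 5) (nat_lit 441) (nat_lit 377) (nat_lit 322))) (XT.nd (nat_lit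 78) (nat_lit 608) (nat_lit 0) (XT.lf (nat_lit 0) (nat_lit 2684716963) (nat_lit 684) (nat_lit 2650164081) (nat_lit 760) (nat_lit 3456489935) (nat_lit 325) (nat_lit 5) (nat_lit 334) (nat_lit 5) (nat_lit 335) (nat_lit 5) (nat_lit 442) (nat_lit 377) (nat_lit 321)) (XT.lf (nat_lit 0) (nat_lit 86132334) (nat_lit 608) (nat_lit 8198574615) (nat_lit 684) (nat_lit 587130132) (nat_lit 317) (nat_lit 5) (nat_lit 325) (nat_lit 5) (nat_lit 326) (nat_lit 5) (nat_lit 443) (nat_lit 377) (nat_lit 320))))) (XT.nd (nat_lit 312) (nat_lit 1824) (nat_lit 0) (XT.nd (nat_lit 156) (nat_lit 684) (nat_lit 0) (XT.nd (nat_lit 78) (nat_lit 608) (nat_lit 0) (XT.lf (nat_lit 0) (nat_lit 2329354208) (nat_lit 684) (nat_lit 2549753345) (nat_lit 76) (nat_lit 4074092708) (nat_lit 316) (nat_lit 5) (nat_lit 325) (nat_lit 5) (nat_lit 317) (nat_lit 5) (nat_lit 444) (nat_lit 377) (nat_lit 319)) (XT.lf (nat_lit 0) (nat_lit 3808746247) (nat_lit 608) (nat_lit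 1474669941) (nat_lit 684) (nat_lit 3752954706) (nat_lit 308) (nat_lit 5) (nat_lit 316) (nat_lit 5) (nat_lit 317) (nat_lit 5) (nat_lit 445) (nat_lit 377) (nat_lit 318))) (XT.nd (nat_lit 78) (nat_lit 76) (nat_lit 0) (XT.lf (nat_lit 0) (nat_lit 1161674494) (nat_lit 608) (nat_lit 7135352630) (nat_lit 684) (nat_lit 824168460) (nat_lit 300) (nat_lit 5) (nat_lit 308) (nat_lit 5) (nat_lit 309) (nat_lit 5) (nat_lit 446) (nat_lit 377) (nat_lit 317)) (XT.lf (nat_lit 0) (nat_lit 2142805047) (nat_lit 684) (nat_lit 1530202287) (nat_lit 76) (nat_lit 5534268894) (nat_lit 299) (nat_lit 5) (nat_lit 308) (nat_lit 5) (nat_lit 300) (nat_lit 5) (nat_lit 447) (nat_lit 377) (nat_lit 316)))) (XT.nd (nat_lit 156) (nat_lit 684) (nat_lit 0) (XT.nd (nat_lit 78) (nat_lit 532) (nat_lit 0) (XT.lf (nat_lit 0) (nat_lit 5040543305) (nat_lit 608) (nat_lit 113907099) (nat_lit 684) (nat_lit 4140591763) (nat_lit 291) (nat_lit 5) (nat_lit 299) (nat_lit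 5) (nat_lit 300) (nat_lit 5) (nat_lit 448) (nat_lit 377) (nat_lit 315)) (XT.lf (nat_lit 0) (nat_lit 2338723142) (nat_lit 532) (nat_lit 5899918190) (nat_lit 608) (nat_lit 1145675842) (nat_lit 284) (nat_lit 5) (nat_lit 291) (nat_lit 5) (nat_lit 292) (nat_lit 5) (nat_lit 449) (nat_lit 377) (nat_lit 314))) (XT.nd (nat_lit 78) (nat_lit 608) (nat_lit 0) (XT.lf (nat_lit 0) (nat_lit 1877714175) (nat_lit 608) (nat_lit 414964203) (nat_lit 76) (nat_lit 7182579105) (nat_lit 283) (nat_lit 5) (nat_lit 291) (nat_lit 5) (nat_lit 284) (nat_lit 5) (nat_lit 450) (nat_lit 377) (nat_lit 313)) (XT.lf (nat_lit 0) (nat_lit 4961722708) (nat_lit 684) (nat_lit 3200015063) (nat_lit 76) (nat_lit 1405817543) (nat_lit 275) (nat_lit 5) (nat_lit 284) (nat_lit 5) (nat_lit 276) (nat_lit 5) (nat_lit 451) (nat_lit 377) (nat_lit 312)))))) (XT.nd (nat_lit 624) (nat_lit 456) (nat_lit 0) (XT.nd (nat_lit 312) (nat_lit 1672) (nat_lit 0) (XT.nd (nat_lit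 156) (nat_lit 532) (nat_lit 0) (XT.nd (nat_lit 78) (nat_lit 608) (nat_lit 0) (XT.lf (nat_lit 0) (nat_lit 3614218859) (nat_lit 532) (nat_lit 4499774219) (nat_lit 608) (nat_lit 1547574389) (nat_lit 268) (nat_lit 5) (nat_lit 275) (nat_lit 5) (nat_lit 276) (nat_lit 5) (nat_lit 452) (nat_lit 377) (nat_lit 311)) (XT.lf (nat_lit 0) (nat_lit 803469287) (nat_lit 532) (nat_lit 739874580) (nat_lit 608) (nat_lit 8214069688) (nat_lit 260) (nat_lit 5) (nat_lit 267) (nat_lit 5) (nat_lit 268) (nat_lit 5) (nat_lit 453) (nat_lit 377) (nat_lit 310))) (XT.nd (nat_lit 78) (nat_lit 532) (nat_lit 0) (XT.lf (nat_lit 0) (nat_lit 4701888211) (nat_lit 608) (nat_lit 2059793792) (nat_lit 76) (nat_lit 3092759379) (nat_lit 260) (nat_lit 5) (nat_lit 268) (nat_lit 5) (nat_lit 261) (nat_lit 5) (nat_lit 454) (nat_lit 377) (nat_lit 309)) (XT.lf (nat_lit 0) (nat_lit 4985577626) (nat_lit 532) (nat_lit 2941535019) (nat_lit 608) (nat_lit 2026226934)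 (nat_lit 253) (nat_lit 5) (nat_lit 260) (nat_lit 5) (nat_lit 261) (nat_lit 5) (nat_lit 455) (nat_lit 377) (nat_lit 308)))) (XT.nd (nat_lit 156) (nat_lit 1064) (nat_lit 0) (XT.nd (nat_lit 78) (nat_lit 0) (nat_lit 0) (XT.lf (nat_lit 0) (nat_lit 1147769091) (nat_lit 608) (nat_lit 7941829327) (nat_lit 76) (nat_lit 964458526) (nat_lit 245) (nat_lit 5) (nat_lit 253) (nat_lit 5) (nat_lit 246) (nat_lit 5) (nat_lit 456) (nat_lit 377) (nat_lit 307)) (XT.lf (nat_lit 0) (nat_lit 4377818314) (nat_lit 608) (nat_lit 835636432) (nat_lit 76) (nat_lit 4942671954) (nat_lit 245) (nat_lit 5) (nat_lit 253) (nat_lit 5) (nat_lit 246) (nat_lit 5) (nat_lit 457) (nat_lit 377) (nat_lit 306))) (XT.nd (nat_lit 78) (nat_lit 608) (nat_lit 0) (XT.lf (nat_lit 0) (nat_lit 6450663354) (nat_lit 456) (nat_lit 1230982897) (nat_lit 532) (nat_lit 2578408045) (nat_lit 239) (nat_lit 5) (nat_lit 245) (nat_lit 5) (nat_lit 246) (nat_lit 5) (nat_lit 458) (nat_lit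 377) (nat_lit 305)) (XT.lf (nat_lit 0) (nat_lit 690948565) (nat_lit 608) (nat_lit 6861519793) (nat_lit 76) (nat_lit 2813214102) (nat_lit 231) (nat_lit 5) (nat_lit 239) (nat_lit 5) (nat_lit 232) (nat_lit 5) (nat_lit 459) (nat_lit 377) (nat_lit 304))))) (XT.nd (nat_lit 53664) (nat_lit 0) (nat_lit 42940) (XT.nd (nat_lit 53508) (nat_lit 0) (nat_lit 43700) (XT.nd (nat_lit 53430) (nat_lit 0) (nat_lit 44004) (XT.lf (nat_lit 0) (nat_lit 476576127) (nat_lit 456) (nat_lit 3519269431) (nat_lit 532) (nat_lit 6477143200) (nat_lit 225) (nat_lit 5) (nat_lit 231) (nat_lit 5) (nat_lit 232) (nat_lit 5) (nat_lit 460) (nat_lit 377) (nat_lit 303)) (XT.lf (nat_lit 0) (nat_lit 96021884) (nat_lit 228) (nat_lit 3032947267) (nat_lit 0) (nat_lit 96021884) (nat_lit 804) (nat_lit 5) (nat_lit 807) (nat_lit 4) (nat_lit 804) (nat_lit 4) (nat_lit 384) (nat_lit 378) (nat_lit 378))) (XT.nd (nat_lit 78) (nat_lit 304) (nat_lit 0) (XT.lf (nat_lit 0)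 (nat_lit 3398632489) (nat_lit 228) (nat_lit 2632867542) (nat_lit 0) (nat_lit 422718070) (nat_lit 804) (nat_lit 5) (nat_lit 807) (nat_lit 4) (nat_lit 804) (nat_lit 4) (nat_lit 385) (nat_lit 378) (nat_lit 377)) (XT.lf (nat_lit 0) (nat_lit 131681497) (nat_lit 304) (nat_lit 5627480949) (nat_lit 76) (nat_lit 700876387) (nat_lit 800) (nat_lit 5) (nat_lit 804) (nat_lit 5) (nat_lit 801) (nat_lit 4) (nat_lit 386) (nat_lit 378) (nat_lit 376)))) (XT.nd (nat_lit 156) (nat_lit 456) (nat_lit 0) (XT.nd (nat_lit 78) (nat_lit 304) (nat_lit 0) (XT.lf (nat_lit 0) (nat_lit 3279091519) (nat_lit 304) (nat_lit 2130068738) (nat_lit 76) (nat_lit 1057665535) (nat_lit 800) (nat_lit 5) (nat_lit 804) (nat_lit 5) (nat_lit 801) (nat_lit 4) (nat_lit 387) (nat_lit 378) (nat_lit 375)) (XT.lf (nat_lit 0) (nat_lit 1409627791) (nat_lit 304) (nat_lit 5010041526) (nat_lit 380) (nat_lit 55474784) (nat_lit 796) (nat_lit 5) (nat_lit 800) (nat_lit 5) (nat_lit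 801) (nat_lit 4) (nat_lit 388) (nat_lit 378) (nat_lit 374))) (XT.nd (nat_lit 78) (nat_lit 380) (nat_lit 0) (XT.lf (nat_lit 0) (nat_lit 3034447157) (nat_lit 380) (nat_lit 1501715945) (nat_lit 76) (nat_lit 1948334179) (nat_lit 795) (nat_lit 5) (nat_lit 800) (nat_lit 5) (nat_lit 796) (nat_lit 5) (nat_lit 389) (nat_lit 378) (nat_lit 373)) (XT.lf (nat_lit 0) (nat_lit 2114760849) (nat_lit 380) (nat_lit 4007731189) (nat_lit 456) (nat_lit 372796807) (nat_lit 790) (nat_lit 5) (nat_lit 795) (nat_lit 5) (nat_lit 796) (nat_lit 5) (nat_lit 390) (nat_lit 378) (nat_lit 372))))))) (XT.nd (nat_lit 1248) (nat_lit 16416) (nat_lit 0) (XT.nd (nat_lit 624) (nat_lit 4788) (nat_lit 0) (XT.nd (nat_lit 312) (nat_lit 1444) (nat_lit 0) (XT.nd (nat_lit 156) (nat_lit 608) (nat_lit 0) (XT.nd (nat_lit 78) (nat_lit 456) (nat_lit 0) (XT.lf (nat_lit 0) (nat_lit 2663912200) (nat_lit 456) (nat_lit 746871486) (nat_lit 76) (nat_lit 3096469636) (nat_lit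 789) (nat_lit 5) (nat_lit 795) (nat_lit 5) (nat_lit 790) (nat_lit 5) (nat_lit 391) (nat_lit 378) (nat_lit 371)) (XT.lf (nat_lit 0) (nat_lit 2949918532) (nat_lit 456) (nat_lit 2751135139) (nat_lit 532) (nat_lit 819460331) (nat_lit 783) (nat_lit 5) (nat_lit 789) (nat_lit 5) (nat_lit 790) (nat_lit 5) (nat_lit 392) (nat_lit 378) (nat_lit 370))) (XT.nd (nat_lit 78) (nat_lit 0) (nat_lit 0) (XT.lf (nat_lit 0) (nat_lit 137454017) (nat_lit 532) (nat_lit 2029889139) (nat_lit 608) (nat_lit 4367759645) (nat_lit 775) (nat_lit 5) (nat_lit 782) (nat_lit 5) (nat_lit 783) (nat_lit 5) (nat_lit 393) (nat_lit 378) (nat_lit 369)) (XT.lf (nat_lit 0) (nat_lit 3916432331) (nat_lit 532) (nat_lit 1237772322) (nat_lit 608) (nat_lit 1396644498) (nat_lit 775) (nat_lit 5) (nat_lit 782) (nat_lit 5) (nat_lit 783) (nat_lit 5) (nat_lit 394) (nat_lit 378) (nat_lit 368)))) (XT.nd (nat_lit 156) (nat_lit 760) (nat_lit 0) (XT.nd (nat_lit 78) (nat_lit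 0) (nat_lit 0) (XT.lf (nat_lit 0) (nat_lit 1162536711) (nat_lit 608) (nat_lit 385787478) (nat_lit 684) (nat_lit 5019656873) (nat_lit 766) (nat_lit 5) (nat_lit 774) (nat_lit 5) (nat_lit 775) (nat_lit 5) (nat_lit 395) (nat_lit 378) (nat_lit 367)) (XT.lf (nat_lit 0) (nat_lit 4484021797) (nat_lit 684) (nat_lit 1573916180) (nat_lit 76) (nat_lit 528322385) (nat_lit 766) (nat_lit 5) (nat_lit 775) (nat_lit 5) (nat_lit 767) (nat_lit 5) (nat_lit 396) (nat_lit 378) (nat_lit 366))) (XT.nd (nat_lit 78) (nat_lit 0) (nat_lit 0) (XT.lf (nat_lit 0) (nat_lit 810280805) (nat_lit 760) (nat_lit 4295728096) (nat_lit 76) (nat_lit 1499818733) (nat_lit 756) (nat_lit 5) (nat_lit 766) (nat_lit 5) (nat_lit 757) (nat_lit 5) (nat_lit 397) (nat_lit 378) (nat_lit 365)) (XT.lf (nat_lit 0) (nat_lit 3695124098) (nat_lit 760) (nat_lit 393559478) (nat_lit 76) (nat_lit 2537980310) (nat_lit 756) (nat_lit 5) (nat_lit 766) (nat_lit 5) (nat_lit 757) (nat_lit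 5) (nat_lit 398) (nat_lit 378) (nat_lit 364))))) (XT.nd (nat_lit 312) (nat_lit 2128) (nat_lit 0) (XT.nd (nat_lit 156) (nat_lit 988) (nat_lit 0) (XT.nd (nat_lit 78) (nat_lit 912) (nat_lit 0) (XT.lf (nat_lit 0) (nat_lit 3587504427) (nat_lit 760) (nat_lit 3006358605) (nat_lit 836) (nat_lit 54929856) (nat_lit 746) (nat_lit 5) (nat_lit 756) (nat_lit 5) (nat_lit 757) (nat_lit 5) (nat_lit 399) (nat_lit 378) (nat_lit 363)) (XT.lf (nat_lit 0) (nat_lit 928905436) (nat_lit 836) (nat_lit 1854721311) (nat_lit 912) (nat_lit 3888520329) (nat_lit 734) (nat_lit 5) (nat_lit 745) (nat_lit 5) (nat_lit 746) (nat_lit 5) (nat_lit 400) (nat_lit 378) (nat_lit 362))) (XT.nd (nat_lit 78) (nat_lit 988) (nat_lit 0) (XT.lf (nat_lit 0) (nat_lit 4993560088) (nat_lit 836) (nat_lit 639688815) (nat_lit 912) (nat_lit 1063611585) (nat_lit 734) (nat_lit 5) (nat_lit 745) (nat_lit 5) (nat_lit 746) (nat_lit 5) (nat_lit 401) (nat_lit 378) (nat_lit 361))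 (XT.lf (nat_lit 0) (nat_lit 1749016381) (nat_lit 988) (nat_lit 4336436342) (nat_lit 76) (nat_lit 637278164) (nat_lit 721) (nat_lit 5) (nat_lit 734) (nat_lit 5) (nat_lit 722) (nat_lit 5) (nat_lit 402) (nat_lit 378) (nat_lit 360)))) (XT.nd (nat_lit 156) (nat_lit 1064) (nat_lit 0) (XT.nd (nat_lit 78) (nat_lit 1064) (nat_lit 0) (XT.lf (nat_lit 0) (nat_lit 4555840881) (nat_lit 988) (nat_lit 226977289) (nat_lit 76) (nat_lit 1967116199) (nat_lit 721) (nat_lit 5) (nat_lit 734) (nat_lit 5) (nat_lit 722) (nat_lit 5) (nat_lit 403) (nat_lit 378) (nat_lit 359)) (XT.lf (nat_lit 0) (nat_lit 595923292) (nat_lit 1064) (nat_lit 2812162995) (nat_lit 76) (nat_lit 3370248148) (nat_lit 707) (nat_lit 5) (nat_lit 721) (nat_lit 5) (nat_lit 708) (nat_lit 5) (nat_lit 404) (nat_lit 378) (nat_lit 358))) (XT.nd (nat_lit 78) (nat_lit 0) (nat_lit 0) (XT.lf (nat_lit 0) (nat_lit 1395666695) (nat_lit 1064) (nat_lit 1965508896) (nat_lit 1140) (nat_lit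 3446860570) (nat_lit 693) (nat_lit 5) (nat_lit 707) (nat_lit 5) (nat_lit 708) (nat_lit 5) (nat_lit 405) (nat_lit 378) (nat_lit 357)) (XT.lf (nat_lit 0) (nat_lit 5678997302) (nat_lit 1064) (nat_lit 460706771) (nat_lit 1140) (nat_lit 699468427) (nat_lit 693) (nat_lit 5) (nat_lit 707) (nat_lit 5) (nat_lit 708) (nat_lit 5) (nat_lit 406) (nat_lit 378) (nat_lit 356)))))) (XT.nd (nat_lit 624) (nat_lit 9728) (nat_lit 0) (XT.nd (nat_lit 312) (nat_lit 2888) (nat_lit 0) (XT.nd (nat_lit 156) (nat_lit 1368) (nat_lit 0) (XT.nd (nat_lit 78) (nat_lit 1216) (nat_lit 0) (XT.lf (nat_lit 0) (nat_lit 2042983594) (nat_lit 1216) (nat_lit 3720565409) (nat_lit 76) (nat_lit 1107755665) (nat_lit 677) (nat_lit 5) (nat_lit 693) (nat_lit 5) (nat_lit 678) (nat_lit 5) (nat_lit 407) (nat_lit 378) (nat_lit 355)) (XT.lf (nat_lit 0) (nat_lit 612353049) (nat_lit 1216) (nat_lit 4174298128) (nat_lit 1292) (nat_lit 2118221184) (nat_lit 661) (nat_lit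 5) (nat_lit 677) (nat_lit 5) (nat_lit 678) (nat_lit 5) (nat_lit 408) (nat_lit 378) (nat_lit 354))) (XT.nd (nat_lit 78) (nat_lit 1292) (nat_lit 0) (XT.lf (nat_lit 0) (nat_lit 604065862) (nat_lit 1292) (nat_lit 1908693492) (nat_lit 76) (nat_lit 4426938987) (nat_lit 660) (nat_lit 5) (nat_lit 677) (nat_lit 5) (nat_lit 661) (nat_lit 5) (nat_lit 409) (nat_lit 378) (nat_lit 353)) (XT.lf (nat_lit 0) (nat_lit 2534884778) (nat_lit 1292) (nat_lit 776512351) (nat_lit 1368) (nat_lit 3664364454) (nat_lit 643) (nat_lit 5) (nat_lit 660) (nat_lit 5) (nat_lit 661) (nat_lit 5) (nat_lit 410) (nat_lit 378) (nat_lit 352)))) (XT.nd (nat_lit 156) (nat_lit 1444) (nat_lit 0) (XT.nd (nat_lit 78) (nat_lit 76) (nat_lit 0) (XT.lf (nat_lit 0) (nat_lit 26696654) (nat_lit 1368) (nat_lit 6009066259) (nat_lit 1444) (nat_lit 977525418) (nat_lit 625) (nat_lit 5) (nat_lit 643) (nat_lit 5) (nat_lit 644) (nat_lit 5) (nat_lit 411) (nat_lit 378) (nat_lit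 351)) (XT.lf (nat_lit 0) (nat_lit 1718863767) (nat_lit 1444) (nat_lit 2472397917) (nat_lit 76) (nat_lit 2860496270) (nat_lit 624) (nat_lit 5) (nat_lit 643) (nat_lit 5) (nat_lit 625) (nat_lit 5) (nat_lit 412) (nat_lit 378) (nat_lit 350))) (XT.nd (nat_lit 78) (nat_lit 0) (nat_lit 0) (XT.lf (nat_lit 0) (nat_lit 2105712604) (nat_lit 1444) (nat_lit 2308960680) (nat_lit 1520) (nat_lit 2677022825) (nat_lit 605) (nat_lit 5) (nat_lit 624) (nat_lit 5) (nat_lit 625) (nat_lit 5) (nat_lit 413) (nat_lit 378) (nat_lit 349)) (XT.lf (nat_lit 0) (nat_lit 6761701675) (nat_lit 1444) (nat_lit 364960104) (nat_lit 1520) (nat_lit 6525992) (nat_lit 605) (nat_lit 5) (nat_lit 624) (nat_lit 5) (nat_lit 625) (nat_lit 5) (nat_lit 414) (nat_lit 378) (nat_lit 348))))) (XT.nd (nat_lit 312) (nat_lit 4788) (nat_lit 0) (XT.nd (nat_lit 156) (nat_lit 1748) (nat_lit 0) (XT.nd (nat_lit 78) (nat_lit 1596) (nat_lit 0) (XT.lf (nat_lit 0) (nat_lit 2667073173)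 (nat_lit 1596) (nat_lit 2859088893) (nat_lit 76) (nat_lit 1649287714) (nat_lit 584) (nat_lit 5) (nat_lit 605) (nat_lit 5) (nat_lit 585) (nat_lit 5) (nat_lit 415) (nat_lit 378) (nat_lit 347)) (XT.lf (nat_lit 0) (nat_lit 1858619489) (nat_lit 1596) (nat_lit 3499603915) (nat_lit 1672) (nat_lit 1861049431) (nat_lit 563) (nat_lit 5) (nat_lit 584) (nat_lit 5) (nat_lit 585) (nat_lit 5) (nat_lit 416) (nat_lit 378) (nat_lit 346))) (XT.nd (nat_lit 78) (nat_lit 1672) (nat_lit 0) (XT.lf (nat_lit 0) (nat_lit 795086088) (nat_lit 1672) (nat_lit 607882607) (nat_lit 76) (nat_lit 5861557314) (nat_lit 562) (nat_lit 5) (nat_lit 584) (nat_lit 5) (nat_lit 563) (nat_lit 5) (nat_lit 417) (nat_lit 378) (nat_lit 345)) (XT.lf (nat_lit 0) (nat_lit 3460601549) (nat_lit 1748) (nat_lit 3080020576) (nat_lit 76) (nat_lit 770192556) (nat_lit 540) (nat_lit 5) (nat_lit 563) (nat_lit 5) (nat_lit 541) (nat_lit 5) (nat_lit 418) (nat_lit 378) (nat_lit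 344)))) (XT.nd (nat_lit 156) (nat_lit 2964) (nat_lit 0) (XT.nd (nat_lit 78) (nat_lit 76) (nat_lit 0) (XT.lf (nat_lit 0) (nat_lit 1782658485) (nat_lit 1748) (nat_lit 4371052501) (nat_lit 1824) (nat_lit 1204832469) (nat_lit 517) (nat_lit 5) (nat_lit 540) (nat_lit 5) (nat_lit 541) (nat_lit 5) (nat_lit 419) (nat_lit 378) (nat_lit 343)) (XT.lf (nat_lit 0) (nat_lit 1444339879) (nat_lit 1824) (nat_lit 680598743) (nat_lit 76) (nat_lit 5282684830) (nat_lit 516) (nat_lit 5) (nat_lit 540) (nat_lit 5) (nat_lit 517) (nat_lit 5) (nat_lit 420) (nat_lit 378) (nat_lit 342))) (XT.nd (nat_lit 78) (nat_lit 1140) (nat_lit 0) (XT.lf (nat_lit 0) (nat_lit 4110368648) (nat_lit 1900) (nat_lit 3145437568) (nat_lit 76) (nat_lit 202119442) (nat_lit 492) (nat_lit 5) (nat_lit 517) (nat_lit 5) (nat_lit 493) (nat_lit 5) (nat_lit 421) (nat_lit 378) (nat_lit 341)) (XT.lf (nat_lit 0) (nat_lit 1867895346) (nat_lit 1140) (nat_lit 4943945578) (nat_lit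 1216) (nat_lit 697750524) (nat_lit 477) (nat_lit 5) (nat_lit 492) (nat_lit 5) (nat_lit 493) (nat_lit 5) (nat_lit 422) (nat_lit 378) (nat_lit 340))))))))
noncomputable def xc28 : XT := (XT.nd (nat_lit 2496) (nat_lit 2204) (nat_lit 0) (XT.nd (nat_lit 1248) (nat_lit 7068) (nat_lit 0) (XT.nd (nat_lit 624) (nat_lit 4788) (nat_lit 0) (XT.nd (nat_lit 312) (nat_lit 2660) (nat_lit 0) (XT.nd (nat_lit 156) (nat_lit 988) (nat_lit 0) (XT.nd (nat_lit 78) (nat_lit 912) (nat_lit 0) (XT.lf (nat_lit 0) (nat_lit 1951654854) (nat_lit 1216) (nat_lit 599240305) (nat_lit 76) (nat_lit 5011677046) (nat_lit 476) (nat_lit 5) (nat_lit 492) (nat_lit 5) (nat_lit 477) (nat_lit 5) (nat_lit 423) (nat_lit 378) (nat_lit 339)) (XT.lf (nat_lit 0) (nat_lit 4551742486) (nat_lit 912) (nat_lit 75124693) (nat_lit 988) (nat_lit 2990009920) (nat_lit 464) (nat_lit 5) (nat_lit 476) (nat_lit 5) (nat_lit 477) (nat_lit 5) (nat_lit 424) (nat_lit 378) (nat_lit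 338))) (XT.nd (nat_lit 78) (nat_lit 76) (nat_lit 0) (XT.lf (nat_lit 0) (nat_lit 2105337443) (nat_lit 912) (nat_lit 5237093211) (nat_lit 988) (nat_lit 330100500) (nat_lit 452) (nat_lit 5) (nat_lit 464) (nat_lit 5) (nat_lit 465) (nat_lit 5) (nat_lit 425) (nat_lit 378) (nat_lit 337)) (XT.lf (nat_lit 0) (nat_lit 2326479403) (nat_lit 988) (nat_lit 372546650) (nat_lit 76) (nat_lit 5030468278) (nat_lit 451) (nat_lit 5) (nat_lit 464) (nat_lit 5) (nat_lit 452) (nat_lit 5) (nat_lit 426) (nat_lit 378) (nat_lit 336)))) (XT.nd (nat_lit 156) (nat_lit 912) (nat_lit 0) (XT.nd (nat_lit 78) (nat_lit 912) (nat_lit 0) (XT.lf (nat_lit 0) (nat_lit 4941238380) (nat_lit 836) (nat_lit 77053175) (nat_lit 912) (nat_lit 2769531162) (nat_lit 440) (nat_lit 5) (nat_lit 451) (nat_lit 5) (nat_lit 452) (nat_lit 5) (nat_lit 427) (nat_lit 378) (nat_lit 335)) (XT.lf (nat_lit 0) (nat_lit 2486868353) (nat_lit 912) (nat_lit 5267607424) (nat_lit 988)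 (nat_lit 93031180) (nat_lit 428) (nat_lit 5) (nat_lit 440) (nat_lit 5) (nat_lit 441) (nat_lit 5) (nat_lit 428) (nat_lit 378) (nat_lit 334))) (XT.nd (nat_lit 78) (nat_lit 836) (nat_lit 0) (XT.lf (nat_lit 0) (nat_lit 2577440813) (nat_lit 988) (nat_lit 8411670) (nat_lit 76) (nat_lit 5322689440) (nat_lit 427) (nat_lit 5) (nat_lit 440) (nat_lit 5) (nat_lit 428) (nat_lit 5) (nat_lit 429) (nat_lit 378) (nat_lit 333)) (XT.lf (nat_lit 0) (nat_lit 5292976098) (nat_lit 912) (nat_lit 2497374402) (nat_lit 76) (nat_lit 180576799) (nat_lit 416) (nat_lit 5) (nat_lit 428) (nat_lit 5) (nat_lit 417) (nat_lit 5) (nat_lit 430) (nat_lit 378) (nat_lit 332))))) (XT.nd (nat_lit 312) (nat_lit 2280) (nat_lit 0) (XT.nd (nat_lit 156) (nat_lit 836) (nat_lit 0) (XT.nd (nat_lit 78) (nat_lit 760) (nat_lit 0) (XT.lf (nat_lit 0) (nat_lit 21235772) (nat_lit 912) (nat_lit 5029644606) (nat_lit 76) (nat_lit 2983809440) (nat_lit 404) (nat_lit 5) (nat_lit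 416) (nat_lit 5) (nat_lit 405) (nat_lit 5) (nat_lit 431) (nat_lit 378) (nat_lit 331)) (XT.lf (nat_lit 0) (nat_lit 492517381) (nat_lit 760) (nat_lit 2223084974) (nat_lit 836) (nat_lit 5384230133) (nat_lit 394) (nat_lit 5) (nat_lit 404) (nat_lit 5) (nat_lit 405) (nat_lit 5) (nat_lit 432) (nat_lit 378) (nat_lit 330))) (XT.nd (nat_lit 78) (nat_lit 836) (nat_lit 0) (XT.lf (nat_lit 0) (nat_lit 5459577417) (nat_lit 836) (nat_lit 2025388798) (nat_lit 76) (nat_lit 681397376) (nat_lit 394) (nat_lit 5) (nat_lit 405) (nat_lit 5) (nat_lit 395) (nat_lit 5) (nat_lit 433) (nat_lit 378) (nat_lit 329)) (XT.lf (nat_lit 0) (nat_lit 20599513) (nat_lit 836) (nat_lit 4580670245) (nat_lit 76) (nat_lit 3633018207) (nat_lit 383) (nat_lit 5) (nat_lit 394) (nat_lit 5) (nat_lit 384) (nat_lit 5) (nat_lit 434) (nat_lit 378) (nat_lit 328)))) (XT.nd (nat_lit 156) (nat_lit 1520) (nat_lit 0) (XT.nd (nat_lit 78) (nat_lit 0) (nat_lit 0) (XT.lf (nat_lit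 0) (nat_lit 1119167137) (nat_lit 760) (nat_lit 1626628456) (nat_lit 836) (nat_lit 5557827266) (nat_lit 373) (nat_lit 5) (nat_lit 383) (nat_lit 5) (nat_lit 384) (nat_lit 5) (nat_lit 435) (nat_lit 378) (nat_lit 327)) (XT.lf (nat_lit 0) (nat_lit 5524563105) (nat_lit 836) (nat_lit 1436295408) (nat_lit 76) (nat_lit 1413504587) (nat_lit 373) (nat_lit 5) (nat_lit 384) (nat_lit 5) (nat_lit 374) (nat_lit 5) (nat_lit 436) (nat_lit 378) (nat_lit 326))) (XT.nd (nat_lit 78) (nat_lit 760) (nat_lit 0) (XT.lf (nat_lit 0) (nat_lit 4426743507) (nat_lit 760) (nat_lit 3931467142) (nat_lit 836) (nat_lit 88321403) (nat_lit 363) (nat_lit 5) (nat_lit 373) (nat_lit 5) (nat_lit 374) (nat_lit 5) (nat_lit 437) (nat_lit 378) (nat_lit 325)) (XT.lf (nat_lit 0) (nat_lit 1865661544) (nat_lit 684) (nat_lit 808767920) (nat_lit 760) (nat_lit 5845724110) (nat_lit 353) (nat_lit 5) (nat_lit 362) (nat_lit 5) (nat_lit 363) (nat_lit 5) (nat_lit 438) (nat_lit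 378) (nat_lit 324)))))) (XT.nd (nat_lit 624) (nat_lit 3648) (nat_lit 0) (XT.nd (nat_lit 312) (nat_lit 1292) (nat_lit 0) (XT.nd (nat_lit 156) (nat_lit 1444) (nat_lit 0) (XT.nd (nat_lit 78) (nat_lit 684) (nat_lit 0) (XT.lf (nat_lit 0) (nat_lit 5494273929) (nat_lit 760) (nat_lit 735607024) (nat_lit 76) (nat_lit 2365294474) (nat_lit 353) (nat_lit 5) (nat_lit 363) (nat_lit 5) (nat_lit 354) (nat_lit 5) (nat_lit 439) (nat_lit 378) (nat_lit 323)) (XT.lf (nat_lit 0) (nat_lit 5318984233) (nat_lit 684) (nat_lit 3052634725) (nat_lit 760) (nat_lit 300056683) (nat_lit 344) (nat_lit 5) (nat_lit 353) (nat_lit 5) (nat_lit 354) (nat_lit 5) (nat_lit 440) (nat_lit 378) (nat_lit 322))) (XT.nd (nat_lit 78) (nat_lit 684) (nat_lit 0) (XT.lf (nat_lit 0) (nat_lit 2508787371) (nat_lit 760) (nat_lit 6024233259) (nat_lit 76) (nat_lit 216642916) (nat_lit 334) (nat_lit 5) (nat_lit 344) (nat_lit 5) (nat_lit 335) (nat_lit 5) (nat_lit 441) (nat_lit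 378) (nat_lit 321)) (XT.lf (nat_lit 0) (nat_lit 72729295) (nat_lit 684) (nat_lit 5302211181) (nat_lit 760) (nat_lit 3454128067) (nat_lit 325) (nat_lit 5) (nat_lit 334) (nat_lit 5) (nat_lit 335) (nat_lit 5) (nat_lit 442) (nat_lit 378) (nat_lit 320)))) (XT.nd (nat_lit 156) (nat_lit 608) (nat_lit 0) (XT.nd (nat_lit 78) (nat_lit 684) (nat_lit 0) (XT.lf (nat_lit 0) (nat_lit 6325932697) (nat_lit 684) (nat_lit 1975161575) (nat_lit 760) (nat_lit 608913814) (nat_lit 325) (nat_lit 5) (nat_lit 334) (nat_lit 5) (nat_lit 335) (nat_lit 5) (nat_lit 443) (nat_lit 378) (nat_lit 319)) (XT.lf (nat_lit 0) (nat_lit 2259292036) (nat_lit 684) (nat_lit 5303613696) (nat_lit 76) (nat_lit 1429439646) (nat_lit 316) (nat_lit 5) (nat_lit 325) (nat_lit 5) (nat_lit 317) (nat_lit 5) (nat_lit 444) (nat_lit 378) (nat_lit 318))) (XT.nd (nat_lit 78) (nat_lit 0) (nat_lit 0) (XT.lf (nat_lit 0) (nat_lit 994566950) (nat_lit 608) (nat_lit 4182253738) (nat_lit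 684) (nat_lit 3899425990) (nat_lit 308) (nat_lit 5) (nat_lit 316) (nat_lit 5) (nat_lit 317) (nat_lit 5) (nat_lit 445) (nat_lit 378) (nat_lit 317)) (XT.lf (nat_lit 0) (nat_lit 7443625035) (nat_lit 608) (nat_lit 708194362) (nat_lit 684) (nat_lit 1010024217) (nat_lit 308) (nat_lit 5) (nat_lit 316) (nat_lit 5) (nat_lit 317) (nat_lit 5) (nat_lit 446) (nat_lit 378) (nat_lit 316))))) (XT.nd (nat_lit 312) (nat_lit 1748) (nat_lit 0) (XT.nd (nat_lit 156) (nat_lit 608) (nat_lit 0) (XT.nd (nat_lit 78) (nat_lit 608) (nat_lit 0) (XT.lf (nat_lit 0) (nat_lit 1925405432) (nat_lit 684) (nat_lit 4491591960) (nat_lit 76) (nat_lit 2831630626) (nat_lit 299) (nat_lit 5) (nat_lit 308) (nat_lit 5) (nat_lit 300) (nat_lit 5) (nat_lit 447) (nat_lit 378) (nat_lit 315)) (XT.lf (nat_lit 0) (nat_lit 2016286135) (nat_lit 608) (nat_lit 2883477807) (nat_lit 684) (nat_lit 4437375754) (nat_lit 291) (nat_lit 5) (nat_lit 299) (nat_lit 5) (nat_lit 300)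 (nat_lit 5) (nat_lit 448) (nat_lit 378) (nat_lit 314))) (XT.nd (nat_lit 78) (nat_lit 608) (nat_lit 0) (XT.lf (nat_lit 0) (nat_lit 7933297181) (nat_lit 684) (nat_lit 763686367) (nat_lit 76) (nat_lit 730444307) (nat_lit 291) (nat_lit 5) (nat_lit 300) (nat_lit 5) (nat_lit 292) (nat_lit 5) (nat_lit 449) (nat_lit 378) (nat_lit 313)) (XT.lf (nat_lit 0) (nat_lit 1511358314) (nat_lit 608) (nat_lit 3591879830) (nat_lit 76) (nat_lit 4415624690) (nat_lit 283) (nat_lit 5) (nat_lit 291) (nat_lit 5) (nat_lit 284) (nat_lit 5) (nat_lit 450) (nat_lit 378) (nat_lit 312)))) (XT.nd (nat_lit 156) (nat_lit 608) (nat_lit 0) (XT.nd (nat_lit 78) (nat_lit 532) (nat_lit 0) (XT.lf (nat_lit 0) (nat_lit 3134551450) (nat_lit 608) (nat_lit 1413442531) (nat_lit 684) (nat_lit 5064114141) (nat_lit 275) (nat_lit 5) (nat_lit 283) (nat_lit 5) (nat_lit 284) (nat_lit 5) (nat_lit 451) (nat_lit 378) (nat_lit 311)) (XT.lf (nat_lit 0) (nat_lit 278982118)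 (nat_lit 532) (nat_lit 7373526466) (nat_lit 608) (nat_lit 2054566808) (nat_lit 268) (nat_lit 5) (nat_lit 275) (nat_lit 5) (nat_lit 276) (nat_lit 5) (nat_lit 452) (nat_lit 378) (nat_lit 310))) (XT.nd (nat_lit 78) (nat_lit 532) (nat_lit 0) (XT.lf (nat_lit 0) (nat_lit 1020931685) (nat_lit 608) (nat_lit 2607722988) (nat_lit 76) (nat_lit 6174774022) (nat_lit 267) (nat_lit 5) (nat_lit 275) (nat_lit 5) (nat_lit 268) (nat_lit 5) (nat_lit 453) (nat_lit 378) (nat_lit 309)) (XT.lf (nat_lit 0) (nat_lit 4126737442) (nat_lit 608) (nat_lit 5556471183) (nat_lit 76) (nat_lit 218302668) (nat_lit 260) (nat_lit 5) (nat_lit 268) (nat_lit 5) (nat_lit 261) (nat_lit 5) (nat_lit 454) (nat_lit 378) (nat_lit 308))))))) (XT.nd (nat_lit 54444) (nat_lit 0) (nat_lit 33896) (XT.nd (nat_lit 53820) (nat_lit 0) (nat_lit 42408) (XT.nd (nat_lit 312) (nat_lit 608) (nat_lit 0) (XT.nd (nat_lit 156) (nat_lit 988) (nat_lit 0) (XT.nd (nat_lit 78) (nat_lit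 76) (nat_lit 0) (XT.lf (nat_lit 0) (nat_lit 1419243712) (nat_lit 532) (nat_lit 5893177844) (nat_lit 608) (nat_lit 2688778741) (nat_lit 253) (nat_lit 5) (nat_lit 260) (nat_lit 5) (nat_lit 261) (nat_lit 5) (nat_lit 455) (nat_lit 378) (nat_lit 307)) (XT.lf (nat_lit 0) (nat_lit 457486652) (nat_lit 608) (nat_lit 1541930124) (nat_lit 76) (nat_lit 8103315322) (nat_lit 252) (nat_lit 5) (nat_lit 260) (nat_lit 5) (nat_lit 253) (nat_lit 5) (nat_lit 456) (nat_lit 378) (nat_lit 306))) (XT.nd (nat_lit 78) (nat_lit 456) (nat_lit 0) (XT.lf (nat_lit 0) (nat_lit 3648152652) (nat_lit 608) (nat_lit 4569193438) (nat_lit 76) (nat_lit 1988243430) (nat_lit 245) (nat_lit 5) (nat_lit 253) (nat_lit 5) (nat_lit 246) (nat_lit 5) (nat_lit 457) (nat_lit 378) (nat_lit 305)) (XT.lf (nat_lit 0) (nat_lit 2644562671) (nat_lit 456) (nat_lit 4266833420) (nat_lit 532) (nat_lit 3398932716) (nat_lit 239) (nat_lit 5) (nat_lit 245) (nat_lit 5) (nat_lit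 246) (nat_lit 5) (nat_lit 458) (nat_lit 378) (nat_lit 304)))) (XT.nd (nat_lit 53352) (nat_lit 0) (nat_lit 43700) (XT.nd (nat_lit 78) (nat_lit 608) (nat_lit 0) (XT.lf (nat_lit 0) (nat_lit 10019126723) (nat_lit 456) (nat_lit 219710268) (nat_lit 532) (nat_lit 178347235) (nat_lit 239) (nat_lit 5) (nat_lit 245) (nat_lit 5) (nat_lit 246) (nat_lit 5) (nat_lit 459) (nat_lit 378) (nat_lit 303)) (XT.lf (nat_lit 0) (nat_lit 3106039382) (nat_lit 608) (nat_lit 3508942962) (nat_lit 76) (nat_lit 3909988328) (nat_lit 231) (nat_lit 5) (nat_lit 239) (nat_lit 5) (nat_lit 232) (nat_lit 5) (nat_lit 460) (nat_lit 378) (nat_lit 302))) (XT.nd (nat_lit 78) (nat_lit 76) (nat_lit 0) (XT.lf (nat_lit 0) (nat_lit 42808391) (nat_lit 76) (nat_lit 1589628230) (nat_lit 76) (nat_lit 1589628230) (nat_lit 807) (nat_lit 4) (nat_lit 808) (nat_lit 5) (nat_lit 808) (nat_lit 4) (nat_lit 382) (nat_lit 379) (nat_lit 379)) (XT.lf (nat_lit 0) (nat_lit 42246951)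 (nat_lit 152) (nat_lit 3010802519) (nat_lit 76) (nat_lit 3393609932) (nat_lit 806) (nat_lit 5) (nat_lit 808) (nat_lit 5) (nat_lit 807) (nat_lit 4) (nat_lit 383) (nat_lit 379) (nat_lit 378))))) (XT.nd (nat_lit 312) (nat_lit 836) (nat_lit 0) (XT.nd (nat_lit 156) (nat_lit 304) (nat_lit 0) (XT.nd (nat_lit 78) (nat_lit 0) (nat_lit 0) (XT.lf (nat_lit 0) (nat_lit 342567861) (nat_lit 152) (nat_lit 2862452895) (nat_lit 228) (nat_lit 3245410429) (nat_lit 804) (nat_lit 5) (nat_lit 806) (nat_lit 5) (nat_lit 807) (nat_lit 4) (nat_lit 384) (nat_lit 379) (nat_lit 377)) (XT.lf (nat_lit 0) (nat_lit 3759379770) (nat_lit 152) (nat_lit 2610356990) (nat_lit 228) (nat_lit 85767910) (nat_lit 804) (nat_lit 5) (nat_lit 806) (nat_lit 5) (nat_lit 807) (nat_lit 4) (nat_lit 385) (nat_lit 379) (nat_lit 376))) (XT.nd (nat_lit 78) (nat_lit 0) (nat_lit 0) (XT.lf (nat_lit 0) (nat_lit 728397556) (nat_lit 228) (nat_lit 2291807706) (nat_lit 304) (nat_lit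 3441581384) (nat_lit 800) (nat_lit 5) (nat_lit 803) (nat_lit 5) (nat_lit 804) (nat_lit 5) (nat_lit 386) (nat_lit 379) (nat_lit 375)) (XT.lf (nat_lit 0) (nat_lit 4213039376) (nat_lit 228) (nat_lit 1913041129) (nat_lit 304) (nat_lit 343323797) (nat_lit 800) (nat_lit 5) (nat_lit 803) (nat_lit 5) (nat_lit 804) (nat_lit 5) (nat_lit 387) (nat_lit 379) (nat_lit 374)))) (XT.nd (nat_lit 156) (nat_lit 456) (nat_lit 0) (XT.nd (nat_lit 78) (nat_lit 0) (nat_lit 0) (XT.lf (nat_lit 0) (nat_lit 1243711092) (nat_lit 304) (nat_lit 1466198175) (nat_lit 380) (nat_lit 3768300171) (nat_lit 795) (nat_lit 5) (nat_lit 799) (nat_lit 5) (nat_lit 800) (nat_lit 5) (nat_lit 388) (nat_lit 379) (nat_lit 373)) (XT.lf (nat_lit 0) (nat_lit 4797852256) (nat_lit 304) (nat_lit 960012514) (nat_lit 380) (nat_lit 730515423) (nat_lit 795) (nat_lit 5) (nat_lit 799) (nat_lit 5) (nat_lit 800) (nat_lit 5) (nat_lit 389) (nat_lit 379) (nat_lit 372))) (XT.nd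 (nat_lit 78) (nat_lit 0) (nat_lit 0) (XT.lf (nat_lit 0) (nat_lit 1889367151) (nat_lit 380) (nat_lit 384000207) (nat_lit 456) (nat_lit 4226351519) (nat_lit 789) (nat_lit 5) (nat_lit 794) (nat_lit 5) (nat_lit 795) (nat_lit 5) (nat_lit 390) (nat_lit 379) (nat_lit 371)) (XT.lf (nat_lit 0) (nat_lit 5265828806) (nat_lit 456) (nat_lit 999275684) (nat_lit 76) (nat_lit 247317620) (nat_lit 789) (nat_lit 5) (nat_lit 795) (nat_lit 5) (nat_lit 790) (nat_lit 5) (nat_lit 391) (nat_lit 379) (nat_lit 370)))))) (XT.nd (nat_lit 624) (nat_lit 5168) (nat_lit 0) (XT.nd (nat_lit 312) (nat_lit 1596) (nat_lit 0) (XT.nd (nat_lit 156) (nat_lit 1216) (nat_lit 0) (XT.nd (nat_lit 78) (nat_lit 0) (nat_lit 0) (XT.lf (nat_lit 0) (nat_lit 1715777822) (nat_lit 532) (nat_lit 3866073942) (nat_lit 76) (nat_lit 944364245) (nat_lit 782) (nat_lit 5) (nat_lit 789) (nat_lit 5) (nat_lit 783) (nat_lit 5) (nat_lit 392) (nat_lit 379) (nat_lit 369)) (XT.lf (nat_lit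 0) (nat_lit 4655129079) (nat_lit 532) (nat_lit 187686512) (nat_lit 76) (nat_lit 1698616903) (nat_lit 782) (nat_lit 5) (nat_lit 789) (nat_lit 5) (nat_lit 783) (nat_lit 5) (nat_lit 393) (nat_lit 379) (nat_lit 368))) (XT.nd (nat_lit 78) (nat_lit 608) (nat_lit 0) (XT.lf (nat_lit 0) (nat_lit 1033852203) (nat_lit 608) (nat_lit 2998303328) (nat_lit 76) (nat_lit 2525617088) (nat_lit 774) (nat_lit 5) (nat_lit 782) (nat_lit 5) (nat_lit 775) (nat_lit 5) (nat_lit 394) (nat_lit 379) (nat_lit 367)) (XT.lf (nat_lit 0) (nat_lit 761914109) (nat_lit 608) (nat_lit 3161195226) (nat_lit 684) (nat_lit 2652361723) (nat_lit 766) (nat_lit 5) (nat_lit 774) (nat_lit 5) (nat_lit 775) (nat_lit 5) (nat_lit 395) (nat_lit 379) (nat_lit 366)))) (XT.nd (nat_lit 156) (nat_lit 836) (nat_lit 0) (XT.nd (nat_lit 78) (nat_lit 684) (nat_lit 0) (XT.lf (nat_lit 0) (nat_lit 223599083) (nat_lit 684) (nat_lit 2002975586) (nat_lit 76) (nat_lit 4367900895) (nat_lit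 765) (nat_lit 5) (nat_lit 774) (nat_lit 5) (nat_lit 766) (nat_lit 5) (nat_lit 396) (nat_lit 379) (nat_lit 365)) (XT.lf (nat_lit 0) (nat_lit 1845451690) (nat_lit 684) (nat_lit 1219838688) (nat_lit 760) (nat_lit 3549344613) (nat_lit 756) (nat_lit 5) (nat_lit 765) (nat_lit 5) (nat_lit 766) (nat_lit 5) (nat_lit 397) (nat_lit 379) (nat_lit 364))) (XT.nd (nat_lit 78) (nat_lit 836) (nat_lit 0) (XT.lf (nat_lit 0) (nat_lit 5753290618) (nat_lit 684) (nat_lit 156725925) (nat_lit 760) (nat_lit 726257042) (nat_lit 756) (nat_lit 5) (nat_lit 765) (nat_lit 5) (nat_lit 766) (nat_lit 5) (nat_lit 398) (nat_lit 379) (nat_lit 363)) (XT.lf (nat_lit 0) (nat_lit 2084964271) (nat_lit 836) (nat_lit 3602970695) (nat_lit 76) (nat_lit 970932116) (nat_lit 745) (nat_lit 5) (nat_lit 756) (nat_lit 5) (nat_lit 746) (nat_lit 5) (nat_lit 399) (nat_lit 379) (nat_lit 362))))) (XT.nd (nat_lit 312) (nat_lit 3344) (nat_lit 0) (XT.nd (nat_lit 156) (nat_lit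 912) (nat_lit 0) (XT.nd (nat_lit 78) (nat_lit 76) (nat_lit 0) (XT.lf (nat_lit 0) (nat_lit 356657661) (nat_lit 836) (nat_lit 4530145457) (nat_lit 912) (nat_lit 1796130968) (nat_lit 734) (nat_lit 5) (nat_lit 745) (nat_lit 5) (nat_lit 746) (nat_lit 5) (nat_lit 400) (nat_lit 379) (nat_lit 361)) (XT.lf (nat_lit 0) (nat_lit 983279213) (nat_lit 912) (nat_lit 2315994436) (nat_lit 76) (nat_lit 3408880378) (nat_lit 733) (nat_lit 5) (nat_lit 745) (nat_lit 5) (nat_lit 734) (nat_lit 5) (nat_lit 401) (nat_lit 379) (nat_lit 360))) (XT.nd (nat_lit 78) (nat_lit 0) (nat_lit 0) (XT.lf (nat_lit 0) (nat_lit 1739908597) (nat_lit 912) (nat_lit 2002253587) (nat_lit 988) (nat_lit 2992520039) (nat_lit 721) (nat_lit 5) (nat_lit 733) (nat_lit 5) (nat_lit 734) (nat_lit 5) (nat_lit 402) (nat_lit 379) (nat_lit 359)) (XT.lf (nat_lit 0) (nat_lit 5863114103) (nat_lit 912) (nat_lit 646215209) (nat_lit 988) (nat_lit 253349541) (nat_lit 721) (nat_lit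 5) (nat_lit 733) (nat_lit 5) (nat_lit 734) (nat_lit 5) (nat_lit 403) (nat_lit 379) (nat_lit 358)))) (XT.nd (nat_lit 156) (nat_lit 1216) (nat_lit 0) (XT.nd (nat_lit 78) (nat_lit 1064) (nat_lit 0) (XT.lf (nat_lit 0) (nat_lit 2471966043) (nat_lit 1064) (nat_lit 3538206841) (nat_lit 76) (nat_lit 781438983) (nat_lit 707) (nat_lit 5) (nat_lit 721) (nat_lit 5) (nat_lit 708) (nat_lit 5) (nat_lit 404) (nat_lit 379) (nat_lit 357)) (XT.lf (nat_lit 0) (nat_lit 636818026) (nat_lit 1064) (nat_lit 4565475218) (nat_lit 1140) (nat_lit 1619718851) (nat_lit 693) (nat_lit 5) (nat_lit 707) (nat_lit 5) (nat_lit 708) (nat_lit 5) (nat_lit 405) (nat_lit 379) (nat_lit 356))) (XT.nd (nat_lit 78) (nat_lit 1140) (nat_lit 0) (XT.lf (nat_lit 0) (nat_lit 1083130561) (nat_lit 1140) (nat_lit 1963418850) (nat_lit 76) (nat_lit 3807047651) (nat_lit 692) (nat_lit 5) (nat_lit 707) (nat_lit 5) (nat_lit 693) (nat_lit 5) (nat_lit 406) (nat_lit 379) (nat_lit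 355)) (XT.lf (nat_lit 0) (nat_lit 2316707292) (nat_lit 1140) (nat_lit 1457780721) (nat_lit 1216) (nat_lit 3111988808) (nat_lit 677) (nat_lit 5) (nat_lit 692) (nat_lit 5) (nat_lit 693) (nat_lit 5) (nat_lit 407) (nat_lit 379) (nat_lit 354))))))))
noncomputable def xc29 : XT := (XT.nd (nat_lit 2496) (nat_lit 9272) (nat_lit 0) (XT.nd (nat_lit 1248) (nat_lit 9348) (nat_lit 0) (XT.nd (nat_lit 624) (nat_lit 8208) (nat_lit 0) (XT.nd (nat_lit 312) (nat_lit 4408) (nat_lit 0) (XT.nd (nat_lit 156) (nat_lit 1368) (nat_lit 0) (XT.nd (nat_lit 78) (nat_lit 1292) (nat_lit 0) (XT.lf (nat_lit 0) (nat_lit 6476011684) (nat_lit 1216) (nat_lit 258528332) (nat_lit 76) (nat_lit 186347377) (nat_lit 677) (nat_lit 5) (nat_lit 693) (nat_lit 5) (nat_lit 678) (nat_lit 5) (nat_lit 408) (nat_lit 379) (nat_lit 353)) (XT.lf (nat_lit 0) (nat_lit 2225276168) (nat_lit 1292) (nat_lit 2833250249) (nat_lit 76) (nat_lit 1897573445) (nat_lit 660) (nat_lit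 5) (nat_lit 677) (nat_lit 5) (nat_lit 661) (nat_lit 5) (nat_lit 409) (nat_lit 379) (nat_lit 352))) (XT.nd (nat_lit 78) (nat_lit 76) (nat_lit 0) (XT.lf (nat_lit 0) (nat_lit 1574857267) (nat_lit 1292) (nat_lit 3323598566) (nat_lit 1368) (nat_lit 2094390303) (nat_lit 643) (nat_lit 5) (nat_lit 660) (nat_lit 5) (nat_lit 661) (nat_lit 5) (nat_lit 410) (nat_lit 379) (nat_lit 351)) (XT.lf (nat_lit 0) (nat_lit 550153990) (nat_lit 1368) (nat_lit 971059058) (nat_lit 76) (nat_lit 5509773397) (nat_lit 642) (nat_lit 5) (nat_lit 660) (nat_lit 5) (nat_lit 643) (nat_lit 5) (nat_lit 411) (nat_lit 379) (nat_lit 350)))) (XT.nd (nat_lit 156) (nat_lit 1596) (nat_lit 0) (XT.nd (nat_lit 78) (nat_lit 1444) (nat_lit 0) (XT.lf (nat_lit 0) (nat_lit 3190136807) (nat_lit 1444) (nat_lit 3520832008) (nat_lit 76) (nat_lit 359232038) (nat_lit 624) (nat_lit 5) (nat_lit 643) (nat_lit 5) (nat_lit 625) (nat_lit 5) (nat_lit 412) (nat_lit 379) (nat_lit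 349)) (XT.lf (nat_lit 0) (nat_lit 1019980194) (nat_lit 1444) (nat_lit 4832173337) (nat_lit 1520) (nat_lit 1258661332) (nat_lit 605) (nat_lit 5) (nat_lit 624) (nat_lit 5) (nat_lit 625) (nat_lit 5) (nat_lit 413) (nat_lit 379) (nat_lit 348))) (XT.nd (nat_lit 78) (nat_lit 1520) (nat_lit 0) (XT.lf (nat_lit 0) (nat_lit 1366776558) (nat_lit 1520) (nat_lit 1508763610) (nat_lit 76) (nat_lit 4277113876) (nat_lit 604) (nat_lit 5) (nat_lit 624) (nat_lit 5) (nat_lit 605) (nat_lit 5) (nat_lit 414) (nat_lit 379) (nat_lit 347)) (XT.lf (nat_lit 0) (nat_lit 3151887458) (nat_lit 1520) (nat_lit 843897682) (nat_lit 1596) (nat_lit 3200020164) (nat_lit 584) (nat_lit 5) (nat_lit 604) (nat_lit 5) (nat_lit 605) (nat_lit 5) (nat_lit 415) (nat_lit 379) (nat_lit 346))))) (XT.nd (nat_lit 312) (nat_lit 3116) (nat_lit 0) (XT.nd (nat_lit 156) (nat_lit 3420) (nat_lit 0) (XT.nd (nat_lit 78) (nat_lit 76) (nat_lit 0) (XT.lf (nat_lit 0) (nat_lit 640102238)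 (nat_lit 1596) (nat_lit 6007803207) (nat_lit 1672) (nat_lit 592503513) (nat_lit 563) (nat_lit 5) (nat_lit 584) (nat_lit 5) (nat_lit 585) (nat_lit 5) (nat_lit 416) (nat_lit 379) (nat_lit 345)) (XT.lf (nat_lit 0) (nat_lit 2021541162) (nat_lit 1672) (nat_lit 1879144313) (nat_lit 76) (nat_lit 3385321005) (nat_lit 562) (nat_lit 5) (nat_lit 584) (nat_lit 5) (nat_lit 563) (nat_lit 5) (nat_lit 417) (nat_lit 379) (nat_lit 344))) (XT.nd (nat_lit 78) (nat_lit 1748) (nat_lit 0) (XT.lf (nat_lit 0) (nat_lit 2924588072) (nat_lit 1672) (nat_lit 1723932638) (nat_lit 1748) (nat_lit 2684545162) (nat_lit 540) (nat_lit 5) (nat_lit 562) (nat_lit 5) (nat_lit 563) (nat_lit 5) (nat_lit 418) (nat_lit 379) (nat_lit 343)) (XT.lf (nat_lit 0) (nat_lit 424311878) (nat_lit 1748) (nat_lit 6872705044) (nat_lit 1824) (nat_lit 84669986) (nat_lit 517) (nat_lit 5) (nat_lit 540) (nat_lit 5) (nat_lit 541) (nat_lit 5) (nat_lit 419) (nat_lit 379) (nat_lit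 342)))) (XT.nd (nat_lit 156) (nat_lit 1216) (nat_lit 0) (XT.nd (nat_lit 78) (nat_lit 1824) (nat_lit 0) (XT.lf (nat_lit 0) (nat_lit 2525381787) (nat_lit 1824) (nat_lit 2092800558) (nat_lit 76) (nat_lit 2812927693) (nat_lit 516) (nat_lit 5) (nat_lit 540) (nat_lit 5) (nat_lit 517) (nat_lit 5) (nat_lit 420) (nat_lit 379) (nat_lit 341)) (XT.lf (nat_lit 0) (nat_lit 2859590470) (nat_lit 1824) (nat_lit 2297097937) (nat_lit 1900) (nat_lit 2325418279) (nat_lit 492) (nat_lit 5) (nat_lit 516) (nat_lit 5) (nat_lit 517) (nat_lit 5) (nat_lit 421) (nat_lit 379) (nat_lit 340))) (XT.nd (nat_lit 78) (nat_lit 0) (nat_lit 0) (XT.lf (nat_lit 0) (nat_lit 271502909) (nat_lit 1216) (nat_lit 7173840969) (nat_lit 76) (nat_lit 89359095) (nat_lit 476) (nat_lit 5) (nat_lit 492) (nat_lit 5) (nat_lit 477) (nat_lit 5) (nat_lit 422) (nat_lit 379) (nat_lit 339)) (XT.lf (nat_lit 0) (nat_lit 2888291844) (nat_lit 1216) (nat_lit 2159379876) (nat_lit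 76) (nat_lit 2540390710) (nat_lit 476) (nat_lit 5) (nat_lit 492) (nat_lit 5) (nat_lit 477) (nat_lit 5) (nat_lit 423) (nat_lit 379) (nat_lit 338)))))) (XT.nd (nat_lit 624) (nat_lit 3876) (nat_lit 0) (XT.nd (nat_lit 312) (nat_lit 2736) (nat_lit 0) (XT.nd (nat_lit 156) (nat_lit 836) (nat_lit 0) (XT.nd (nat_lit 78) (nat_lit 988) (nat_lit 0) (XT.lf (nat_lit 0) (nat_lit 2947559409) (nat_lit 912) (nat_lit 2582524124) (nat_lit 988) (nat_lit 2112952204) (nat_lit 464) (nat_lit 5) (nat_lit 476) (nat_lit 5) (nat_lit 477) (nat_lit 5) (nat_lit 424) (nat_lit 379) (nat_lit 337)) (XT.lf (nat_lit 0) (nat_lit 442609557) (nat_lit 912) (nat_lit 47397098) (nat_lit 988) (nat_lit 7209607655) (nat_lit 451) (nat_lit 5) (nat_lit 463) (nat_lit 5) (nat_lit 464) (nat_lit 5) (nat_lit 425) (nat_lit 379) (nat_lit 336))) (XT.nd (nat_lit 78) (nat_lit 836) (nat_lit 0) (XT.lf (nat_lit 0) (nat_lit 3119392453) (nat_lit 988) (nat_lit 2087645718) (nat_lit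 76) (nat_lit 2549953747) (nat_lit 451) (nat_lit 5) (nat_lit 464) (nat_lit 5) (nat_lit 452) (nat_lit 5) (nat_lit 426) (nat_lit 379) (nat_lit 335)) (XT.lf (nat_lit 0) (nat_lit 3180048314) (nat_lit 836) (nat_lit 2597606728) (nat_lit 912) (nat_lit 2038336255) (nat_lit 440) (nat_lit 5) (nat_lit 451) (nat_lit 5) (nat_lit 452) (nat_lit 5) (nat_lit 427) (nat_lit 379) (nat_lit 334)))) (XT.nd (nat_lit 156) (nat_lit 1748) (nat_lit 0) (XT.nd (nat_lit 78) (nat_lit 0) (nat_lit 0) (XT.lf (nat_lit 0) (nat_lit 579444207) (nat_lit 988) (nat_lit 7213756069) (nat_lit 76) (nat_lit 83399389) (nat_lit 427) (nat_lit 5) (nat_lit 440) (nat_lit 5) (nat_lit 428) (nat_lit 5) (nat_lit 428) (nat_lit 379) (nat_lit 333)) (XT.lf (nat_lit 0) (nat_lit 3226995371) (nat_lit 988) (nat_lit 1885539868) (nat_lit 76) (nat_lit 2825521326) (nat_lit 427) (nat_lit 5) (nat_lit 440) (nat_lit 5) (nat_lit 428) (nat_lit 5) (nat_lit 429) (nat_lit 379) (nat_lit 332)))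 (XT.nd (nat_lit 78) (nat_lit 912) (nat_lit 0) (XT.lf (nat_lit 0) (nat_lit 3549437696) (nat_lit 836) (nat_lit 2358129249) (nat_lit 912) (nat_lit 2093574270) (nat_lit 416) (nat_lit 5) (nat_lit 427) (nat_lit 5) (nat_lit 428) (nat_lit 5) (nat_lit 430) (nat_lit 379) (nat_lit 331)) (XT.lf (nat_lit 0) (nat_lit 548384827) (nat_lit 912) (nat_lit 7052612142) (nat_lit 76) (nat_lit 464822155) (nat_lit 404) (nat_lit 5) (nat_lit 416) (nat_lit 5) (nat_lit 405) (nat_lit 5) (nat_lit 431) (nat_lit 379) (nat_lit 330))))) (XT.nd (nat_lit 312) (nat_lit 2280) (nat_lit 0) (XT.nd (nat_lit 156) (nat_lit 836) (nat_lit 0) (XT.nd (nat_lit 78) (nat_lit 760) (nat_lit 0) (XT.lf (nat_lit 0) (nat_lit 3218660965) (nat_lit 912) (nat_lit 1560239876) (nat_lit 76) (nat_lit 3352542763) (nat_lit 404) (nat_lit 5) (nat_lit 416) (nat_lit 5) (nat_lit 405) (nat_lit 5) (nat_lit 432) (nat_lit 379) (nat_lit 329)) (XT.lf (nat_lit 0) (nat_lit 4048878524) (nat_lit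 760) (nat_lit 1878376372) (nat_lit 836) (nat_lit 2271427432) (nat_lit 394) (nat_lit 5) (nat_lit 404) (nat_lit 5) (nat_lit 405) (nat_lit 5) (nat_lit 433) (nat_lit 379) (nat_lit 328))) (XT.nd (nat_lit 78) (nat_lit 0) (nat_lit 0) (XT.lf (nat_lit 0) (nat_lit 403451558) (nat_lit 836) (nat_lit 6780145004) (nat_lit 76) (nat_lit 1083889545) (nat_lit 383) (nat_lit 5) (nat_lit 394) (nat_lit 5) (nat_lit 384) (nat_lit 5) (nat_lit 434) (nat_lit 379) (nat_lit 327)) (XT.lf (nat_lit 0) (nat_lit 3101251606) (nat_lit 836) (nat_lit 1118211891) (nat_lit 76) (nat_lit 4117905426) (nat_lit 383) (nat_lit 5) (nat_lit 394) (nat_lit 5) (nat_lit 384) (nat_lit 5) (nat_lit 435) (nat_lit 379) (nat_lit 326)))) (XT.nd (nat_lit 156) (nat_lit 684) (nat_lit 0) (XT.nd (nat_lit 78) (nat_lit 836) (nat_lit 0) (XT.lf (nat_lit 0) (nat_lit 4672240188) (nat_lit 760) (nat_lit 1171238134) (nat_lit 836) (nat_lit 2565361658) (nat_lit 373) (nat_lit 5) (nat_lit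 383) (nat_lit 5) (nat_lit 384) (nat_lit 5) (nat_lit 436) (nat_lit 379) (nat_lit 325)) (XT.lf (nat_lit 0) (nat_lit 150909906) (nat_lit 836) (nat_lit 6402570148) (nat_lit 76) (nat_lit 1928356110) (nat_lit 362) (nat_lit 5) (nat_lit 373) (nat_lit 5) (nat_lit 363) (nat_lit 5) (nat_lit 437) (nat_lit 379) (nat_lit 324))) (XT.nd (nat_lit 78) (nat_lit 684) (nat_lit 0) (XT.lf (nat_lit 0) (nat_lit 2880980822) (nat_lit 836) (nat_lit 565259228) (nat_lit 76) (nat_lit 5109836599) (nat_lit 362) (nat_lit 5) (nat_lit 373) (nat_lit 5) (nat_lit 363) (nat_lit 5) (nat_lit 438) (nat_lit 379) (nat_lit 323)) (XT.lf (nat_lit 0) (nat_lit 5414062716) (nat_lit 684) (nat_lit 248305704) (nat_lit 760) (nat_lit 2969499219) (nat_lit 353) (nat_lit 5) (nat_lit 362) (nat_lit 5) (nat_lit 363) (nat_lit 5) (nat_lit 439) (nat_lit 379) (nat_lit 322))))))) (XT.nd (nat_lit 1248) (nat_lit 2204) (nat_lit 0) (XT.nd (nat_lit 624) (nat_lit 2964) (nat_lit 0) (XT.nd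 (nat_lit 312) (nat_lit 1976) (nat_lit 0) (XT.nd (nat_lit 156) (nat_lit 684) (nat_lit 0) (XT.nd (nat_lit 78) (nat_lit 760) (nat_lit 0) (XT.lf (nat_lit 0) (nat_lit 2782281779) (nat_lit 684) (nat_lit 5720524674) (nat_lit 760) (nat_lit 206299541) (nat_lit 344) (nat_lit 5) (nat_lit 353) (nat_lit 5) (nat_lit 354) (nat_lit 5) (nat_lit 440) (nat_lit 379) (nat_lit 321)) (XT.lf (nat_lit 0) (nat_lit 94674675) (nat_lit 684) (nat_lit 2469398540) (nat_lit 760) (nat_lit 6223753343) (nat_lit 334) (nat_lit 5) (nat_lit 343) (nat_lit 5) (nat_lit 344) (nat_lit 5) (nat_lit 441) (nat_lit 379) (nat_lit 320))) (XT.nd (nat_lit 78) (nat_lit 684) (nat_lit 0) (XT.lf (nat_lit 0) (nat_lit 5395186158) (nat_lit 760) (nat_lit 2604247517) (nat_lit 76) (nat_lit 868498682) (nat_lit 334) (nat_lit 5) (nat_lit 344) (nat_lit 5) (nat_lit 335) (nat_lit 5) (nat_lit 442) (nat_lit 379) (nat_lit 319)) (XT.lf (nat_lit 0) (nat_lit 3591361720) (nat_lit 684) (nat_lit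 4694524240) (nat_lit 760) (nat_lit 663695020) (nat_lit 325) (nat_lit 5) (nat_lit 334) (nat_lit 5) (nat_lit 335) (nat_lit 5) (nat_lit 443) (nat_lit 379) (nat_lit 318)))) (XT.nd (nat_lit 156) (nat_lit 1292) (nat_lit 0) (XT.nd (nat_lit 78) (nat_lit 0) (nat_lit 0) (XT.lf (nat_lit 0) (nat_lit 864596253) (nat_lit 608) (nat_lit 1294749888) (nat_lit 684) (nat_lit 6873496908) (nat_lit 316) (nat_lit 5) (nat_lit 324) (nat_lit 5) (nat_lit 325) (nat_lit 5) (nat_lit 444) (nat_lit 379) (nat_lit 317)) (XT.lf (nat_lit 0) (nat_lit 5044107297) (nat_lit 684) (nat_lit 1897655149) (nat_lit 76) (nat_lit 2175637253) (nat_lit 316) (nat_lit 5) (nat_lit 325) (nat_lit 5) (nat_lit 317) (nat_lit 5) (nat_lit 445) (nat_lit 379) (nat_lit 316))) (XT.nd (nat_lit 78) (nat_lit 684) (nat_lit 0) (XT.lf (nat_lit 0) (nat_lit 4503383645) (nat_lit 608) (nat_lit 3485537071) (nat_lit 684) (nat_lit 1214679624) (nat_lit 308) (nat_lit 5) (nat_lit 316) (nat_lit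 5) (nat_lit 317) (nat_lit 5) (nat_lit 446) (nat_lit 379) (nat_lit 315)) (XT.lf (nat_lit 0) (nat_lit 1668002070) (nat_lit 684) (nat_lit 7559081143) (nat_lit 76) (nat_lit 64436747) (nat_lit 299) (nat_lit 5) (nat_lit 308) (nat_lit 5) (nat_lit 300) (nat_lit 5) (nat_lit 447) (nat_lit 379) (nat_lit 314))))) (XT.nd (nat_lit 312) (nat_lit 1748) (nat_lit 0) (XT.nd (nat_lit 156) (nat_lit 608) (nat_lit 0) (XT.nd (nat_lit 78) (nat_lit 608) (nat_lit 0) (XT.lf (nat_lit 0) (nat_lit 4611964255) (nat_lit 684) (nat_lit 1100395845) (nat_lit 76) (nat_lit 3668279465) (nat_lit 299) (nat_lit 5) (nat_lit 308) (nat_lit 5) (nat_lit 300) (nat_lit 5) (nat_lit 448) (nat_lit 379) (nat_lit 313)) (XT.lf (nat_lit 0) (nat_lit 5514738312) (nat_lit 608) (nat_lit 2101601510) (nat_lit 684) (nat_lit 1855171055) (nat_lit 291) (nat_lit 5) (nat_lit 299) (nat_lit 5) (nat_lit 300) (nat_lit 5) (nat_lit 449) (nat_lit 379) (nat_lit 312))) (XT.nd (nat_lit 78)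 (nat_lit 0) (nat_lit 0) (XT.lf (nat_lit 0) (nat_lit 1103189679) (nat_lit 608) (nat_lit 6878757398) (nat_lit 76) (nat_lit 1582082929) (nat_lit 283) (nat_lit 5) (nat_lit 291) (nat_lit 5) (nat_lit 284) (nat_lit 5) (nat_lit 450) (nat_lit 379) (nat_lit 311)) (XT.lf (nat_lit 0) (nat_lit 4102736399) (nat_lit 608) (nat_lit 215967690) (nat_lit 76) (nat_lit 5339312984) (nat_lit 283) (nat_lit 5) (nat_lit 291) (nat_lit 5) (nat_lit 284) (nat_lit 5) (nat_lit 451) (nat_lit 379) (nat_lit 310)))) (XT.nd (nat_lit 156) (nat_lit 532) (nat_lit 0) (XT.nd (nat_lit 78) (nat_lit 608) (nat_lit 0) (XT.lf (nat_lit 0) (nat_lit 6622309652) (nat_lit 608) (nat_lit 549814289) (nat_lit 684) (nat_lit 2581562942) (nat_lit 275) (nat_lit 5) (nat_lit 283) (nat_lit 5) (nat_lit 284) (nat_lit 5) (nat_lit 452) (nat_lit 379) (nat_lit 309)) (XT.lf (nat_lit 0) (nat_lit 460017879) (nat_lit 608) (nat_lit 6122339172) (nat_lit 76) (nat_lit 3268568155) (nat_lit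 267) (nat_lit 5) (nat_lit 275) (nat_lit 5) (nat_lit 268) (nat_lit 5) (nat_lit 453) (nat_lit 379) (nat_lit 308))) (XT.nd (nat_lit 78) (nat_lit 0) (nat_lit 0) (XT.lf (nat_lit 0) (nat_lit 762584340) (nat_lit 532) (nat_lit 2762335898) (nat_lit 608) (nat_lit 6424905633) (nat_lit 260) (nat_lit 5) (nat_lit 267) (nat_lit 5) (nat_lit 268) (nat_lit 5) (nat_lit 454) (nat_lit 379) (nat_lit 307)) (XT.lf (nat_lit 0) (nat_lit 6667390730) (nat_lit 608) (nat_lit 2234640073) (nat_lit 76) (nat_lit 1148348345) (nat_lit 260) (nat_lit 5) (nat_lit 268) (nat_lit 5) (nat_lit 261) (nat_lit 5) (nat_lit 455) (nat_lit 379) (nat_lit 306)))))) (XT.nd (nat_lit 53664) (nat_lit 0) (nat_lit 42408) (XT.nd (nat_lit 312) (nat_lit 608) (nat_lit 0) (XT.nd (nat_lit 156) (nat_lit 456) (nat_lit 0) (XT.nd (nat_lit 78) (nat_lit 608) (nat_lit 0) (XT.lf (nat_lit 0) (nat_lit 4858003854) (nat_lit 532) (nat_lit 5032728689) (nat_lit 608) (nat_lit 261850509) (nat_lit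 253) (nat_lit 5) (nat_lit 260) (nat_lit 5) (nat_lit 261) (nat_lit 5) (nat_lit 456) (nat_lit 379) (nat_lit 305)) (XT.lf (nat_lit 0) (nat_lit 1826589422) (nat_lit 532) (nat_lit 1052072010) (nat_lit 608) (nat_lit 7377884808) (nat_lit 245) (nat_lit 5) (nat_lit 252) (nat_lit 5) (nat_lit 253) (nat_lit 5) (nat_lit 457) (nat_lit 379) (nat_lit 304))) (XT.nd (nat_lit 78) (nat_lit 456) (nat_lit 0) (XT.lf (nat_lit 0) (nat_lit 6102342328) (nat_lit 608) (nat_lit 1266236211) (nat_lit 76) (nat_lit 2993498238) (nat_lit 245) (nat_lit 5) (nat_lit 253) (nat_lit 5) (nat_lit 246) (nat_lit 5) (nat_lit 458) (nat_lit 379) (nat_lit 303)) (XT.lf (nat_lit 0) (nat_lit 6069463828) (nat_lit 456) (nat_lit 3336589414) (nat_lit 532) (nat_lit 1063353555) (nat_lit 239) (nat_lit 5) (nat_lit 245) (nat_lit 5) (nat_lit 246) (nat_lit 5) (nat_lit 459) (nat_lit 379) (nat_lit 302)))) (XT.nd (nat_lit 53196) (nat_lit 0) (nat_lit 43776) (XT.nd (nat_lit 53118)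 (nat_lit 0) (nat_lit 43928) (XT.lf (nat_lit 0) (nat_lit 2170515841) (nat_lit 608) (nat_lit 7612962297) (nat_lit 76) (nat_lit 795072512) (nat_lit 231) (nat_lit 5) (nat_lit 239) (nat_lit 5) (nat_lit 232) (nat_lit 5) (nat_lit 460) (nat_lit 379) (nat_lit 301)) (XT.lf (nat_lit 0) (nat_lit 1073741823) (nat_lit 0) (nat_lit 0) (nat_lit 0) (nat_lit 0) (nat_lit 809) (nat_lit 0) (nat_lit 1) (nat_lit 0) (nat_lit 1) (nat_lit 0) (nat_lit 380) (nat_lit 380) (nat_lit 380))) (XT.nd (nat_lit 78) (nat_lit 76) (nat_lit 0) (XT.lf (nat_lit 0) (nat_lit 3200311139) (nat_lit 76) (nat_lit 3200311139) (nat_lit 0) (nat_lit 42246951) (nat_lit 808) (nat_lit 5) (nat_lit 809) (nat_lit 0) (nat_lit 808) (nat_lit 4) (nat_lit 381) (nat_lit 380) (nat_lit 379)) (XT.lf (nat_lit 0) (nat_lit 63585129) (nat_lit 76) (nat_lit 6317790678) (nat_lit 76) (nat_lit 63585129) (nat_lit 807) (nat_lit 4) (nat_lit 808) (nat_lit 5) (nat_lit 808) (nat_lit 4) (nat_lit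 382) (nat_lit 380) (nat_lit 378))))) (XT.nd (nat_lit 312) (nat_lit 836) (nat_lit 0) (XT.nd (nat_lit 156) (nat_lit 304) (nat_lit 0) (XT.nd (nat_lit 78) (nat_lit 152) (nat_lit 0) (XT.lf (nat_lit 0) (nat_lit 3076039157) (nat_lit 152) (nat_lit 3076039157) (nat_lit 76) (nat_lit 295828070) (nat_lit 806) (nat_lit 5) (nat_lit 808) (nat_lit 5) (nat_lit 807) (nat_lit 4) (nat_lit 383) (nat_lit 380) (nat_lit 377)) (XT.lf (nat_lit 0) (nat_lit 254465203) (nat_lit 152) (nat_lit 5943563449) (nat_lit 228) (nat_lit 254465203) (nat_lit 804) (nat_lit 5) (nat_lit 806) (nat_lit 5) (nat_lit 807) (nat_lit 4) (nat_lit 384) (nat_lit 380) (nat_lit 376))) (XT.nd (nat_lit 78) (nat_lit 228) (nat_lit 0) (XT.lf (nat_lit 0) (nat_lit 2827249535) (nat_lit 228) (nat_lit 2827249535) (nat_lit 76) (nat_lit 803487540) (nat_lit 803) (nat_lit 5) (nat_lit 806) (nat_lit 5) (nat_lit 804) (nat_lit 5) (nat_lit 385) (nat_lit 380) (nat_lit 375)) (XT.lf (nat_lit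 0) (nat_lit 573014487) (nat_lit 228) (nat_lit 5319029550) (nat_lit 304) (nat_lit 573014487) (nat_lit 800) (nat_lit 5) (nat_lit 803) (nat_lit 5) (nat_lit 804) (nat_lit 5) (nat_lit 386) (nat_lit 380) (nat_lit 374)))) (XT.nd (nat_lit 156) (nat_lit 456) (nat_lit 0) (XT.nd (nat_lit 78) (nat_lit 304) (nat_lit 0) (XT.lf (nat_lit 0) (nat_lit 2453450549) (nat_lit 304) (nat_lit 2453450549) (nat_lit 76) (nat_lit 1566220641) (nat_lit 799) (nat_lit 5) (nat_lit 803) (nat_lit 5) (nat_lit 800) (nat_lit 5) (nat_lit 387) (nat_lit 380) (nat_lit 373)) (XT.lf (nat_lit 0) (nat_lit 1019857440) (nat_lit 304) (nat_lit 4442954786) (nat_lit 380) (nat_lit 1019857440) (nat_lit 795) (nat_lit 5) (nat_lit 799) (nat_lit 5) (nat_lit 800) (nat_lit 5) (nat_lit 388) (nat_lit 380) (nat_lit 372))) (XT.nd (nat_lit 78) (nat_lit 380) (nat_lit 0) (XT.lf (nat_lit 0) (nat_lit 1953903604) (nat_lit 380) (nat_lit 1953903604) (nat_lit 76) (nat_lit 2585522343)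 (nat_lit 794) (nat_lit 5) (nat_lit 799) (nat_lit 5) (nat_lit 795) (nat_lit 5) (nat_lit 389) (nat_lit 380) (nat_lit 371)) (XT.lf (nat_lit 0) (nat_lit 1595869747) (nat_lit 380) (nat_lit 3313608430) (nat_lit 456) (nat_lit 1595869747) (nat_lit 789) (nat_lit 5) (nat_lit 794) (nat_lit 5) (nat_lit 795) (nat_lit 5) (nat_lit 390) (nat_lit 380) (nat_lit 370))))))))
noncomputable def xc30 : XT := (XT.nd (nat_lit 1248) (nat_lit 15276) (nat_lit 0) (XT.nd (nat_lit 624) (nat_lit 4788) (nat_lit 0) (XT.nd (nat_lit 312) (nat_lit 1444) (nat_lit 0) (XT.nd (nat_lit 156) (nat_lit 608) (nat_lit 0) (XT.nd (nat_lit 78) (nat_lit 456) (nat_lit 0) (XT.lf (nat_lit 0) (nat_lit 1327622008) (nat_lit 456) (nat_lit 1327622008) (nat_lit 76) (nat_lit 3863389768) (nat_lit 788) (nat_lit 5) (nat_lit 794) (nat_lit 5) (nat_lit 789) (nat_lit 5) (nat_lit 391) (nat_lit 380) (nat_lit 369)) (XT.lf (nat_lit 0) (nat_lit 2302179755) (nat_lit 456) (nat_lit 1928760373)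 (nat_lit 532) (nat_lit 2302179755) (nat_lit 782) (nat_lit 5) (nat_lit 788) (nat_lit 5) (nat_lit 789) (nat_lit 5) (nat_lit 392) (nat_lit 380) (nat_lit 368))) (XT.nd (nat_lit 78) (nat_lit 532) (nat_lit 0) (XT.lf (nat_lit 0) (nat_lit 573369350) (nat_lit 532) (nat_lit 573369350) (nat_lit 76) (nat_lit 5402325479) (nat_lit 781) (nat_lit 5) (nat_lit 788) (nat_lit 5) (nat_lit 782) (nat_lit 5) (nat_lit 393) (nat_lit 380) (nat_lit 367)) (XT.lf (nat_lit 0) (nat_lit 3140170337) (nat_lit 532) (nat_lit 285677445) (nat_lit 608) (nat_lit 3140170337) (nat_lit 774) (nat_lit 5) (nat_lit 781) (nat_lit 5) (nat_lit 782) (nat_lit 5) (nat_lit 394) (nat_lit 380) (nat_lit 366)))) (XT.nd (nat_lit 156) (nat_lit 760) (nat_lit 0) (XT.nd (nat_lit 78) (nat_lit 76) (nat_lit 0) (XT.lf (nat_lit 0) (nat_lit 308300814) (nat_lit 608) (nat_lit 5967893149) (nat_lit 684) (nat_lit 308300814) (nat_lit 766) (nat_lit 5) (nat_lit 774) (nat_lit 5) (nat_lit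 775) (nat_lit 5) (nat_lit 395) (nat_lit 380) (nat_lit 365)) (XT.lf (nat_lit 0) (nat_lit 2503110925) (nat_lit 684) (nat_lit 2503110925) (nat_lit 76) (nat_lit 1597649176) (nat_lit 765) (nat_lit 5) (nat_lit 774) (nat_lit 5) (nat_lit 766) (nat_lit 5) (nat_lit 396) (nat_lit 380) (nat_lit 364))) (XT.nd (nat_lit 78) (nat_lit 76) (nat_lit 0) (XT.lf (nat_lit 0) (nat_lit 1316537263) (nat_lit 684) (nat_lit 3991687475) (nat_lit 760) (nat_lit 1316537263) (nat_lit 756) (nat_lit 5) (nat_lit 765) (nat_lit 5) (nat_lit 766) (nat_lit 5) (nat_lit 397) (nat_lit 380) (nat_lit 363)) (XT.lf (nat_lit 0) (nat_lit 1453941077) (nat_lit 760) (nat_lit 1453941077) (nat_lit 76) (nat_lit 3738979822) (nat_lit 755) (nat_lit 5) (nat_lit 765) (nat_lit 5) (nat_lit 756) (nat_lit 5) (nat_lit 398) (nat_lit 380) (nat_lit 362))))) (XT.nd (nat_lit 312) (nat_lit 2204) (nat_lit 0) (XT.nd (nat_lit 156) (nat_lit 1748) (nat_lit 0) (XT.nd (nat_lit 78) (nat_lit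 76) (nat_lit 0) (XT.lf (nat_lit 0) (nat_lit 2457098482) (nat_lit 760) (nat_lit 1756014687) (nat_lit 836) (nat_lit 2457098482) (nat_lit 745) (nat_lit 5) (nat_lit 755) (nat_lit 5) (nat_lit 756) (nat_lit 5) (nat_lit 399) (nat_lit 380) (nat_lit 361)) (XT.lf (nat_lit 0) (nat_lit 274400222) (nat_lit 836) (nat_lit 274400222) (nat_lit 76) (nat_lit 6146277919) (nat_lit 744) (nat_lit 5) (nat_lit 755) (nat_lit 5) (nat_lit 745) (nat_lit 5) (nat_lit 400) (nat_lit 380) (nat_lit 360))) (XT.nd (nat_lit 78) (nat_lit 912) (nat_lit 0) (XT.lf (nat_lit 0) (nat_lit 2993495039) (nat_lit 912) (nat_lit 2993495039) (nat_lit 76) (nat_lit 733810169) (nat_lit 733) (nat_lit 5) (nat_lit 745) (nat_lit 5) (nat_lit 734) (nat_lit 5) (nat_lit 401) (nat_lit 380) (nat_lit 359)) (XT.lf (nat_lit 0) (nat_lit 1031023425) (nat_lit 912) (nat_lit 4685988906) (nat_lit 988) (nat_lit 1031023425) (nat_lit 721) (nat_lit 5) (nat_lit 733) (nat_lit 5) (nat_lit 734)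 (nat_lit 5) (nat_lit 402) (nat_lit 380) (nat_lit 358)))) (XT.nd (nat_lit 156) (nat_lit 1140) (nat_lit 0) (XT.nd (nat_lit 78) (nat_lit 988) (nat_lit 0) (XT.lf (nat_lit 0) (nat_lit 1655241348) (nat_lit 988) (nat_lit 1655241348) (nat_lit 76) (nat_lit 3465937943) (nat_lit 720) (nat_lit 5) (nat_lit 733) (nat_lit 5) (nat_lit 721) (nat_lit 5) (nat_lit 403) (nat_lit 380) (nat_lit 357)) (XT.lf (nat_lit 0) (nat_lit 2469062531) (nat_lit 988) (nat_lit 1867999144) (nat_lit 1064) (nat_lit 2469062531) (nat_lit 707) (nat_lit 5) (nat_lit 720) (nat_lit 5) (nat_lit 721) (nat_lit 5) (nat_lit 404) (nat_lit 380) (nat_lit 356))) (XT.nd (nat_lit 78) (nat_lit 1064) (nat_lit 0) (XT.lf (nat_lit 0) (nat_lit 184278099) (nat_lit 1064) (nat_lit 184278099) (nat_lit 76) (nat_lit 6468809428) (nat_lit 706) (nat_lit 5) (nat_lit 720) (nat_lit 5) (nat_lit 707) (nat_lit 5) (nat_lit 405) (nat_lit 380) (nat_lit 355)) (XT.lf (nat_lit 0) (nat_lit 2833101615)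 (nat_lit 1140) (nat_lit 2833101615) (nat_lit 76) (nat_lit 1203192697) (nat_lit 692) (nat_lit 5) (nat_lit 707) (nat_lit 5) (nat_lit 693) (nat_lit 5) (nat_lit 406) (nat_lit 380) (nat_lit 354)))))) (XT.nd (nat_lit 624) (nat_lit 8588) (nat_lit 0) (XT.nd (nat_lit 312) (nat_lit 2964) (nat_lit 0) (XT.nd (nat_lit 156) (nat_lit 2508) (nat_lit 0) (XT.nd (nat_lit 78) (nat_lit 76) (nat_lit 0) (XT.lf (nat_lit 0) (nat_lit 1412971323) (nat_lit 1140) (nat_lit 4077022348) (nat_lit 1216) (nat_lit 1412971323) (nat_lit 677) (nat_lit 5) (nat_lit 692) (nat_lit 5) (nat_lit 693) (nat_lit 5) (nat_lit 407) (nat_lit 380) (nat_lit 353)) (XT.lf (nat_lit 0) (nat_lit 1208092573) (nat_lit 1216) (nat_lit 1208092573) (nat_lit 76) (nat_lit 4521619584) (nat_lit 676) (nat_lit 5) (nat_lit 692) (nat_lit 5) (nat_lit 677) (nat_lit 5) (nat_lit 408) (nat_lit 380) (nat_lit 352))) (XT.nd (nat_lit 78) (nat_lit 1292) (nat_lit 0) (XT.lf (nat_lit 0) (nat_lit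 3146938685) (nat_lit 1216) (nat_lit 679991650) (nat_lit 1292) (nat_lit 3146938685) (nat_lit 660) (nat_lit 5) (nat_lit 676) (nat_lit 5) (nat_lit 677) (nat_lit 5) (nat_lit 409) (nat_lit 380) (nat_lit 351)) (XT.lf (nat_lit 0) (nat_lit 549716030) (nat_lit 1292) (nat_lit 5911952072) (nat_lit 1368) (nat_lit 549716030) (nat_lit 643) (nat_lit 5) (nat_lit 660) (nat_lit 5) (nat_lit 661) (nat_lit 5) (nat_lit 410) (nat_lit 380) (nat_lit 350)))) (XT.nd (nat_lit 156) (nat_lit 1520) (nat_lit 0) (XT.nd (nat_lit 78) (nat_lit 1368) (nat_lit 0) (XT.lf (nat_lit 0) (nat_lit 2047411875) (nat_lit 1368) (nat_lit 2047411875) (nat_lit 76) (nat_lit 2955043264) (nat_lit 642) (nat_lit 5) (nat_lit 660) (nat_lit 5) (nat_lit 643) (nat_lit 5) (nat_lit 411) (nat_lit 380) (nat_lit 349)) (XT.lf (nat_lit 0) (nat_lit 2438626944) (nat_lit 1368) (nat_lit 2212551851) (nat_lit 1444) (nat_lit 2438626944) (nat_lit 624) (nat_lit 5) (nat_lit 642) (nat_lit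 5) (nat_lit 643) (nat_lit 5) (nat_lit 412) (nat_lit 380) (nat_lit 348))) (XT.nd (nat_lit 78) (nat_lit 1444) (nat_lit 0) (XT.lf (nat_lit 0) (nat_lit 134624774) (nat_lit 1444) (nat_lit 134624774) (nat_lit 76) (nat_lit 6862061546) (nat_lit 623) (nat_lit 5) (nat_lit 642) (nat_lit 5) (nat_lit 624) (nat_lit 5) (nat_lit 413) (nat_lit 380) (nat_lit 347)) (XT.lf (nat_lit 0) (nat_lit 2714893369) (nat_lit 1520) (nat_lit 2714893369) (nat_lit 76) (nat_lit 1743773328) (nat_lit 604) (nat_lit 5) (nat_lit 624) (nat_lit 5) (nat_lit 605) (nat_lit 5) (nat_lit 414) (nat_lit 380) (nat_lit 346))))) (XT.nd (nat_lit 312) (nat_lit 3724) (nat_lit 0) (XT.nd (nat_lit 156) (nat_lit 3268) (nat_lit 0) (XT.nd (nat_lit 78) (nat_lit 76) (nat_lit 0) (XT.lf (nat_lit 0) (nat_lit 1907075191) (nat_lit 1520) (nat_lit 3403232825) (nat_lit 1596) (nat_lit 1907075191) (nat_lit 584) (nat_lit 5) (nat_lit 604) (nat_lit 5) (nat_lit 605) (nat_lit 5) (nat_lit 415)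 (nat_lit 380) (nat_lit 345)) (XT.lf (nat_lit 0) (nat_lit 653613773) (nat_lit 1596) (nat_lit 653613773) (nat_lit 76) (nat_lit 5955421186) (nat_lit 583) (nat_lit 5) (nat_lit 604) (nat_lit 5) (nat_lit 584) (nat_lit 5) (nat_lit 416) (nat_lit 380) (nat_lit 344))) (XT.nd (nat_lit 78) (nat_lit 1672) (nat_lit 0) (XT.lf (nat_lit 0) (nat_lit 3222117157) (nat_lit 1672) (nat_lit 3222117157) (nat_lit 76) (nat_lit 864690410) (nat_lit 562) (nat_lit 5) (nat_lit 584) (nat_lit 5) (nat_lit 563) (nat_lit 5) (nat_lit 417) (nat_lit 380) (nat_lit 343)) (XT.lf (nat_lit 0) (nat_lit 1541004760) (nat_lit 1672) (nat_lit 4274643563) (nat_lit 1748) (nat_lit 1541004760) (nat_lit 540) (nat_lit 5) (nat_lit 562) (nat_lit 5) (nat_lit 563) (nat_lit 5) (nat_lit 418) (nat_lit 380) (nat_lit 342)))) (XT.nd (nat_lit 156) (nat_lit 1900) (nat_lit 0) (XT.nd (nat_lit 78) (nat_lit 1748) (nat_lit 0) (XT.lf (nat_lit 0) (nat_lit 1014567254) (nat_lit 1748) (nat_lit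 1014567254) (nat_lit 76) (nat_lit 5376610431) (nat_lit 539) (nat_lit 5) (nat_lit 562) (nat_lit 5) (nat_lit 540) (nat_lit 5) (nat_lit 419) (nat_lit 380) (nat_lit 341)) (XT.lf (nat_lit 0) (nat_lit 3579664657) (nat_lit 1824) (nat_lit 3579664657) (nat_lit 76) (nat_lit 296704639) (nat_lit 516) (nat_lit 5) (nat_lit 540) (nat_lit 5) (nat_lit 517) (nat_lit 5) (nat_lit 420) (nat_lit 380) (nat_lit 340))) (XT.nd (nat_lit 78) (nat_lit 76) (nat_lit 0) (XT.lf (nat_lit 0) (nat_lit 1330138579) (nat_lit 1824) (nat_lit 4847421664) (nat_lit 1900) (nat_lit 1330138579) (nat_lit 492) (nat_lit 5) (nat_lit 516) (nat_lit 5) (nat_lit 517) (nat_lit 5) (nat_lit 421) (nat_lit 380) (nat_lit 339)) (XT.lf (nat_lit 0) (nat_lit 1227475465) (nat_lit 1900) (nat_lit 1227475465) (nat_lit 76) (nat_lit 5105740015) (nat_lit 491) (nat_lit 5) (nat_lit 516) (nat_lit 5) (nat_lit 492) (nat_lit 5) (nat_lit 422) (nat_lit 380) (nat_lit 338)))))))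
noncomputable def xc31 : XT := (XT.nd (nat_lit 1248) (nat_lit 7752) (nat_lit 0) (XT.nd (nat_lit 624) (nat_lit 4104) (nat_lit 0) (XT.nd (nat_lit 312) (nat_lit 2660) (nat_lit 0) (XT.nd (nat_lit 156) (nat_lit 988) (nat_lit 0) (XT.nd (nat_lit 78) (nat_lit 912) (nat_lit 0) (XT.lf (nat_lit 0) (nat_lit 3797191039) (nat_lit 1216) (nat_lit 3797191039) (nat_lit 76) (nat_lit 20609793) (nat_lit 476) (nat_lit 5) (nat_lit 492) (nat_lit 5) (nat_lit 477) (nat_lit 5) (nat_lit 423) (nat_lit 380) (nat_lit 337)) (XT.lf (nat_lit 0) (nat_lit 1265129584) (nat_lit 912) (nat_lit 5140375560) (nat_lit 988) (nat_lit 1265129584) (nat_lit 464) (nat_lit 5) (nat_lit 476) (nat_lit 5) (nat_lit 477) (nat_lit 5) (nat_lit 424) (nat_lit 380) (nat_lit 336))) (XT.nd (nat_lit 78) (nat_lit 912) (nat_lit 0) (XT.lf (nat_lit 0) (nat_lit 1301431452) (nat_lit 988) (nat_lit 1301431452) (nat_lit 76) (nat_lit 5124745875) (nat_lit 463) (nat_lit 5) (nat_lit 476)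 (nat_lit 5) (nat_lit 464) (nat_lit 5) (nat_lit 425) (nat_lit 380) (nat_lit 335)) (XT.lf (nat_lit 0) (nat_lit 3883491969) (nat_lit 988) (nat_lit 3883491969) (nat_lit 76) (nat_lit 18948955) (nat_lit 451) (nat_lit 5) (nat_lit 464) (nat_lit 5) (nat_lit 452) (nat_lit 5) (nat_lit 426) (nat_lit 380) (nat_lit 334)))) (XT.nd (nat_lit 156) (nat_lit 1748) (nat_lit 0) (XT.nd (nat_lit 78) (nat_lit 76) (nat_lit 0) (XT.lf (nat_lit 0) (nat_lit 1337494805) (nat_lit 836) (nat_lit 5170615546) (nat_lit 912) (nat_lit 1337494805) (nat_lit 440) (nat_lit 5) (nat_lit 451) (nat_lit 5) (nat_lit 452) (nat_lit 5) (nat_lit 427) (nat_lit 380) (nat_lit 333)) (XT.lf (nat_lit 0) (nat_lit 1244694929) (nat_lit 912) (nat_lit 1244694929) (nat_lit 76) (nat_lit 5417260640) (nat_lit 439) (nat_lit 5) (nat_lit 451) (nat_lit 5) (nat_lit 440) (nat_lit 5) (nat_lit 428) (nat_lit 380) (nat_lit 332))) (XT.nd (nat_lit 78) (nat_lit 836) (nat_lit 0) (XT.lf (nat_lit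 0) (nat_lit 3846565104) (nat_lit 988) (nat_lit 3846565104) (nat_lit 76) (nat_lit 275890811) (nat_lit 427) (nat_lit 5) (nat_lit 440) (nat_lit 5) (nat_lit 428) (nat_lit 5) (nat_lit 429) (nat_lit 380) (nat_lit 331)) (XT.lf (nat_lit 0) (nat_lit 1539554680) (nat_lit 836) (nat_lit 4953674459) (nat_lit 912) (nat_lit 1539554680) (nat_lit 416) (nat_lit 5) (nat_lit 427) (nat_lit 5) (nat_lit 428) (nat_lit 5) (nat_lit 430) (nat_lit 380) (nat_lit 330))))) (XT.nd (nat_lit 312) (nat_lit 2356) (nat_lit 0) (XT.nd (nat_lit 156) (nat_lit 836) (nat_lit 0) (XT.nd (nat_lit 78) (nat_lit 836) (nat_lit 0) (XT.lf (nat_lit 0) (nat_lit 1064751088) (nat_lit 912) (nat_lit 1064751088) (nat_lit 76) (nat_lit 5968495356) (nat_lit 415) (nat_lit 5) (nat_lit 427) (nat_lit 5) (nat_lit 416) (nat_lit 5) (nat_lit 431) (nat_lit 380) (nat_lit 329)) (XT.lf (nat_lit 0) (nat_lit 3693666717) (nat_lit 912) (nat_lit 3693666717) (nat_lit 76) (nat_lit 777115789)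 (nat_lit 404) (nat_lit 5) (nat_lit 416) (nat_lit 5) (nat_lit 405) (nat_lit 5) (nat_lit 432) (nat_lit 380) (nat_lit 328))) (XT.nd (nat_lit 78) (nat_lit 76) (nat_lit 0) (XT.lf (nat_lit 0) (nat_lit 1864377231) (nat_lit 760) (nat_lit 4503618779) (nat_lit 836) (nat_lit 1864377231) (nat_lit 394) (nat_lit 5) (nat_lit 404) (nat_lit 5) (nat_lit 405) (nat_lit 5) (nat_lit 433) (nat_lit 380) (nat_lit 327)) (XT.lf (nat_lit 0) (nat_lit 768364712) (nat_lit 836) (nat_lit 768364712) (nat_lit 76) (nat_lit 6765130709) (nat_lit 393) (nat_lit 5) (nat_lit 404) (nat_lit 5) (nat_lit 394) (nat_lit 5) (nat_lit 434) (nat_lit 380) (nat_lit 326)))) (XT.nd (nat_lit 156) (nat_lit 836) (nat_lit 0) (XT.nd (nat_lit 78) (nat_lit 760) (nat_lit 0) (XT.lf (nat_lit 0) (nat_lit 3431363827) (nat_lit 836) (nat_lit 3431363827) (nat_lit 76) (nat_lit 1509711311) (nat_lit 383) (nat_lit 5) (nat_lit 394) (nat_lit 5) (nat_lit 384) (nat_lit 5) (nat_lit 435) (nat_lit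 380) (nat_lit 325)) (XT.lf (nat_lit 0) (nat_lit 2305726712) (nat_lit 760) (nat_lit 3833150858) (nat_lit 836) (nat_lit 2305726712) (nat_lit 373) (nat_lit 5) (nat_lit 383) (nat_lit 5) (nat_lit 384) (nat_lit 5) (nat_lit 436) (nat_lit 380) (nat_lit 324))) (XT.nd (nat_lit 78) (nat_lit 760) (nat_lit 0) (XT.lf (nat_lit 0) (nat_lit 361629959) (nat_lit 836) (nat_lit 361629959) (nat_lit 76) (nat_lit 7795217029) (nat_lit 372) (nat_lit 5) (nat_lit 383) (nat_lit 5) (nat_lit 373) (nat_lit 5) (nat_lit 437) (nat_lit 380) (nat_lit 323)) (XT.lf (nat_lit 0) (nat_lit 3065582159) (nat_lit 836) (nat_lit 3065582159) (nat_lit 76) (nat_lit 2462075488) (nat_lit 362) (nat_lit 5) (nat_lit 373) (nat_lit 5) (nat_lit 363) (nat_lit 5) (nat_lit 438) (nat_lit 380) (nat_lit 322)))))) (XT.nd (nat_lit 624) (nat_lit 3648) (nat_lit 0) (XT.nd (nat_lit 312) (nat_lit 1976) (nat_lit 0) (XT.nd (nat_lit 156) (nat_lit 760) (nat_lit 0) (XT.nd (nat_lit 78) (nat_lit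 684) (nat_lit 0) (XT.lf (nat_lit 0) (nat_lit 2858016429) (nat_lit 684) (nat_lit 2953702946) (nat_lit 760) (nat_lit 2858016429) (nat_lit 353) (nat_lit 5) (nat_lit 362) (nat_lit 5) (nat_lit 363) (nat_lit 5) (nat_lit 439) (nat_lit 380) (nat_lit 321)) (XT.lf (nat_lit 0) (nat_lit 148997136) (nat_lit 684) (nat_lit 8450042246) (nat_lit 760) (nat_lit 148997136) (nat_lit 344) (nat_lit 5) (nat_lit 353) (nat_lit 5) (nat_lit 354) (nat_lit 5) (nat_lit 440) (nat_lit 380) (nat_lit 320))) (XT.nd (nat_lit 78) (nat_lit 684) (nat_lit 0) (XT.lf (nat_lit 0) (nat_lit 2601650254) (nat_lit 760) (nat_lit 2601650254) (nat_lit 76) (nat_lit 3623828609) (nat_lit 343) (nat_lit 5) (nat_lit 353) (nat_lit 5) (nat_lit 344) (nat_lit 5) (nat_lit 441) (nat_lit 380) (nat_lit 319)) (XT.lf (nat_lit 0) (nat_lit 3516265390) (nat_lit 684) (nat_lit 1875523622) (nat_lit 760) (nat_lit 3516265390) (nat_lit 334) (nat_lit 5) (nat_lit 343) (nat_lit 5) (nat_lit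 344) (nat_lit 5) (nat_lit 442) (nat_lit 380) (nat_lit 318)))) (XT.nd (nat_lit 156) (nat_lit 1216) (nat_lit 0) (XT.nd (nat_lit 78) (nat_lit 76) (nat_lit 0) (XT.lf (nat_lit 0) (nat_lit 756579838) (nat_lit 684) (nat_lit 7477511302) (nat_lit 760) (nat_lit 756579838) (nat_lit 325) (nat_lit 5) (nat_lit 334) (nat_lit 5) (nat_lit 335) (nat_lit 5) (nat_lit 443) (nat_lit 380) (nat_lit 317)) (XT.lf (nat_lit 0) (nat_lit 2044340007) (nat_lit 760) (nat_lit 2044340007) (nat_lit 76) (nat_lit 4985731886) (nat_lit 324) (nat_lit 5) (nat_lit 334) (nat_lit 5) (nat_lit 325) (nat_lit 5) (nat_lit 444) (nat_lit 380) (nat_lit 316))) (XT.nd (nat_lit 78) (nat_lit 608) (nat_lit 0) (XT.lf (nat_lit 0) (nat_lit 4276058537) (nat_lit 608) (nat_lit 607757183) (nat_lit 684) (nat_lit 4276058537) (nat_lit 316) (nat_lit 5) (nat_lit 324) (nat_lit 5) (nat_lit 325) (nat_lit 5) (nat_lit 445) (nat_lit 380) (nat_lit 315)) (XT.lf (nat_lit 0) (nat_lit 1459183587)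 (nat_lit 608) (nat_lit 6328526112) (nat_lit 684) (nat_lit 1459183587) (nat_lit 308) (nat_lit 5) (nat_lit 316) (nat_lit 5) (nat_lit 317) (nat_lit 5) (nat_lit 446) (nat_lit 380) (nat_lit 314))))) (XT.nd (nat_lit 312) (nat_lit 2280) (nat_lit 0) (XT.nd (nat_lit 156) (nat_lit 684) (nat_lit 0) (XT.nd (nat_lit 78) (nat_lit 608) (nat_lit 0) (XT.lf (nat_lit 0) (nat_lit 1397903898) (nat_lit 684) (nat_lit 1397903898) (nat_lit 76) (nat_lit 6539612881) (nat_lit 307) (nat_lit 5) (nat_lit 316) (nat_lit 5) (nat_lit 308) (nat_lit 5) (nat_lit 447) (nat_lit 380) (nat_lit 313)) (XT.lf (nat_lit 0) (nat_lit 4297490262) (nat_lit 684) (nat_lit 4297490262) (nat_lit 76) (nat_lit 830447272) (nat_lit 299) (nat_lit 5) (nat_lit 308) (nat_lit 5) (nat_lit 300) (nat_lit 5) (nat_lit 448) (nat_lit 380) (nat_lit 312))) (XT.nd (nat_lit 78) (nat_lit 76) (nat_lit 0) (XT.lf (nat_lit 0) (nat_lit 2253000135) (nat_lit 608) (nat_lit 5011055053) (nat_lit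 684) (nat_lit 2253000135) (nat_lit 291) (nat_lit 5) (nat_lit 299) (nat_lit 5) (nat_lit 300) (nat_lit 5) (nat_lit 449) (nat_lit 380) (nat_lit 311)) (XT.lf (nat_lit 0) (nat_lit 666109166) (nat_lit 684) (nat_lit 666109166) (nat_lit 76) (nat_lit 8278297158) (nat_lit 290) (nat_lit 5) (nat_lit 299) (nat_lit 5) (nat_lit 291) (nat_lit 5) (nat_lit 450) (nat_lit 380) (nat_lit 310)))) (XT.nd (nat_lit 156) (nat_lit 1140) (nat_lit 0) (XT.nd (nat_lit 78) (nat_lit 608) (nat_lit 0) (XT.lf (nat_lit 0) (nat_lit 3636185745) (nat_lit 608) (nat_lit 3636185745) (nat_lit 76) (nat_lit 2432720471) (nat_lit 283) (nat_lit 5) (nat_lit 291) (nat_lit 5) (nat_lit 284) (nat_lit 5) (nat_lit 451) (nat_lit 380) (nat_lit 309)) (XT.lf (nat_lit 0) (nat_lit 3134694450) (nat_lit 608) (nat_lit 3532147498) (nat_lit 684) (nat_lit 3134694450) (nat_lit 275) (nat_lit 5) (nat_lit 283) (nat_lit 5) (nat_lit 284) (nat_lit 5) (nat_lit 452) (nat_lit 380) (nat_lit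 308))) (XT.nd (nat_lit 78) (nat_lit 608) (nat_lit 0) (XT.lf (nat_lit 0) (nat_lit 146758943) (nat_lit 532) (nat_lit 9606489102) (nat_lit 608) (nat_lit 146758943) (nat_lit 268) (nat_lit 5) (nat_lit 275) (nat_lit 5) (nat_lit 276) (nat_lit 5) (nat_lit 453) (nat_lit 380) (nat_lit 307)) (XT.nd (nat_lit 78) (nat_lit 532) (nat_lit 0) (XT.lf (nat_lit 0) (nat_lit 2899236585) (nat_lit 608) (nat_lit 2899236585) (nat_lit 76) (nat_lit 4200870172) (nat_lit 267) (nat_lit 5) (nat_lit 275) (nat_lit 5) (nat_lit 268) (nat_lit 5) (nat_lit 454) (nat_lit 380) (nat_lit 306)) (XT.lf (nat_lit 0) (nat_lit 4101375204) (nat_lit 532) (nat_lit 1897992990) (nat_lit 608) (nat_lit 4101375204) (nat_lit 260) (nat_lit 5) (nat_lit 267) (nat_lit 5) (nat_lit 268) (nat_lit 5) (nat_lit 455) (nat_lit 380) (nat_lit 305))))))))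
noncomputable def xc32 : XT := (XT.nd (nat_lit 55614) (nat_lit 0) (nat_lit 8740) (XT.nd (nat_lit 54366) (nat_lit 0) (nat_lit 33288) (XT.nd (nat_lit 53742) (nat_lit 0) (nat_lit 41800) (XT.nd (nat_lit 312) (nat_lit 76) (nat_lit 0) (XT.nd (nat_lit 156) (nat_lit 988) (nat_lit 0) (XT.nd (nat_lit 78) (nat_lit 76) (nat_lit 0) (XT.lf (nat_lit 0) (nat_lit 1033881154) (nat_lit 532) (nat_lit 8136236833) (nat_lit 608) (nat_lit 1033881154) (nat_lit 253) (nat_lit 5) (nat_lit 260) (nat_lit 5) (nat_lit 261) (nat_lit 5) (nat_lit 456) (nat_lit 380) (nat_lit 304)) (XT.lf (nat_lit 0) (nat_lit 2089518927) (nat_lit 608) (nat_lit 2089518927) (nat_lit 76) (nat_lit 6129569471) (nat_lit 252) (nat_lit 5) (nat_lit 260) (nat_lit 5) (nat_lit 253) (nat_lit 5) (nat_lit 457) (nat_lit 380) (nat_lit 303))) (XT.nd (nat_lit 78) (nat_lit 456) (nat_lit 0) (XT.lf (nat_lit 0) (nat_lit 5150567788) (nat_lit 532) (nat_lit 113975417) (nat_lit 608) (nat_lit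 5150567788) (nat_lit 245) (nat_lit 5) (nat_lit 252) (nat_lit 5) (nat_lit 253) (nat_lit 5) (nat_lit 458) (nat_lit 380) (nat_lit 302)) (XT.lf (nat_lit 0) (nat_lit 1997166962) (nat_lit 456) (nat_lit 6528949836) (nat_lit 532) (nat_lit 1997166962) (nat_lit 239) (nat_lit 5) (nat_lit 245) (nat_lit 5) (nat_lit 246) (nat_lit 5) (nat_lit 459) (nat_lit 380) (nat_lit 301)))) (XT.nd (nat_lit 53274) (nat_lit 0) (nat_lit 43092) (XT.nd (nat_lit 53196) (nat_lit 0) (nat_lit 43320) (XT.lf (nat_lit 0) (nat_lit 1209530090) (nat_lit 532) (nat_lit 1209530090) (nat_lit 76) (nat_lit 8214277081) (nat_lit 238) (nat_lit 5) (nat_lit 245) (nat_lit 5) (nat_lit 239) (nat_lit 5) (nat_lit 460) (nat_lit 380) (nat_lit 300)) (XT.lf (nat_lit 0) (nat_lit 1589628230) (nat_lit 0) (nat_lit 1589628230) (nat_lit 76) (nat_lit 42808391) (nat_lit 808) (nat_lit 5) (nat_lit 808) (nat_lit 3) (nat_lit 809) (nat_lit 0) (nat_lit 381) (nat_lit 381) (nat_lit 378)))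 (XT.nd (nat_lit 78) (nat_lit 0) (nat_lit 0) (XT.lf (nat_lit 0) (nat_lit 3010802519) (nat_lit 228) (nat_lit 42246951) (nat_lit 228) (nat_lit 3393609932) (nat_lit 805) (nat_lit 3) (nat_lit 808) (nat_lit 3) (nat_lit 808) (nat_lit 5) (nat_lit 382) (nat_lit 381) (nat_lit 377)) (XT.lf (nat_lit 76) (nat_lit 3245410429) (nat_lit 0) (nat_lit 2862452895) (nat_lit 228) (nat_lit 342567861) (nat_lit 806) (nat_lit 5) (nat_lit 805) (nat_lit 3) (nat_lit 808) (nat_lit 5) (nat_lit 383) (nat_lit 381) (nat_lit 376))))) (XT.nd (nat_lit 312) (nat_lit 760) (nat_lit 0) (XT.nd (nat_lit 156) (nat_lit 304) (nat_lit 0) (XT.nd (nat_lit 78) (nat_lit 0) (nat_lit 0) (XT.lf (nat_lit 76) (nat_lit 85767910) (nat_lit 0) (nat_lit 2610356990) (nat_lit 304) (nat_lit 3759379770) (nat_lit 803) (nat_lit 5) (nat_lit 802) (nat_lit 5) (nat_lit 806) (nat_lit 5) (nat_lit 384) (nat_lit 381) (nat_lit 375)) (XT.lf (nat_lit 76) (nat_lit 3441581384) (nat_lit 0)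 (nat_lit 2291807706) (nat_lit 304) (nat_lit 728397556) (nat_lit 803) (nat_lit 5) (nat_lit 802) (nat_lit 5) (nat_lit 806) (nat_lit 5) (nat_lit 385) (nat_lit 381) (nat_lit 374))) (XT.nd (nat_lit 78) (nat_lit 0) (nat_lit 0) (XT.lf (nat_lit 76) (nat_lit 343323797) (nat_lit 0) (nat_lit 1913041129) (nat_lit 380) (nat_lit 4213039376) (nat_lit 799) (nat_lit 5) (nat_lit 798) (nat_lit 5) (nat_lit 803) (nat_lit 5) (nat_lit 386) (nat_lit 381) (nat_lit 373)) (XT.lf (nat_lit 76) (nat_lit 3768300171) (nat_lit 0) (nat_lit 1466198175) (nat_lit 380) (nat_lit 1243711092) (nat_lit 799) (nat_lit 5) (nat_lit 798) (nat_lit 5) (nat_lit 803) (nat_lit 5) (nat_lit 387) (nat_lit 381) (nat_lit 372)))) (XT.nd (nat_lit 156) (nat_lit 380) (nat_lit 0) (XT.nd (nat_lit 78) (nat_lit 0) (nat_lit 0) (XT.lf (nat_lit 76) (nat_lit 730515423) (nat_lit 0) (nat_lit 960012514) (nat_lit 456) (nat_lit 4797852256) (nat_lit 794) (nat_lit 5) (nat_lit 793) (nat_lit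 5) (nat_lit 799) (nat_lit 5) (nat_lit 388) (nat_lit 381) (nat_lit 371)) (XT.lf (nat_lit 76) (nat_lit 4226351519) (nat_lit 0) (nat_lit 384000207) (nat_lit 456) (nat_lit 1889367151) (nat_lit 794) (nat_lit 5) (nat_lit 793) (nat_lit 5) (nat_lit 799) (nat_lit 5) (nat_lit 389) (nat_lit 381) (nat_lit 370))) (XT.nd (nat_lit 78) (nat_lit 0) (nat_lit 0) (XT.lf (nat_lit 0) (nat_lit 999275684) (nat_lit 456) (nat_lit 5265828806) (nat_lit 76) (nat_lit 247317620) (nat_lit 788) (nat_lit 5) (nat_lit 794) (nat_lit 5) (nat_lit 789) (nat_lit 5) (nat_lit 390) (nat_lit 381) (nat_lit 369)) (XT.lf (nat_lit 0) (nat_lit 3866073942) (nat_lit 456) (nat_lit 1715777822) (nat_lit 76) (nat_lit 944364245) (nat_lit 788) (nat_lit 5) (nat_lit 794) (nat_lit 5) (nat_lit 789) (nat_lit 5) (nat_lit 391) (nat_lit 381) (nat_lit 368)))))) (XT.nd (nat_lit 624) (nat_lit 5244) (nat_lit 0) (XT.nd (nat_lit 312) (nat_lit 2128) (nat_lit 0) (XT.nd (nat_lit 156)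 (nat_lit 608) (nat_lit 0) (XT.nd (nat_lit 78) (nat_lit 0) (nat_lit 0) (XT.lf (nat_lit 0) (nat_lit 187686512) (nat_lit 532) (nat_lit 4655129079) (nat_lit 76) (nat_lit 1698616903) (nat_lit 781) (nat_lit 5) (nat_lit 788) (nat_lit 5) (nat_lit 782) (nat_lit 5) (nat_lit 392) (nat_lit 381) (nat_lit 367)) (XT.lf (nat_lit 0) (nat_lit 2998303328) (nat_lit 532) (nat_lit 1033852203) (nat_lit 76) (nat_lit 2525617088) (nat_lit 781) (nat_lit 5) (nat_lit 788) (nat_lit 5) (nat_lit 782) (nat_lit 5) (nat_lit 393) (nat_lit 381) (nat_lit 366))) (XT.nd (nat_lit 78) (nat_lit 76) (nat_lit 0) (XT.lf (nat_lit 0) (nat_lit 2652361723) (nat_lit 532) (nat_lit 3161195226) (nat_lit 608) (nat_lit 761914109) (nat_lit 774) (nat_lit 5) (nat_lit 781) (nat_lit 5) (nat_lit 782) (nat_lit 5) (nat_lit 394) (nat_lit 381) (nat_lit 365)) (XT.lf (nat_lit 0) (nat_lit 2002975586) (nat_lit 608) (nat_lit 223599083) (nat_lit 76) (nat_lit 4367900895) (nat_lit 773)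 (nat_lit 5) (nat_lit 781) (nat_lit 5) (nat_lit 774) (nat_lit 5) (nat_lit 395) (nat_lit 381) (nat_lit 364)))) (XT.nd (nat_lit 156) (nat_lit 760) (nat_lit 0) (XT.nd (nat_lit 78) (nat_lit 760) (nat_lit 0) (XT.lf (nat_lit 0) (nat_lit 3549344613) (nat_lit 608) (nat_lit 1219838688) (nat_lit 684) (nat_lit 1845451690) (nat_lit 765) (nat_lit 5) (nat_lit 773) (nat_lit 5) (nat_lit 774) (nat_lit 5) (nat_lit 396) (nat_lit 381) (nat_lit 363)) (XT.lf (nat_lit 0) (nat_lit 726257042) (nat_lit 684) (nat_lit 156725925) (nat_lit 760) (nat_lit 5753290618) (nat_lit 755) (nat_lit 5) (nat_lit 764) (nat_lit 5) (nat_lit 765) (nat_lit 5) (nat_lit 397) (nat_lit 381) (nat_lit 362))) (XT.nd (nat_lit 78) (nat_lit 760) (nat_lit 0) (XT.lf (nat_lit 0) (nat_lit 3602970695) (nat_lit 760) (nat_lit 2084964271) (nat_lit 76) (nat_lit 970932116) (nat_lit 755) (nat_lit 5) (nat_lit 765) (nat_lit 5) (nat_lit 756) (nat_lit 5) (nat_lit 398) (nat_lit 381) (nat_lit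 361)) (XT.lf (nat_lit 0) (nat_lit 1796130968) (nat_lit 760) (nat_lit 4530145457) (nat_lit 836) (nat_lit 356657661) (nat_lit 745) (nat_lit 5) (nat_lit 755) (nat_lit 5) (nat_lit 756) (nat_lit 5) (nat_lit 399) (nat_lit 381) (nat_lit 360))))) (XT.nd (nat_lit 312) (nat_lit 3344) (nat_lit 0) (XT.nd (nat_lit 156) (nat_lit 988) (nat_lit 0) (XT.nd (nat_lit 78) (nat_lit 836) (nat_lit 0) (XT.lf (nat_lit 0) (nat_lit 2315994436) (nat_lit 836) (nat_lit 983279213) (nat_lit 76) (nat_lit 3408880378) (nat_lit 744) (nat_lit 5) (nat_lit 755) (nat_lit 5) (nat_lit 745) (nat_lit 5) (nat_lit 400) (nat_lit 381) (nat_lit 359)) (XT.lf (nat_lit 0) (nat_lit 2992520039) (nat_lit 836) (nat_lit 2002253587) (nat_lit 912) (nat_lit 1739908597) (nat_lit 733) (nat_lit 5) (nat_lit 744) (nat_lit 5) (nat_lit 745) (nat_lit 5) (nat_lit 401) (nat_lit 381) (nat_lit 358))) (XT.nd (nat_lit 78) (nat_lit 0) (nat_lit 0) (XT.lf (nat_lit 0) (nat_lit 253349541)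 (nat_lit 912) (nat_lit 646215209) (nat_lit 988) (nat_lit 5863114103) (nat_lit 720) (nat_lit 5) (nat_lit 732) (nat_lit 5) (nat_lit 733) (nat_lit 5) (nat_lit 402) (nat_lit 381) (nat_lit 357)) (XT.lf (nat_lit 0) (nat_lit 3538206841) (nat_lit 988) (nat_lit 2471966043) (nat_lit 76) (nat_lit 781438983) (nat_lit 720) (nat_lit 5) (nat_lit 733) (nat_lit 5) (nat_lit 721) (nat_lit 5) (nat_lit 403) (nat_lit 381) (nat_lit 356)))) (XT.nd (nat_lit 156) (nat_lit 2280) (nat_lit 0) (XT.nd (nat_lit 78) (nat_lit 76) (nat_lit 0) (XT.lf (nat_lit 0) (nat_lit 1619718851) (nat_lit 988) (nat_lit 4565475218) (nat_lit 1064) (nat_lit 636818026) (nat_lit 707) (nat_lit 5) (nat_lit 720) (nat_lit 5) (nat_lit 721) (nat_lit 5) (nat_lit 404) (nat_lit 381) (nat_lit 355)) (XT.lf (nat_lit 0) (nat_lit 1963418850) (nat_lit 1064) (nat_lit 1083130561) (nat_lit 76) (nat_lit 3807047651) (nat_lit 706) (nat_lit 5) (nat_lit 720) (nat_lit 5) (nat_lit 707) (nat_lit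 5) (nat_lit 405) (nat_lit 381) (nat_lit 354))) (XT.nd (nat_lit 78) (nat_lit 1216) (nat_lit 0) (XT.lf (nat_lit 0) (nat_lit 3111988808) (nat_lit 1064) (nat_lit 1457780721) (nat_lit 1140) (nat_lit 2316707292) (nat_lit 692) (nat_lit 5) (nat_lit 706) (nat_lit 5) (nat_lit 707) (nat_lit 5) (nat_lit 406) (nat_lit 381) (nat_lit 353)) (XT.lf (nat_lit 0) (nat_lit 258528332) (nat_lit 1216) (nat_lit 6476011684) (nat_lit 76) (nat_lit 186347377) (nat_lit 676) (nat_lit 5) (nat_lit 692) (nat_lit 5) (nat_lit 677) (nat_lit 5) (nat_lit 407) (nat_lit 381) (nat_lit 352))))))) (XT.nd (nat_lit 1248) (nat_lit 9348) (nat_lit 0) (XT.nd (nat_lit 624) (nat_lit 8208) (nat_lit 0) (XT.nd (nat_lit 312) (nat_lit 4408) (nat_lit 0) (XT.nd (nat_lit 156) (nat_lit 1368) (nat_lit 0) (XT.nd (nat_lit 78) (nat_lit 1216) (nat_lit 0) (XT.lf (nat_lit 0) (nat_lit 2833250249) (nat_lit 1216) (nat_lit 2225276168) (nat_lit 76) (nat_lit 1897573445) (nat_lit 676)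 (nat_lit 5) (nat_lit 692) (nat_lit 5) (nat_lit 677) (nat_lit 5) (nat_lit 408) (nat_lit 381) (nat_lit 351)) (XT.lf (nat_lit 0) (nat_lit 2094390303) (nat_lit 1216) (nat_lit 3323598566) (nat_lit 1292) (nat_lit 1574857267) (nat_lit 660) (nat_lit 5) (nat_lit 676) (nat_lit 5) (nat_lit 677) (nat_lit 5) (nat_lit 409) (nat_lit 381) (nat_lit 350))) (XT.nd (nat_lit 78) (nat_lit 1292) (nat_lit 0) (XT.lf (nat_lit 0) (nat_lit 971059058) (nat_lit 1292) (nat_lit 550153990) (nat_lit 76) (nat_lit 5509773397) (nat_lit 659) (nat_lit 5) (nat_lit 676) (nat_lit 5) (nat_lit 660) (nat_lit 5) (nat_lit 410) (nat_lit 381) (nat_lit 349)) (XT.lf (nat_lit 0) (nat_lit 3520832008) (nat_lit 1368) (nat_lit 3190136807) (nat_lit 76) (nat_lit 359232038) (nat_lit 642) (nat_lit 5) (nat_lit 660) (nat_lit 5) (nat_lit 643) (nat_lit 5) (nat_lit 411) (nat_lit 381) (nat_lit 348)))) (XT.nd (nat_lit 156) (nat_lit 2964) (nat_lit 0) (XT.nd (nat_lit 78) (nat_lit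 76) (nat_lit 0) (XT.lf (nat_lit 0) (nat_lit 1258661332) (nat_lit 1368) (nat_lit 4832173337) (nat_lit 1444) (nat_lit 1019980194) (nat_lit 624) (nat_lit 5) (nat_lit 642) (nat_lit 5) (nat_lit 643) (nat_lit 5) (nat_lit 412) (nat_lit 381) (nat_lit 347)) (XT.lf (nat_lit 0) (nat_lit 1508763610) (nat_lit 1444) (nat_lit 1366776558) (nat_lit 76) (nat_lit 4277113876) (nat_lit 623) (nat_lit 5) (nat_lit 642) (nat_lit 5) (nat_lit 624) (nat_lit 5) (nat_lit 413) (nat_lit 381) (nat_lit 346))) (XT.nd (nat_lit 78) (nat_lit 1520) (nat_lit 0) (XT.lf (nat_lit 0) (nat_lit 3200020164) (nat_lit 1444) (nat_lit 843897682) (nat_lit 1520) (nat_lit 3151887458) (nat_lit 604) (nat_lit 5) (nat_lit 623) (nat_lit 5) (nat_lit 624) (nat_lit 5) (nat_lit 414) (nat_lit 381) (nat_lit 345)) (XT.lf (nat_lit 0) (nat_lit 592503513) (nat_lit 1520) (nat_lit 6007803207) (nat_lit 1596) (nat_lit 640102238) (nat_lit 584) (nat_lit 5) (nat_lit 604) (nat_lit 5) (nat_lit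 605) (nat_lit 5) (nat_lit 415) (nat_lit 381) (nat_lit 344))))) (XT.nd (nat_lit 312) (nat_lit 4788) (nat_lit 0) (XT.nd (nat_lit 156) (nat_lit 1748) (nat_lit 0) (XT.nd (nat_lit 78) (nat_lit 1596) (nat_lit 0) (XT.lf (nat_lit 0) (nat_lit 1879144313) (nat_lit 1596) (nat_lit 2021541162) (nat_lit 76) (nat_lit 3385321005) (nat_lit 583) (nat_lit 5) (nat_lit 604) (nat_lit 5) (nat_lit 584) (nat_lit 5) (nat_lit 416) (nat_lit 381) (nat_lit 343)) (XT.lf (nat_lit 0) (nat_lit 2684545162) (nat_lit 1596) (nat_lit 1723932638) (nat_lit 1672) (nat_lit 2924588072) (nat_lit 562) (nat_lit 5) (nat_lit 583) (nat_lit 5) (nat_lit 584) (nat_lit 5) (nat_lit 417) (nat_lit 381) (nat_lit 342))) (XT.nd (nat_lit 78) (nat_lit 76) (nat_lit 0) (XT.lf (nat_lit 0) (nat_lit 84669986) (nat_lit 1672) (nat_lit 6872705044) (nat_lit 1748) (nat_lit 424311878) (nat_lit 540) (nat_lit 5) (nat_lit 562) (nat_lit 5) (nat_lit 563) (nat_lit 5) (nat_lit 418) (nat_lit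 381) (nat_lit 341)) (XT.lf (nat_lit 0) (nat_lit 2092800558) (nat_lit 1748) (nat_lit 2525381787) (nat_lit 76) (nat_lit 2812927693) (nat_lit 539) (nat_lit 5) (nat_lit 562) (nat_lit 5) (nat_lit 540) (nat_lit 5) (nat_lit 419) (nat_lit 381) (nat_lit 340)))) (XT.nd (nat_lit 156) (nat_lit 3040) (nat_lit 0) (XT.nd (nat_lit 78) (nat_lit 0) (nat_lit 0) (XT.lf (nat_lit 0) (nat_lit 2325418279) (nat_lit 1748) (nat_lit 2297097937) (nat_lit 1824) (nat_lit 2859590470) (nat_lit 516) (nat_lit 5) (nat_lit 539) (nat_lit 5) (nat_lit 540) (nat_lit 5) (nat_lit 420) (nat_lit 381) (nat_lit 339)) (XT.lf (nat_lit 0) (nat_lit 7173840969) (nat_lit 1824) (nat_lit 271502909) (nat_lit 76) (nat_lit 89359095) (nat_lit 516) (nat_lit 5) (nat_lit 540) (nat_lit 5) (nat_lit 517) (nat_lit 5) (nat_lit 421) (nat_lit 381) (nat_lit 338))) (XT.nd (nat_lit 78) (nat_lit 1140) (nat_lit 0) (XT.lf (nat_lit 0) (nat_lit 2159379876) (nat_lit 1900) (nat_lit 2888291844)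 (nat_lit 76) (nat_lit 2540390710) (nat_lit 491) (nat_lit 5) (nat_lit 516) (nat_lit 5) (nat_lit 492) (nat_lit 5) (nat_lit 422) (nat_lit 381) (nat_lit 337)) (XT.lf (nat_lit 0) (nat_lit 2112952204) (nat_lit 1140) (nat_lit 2582524124) (nat_lit 1216) (nat_lit 2947559409) (nat_lit 476) (nat_lit 5) (nat_lit 491) (nat_lit 5) (nat_lit 492) (nat_lit 5) (nat_lit 423) (nat_lit 381) (nat_lit 336)))))) (XT.nd (nat_lit 624) (nat_lit 4712) (nat_lit 0) (XT.nd (nat_lit 312) (nat_lit 2736) (nat_lit 0) (XT.nd (nat_lit 156) (nat_lit 912) (nat_lit 0) (XT.nd (nat_lit 78) (nat_lit 988) (nat_lit 0) (XT.lf (nat_lit 0) (nat_lit 7209607655) (nat_lit 1140) (nat_lit 47397098) (nat_lit 1216) (nat_lit 442609557) (nat_lit 476) (nat_lit 5) (nat_lit 491) (nat_lit 5) (nat_lit 492) (nat_lit 5) (nat_lit 424) (nat_lit 381) (nat_lit 335)) (XT.lf (nat_lit 0) (nat_lit 2087645718) (nat_lit 988) (nat_lit 3119392453) (nat_lit 76) (nat_lit 2549953747) (nat_lit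 463) (nat_lit 5) (nat_lit 476) (nat_lit 5) (nat_lit 464) (nat_lit 5) (nat_lit 425) (nat_lit 381) (nat_lit 334))) (XT.nd (nat_lit 78) (nat_lit 0) (nat_lit 0) (XT.lf (nat_lit 0) (nat_lit 2038336255) (nat_lit 912) (nat_lit 2597606728) (nat_lit 988) (nat_lit 3180048314) (nat_lit 451) (nat_lit 5) (nat_lit 463) (nat_lit 5) (nat_lit 464) (nat_lit 5) (nat_lit 426) (nat_lit 381) (nat_lit 333)) (XT.lf (nat_lit 0) (nat_lit 7213756069) (nat_lit 988) (nat_lit 579444207) (nat_lit 76) (nat_lit 83399389) (nat_lit 451) (nat_lit 5) (nat_lit 464) (nat_lit 5) (nat_lit 452) (nat_lit 5) (nat_lit 427) (nat_lit 381) (nat_lit 332)))) (XT.nd (nat_lit 156) (nat_lit 912) (nat_lit 0) (XT.nd (nat_lit 78) (nat_lit 912) (nat_lit 0) (XT.lf (nat_lit 0) (nat_lit 1885539868) (nat_lit 912) (nat_lit 3226995371) (nat_lit 76) (nat_lit 2825521326) (nat_lit 439) (nat_lit 5) (nat_lit 451) (nat_lit 5) (nat_lit 440) (nat_lit 5) (nat_lit 428) (nat_lit 381)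 (nat_lit 331)) (XT.lf (nat_lit 0) (nat_lit 2093574270) (nat_lit 912) (nat_lit 2358129249) (nat_lit 988) (nat_lit 3549437696) (nat_lit 427) (nat_lit 5) (nat_lit 439) (nat_lit 5) (nat_lit 440) (nat_lit 5) (nat_lit 429) (nat_lit 381) (nat_lit 330))) (XT.nd (nat_lit 78) (nat_lit 912) (nat_lit 0) (XT.lf (nat_lit 0) (nat_lit 7052612142) (nat_lit 988) (nat_lit 548384827) (nat_lit 76) (nat_lit 464822155) (nat_lit 427) (nat_lit 5) (nat_lit 440) (nat_lit 5) (nat_lit 428) (nat_lit 5) (nat_lit 430) (nat_lit 381) (nat_lit 329)) (XT.lf (nat_lit 0) (nat_lit 1560239876) (nat_lit 912) (nat_lit 3218660965) (nat_lit 76) (nat_lit 3352542763) (nat_lit 415) (nat_lit 5) (nat_lit 427) (nat_lit 5) (nat_lit 416) (nat_lit 5) (nat_lit 431) (nat_lit 381) (nat_lit 328))))) (XT.nd (nat_lit 312) (nat_lit 2280) (nat_lit 0) (XT.nd (nat_lit 156) (nat_lit 1596) (nat_lit 0) (XT.nd (nat_lit 78) (nat_lit 0) (nat_lit 0) (XT.lf (nat_lit 0) (nat_lit 2271427432)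 (nat_lit 836) (nat_lit 1878376372) (nat_lit 912) (nat_lit 4048878524) (nat_lit 404) (nat_lit 5) (nat_lit 415) (nat_lit 5) (nat_lit 416) (nat_lit 5) (nat_lit 432) (nat_lit 381) (nat_lit 327)) (XT.lf (nat_lit 0) (nat_lit 6780145004) (nat_lit 912) (nat_lit 403451558) (nat_lit 76) (nat_lit 1083889545) (nat_lit 404) (nat_lit 5) (nat_lit 416) (nat_lit 5) (nat_lit 405) (nat_lit 5) (nat_lit 433) (nat_lit 381) (nat_lit 326))) (XT.nd (nat_lit 78) (nat_lit 760) (nat_lit 0) (XT.lf (nat_lit 0) (nat_lit 1118211891) (nat_lit 836) (nat_lit 3101251606) (nat_lit 76) (nat_lit 4117905426) (nat_lit 393) (nat_lit 5) (nat_lit 404) (nat_lit 5) (nat_lit 394) (nat_lit 5) (nat_lit 434) (nat_lit 381) (nat_lit 325)) (XT.lf (nat_lit 0) (nat_lit 2565361658) (nat_lit 760) (nat_lit 1171238134) (nat_lit 836) (nat_lit 4672240188) (nat_lit 383) (nat_lit 5) (nat_lit 393) (nat_lit 5) (nat_lit 394) (nat_lit 5) (nat_lit 435) (nat_lit 381) (nat_lit 324))))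 (XT.nd (nat_lit 156) (nat_lit 1444) (nat_lit 0) (XT.nd (nat_lit 78) (nat_lit 836) (nat_lit 0) (XT.lf (nat_lit 0) (nat_lit 6402570148) (nat_lit 836) (nat_lit 150909906) (nat_lit 76) (nat_lit 1928356110) (nat_lit 383) (nat_lit 5) (nat_lit 394) (nat_lit 5) (nat_lit 384) (nat_lit 5) (nat_lit 436) (nat_lit 381) (nat_lit 323)) (XT.lf (nat_lit 0) (nat_lit 565259228) (nat_lit 836) (nat_lit 2880980822) (nat_lit 76) (nat_lit 5109836599) (nat_lit 372) (nat_lit 5) (nat_lit 383) (nat_lit 5) (nat_lit 373) (nat_lit 5) (nat_lit 437) (nat_lit 381) (nat_lit 322))) (XT.nd (nat_lit 78) (nat_lit 684) (nat_lit 0) (XT.lf (nat_lit 0) (nat_lit 2969499219) (nat_lit 760) (nat_lit 248305704) (nat_lit 836) (nat_lit 5414062716) (nat_lit 362) (nat_lit 5) (nat_lit 372) (nat_lit 5) (nat_lit 373) (nat_lit 5) (nat_lit 438) (nat_lit 381) (nat_lit 321)) (XT.lf (nat_lit 0) (nat_lit 206299541) (nat_lit 684) (nat_lit 5720524674) (nat_lit 760) (nat_lit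 2782281779) (nat_lit 353) (nat_lit 5) (nat_lit 362) (nat_lit 5) (nat_lit 363) (nat_lit 5) (nat_lit 439) (nat_lit 381) (nat_lit 320))))))))
noncomputable def xc33 : XT := (XT.nd (nat_lit 55770) (nat_lit 0) (nat_lit 16568) (XT.nd (nat_lit 1248) (nat_lit 1140) (nat_lit 0) (XT.nd (nat_lit 624) (nat_lit 3572) (nat_lit 0) (XT.nd (nat_lit 312) (nat_lit 2052) (nat_lit 0) (XT.nd (nat_lit 156) (nat_lit 684) (nat_lit 0) (XT.nd (nat_lit 78) (nat_lit 760) (nat_lit 0) (XT.lf (nat_lit 0) (nat_lit 6223753343) (nat_lit 684) (nat_lit 2469398540) (nat_lit 760) (nat_lit 94674675) (nat_lit 353) (nat_lit 5) (nat_lit 362) (nat_lit 5) (nat_lit 363) (nat_lit 5) (nat_lit 440) (nat_lit 381) (nat_lit 319)) (XT.lf (nat_lit 0) (nat_lit 2604247517) (nat_lit 760) (nat_lit 5395186158) (nat_lit 76) (nat_lit 868498682) (nat_lit 343) (nat_lit 5) (nat_lit 353) (nat_lit 5) (nat_lit 344) (nat_lit 5) (nat_lit 441) (nat_lit 381) (nat_lit 318))) (XT.nd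 (nat_lit 78) (nat_lit 0) (nat_lit 0) (XT.lf (nat_lit 0) (nat_lit 663695020) (nat_lit 684) (nat_lit 4694524240) (nat_lit 760) (nat_lit 3591361720) (nat_lit 334) (nat_lit 5) (nat_lit 343) (nat_lit 5) (nat_lit 344) (nat_lit 5) (nat_lit 442) (nat_lit 381) (nat_lit 317)) (XT.lf (nat_lit 0) (nat_lit 6873496908) (nat_lit 684) (nat_lit 1294749888) (nat_lit 760) (nat_lit 864596253) (nat_lit 334) (nat_lit 5) (nat_lit 343) (nat_lit 5) (nat_lit 344) (nat_lit 5) (nat_lit 443) (nat_lit 381) (nat_lit 316)))) (XT.nd (nat_lit 156) (nat_lit 684) (nat_lit 0) (XT.nd (nat_lit 78) (nat_lit 608) (nat_lit 0) (XT.lf (nat_lit 0) (nat_lit 1897655149) (nat_lit 760) (nat_lit 5044107297) (nat_lit 76) (nat_lit 2175637253) (nat_lit 324) (nat_lit 5) (nat_lit 334) (nat_lit 5) (nat_lit 325) (nat_lit 5) (nat_lit 444) (nat_lit 381) (nat_lit 315)) (XT.lf (nat_lit 0) (nat_lit 1214679624) (nat_lit 608) (nat_lit 3485537071) (nat_lit 684) (nat_lit 4503383645)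 (nat_lit 316) (nat_lit 5) (nat_lit 324) (nat_lit 5) (nat_lit 325) (nat_lit 5) (nat_lit 445) (nat_lit 381) (nat_lit 314))) (XT.nd (nat_lit 78) (nat_lit 684) (nat_lit 0) (XT.lf (nat_lit 0) (nat_lit 7559081143) (nat_lit 684) (nat_lit 1668002070) (nat_lit 76) (nat_lit 64436747) (nat_lit 316) (nat_lit 5) (nat_lit 325) (nat_lit 5) (nat_lit 317) (nat_lit 5) (nat_lit 446) (nat_lit 381) (nat_lit 313)) (XT.lf (nat_lit 0) (nat_lit 1100395845) (nat_lit 684) (nat_lit 4611964255) (nat_lit 76) (nat_lit 3668279465) (nat_lit 307) (nat_lit 5) (nat_lit 316) (nat_lit 5) (nat_lit 308) (nat_lit 5) (nat_lit 447) (nat_lit 381) (nat_lit 312))))) (XT.nd (nat_lit 312) (nat_lit 1748) (nat_lit 0) (XT.nd (nat_lit 156) (nat_lit 1216) (nat_lit 0) (XT.nd (nat_lit 78) (nat_lit 0) (nat_lit 0) (XT.lf (nat_lit 0) (nat_lit 1855171055) (nat_lit 608) (nat_lit 2101601510) (nat_lit 684) (nat_lit 5514738312) (nat_lit 299) (nat_lit 5) (nat_lit 307) (nat_lit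 5) (nat_lit 308) (nat_lit 5) (nat_lit 448) (nat_lit 381) (nat_lit 311)) (XT.lf (nat_lit 0) (nat_lit 6878757398) (nat_lit 684) (nat_lit 1103189679) (nat_lit 76) (nat_lit 1582082929) (nat_lit 299) (nat_lit 5) (nat_lit 308) (nat_lit 5) (nat_lit 300) (nat_lit 5) (nat_lit 449) (nat_lit 381) (nat_lit 310))) (XT.nd (nat_lit 78) (nat_lit 532) (nat_lit 0) (XT.lf (nat_lit 0) (nat_lit 215967690) (nat_lit 684) (nat_lit 4102736399) (nat_lit 76) (nat_lit 5339312984) (nat_lit 290) (nat_lit 5) (nat_lit 299) (nat_lit 5) (nat_lit 291) (nat_lit 5) (nat_lit 450) (nat_lit 381) (nat_lit 309)) (XT.lf (nat_lit 0) (nat_lit 2581562942) (nat_lit 532) (nat_lit 549814289) (nat_lit 608) (nat_lit 6622309652) (nat_lit 283) (nat_lit 5) (nat_lit 290) (nat_lit 5) (nat_lit 291) (nat_lit 5) (nat_lit 451) (nat_lit 381) (nat_lit 308)))) (XT.nd (nat_lit 156) (nat_lit 1140) (nat_lit 0) (XT.nd (nat_lit 78) (nat_lit 608) (nat_lit 0) (XT.lf (nat_lit 0) (nat_lit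 6122339172) (nat_lit 608) (nat_lit 460017879) (nat_lit 76) (nat_lit 3268568155) (nat_lit 283) (nat_lit 5) (nat_lit 291) (nat_lit 5) (nat_lit 284) (nat_lit 5) (nat_lit 452) (nat_lit 381) (nat_lit 307)) (XT.lf (nat_lit 0) (nat_lit 6424905633) (nat_lit 608) (nat_lit 2762335898) (nat_lit 684) (nat_lit 762584340) (nat_lit 275) (nat_lit 5) (nat_lit 283) (nat_lit 5) (nat_lit 284) (nat_lit 5) (nat_lit 453) (nat_lit 381) (nat_lit 306))) (XT.nd (nat_lit 78) (nat_lit 532) (nat_lit 0) (XT.lf (nat_lit 0) (nat_lit 2234640073) (nat_lit 608) (nat_lit 6667390730) (nat_lit 76) (nat_lit 1148348345) (nat_lit 267) (nat_lit 5) (nat_lit 275) (nat_lit 5) (nat_lit 268) (nat_lit 5) (nat_lit 454) (nat_lit 381) (nat_lit 305)) (XT.lf (nat_lit 0) (nat_lit 261850509) (nat_lit 532) (nat_lit 5032728689) (nat_lit 608) (nat_lit 4858003854) (nat_lit 260) (nat_lit 5) (nat_lit 267) (nat_lit 5) (nat_lit 268) (nat_lit 5) (nat_lit 455) (nat_lit 381) (nat_lit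 304)))))) (XT.nd (nat_lit 53898) (nat_lit 0) (nat_lit 40660) (XT.nd (nat_lit 53586) (nat_lit 0) (nat_lit 42028) (XT.nd (nat_lit 156) (nat_lit 532) (nat_lit 0) (XT.nd (nat_lit 78) (nat_lit 608) (nat_lit 0) (XT.lf (nat_lit 0) (nat_lit 7377884808) (nat_lit 532) (nat_lit 1052072010) (nat_lit 608) (nat_lit 1826589422) (nat_lit 260) (nat_lit 5) (nat_lit 267) (nat_lit 5) (nat_lit 268) (nat_lit 5) (nat_lit 456) (nat_lit 381) (nat_lit 303)) (XT.lf (nat_lit 0) (nat_lit 1266236211) (nat_lit 608) (nat_lit 6102342328) (nat_lit 76) (nat_lit 2993498238) (nat_lit 252) (nat_lit 5) (nat_lit 260) (nat_lit 5) (nat_lit 253) (nat_lit 5) (nat_lit 457) (nat_lit 381) (nat_lit 302))) (XT.nd (nat_lit 78) (nat_lit 0) (nat_lit 0) (XT.lf (nat_lit 0) (nat_lit 1063353555) (nat_lit 532) (nat_lit 3336589414) (nat_lit 608) (nat_lit 6069463828) (nat_lit 245) (nat_lit 5) (nat_lit 252) (nat_lit 5) (nat_lit 253) (nat_lit 5) (nat_lit 458) (nat_lit 381)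 (nat_lit 301)) (XT.lf (nat_lit 0) (nat_lit 7612962297) (nat_lit 608) (nat_lit 2170515841) (nat_lit 76) (nat_lit 795072512) (nat_lit 245) (nat_lit 5) (nat_lit 253) (nat_lit 5) (nat_lit 246) (nat_lit 5) (nat_lit 459) (nat_lit 381) (nat_lit 300)))) (XT.nd (nat_lit 156) (nat_lit 304) (nat_lit 0) (XT.nd (nat_lit 78) (nat_lit 228) (nat_lit 0) (XT.lf (nat_lit 0) (nat_lit 3032947267) (nat_lit 228) (nat_lit 96021884) (nat_lit 228) (nat_lit 96021884) (nat_lit 805) (nat_lit 3) (nat_lit 808) (nat_lit 3) (nat_lit 808) (nat_lit 5) (nat_lit 382) (nat_lit 382) (nat_lit 376)) (XT.lf (nat_lit 0) (nat_lit 2632867542) (nat_lit 228) (nat_lit 3398632489) (nat_lit 304) (nat_lit 422718070) (nat_lit 802) (nat_lit 5) (nat_lit 805) (nat_lit 3) (nat_lit 806) (nat_lit 5) (nat_lit 383) (nat_lit 382) (nat_lit 375))) (XT.nd (nat_lit 78) (nat_lit 304) (nat_lit 0) (XT.lf (nat_lit 0) (nat_lit 5627480949) (nat_lit 228) (nat_lit 131681497) (nat_lit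 304) (nat_lit 700876387) (nat_lit 802) (nat_lit 5) (nat_lit 805) (nat_lit 3) (nat_lit 806) (nat_lit 5) (nat_lit 384) (nat_lit 382) (nat_lit 374)) (XT.lf (nat_lit 0) (nat_lit 2130068738) (nat_lit 304) (nat_lit 3279091519) (nat_lit 380) (nat_lit 1057665535) (nat_lit 798) (nat_lit 5) (nat_lit 802) (nat_lit 5) (nat_lit 803) (nat_lit 5) (nat_lit 385) (nat_lit 382) (nat_lit 373))))) (XT.nd (nat_lit 312) (nat_lit 532) (nat_lit 0) (XT.nd (nat_lit 156) (nat_lit 456) (nat_lit 0) (XT.nd (nat_lit 78) (nat_lit 380) (nat_lit 0) (XT.lf (nat_lit 76) (nat_lit 55474784) (nat_lit 0) (nat_lit 5010041526) (nat_lit 380) (nat_lit 1409627791) (nat_lit 799) (nat_lit 5) (nat_lit 798) (nat_lit 5) (nat_lit 803) (nat_lit 5) (nat_lit 386) (nat_lit 382) (nat_lit 372)) (XT.lf (nat_lit 0) (nat_lit 1501715945) (nat_lit 380) (nat_lit 3034447157) (nat_lit 456) (nat_lit 1948334179) (nat_lit 793) (nat_lit 5) (nat_lit 798) (nat_lit 5) (nat_lit 799)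 (nat_lit 5) (nat_lit 387) (nat_lit 382) (nat_lit 371))) (XT.nd (nat_lit 78) (nat_lit 456) (nat_lit 0) (XT.lf (nat_lit 76) (nat_lit 372796807) (nat_lit 0) (nat_lit 4007731189) (nat_lit 456) (nat_lit 2114760849) (nat_lit 794) (nat_lit 5) (nat_lit 793) (nat_lit 5) (nat_lit 799) (nat_lit 5) (nat_lit 388) (nat_lit 382) (nat_lit 370)) (XT.lf (nat_lit 0) (nat_lit 746871486) (nat_lit 456) (nat_lit 2663912200) (nat_lit 532) (nat_lit 3096469636) (nat_lit 787) (nat_lit 5) (nat_lit 793) (nat_lit 5) (nat_lit 794) (nat_lit 5) (nat_lit 389) (nat_lit 382) (nat_lit 369)))) (XT.nd (nat_lit 156) (nat_lit 532) (nat_lit 0) (XT.nd (nat_lit 78) (nat_lit 0) (nat_lit 0) (XT.lf (nat_lit 76) (nat_lit 819460331) (nat_lit 0) (nat_lit 2751135139) (nat_lit 532) (nat_lit 2949918532) (nat_lit 788) (nat_lit 5) (nat_lit 787) (nat_lit 5) (nat_lit 794) (nat_lit 5) (nat_lit 390) (nat_lit 382) (nat_lit 368)) (XT.lf (nat_lit 76) (nat_lit 4367759645)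 (nat_lit 0) (nat_lit 2029889139) (nat_lit 532) (nat_lit 137454017) (nat_lit 788) (nat_lit 5) (nat_lit 787) (nat_lit 5) (nat_lit 794) (nat_lit 5) (nat_lit 391) (nat_lit 382) (nat_lit 367))) (XT.nd (nat_lit 78) (nat_lit 0) (nat_lit 0) (XT.lf (nat_lit 76) (nat_lit 1396644498) (nat_lit 0) (nat_lit 1237772322) (nat_lit 608) (nat_lit 3916432331) (nat_lit 781) (nat_lit 5) (nat_lit 780) (nat_lit 5) (nat_lit 788) (nat_lit 5) (nat_lit 392) (nat_lit 382) (nat_lit 366)) (XT.lf (nat_lit 76) (nat_lit 5019656873) (nat_lit 0) (nat_lit 385787478) (nat_lit 608) (nat_lit 1162536711) (nat_lit 781) (nat_lit 5) (nat_lit 780) (nat_lit 5) (nat_lit 788) (nat_lit 5) (nat_lit 393) (nat_lit 382) (nat_lit 365))))))) (XT.nd (nat_lit 1248) (nat_lit 14972) (nat_lit 0) (XT.nd (nat_lit 624) (nat_lit 5472) (nat_lit 0) (XT.nd (nat_lit 312) (nat_lit 1748) (nat_lit 0) (XT.nd (nat_lit 156) (nat_lit 1368) (nat_lit 0) (XT.nd (nat_lit 78) (nat_lit 0) (nat_lit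 0) (XT.lf (nat_lit 0) (nat_lit 1573916180) (nat_lit 608) (nat_lit 4484021797) (nat_lit 76) (nat_lit 528322385) (nat_lit 773) (nat_lit 5) (nat_lit 781) (nat_lit 5) (nat_lit 774) (nat_lit 5) (nat_lit 394) (nat_lit 382) (nat_lit 364)) (XT.lf (nat_lit 0) (nat_lit 4295728096) (nat_lit 608) (nat_lit 810280805) (nat_lit 76) (nat_lit 1499818733) (nat_lit 773) (nat_lit 5) (nat_lit 781) (nat_lit 5) (nat_lit 774) (nat_lit 5) (nat_lit 395) (nat_lit 382) (nat_lit 363))) (XT.nd (nat_lit 78) (nat_lit 684) (nat_lit 0) (XT.lf (nat_lit 0) (nat_lit 393559478) (nat_lit 684) (nat_lit 3695124098) (nat_lit 76) (nat_lit 2537980310) (nat_lit 764) (nat_lit 5) (nat_lit 773) (nat_lit 5) (nat_lit 765) (nat_lit 5) (nat_lit 396) (nat_lit 382) (nat_lit 362)) (XT.lf (nat_lit 0) (nat_lit 54929856) (nat_lit 684) (nat_lit 3006358605) (nat_lit 760) (nat_lit 3587504427) (nat_lit 755) (nat_lit 5) (nat_lit 764) (nat_lit 5) (nat_lit 765) (nat_lit 5) (nat_lit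 397) (nat_lit 382) (nat_lit 361)))) (XT.nd (nat_lit 156) (nat_lit 912) (nat_lit 0) (XT.nd (nat_lit 78) (nat_lit 836) (nat_lit 0) (XT.lf (nat_lit 0) (nat_lit 3888520329) (nat_lit 684) (nat_lit 1854721311) (nat_lit 760) (nat_lit 928905436) (nat_lit 755) (nat_lit 5) (nat_lit 764) (nat_lit 5) (nat_lit 765) (nat_lit 5) (nat_lit 398) (nat_lit 382) (nat_lit 360)) (XT.lf (nat_lit 0) (nat_lit 1063611585) (nat_lit 760) (nat_lit 639688815) (nat_lit 836) (nat_lit 4993560088) (nat_lit 744) (nat_lit 5) (nat_lit 754) (nat_lit 5) (nat_lit 755) (nat_lit 5) (nat_lit 399) (nat_lit 382) (nat_lit 359))) (XT.nd (nat_lit 78) (nat_lit 912) (nat_lit 0) (XT.lf (nat_lit 0) (nat_lit 4336436342) (nat_lit 836) (nat_lit 1749016381) (nat_lit 76) (nat_lit 637278164) (nat_lit 744) (nat_lit 5) (nat_lit 755) (nat_lit 5) (nat_lit 745) (nat_lit 5) (nat_lit 400) (nat_lit 382) (nat_lit 358)) (XT.lf (nat_lit 0) (nat_lit 226977289) (nat_lit 912) (nat_lit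 4555840881) (nat_lit 76) (nat_lit 1967116199) (nat_lit 732) (nat_lit 5) (nat_lit 744) (nat_lit 5) (nat_lit 733) (nat_lit 5) (nat_lit 401) (nat_lit 382) (nat_lit 357))))) (XT.nd (nat_lit 312) (nat_lit 3496) (nat_lit 0) (XT.nd (nat_lit 156) (nat_lit 1064) (nat_lit 0) (XT.nd (nat_lit 78) (nat_lit 912) (nat_lit 0) (XT.lf (nat_lit 0) (nat_lit 2812162995) (nat_lit 912) (nat_lit 595923292) (nat_lit 76) (nat_lit 3370248148) (nat_lit 732) (nat_lit 5) (nat_lit 744) (nat_lit 5) (nat_lit 733) (nat_lit 5) (nat_lit 402) (nat_lit 382) (nat_lit 356)) (XT.lf (nat_lit 0) (nat_lit 3446860570) (nat_lit 912) (nat_lit 1965508896) (nat_lit 988) (nat_lit 1395666695) (nat_lit 720) (nat_lit 5) (nat_lit 732) (nat_lit 5) (nat_lit 733) (nat_lit 5) (nat_lit 403) (nat_lit 382) (nat_lit 355))) (XT.nd (nat_lit 78) (nat_lit 0) (nat_lit 0) (XT.lf (nat_lit 0) (nat_lit 699468427) (nat_lit 988) (nat_lit 460706771) (nat_lit 1064) (nat_lit 5678997302)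 (nat_lit 706) (nat_lit 5) (nat_lit 719) (nat_lit 5) (nat_lit 720) (nat_lit 5) (nat_lit 404) (nat_lit 382) (nat_lit 354)) (XT.lf (nat_lit 0) (nat_lit 3720565409) (nat_lit 1064) (nat_lit 2042983594) (nat_lit 76) (nat_lit 1107755665) (nat_lit 706) (nat_lit 5) (nat_lit 720) (nat_lit 5) (nat_lit 707) (nat_lit 5) (nat_lit 405) (nat_lit 382) (nat_lit 353)))) (XT.nd (nat_lit 156) (nat_lit 2356) (nat_lit 0) (XT.nd (nat_lit 78) (nat_lit 76) (nat_lit 0) (XT.lf (nat_lit 0) (nat_lit 2118221184) (nat_lit 1064) (nat_lit 4174298128) (nat_lit 1140) (nat_lit 612353049) (nat_lit 692) (nat_lit 5) (nat_lit 706) (nat_lit 5) (nat_lit 707) (nat_lit 5) (nat_lit 406) (nat_lit 382) (nat_lit 352)) (XT.lf (nat_lit 0) (nat_lit 1908693492) (nat_lit 1140) (nat_lit 604065862) (nat_lit 76) (nat_lit 4426938987) (nat_lit 691) (nat_lit 5) (nat_lit 706) (nat_lit 5) (nat_lit 692) (nat_lit 5) (nat_lit 407) (nat_lit 382) (nat_lit 351))) (XT.nd (nat_lit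 78) (nat_lit 1216) (nat_lit 0) (XT.lf (nat_lit 0) (nat_lit 3664364454) (nat_lit 1140) (nat_lit 776512351) (nat_lit 1216) (nat_lit 2534884778) (nat_lit 676) (nat_lit 5) (nat_lit 691) (nat_lit 5) (nat_lit 692) (nat_lit 5) (nat_lit 408) (nat_lit 382) (nat_lit 350)) (XT.lf (nat_lit 0) (nat_lit 977525418) (nat_lit 1216) (nat_lit 6009066259) (nat_lit 1292) (nat_lit 26696654) (nat_lit 660) (nat_lit 5) (nat_lit 676) (nat_lit 5) (nat_lit 677) (nat_lit 5) (nat_lit 409) (nat_lit 382) (nat_lit 349)))))) (XT.nd (nat_lit 624) (nat_lit 7524) (nat_lit 0) (XT.nd (nat_lit 312) (nat_lit 4636) (nat_lit 0) (XT.nd (nat_lit 156) (nat_lit 1444) (nat_lit 0) (XT.nd (nat_lit 78) (nat_lit 1292) (nat_lit 0) (XT.lf (nat_lit 0) (nat_lit 2472397917) (nat_lit 1292) (nat_lit 1718863767) (nat_lit 76) (nat_lit 2860496270) (nat_lit 659) (nat_lit 5) (nat_lit 676) (nat_lit 5) (nat_lit 660) (nat_lit 5) (nat_lit 410) (nat_lit 382) (nat_lit 348)) (XT.lf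 (nat_lit 0) (nat_lit 2677022825) (nat_lit 1292) (nat_lit 2308960680) (nat_lit 1368) (nat_lit 2105712604) (nat_lit 642) (nat_lit 5) (nat_lit 659) (nat_lit 5) (nat_lit 660) (nat_lit 5) (nat_lit 411) (nat_lit 382) (nat_lit 347))) (XT.nd (nat_lit 78) (nat_lit 0) (nat_lit 0) (XT.lf (nat_lit 0) (nat_lit 6525992) (nat_lit 1368) (nat_lit 364960104) (nat_lit 1444) (nat_lit 6761701675) (nat_lit 623) (nat_lit 5) (nat_lit 641) (nat_lit 5) (nat_lit 642) (nat_lit 5) (nat_lit 412) (nat_lit 382) (nat_lit 346)) (XT.lf (nat_lit 0) (nat_lit 2859088893) (nat_lit 1444) (nat_lit 2667073173) (nat_lit 76) (nat_lit 1649287714) (nat_lit 623) (nat_lit 5) (nat_lit 642) (nat_lit 5) (nat_lit 624) (nat_lit 5) (nat_lit 413) (nat_lit 382) (nat_lit 345)))) (XT.nd (nat_lit 156) (nat_lit 3116) (nat_lit 0) (XT.nd (nat_lit 78) (nat_lit 76) (nat_lit 0) (XT.lf (nat_lit 0) (nat_lit 1861049431) (nat_lit 1444) (nat_lit 3499603915) (nat_lit 1520) (nat_lit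 1858619489) (nat_lit 604) (nat_lit 5) (nat_lit 623) (nat_lit 5) (nat_lit 624) (nat_lit 5) (nat_lit 414) (nat_lit 382) (nat_lit 344)) (XT.lf (nat_lit 0) (nat_lit 607882607) (nat_lit 1520) (nat_lit 795086088) (nat_lit 76) (nat_lit 5861557314) (nat_lit 603) (nat_lit 5) (nat_lit 623) (nat_lit 5) (nat_lit 604) (nat_lit 5) (nat_lit 415) (nat_lit 382) (nat_lit 343))) (XT.nd (nat_lit 78) (nat_lit 1596) (nat_lit 0) (XT.lf (nat_lit 0) (nat_lit 3080020576) (nat_lit 1596) (nat_lit 3460601549) (nat_lit 76) (nat_lit 770192556) (nat_lit 583) (nat_lit 5) (nat_lit 604) (nat_lit 5) (nat_lit 584) (nat_lit 5) (nat_lit 416) (nat_lit 382) (nat_lit 342)) (XT.lf (nat_lit 0) (nat_lit 1204832469) (nat_lit 1596) (nat_lit 4371052501) (nat_lit 1672) (nat_lit 1782658485) (nat_lit 562) (nat_lit 5) (nat_lit 583) (nat_lit 5) (nat_lit 584) (nat_lit 5) (nat_lit 417) (nat_lit 382) (nat_lit 341))))) (XT.nd (nat_lit 312) (nat_lit 3952) (nat_lit 0)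 (XT.nd (nat_lit 156) (nat_lit 1824) (nat_lit 0) (XT.nd (nat_lit 78) (nat_lit 1672) (nat_lit 0) (XT.lf (nat_lit 0) (nat_lit 680598743) (nat_lit 1672) (nat_lit 1444339879) (nat_lit 76) (nat_lit 5282684830) (nat_lit 561) (nat_lit 5) (nat_lit 583) (nat_lit 5) (nat_lit 562) (nat_lit 5) (nat_lit 418) (nat_lit 382) (nat_lit 340)) (XT.lf (nat_lit 0) (nat_lit 3145437568) (nat_lit 1748) (nat_lit 4110368648) (nat_lit 76) (nat_lit 202119442) (nat_lit 539) (nat_lit 5) (nat_lit 562) (nat_lit 5) (nat_lit 540) (nat_lit 5) (nat_lit 419) (nat_lit 382) (nat_lit 339))) (XT.nd (nat_lit 78) (nat_lit 76) (nat_lit 0) (XT.lf (nat_lit 0) (nat_lit 697750524) (nat_lit 1748) (nat_lit 4943945578) (nat_lit 1824) (nat_lit 1867895346) (nat_lit 516) (nat_lit 5) (nat_lit 539) (nat_lit 5) (nat_lit 540) (nat_lit 5) (nat_lit 420) (nat_lit 382) (nat_lit 338)) (XT.lf (nat_lit 0) (nat_lit 599240305) (nat_lit 1824) (nat_lit 1951654854) (nat_lit 76) (nat_lit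 5011677046) (nat_lit 515) (nat_lit 5) (nat_lit 539) (nat_lit 5) (nat_lit 516) (nat_lit 5) (nat_lit 421) (nat_lit 382) (nat_lit 337)))) (XT.nd (nat_lit 156) (nat_lit 988) (nat_lit 0) (XT.nd (nat_lit 78) (nat_lit 1140) (nat_lit 0) (XT.lf (nat_lit 0) (nat_lit 2990009920) (nat_lit 1824) (nat_lit 75124693) (nat_lit 1900) (nat_lit 4551742486) (nat_lit 491) (nat_lit 5) (nat_lit 515) (nat_lit 5) (nat_lit 516) (nat_lit 5) (nat_lit 422) (nat_lit 382) (nat_lit 336)) (XT.lf (nat_lit 0) (nat_lit 330100500) (nat_lit 1140) (nat_lit 5237093211) (nat_lit 1216) (nat_lit 2105337443) (nat_lit 476) (nat_lit 5) (nat_lit 491) (nat_lit 5) (nat_lit 492) (nat_lit 5) (nat_lit 423) (nat_lit 382) (nat_lit 335))) (XT.nd (nat_lit 78) (nat_lit 912) (nat_lit 0) (XT.lf (nat_lit 0) (nat_lit 372546650) (nat_lit 1216) (nat_lit 2326479403) (nat_lit 76) (nat_lit 5030468278) (nat_lit 475) (nat_lit 5) (nat_lit 491) (nat_lit 5) (nat_lit 476) (nat_lit 5)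 (nat_lit 424) (nat_lit 382) (nat_lit 334)) (XT.lf (nat_lit 0) (nat_lit 2769531162) (nat_lit 912) (nat_lit 77053175) (nat_lit 988) (nat_lit 4941238380) (nat_lit 463) (nat_lit 5) (nat_lit 475) (nat_lit 5) (nat_lit 476) (nat_lit 5) (nat_lit 425) (nat_lit 382) (nat_lit 333))))))))
noncomputable def xc34 : XT := (XT.nd (nat_lit 2496) (nat_lit 532) (nat_lit 0) (XT.nd (nat_lit 1248) (nat_lit 6916) (nat_lit 0) (XT.nd (nat_lit 624) (nat_lit 4636) (nat_lit 0) (XT.nd (nat_lit 312) (nat_lit 2660) (nat_lit 0) (XT.nd (nat_lit 156) (nat_lit 836) (nat_lit 0) (XT.nd (nat_lit 78) (nat_lit 76) (nat_lit 0) (XT.lf (nat_lit 0) (nat_lit 93031180) (nat_lit 912) (nat_lit 5267607424) (nat_lit 988) (nat_lit 2486868353) (nat_lit 451) (nat_lit 5) (nat_lit 463) (nat_lit 5) (nat_lit 464) (nat_lit 5) (nat_lit 426) (nat_lit 382) (nat_lit 332)) (XT.lf (nat_lit 0) (nat_lit 8411670) (nat_lit 988) (nat_lit 2577440813) (nat_lit 76) (nat_lit 5322689440)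 (nat_lit 450) (nat_lit 5) (nat_lit 463) (nat_lit 5) (nat_lit 451) (nat_lit 5) (nat_lit 427) (nat_lit 382) (nat_lit 331))) (XT.nd (nat_lit 78) (nat_lit 0) (nat_lit 0) (XT.lf (nat_lit 0) (nat_lit 2497374402) (nat_lit 912) (nat_lit 5292976098) (nat_lit 76) (nat_lit 180576799) (nat_lit 439) (nat_lit 5) (nat_lit 451) (nat_lit 5) (nat_lit 440) (nat_lit 5) (nat_lit 428) (nat_lit 382) (nat_lit 330)) (XT.lf (nat_lit 0) (nat_lit 5029644606) (nat_lit 912) (nat_lit 21235772) (nat_lit 76) (nat_lit 2983809440) (nat_lit 439) (nat_lit 5) (nat_lit 451) (nat_lit 5) (nat_lit 440) (nat_lit 5) (nat_lit 429) (nat_lit 382) (nat_lit 329)))) (XT.nd (nat_lit 156) (nat_lit 836) (nat_lit 0) (XT.nd (nat_lit 78) (nat_lit 912) (nat_lit 0) (XT.lf (nat_lit 0) (nat_lit 5384230133) (nat_lit 912) (nat_lit 2223084974) (nat_lit 988) (nat_lit 492517381) (nat_lit 427) (nat_lit 5) (nat_lit 439) (nat_lit 5) (nat_lit 440) (nat_lit 5) (nat_lit 430) (nat_lit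 382) (nat_lit 328)) (XT.lf (nat_lit 0) (nat_lit 2025388798) (nat_lit 912) (nat_lit 5459577417) (nat_lit 76) (nat_lit 681397376) (nat_lit 415) (nat_lit 5) (nat_lit 427) (nat_lit 5) (nat_lit 416) (nat_lit 5) (nat_lit 431) (nat_lit 382) (nat_lit 327))) (XT.nd (nat_lit 78) (nat_lit 836) (nat_lit 0) (XT.lf (nat_lit 0) (nat_lit 4580670245) (nat_lit 912) (nat_lit 20599513) (nat_lit 76) (nat_lit 3633018207) (nat_lit 415) (nat_lit 5) (nat_lit 427) (nat_lit 5) (nat_lit 416) (nat_lit 5) (nat_lit 432) (nat_lit 382) (nat_lit 326)) (XT.lf (nat_lit 0) (nat_lit 5557827266) (nat_lit 836) (nat_lit 1626628456) (nat_lit 912) (nat_lit 1119167137) (nat_lit 404) (nat_lit 5) (nat_lit 415) (nat_lit 5) (nat_lit 416) (nat_lit 5) (nat_lit 433) (nat_lit 382) (nat_lit 325))))) (XT.nd (nat_lit 312) (nat_lit 2204) (nat_lit 0) (XT.nd (nat_lit 156) (nat_lit 836) (nat_lit 0) (XT.nd (nat_lit 78) (nat_lit 760) (nat_lit 0) (XT.lf (nat_lit 0) (nat_lit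 1436295408) (nat_lit 836) (nat_lit 5524563105) (nat_lit 76) (nat_lit 1413504587) (nat_lit 393) (nat_lit 5) (nat_lit 404) (nat_lit 5) (nat_lit 394) (nat_lit 5) (nat_lit 434) (nat_lit 382) (nat_lit 324)) (XT.lf (nat_lit 0) (nat_lit 88321403) (nat_lit 760) (nat_lit 3931467142) (nat_lit 836) (nat_lit 4426743507) (nat_lit 383) (nat_lit 5) (nat_lit 393) (nat_lit 5) (nat_lit 394) (nat_lit 5) (nat_lit 435) (nat_lit 382) (nat_lit 323))) (XT.nd (nat_lit 78) (nat_lit 836) (nat_lit 0) (XT.lf (nat_lit 0) (nat_lit 5845724110) (nat_lit 760) (nat_lit 808767920) (nat_lit 836) (nat_lit 1865661544) (nat_lit 383) (nat_lit 5) (nat_lit 393) (nat_lit 5) (nat_lit 394) (nat_lit 5) (nat_lit 436) (nat_lit 382) (nat_lit 322)) (XT.lf (nat_lit 0) (nat_lit 735607024) (nat_lit 836) (nat_lit 5494273929) (nat_lit 76) (nat_lit 2365294474) (nat_lit 372) (nat_lit 5) (nat_lit 383) (nat_lit 5) (nat_lit 373) (nat_lit 5) (nat_lit 437) (nat_lit 382) (nat_lit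 321)))) (XT.nd (nat_lit 156) (nat_lit 1444) (nat_lit 0) (XT.nd (nat_lit 78) (nat_lit 0) (nat_lit 0) (XT.lf (nat_lit 0) (nat_lit 300056683) (nat_lit 760) (nat_lit 3052634725) (nat_lit 836) (nat_lit 5318984233) (nat_lit 362) (nat_lit 5) (nat_lit 372) (nat_lit 5) (nat_lit 373) (nat_lit 5) (nat_lit 438) (nat_lit 382) (nat_lit 320)) (XT.lf (nat_lit 0) (nat_lit 6024233259) (nat_lit 836) (nat_lit 2508787371) (nat_lit 76) (nat_lit 216642916) (nat_lit 362) (nat_lit 5) (nat_lit 373) (nat_lit 5) (nat_lit 363) (nat_lit 5) (nat_lit 439) (nat_lit 382) (nat_lit 319))) (XT.nd (nat_lit 78) (nat_lit 760) (nat_lit 0) (XT.lf (nat_lit 0) (nat_lit 3454128067) (nat_lit 684) (nat_lit 5302211181) (nat_lit 760) (nat_lit 72729295) (nat_lit 353) (nat_lit 5) (nat_lit 362) (nat_lit 5) (nat_lit 363) (nat_lit 5) (nat_lit 440) (nat_lit 382) (nat_lit 318)) (XT.lf (nat_lit 0) (nat_lit 608913814) (nat_lit 684) (nat_lit 1975161575) (nat_lit 760) (nat_lit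 6325932697) (nat_lit 343) (nat_lit 5) (nat_lit 352) (nat_lit 5) (nat_lit 353) (nat_lit 5) (nat_lit 441) (nat_lit 382) (nat_lit 317)))))) (XT.nd (nat_lit 624) (nat_lit 3572) (nat_lit 0) (XT.nd (nat_lit 312) (nat_lit 1900) (nat_lit 0) (XT.nd (nat_lit 156) (nat_lit 760) (nat_lit 0) (XT.nd (nat_lit 78) (nat_lit 684) (nat_lit 0) (XT.lf (nat_lit 0) (nat_lit 5303613696) (nat_lit 760) (nat_lit 2259292036) (nat_lit 76) (nat_lit 1429439646) (nat_lit 343) (nat_lit 5) (nat_lit 353) (nat_lit 5) (nat_lit 344) (nat_lit 5) (nat_lit 442) (nat_lit 382) (nat_lit 316)) (XT.lf (nat_lit 0) (nat_lit 3899425990) (nat_lit 684) (nat_lit 4182253739) (nat_lit 760) (nat_lit 994566950) (nat_lit 334) (nat_lit 5) (nat_lit 343) (nat_lit 5) (nat_lit 344) (nat_lit 5) (nat_lit 443) (nat_lit 382) (nat_lit 315))) (XT.nd (nat_lit 78) (nat_lit 0) (nat_lit 0) (XT.lf (nat_lit 0) (nat_lit 1010024217) (nat_lit 684) (nat_lit 708194362) (nat_lit 760) (nat_lit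 7443625035) (nat_lit 324) (nat_lit 5) (nat_lit 333) (nat_lit 5) (nat_lit 334) (nat_lit 5) (nat_lit 444) (nat_lit 382) (nat_lit 314)) (XT.lf (nat_lit 0) (nat_lit 4491591960) (nat_lit 760) (nat_lit 1925405432) (nat_lit 76) (nat_lit 2831630626) (nat_lit 324) (nat_lit 5) (nat_lit 334) (nat_lit 5) (nat_lit 325) (nat_lit 5) (nat_lit 445) (nat_lit 382) (nat_lit 313)))) (XT.nd (nat_lit 156) (nat_lit 608) (nat_lit 0) (XT.nd (nat_lit 78) (nat_lit 684) (nat_lit 0) (XT.lf (nat_lit 0) (nat_lit 4437375754) (nat_lit 608) (nat_lit 2883477807) (nat_lit 684) (nat_lit 2016286135) (nat_lit 316) (nat_lit 5) (nat_lit 324) (nat_lit 5) (nat_lit 325) (nat_lit 5) (nat_lit 446) (nat_lit 382) (nat_lit 312)) (XT.lf (nat_lit 0) (nat_lit 763686367) (nat_lit 684) (nat_lit 7933297181) (nat_lit 76) (nat_lit 730444307) (nat_lit 307) (nat_lit 5) (nat_lit 316) (nat_lit 5) (nat_lit 308) (nat_lit 5) (nat_lit 447) (nat_lit 382) (nat_lit 311))) (XT.nd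 (nat_lit 78) (nat_lit 608) (nat_lit 0) (XT.lf (nat_lit 0) (nat_lit 3591879830) (nat_lit 684) (nat_lit 1511358314) (nat_lit 76) (nat_lit 4415624690) (nat_lit 307) (nat_lit 5) (nat_lit 316) (nat_lit 5) (nat_lit 308) (nat_lit 5) (nat_lit 448) (nat_lit 382) (nat_lit 310)) (XT.lf (nat_lit 0) (nat_lit 5064114141) (nat_lit 608) (nat_lit 1413442531) (nat_lit 684) (nat_lit 3134551450) (nat_lit 299) (nat_lit 5) (nat_lit 307) (nat_lit 5) (nat_lit 308) (nat_lit 5) (nat_lit 449) (nat_lit 382) (nat_lit 309))))) (XT.nd (nat_lit 312) (nat_lit 1748) (nat_lit 0) (XT.nd (nat_lit 156) (nat_lit 1140) (nat_lit 0) (XT.nd (nat_lit 78) (nat_lit 76) (nat_lit 0) (XT.lf (nat_lit 0) (nat_lit 2054566808) (nat_lit 608) (nat_lit 7373526466) (nat_lit 684) (nat_lit 278982118) (nat_lit 291) (nat_lit 5) (nat_lit 299) (nat_lit 5) (nat_lit 300) (nat_lit 5) (nat_lit 450) (nat_lit 382) (nat_lit 308)) (XT.lf (nat_lit 0) (nat_lit 2607722988) (nat_lit 684)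 (nat_lit 1020931685) (nat_lit 76) (nat_lit 6174774022) (nat_lit 290) (nat_lit 5) (nat_lit 299) (nat_lit 5) (nat_lit 291) (nat_lit 5) (nat_lit 451) (nat_lit 382) (nat_lit 307))) (XT.nd (nat_lit 78) (nat_lit 608) (nat_lit 0) (XT.lf (nat_lit 0) (nat_lit 5556471183) (nat_lit 608) (nat_lit 4126737442) (nat_lit 76) (nat_lit 218302668) (nat_lit 283) (nat_lit 5) (nat_lit 291) (nat_lit 5) (nat_lit 284) (nat_lit 5) (nat_lit 452) (nat_lit 382) (nat_lit 306)) (XT.lf (nat_lit 0) (nat_lit 2688778741) (nat_lit 608) (nat_lit 5893177844) (nat_lit 684) (nat_lit 1419243712) (nat_lit 275) (nat_lit 5) (nat_lit 283) (nat_lit 5) (nat_lit 284) (nat_lit 5) (nat_lit 453) (nat_lit 382) (nat_lit 305)))) (XT.nd (nat_lit 156) (nat_lit 1140) (nat_lit 0) (XT.nd (nat_lit 78) (nat_lit 532) (nat_lit 0) (XT.lf (nat_lit 0) (nat_lit 1541930124) (nat_lit 684) (nat_lit 457486652) (nat_lit 76) (nat_lit 8103315322) (nat_lit 274) (nat_lit 5) (nat_lit 283)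 (nat_lit 5) (nat_lit 275) (nat_lit 5) (nat_lit 454) (nat_lit 382) (nat_lit 304)) (XT.lf (nat_lit 0) (nat_lit 4569193438) (nat_lit 608) (nat_lit 3648152652) (nat_lit 76) (nat_lit 1988243430) (nat_lit 267) (nat_lit 5) (nat_lit 275) (nat_lit 5) (nat_lit 268) (nat_lit 5) (nat_lit 455) (nat_lit 382) (nat_lit 303))) (XT.nd (nat_lit 78) (nat_lit 608) (nat_lit 0) (XT.lf (nat_lit 0) (nat_lit 3398932716) (nat_lit 532) (nat_lit 4266833420) (nat_lit 608) (nat_lit 2644562671) (nat_lit 260) (nat_lit 5) (nat_lit 267) (nat_lit 5) (nat_lit 268) (nat_lit 5) (nat_lit 456) (nat_lit 382) (nat_lit 302)) (XT.lf (nat_lit 0) (nat_lit 178347235) (nat_lit 532) (nat_lit 219710268) (nat_lit 608) (nat_lit 10019126723) (nat_lit 252) (nat_lit 5) (nat_lit 259) (nat_lit 5) (nat_lit 260) (nat_lit 5) (nat_lit 457) (nat_lit 382) (nat_lit 301))))))) (XT.nd (nat_lit 54600) (nat_lit 0) (nat_lit 30096) (XT.nd (nat_lit 53976) (nat_lit 0) (nat_lit 39368)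 (XT.nd (nat_lit 53664) (nat_lit 0) (nat_lit 41116) (XT.nd (nat_lit 53508) (nat_lit 0) (nat_lit 41952) (XT.nd (nat_lit 78) (nat_lit 532) (nat_lit 0) (XT.lf (nat_lit 0) (nat_lit 3508942962) (nat_lit 608) (nat_lit 3106039382) (nat_lit 76) (nat_lit 3909988328) (nat_lit 252) (nat_lit 5) (nat_lit 260) (nat_lit 5) (nat_lit 253) (nat_lit 5) (nat_lit 458) (nat_lit 382) (nat_lit 300)) (XT.lf (nat_lit 0) (nat_lit 4182454960) (nat_lit 532) (nat_lit 2499504012) (nat_lit 608) (nat_lit 3952955618) (nat_lit 245) (nat_lit 5) (nat_lit 252) (nat_lit 5) (nat_lit 253) (nat_lit 5) (nat_lit 459) (nat_lit 382) (nat_lit 299))) (XT.nd (nat_lit 78) (nat_lit 380) (nat_lit 0) (XT.lf (nat_lit 0) (nat_lit 1400644220) (nat_lit 0) (nat_lit 1400644220) (nat_lit 228) (nat_lit 428335771) (nat_lit 802) (nat_lit 5) (nat_lit 802) (nat_lit 3) (nat_lit 805) (nat_lit 3) (nat_lit 383) (nat_lit 383) (nat_lit 374)) (XT.lf (nat_lit 0) (nat_lit 2063672652)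 (nat_lit 380) (nat_lit 422718070) (nat_lit 380) (nat_lit 3979211277) (nat_lit 797) (nat_lit 3) (nat_lit 802) (nat_lit 3) (nat_lit 802) (nat_lit 5) (nat_lit 384) (nat_lit 383) (nat_lit 373)))) (XT.nd (nat_lit 156) (nat_lit 456) (nat_lit 0) (XT.nd (nat_lit 78) (nat_lit 380) (nat_lit 0) (XT.lf (nat_lit 76) (nat_lit 2870168482) (nat_lit 0) (nat_lit 2102901446) (nat_lit 380) (nat_lit 1500057125) (nat_lit 798) (nat_lit 5) (nat_lit 797) (nat_lit 3) (nat_lit 802) (nat_lit 5) (nat_lit 385) (nat_lit 383) (nat_lit 372)) (XT.lf (nat_lit 0) (nat_lit 1367783309) (nat_lit 380) (nat_lit 295380106) (nat_lit 456) (nat_lit 4818908086) (nat_lit 792) (nat_lit 5) (nat_lit 797) (nat_lit 3) (nat_lit 798) (nat_lit 5) (nat_lit 386) (nat_lit 383) (nat_lit 371))) (XT.nd (nat_lit 78) (nat_lit 456) (nat_lit 0) (XT.lf (nat_lit 76) (nat_lit 3069675181) (nat_lit 0) (nat_lit 1148876152) (nat_lit 456) (nat_lit 2273532067) (nat_lit 793) (nat_lit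 5) (nat_lit 792) (nat_lit 5) (nat_lit 798) (nat_lit 5) (nat_lit 387) (nat_lit 383) (nat_lit 370)) (XT.lf (nat_lit 0) (nat_lit 544278626) (nat_lit 456) (nat_lit 40006252) (nat_lit 532) (nat_lit 5919361150) (nat_lit 786) (nat_lit 5) (nat_lit 792) (nat_lit 5) (nat_lit 793) (nat_lit 5) (nat_lit 388) (nat_lit 383) (nat_lit 369))))) (XT.nd (nat_lit 312) (nat_lit 1292) (nat_lit 0) (XT.nd (nat_lit 156) (nat_lit 532) (nat_lit 0) (XT.nd (nat_lit 78) (nat_lit 0) (nat_lit 0) (XT.lf (nat_lit 0) (nat_lit 3338388620) (nat_lit 456) (nat_lit 3115901537) (nat_lit 532) (nat_lit 61841476) (nat_lit 787) (nat_lit 5) (nat_lit 793) (nat_lit 5) (nat_lit 794) (nat_lit 5) (nat_lit 389) (nat_lit 383) (nat_lit 368)) (XT.lf (nat_lit 76) (nat_lit 341241175) (nat_lit 0) (nat_lit 5782738704) (nat_lit 532) (nat_lit 406175089) (nat_lit 788) (nat_lit 5) (nat_lit 787) (nat_lit 5) (nat_lit 794) (nat_lit 5) (nat_lit 390) (nat_lit 383) (nat_lit 367)))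 (XT.nd (nat_lit 78) (nat_lit 0) (nat_lit 0) (XT.lf (nat_lit 0) (nat_lit 2340032514) (nat_lit 532) (nat_lit 2691114210) (nat_lit 608) (nat_lit 1513978538) (nat_lit 780) (nat_lit 5) (nat_lit 787) (nat_lit 5) (nat_lit 788) (nat_lit 5) (nat_lit 391) (nat_lit 383) (nat_lit 366)) (XT.lf (nat_lit 76) (nat_lit 844854266) (nat_lit 0) (nat_lit 4227646123) (nat_lit 608) (nat_lit 1489105380) (nat_lit 781) (nat_lit 5) (nat_lit 780) (nat_lit 5) (nat_lit 788) (nat_lit 5) (nat_lit 392) (nat_lit 383) (nat_lit 365)))) (XT.nd (nat_lit 156) (nat_lit 684) (nat_lit 0) (XT.nd (nat_lit 78) (nat_lit 0) (nat_lit 0) (XT.lf (nat_lit 0) (nat_lit 1214501656) (nat_lit 608) (nat_lit 2139289812) (nat_lit 684) (nat_lit 3225455986) (nat_lit 772) (nat_lit 5) (nat_lit 780) (nat_lit 5) (nat_lit 781) (nat_lit 5) (nat_lit 393) (nat_lit 383) (nat_lit 364)) (XT.lf (nat_lit 76) (nat_lit 1479242398) (nat_lit 0) (nat_lit 2415881709) (nat_lit 684) (nat_lit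 2703063360) (nat_lit 773) (nat_lit 5) (nat_lit 772) (nat_lit 5) (nat_lit 781) (nat_lit 5) (nat_lit 394) (nat_lit 383) (nat_lit 363))) (XT.nd (nat_lit 78) (nat_lit 684) (nat_lit 0) (XT.lf (nat_lit 76) (nat_lit 5159389546) (nat_lit 0) (nat_lit 1418635281) (nat_lit 684) (nat_lit 40508136) (nat_lit 773) (nat_lit 5) (nat_lit 772) (nat_lit 5) (nat_lit 781) (nat_lit 5) (nat_lit 395) (nat_lit 383) (nat_lit 362)) (XT.lf (nat_lit 76) (nat_lit 2246106159) (nat_lit 0) (nat_lit 343859820) (nat_lit 760) (nat_lit 4049976898) (nat_lit 764) (nat_lit 5) (nat_lit 763) (nat_lit 5) (nat_lit 773) (nat_lit 5) (nat_lit 396) (nat_lit 383) (nat_lit 361)))))) (XT.nd (nat_lit 624) (nat_lit 5928) (nat_lit 0) (XT.nd (nat_lit 312) (nat_lit 1900) (nat_lit 0) (XT.nd (nat_lit 156) (nat_lit 760) (nat_lit 0) (XT.nd (nat_lit 78) (nat_lit 760) (nat_lit 0) (XT.lf (nat_lit 0) (nat_lit 5223592477) (nat_lit 684) (nat_lit 662571586) (nat_lit 76) (nat_lit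 776589864) (nat_lit 764) (nat_lit 5) (nat_lit 773) (nat_lit 5) (nat_lit 765) (nat_lit 5) (nat_lit 397) (nat_lit 383) (nat_lit 360)) (XT.lf (nat_lit 0) (nat_lit 1167824721) (nat_lit 760) (nat_lit 3552452638) (nat_lit 76) (nat_lit 1966384803) (nat_lit 754) (nat_lit 5) (nat_lit 764) (nat_lit 5) (nat_lit 755) (nat_lit 5) (nat_lit 398) (nat_lit 383) (nat_lit 359))) (XT.nd (nat_lit 78) (nat_lit 0) (nat_lit 0) (XT.lf (nat_lit 0) (nat_lit 258010126) (nat_lit 760) (nat_lit 3493987776) (nat_lit 836) (nat_lit 2959974048) (nat_lit 744) (nat_lit 5) (nat_lit 754) (nat_lit 5) (nat_lit 755) (nat_lit 5) (nat_lit 399) (nat_lit 383) (nat_lit 358)) (XT.lf (nat_lit 0) (nat_lit 4152343385) (nat_lit 760) (nat_lit 2198448672) (nat_lit 836) (nat_lit 387737129) (nat_lit 744) (nat_lit 5) (nat_lit 754) (nat_lit 5) (nat_lit 755) (nat_lit 5) (nat_lit 400) (nat_lit 383) (nat_lit 357)))) (XT.nd (nat_lit 156) (nat_lit 988) (nat_lit 0) (XT.nd (nat_lit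 78) (nat_lit 0) (nat_lit 0) (XT.lf (nat_lit 0) (nat_lit 1321259118) (nat_lit 836) (nat_lit 833836498) (nat_lit 912) (nat_lit 4611262086) (nat_lit 732) (nat_lit 5) (nat_lit 743) (nat_lit 5) (nat_lit 744) (nat_lit 5) (nat_lit 401) (nat_lit 383) (nat_lit 356)) (XT.lf (nat_lit 0) (nat_lit 4705628763) (nat_lit 912) (nat_lit 1500330677) (nat_lit 76) (nat_lit 589491378) (nat_lit 732) (nat_lit 5) (nat_lit 744) (nat_lit 5) (nat_lit 733) (nat_lit 5) (nat_lit 402) (nat_lit 383) (nat_lit 355))) (XT.nd (nat_lit 78) (nat_lit 0) (nat_lit 0) (XT.lf (nat_lit 0) (nat_lit 439400216) (nat_lit 988) (nat_lit 4318732427) (nat_lit 76) (nat_lit 2067657049) (nat_lit 719) (nat_lit 5) (nat_lit 732) (nat_lit 5) (nat_lit 720) (nat_lit 5) (nat_lit 403) (nat_lit 383) (nat_lit 354)) (XT.lf (nat_lit 0) (nat_lit 2943975905) (nat_lit 988) (nat_lit 296729009) (nat_lit 76) (nat_lit 3616699119) (nat_lit 719) (nat_lit 5) (nat_lit 732) (nat_lit 5) (nat_lit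 720) (nat_lit 5) (nat_lit 404) (nat_lit 383) (nat_lit 353))))) (XT.nd (nat_lit 312) (nat_lit 2660) (nat_lit 0) (XT.nd (nat_lit 156) (nat_lit 1140) (nat_lit 0) (XT.nd (nat_lit 78) (nat_lit 1140) (nat_lit 0) (XT.lf (nat_lit 0) (nat_lit 3815342780) (nat_lit 988) (nat_lit 1651788580) (nat_lit 1064) (nat_lit 1423149536) (nat_lit 706) (nat_lit 5) (nat_lit 719) (nat_lit 5) (nat_lit 720) (nat_lit 5) (nat_lit 405) (nat_lit 383) (nat_lit 352)) (XT.lf (nat_lit 0) (nat_lit 1055337847) (nat_lit 1140) (nat_lit 5869015306) (nat_lit 76) (nat_lit 256066) (nat_lit 691) (nat_lit 5) (nat_lit 706) (nat_lit 5) (nat_lit 692) (nat_lit 5) (nat_lit 406) (nat_lit 383) (nat_lit 351))) (XT.nd (nat_lit 78) (nat_lit 1140) (nat_lit 0) (XT.lf (nat_lit 0) (nat_lit 3541183021) (nat_lit 1140) (nat_lit 1711103904) (nat_lit 76) (nat_lit 1707612163) (nat_lit 691) (nat_lit 5) (nat_lit 706) (nat_lit 5) (nat_lit 692) (nat_lit 5) (nat_lit 407) (nat_lit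 383) (nat_lit 350)) (XT.lf (nat_lit 0) (nat_lit 2522052520) (nat_lit 1140) (nat_lit 3517259668) (nat_lit 1216) (nat_lit 957331223) (nat_lit 676) (nat_lit 5) (nat_lit 691) (nat_lit 5) (nat_lit 692) (nat_lit 5) (nat_lit 408) (nat_lit 383) (nat_lit 349)))) (XT.nd (nat_lit 156) (nat_lit 1368) (nat_lit 0) (XT.nd (nat_lit 78) (nat_lit 1216) (nat_lit 0) (XT.lf (nat_lit 0) (nat_lit 1491100018) (nat_lit 1216) (nat_lit 222417351) (nat_lit 76) (nat_lit 5321239749) (nat_lit 675) (nat_lit 5) (nat_lit 691) (nat_lit 5) (nat_lit 676) (nat_lit 5) (nat_lit 409) (nat_lit 383) (nat_lit 348)) (XT.lf (nat_lit 0) (nat_lit 3951248805) (nat_lit 1292) (nat_lit 2953231113) (nat_lit 76) (nat_lit 169515271) (nat_lit 659) (nat_lit 5) (nat_lit 676) (nat_lit 5) (nat_lit 660) (nat_lit 5) (nat_lit 410) (nat_lit 383) (nat_lit 347))) (XT.nd (nat_lit 78) (nat_lit 76) (nat_lit 0) (XT.lf (nat_lit 0) (nat_lit 1405456735) (nat_lit 1292) (nat_lit 5025634158)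 (nat_lit 1368) (nat_lit 683517319) (nat_lit 642) (nat_lit 5) (nat_lit 659) (nat_lit 5) (nat_lit 660) (nat_lit 5) (nat_lit 411) (nat_lit 383) (nat_lit 346)) (XT.lf (nat_lit 0) (nat_lit 1749700049) (nat_lit 1368) (nat_lit 1317994583) (nat_lit 76) (nat_lit 4088727146) (nat_lit 641) (nat_lit 5) (nat_lit 659) (nat_lit 5) (nat_lit 642) (nat_lit 5) (nat_lit 412) (nat_lit 383) (nat_lit 345))))))))
noncomputable def xc35 : XT := (XT.nd (nat_lit 1248) (nat_lit 8056) (nat_lit 0) (XT.nd (nat_lit 624) (nat_lit 7600) (nat_lit 0) (XT.nd (nat_lit 312) (nat_lit 3344) (nat_lit 0) (XT.nd (nat_lit 156) (nat_lit 1596) (nat_lit 0) (XT.nd (nat_lit 78) (nat_lit 1444) (nat_lit 0) (XT.lf (nat_lit 0) (nat_lit 3156821542) (nat_lit 1368) (nat_lit 1036035247) (nat_lit 1444) (nat_lit 3006715918) (nat_lit 623) (nat_lit 5) (nat_lit 641) (nat_lit 5) (nat_lit 642) (nat_lit 5) (nat_lit 413) (nat_lit 383) (nat_lit 344)) (XT.lf (nat_lit 0) (nat_lit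 452931051) (nat_lit 1444) (nat_lit 6201212993) (nat_lit 1520) (nat_lit 590057264) (nat_lit 604) (nat_lit 5) (nat_lit 623) (nat_lit 5) (nat_lit 624) (nat_lit 5) (nat_lit 414) (nat_lit 383) (nat_lit 343))) (XT.nd (nat_lit 78) (nat_lit 1520) (nat_lit 0) (XT.lf (nat_lit 0) (nat_lit 1835585000) (nat_lit 1520) (nat_lit 2257254302) (nat_lit 76) (nat_lit 3196934900) (nat_lit 603) (nat_lit 5) (nat_lit 623) (nat_lit 5) (nat_lit 604) (nat_lit 5) (nat_lit 415) (nat_lit 383) (nat_lit 342)) (XT.lf (nat_lit 0) (nat_lit 2353034257) (nat_lit 1520) (nat_lit 1916119959) (nat_lit 1596) (nat_lit 3067680033) (nat_lit 583) (nat_lit 5) (nat_lit 603) (nat_lit 5) (nat_lit 604) (nat_lit 5) (nat_lit 416) (nat_lit 383) (nat_lit 341)))) (XT.nd (nat_lit 156) (nat_lit 1672) (nat_lit 0) (XT.nd (nat_lit 78) (nat_lit 1672) (nat_lit 0) (XT.lf (nat_lit 0) (nat_lit 6721361379) (nat_lit 1596) (nat_lit 342555874) (nat_lit 76) (nat_lit 321518914) (nat_lit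 583) (nat_lit 5) (nat_lit 604) (nat_lit 5) (nat_lit 584) (nat_lit 5) (nat_lit 417) (nat_lit 383) (nat_lit 340)) (XT.lf (nat_lit 0) (nat_lit 1759021073) (nat_lit 1672) (nat_lit 3051466665) (nat_lit 76) (nat_lit 2624392994) (nat_lit 561) (nat_lit 5) (nat_lit 583) (nat_lit 5) (nat_lit 562) (nat_lit 5) (nat_lit 418) (nat_lit 383) (nat_lit 339))) (XT.nd (nat_lit 78) (nat_lit 0) (nat_lit 0) (XT.lf (nat_lit 0) (nat_lit 1699566238) (nat_lit 1672) (nat_lit 2489488253) (nat_lit 1748) (nat_lit 3296824555) (nat_lit 539) (nat_lit 5) (nat_lit 561) (nat_lit 5) (nat_lit 562) (nat_lit 5) (nat_lit 419) (nat_lit 383) (nat_lit 338)) (XT.lf (nat_lit 0) (nat_lit 6545667412) (nat_lit 1672) (nat_lit 97142241) (nat_lit 1748) (nat_lit 895585252) (nat_lit 539) (nat_lit 5) (nat_lit 561) (nat_lit 5) (nat_lit 562) (nat_lit 5) (nat_lit 420) (nat_lit 383) (nat_lit 337))))) (XT.nd (nat_lit 312) (nat_lit 2736) (nat_lit 0) (XT.nd (nat_lit 156) (nat_lit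 1216) (nat_lit 0) (XT.nd (nat_lit 78) (nat_lit 1824) (nat_lit 0) (XT.lf (nat_lit 0) (nat_lit 1529311408) (nat_lit 1824) (nat_lit 3710972637) (nat_lit 76) (nat_lit 2351555097) (nat_lit 515) (nat_lit 5) (nat_lit 539) (nat_lit 5) (nat_lit 516) (nat_lit 5) (nat_lit 421) (nat_lit 383) (nat_lit 336)) (XT.lf (nat_lit 0) (nat_lit 1186376430) (nat_lit 1824) (nat_lit 2775273898) (nat_lit 1900) (nat_lit 3685164817) (nat_lit 491) (nat_lit 5) (nat_lit 515) (nat_lit 5) (nat_lit 516) (nat_lit 5) (nat_lit 422) (nat_lit 383) (nat_lit 335))) (XT.nd (nat_lit 78) (nat_lit 1216) (nat_lit 0) (XT.lf (nat_lit 0) (nat_lit 6190515586) (nat_lit 1824) (nat_lit 233492159) (nat_lit 1900) (nat_lit 1279255488) (nat_lit 491) (nat_lit 5) (nat_lit 515) (nat_lit 5) (nat_lit 516) (nat_lit 5) (nat_lit 423) (nat_lit 383) (nat_lit 334)) (XT.lf (nat_lit 0) (nat_lit 1154863376) (nat_lit 1216) (nat_lit 4245252772) (nat_lit 76) (nat_lit 2360661613) (nat_lit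 475) (nat_lit 5) (nat_lit 491) (nat_lit 5) (nat_lit 476) (nat_lit 5) (nat_lit 424) (nat_lit 383) (nat_lit 333)))) (XT.nd (nat_lit 156) (nat_lit 1824) (nat_lit 0) (XT.nd (nat_lit 78) (nat_lit 0) (nat_lit 0) (XT.lf (nat_lit 0) (nat_lit 804288279) (nat_lit 912) (nat_lit 2790875836) (nat_lit 988) (nat_lit 4224616771) (nat_lit 463) (nat_lit 5) (nat_lit 475) (nat_lit 5) (nat_lit 476) (nat_lit 5) (nat_lit 425) (nat_lit 383) (nat_lit 332)) (XT.lf (nat_lit 0) (nat_lit 5970836797) (nat_lit 912) (nat_lit 100109065) (nat_lit 988) (nat_lit 1809284713) (nat_lit 463) (nat_lit 5) (nat_lit 475) (nat_lit 5) (nat_lit 476) (nat_lit 5) (nat_lit 426) (nat_lit 383) (nat_lit 331))) (XT.nd (nat_lit 78) (nat_lit 836) (nat_lit 0) (XT.lf (nat_lit 0) (nat_lit 643250464) (nat_lit 988) (nat_lit 4662990664) (nat_lit 76) (nat_lit 2635613592) (nat_lit 450) (nat_lit 5) (nat_lit 463) (nat_lit 5) (nat_lit 451) (nat_lit 5) (nat_lit 427) (nat_lit 383)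 (nat_lit 330)) (XT.lf (nat_lit 0) (nat_lit 544927091) (nat_lit 836) (nat_lit 2552081178) (nat_lit 912) (nat_lit 4907935925) (nat_lit 439) (nat_lit 5) (nat_lit 450) (nat_lit 5) (nat_lit 451) (nat_lit 5) (nat_lit 428) (nat_lit 383) (nat_lit 329)))))) (XT.nd (nat_lit 624) (nat_lit 3800) (nat_lit 0) (XT.nd (nat_lit 312) (nat_lit 2432) (nat_lit 0) (XT.nd (nat_lit 156) (nat_lit 836) (nat_lit 0) (XT.nd (nat_lit 78) (nat_lit 988) (nat_lit 0) (XT.lf (nat_lit 0) (nat_lit 5592806145) (nat_lit 912) (nat_lit 2192659634) (nat_lit 76) (nat_lit 283970381) (nat_lit 439) (nat_lit 5) (nat_lit 451) (nat_lit 5) (nat_lit 440) (nat_lit 5) (nat_lit 429) (nat_lit 383) (nat_lit 328)) (XT.lf (nat_lit 0) (nat_lit 1269181) (nat_lit 988) (nat_lit 4972131465) (nat_lit 76) (nat_lit 3161856680) (nat_lit 426) (nat_lit 5) (nat_lit 439) (nat_lit 5) (nat_lit 427) (nat_lit 5) (nat_lit 430) (nat_lit 383) (nat_lit 327))) (XT.nd (nat_lit 78) (nat_lit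 0) (nat_lit 0) (XT.lf (nat_lit 0) (nat_lit 400662293) (nat_lit 836) (nat_lit 2073178419) (nat_lit 912) (nat_lit 5728661265) (nat_lit 415) (nat_lit 5) (nat_lit 426) (nat_lit 5) (nat_lit 427) (nat_lit 5) (nat_lit 431) (nat_lit 383) (nat_lit 326)) (XT.lf (nat_lit 0) (nat_lit 4996509878) (nat_lit 912) (nat_lit 2370303602) (nat_lit 76) (nat_lit 904265116) (nat_lit 415) (nat_lit 5) (nat_lit 427) (nat_lit 5) (nat_lit 416) (nat_lit 5) (nat_lit 432) (nat_lit 383) (nat_lit 325)))) (XT.nd (nat_lit 156) (nat_lit 760) (nat_lit 0) (XT.nd (nat_lit 78) (nat_lit 836) (nat_lit 0) (XT.lf (nat_lit 0) (nat_lit 3156132091) (nat_lit 836) (nat_lit 4409793560) (nat_lit 912) (nat_lit 775175233) (nat_lit 404) (nat_lit 5) (nat_lit 415) (nat_lit 5) (nat_lit 416) (nat_lit 5) (nat_lit 433) (nat_lit 383) (nat_lit 324)) (XT.lf (nat_lit 0) (nat_lit 364554259) (nat_lit 760) (nat_lit 1367061614) (nat_lit 836) (nat_lit 6681063782) (nat_lit 393) (nat_lit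 5) (nat_lit 403) (nat_lit 5) (nat_lit 404) (nat_lit 5) (nat_lit 434) (nat_lit 383) (nat_lit 323))) (XT.nd (nat_lit 78) (nat_lit 760) (nat_lit 0) (XT.lf (nat_lit 0) (nat_lit 4287216391) (nat_lit 836) (nat_lit 2448348787) (nat_lit 76) (nat_lit 1749841282) (nat_lit 393) (nat_lit 5) (nat_lit 404) (nat_lit 5) (nat_lit 394) (nat_lit 5) (nat_lit 435) (nat_lit 383) (nat_lit 322)) (XT.lf (nat_lit 0) (nat_lit 3255828243) (nat_lit 760) (nat_lit 3631768077) (nat_lit 836) (nat_lit 1672118134) (nat_lit 383) (nat_lit 5) (nat_lit 393) (nat_lit 5) (nat_lit 394) (nat_lit 5) (nat_lit 436) (nat_lit 383) (nat_lit 321))))) (XT.nd (nat_lit 312) (nat_lit 1520) (nat_lit 0) (XT.nd (nat_lit 156) (nat_lit 1444) (nat_lit 0) (XT.nd (nat_lit 78) (nat_lit 0) (nat_lit 0) (XT.lf (nat_lit 0) (nat_lit 430305332) (nat_lit 760) (nat_lit 445326170) (nat_lit 836) (nat_lit 7760099283) (nat_lit 372) (nat_lit 5) (nat_lit 382) (nat_lit 5) (nat_lit 383) (nat_lit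 5) (nat_lit 437) (nat_lit 383) (nat_lit 320)) (XT.lf (nat_lit 0) (nat_lit 3470102330) (nat_lit 836) (nat_lit 2432863500) (nat_lit 76) (nat_lit 2809717441) (nat_lit 372) (nat_lit 5) (nat_lit 383) (nat_lit 5) (nat_lit 373) (nat_lit 5) (nat_lit 438) (nat_lit 383) (nat_lit 319))) (XT.nd (nat_lit 78) (nat_lit 684) (nat_lit 0) (XT.lf (nat_lit 0) (nat_lit 3456489935) (nat_lit 760) (nat_lit 2650164081) (nat_lit 836) (nat_lit 2684716963) (nat_lit 362) (nat_lit 5) (nat_lit 372) (nat_lit 5) (nat_lit 373) (nat_lit 5) (nat_lit 439) (nat_lit 383) (nat_lit 318)) (XT.lf (nat_lit 0) (nat_lit 587130132) (nat_lit 684) (nat_lit 8198574615) (nat_lit 760) (nat_lit 86132334) (nat_lit 353) (nat_lit 5) (nat_lit 362) (nat_lit 5) (nat_lit 363) (nat_lit 5) (nat_lit 440) (nat_lit 383) (nat_lit 317)))) (XT.nd (nat_lit 156) (nat_lit 760) (nat_lit 0) (XT.nd (nat_lit 78) (nat_lit 684) (nat_lit 0) (XT.lf (nat_lit 0) (nat_lit 2549753345) (nat_lit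 760) (nat_lit 2329354208) (nat_lit 76) (nat_lit 4074092708) (nat_lit 352) (nat_lit 5) (nat_lit 362) (nat_lit 5) (nat_lit 353) (nat_lit 5) (nat_lit 441) (nat_lit 383) (nat_lit 316)) (XT.lf (nat_lit 0) (nat_lit 3752954706) (nat_lit 684) (nat_lit 1474669941) (nat_lit 760) (nat_lit 3808746247) (nat_lit 343) (nat_lit 5) (nat_lit 352) (nat_lit 5) (nat_lit 353) (nat_lit 5) (nat_lit 442) (nat_lit 383) (nat_lit 315))) (XT.nd (nat_lit 78) (nat_lit 76) (nat_lit 0) (XT.lf (nat_lit 0) (nat_lit 824168460) (nat_lit 684) (nat_lit 7135352630) (nat_lit 760) (nat_lit 1161674494) (nat_lit 334) (nat_lit 5) (nat_lit 343) (nat_lit 5) (nat_lit 344) (nat_lit 5) (nat_lit 443) (nat_lit 383) (nat_lit 314)) (XT.lf (nat_lit 0) (nat_lit 1530202287) (nat_lit 760) (nat_lit 2142805047) (nat_lit 76) (nat_lit 5534268894) (nat_lit 333) (nat_lit 5) (nat_lit 343) (nat_lit 5) (nat_lit 334) (nat_lit 5) (nat_lit 444) (nat_lit 383) (nat_lit 313)))))))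
noncomputable def xc36 : XT := (XT.nd (nat_lit 54678) (nat_lit 0) (nat_lit 36480) (XT.nd (nat_lit 624) (nat_lit 2356) (nat_lit 0) (XT.nd (nat_lit 312) (nat_lit 1824) (nat_lit 0) (XT.nd (nat_lit 156) (nat_lit 684) (nat_lit 0) (XT.nd (nat_lit 78) (nat_lit 608) (nat_lit 0) (XT.lf (nat_lit 0) (nat_lit 4140591763) (nat_lit 684) (nat_lit 113907099) (nat_lit 760) (nat_lit 5040543305) (nat_lit 324) (nat_lit 5) (nat_lit 333) (nat_lit 5) (nat_lit 334) (nat_lit 5) (nat_lit 445) (nat_lit 383) (nat_lit 312)) (XT.lf (nat_lit 0) (nat_lit 1145675842) (nat_lit 608) (nat_lit 5899918190) (nat_lit 684) (nat_lit 2338723142) (nat_lit 316) (nat_lit 5) (nat_lit 324) (nat_lit 5) (nat_lit 325) (nat_lit 5) (nat_lit 446) (nat_lit 383) (nat_lit 311))) (XT.nd (nat_lit 78) (nat_lit 608) (nat_lit 0) (XT.lf (nat_lit 0) (nat_lit 414964203) (nat_lit 684) (nat_lit 1877714175) (nat_lit 76) (nat_lit 7182579105) (nat_lit 315) (nat_lit 5) (nat_lit 324)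 (nat_lit 5) (nat_lit 316) (nat_lit 5) (nat_lit 447) (nat_lit 383) (nat_lit 310)) (XT.lf (nat_lit 0) (nat_lit 3200015063) (nat_lit 684) (nat_lit 4961722708) (nat_lit 76) (nat_lit 1405817543) (nat_lit 307) (nat_lit 5) (nat_lit 316) (nat_lit 5) (nat_lit 308) (nat_lit 5) (nat_lit 448) (nat_lit 383) (nat_lit 309)))) (XT.nd (nat_lit 156) (nat_lit 1216) (nat_lit 0) (XT.nd (nat_lit 78) (nat_lit 0) (nat_lit 0) (XT.lf (nat_lit 0) (nat_lit 1547574389) (nat_lit 608) (nat_lit 4499774219) (nat_lit 684) (nat_lit 3614218859) (nat_lit 299) (nat_lit 5) (nat_lit 307) (nat_lit 5) (nat_lit 308) (nat_lit 5) (nat_lit 449) (nat_lit 383) (nat_lit 308)) (XT.lf (nat_lit 0) (nat_lit 8214069688) (nat_lit 608) (nat_lit 739874580) (nat_lit 684) (nat_lit 803469287) (nat_lit 299) (nat_lit 5) (nat_lit 307) (nat_lit 5) (nat_lit 308) (nat_lit 5) (nat_lit 450) (nat_lit 383) (nat_lit 307))) (XT.nd (nat_lit 78) (nat_lit 532) (nat_lit 0) (XT.lf (nat_lit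 0) (nat_lit 2059793792) (nat_lit 684) (nat_lit 4701888211) (nat_lit 76) (nat_lit 3092759379) (nat_lit 290) (nat_lit 5) (nat_lit 299) (nat_lit 5) (nat_lit 291) (nat_lit 5) (nat_lit 451) (nat_lit 383) (nat_lit 306)) (XT.lf (nat_lit 0) (nat_lit 2026226934) (nat_lit 532) (nat_lit 2941535019) (nat_lit 608) (nat_lit 4985577626) (nat_lit 283) (nat_lit 5) (nat_lit 290) (nat_lit 5) (nat_lit 291) (nat_lit 5) (nat_lit 452) (nat_lit 383) (nat_lit 305))))) (XT.nd (nat_lit 312) (nat_lit 1140) (nat_lit 0) (XT.nd (nat_lit 156) (nat_lit 532) (nat_lit 0) (XT.nd (nat_lit 78) (nat_lit 684) (nat_lit 0) (XT.lf (nat_lit 0) (nat_lit 7941829327) (nat_lit 608) (nat_lit 1147769091) (nat_lit 76) (nat_lit 964458526) (nat_lit 283) (nat_lit 5) (nat_lit 291) (nat_lit 5) (nat_lit 284) (nat_lit 5) (nat_lit 453) (nat_lit 383) (nat_lit 304)) (XT.lf (nat_lit 0) (nat_lit 835636432) (nat_lit 684) (nat_lit 4377818314) (nat_lit 76) (nat_lit 4942671954)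 (nat_lit 274) (nat_lit 5) (nat_lit 283) (nat_lit 5) (nat_lit 275) (nat_lit 5) (nat_lit 454) (nat_lit 383) (nat_lit 303))) (XT.nd (nat_lit 78) (nat_lit 0) (nat_lit 0) (XT.lf (nat_lit 0) (nat_lit 2578408045) (nat_lit 532) (nat_lit 1230982897) (nat_lit 608) (nat_lit 6450663354) (nat_lit 267) (nat_lit 5) (nat_lit 274) (nat_lit 5) (nat_lit 275) (nat_lit 5) (nat_lit 455) (nat_lit 383) (nat_lit 302)) (XT.lf (nat_lit 0) (nat_lit 6861519793) (nat_lit 608) (nat_lit 690948565) (nat_lit 76) (nat_lit 2813214102) (nat_lit 267) (nat_lit 5) (nat_lit 275) (nat_lit 5) (nat_lit 268) (nat_lit 5) (nat_lit 456) (nat_lit 383) (nat_lit 301)))) (XT.nd (nat_lit 156) (nat_lit 0) (nat_lit 0) (XT.nd (nat_lit 78) (nat_lit 608) (nat_lit 0) (XT.lf (nat_lit 0) (nat_lit 6477143200) (nat_lit 532) (nat_lit 3519269431) (nat_lit 608) (nat_lit 476576127) (nat_lit 260) (nat_lit 5) (nat_lit 267) (nat_lit 5) (nat_lit 268) (nat_lit 5) (nat_lit 457) (nat_lit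 383) (nat_lit 300)) (XT.lf (nat_lit 0) (nat_lit 2578467567) (nat_lit 608) (nat_lit 7384953017) (nat_lit 76) (nat_lit 618658348) (nat_lit 252) (nat_lit 5) (nat_lit 260) (nat_lit 5) (nat_lit 253) (nat_lit 5) (nat_lit 458) (nat_lit 383) (nat_lit 299))) (XT.nd (nat_lit 53508) (nat_lit 0) (nat_lit 41420) (XT.lf (nat_lit 0) (nat_lit 5710400202) (nat_lit 608) (nat_lit 170899700) (nat_lit 76) (nat_lit 4811544616) (nat_lit 252) (nat_lit 5) (nat_lit 260) (nat_lit 5) (nat_lit 253) (nat_lit 5) (nat_lit 459) (nat_lit 383) (nat_lit 298)) (XT.lf (nat_lit 0) (nat_lit 2467447967) (nat_lit 380) (nat_lit 384426527) (nat_lit 380) (nat_lit 384426527) (nat_lit 797) (nat_lit 3) (nat_lit 802) (nat_lit 3) (nat_lit 802) (nat_lit 5) (nat_lit 384) (nat_lit 384) (nat_lit 372)))))) (XT.nd (nat_lit 624) (nat_lit 2964) (nat_lit 0) (XT.nd (nat_lit 312) (nat_lit 1140) (nat_lit 0) (XT.nd (nat_lit 156) (nat_lit 456) (nat_lit 0) (XT.nd (nat_lit 78)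 (nat_lit 0) (nat_lit 0) (XT.lf (nat_lit 0) (nat_lit 1306468461) (nat_lit 380) (nat_lit 3989274122) (nat_lit 456) (nat_lit 1185003500) (nat_lit 792) (nat_lit 5) (nat_lit 797) (nat_lit 3) (nat_lit 798) (nat_lit 5) (nat_lit 385) (nat_lit 384) (nat_lit 371)) (XT.lf (nat_lit 0) (nat_lit 4117856864) (nat_lit 380) (nat_lit 710741921) (nat_lit 456) (nat_lit 1661632529) (nat_lit 792) (nat_lit 5) (nat_lit 797) (nat_lit 3) (nat_lit 798) (nat_lit 5) (nat_lit 386) (nat_lit 384) (nat_lit 370))) (XT.nd (nat_lit 78) (nat_lit 0) (nat_lit 0) (XT.lf (nat_lit 0) (nat_lit 423066513) (nat_lit 456) (nat_lit 3874191291) (nat_lit 532) (nat_lit 2203708033) (nat_lit 786) (nat_lit 5) (nat_lit 792) (nat_lit 5) (nat_lit 793) (nat_lit 5) (nat_lit 387) (nat_lit 384) (nat_lit 369)) (XT.lf (nat_lit 0) (nat_lit 3175352064) (nat_lit 456) (nat_lit 525828936) (nat_lit 532) (nat_lit 2811766386) (nat_lit 786) (nat_lit 5) (nat_lit 792) (nat_lit 5) (nat_lit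 793) (nat_lit 5) (nat_lit 388) (nat_lit 384) (nat_lit 368)))) (XT.nd (nat_lit 156) (nat_lit 608) (nat_lit 0) (XT.nd (nat_lit 78) (nat_lit 532) (nat_lit 0) (XT.lf (nat_lit 76) (nat_lit 2889214568) (nat_lit 0) (nat_lit 3041512872) (nat_lit 532) (nat_lit 595480243) (nat_lit 787) (nat_lit 5) (nat_lit 786) (nat_lit 5) (nat_lit 793) (nat_lit 5) (nat_lit 389) (nat_lit 384) (nat_lit 367)) (XT.lf (nat_lit 0) (nat_lit 2106121299) (nat_lit 532) (nat_lit 213150958) (nat_lit 608) (nat_lit 4221504722) (nat_lit 779) (nat_lit 5) (nat_lit 786) (nat_lit 5) (nat_lit 787) (nat_lit 5) (nat_lit 390) (nat_lit 384) (nat_lit 366))) (XT.nd (nat_lit 78) (nat_lit 608) (nat_lit 0) (XT.lf (nat_lit 76) (nat_lit 3280147901) (nat_lit 0) (nat_lit 1526276048) (nat_lit 608) (nat_lit 1750082138) (nat_lit 780) (nat_lit 5) (nat_lit 779) (nat_lit 5) (nat_lit 787) (nat_lit 5) (nat_lit 391) (nat_lit 384) (nat_lit 365)) (XT.lf (nat_lit 76) (nat_lit 231542740)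 (nat_lit 0) (nat_lit 678614468) (nat_lit 684) (nat_lit 5663565560) (nat_lit 772) (nat_lit 5) (nat_lit 771) (nat_lit 5) (nat_lit 780) (nat_lit 5) (nat_lit 392) (nat_lit 384) (nat_lit 364))))) (XT.nd (nat_lit 312) (nat_lit 2356) (nat_lit 0) (XT.nd (nat_lit 156) (nat_lit 684) (nat_lit 0) (XT.nd (nat_lit 78) (nat_lit 0) (nat_lit 0) (XT.lf (nat_lit 0) (nat_lit 3556788510) (nat_lit 608) (nat_lit 2789791284) (nat_lit 684) (nat_lit 245340212) (nat_lit 772) (nat_lit 5) (nat_lit 780) (nat_lit 5) (nat_lit 781) (nat_lit 5) (nat_lit 393) (nat_lit 384) (nat_lit 363)) (XT.lf (nat_lit 76) (nat_lit 800415736) (nat_lit 0) (nat_lit 5400195838) (nat_lit 684) (nat_lit 410984433) (nat_lit 773) (nat_lit 5) (nat_lit 772) (nat_lit 5) (nat_lit 781) (nat_lit 5) (nat_lit 394) (nat_lit 384) (nat_lit 362))) (XT.nd (nat_lit 78) (nat_lit 0) (nat_lit 0) (XT.lf (nat_lit 0) (nat_lit 2189947764) (nat_lit 684) (nat_lit 2185718292) (nat_lit 760) (nat_lit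 2256624938) (nat_lit 763) (nat_lit 5) (nat_lit 772) (nat_lit 5) (nat_lit 773) (nat_lit 5) (nat_lit 395) (nat_lit 384) (nat_lit 361)) (XT.lf (nat_lit 76) (nat_lit 1490017748) (nat_lit 0) (nat_lit 3293499843) (nat_lit 760) (nat_lit 1870905517) (nat_lit 764) (nat_lit 5) (nat_lit 763) (nat_lit 5) (nat_lit 773) (nat_lit 5) (nat_lit 396) (nat_lit 384) (nat_lit 360)))) (XT.nd (nat_lit 156) (nat_lit 1596) (nat_lit 0) (XT.nd (nat_lit 78) (nat_lit 0) (nat_lit 0) (XT.lf (nat_lit 0) (nat_lit 693886032) (nat_lit 760) (nat_lit 1452422655) (nat_lit 836) (nat_lit 4531555788) (nat_lit 753) (nat_lit 5) (nat_lit 763) (nat_lit 5) (nat_lit 764) (nat_lit 5) (nat_lit 397) (nat_lit 384) (nat_lit 359)) (XT.lf (nat_lit 76) (nat_lit 2312885401) (nat_lit 0) (nat_lit 925334370) (nat_lit 836) (nat_lit 3464241610) (nat_lit 754) (nat_lit 5) (nat_lit 753) (nat_lit 5) (nat_lit 764) (nat_lit 5) (nat_lit 398) (nat_lit 384) (nat_lit 358))) (XT.nd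 (nat_lit 78) (nat_lit 1672) (nat_lit 0) (XT.lf (nat_lit 0) (nat_lit 5784690882) (nat_lit 760) (nat_lit 596272407) (nat_lit 76) (nat_lit 347561924) (nat_lit 754) (nat_lit 5) (nat_lit 764) (nat_lit 5) (nat_lit 755) (nat_lit 5) (nat_lit 399) (nat_lit 384) (nat_lit 357)) (XT.nd (nat_lit 78) (nat_lit 836) (nat_lit 0) (XT.lf (nat_lit 0) (nat_lit 1573343215) (nat_lit 836) (nat_lit 3495619376) (nat_lit 76) (nat_lit 1686582454) (nat_lit 743) (nat_lit 5) (nat_lit 754) (nat_lit 5) (nat_lit 744) (nat_lit 5) (nat_lit 400) (nat_lit 384) (nat_lit 356)) (XT.lf (nat_lit 0) (nat_lit 377272161) (nat_lit 836) (nat_lit 3698519219) (nat_lit 912) (nat_lit 2708237819) (nat_lit 732) (nat_lit 5) (nat_lit 743) (nat_lit 5) (nat_lit 744) (nat_lit 5) (nat_lit 401) (nat_lit 384) (nat_lit 355))))))))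
noncomputable def xc37 : XT := (XT.nd (nat_lit 2496) (nat_lit 11552) (nat_lit 0) (XT.nd (nat_lit 1248) (nat_lit 13528) (nat_lit 0) (XT.nd (nat_lit 624) (nat_lit 7068) (nat_lit 0) (XT.nd (nat_lit 312) (nat_lit 2280) (nat_lit 0) (XT.nd (nat_lit 156) (nat_lit 1064) (nat_lit 0) (XT.nd (nat_lit 78) (nat_lit 988) (nat_lit 0) (XT.lf (nat_lit 0) (nat_lit 4335562916) (nat_lit 836) (nat_lit 2258158221) (nat_lit 912) (nat_lit 220053247) (nat_lit 732) (nat_lit 5) (nat_lit 743) (nat_lit 5) (nat_lit 744) (nat_lit 5) (nat_lit 402) (nat_lit 384) (nat_lit 354)) (XT.lf (nat_lit 0) (nat_lit 1494019765) (nat_lit 912) (nat_lit 745911995) (nat_lit 988) (nat_lit 4604832999) (nat_lit 719) (nat_lit 5) (nat_lit 731) (nat_lit 5) (nat_lit 732) (nat_lit 5) (nat_lit 403) (nat_lit 384) (nat_lit 353))) (XT.nd (nat_lit 78) (nat_lit 1064) (nat_lit 0) (XT.lf (nat_lit 0) (nat_lit 4711801383) (nat_lit 988) (nat_lit 1343903870) (nat_lit 76) (nat_lit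 821327968) (nat_lit 719) (nat_lit 5) (nat_lit 732) (nat_lit 5) (nat_lit 720) (nat_lit 5) (nat_lit 404) (nat_lit 384) (nat_lit 352)) (XT.lf (nat_lit 0) (nat_lit 286221205) (nat_lit 1064) (nat_lit 4178101942) (nat_lit 76) (nat_lit 2446235980) (nat_lit 705) (nat_lit 5) (nat_lit 719) (nat_lit 5) (nat_lit 706) (nat_lit 5) (nat_lit 405) (nat_lit 384) (nat_lit 351)))) (XT.nd (nat_lit 156) (nat_lit 1216) (nat_lit 0) (XT.nd (nat_lit 78) (nat_lit 1064) (nat_lit 0) (XT.lf (nat_lit 0) (nat_lit 2712102564) (nat_lit 1064) (nat_lit 90496463) (nat_lit 76) (nat_lit 4142782445) (nat_lit 705) (nat_lit 5) (nat_lit 719) (nat_lit 5) (nat_lit 706) (nat_lit 5) (nat_lit 406) (nat_lit 384) (nat_lit 350)) (XT.lf (nat_lit 0) (nat_lit 4093246053) (nat_lit 1064) (nat_lit 1066190959) (nat_lit 1140) (nat_lit 1822004543) (nat_lit 691) (nat_lit 5) (nat_lit 705) (nat_lit 5) (nat_lit 706) (nat_lit 5) (nat_lit 407) (nat_lit 384) (nat_lit 349))) (XT.nd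 (nat_lit 78) (nat_lit 0) (nat_lit 0) (XT.lf (nat_lit 0) (nat_lit 589857091) (nat_lit 1216) (nat_lit 5706710214) (nat_lit 76) (nat_lit 722358301) (nat_lit 675) (nat_lit 5) (nat_lit 691) (nat_lit 5) (nat_lit 676) (nat_lit 5) (nat_lit 408) (nat_lit 384) (nat_lit 348)) (XT.lf (nat_lit 0) (nat_lit 2999830906) (nat_lit 1216) (nat_lit 1480860018) (nat_lit 76) (nat_lit 2576742113) (nat_lit 675) (nat_lit 5) (nat_lit 691) (nat_lit 5) (nat_lit 676) (nat_lit 5) (nat_lit 409) (nat_lit 384) (nat_lit 347))))) (XT.nd (nat_lit 312) (nat_lit 3116) (nat_lit 0) (XT.nd (nat_lit 156) (nat_lit 1368) (nat_lit 0) (XT.nd (nat_lit 78) (nat_lit 1368) (nat_lit 0) (XT.lf (nat_lit 0) (nat_lit 2826759475) (nat_lit 1216) (nat_lit 2598302086) (nat_lit 1292) (nat_lit 1672307909) (nat_lit 659) (nat_lit 5) (nat_lit 675) (nat_lit 5) (nat_lit 676) (nat_lit 5) (nat_lit 410) (nat_lit 384) (nat_lit 346)) (XT.lf (nat_lit 0) (nat_lit 58222419) (nat_lit 1292)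 (nat_lit 651992718) (nat_lit 1368) (nat_lit 6428600725) (nat_lit 641) (nat_lit 5) (nat_lit 658) (nat_lit 5) (nat_lit 659) (nat_lit 5) (nat_lit 411) (nat_lit 384) (nat_lit 345))) (XT.nd (nat_lit 78) (nat_lit 1368) (nat_lit 0) (XT.lf (nat_lit 0) (nat_lit 3105444086) (nat_lit 1368) (nat_lit 2709957853) (nat_lit 76) (nat_lit 1365719211) (nat_lit 641) (nat_lit 5) (nat_lit 659) (nat_lit 5) (nat_lit 642) (nat_lit 5) (nat_lit 412) (nat_lit 384) (nat_lit 344)) (XT.lf (nat_lit 0) (nat_lit 1726176850) (nat_lit 1368) (nat_lit 3788830578) (nat_lit 1444) (nat_lit 1709936519) (nat_lit 623) (nat_lit 5) (nat_lit 641) (nat_lit 5) (nat_lit 642) (nat_lit 5) (nat_lit 413) (nat_lit 384) (nat_lit 343)))) (XT.nd (nat_lit 156) (nat_lit 1596) (nat_lit 0) (XT.nd (nat_lit 78) (nat_lit 1444) (nat_lit 0) (XT.lf (nat_lit 0) (nat_lit 663490143) (nat_lit 1444) (nat_lit 1026814152) (nat_lit 76) (nat_lit 5579855745) (nat_lit 622) (nat_lit 5) (nat_lit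 641) (nat_lit 5) (nat_lit 623) (nat_lit 5) (nat_lit 414) (nat_lit 384) (nat_lit 342)) (XT.lf (nat_lit 0) (nat_lit 3039871570) (nat_lit 1520) (nat_lit 3790026398) (nat_lit 76) (nat_lit 486588789) (nat_lit 603) (nat_lit 5) (nat_lit 623) (nat_lit 5) (nat_lit 604) (nat_lit 5) (nat_lit 415) (nat_lit 384) (nat_lit 341))) (XT.nd (nat_lit 78) (nat_lit 76) (nat_lit 0) (XT.lf (nat_lit 0) (nat_lit 779551630) (nat_lit 1520) (nat_lit 4660391239) (nat_lit 1596) (nat_lit 1924273894) (nat_lit 583) (nat_lit 5) (nat_lit 603) (nat_lit 5) (nat_lit 604) (nat_lit 5) (nat_lit 416) (nat_lit 384) (nat_lit 340)) (XT.lf (nat_lit 0) (nat_lit 447808755) (nat_lit 1596) (nat_lit 1964652921) (nat_lit 76) (nat_lit 5000799482) (nat_lit 582) (nat_lit 5) (nat_lit 603) (nat_lit 5) (nat_lit 583) (nat_lit 5) (nat_lit 417) (nat_lit 384) (nat_lit 339)))))) (XT.nd (nat_lit 624) (nat_lit 5396) (nat_lit 0) (XT.nd (nat_lit 312) (nat_lit 3040) (nat_lit 0)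 (XT.nd (nat_lit 156) (nat_lit 3496) (nat_lit 0) (XT.nd (nat_lit 78) (nat_lit 0) (nat_lit 0) (XT.lf (nat_lit 0) (nat_lit 2730728970) (nat_lit 1596) (nat_lit 82831299) (nat_lit 1672) (nat_lit 4650031921) (nat_lit 561) (nat_lit 5) (nat_lit 582) (nat_lit 5) (nat_lit 583) (nat_lit 5) (nat_lit 418) (nat_lit 384) (nat_lit 338)) (XT.lf (nat_lit 0) (nat_lit 5209700575) (nat_lit 1672) (nat_lit 23767764) (nat_lit 76) (nat_lit 2281800026) (nat_lit 561) (nat_lit 5) (nat_lit 583) (nat_lit 5) (nat_lit 562) (nat_lit 5) (nat_lit 419) (nat_lit 384) (nat_lit 337))) (XT.nd (nat_lit 78) (nat_lit 1748) (nat_lit 0) (XT.lf (nat_lit 0) (nat_lit 72100438) (nat_lit 1748) (nat_lit 2766736743) (nat_lit 76) (nat_lit 4729380946) (nat_lit 538) (nat_lit 5) (nat_lit 561) (nat_lit 5) (nat_lit 539) (nat_lit 5) (nat_lit 420) (nat_lit 384) (nat_lit 336)) (XT.lf (nat_lit 0) (nat_lit 2072956820) (nat_lit 1748) (nat_lit 363258722) (nat_lit 1824) (nat_lit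 5186311245) (nat_lit 515) (nat_lit 5) (nat_lit 538) (nat_lit 5) (nat_lit 539) (nat_lit 5) (nat_lit 421) (nat_lit 384) (nat_lit 335)))) (XT.nd (nat_lit 156) (nat_lit 1216) (nat_lit 0) (XT.nd (nat_lit 78) (nat_lit 1824) (nat_lit 0) (XT.lf (nat_lit 0) (nat_lit 4837076532) (nat_lit 1824) (nat_lit 685677540) (nat_lit 76) (nat_lit 2155378275) (nat_lit 515) (nat_lit 5) (nat_lit 539) (nat_lit 5) (nat_lit 516) (nat_lit 5) (nat_lit 422) (nat_lit 384) (nat_lit 334)) (XT.lf (nat_lit 0) (nat_lit 4289226965) (nat_lit 1824) (nat_lit 2984568564) (nat_lit 1900) (nat_lit 461297674) (nat_lit 491) (nat_lit 5) (nat_lit 515) (nat_lit 5) (nat_lit 516) (nat_lit 5) (nat_lit 423) (nat_lit 384) (nat_lit 333))) (XT.nd (nat_lit 78) (nat_lit 0) (nat_lit 0) (XT.lf (nat_lit 0) (nat_lit 1546905505) (nat_lit 1140) (nat_lit 365922622) (nat_lit 1216) (nat_lit 5880658698) (nat_lit 475) (nat_lit 5) (nat_lit 490) (nat_lit 5) (nat_lit 491) (nat_lit 5)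 (nat_lit 424) (nat_lit 384) (nat_lit 332)) (XT.lf (nat_lit 0) (nat_lit 4324965114) (nat_lit 1216) (nat_lit 1225502057) (nat_lit 76) (nat_lit 2302586055) (nat_lit 475) (nat_lit 5) (nat_lit 491) (nat_lit 5) (nat_lit 476) (nat_lit 5) (nat_lit 425) (nat_lit 384) (nat_lit 331))))) (XT.nd (nat_lit 312) (nat_lit 2660) (nat_lit 0) (XT.nd (nat_lit 156) (nat_lit 836) (nat_lit 0) (XT.nd (nat_lit 78) (nat_lit 988) (nat_lit 0) (XT.lf (nat_lit 0) (nat_lit 3904604448) (nat_lit 912) (nat_lit 2867786320) (nat_lit 988) (nat_lit 1141679269) (nat_lit 463) (nat_lit 5) (nat_lit 475) (nat_lit 5) (nat_lit 476) (nat_lit 5) (nat_lit 426) (nat_lit 384) (nat_lit 330)) (XT.lf (nat_lit 0) (nat_lit 1143884789) (nat_lit 912) (nat_lit 106871833) (nat_lit 988) (nat_lit 6725877739) (nat_lit 450) (nat_lit 5) (nat_lit 462) (nat_lit 5) (nat_lit 463) (nat_lit 5) (nat_lit 427) (nat_lit 384) (nat_lit 329))) (XT.nd (nat_lit 78) (nat_lit 836) (nat_lit 0)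 (XT.lf (nat_lit 0) (nat_lit 3680517765) (nat_lit 988) (nat_lit 1651574101) (nat_lit 76) (nat_lit 2708111902) (nat_lit 450) (nat_lit 5) (nat_lit 463) (nat_lit 5) (nat_lit 451) (nat_lit 5) (nat_lit 428) (nat_lit 384) (nat_lit 328)) (XT.lf (nat_lit 0) (nat_lit 3640076506) (nat_lit 836) (nat_lit 2503997216) (nat_lit 912) (nat_lit 1961266850) (nat_lit 439) (nat_lit 5) (nat_lit 450) (nat_lit 5) (nat_lit 451) (nat_lit 5) (nat_lit 429) (nat_lit 384) (nat_lit 327)))) (XT.nd (nat_lit 156) (nat_lit 1672) (nat_lit 0) (XT.nd (nat_lit 78) (nat_lit 0) (nat_lit 0) (XT.lf (nat_lit 0) (nat_lit 459175551) (nat_lit 988) (nat_lit 7318794867) (nat_lit 76) (nat_lit 394138353) (nat_lit 426) (nat_lit 5) (nat_lit 439) (nat_lit 5) (nat_lit 427) (nat_lit 5) (nat_lit 430) (nat_lit 384) (nat_lit 326)) (XT.lf (nat_lit 0) (nat_lit 2910136166) (nat_lit 988) (nat_lit 1971515041) (nat_lit 76) (nat_lit 3358134433) (nat_lit 426) (nat_lit 5) (nat_lit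 439) (nat_lit 5) (nat_lit 427) (nat_lit 5) (nat_lit 431) (nat_lit 384) (nat_lit 325))) (XT.nd (nat_lit 78) (nat_lit 836) (nat_lit 0) (XT.lf (nat_lit 0) (nat_lit 3488339466) (nat_lit 836) (nat_lit 1906778773) (nat_lit 912) (nat_lit 2913997763) (nat_lit 415) (nat_lit 5) (nat_lit 426) (nat_lit 5) (nat_lit 427) (nat_lit 5) (nat_lit 432) (nat_lit 384) (nat_lit 324)) (XT.lf (nat_lit 0) (nat_lit 665280655) (nat_lit 836) (nat_lit 7252292882) (nat_lit 912) (nat_lit 462503962) (nat_lit 404) (nat_lit 5) (nat_lit 415) (nat_lit 5) (nat_lit 416) (nat_lit 5) (nat_lit 433) (nat_lit 384) (nat_lit 323))))))) (XT.nd (nat_lit 1248) (nat_lit 4180) (nat_lit 0) (XT.nd (nat_lit 624) (nat_lit 3420) (nat_lit 0) (XT.nd (nat_lit 312) (nat_lit 2280) (nat_lit 0) (XT.nd (nat_lit 156) (nat_lit 836) (nat_lit 0) (XT.nd (nat_lit 78) (nat_lit 760) (nat_lit 0) (XT.lf (nat_lit 0) (nat_lit 2019522319) (nat_lit 912) (nat_lit 2192286649) (nat_lit 76)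 (nat_lit 4240219983) (nat_lit 403) (nat_lit 5) (nat_lit 415) (nat_lit 5) (nat_lit 404) (nat_lit 5) (nat_lit 434) (nat_lit 384) (nat_lit 322)) (XT.lf (nat_lit 0) (nat_lit 3442756096) (nat_lit 760) (nat_lit 1088362997) (nat_lit 836) (nat_lit 3994516737) (nat_lit 393) (nat_lit 5) (nat_lit 403) (nat_lit 5) (nat_lit 404) (nat_lit 5) (nat_lit 435) (nat_lit 384) (nat_lit 321))) (XT.nd (nat_lit 78) (nat_lit 76) (nat_lit 0) (XT.lf (nat_lit 0) (nat_lit 573163294) (nat_lit 760) (nat_lit 6516124582) (nat_lit 836) (nat_lit 1511500171) (nat_lit 383) (nat_lit 5) (nat_lit 393) (nat_lit 5) (nat_lit 394) (nat_lit 5) (nat_lit 436) (nat_lit 384) (nat_lit 320)) (XT.lf (nat_lit 0) (nat_lit 1013724504) (nat_lit 836) (nat_lit 2320238854) (nat_lit 76) (nat_lit 5343228532) (nat_lit 382) (nat_lit 5) (nat_lit 393) (nat_lit 5) (nat_lit 383) (nat_lit 5) (nat_lit 437) (nat_lit 384) (nat_lit 319)))) (XT.nd (nat_lit 156) (nat_lit 760) (nat_lit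 0) (XT.nd (nat_lit 78) (nat_lit 760) (nat_lit 0) (XT.lf (nat_lit 0) (nat_lit 3497308603) (nat_lit 760) (nat_lit 59728228) (nat_lit 836) (nat_lit 5198130715) (nat_lit 372) (nat_lit 5) (nat_lit 382) (nat_lit 5) (nat_lit 383) (nat_lit 5) (nat_lit 438) (nat_lit 384) (nat_lit 318)) (XT.lf (nat_lit 0) (nat_lit 574160063) (nat_lit 760) (nat_lit 5583242813) (nat_lit 836) (nat_lit 2677176091) (nat_lit 362) (nat_lit 5) (nat_lit 372) (nat_lit 5) (nat_lit 373) (nat_lit 5) (nat_lit 439) (nat_lit 384) (nat_lit 317))) (XT.nd (nat_lit 78) (nat_lit 760) (nat_lit 0) (XT.lf (nat_lit 0) (nat_lit 6553716733) (nat_lit 760) (nat_lit 2257643201) (nat_lit 836) (nat_lit 104187008) (nat_lit 362) (nat_lit 5) (nat_lit 372) (nat_lit 5) (nat_lit 373) (nat_lit 5) (nat_lit 440) (nat_lit 384) (nat_lit 316)) (XT.lf (nat_lit 0) (nat_lit 2484830872) (nat_lit 760) (nat_lit 5359043002) (nat_lit 76) (nat_lit 1153980684) (nat_lit 352) (nat_lit 5) (nat_lit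 362) (nat_lit 5) (nat_lit 353) (nat_lit 5) (nat_lit 441) (nat_lit 384) (nat_lit 315))))) (XT.nd (nat_lit 312) (nat_lit 1292) (nat_lit 0) (XT.nd (nat_lit 156) (nat_lit 1444) (nat_lit 0) (XT.nd (nat_lit 78) (nat_lit 0) (nat_lit 0) (XT.lf (nat_lit 0) (nat_lit 662937241) (nat_lit 684) (nat_lit 4463226790) (nat_lit 760) (nat_lit 3955591922) (nat_lit 343) (nat_lit 5) (nat_lit 352) (nat_lit 5) (nat_lit 353) (nat_lit 5) (nat_lit 442) (nat_lit 384) (nat_lit 314)) (XT.lf (nat_lit 0) (nat_lit 6838262372) (nat_lit 684) (nat_lit 985137132) (nat_lit 760) (nat_lit 1343874360) (nat_lit 343) (nat_lit 5) (nat_lit 352) (nat_lit 5) (nat_lit 353) (nat_lit 5) (nat_lit 443) (nat_lit 384) (nat_lit 313))) (XT.nd (nat_lit 78) (nat_lit 684) (nat_lit 0) (XT.lf (nat_lit 0) (nat_lit 1312353643) (nat_lit 760) (nat_lit 5385700420) (nat_lit 76) (nat_lit 2556084871) (nat_lit 333) (nat_lit 5) (nat_lit 343) (nat_lit 5) (nat_lit 334) (nat_lit 5) (nat_lit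 444) (nat_lit 384) (nat_lit 312)) (XT.lf (nat_lit 0) (nat_lit 834672038) (nat_lit 684) (nat_lit 3164613682) (nat_lit 760) (nat_lit 5343366444) (nat_lit 324) (nat_lit 5) (nat_lit 333) (nat_lit 5) (nat_lit 334) (nat_lit 5) (nat_lit 445) (nat_lit 384) (nat_lit 311)))) (XT.nd (nat_lit 156) (nat_lit 608) (nat_lit 0) (XT.nd (nat_lit 78) (nat_lit 684) (nat_lit 0) (XT.lf (nat_lit 0) (nat_lit 6747395024) (nat_lit 760) (nat_lit 2222899140) (nat_lit 76) (nat_lit 462492723) (nat_lit 324) (nat_lit 5) (nat_lit 334) (nat_lit 5) (nat_lit 325) (nat_lit 5) (nat_lit 446) (nat_lit 384) (nat_lit 310)) (XT.lf (nat_lit 0) (nat_lit 42458455) (nat_lit 684) (nat_lit 5342149300) (nat_lit 76) (nat_lit 4139772130) (nat_lit 315) (nat_lit 5) (nat_lit 324) (nat_lit 5) (nat_lit 316) (nat_lit 5) (nat_lit 447) (nat_lit 384) (nat_lit 309))) (XT.nd (nat_lit 78) (nat_lit 0) (nat_lit 0) (XT.lf (nat_lit 0) (nat_lit 1085017252) (nat_lit 608) (nat_lit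 1694967190) (nat_lit 684) (nat_lit 6837643771) (nat_lit 307) (nat_lit 5) (nat_lit 315) (nat_lit 5) (nat_lit 316) (nat_lit 5) (nat_lit 448) (nat_lit 384) (nat_lit 308)) (XT.lf (nat_lit 0) (nat_lit 5591057818) (nat_lit 684) (nat_lit 2052267796) (nat_lit 76) (nat_lit 2069039958) (nat_lit 307) (nat_lit 5) (nat_lit 316) (nat_lit 5) (nat_lit 308) (nat_lit 5) (nat_lit 449) (nat_lit 384) (nat_lit 307)))))) (XT.nd (nat_lit 624) (nat_lit 608) (nat_lit 0) (XT.nd (nat_lit 312) (nat_lit 1748) (nat_lit 0) (XT.nd (nat_lit 156) (nat_lit 532) (nat_lit 0) (XT.nd (nat_lit 78) (nat_lit 684) (nat_lit 0) (XT.lf (nat_lit 0) (nat_lit 4567421234) (nat_lit 608) (nat_lit 3901694407) (nat_lit 684) (nat_lit 1339666774) (nat_lit 299) (nat_lit 5) (nat_lit 307) (nat_lit 5) (nat_lit 308) (nat_lit 5) (nat_lit 450) (nat_lit 384) (nat_lit 306)) (XT.lf (nat_lit 0) (nat_lit 1410068783) (nat_lit 608) (nat_lit 60940433) (nat_lit 684) (nat_lit 8436063040)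 (nat_lit 290) (nat_lit 5) (nat_lit 298) (nat_lit 5) (nat_lit 299) (nat_lit 5) (nat_lit 451) (nat_lit 384) (nat_lit 305))) (XT.nd (nat_lit 78) (nat_lit 532) (nat_lit 0) (XT.lf (nat_lit 0) (nat_lit 4350723880) (nat_lit 684) (nat_lit 1814550560) (nat_lit 76) (nat_lit 3841261084) (nat_lit 290) (nat_lit 5) (nat_lit 299) (nat_lit 5) (nat_lit 291) (nat_lit 5) (nat_lit 452) (nat_lit 384) (nat_lit 304)) (XT.lf (nat_lit 0) (nat_lit 5028512575) (nat_lit 532) (nat_lit 2263456111) (nat_lit 608) (nat_lit 2815940654) (nat_lit 283) (nat_lit 5) (nat_lit 290) (nat_lit 5) (nat_lit 291) (nat_lit 5) (nat_lit 453) (nat_lit 384) (nat_lit 303)))) (XT.nd (nat_lit 156) (nat_lit 1064) (nat_lit 0) (XT.nd (nat_lit 78) (nat_lit 0) (nat_lit 0) (XT.lf (nat_lit 0) (nat_lit 85912458) (nat_lit 684) (nat_lit 8416307496) (nat_lit 76) (nat_lit 1708955327) (nat_lit 274) (nat_lit 5) (nat_lit 283) (nat_lit 5) (nat_lit 275) (nat_lit 5) (nat_lit 454) (nat_lit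 384) (nat_lit 302)) (XT.lf (nat_lit 0) (nat_lit 3028703554) (nat_lit 684) (nat_lit 1513190223) (nat_lit 76) (nat_lit 5773828369) (nat_lit 274) (nat_lit 5) (nat_lit 283) (nat_lit 5) (nat_lit 275) (nat_lit 5) (nat_lit 455) (nat_lit 384) (nat_lit 301))) (XT.nd (nat_lit 78) (nat_lit 532) (nat_lit 0) (XT.lf (nat_lit 0) (nat_lit 5562738397) (nat_lit 532) (nat_lit 475562579) (nat_lit 608) (nat_lit 4383899962) (nat_lit 267) (nat_lit 5) (nat_lit 274) (nat_lit 5) (nat_lit 275) (nat_lit 5) (nat_lit 456) (nat_lit 384) (nat_lit 300)) (XT.lf (nat_lit 0) (nat_lit 2237074150) (nat_lit 532) (nat_lit 6891677816) (nat_lit 608) (nat_lit 1401644108) (nat_lit 260) (nat_lit 5) (nat_lit 267) (nat_lit 5) (nat_lit 268) (nat_lit 5) (nat_lit 457) (nat_lit 384) (nat_lit 299))))) (XT.nd (nat_lit 53820) (nat_lit 0) (nat_lit 40052) (XT.nd (nat_lit 53664) (nat_lit 0) (nat_lit 40508) (XT.nd (nat_lit 78) (nat_lit 532) (nat_lit 0) (XT.lf (nat_lit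 0) (nat_lit 1626909978) (nat_lit 608) (nat_lit 1151269311) (nat_lit 76) (nat_lit 7862199523) (nat_lit 259) (nat_lit 5) (nat_lit 267) (nat_lit 5) (nat_lit 260) (nat_lit 5) (nat_lit 458) (nat_lit 384) (nat_lit 298)) (XT.lf (nat_lit 0) (nat_lit 4719525527) (nat_lit 608) (nat_lit 4594161421) (nat_lit 76) (nat_lit 1438243791) (nat_lit 252) (nat_lit 5) (nat_lit 260) (nat_lit 5) (nat_lit 253) (nat_lit 5) (nat_lit 459) (nat_lit 384) (nat_lit 297))) (XT.nd (nat_lit 78) (nat_lit 532) (nat_lit 0) (XT.lf (nat_lit 0) (nat_lit 1022009023) (nat_lit 0) (nat_lit 1022009023) (nat_lit 380) (nat_lit 1200751573) (nat_lit 792) (nat_lit 5) (nat_lit 792) (nat_lit 3) (nat_lit 797) (nat_lit 3) (nat_lit 385) (nat_lit 385) (nat_lit 370)) (XT.lf (nat_lit 0) (nat_lit 355577853) (nat_lit 532) (nat_lit 1185003500) (nat_lit 532) (nat_lit 4959182542) (nat_lit 785) (nat_lit 3) (nat_lit 792) (nat_lit 3) (nat_lit 792) (nat_lit 5) (nat_lit 386) (nat_lit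 385) (nat_lit 369)))) (XT.nd (nat_lit 156) (nat_lit 456) (nat_lit 0) (XT.nd (nat_lit 78) (nat_lit 0) (nat_lit 0) (XT.lf (nat_lit 76) (nat_lit 2115791018) (nat_lit 0) (nat_lit 961505771) (nat_lit 532) (nat_lit 3433745726) (nat_lit 786) (nat_lit 5) (nat_lit 785) (nat_lit 3) (nat_lit 792) (nat_lit 5) (nat_lit 387) (nat_lit 385) (nat_lit 368)) (XT.lf (nat_lit 76) (nat_lit 5462127912) (nat_lit 0) (nat_lit 328336252) (nat_lit 532) (nat_lit 733342263) (nat_lit 786) (nat_lit 5) (nat_lit 785) (nat_lit 3) (nat_lit 792) (nat_lit 5) (nat_lit 388) (nat_lit 385) (nat_lit 367))) (XT.nd (nat_lit 78) (nat_lit 0) (nat_lit 0) (XT.lf (nat_lit 0) (nat_lit 1942076144) (nat_lit 532) (nat_lit 4221017307) (nat_lit 608) (nat_lit 374519454) (nat_lit 779) (nat_lit 5) (nat_lit 786) (nat_lit 5) (nat_lit 787) (nat_lit 5) (nat_lit 389) (nat_lit 385) (nat_lit 366)) (XT.lf (nat_lit 0) (nat_lit 4601876870) (nat_lit 532) (nat_lit 819900952) (nat_lit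 608) (nat_lit 1131006872) (nat_lit 779) (nat_lit 5) (nat_lit 786) (nat_lit 5) (nat_lit 787) (nat_lit 5) (nat_lit 390) (nat_lit 385) (nat_lit 365))))))))
noncomputable def xc38 : XT := (XT.nd (nat_lit 2496) (nat_lit 17632) (nat_lit 0) (XT.nd (nat_lit 1248) (nat_lit 14440) (nat_lit 0) (XT.nd (nat_lit 624) (nat_lit 3648) (nat_lit 0) (XT.nd (nat_lit 312) (nat_lit 684) (nat_lit 0) (XT.nd (nat_lit 156) (nat_lit 684) (nat_lit 0) (XT.nd (nat_lit 78) (nat_lit 0) (nat_lit 0) (XT.lf (nat_lit 0) (nat_lit 686357710) (nat_lit 608) (nat_lit 3927179029) (nat_lit 684) (nat_lit 1955635512) (nat_lit 771) (nat_lit 5) (nat_lit 779) (nat_lit 5) (nat_lit 780) (nat_lit 5) (nat_lit 391) (nat_lit 385) (nat_lit 364)) (XT.lf (nat_lit 0) (nat_lit 3289133599) (nat_lit 608) (nat_lit 452484285) (nat_lit 684) (nat_lit 2845234010) (nat_lit 771) (nat_lit 5) (nat_lit 779) (nat_lit 5) (nat_lit 780) (nat_lit 5) (nat_lit 392) (nat_lit 385) (nat_lit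 363))) (XT.nd (nat_lit 78) (nat_lit 684) (nat_lit 0) (XT.lf (nat_lit 76) (nat_lit 3095051744) (nat_lit 0) (nat_lit 2803640621) (nat_lit 684) (nat_lit 707098217) (nat_lit 772) (nat_lit 5) (nat_lit 771) (nat_lit 5) (nat_lit 780) (nat_lit 5) (nat_lit 393) (nat_lit 385) (nat_lit 362)) (XT.lf (nat_lit 76) (nat_lit 44765990) (nat_lit 0) (nat_lit 1803780904) (nat_lit 760) (nat_lit 4777537943) (nat_lit 763) (nat_lit 5) (nat_lit 762) (nat_lit 5) (nat_lit 772) (nat_lit 5) (nat_lit 394) (nat_lit 385) (nat_lit 361)))) (XT.nd (nat_lit 156) (nat_lit 0) (nat_lit 0) (XT.nd (nat_lit 78) (nat_lit 684) (nat_lit 0) (XT.lf (nat_lit 76) (nat_lit 3676613724) (nat_lit 0) (nat_lit 729033269) (nat_lit 760) (nat_lit 2241848305) (nat_lit 763) (nat_lit 5) (nat_lit 762) (nat_lit 5) (nat_lit 772) (nat_lit 5) (nat_lit 395) (nat_lit 385) (nat_lit 360)) (XT.lf (nat_lit 0) (nat_lit 284156793) (nat_lit 760) (nat_lit 5992304421) (nat_lit 836) (nat_lit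 393945599) (nat_lit 753) (nat_lit 5) (nat_lit 763) (nat_lit 5) (nat_lit 764) (nat_lit 5) (nat_lit 396) (nat_lit 385) (nat_lit 359))) (XT.nd (nat_lit 78) (nat_lit 0) (nat_lit 0) (XT.lf (nat_lit 0) (nat_lit 2793845526) (nat_lit 760) (nat_lit 2311705562) (nat_lit 836) (nat_lit 1588665460) (nat_lit 753) (nat_lit 5) (nat_lit 763) (nat_lit 5) (nat_lit 764) (nat_lit 5) (nat_lit 397) (nat_lit 385) (nat_lit 358)) (XT.lf (nat_lit 76) (nat_lit 1423072947) (nat_lit 0) (nat_lit 3879362836) (nat_lit 836) (nat_lit 1417092541) (nat_lit 754) (nat_lit 5) (nat_lit 753) (nat_lit 5) (nat_lit 764) (nat_lit 5) (nat_lit 398) (nat_lit 385) (nat_lit 357))))) (XT.nd (nat_lit 312) (nat_lit 1976) (nat_lit 0) (XT.nd (nat_lit 156) (nat_lit 836) (nat_lit 0) (XT.nd (nat_lit 78) (nat_lit 0) (nat_lit 0) (XT.lf (nat_lit 0) (nat_lit 1056847165) (nat_lit 836) (nat_lit 1527143581) (nat_lit 912) (nat_lit 4162098087) (nat_lit 742) (nat_lit 5) (nat_lit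 753) (nat_lit 5) (nat_lit 754) (nat_lit 5) (nat_lit 399) (nat_lit 385) (nat_lit 356)) (XT.lf (nat_lit 76) (nat_lit 2300455598) (nat_lit 0) (nat_lit 1216979957) (nat_lit 912) (nat_lit 3256434764) (nat_lit 743) (nat_lit 5) (nat_lit 742) (nat_lit 5) (nat_lit 754) (nat_lit 5) (nat_lit 400) (nat_lit 385) (nat_lit 355))) (XT.nd (nat_lit 78) (nat_lit 912) (nat_lit 0) (XT.lf (nat_lit 0) (nat_lit 5980934397) (nat_lit 836) (nat_lit 616839713) (nat_lit 76) (nat_lit 205359349) (nat_lit 743) (nat_lit 5) (nat_lit 754) (nat_lit 5) (nat_lit 744) (nat_lit 5) (nat_lit 401) (nat_lit 385) (nat_lit 354)) (XT.lf (nat_lit 0) (nat_lit 1611702356) (nat_lit 912) (nat_lit 3530015987) (nat_lit 76) (nat_lit 1691592637) (nat_lit 731) (nat_lit 5) (nat_lit 743) (nat_lit 5) (nat_lit 732) (nat_lit 5) (nat_lit 402) (nat_lit 385) (nat_lit 353)))) (XT.nd (nat_lit 156) (nat_lit 1064) (nat_lit 0) (XT.nd (nat_lit 78) (nat_lit 0) (nat_lit 0) (XT.lf (nat_lit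 0) (nat_lit 407398082) (nat_lit 912) (nat_lit 3626555604) (nat_lit 988) (nat_lit 2831016046) (nat_lit 719) (nat_lit 5) (nat_lit 731) (nat_lit 5) (nat_lit 732) (nat_lit 5) (nat_lit 403) (nat_lit 385) (nat_lit 352)) (XT.lf (nat_lit 0) (nat_lit 4433007921) (nat_lit 912) (nat_lit 2040040863) (nat_lit 988) (nat_lit 424844902) (nat_lit 719) (nat_lit 5) (nat_lit 731) (nat_lit 5) (nat_lit 732) (nat_lit 5) (nat_lit 404) (nat_lit 385) (nat_lit 351))) (XT.nd (nat_lit 78) (nat_lit 0) (nat_lit 0) (XT.lf (nat_lit 0) (nat_lit 1576782141) (nat_lit 988) (nat_lit 381724048) (nat_lit 1064) (nat_lit 4973592937) (nat_lit 705) (nat_lit 5) (nat_lit 718) (nat_lit 5) (nat_lit 719) (nat_lit 5) (nat_lit 405) (nat_lit 385) (nat_lit 350)) (XT.lf (nat_lit 0) (nat_lit 4355354387) (nat_lit 1064) (nat_lit 1284687917) (nat_lit 76) (nat_lit 1327459830) (nat_lit 705) (nat_lit 5) (nat_lit 719) (nat_lit 5) (nat_lit 706) (nat_lit 5) (nat_lit 406) (nat_lit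 385) (nat_lit 349)))))) (XT.nd (nat_lit 624) (nat_lit 8132) (nat_lit 0) (XT.nd (nat_lit 312) (nat_lit 2812) (nat_lit 0) (XT.nd (nat_lit 156) (nat_lit 1216) (nat_lit 0) (XT.nd (nat_lit 78) (nat_lit 1216) (nat_lit 0) (XT.lf (nat_lit 0) (nat_lit 2863857599) (nat_lit 1064) (nat_lit 3904815156) (nat_lit 1140) (nat_lit 235569784) (nat_lit 691) (nat_lit 5) (nat_lit 705) (nat_lit 5) (nat_lit 706) (nat_lit 5) (nat_lit 407) (nat_lit 385) (nat_lit 348)) (XT.lf (nat_lit 0) (nat_lit 18248028) (nat_lit 1140) (nat_lit 2098235851) (nat_lit 1216) (nat_lit 4925816739) (nat_lit 675) (nat_lit 5) (nat_lit 690) (nat_lit 5) (nat_lit 691) (nat_lit 5) (nat_lit 408) (nat_lit 385) (nat_lit 347))) (XT.nd (nat_lit 78) (nat_lit 1216) (nat_lit 0) (XT.lf (nat_lit 0) (nat_lit 4275885506) (nat_lit 1140) (nat_lit 212937604) (nat_lit 1216) (nat_lit 2592737631) (nat_lit 675) (nat_lit 5) (nat_lit 690) (nat_lit 5) (nat_lit 691) (nat_lit 5) (nat_lit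 409) (nat_lit 385) (nat_lit 346)) (XT.lf (nat_lit 0) (nat_lit 1466155313) (nat_lit 1216) (nat_lit 5412785920) (nat_lit 1292) (nat_lit 243258191) (nat_lit 659) (nat_lit 5) (nat_lit 675) (nat_lit 5) (nat_lit 676) (nat_lit 5) (nat_lit 410) (nat_lit 385) (nat_lit 345)))) (XT.nd (nat_lit 156) (nat_lit 1444) (nat_lit 0) (XT.nd (nat_lit 78) (nat_lit 1292) (nat_lit 0) (XT.lf (nat_lit 0) (nat_lit 2095449569) (nat_lit 1292) (nat_lit 1356781575) (nat_lit 76) (nat_lit 3711730565) (nat_lit 658) (nat_lit 5) (nat_lit 675) (nat_lit 5) (nat_lit 659) (nat_lit 5) (nat_lit 411) (nat_lit 385) (nat_lit 344)) (XT.lf (nat_lit 0) (nat_lit 3027893615) (nat_lit 1292) (nat_lit 1420536953) (nat_lit 1368) (nat_lit 2758681389) (nat_lit 641) (nat_lit 5) (nat_lit 658) (nat_lit 5) (nat_lit 659) (nat_lit 5) (nat_lit 412) (nat_lit 385) (nat_lit 343))) (XT.nd (nat_lit 78) (nat_lit 76) (nat_lit 0) (XT.lf (nat_lit 0) (nat_lit 226949081) (nat_lit 1368)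 (nat_lit 6588259638) (nat_lit 1444) (nat_lit 436581739) (nat_lit 623) (nat_lit 5) (nat_lit 641) (nat_lit 5) (nat_lit 642) (nat_lit 5) (nat_lit 413) (nat_lit 385) (nat_lit 342)) (XT.lf (nat_lit 0) (nat_lit 1896502229) (nat_lit 1444) (nat_lit 2580869326) (nat_lit 76) (nat_lit 2819942496) (nat_lit 622) (nat_lit 5) (nat_lit 641) (nat_lit 5) (nat_lit 623) (nat_lit 5) (nat_lit 414) (nat_lit 385) (nat_lit 341))))) (XT.nd (nat_lit 312) (nat_lit 3496) (nat_lit 0) (XT.nd (nat_lit 156) (nat_lit 3192) (nat_lit 0) (XT.nd (nat_lit 78) (nat_lit 0) (nat_lit 0) (XT.lf (nat_lit 0) (nat_lit 1935434141) (nat_lit 1444) (nat_lit 2300718233) (nat_lit 1520) (nat_lit 3108223019) (nat_lit 603) (nat_lit 5) (nat_lit 622) (nat_lit 5) (nat_lit 623) (nat_lit 5) (nat_lit 415) (nat_lit 385) (nat_lit 340)) (XT.lf (nat_lit 0) (nat_lit 6538264563) (nat_lit 1444) (nat_lit 55494946) (nat_lit 1520) (nat_lit 799195173) (nat_lit 603) (nat_lit 5) (nat_lit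 622) (nat_lit 5) (nat_lit 623) (nat_lit 5) (nat_lit 416) (nat_lit 385) (nat_lit 339))) (XT.nd (nat_lit 78) (nat_lit 1596) (nat_lit 0) (XT.lf (nat_lit 0) (nat_lit 1529457619) (nat_lit 1596) (nat_lit 3665862636) (nat_lit 76) (nat_lit 2247106213) (nat_lit 582) (nat_lit 5) (nat_lit 603) (nat_lit 5) (nat_lit 583) (nat_lit 5) (nat_lit 417) (nat_lit 385) (nat_lit 338)) (XT.lf (nat_lit 0) (nat_lit 987189684) (nat_lit 1596) (nat_lit 2874489688) (nat_lit 1672) (nat_lit 3631748722) (nat_lit 561) (nat_lit 5) (nat_lit 582) (nat_lit 5) (nat_lit 583) (nat_lit 5) (nat_lit 418) (nat_lit 385) (nat_lit 337)))) (XT.nd (nat_lit 156) (nat_lit 1748) (nat_lit 0) (XT.nd (nat_lit 78) (nat_lit 1748) (nat_lit 0) (XT.lf (nat_lit 0) (nat_lit 5743938699) (nat_lit 1596) (nat_lit 476969537) (nat_lit 1672) (nat_lit 1324934262) (nat_lit 561) (nat_lit 5) (nat_lit 582) (nat_lit 5) (nat_lit 583) (nat_lit 5) (nat_lit 419) (nat_lit 385) (nat_lit 336))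 (XT.lf (nat_lit 0) (nat_lit 1003275809) (nat_lit 1748) (nat_lit 4622451871) (nat_lit 76) (nat_lit 1973669180) (nat_lit 538) (nat_lit 5) (nat_lit 561) (nat_lit 5) (nat_lit 539) (nat_lit 5) (nat_lit 420) (nat_lit 385) (nat_lit 335))) (XT.nd (nat_lit 78) (nat_lit 0) (nat_lit 0) (XT.lf (nat_lit 0) (nat_lit 172763596) (nat_lit 1748) (nat_lit 3160991538) (nat_lit 1824) (nat_lit 4320623101) (nat_lit 515) (nat_lit 5) (nat_lit 538) (nat_lit 5) (nat_lit 539) (nat_lit 5) (nat_lit 421) (nat_lit 385) (nat_lit 334)) (XT.lf (nat_lit 0) (nat_lit 5087297249) (nat_lit 1748) (nat_lit 612131768) (nat_lit 1824) (nat_lit 2011258521) (nat_lit 515) (nat_lit 5) (nat_lit 538) (nat_lit 5) (nat_lit 539) (nat_lit 5) (nat_lit 422) (nat_lit 385) (nat_lit 333))))))) (XT.nd (nat_lit 1248) (nat_lit 6764) (nat_lit 0) (XT.nd (nat_lit 624) (nat_lit 5016) (nat_lit 0) (XT.nd (nat_lit 312) (nat_lit 1900) (nat_lit 0) (XT.nd (nat_lit 156) (nat_lit 2052)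 (nat_lit 0) (XT.nd (nat_lit 78) (nat_lit 0) (nat_lit 0) (XT.lf (nat_lit 0) (nat_lit 326009486) (nat_lit 1900) (nat_lit 5460478969) (nat_lit 76) (nat_lit 1981865234) (nat_lit 490) (nat_lit 5) (nat_lit 515) (nat_lit 5) (nat_lit 491) (nat_lit 5) (nat_lit 423) (nat_lit 385) (nat_lit 332)) (XT.lf (nat_lit 0) (nat_lit 2663600285) (nat_lit 1900) (nat_lit 510602856) (nat_lit 76) (nat_lit 4653093967) (nat_lit 490) (nat_lit 5) (nat_lit 515) (nat_lit 5) (nat_lit 491) (nat_lit 5) (nat_lit 424) (nat_lit 385) (nat_lit 331))) (XT.nd (nat_lit 78) (nat_lit 912) (nat_lit 0) (XT.lf (nat_lit 0) (nat_lit 4559225122) (nat_lit 1140) (nat_lit 477837175) (nat_lit 1216) (nat_lit 2850574712) (nat_lit 475) (nat_lit 5) (nat_lit 490) (nat_lit 5) (nat_lit 491) (nat_lit 5) (nat_lit 425) (nat_lit 385) (nat_lit 330)) (XT.lf (nat_lit 0) (nat_lit 1757131195) (nat_lit 912) (nat_lit 5690544134) (nat_lit 988) (nat_lit 501714744) (nat_lit 463) (nat_lit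 5) (nat_lit 475) (nat_lit 5) (nat_lit 476) (nat_lit 5) (nat_lit 426) (nat_lit 385) (nat_lit 329)))) (XT.nd (nat_lit 156) (nat_lit 912) (nat_lit 0) (XT.nd (nat_lit 78) (nat_lit 912) (nat_lit 0) (XT.lf (nat_lit 0) (nat_lit 1855266309) (nat_lit 988) (nat_lit 1077699825) (nat_lit 76) (nat_lit 5079446392) (nat_lit 462) (nat_lit 5) (nat_lit 475) (nat_lit 5) (nat_lit 463) (nat_lit 5) (nat_lit 427) (nat_lit 385) (nat_lit 328)) (XT.lf (nat_lit 0) (nat_lit 4151391019) (nat_lit 912) (nat_lit 89353403) (nat_lit 988) (nat_lit 3836123173) (nat_lit 450) (nat_lit 5) (nat_lit 462) (nat_lit 5) (nat_lit 463) (nat_lit 5) (nat_lit 428) (nat_lit 385) (nat_lit 327))) (XT.nd (nat_lit 78) (nat_lit 76) (nat_lit 0) (XT.lf (nat_lit 0) (nat_lit 1316782261) (nat_lit 836) (nat_lit 5352856348) (nat_lit 912) (nat_lit 1473059025) (nat_lit 439) (nat_lit 5) (nat_lit 450) (nat_lit 5) (nat_lit 451) (nat_lit 5) (nat_lit 429) (nat_lit 385) (nat_lit 326))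 (XT.lf (nat_lit 0) (nat_lit 913955248) (nat_lit 912) (nat_lit 1538712373) (nat_lit 76) (nat_lit 5757275320) (nat_lit 438) (nat_lit 5) (nat_lit 450) (nat_lit 5) (nat_lit 439) (nat_lit 5) (nat_lit 430) (nat_lit 385) (nat_lit 325))))) (XT.nd (nat_lit 312) (nat_lit 2356) (nat_lit 0) (XT.nd (nat_lit 156) (nat_lit 912) (nat_lit 0) (XT.nd (nat_lit 78) (nat_lit 836) (nat_lit 0) (XT.lf (nat_lit 0) (nat_lit 3320164554) (nat_lit 988) (nat_lit 4425897182) (nat_lit 76) (nat_lit 532453100) (nat_lit 426) (nat_lit 5) (nat_lit 439) (nat_lit 5) (nat_lit 427) (nat_lit 5) (nat_lit 431) (nat_lit 385) (nat_lit 324)) (XT.lf (nat_lit 0) (nat_lit 981608612) (nat_lit 836) (nat_lit 4788991268) (nat_lit 912) (nat_lit 2577936253) (nat_lit 415) (nat_lit 5) (nat_lit 426) (nat_lit 5) (nat_lit 427) (nat_lit 5) (nat_lit 432) (nat_lit 385) (nat_lit 323))) (XT.nd (nat_lit 78) (nat_lit 912) (nat_lit 0) (XT.lf (nat_lit 0) (nat_lit 6518183079) (nat_lit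 836) (nat_lit 1745122716) (nat_lit 912) (nat_lit 156786823) (nat_lit 415) (nat_lit 5) (nat_lit 426) (nat_lit 5) (nat_lit 427) (nat_lit 5) (nat_lit 433) (nat_lit 385) (nat_lit 322)) (XT.lf (nat_lit 0) (nat_lit 2279365610) (nat_lit 912) (nat_lit 4835394636) (nat_lit 76) (nat_lit 1378081412) (nat_lit 403) (nat_lit 5) (nat_lit 415) (nat_lit 5) (nat_lit 404) (nat_lit 5) (nat_lit 434) (nat_lit 385) (nat_lit 321)))) (XT.nd (nat_lit 156) (nat_lit 1596) (nat_lit 0) (XT.nd (nat_lit 78) (nat_lit 0) (nat_lit 0) (XT.lf (nat_lit 0) (nat_lit 744847411) (nat_lit 760) (nat_lit 4011011705) (nat_lit 836) (nat_lit 3811291488) (nat_lit 393) (nat_lit 5) (nat_lit 403) (nat_lit 5) (nat_lit 404) (nat_lit 5) (nat_lit 435) (nat_lit 385) (nat_lit 320)) (XT.lf (nat_lit 0) (nat_lit 6463274763) (nat_lit 760) (nat_lit 815974309) (nat_lit 836) (nat_lit 1363749323) (nat_lit 393) (nat_lit 5) (nat_lit 403) (nat_lit 5) (nat_lit 404) (nat_lit 5) (nat_lit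 436) (nat_lit 385) (nat_lit 319))) (XT.nd (nat_lit 78) (nat_lit 760) (nat_lit 0) (XT.lf (nat_lit 0) (nat_lit 1122525450) (nat_lit 836) (nat_lit 5159881577) (nat_lit 76) (nat_lit 2437716268) (nat_lit 382) (nat_lit 5) (nat_lit 393) (nat_lit 5) (nat_lit 383) (nat_lit 5) (nat_lit 437) (nat_lit 385) (nat_lit 318)) (XT.lf (nat_lit 0) (nat_lit 600333512) (nat_lit 760) (nat_lit 3029754967) (nat_lit 836) (nat_lit 5168725459) (nat_lit 372) (nat_lit 5) (nat_lit 382) (nat_lit 5) (nat_lit 383) (nat_lit 5) (nat_lit 438) (nat_lit 385) (nat_lit 317)))))) (XT.nd (nat_lit 624) (nat_lit 3116) (nat_lit 0) (XT.nd (nat_lit 312) (nat_lit 2128) (nat_lit 0) (XT.nd (nat_lit 156) (nat_lit 760) (nat_lit 0) (XT.nd (nat_lit 78) (nat_lit 760) (nat_lit 0) (XT.lf (nat_lit 0) (nat_lit 6190694440) (nat_lit 836) (nat_lit 2374237609) (nat_lit 76) (nat_lit 314088511) (nat_lit 372) (nat_lit 5) (nat_lit 383) (nat_lit 5) (nat_lit 373) (nat_lit 5) (nat_lit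 439) (nat_lit 385) (nat_lit 316)) (XT.lf (nat_lit 0) (nat_lit 3554365813) (nat_lit 760) (nat_lit 5258119275) (nat_lit 836) (nat_lit 148146776) (nat_lit 362) (nat_lit 5) (nat_lit 372) (nat_lit 5) (nat_lit 373) (nat_lit 5) (nat_lit 440) (nat_lit 385) (nat_lit 315))) (XT.nd (nat_lit 78) (nat_lit 0) (nat_lit 0) (XT.lf (nat_lit 0) (nat_lit 542456656) (nat_lit 684) (nat_lit 1854915725) (nat_lit 760) (nat_lit 6646454312) (nat_lit 352) (nat_lit 5) (nat_lit 361) (nat_lit 5) (nat_lit 362) (nat_lit 5) (nat_lit 441) (nat_lit 385) (nat_lit 314)) (XT.lf (nat_lit 0) (nat_lit 5006205324) (nat_lit 760) (nat_lit 2495455241) (nat_lit 76) (nat_lit 1626717527) (nat_lit 352) (nat_lit 5) (nat_lit 362) (nat_lit 5) (nat_lit 353) (nat_lit 5) (nat_lit 442) (nat_lit 385) (nat_lit 313)))) (XT.nd (nat_lit 156) (nat_lit 684) (nat_lit 0) (XT.nd (nat_lit 78) (nat_lit 760) (nat_lit 0) (XT.lf (nat_lit 0) (nat_lit 3627420077) (nat_lit 684) (nat_lit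 4043642103) (nat_lit 760) (nat_lit 1543481395) (nat_lit 343) (nat_lit 5) (nat_lit 352) (nat_lit 5) (nat_lit 353) (nat_lit 5) (nat_lit 443) (nat_lit 385) (nat_lit 312)) (XT.lf (nat_lit 0) (nat_lit 566122037) (nat_lit 684) (nat_lit 495122094) (nat_lit 760) (nat_lit 8241272841) (nat_lit 333) (nat_lit 5) (nat_lit 342) (nat_lit 5) (nat_lit 343) (nat_lit 5) (nat_lit 444) (nat_lit 385) (nat_lit 311))) (XT.nd (nat_lit 78) (nat_lit 684) (nat_lit 0) (XT.lf (nat_lit 0) (nat_lit 3723953798) (nat_lit 760) (nat_lit 2543035690) (nat_lit 76) (nat_lit 3124525162) (nat_lit 333) (nat_lit 5) (nat_lit 343) (nat_lit 5) (nat_lit 334) (nat_lit 5) (nat_lit 445) (nat_lit 385) (nat_lit 310)) (XT.lf (nat_lit 0) (nat_lit 3782333830) (nat_lit 684) (nat_lit 2654548848) (nat_lit 760) (nat_lit 3045470304) (nat_lit 324) (nat_lit 5) (nat_lit 333) (nat_lit 5) (nat_lit 334) (nat_lit 5) (nat_lit 446) (nat_lit 385) (nat_lit 309))))) (XT.nd (nat_lit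 312) (nat_lit 1216) (nat_lit 0) (XT.nd (nat_lit 156) (nat_lit 1216) (nat_lit 0) (XT.nd (nat_lit 78) (nat_lit 76) (nat_lit 0) (XT.lf (nat_lit 0) (nat_lit 657340447) (nat_lit 608) (nat_lit 8544303562) (nat_lit 684) (nat_lit 373412595) (nat_lit 316) (nat_lit 5) (nat_lit 324) (nat_lit 5) (nat_lit 325) (nat_lit 5) (nat_lit 447) (nat_lit 385) (nat_lit 308)) (XT.lf (nat_lit 0) (nat_lit 2346911844) (nat_lit 684) (nat_lit 2521486879) (nat_lit 76) (nat_lit 4800396675) (nat_lit 315) (nat_lit 5) (nat_lit 324) (nat_lit 5) (nat_lit 316) (nat_lit 5) (nat_lit 448) (nat_lit 385) (nat_lit 307))) (XT.nd (nat_lit 78) (nat_lit 608) (nat_lit 0) (XT.lf (nat_lit 0) (nat_lit 4014963101) (nat_lit 608) (nat_lit 1097938799) (nat_lit 684) (nat_lit 4651532523) (nat_lit 307) (nat_lit 5) (nat_lit 315) (nat_lit 5) (nat_lit 316) (nat_lit 5) (nat_lit 449) (nat_lit 385) (nat_lit 306)) (XT.lf (nat_lit 0) (nat_lit 809157384) (nat_lit 608) (nat_lit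 7135655735) (nat_lit 684) (nat_lit 1916961081) (nat_lit 299) (nat_lit 5) (nat_lit 307) (nat_lit 5) (nat_lit 308) (nat_lit 5) (nat_lit 450) (nat_lit 385) (nat_lit 305)))) (XT.nd (nat_lit 156) (nat_lit 532) (nat_lit 0) (XT.nd (nat_lit 78) (nat_lit 608) (nat_lit 0) (XT.lf (nat_lit 0) (nat_lit 877583213) (nat_lit 684) (nat_lit 2434899543) (nat_lit 76) (nat_lit 6648130308) (nat_lit 298) (nat_lit 5) (nat_lit 307) (nat_lit 5) (nat_lit 299) (nat_lit 5) (nat_lit 451) (nat_lit 385) (nat_lit 304)) (XT.lf (nat_lit 0) (nat_lit 3705647599) (nat_lit 684) (nat_lit 5743622891) (nat_lit 76) (nat_lit 611838848) (nat_lit 290) (nat_lit 5) (nat_lit 299) (nat_lit 5) (nat_lit 291) (nat_lit 5) (nat_lit 452) (nat_lit 385) (nat_lit 303))) (XT.nd (nat_lit 78) (nat_lit 0) (nat_lit 0) (XT.lf (nat_lit 0) (nat_lit 1028249073) (nat_lit 532) (nat_lit 5578539650) (nat_lit 608) (nat_lit 3556496504) (nat_lit 283) (nat_lit 5) (nat_lit 290) (nat_lit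 5) (nat_lit 291) (nat_lit 5) (nat_lit 453) (nat_lit 385) (nat_lit 302)) (XT.lf (nat_lit 0) (nat_lit 7975835136) (nat_lit 532) (nat_lit 1600430723) (nat_lit 608) (nat_lit 691032512) (nat_lit 283) (nat_lit 5) (nat_lit 290) (nat_lit 5) (nat_lit 291) (nat_lit 5) (nat_lit 454) (nat_lit 385) (nat_lit 301))))))))
noncomputable def xc39 : XT := (XT.nd (nat_lit 56160) (nat_lit 0) (nat_lit 5624) (XT.nd (nat_lit 54912) (nat_lit 0) (nat_lit 28956) (XT.nd (nat_lit 54288) (nat_lit 0) (nat_lit 37468) (XT.nd (nat_lit 53976) (nat_lit 0) (nat_lit 39444) (XT.nd (nat_lit 156) (nat_lit 608) (nat_lit 0) (XT.nd (nat_lit 78) (nat_lit 532) (nat_lit 0) (XT.lf (nat_lit 0) (nat_lit 2221311485) (nat_lit 684) (nat_lit 5690335159) (nat_lit 76) (nat_lit 2461078528) (nat_lit 274) (nat_lit 5) (nat_lit 283) (nat_lit 5) (nat_lit 275) (nat_lit 5) (nat_lit 455) (nat_lit 385) (nat_lit 300)) (XT.lf (nat_lit 0) (nat_lit 1311291330) (nat_lit 532) (nat_lit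 3878343967) (nat_lit 608) (nat_lit 5290394138) (nat_lit 267) (nat_lit 5) (nat_lit 274) (nat_lit 5) (nat_lit 275) (nat_lit 5) (nat_lit 456) (nat_lit 385) (nat_lit 299))) (XT.nd (nat_lit 78) (nat_lit 608) (nat_lit 0) (XT.lf (nat_lit 0) (nat_lit 8229914838) (nat_lit 608) (nat_lit 2098108197) (nat_lit 76) (nat_lit 261204965) (nat_lit 267) (nat_lit 5) (nat_lit 275) (nat_lit 5) (nat_lit 268) (nat_lit 5) (nat_lit 457) (nat_lit 385) (nat_lit 298)) (XT.lf (nat_lit 0) (nat_lit 654409008) (nat_lit 608) (nat_lit 5585850043) (nat_lit 76) (nat_lit 4459623881) (nat_lit 259) (nat_lit 5) (nat_lit 267) (nat_lit 5) (nat_lit 260) (nat_lit 5) (nat_lit 458) (nat_lit 385) (nat_lit 297)))) (XT.nd (nat_lit 156) (nat_lit 532) (nat_lit 0) (XT.nd (nat_lit 78) (nat_lit 0) (nat_lit 0) (XT.lf (nat_lit 0) (nat_lit 1522731172) (nat_lit 532) (nat_lit 866232092) (nat_lit 532) (nat_lit 866232092) (nat_lit 785) (nat_lit 3) (nat_lit 792) (nat_lit 3)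 (nat_lit 792) (nat_lit 5) (nat_lit 386) (nat_lit 386) (nat_lit 368)) (XT.lf (nat_lit 76) (nat_lit 1542967468) (nat_lit 0) (nat_lit 4185494307) (nat_lit 532) (nat_lit 793981951) (nat_lit 786) (nat_lit 5) (nat_lit 785) (nat_lit 3) (nat_lit 792) (nat_lit 5) (nat_lit 387) (nat_lit 386) (nat_lit 367))) (XT.nd (nat_lit 78) (nat_lit 0) (nat_lit 0) (XT.lf (nat_lit 0) (nat_lit 1846761236) (nat_lit 532) (nat_lit 1676474351) (nat_lit 608) (nat_lit 3012417640) (nat_lit 778) (nat_lit 5) (nat_lit 785) (nat_lit 3) (nat_lit 786) (nat_lit 5) (nat_lit 388) (nat_lit 386) (nat_lit 366)) (XT.lf (nat_lit 76) (nat_lit 1673244423) (nat_lit 0) (nat_lit 2798682319) (nat_lit 608) (nat_lit 2078250434) (nat_lit 779) (nat_lit 5) (nat_lit 778) (nat_lit 5) (nat_lit 786) (nat_lit 5) (nat_lit 389) (nat_lit 386) (nat_lit 365))))) (XT.nd (nat_lit 312) (nat_lit 760) (nat_lit 0) (XT.nd (nat_lit 156) (nat_lit 608) (nat_lit 0) (XT.nd (nat_lit 78) (nat_lit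 0) (nat_lit 0) (XT.lf (nat_lit 0) (nat_lit 520292649) (nat_lit 608) (nat_lit 1492650260) (nat_lit 684) (nat_lit 4553105665) (nat_lit 770) (nat_lit 5) (nat_lit 778) (nat_lit 5) (nat_lit 779) (nat_lit 5) (nat_lit 390) (nat_lit 386) (nat_lit 364)) (XT.lf (nat_lit 76) (nat_lit 1934955312) (nat_lit 0) (nat_lit 1153976606) (nat_lit 684) (nat_lit 3494111676) (nat_lit 771) (nat_lit 5) (nat_lit 770) (nat_lit 5) (nat_lit 779) (nat_lit 5) (nat_lit 391) (nat_lit 386) (nat_lit 363))) (XT.nd (nat_lit 78) (nat_lit 608) (nat_lit 0) (XT.lf (nat_lit 76) (nat_lit 5415606343) (nat_lit 0) (nat_lit 237792709) (nat_lit 684) (nat_lit 948090360) (nat_lit 771) (nat_lit 5) (nat_lit 770) (nat_lit 5) (nat_lit 779) (nat_lit 5) (nat_lit 392) (nat_lit 386) (nat_lit 362)) (XT.lf (nat_lit 0) (nat_lit 1582531209) (nat_lit 684) (nat_lit 4296449359) (nat_lit 760) (nat_lit 742003374) (nat_lit 762) (nat_lit 5) (nat_lit 771) (nat_lit 5) (nat_lit 772)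 (nat_lit 5) (nat_lit 393) (nat_lit 386) (nat_lit 361)))) (XT.nd (nat_lit 156) (nat_lit 760) (nat_lit 0) (XT.nd (nat_lit 78) (nat_lit 0) (nat_lit 0) (XT.lf (nat_lit 0) (nat_lit 4097184910) (nat_lit 684) (nat_lit 764497794) (nat_lit 760) (nat_lit 1780138028) (nat_lit 762) (nat_lit 5) (nat_lit 771) (nat_lit 5) (nat_lit 772) (nat_lit 5) (nat_lit 394) (nat_lit 386) (nat_lit 360)) (XT.lf (nat_lit 76) (nat_lit 2838935855) (nat_lit 0) (nat_lit 3779390217) (nat_lit 760) (nat_lit 45624298) (nat_lit 763) (nat_lit 5) (nat_lit 762) (nat_lit 5) (nat_lit 772) (nat_lit 5) (nat_lit 395) (nat_lit 386) (nat_lit 359))) (XT.nd (nat_lit 78) (nat_lit 0) (nat_lit 0) (XT.lf (nat_lit 0) (nat_lit 2414041625) (nat_lit 760) (nat_lit 214876440) (nat_lit 836) (nat_lit 4058409339) (nat_lit 752) (nat_lit 5) (nat_lit 762) (nat_lit 5) (nat_lit 763) (nat_lit 5) (nat_lit 396) (nat_lit 386) (nat_lit 358)) (XT.lf (nat_lit 76) (nat_lit 3476512139) (nat_lit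 0) (nat_lit 1407901316) (nat_lit 836) (nat_lit 1827510024) (nat_lit 753) (nat_lit 5) (nat_lit 752) (nat_lit 5) (nat_lit 763) (nat_lit 5) (nat_lit 397) (nat_lit 386) (nat_lit 357)))))) (XT.nd (nat_lit 624) (nat_lit 4940) (nat_lit 0) (XT.nd (nat_lit 312) (nat_lit 1900) (nat_lit 0) (XT.nd (nat_lit 156) (nat_lit 836) (nat_lit 0) (XT.nd (nat_lit 78) (nat_lit 0) (nat_lit 76) (XT.lf (nat_lit 76) (nat_lit 472714302) (nat_lit 0) (nat_lit 130345974) (nat_lit 912) (nat_lit 6134971978) (nat_lit 742) (nat_lit 5) (nat_lit 741) (nat_lit 5) (nat_lit 753) (nat_lit 5) (nat_lit 398) (nat_lit 386) (nat_lit 356)) (XT.lf (nat_lit 0) (nat_lit 3028454870) (nat_lit 836) (nat_lit 2523115530) (nat_lit 912) (nat_lit 1213437543) (nat_lit 742) (nat_lit 5) (nat_lit 753) (nat_lit 5) (nat_lit 754) (nat_lit 5) (nat_lit 399) (nat_lit 386) (nat_lit 355))) (XT.nd (nat_lit 78) (nat_lit 912) (nat_lit 0) (XT.lf (nat_lit 76) (nat_lit 1272616133) (nat_lit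 0) (nat_lit 4181211164) (nat_lit 912) (nat_lit 1339666450) (nat_lit 743) (nat_lit 5) (nat_lit 742) (nat_lit 5) (nat_lit 754) (nat_lit 5) (nat_lit 400) (nat_lit 386) (nat_lit 354)) (XT.lf (nat_lit 0) (nat_lit 1050566194) (nat_lit 912) (nat_lit 1688691456) (nat_lit 988) (nat_lit 4083950055) (nat_lit 730) (nat_lit 5) (nat_lit 742) (nat_lit 5) (nat_lit 743) (nat_lit 5) (nat_lit 401) (nat_lit 386) (nat_lit 353)))) (XT.nd (nat_lit 156) (nat_lit 1900) (nat_lit 0) (XT.nd (nat_lit 78) (nat_lit 0) (nat_lit 76) (XT.lf (nat_lit 76) (nat_lit 2203243577) (nat_lit 0) (nat_lit 1225722949) (nat_lit 988) (nat_lit 3425206290) (nat_lit 731) (nat_lit 5) (nat_lit 730) (nat_lit 5) (nat_lit 743) (nat_lit 5) (nat_lit 402) (nat_lit 386) (nat_lit 352)) (XT.lf (nat_lit 0) (nat_lit 5813366935) (nat_lit 912) (nat_lit 729662017) (nat_lit 76) (nat_lit 343559636) (nat_lit 731) (nat_lit 5) (nat_lit 743) (nat_lit 5) (nat_lit 732) (nat_lit 5) (nat_lit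 403) (nat_lit 386) (nat_lit 351))) (XT.nd (nat_lit 78) (nat_lit 988) (nat_lit 0) (XT.lf (nat_lit 0) (nat_lit 1283623342) (nat_lit 988) (nat_lit 3660977652) (nat_lit 76) (nat_lit 1975375345) (nat_lit 718) (nat_lit 5) (nat_lit 731) (nat_lit 5) (nat_lit 719) (nat_lit 5) (nat_lit 404) (nat_lit 386) (nat_lit 350)) (XT.lf (nat_lit 0) (nat_lit 343127277) (nat_lit 988) (nat_lit 3283783107) (nat_lit 1064) (nat_lit 3327906070) (nat_lit 705) (nat_lit 5) (nat_lit 718) (nat_lit 5) (nat_lit 719) (nat_lit 5) (nat_lit 405) (nat_lit 386) (nat_lit 349))))) (XT.nd (nat_lit 312) (nat_lit 2660) (nat_lit 0) (XT.nd (nat_lit 156) (nat_lit 1140) (nat_lit 0) (XT.nd (nat_lit 78) (nat_lit 1140) (nat_lit 0) (XT.lf (nat_lit 0) (nat_lit 4439564844) (nat_lit 988) (nat_lit 1549377155) (nat_lit 1064) (nat_lit 1001973795) (nat_lit 705) (nat_lit 5) (nat_lit 718) (nat_lit 5) (nat_lit 719) (nat_lit 5) (nat_lit 406) (nat_lit 386) (nat_lit 348)) (XT.lf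 (nat_lit 0) (nat_lit 1312311436) (nat_lit 1140) (nat_lit 5465562611) (nat_lit 76) (nat_lit 250488946) (nat_lit 690) (nat_lit 5) (nat_lit 705) (nat_lit 5) (nat_lit 691) (nat_lit 5) (nat_lit 407) (nat_lit 386) (nat_lit 347))) (XT.nd (nat_lit 78) (nat_lit 1140) (nat_lit 0) (XT.lf (nat_lit 0) (nat_lit 3635846817) (nat_lit 1140) (nat_lit 1327611143) (nat_lit 76) (nat_lit 2103441097) (nat_lit 690) (nat_lit 5) (nat_lit 705) (nat_lit 5) (nat_lit 691) (nat_lit 5) (nat_lit 408) (nat_lit 386) (nat_lit 346)) (XT.lf (nat_lit 0) (nat_lit 2893594805) (nat_lit 1140) (nat_lit 3080920988) (nat_lit 1216) (nat_lit 1132316792) (nat_lit 675) (nat_lit 5) (nat_lit 690) (nat_lit 5) (nat_lit 691) (nat_lit 5) (nat_lit 409) (nat_lit 386) (nat_lit 345)))) (XT.nd (nat_lit 156) (nat_lit 1368) (nat_lit 0) (XT.nd (nat_lit 78) (nat_lit 0) (nat_lit 0) (XT.lf (nat_lit 0) (nat_lit 24354364) (nat_lit 1216) (nat_lit 1131554297) (nat_lit 1292) (nat_lit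 5992310369) (nat_lit 658) (nat_lit 5) (nat_lit 674) (nat_lit 5) (nat_lit 675) (nat_lit 5) (nat_lit 410) (nat_lit 386) (nat_lit 344)) (XT.lf (nat_lit 0) (nat_lit 3459868440) (nat_lit 1292) (nat_lit 2837979764) (nat_lit 76) (nat_lit 892732676) (nat_lit 658) (nat_lit 5) (nat_lit 675) (nat_lit 5) (nat_lit 659) (nat_lit 5) (nat_lit 411) (nat_lit 386) (nat_lit 343))) (XT.nd (nat_lit 78) (nat_lit 76) (nat_lit 0) (XT.lf (nat_lit 0) (nat_lit 1507991994) (nat_lit 1292) (nat_lit 4271253150) (nat_lit 1368) (nat_lit 1455158068) (nat_lit 641) (nat_lit 5) (nat_lit 658) (nat_lit 5) (nat_lit 659) (nat_lit 5) (nat_lit 412) (nat_lit 386) (nat_lit 342)) (XT.lf (nat_lit 0) (nat_lit 826157092) (nat_lit 1368) (nat_lit 1343413876) (nat_lit 76) (nat_lit 5109986459) (nat_lit 640) (nat_lit 5) (nat_lit 658) (nat_lit 5) (nat_lit 641) (nat_lit 5) (nat_lit 413) (nat_lit 386) (nat_lit 341))))))) (XT.nd (nat_lit 1248) (nat_lit 8892) (nat_lit 0)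 (XT.nd (nat_lit 624) (nat_lit 6688) (nat_lit 0) (XT.nd (nat_lit 312) (nat_lit 3344) (nat_lit 0) (XT.nd (nat_lit 156) (nat_lit 1596) (nat_lit 0) (XT.nd (nat_lit 78) (nat_lit 1444) (nat_lit 0) (XT.lf (nat_lit 0) (nat_lit 3107353296) (nat_lit 1444) (nat_lit 4205045925) (nat_lit 76) (nat_lit 13548345) (nat_lit 622) (nat_lit 5) (nat_lit 641) (nat_lit 5) (nat_lit 623) (nat_lit 5) (nat_lit 414) (nat_lit 386) (nat_lit 340)) (XT.lf (nat_lit 0) (nat_lit 270473348) (nat_lit 1444) (nat_lit 5142995709) (nat_lit 1520) (nat_lit 1960210539) (nat_lit 603) (nat_lit 5) (nat_lit 622) (nat_lit 5) (nat_lit 623) (nat_lit 5) (nat_lit 415) (nat_lit 386) (nat_lit 339))) (XT.nd (nat_lit 78) (nat_lit 1520) (nat_lit 0) (XT.lf (nat_lit 0) (nat_lit 321693162) (nat_lit 1520) (nat_lit 2570342813) (nat_lit 76) (nat_lit 4530628601) (nat_lit 602) (nat_lit 5) (nat_lit 622) (nat_lit 5) (nat_lit 603) (nat_lit 5) (nat_lit 416) (nat_lit 386) (nat_lit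 338)) (XT.lf (nat_lit 0) (nat_lit 2028935284) (nat_lit 1520) (nat_lit 562593622) (nat_lit 1596) (nat_lit 4881470388) (nat_lit 582) (nat_lit 5) (nat_lit 602) (nat_lit 5) (nat_lit 603) (nat_lit 5) (nat_lit 417) (nat_lit 386) (nat_lit 337)))) (XT.nd (nat_lit 156) (nat_lit 1748) (nat_lit 0) (XT.nd (nat_lit 78) (nat_lit 1596) (nat_lit 0) (XT.lf (nat_lit 0) (nat_lit 4891914371) (nat_lit 1596) (nat_lit 819387247) (nat_lit 76) (nat_lit 1813336027) (nat_lit 582) (nat_lit 5) (nat_lit 603) (nat_lit 5) (nat_lit 583) (nat_lit 5) (nat_lit 418) (nat_lit 386) (nat_lit 336)) (XT.lf (nat_lit 0) (nat_lit 3907516957) (nat_lit 1596) (nat_lit 3316765376) (nat_lit 1672) (nat_lit 353306935) (nat_lit 561) (nat_lit 5) (nat_lit 582) (nat_lit 5) (nat_lit 583) (nat_lit 5) (nat_lit 419) (nat_lit 386) (nat_lit 335))) (XT.nd (nat_lit 78) (nat_lit 0) (nat_lit 0) (XT.lf (nat_lit 0) (nat_lit 1071685373) (nat_lit 1672) (nat_lit 843845220) (nat_lit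 1748) (nat_lit 5716419458) (nat_lit 538) (nat_lit 5) (nat_lit 560) (nat_lit 5) (nat_lit 561) (nat_lit 5) (nat_lit 420) (nat_lit 386) (nat_lit 334)) (XT.lf (nat_lit 0) (nat_lit 4218528573) (nat_lit 1748) (nat_lit 1781009488) (nat_lit 76) (nat_lit 1687942992) (nat_lit 538) (nat_lit 5) (nat_lit 561) (nat_lit 5) (nat_lit 539) (nat_lit 5) (nat_lit 421) (nat_lit 386) (nat_lit 333))))) (XT.nd (nat_lit 312) (nat_lit 1900) (nat_lit 0) (XT.nd (nat_lit 156) (nat_lit 1140) (nat_lit 0) (XT.nd (nat_lit 78) (nat_lit 1900) (nat_lit 0) (XT.lf (nat_lit 0) (nat_lit 3090808371) (nat_lit 1748) (nat_lit 3461081831) (nat_lit 1824) (nat_lit 1192546399) (nat_lit 515) (nat_lit 5) (nat_lit 538) (nat_lit 5) (nat_lit 539) (nat_lit 5) (nat_lit 422) (nat_lit 386) (nat_lit 332)) (XT.lf (nat_lit 0) (nat_lit 239373577) (nat_lit 1824) (nat_lit 847730480) (nat_lit 1900) (nat_lit 6715829980) (nat_lit 490) (nat_lit 5) (nat_lit 514) (nat_lit 5) (nat_lit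 515) (nat_lit 5) (nat_lit 423) (nat_lit 386) (nat_lit 331))) (XT.nd (nat_lit 78) (nat_lit 1140) (nat_lit 0) (XT.lf (nat_lit 0) (nat_lit 3399150177) (nat_lit 1900) (nat_lit 2627408395) (nat_lit 76) (nat_lit 1835829779) (nat_lit 490) (nat_lit 5) (nat_lit 515) (nat_lit 5) (nat_lit 491) (nat_lit 5) (nat_lit 424) (nat_lit 386) (nat_lit 330)) (XT.lf (nat_lit 0) (nat_lit 2395186776) (nat_lit 1140) (nat_lit 3343727344) (nat_lit 1216) (nat_lit 2184488094) (nat_lit 475) (nat_lit 5) (nat_lit 490) (nat_lit 5) (nat_lit 491) (nat_lit 5) (nat_lit 425) (nat_lit 386) (nat_lit 329)))) (XT.nd (nat_lit 156) (nat_lit 912) (nat_lit 0) (XT.nd (nat_lit 78) (nat_lit 912) (nat_lit 0) (XT.lf (nat_lit 0) (nat_lit 116335992) (nat_lit 1216) (nat_lit 470811757) (nat_lit 76) (nat_lit 7398903786) (nat_lit 474) (nat_lit 5) (nat_lit 490) (nat_lit 5) (nat_lit 475) (nat_lit 5) (nat_lit 426) (nat_lit 386) (nat_lit 328)) (XT.lf (nat_lit 0) (nat_lit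 2440557120) (nat_lit 988) (nat_lit 3367296847) (nat_lit 76) (nat_lit 2241678470) (nat_lit 462) (nat_lit 5) (nat_lit 475) (nat_lit 5) (nat_lit 463) (nat_lit 5) (nat_lit 427) (nat_lit 386) (nat_lit 327))) (XT.nd (nat_lit 78) (nat_lit 0) (nat_lit 0) (XT.lf (nat_lit 0) (nat_lit 1812244079) (nat_lit 912) (nat_lit 2979731571) (nat_lit 988) (nat_lit 3322693047) (nat_lit 450) (nat_lit 5) (nat_lit 462) (nat_lit 5) (nat_lit 463) (nat_lit 5) (nat_lit 428) (nat_lit 386) (nat_lit 326)) (XT.lf (nat_lit 0) (nat_lit 7103150610) (nat_lit 912) (nat_lit 72247865) (nat_lit 988) (nat_lit 1006009688) (nat_lit 450) (nat_lit 5) (nat_lit 462) (nat_lit 5) (nat_lit 463) (nat_lit 5) (nat_lit 429) (nat_lit 386) (nat_lit 325)))))) (XT.nd (nat_lit 624) (nat_lit 3724) (nat_lit 0) (XT.nd (nat_lit 312) (nat_lit 2432) (nat_lit 0) (XT.nd (nat_lit 156) (nat_lit 912) (nat_lit 0) (XT.nd (nat_lit 78) (nat_lit 912) (nat_lit 0) (XT.lf (nat_lit 0) (nat_lit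 1348764656) (nat_lit 912) (nat_lit 4008689645) (nat_lit 76) (nat_lit 2891660812) (nat_lit 438) (nat_lit 5) (nat_lit 450) (nat_lit 5) (nat_lit 439) (nat_lit 5) (nat_lit 430) (nat_lit 386) (nat_lit 324)) (XT.lf (nat_lit 0) (nat_lit 1334276059) (nat_lit 912) (nat_lit 2382679181) (nat_lit 988) (nat_lit 4601492142) (nat_lit 426) (nat_lit 5) (nat_lit 438) (nat_lit 5) (nat_lit 439) (nat_lit 5) (nat_lit 431) (nat_lit 386) (nat_lit 323))) (XT.nd (nat_lit 78) (nat_lit 912) (nat_lit 0) (XT.lf (nat_lit 0) (nat_lit 6127634255) (nat_lit 988) (nat_lit 1593160242) (nat_lit 76) (nat_lit 668469309) (nat_lit 426) (nat_lit 5) (nat_lit 439) (nat_lit 5) (nat_lit 427) (nat_lit 5) (nat_lit 432) (nat_lit 386) (nat_lit 322)) (XT.lf (nat_lit 0) (nat_lit 129074875) (nat_lit 912) (nat_lit 4558955908) (nat_lit 76) (nat_lit 3773335850) (nat_lit 414) (nat_lit 5) (nat_lit 426) (nat_lit 5) (nat_lit 415) (nat_lit 5) (nat_lit 433) (nat_lit 386) (nat_lit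 321)))) (XT.nd (nat_lit 156) (nat_lit 1596) (nat_lit 0) (XT.nd (nat_lit 78) (nat_lit 0) (nat_lit 0) (XT.lf (nat_lit 0) (nat_lit 954230734) (nat_lit 836) (nat_lit 1564809769) (nat_lit 912) (nat_lit 6015937422) (nat_lit 403) (nat_lit 5) (nat_lit 414) (nat_lit 5) (nat_lit 415) (nat_lit 5) (nat_lit 434) (nat_lit 386) (nat_lit 320)) (XT.lf (nat_lit 0) (nat_lit 4963296361) (nat_lit 912) (nat_lit 2019150582) (nat_lit 76) (nat_lit 1627484679) (nat_lit 403) (nat_lit 5) (nat_lit 415) (nat_lit 5) (nat_lit 404) (nat_lit 5) (nat_lit 435) (nat_lit 386) (nat_lit 319))) (XT.nd (nat_lit 78) (nat_lit 836) (nat_lit 0) (XT.lf (nat_lit 0) (nat_lit 3653532148) (nat_lit 760) (nat_lit 3802843754) (nat_lit 836) (nat_lit 1230009721) (nat_lit 393) (nat_lit 5) (nat_lit 403) (nat_lit 5) (nat_lit 404) (nat_lit 5) (nat_lit 436) (nat_lit 386) (nat_lit 318)) (XT.lf (nat_lit 0) (nat_lit 665660743) (nat_lit 760) (nat_lit 537109710) (nat_lit 836)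 (nat_lit 7561757514) (nat_lit 382) (nat_lit 5) (nat_lit 392) (nat_lit 5) (nat_lit 393) (nat_lit 5) (nat_lit 437) (nat_lit 386) (nat_lit 317))))) (XT.nd (nat_lit 312) (nat_lit 2128) (nat_lit 0) (XT.nd (nat_lit 156) (nat_lit 836) (nat_lit 0) (XT.nd (nat_lit 78) (nat_lit 760) (nat_lit 0) (XT.lf (nat_lit 0) (nat_lit 3686340393) (nat_lit 836) (nat_lit 2361997186) (nat_lit 76) (nat_lit 2795360893) (nat_lit 382) (nat_lit 5) (nat_lit 393) (nat_lit 5) (nat_lit 383) (nat_lit 5) (nat_lit 438) (nat_lit 386) (nat_lit 316)) (XT.lf (nat_lit 0) (nat_lit 3494336139) (nat_lit 760) (nat_lit 2718599698) (nat_lit 836) (nat_lit 2711649468) (nat_lit 372) (nat_lit 5) (nat_lit 382) (nat_lit 5) (nat_lit 383) (nat_lit 5) (nat_lit 439) (nat_lit 386) (nat_lit 315))) (XT.nd (nat_lit 78) (nat_lit 76) (nat_lit 0) (XT.lf (nat_lit 0) (nat_lit 456606525) (nat_lit 760) (nat_lit 8324257806) (nat_lit 836) (nat_lit 226409520) (nat_lit 362) (nat_lit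 5) (nat_lit 372) (nat_lit 5) (nat_lit 373) (nat_lit 5) (nat_lit 440) (nat_lit 386) (nat_lit 314)) (XT.lf (nat_lit 0) (nat_lit 2300604846) (nat_lit 836) (nat_lit 2627411175) (nat_lit 76) (nat_lit 4162853446) (nat_lit 361) (nat_lit 5) (nat_lit 372) (nat_lit 5) (nat_lit 362) (nat_lit 5) (nat_lit 441) (nat_lit 386) (nat_lit 313)))) (XT.nd (nat_lit 156) (nat_lit 760) (nat_lit 0) (XT.nd (nat_lit 78) (nat_lit 684) (nat_lit 0) (XT.lf (nat_lit 0) (nat_lit 3420318046) (nat_lit 684) (nat_lit 1445315081) (nat_lit 760) (nat_lit 4310663835) (nat_lit 352) (nat_lit 5) (nat_lit 361) (nat_lit 5) (nat_lit 362) (nat_lit 5) (nat_lit 442) (nat_lit 386) (nat_lit 312)) (XT.lf (nat_lit 0) (nat_lit 314166052) (nat_lit 684) (nat_lit 7169902725) (nat_lit 760) (nat_lit 1779322091) (nat_lit 343) (nat_lit 5) (nat_lit 352) (nat_lit 5) (nat_lit 353) (nat_lit 5) (nat_lit 443) (nat_lit 386) (nat_lit 311))) (XT.nd (nat_lit 78) (nat_lit 684) (nat_lit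 0) (XT.lf (nat_lit 0) (nat_lit 809377934) (nat_lit 760) (nat_lit 2820615672) (nat_lit 76) (nat_lit 5721783655) (nat_lit 342) (nat_lit 5) (nat_lit 352) (nat_lit 5) (nat_lit 343) (nat_lit 5) (nat_lit 444) (nat_lit 386) (nat_lit 310)) (XT.lf (nat_lit 0) (nat_lit 3417771513) (nat_lit 760) (nat_lit 6015315705) (nat_lit 76) (nat_lit 8774043) (nat_lit 333) (nat_lit 5) (nat_lit 343) (nat_lit 5) (nat_lit 334) (nat_lit 5) (nat_lit 445) (nat_lit 386) (nat_lit 309))))))))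
noncomputable def xc40 : XT := (XT.nd (nat_lit 56238) (nat_lit 0) (nat_lit 10032) (XT.nd (nat_lit 54990) (nat_lit 0) (nat_lit 34732) (XT.nd (nat_lit 624) (nat_lit 2280) (nat_lit 0) (XT.nd (nat_lit 312) (nat_lit 1292) (nat_lit 0) (XT.nd (nat_lit 156) (nat_lit 1292) (nat_lit 0) (XT.nd (nat_lit 78) (nat_lit 0) (nat_lit 0) (XT.lf (nat_lit 0) (nat_lit 245130461) (nat_lit 684) (nat_lit 5847620877) (nat_lit 760) (nat_lit 3440707237) (nat_lit 324) (nat_lit 5) (nat_lit 333) (nat_lit 5) (nat_lit 334) (nat_lit 5) (nat_lit 446) (nat_lit 386) (nat_lit 308)) (XT.lf (nat_lit 0) (nat_lit 6675135785) (nat_lit 684) (nat_lit 2156546872) (nat_lit 760) (nat_lit 794996138) (nat_lit 324) (nat_lit 5) (nat_lit 333) (nat_lit 5) (nat_lit 334) (nat_lit 5) (nat_lit 447) (nat_lit 386) (nat_lit 307))) (XT.nd (nat_lit 78) (nat_lit 608) (nat_lit 0) (XT.lf (nat_lit 0) (nat_lit 1882549983) (nat_lit 684) (nat_lit 6223494209) (nat_lit 76) (nat_lit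 1615394293) (nat_lit 315) (nat_lit 5) (nat_lit 324) (nat_lit 5) (nat_lit 316) (nat_lit 5) (nat_lit 448) (nat_lit 386) (nat_lit 306)) (XT.lf (nat_lit 0) (nat_lit 245125046) (nat_lit 608) (nat_lit 4364469010) (nat_lit 684) (nat_lit 5208262372) (nat_lit 307) (nat_lit 5) (nat_lit 315) (nat_lit 5) (nat_lit 316) (nat_lit 5) (nat_lit 449) (nat_lit 386) (nat_lit 305)))) (XT.nd (nat_lit 156) (nat_lit 608) (nat_lit 0) (XT.nd (nat_lit 78) (nat_lit 684) (nat_lit 0) (XT.lf (nat_lit 0) (nat_lit 6890577149) (nat_lit 608) (nat_lit 513469533) (nat_lit 684) (nat_lit 2511898694) (nat_lit 307) (nat_lit 5) (nat_lit 315) (nat_lit 5) (nat_lit 316) (nat_lit 5) (nat_lit 450) (nat_lit 386) (nat_lit 304)) (XT.lf (nat_lit 0) (nat_lit 252816315) (nat_lit 684) (nat_lit 6375467284) (nat_lit 76) (nat_lit 3387330536) (nat_lit 298) (nat_lit 5) (nat_lit 307) (nat_lit 5) (nat_lit 299) (nat_lit 5) (nat_lit 451) (nat_lit 386) (nat_lit 303))) (XT.nd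 (nat_lit 78) (nat_lit 0) (nat_lit 0) (XT.lf (nat_lit 0) (nat_lit 310183083) (nat_lit 608) (nat_lit 2726644632) (nat_lit 684) (nat_lit 7080163753) (nat_lit 290) (nat_lit 5) (nat_lit 298) (nat_lit 5) (nat_lit 299) (nat_lit 5) (nat_lit 452) (nat_lit 386) (nat_lit 302)) (XT.lf (nat_lit 0) (nat_lit 5899735347) (nat_lit 684) (nat_lit 3049078707) (nat_lit 76) (nat_lit 1271117975) (nat_lit 290) (nat_lit 5) (nat_lit 299) (nat_lit 5) (nat_lit 291) (nat_lit 5) (nat_lit 453) (nat_lit 386) (nat_lit 301))))) (XT.nd (nat_lit 312) (nat_lit 532) (nat_lit 0) (XT.nd (nat_lit 156) (nat_lit 532) (nat_lit 0) (XT.nd (nat_lit 78) (nat_lit 684) (nat_lit 0) (XT.lf (nat_lit 0) (nat_lit 3839747691) (nat_lit 532) (nat_lit 4995704061) (nat_lit 608) (nat_lit 1489168635) (nat_lit 283) (nat_lit 5) (nat_lit 290) (nat_lit 5) (nat_lit 291) (nat_lit 5) (nat_lit 454) (nat_lit 386) (nat_lit 300)) (XT.lf (nat_lit 0) (nat_lit 436717278) (nat_lit 608)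 (nat_lit 939540215) (nat_lit 684) (nat_lit 9055041046) (nat_lit 274) (nat_lit 5) (nat_lit 282) (nat_lit 5) (nat_lit 283) (nat_lit 5) (nat_lit 455) (nat_lit 386) (nat_lit 299))) (XT.nd (nat_lit 78) (nat_lit 532) (nat_lit 0) (XT.lf (nat_lit 0) (nat_lit 4316565067) (nat_lit 684) (nat_lit 3022232512) (nat_lit 76) (nat_lit 3200365549) (nat_lit 274) (nat_lit 5) (nat_lit 283) (nat_lit 5) (nat_lit 275) (nat_lit 5) (nat_lit 456) (nat_lit 386) (nat_lit 298)) (XT.lf (nat_lit 0) (nat_lit 4101124471) (nat_lit 532) (nat_lit 3220861755) (nat_lit 608) (nat_lit 3327072633) (nat_lit 267) (nat_lit 5) (nat_lit 274) (nat_lit 5) (nat_lit 275) (nat_lit 5) (nat_lit 457) (nat_lit 386) (nat_lit 297)))) (XT.nd (nat_lit 53898) (nat_lit 0) (nat_lit 38760) (XT.nd (nat_lit 53820) (nat_lit 0) (nat_lit 39368) (XT.lf (nat_lit 0) (nat_lit 612478136) (nat_lit 532) (nat_lit 9779473033) (nat_lit 608) (nat_lit 369112630) (nat_lit 260) (nat_lit 5) (nat_lit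 267) (nat_lit 5) (nat_lit 268) (nat_lit 5) (nat_lit 458) (nat_lit 386) (nat_lit 296)) (XT.lf (nat_lit 0) (nat_lit 452385931) (nat_lit 0) (nat_lit 452385931) (nat_lit 532) (nat_lit 2362782681) (nat_lit 778) (nat_lit 5) (nat_lit 778) (nat_lit 3) (nat_lit 785) (nat_lit 3) (nat_lit 387) (nat_lit 387) (nat_lit 366))) (XT.nd (nat_lit 78) (nat_lit 608) (nat_lit 0) (XT.lf (nat_lit 0) (nat_lit 4203248290) (nat_lit 0) (nat_lit 198059297) (nat_lit 532) (nat_lit 2147679222) (nat_lit 778) (nat_lit 5) (nat_lit 778) (nat_lit 3) (nat_lit 785) (nat_lit 3) (nat_lit 388) (nat_lit 387) (nat_lit 365)) (XT.lf (nat_lit 0) (nat_lit 417524510) (nat_lit 608) (nat_lit 5588369907) (nat_lit 684) (nat_lit 558343545) (nat_lit 770) (nat_lit 5) (nat_lit 778) (nat_lit 5) (nat_lit 779) (nat_lit 5) (nat_lit 389) (nat_lit 387) (nat_lit 364)))))) (XT.nd (nat_lit 624) (nat_lit 1824) (nat_lit 0) (XT.nd (nat_lit 312) (nat_lit 1520) (nat_lit 0) (XT.nd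 (nat_lit 156) (nat_lit 684) (nat_lit 0) (XT.nd (nat_lit 78) (nat_lit 0) (nat_lit 0) (XT.lf (nat_lit 0) (nat_lit 2955822882) (nat_lit 608) (nat_lit 2235390996) (nat_lit 684) (nat_lit 1389285375) (nat_lit 770) (nat_lit 5) (nat_lit 778) (nat_lit 5) (nat_lit 779) (nat_lit 5) (nat_lit 390) (nat_lit 387) (nat_lit 363)) (XT.lf (nat_lit 76) (nat_lit 1164650913) (nat_lit 0) (nat_lit 4322468652) (nat_lit 684) (nat_lit 1111121560) (nat_lit 771) (nat_lit 5) (nat_lit 770) (nat_lit 5) (nat_lit 779) (nat_lit 5) (nat_lit 391) (nat_lit 387) (nat_lit 362))) (XT.nd (nat_lit 78) (nat_lit 0) (nat_lit 0) (XT.lf (nat_lit 0) (nat_lit 1384050321) (nat_lit 684) (nat_lit 1998473096) (nat_lit 760) (nat_lit 3234617808) (nat_lit 761) (nat_lit 5) (nat_lit 770) (nat_lit 5) (nat_lit 771) (nat_lit 5) (nat_lit 392) (nat_lit 387) (nat_lit 361)) (XT.lf (nat_lit 76) (nat_lit 1482232602) (nat_lit 0) (nat_lit 2378219783) (nat_lit 760) (nat_lit 2776895960)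 (nat_lit 762) (nat_lit 5) (nat_lit 761) (nat_lit 5) (nat_lit 771) (nat_lit 5) (nat_lit 393) (nat_lit 387) (nat_lit 360)))) (XT.nd (nat_lit 156) (nat_lit 760) (nat_lit 0) (XT.nd (nat_lit 78) (nat_lit 760) (nat_lit 0) (XT.lf (nat_lit 76) (nat_lit 5024678705) (nat_lit 0) (nat_lit 1312698485) (nat_lit 760) (nat_lit 321562523) (nat_lit 762) (nat_lit 5) (nat_lit 761) (nat_lit 5) (nat_lit 771) (nat_lit 5) (nat_lit 394) (nat_lit 387) (nat_lit 359)) (XT.lf (nat_lit 76) (nat_lit 1933094435) (nat_lit 0) (nat_lit 172107737) (nat_lit 836) (nat_lit 4576458215) (nat_lit 752) (nat_lit 5) (nat_lit 751) (nat_lit 5) (nat_lit 762) (nat_lit 5) (nat_lit 395) (nat_lit 387) (nat_lit 358))) (XT.nd (nat_lit 78) (nat_lit 836) (nat_lit 0) (XT.lf (nat_lit 0) (nat_lit 4533227091) (nat_lit 760) (nat_lit 1155549827) (nat_lit 836) (nat_lit 1016875432) (nat_lit 752) (nat_lit 5) (nat_lit 762) (nat_lit 5) (nat_lit 763) (nat_lit 5) (nat_lit 396) (nat_lit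 387) (nat_lit 357)) (XT.lf (nat_lit 0) (nat_lit 233886609) (nat_lit 836) (nat_lit 4226987425) (nat_lit 912) (nat_lit 2270056471) (nat_lit 741) (nat_lit 5) (nat_lit 752) (nat_lit 5) (nat_lit 753) (nat_lit 5) (nat_lit 397) (nat_lit 387) (nat_lit 356))))) (XT.nd (nat_lit 312) (nat_lit 912) (nat_lit 0) (XT.nd (nat_lit 156) (nat_lit 912) (nat_lit 0) (XT.nd (nat_lit 78) (nat_lit 0) (nat_lit 0) (XT.lf (nat_lit 0) (nat_lit 2608351749) (nat_lit 836) (nat_lit 554788823) (nat_lit 912) (nat_lit 3594304140) (nat_lit 741) (nat_lit 5) (nat_lit 752) (nat_lit 5) (nat_lit 753) (nat_lit 5) (nat_lit 398) (nat_lit 387) (nat_lit 355)) (XT.lf (nat_lit 76) (nat_lit 3197414853) (nat_lit 0) (nat_lit 1796085308) (nat_lit 912) (nat_lit 1791725165) (nat_lit 742) (nat_lit 5) (nat_lit 741) (nat_lit 5) (nat_lit 753) (nat_lit 5) (nat_lit 399) (nat_lit 387) (nat_lit 354))) (XT.nd (nat_lit 78) (nat_lit 0) (nat_lit 76) (XT.lf (nat_lit 76) (nat_lit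 181169713) (nat_lit 0) (nat_lit 371466827) (nat_lit 988) (nat_lit 6261887770) (nat_lit 730) (nat_lit 5) (nat_lit 729) (nat_lit 5) (nat_lit 742) (nat_lit 5) (nat_lit 400) (nat_lit 387) (nat_lit 353)) (XT.lf (nat_lit 0) (nat_lit 2895154480) (nat_lit 912) (nat_lit 2825731276) (nat_lit 988) (nat_lit 1123781447) (nat_lit 730) (nat_lit 5) (nat_lit 742) (nat_lit 5) (nat_lit 743) (nat_lit 5) (nat_lit 401) (nat_lit 387) (nat_lit 352)))) (XT.nd (nat_lit 156) (nat_lit 0) (nat_lit 0) (XT.nd (nat_lit 78) (nat_lit 988) (nat_lit 0) (XT.lf (nat_lit 76) (nat_lit 1032936695) (nat_lit 0) (nat_lit 4205830563) (nat_lit 988) (nat_lit 1637560808) (nat_lit 731) (nat_lit 5) (nat_lit 730) (nat_lit 5) (nat_lit 743) (nat_lit 5) (nat_lit 402) (nat_lit 387) (nat_lit 351)) (XT.lf (nat_lit 0) (nat_lit 675829908) (nat_lit 988) (nat_lit 1942645963) (nat_lit 1064) (nat_lit 4290759679) (nat_lit 717) (nat_lit 5) (nat_lit 730) (nat_lit 5) (nat_lit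 731) (nat_lit 5) (nat_lit 403) (nat_lit 387) (nat_lit 350))) (XT.nd (nat_lit 78) (nat_lit 0) (nat_lit 76) (XT.lf (nat_lit 76) (nat_lit 2015745431) (nat_lit 0) (nat_lit 957554744) (nat_lit 1064) (nat_lit 3970089749) (nat_lit 718) (nat_lit 5) (nat_lit 717) (nat_lit 5) (nat_lit 731) (nat_lit 5) (nat_lit 404) (nat_lit 387) (nat_lit 349)) (XT.lf (nat_lit 0) (nat_lit 5282179162) (nat_lit 988) (nat_lit 940082460) (nat_lit 76) (nat_lit 756656577) (nat_lit 718) (nat_lit 5) (nat_lit 731) (nat_lit 5) (nat_lit 719) (nat_lit 5) (nat_lit 405) (nat_lit 387) (nat_lit 348))))))) (XT.nd (nat_lit 1248) (nat_lit 11096) (nat_lit 0) (XT.nd (nat_lit 624) (nat_lit 7752) (nat_lit 0) (XT.nd (nat_lit 312) (nat_lit 2584) (nat_lit 0) (XT.nd (nat_lit 156) (nat_lit 1216) (nat_lit 0) (XT.nd (nat_lit 78) (nat_lit 1064) (nat_lit 0) (XT.lf (nat_lit 0) (nat_lit 588974335) (nat_lit 1064) (nat_lit 3893805269) (nat_lit 76) (nat_lit 2532795571) (nat_lit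 704) (nat_lit 5) (nat_lit 718) (nat_lit 5) (nat_lit 705) (nat_lit 5) (nat_lit 406) (nat_lit 387) (nat_lit 347)) (XT.lf (nat_lit 0) (nat_lit 179234366) (nat_lit 1064) (nat_lit 2675005761) (nat_lit 1140) (nat_lit 4199369705) (nat_lit 690) (nat_lit 5) (nat_lit 704) (nat_lit 5) (nat_lit 705) (nat_lit 5) (nat_lit 407) (nat_lit 387) (nat_lit 346))) (XT.nd (nat_lit 78) (nat_lit 1216) (nat_lit 0) (XT.lf (nat_lit 0) (nat_lit 4350156018) (nat_lit 1064) (nat_lit 790570502) (nat_lit 1140) (nat_lit 1952160356) (nat_lit 690) (nat_lit 5) (nat_lit 704) (nat_lit 5) (nat_lit 705) (nat_lit 5) (nat_lit 408) (nat_lit 387) (nat_lit 345)) (XT.lf (nat_lit 0) (nat_lit 302916204) (nat_lit 1216) (nat_lit 5689140259) (nat_lit 76) (nat_lit 1141501206) (nat_lit 674) (nat_lit 5) (nat_lit 690) (nat_lit 5) (nat_lit 675) (nat_lit 5) (nat_lit 409) (nat_lit 387) (nat_lit 344)))) (XT.nd (nat_lit 156) (nat_lit 1368) (nat_lit 0) (XT.nd (nat_lit 78)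 (nat_lit 1216) (nat_lit 0) (XT.lf (nat_lit 0) (nat_lit 2552006593) (nat_lit 1216) (nat_lit 1477598607) (nat_lit 76) (nat_lit 3145677570) (nat_lit 674) (nat_lit 5) (nat_lit 690) (nat_lit 5) (nat_lit 675) (nat_lit 5) (nat_lit 410) (nat_lit 387) (nat_lit 343)) (XT.lf (nat_lit 0) (nat_lit 2818743928) (nat_lit 1216) (nat_lit 1997856276) (nat_lit 1292) (nat_lit 2401831739) (nat_lit 658) (nat_lit 5) (nat_lit 674) (nat_lit 5) (nat_lit 675) (nat_lit 5) (nat_lit 411) (nat_lit 387) (nat_lit 342))) (XT.nd (nat_lit 78) (nat_lit 1368) (nat_lit 0) (XT.lf (nat_lit 0) (nat_lit 7089943946) (nat_lit 1292) (nat_lit 78924050) (nat_lit 76) (nat_lit 94306939) (nat_lit 658) (nat_lit 5) (nat_lit 675) (nat_lit 5) (nat_lit 659) (nat_lit 5) (nat_lit 412) (nat_lit 387) (nat_lit 341)) (XT.lf (nat_lit 0) (nat_lit 2067663842) (nat_lit 1368) (nat_lit 2987067909) (nat_lit 76) (nat_lit 2253903087) (nat_lit 640) (nat_lit 5) (nat_lit 658) (nat_lit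 5) (nat_lit 641) (nat_lit 5) (nat_lit 413) (nat_lit 387) (nat_lit 340))))) (XT.nd (nat_lit 312) (nat_lit 3344) (nat_lit 0) (XT.nd (nat_lit 156) (nat_lit 3040) (nat_lit 0) (XT.nd (nat_lit 78) (nat_lit 0) (nat_lit 0) (XT.lf (nat_lit 0) (nat_lit 1437030172) (nat_lit 1368) (nat_lit 2878175037) (nat_lit 1444) (nat_lit 3040492865) (nat_lit 622) (nat_lit 5) (nat_lit 640) (nat_lit 5) (nat_lit 641) (nat_lit 5) (nat_lit 414) (nat_lit 387) (nat_lit 339)) (XT.lf (nat_lit 0) (nat_lit 5953532659) (nat_lit 1368) (nat_lit 629151287) (nat_lit 1444) (nat_lit 821518899) (nat_lit 622) (nat_lit 5) (nat_lit 640) (nat_lit 5) (nat_lit 641) (nat_lit 5) (nat_lit 415) (nat_lit 387) (nat_lit 338))) (XT.nd (nat_lit 78) (nat_lit 1520) (nat_lit 0) (XT.lf (nat_lit 0) (nat_lit 1409651502) (nat_lit 1520) (nat_lit 4363472174) (nat_lit 76) (nat_lit 1680632270) (nat_lit 602) (nat_lit 5) (nat_lit 622) (nat_lit 5) (nat_lit 603) (nat_lit 5) (nat_lit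 416) (nat_lit 387) (nat_lit 337)) (XT.lf (nat_lit 0) (nat_lit 193351534) (nat_lit 1520) (nat_lit 3452544160) (nat_lit 1596) (nat_lit 3858866801) (nat_lit 582) (nat_lit 5) (nat_lit 602) (nat_lit 5) (nat_lit 603) (nat_lit 5) (nat_lit 417) (nat_lit 387) (nat_lit 336)))) (XT.nd (nat_lit 156) (nat_lit 1672) (nat_lit 0) (XT.nd (nat_lit 78) (nat_lit 1672) (nat_lit 0) (XT.lf (nat_lit 0) (nat_lit 4863575635) (nat_lit 1520) (nat_lit 1049408381) (nat_lit 1596) (nat_lit 1644082774) (nat_lit 582) (nat_lit 5) (nat_lit 602) (nat_lit 5) (nat_lit 603) (nat_lit 5) (nat_lit 418) (nat_lit 387) (nat_lit 335)) (XT.lf (nat_lit 0) (nat_lit 586587701) (nat_lit 1672) (nat_lit 5617853200) (nat_lit 76) (nat_lit 1406303277) (nat_lit 560) (nat_lit 5) (nat_lit 582) (nat_lit 5) (nat_lit 561) (nat_lit 5) (nat_lit 419) (nat_lit 387) (nat_lit 334))) (XT.nd (nat_lit 78) (nat_lit 1672) (nat_lit 0) (XT.lf (nat_lit 0) (nat_lit 2823060307) (nat_lit 1672)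 (nat_lit 910940345) (nat_lit 76) (nat_lit 3931613057) (nat_lit 560) (nat_lit 5) (nat_lit 582) (nat_lit 5) (nat_lit 561) (nat_lit 5) (nat_lit 420) (nat_lit 387) (nat_lit 333)) (XT.lf (nat_lit 0) (nat_lit 3904693017) (nat_lit 1672) (nat_lit 1183782226) (nat_lit 1748) (nat_lit 2633421129) (nat_lit 538) (nat_lit 5) (nat_lit 560) (nat_lit 5) (nat_lit 561) (nat_lit 5) (nat_lit 421) (nat_lit 387) (nat_lit 332)))))) (XT.nd (nat_lit 624) (nat_lit 4408) (nat_lit 0) (XT.nd (nat_lit 312) (nat_lit 1900) (nat_lit 0) (XT.nd (nat_lit 156) (nat_lit 2964) (nat_lit 0) (XT.nd (nat_lit 78) (nat_lit 76) (nat_lit 0) (XT.lf (nat_lit 0) (nat_lit 1016668958) (nat_lit 1748) (nat_lit 6363945308) (nat_lit 1824) (nat_lit 399062106) (nat_lit 515) (nat_lit 5) (nat_lit 538) (nat_lit 5) (nat_lit 539) (nat_lit 5) (nat_lit 422) (nat_lit 387) (nat_lit 331)) (XT.lf (nat_lit 0) (nat_lit 1848701041) (nat_lit 1824) (nat_lit 1896869163) (nat_lit 76) (nat_lit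 4092930180) (nat_lit 514) (nat_lit 5) (nat_lit 538) (nat_lit 5) (nat_lit 515) (nat_lit 5) (nat_lit 423) (nat_lit 387) (nat_lit 330))) (XT.nd (nat_lit 78) (nat_lit 1140) (nat_lit 0) (XT.lf (nat_lit 0) (nat_lit 3067398089) (nat_lit 1824) (nat_lit 1049136317) (nat_lit 1900) (nat_lit 3782304547) (nat_lit 490) (nat_lit 5) (nat_lit 514) (nat_lit 5) (nat_lit 515) (nat_lit 5) (nat_lit 424) (nat_lit 387) (nat_lit 329)) (XT.lf (nat_lit 0) (nat_lit 150039053) (nat_lit 1140) (nat_lit 6265608170) (nat_lit 1216) (nat_lit 1545018614) (nat_lit 475) (nat_lit 5) (nat_lit 490) (nat_lit 5) (nat_lit 491) (nat_lit 5) (nat_lit 425) (nat_lit 387) (nat_lit 328)))) (XT.nd (nat_lit 156) (nat_lit 912) (nat_lit 0) (XT.nd (nat_lit 78) (nat_lit 912) (nat_lit 0) (XT.lf (nat_lit 0) (nat_lit 728288903) (nat_lit 1216) (nat_lit 2775989027) (nat_lit 76) (nat_lit 4519336789) (nat_lit 474) (nat_lit 5) (nat_lit 490) (nat_lit 5) (nat_lit 475) (nat_lit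 5) (nat_lit 426) (nat_lit 387) (nat_lit 327)) (XT.lf (nat_lit 0) (nat_lit 2342974968) (nat_lit 912) (nat_lit 660746760) (nat_lit 988) (nat_lit 5084349657) (nat_lit 462) (nat_lit 5) (nat_lit 474) (nat_lit 5) (nat_lit 475) (nat_lit 5) (nat_lit 427) (nat_lit 387) (nat_lit 326))) (XT.nd (nat_lit 78) (nat_lit 912) (nat_lit 0) (XT.lf (nat_lit 0) (nat_lit 5320581718) (nat_lit 988) (nat_lit 603534946) (nat_lit 76) (nat_lit 2229782152) (nat_lit 462) (nat_lit 5) (nat_lit 475) (nat_lit 5) (nat_lit 463) (nat_lit 5) (nat_lit 428) (nat_lit 387) (nat_lit 325)) (XT.lf (nat_lit 0) (nat_lit 4660971089) (nat_lit 912) (nat_lit 3020804040) (nat_lit 988) (nat_lit 539307743) (nat_lit 450) (nat_lit 5) (nat_lit 462) (nat_lit 5) (nat_lit 463) (nat_lit 5) (nat_lit 429) (nat_lit 387) (nat_lit 324))))) (XT.nd (nat_lit 312) (nat_lit 1672) (nat_lit 0) (XT.nd (nat_lit 156) (nat_lit 1824) (nat_lit 0) (XT.nd (nat_lit 78) (nat_lit 0) (nat_lit 0)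 (XT.lf (nat_lit 0) (nat_lit 1723421298) (nat_lit 836) (nat_lit 32412969) (nat_lit 912) (nat_lit 6533965180) (nat_lit 438) (nat_lit 5) (nat_lit 449) (nat_lit 5) (nat_lit 450) (nat_lit 5) (nat_lit 430) (nat_lit 387) (nat_lit 323)) (XT.lf (nat_lit 0) (nat_lit 4097365324) (nat_lit 912) (nat_lit 1259193427) (nat_lit 76) (nat_lit 3003106156) (nat_lit 438) (nat_lit 5) (nat_lit 450) (nat_lit 5) (nat_lit 439) (nat_lit 5) (nat_lit 431) (nat_lit 387) (nat_lit 322))) (XT.nd (nat_lit 78) (nat_lit 912) (nat_lit 0) (XT.lf (nat_lit 0) (nat_lit 4172015341) (nat_lit 912) (nat_lit 2305790402) (nat_lit 988) (nat_lit 1953280360) (nat_lit 426) (nat_lit 5) (nat_lit 438) (nat_lit 5) (nat_lit 439) (nat_lit 5) (nat_lit 432) (nat_lit 387) (nat_lit 321)) (XT.lf (nat_lit 0) (nat_lit 383301175) (nat_lit 912) (nat_lit 7308208341) (nat_lit 76) (nat_lit 812640951) (nat_lit 414) (nat_lit 5) (nat_lit 426) (nat_lit 5) (nat_lit 415) (nat_lit 5) (nat_lit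 433) (nat_lit 387) (nat_lit 320)))) (XT.nd (nat_lit 156) (nat_lit 836) (nat_lit 0) (XT.nd (nat_lit 78) (nat_lit 836) (nat_lit 0) (XT.lf (nat_lit 0) (nat_lit 2749960442) (nat_lit 912) (nat_lit 1825992640) (nat_lit 76) (nat_lit 4002274802) (nat_lit 414) (nat_lit 5) (nat_lit 426) (nat_lit 5) (nat_lit 415) (nat_lit 5) (nat_lit 434) (nat_lit 387) (nat_lit 319)) (XT.lf (nat_lit 0) (nat_lit 3778877851) (nat_lit 836) (nat_lit 1375723809) (nat_lit 912) (nat_lit 3499372216) (nat_lit 403) (nat_lit 5) (nat_lit 414) (nat_lit 5) (nat_lit 415) (nat_lit 5) (nat_lit 435) (nat_lit 387) (nat_lit 318))) (XT.nd (nat_lit 78) (nat_lit 76) (nat_lit 0) (XT.lf (nat_lit 0) (nat_lit 750143140) (nat_lit 760) (nat_lit 6853182922) (nat_lit 836) (nat_lit 1127988917) (nat_lit 393) (nat_lit 5) (nat_lit 403) (nat_lit 5) (nat_lit 404) (nat_lit 5) (nat_lit 436) (nat_lit 387) (nat_lit 317)) (XT.lf (nat_lit 0) (nat_lit 1282657577) (nat_lit 836) (nat_lit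 2310446024) (nat_lit 76) (nat_lit 5216756389) (nat_lit 392) (nat_lit 5) (nat_lit 403) (nat_lit 5) (nat_lit 393) (nat_lit 5) (nat_lit 437) (nat_lit 387) (nat_lit 316))))))))
noncomputable def xc41 : XT := (XT.nd (nat_lit 56316) (nat_lit 0) (nat_lit 13832) (XT.nd (nat_lit 1248) (nat_lit 1748) (nat_lit 0) (XT.nd (nat_lit 624) (nat_lit 3952) (nat_lit 0) (XT.nd (nat_lit 312) (nat_lit 1444) (nat_lit 0) (XT.nd (nat_lit 156) (nat_lit 836) (nat_lit 0) (XT.nd (nat_lit 78) (nat_lit 760) (nat_lit 0) (XT.lf (nat_lit 0) (nat_lit 3475373517) (nat_lit 760) (nat_lit 240993778) (nat_lit 836) (nat_lit 5173660404) (nat_lit 382) (nat_lit 5) (nat_lit 392) (nat_lit 5) (nat_lit 393) (nat_lit 5) (nat_lit 438) (nat_lit 387) (nat_lit 315)) (XT.lf (nat_lit 0) (nat_lit 384231607) (nat_lit 760) (nat_lit 5821010435) (nat_lit 836) (nat_lit 2766426902) (nat_lit 372) (nat_lit 5) (nat_lit 382) (nat_lit 5) (nat_lit 383) (nat_lit 5) (nat_lit 439)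 (nat_lit 387) (nat_lit 314))) (XT.nd (nat_lit 78) (nat_lit 836) (nat_lit 0) (XT.lf (nat_lit 0) (nat_lit 6334307403) (nat_lit 760) (nat_lit 2415656844) (nat_lit 836) (nat_lit 304857371) (nat_lit 372) (nat_lit 5) (nat_lit 382) (nat_lit 5) (nat_lit 383) (nat_lit 5) (nat_lit 440) (nat_lit 387) (nat_lit 313)) (XT.lf (nat_lit 0) (nat_lit 2173789831) (nat_lit 836) (nat_lit 5890770398) (nat_lit 76) (nat_lit 1074855112) (nat_lit 361) (nat_lit 5) (nat_lit 372) (nat_lit 5) (nat_lit 362) (nat_lit 5) (nat_lit 441) (nat_lit 387) (nat_lit 312)))) (XT.nd (nat_lit 156) (nat_lit 760) (nat_lit 0) (XT.nd (nat_lit 78) (nat_lit 0) (nat_lit 0) (XT.lf (nat_lit 0) (nat_lit 95221680) (nat_lit 684) (nat_lit 4606620126) (nat_lit 760) (nat_lit 4523740555) (nat_lit 352) (nat_lit 5) (nat_lit 361) (nat_lit 5) (nat_lit 362) (nat_lit 5) (nat_lit 442) (nat_lit 387) (nat_lit 311)) (XT.lf (nat_lit 0) (nat_lit 6244407082) (nat_lit 684) (nat_lit 1044868289)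 (nat_lit 760) (nat_lit 2024020937) (nat_lit 352) (nat_lit 5) (nat_lit 361) (nat_lit 5) (nat_lit 362) (nat_lit 5) (nat_lit 443) (nat_lit 387) (nat_lit 310))) (XT.nd (nat_lit 78) (nat_lit 0) (nat_lit 0) (XT.lf (nat_lit 0) (nat_lit 525640457) (nat_lit 760) (nat_lit 6304633010) (nat_lit 76) (nat_lit 2572285967) (nat_lit 342) (nat_lit 5) (nat_lit 352) (nat_lit 5) (nat_lit 343) (nat_lit 5) (nat_lit 444) (nat_lit 387) (nat_lit 309)) (XT.lf (nat_lit 0) (nat_lit 3096885236) (nat_lit 760) (nat_lit 120368464) (nat_lit 76) (nat_lit 6276132711) (nat_lit 342) (nat_lit 5) (nat_lit 352) (nat_lit 5) (nat_lit 343) (nat_lit 5) (nat_lit 445) (nat_lit 387) (nat_lit 308))))) (XT.nd (nat_lit 312) (nat_lit 1900) (nat_lit 0) (XT.nd (nat_lit 156) (nat_lit 684) (nat_lit 0) (XT.nd (nat_lit 78) (nat_lit 684) (nat_lit 0) (XT.lf (nat_lit 0) (nat_lit 5733898428) (nat_lit 760) (nat_lit 3355414239) (nat_lit 76) (nat_lit 496430390) (nat_lit 333)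 (nat_lit 5) (nat_lit 343) (nat_lit 5) (nat_lit 334) (nat_lit 5) (nat_lit 446) (nat_lit 387) (nat_lit 307)) (XT.lf (nat_lit 0) (nat_lit 3011950009) (nat_lit 684) (nat_lit 5424286086) (nat_lit 760) (nat_lit 1243459056) (nat_lit 324) (nat_lit 5) (nat_lit 333) (nat_lit 5) (nat_lit 334) (nat_lit 5) (nat_lit 447) (nat_lit 387) (nat_lit 306))) (XT.nd (nat_lit 78) (nat_lit 608) (nat_lit 0) (XT.lf (nat_lit 0) (nat_lit 1392231643) (nat_lit 760) (nat_lit 268410217) (nat_lit 76) (nat_lit 8114825955) (nat_lit 323) (nat_lit 5) (nat_lit 333) (nat_lit 5) (nat_lit 324) (nat_lit 5) (nat_lit 448) (nat_lit 387) (nat_lit 305)) (XT.lf (nat_lit 0) (nat_lit 4090938689) (nat_lit 684) (nat_lit 3589310363) (nat_lit 76) (nat_lit 2192203448) (nat_lit 315) (nat_lit 5) (nat_lit 324) (nat_lit 5) (nat_lit 316) (nat_lit 5) (nat_lit 449) (nat_lit 387) (nat_lit 304)))) (XT.nd (nat_lit 156) (nat_lit 1292) (nat_lit 0) (XT.nd (nat_lit 78) (nat_lit 0)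 (nat_lit 0) (XT.lf (nat_lit 0) (nat_lit 2990532239) (nat_lit 608) (nat_lit 3857221094) (nat_lit 684) (nat_lit 3123540875) (nat_lit 307) (nat_lit 5) (nat_lit 315) (nat_lit 5) (nat_lit 316) (nat_lit 5) (nat_lit 450) (nat_lit 387) (nat_lit 303)) (XT.lf (nat_lit 0) (nat_lit 9656401201) (nat_lit 684) (nat_lit 357412475) (nat_lit 76) (nat_lit 58365135) (nat_lit 307) (nat_lit 5) (nat_lit 316) (nat_lit 5) (nat_lit 308) (nat_lit 5) (nat_lit 451) (nat_lit 387) (nat_lit 302))) (XT.nd (nat_lit 78) (nat_lit 608) (nat_lit 0) (XT.lf (nat_lit 0) (nat_lit 2355597077) (nat_lit 684) (nat_lit 3767964363) (nat_lit 76) (nat_lit 4050410489) (nat_lit 298) (nat_lit 5) (nat_lit 307) (nat_lit 5) (nat_lit 299) (nat_lit 5) (nat_lit 452) (nat_lit 387) (nat_lit 301)) (XT.lf (nat_lit 0) (nat_lit 3033405510) (nat_lit 608) (nat_lit 2138392032) (nat_lit 684) (nat_lit 5106049091) (nat_lit 290) (nat_lit 5) (nat_lit 298) (nat_lit 5) (nat_lit 299) (nat_lit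 5) (nat_lit 453) (nat_lit 387) (nat_lit 300)))))) (XT.nd (nat_lit 54444) (nat_lit 0) (nat_lit 35948) (XT.nd (nat_lit 312) (nat_lit 532) (nat_lit 0) (XT.nd (nat_lit 156) (nat_lit 608) (nat_lit 0) (XT.nd (nat_lit 78) (nat_lit 608) (nat_lit 0) (XT.lf (nat_lit 0) (nat_lit 8055383644) (nat_lit 684) (nat_lit 409736713) (nat_lit 76) (nat_lit 1918457241) (nat_lit 290) (nat_lit 5) (nat_lit 299) (nat_lit 5) (nat_lit 291) (nat_lit 5) (nat_lit 454) (nat_lit 387) (nat_lit 299)) (XT.lf (nat_lit 0) (nat_lit 529431009) (nat_lit 608) (nat_lit 3895192636) (nat_lit 76) (nat_lit 6066117157) (nat_lit 282) (nat_lit 5) (nat_lit 290) (nat_lit 5) (nat_lit 283) (nat_lit 5) (nat_lit 455) (nat_lit 387) (nat_lit 298))) (XT.nd (nat_lit 78) (nat_lit 0) (nat_lit 0) (XT.lf (nat_lit 0) (nat_lit 3137141335) (nat_lit 608) (nat_lit 272805473) (nat_lit 684) (nat_lit 7189854419) (nat_lit 274) (nat_lit 5) (nat_lit 282) (nat_lit 5) (nat_lit 283) (nat_lit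 5) (nat_lit 456) (nat_lit 387) (nat_lit 297)) (XT.lf (nat_lit 0) (nat_lit 6374087595) (nat_lit 684) (nat_lit 408792743) (nat_lit 76) (nat_lit 3927642227) (nat_lit 274) (nat_lit 5) (nat_lit 283) (nat_lit 5) (nat_lit 275) (nat_lit 5) (nat_lit 457) (nat_lit 387) (nat_lit 296)))) (XT.nd (nat_lit 53976) (nat_lit 0) (nat_lit 38152) (XT.nd (nat_lit 53898) (nat_lit 0) (nat_lit 38152) (XT.lf (nat_lit 0) (nat_lit 6839440035) (nat_lit 532) (nat_lit 2578772751) (nat_lit 608) (nat_lit 1404831514) (nat_lit 267) (nat_lit 5) (nat_lit 274) (nat_lit 5) (nat_lit 275) (nat_lit 5) (nat_lit 458) (nat_lit 387) (nat_lit 295)) (XT.lf (nat_lit 0) (nat_lit 195461714) (nat_lit 684) (nat_lit 1543139516) (nat_lit 684) (nat_lit 1543139516) (nat_lit 769) (nat_lit 3) (nat_lit 778) (nat_lit 3) (nat_lit 778) (nat_lit 5) (nat_lit 388) (nat_lit 388) (nat_lit 364))) (XT.nd (nat_lit 78) (nat_lit 0) (nat_lit 0) (XT.lf (nat_lit 76) (nat_lit 198059297)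 (nat_lit 0) (nat_lit 2688171357) (nat_lit 684) (nat_lit 3693057694) (nat_lit 770) (nat_lit 5) (nat_lit 769) (nat_lit 3) (nat_lit 778) (nat_lit 5) (nat_lit 389) (nat_lit 388) (nat_lit 363)) (XT.lf (nat_lit 76) (nat_lit 3556165594) (nat_lit 0) (nat_lit 1830453299) (nat_lit 684) (nat_lit 1209688949) (nat_lit 770) (nat_lit 5) (nat_lit 769) (nat_lit 3) (nat_lit 778) (nat_lit 5) (nat_lit 390) (nat_lit 388) (nat_lit 362))))) (XT.nd (nat_lit 312) (nat_lit 836) (nat_lit 0) (XT.nd (nat_lit 156) (nat_lit 684) (nat_lit 0) (XT.nd (nat_lit 78) (nat_lit 0) (nat_lit 76) (XT.lf (nat_lit 76) (nat_lit 329544485) (nat_lit 0) (nat_lit 913910192) (nat_lit 760) (nat_lit 5371291941) (nat_lit 761) (nat_lit 5) (nat_lit 760) (nat_lit 5) (nat_lit 770) (nat_lit 5) (nat_lit 391) (nat_lit 388) (nat_lit 361)) (XT.lf (nat_lit 0) (nat_lit 3686717872) (nat_lit 684) (nat_lit 2868788754) (nat_lit 760) (nat_lit 78742533) (nat_lit 761) (nat_lit 5) (nat_lit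 770) (nat_lit 5) (nat_lit 771) (nat_lit 5) (nat_lit 392) (nat_lit 388) (nat_lit 360))) (XT.nd (nat_lit 78) (nat_lit 760) (nat_lit 0) (XT.lf (nat_lit 76) (nat_lit 583042225) (nat_lit 0) (nat_lit 5543452887) (nat_lit 760) (nat_lit 528693663) (nat_lit 762) (nat_lit 5) (nat_lit 761) (nat_lit 5) (nat_lit 771) (nat_lit 5) (nat_lit 393) (nat_lit 388) (nat_lit 359)) (XT.lf (nat_lit 0) (nat_lit 1870877730) (nat_lit 760) (nat_lit 2581175381) (nat_lit 836) (nat_lit 2225086727) (nat_lit 751) (nat_lit 5) (nat_lit 761) (nat_lit 5) (nat_lit 762) (nat_lit 5) (nat_lit 394) (nat_lit 388) (nat_lit 358)))) (XT.nd (nat_lit 156) (nat_lit 836) (nat_lit 0) (XT.nd (nat_lit 78) (nat_lit 0) (nat_lit 0) (XT.lf (nat_lit 76) (nat_lit 954220288) (nat_lit 0) (nat_lit 3302953389) (nat_lit 836) (nat_lit 2443370106) (nat_lit 752) (nat_lit 5) (nat_lit 751) (nat_lit 5) (nat_lit 762) (nat_lit 5) (nat_lit 395) (nat_lit 388) (nat_lit 357)) (XT.lf (nat_lit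 76) (nat_lit 4561130345) (nat_lit 0) (nat_lit 2087958710) (nat_lit 836) (nat_lit 76168883) (nat_lit 752) (nat_lit 5) (nat_lit 751) (nat_lit 5) (nat_lit 762) (nat_lit 5) (nat_lit 396) (nat_lit 388) (nat_lit 356))) (XT.nd (nat_lit 78) (nat_lit 0) (nat_lit 76) (XT.lf (nat_lit 76) (nat_lit 1459378746) (nat_lit 0) (nat_lit 799156515) (nat_lit 912) (nat_lit 4492610926) (nat_lit 741) (nat_lit 5) (nat_lit 740) (nat_lit 5) (nat_lit 752) (nat_lit 5) (nat_lit 397) (nat_lit 388) (nat_lit 355)) (XT.lf (nat_lit 0) (nat_lit 4599313841) (nat_lit 836) (nat_lit 1631891852) (nat_lit 912) (nat_lit 547128432) (nat_lit 741) (nat_lit 5) (nat_lit 752) (nat_lit 5) (nat_lit 753) (nat_lit 5) (nat_lit 398) (nat_lit 388) (nat_lit 354))))))) (XT.nd (nat_lit 1248) (nat_lit 14516) (nat_lit 0) (XT.nd (nat_lit 624) (nat_lit 4788) (nat_lit 0) (XT.nd (nat_lit 312) (nat_lit 988) (nat_lit 0) (XT.nd (nat_lit 156) (nat_lit 988) (nat_lit 0) (XT.nd (nat_lit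 78) (nat_lit 0) (nat_lit 0) (XT.lf (nat_lit 0) (nat_lit 140637474) (nat_lit 912) (nat_lit 4719141517) (nat_lit 988) (nat_lit 1947020007) (nat_lit 729) (nat_lit 5) (nat_lit 741) (nat_lit 5) (nat_lit 742) (nat_lit 5) (nat_lit 399) (nat_lit 388) (nat_lit 353)) (XT.lf (nat_lit 0) (nat_lit 2432639944) (nat_lit 912) (nat_lit 981593732) (nat_lit 988) (nat_lit 3422208854) (nat_lit 729) (nat_lit 5) (nat_lit 741) (nat_lit 5) (nat_lit 742) (nat_lit 5) (nat_lit 400) (nat_lit 388) (nat_lit 352))) (XT.nd (nat_lit 78) (nat_lit 988) (nat_lit 0) (XT.lf (nat_lit 76) (nat_lit 2833360150) (nat_lit 0) (nat_lit 1900692864) (nat_lit 988) (nat_lit 2133354507) (nat_lit 730) (nat_lit 5) (nat_lit 729) (nat_lit 5) (nat_lit 742) (nat_lit 5) (nat_lit 401) (nat_lit 388) (nat_lit 351)) (XT.lf (nat_lit 0) (nat_lit 132409128) (nat_lit 988) (nat_lit 197169656) (nat_lit 1064) (nat_lit 6570343326) (nat_lit 716) (nat_lit 5) (nat_lit 729) (nat_lit 5)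 (nat_lit 730) (nat_lit 5) (nat_lit 402) (nat_lit 388) (nat_lit 350)))) (XT.nd (nat_lit 156) (nat_lit 1064) (nat_lit 0) (XT.nd (nat_lit 78) (nat_lit 0) (nat_lit 0) (XT.lf (nat_lit 0) (nat_lit 2394456853) (nat_lit 988) (nat_lit 3225278762) (nat_lit 1064) (nat_lit 1313478659) (nat_lit 717) (nat_lit 5) (nat_lit 730) (nat_lit 5) (nat_lit 731) (nat_lit 5) (nat_lit 403) (nat_lit 388) (nat_lit 349)) (XT.lf (nat_lit 76) (nat_lit 698381758) (nat_lit 0) (nat_lit 3959089728) (nat_lit 1064) (nat_lit 2310586275) (nat_lit 718) (nat_lit 5) (nat_lit 717) (nat_lit 5) (nat_lit 731) (nat_lit 5) (nat_lit 404) (nat_lit 388) (nat_lit 348))) (XT.nd (nat_lit 78) (nat_lit 1064) (nat_lit 0) (XT.lf (nat_lit 76) (nat_lit 4709211043) (nat_lit 0) (nat_lit 2226654308) (nat_lit 1064) (nat_lit 68330387) (nat_lit 718) (nat_lit 5) (nat_lit 717) (nat_lit 5) (nat_lit 731) (nat_lit 5) (nat_lit 405) (nat_lit 388) (nat_lit 347)) (XT.lf (nat_lit 76) (nat_lit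 1732503851) (nat_lit 0) (nat_lit 417567128) (nat_lit 1140) (nat_lit 4891489384) (nat_lit 704) (nat_lit 5) (nat_lit 703) (nat_lit 5) (nat_lit 718) (nat_lit 5) (nat_lit 406) (nat_lit 388) (nat_lit 346))))) (XT.nd (nat_lit 312) (nat_lit 2584) (nat_lit 0) (XT.nd (nat_lit 156) (nat_lit 1216) (nat_lit 0) (XT.nd (nat_lit 78) (nat_lit 1064) (nat_lit 0) (XT.lf (nat_lit 0) (nat_lit 4386720296) (nat_lit 1064) (nat_lit 1253420533) (nat_lit 76) (nat_lit 1440026520) (nat_lit 704) (nat_lit 5) (nat_lit 718) (nat_lit 5) (nat_lit 705) (nat_lit 5) (nat_lit 407) (nat_lit 388) (nat_lit 345)) (XT.lf (nat_lit 0) (nat_lit 2883196599) (nat_lit 1064) (nat_lit 3757392810) (nat_lit 1140) (nat_lit 479507330) (nat_lit 690) (nat_lit 5) (nat_lit 704) (nat_lit 5) (nat_lit 705) (nat_lit 5) (nat_lit 408) (nat_lit 388) (nat_lit 344))) (XT.nd (nat_lit 78) (nat_lit 1140) (nat_lit 0) (XT.lf (nat_lit 0) (nat_lit 1715265934) (nat_lit 1140) (nat_lit 88318320)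 (nat_lit 76) (nat_lit 5357811834) (nat_lit 689) (nat_lit 5) (nat_lit 704) (nat_lit 5) (nat_lit 690) (nat_lit 5) (nat_lit 409) (nat_lit 388) (nat_lit 343)) (XT.lf (nat_lit 0) (nat_lit 3928408031) (nat_lit 1216) (nat_lit 3045663121) (nat_lit 76) (nat_lit 229769002) (nat_lit 674) (nat_lit 5) (nat_lit 690) (nat_lit 5) (nat_lit 675) (nat_lit 5) (nat_lit 410) (nat_lit 388) (nat_lit 342)))) (XT.nd (nat_lit 156) (nat_lit 1292) (nat_lit 0) (XT.nd (nat_lit 78) (nat_lit 76) (nat_lit 0) (XT.lf (nat_lit 0) (nat_lit 1211940257) (nat_lit 1216) (nat_lit 4947439405) (nat_lit 1292) (nat_lit 1088282104) (nat_lit 658) (nat_lit 5) (nat_lit 674) (nat_lit 5) (nat_lit 675) (nat_lit 5) (nat_lit 411) (nat_lit 388) (nat_lit 341)) (XT.lf (nat_lit 0) (nat_lit 1101738503) (nat_lit 1292) (nat_lit 1739591777) (nat_lit 76) (nat_lit 4451398897) (nat_lit 657) (nat_lit 5) (nat_lit 674) (nat_lit 5) (nat_lit 658) (nat_lit 5) (nat_lit 412) (nat_lit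 388) (nat_lit 340))) (XT.nd (nat_lit 78) (nat_lit 0) (nat_lit 0) (XT.lf (nat_lit 0) (nat_lit 2634444543) (nat_lit 1292) (nat_lit 658111834) (nat_lit 1368) (nat_lit 4046566309) (nat_lit 640) (nat_lit 5) (nat_lit 657) (nat_lit 5) (nat_lit 658) (nat_lit 5) (nat_lit 413) (nat_lit 388) (nat_lit 339)) (XT.lf (nat_lit 0) (nat_lit 5504306162) (nat_lit 1368) (nat_lit 313019642) (nat_lit 76) (nat_lit 1569575950) (nat_lit 640) (nat_lit 5) (nat_lit 658) (nat_lit 5) (nat_lit 641) (nat_lit 5) (nat_lit 414) (nat_lit 388) (nat_lit 338)))))) (XT.nd (nat_lit 624) (nat_lit 6688) (nat_lit 0) (XT.nd (nat_lit 312) (nat_lit 3420) (nat_lit 0) (XT.nd (nat_lit 156) (nat_lit 1520) (nat_lit 0) (XT.nd (nat_lit 78) (nat_lit 1444) (nat_lit 0) (XT.lf (nat_lit 0) (nat_lit 307880212) (nat_lit 1444) (nat_lit 3256335671) (nat_lit 76) (nat_lit 3871628692) (nat_lit 621) (nat_lit 5) (nat_lit 640) (nat_lit 5) (nat_lit 622) (nat_lit 5) (nat_lit 415) (nat_lit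 388) (nat_lit 337)) (XT.lf (nat_lit 0) (nat_lit 1248573248) (nat_lit 1444) (nat_lit 1235033494) (nat_lit 1520) (nat_lit 5002577647) (nat_lit 602) (nat_lit 5) (nat_lit 621) (nat_lit 5) (nat_lit 622) (nat_lit 5) (nat_lit 416) (nat_lit 388) (nat_lit 336))) (XT.nd (nat_lit 78) (nat_lit 1520) (nat_lit 0) (XT.lf (nat_lit 0) (nat_lit 4689328163) (nat_lit 1520) (nat_lit 1693324593) (nat_lit 76) (nat_lit 1155148637) (nat_lit 602) (nat_lit 5) (nat_lit 622) (nat_lit 5) (nat_lit 603) (nat_lit 5) (nat_lit 417) (nat_lit 388) (nat_lit 335)) (XT.lf (nat_lit 0) (nat_lit 2936494688) (nat_lit 1520) (nat_lit 3987833167) (nat_lit 1596) (nat_lit 666419605) (nat_lit 582) (nat_lit 5) (nat_lit 602) (nat_lit 5) (nat_lit 603) (nat_lit 5) (nat_lit 418) (nat_lit 388) (nat_lit 334)))) (XT.nd (nat_lit 156) (nat_lit 1748) (nat_lit 0) (XT.nd (nat_lit 78) (nat_lit 1596) (nat_lit 0) (XT.lf (nat_lit 0) (nat_lit 1508502611) (nat_lit 1596) (nat_lit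 8867290) (nat_lit 76) (nat_lit 6127786516) (nat_lit 581) (nat_lit 5) (nat_lit 602) (nat_lit 5) (nat_lit 582) (nat_lit 5) (nat_lit 419) (nat_lit 388) (nat_lit 333)) (XT.lf (nat_lit 0) (nat_lit 3714698890) (nat_lit 1672) (nat_lit 2955510625) (nat_lit 76) (nat_lit 1030421958) (nat_lit 560) (nat_lit 5) (nat_lit 582) (nat_lit 5) (nat_lit 561) (nat_lit 5) (nat_lit 420) (nat_lit 388) (nat_lit 332))) (XT.nd (nat_lit 78) (nat_lit 76) (nat_lit 0) (XT.lf (nat_lit 0) (nat_lit 1814937847) (nat_lit 1672) (nat_lit 4131641401) (nat_lit 1748) (nat_lit 1811005579) (nat_lit 538) (nat_lit 5) (nat_lit 560) (nat_lit 5) (nat_lit 561) (nat_lit 5) (nat_lit 421) (nat_lit 388) (nat_lit 331)) (XT.lf (nat_lit 0) (nat_lit 382004435) (nat_lit 1748) (nat_lit 1133405268) (nat_lit 76) (nat_lit 6300616084) (nat_lit 537) (nat_lit 5) (nat_lit 560) (nat_lit 5) (nat_lit 538) (nat_lit 5) (nat_lit 422) (nat_lit 388) (nat_lit 330))))) (XT.nd (nat_lit 312)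 (nat_lit 1900) (nat_lit 0) (XT.nd (nat_lit 156) (nat_lit 1216) (nat_lit 0) (XT.nd (nat_lit 78) (nat_lit 1824) (nat_lit 0) (XT.lf (nat_lit 0) (nat_lit 2587653038) (nat_lit 1824) (nat_lit 4109414988) (nat_lit 76) (nat_lit 1178467570) (nat_lit 514) (nat_lit 5) (nat_lit 538) (nat_lit 5) (nat_lit 515) (nat_lit 5) (nat_lit 423) (nat_lit 388) (nat_lit 329)) (XT.lf (nat_lit 0) (nat_lit 807360343) (nat_lit 1824) (nat_lit 4014299716) (nat_lit 1900) (nat_lit 3114890633) (nat_lit 490) (nat_lit 5) (nat_lit 514) (nat_lit 5) (nat_lit 515) (nat_lit 5) (nat_lit 424) (nat_lit 388) (nat_lit 328))) (XT.nd (nat_lit 78) (nat_lit 1216) (nat_lit 0) (XT.lf (nat_lit 0) (nat_lit 5842353356) (nat_lit 1824) (nat_lit 1247407806) (nat_lit 1900) (nat_lit 909236650) (nat_lit 490) (nat_lit 5) (nat_lit 514) (nat_lit 5) (nat_lit 515) (nat_lit 5) (nat_lit 425) (nat_lit 388) (nat_lit 327)) (XT.lf (nat_lit 0) (nat_lit 1314596343) (nat_lit 1216) (nat_lit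 5164132986) (nat_lit 76) (nat_lit 1583957527) (nat_lit 474) (nat_lit 5) (nat_lit 490) (nat_lit 5) (nat_lit 475) (nat_lit 5) (nat_lit 426) (nat_lit 388) (nat_lit 326)))) (XT.nd (nat_lit 156) (nat_lit 988) (nat_lit 0) (XT.nd (nat_lit 78) (nat_lit 912) (nat_lit 0) (XT.lf (nat_lit 0) (nat_lit 3556430044) (nat_lit 1216) (nat_lit 93788784) (nat_lit 76) (nat_lit 4477596678) (nat_lit 474) (nat_lit 5) (nat_lit 490) (nat_lit 5) (nat_lit 475) (nat_lit 5) (nat_lit 427) (nat_lit 388) (nat_lit 325)) (XT.lf (nat_lit 0) (nat_lit 5109543175) (nat_lit 912) (nat_lit 730318360) (nat_lit 988) (nat_lit 2354449972) (nat_lit 462) (nat_lit 5) (nat_lit 474) (nat_lit 5) (nat_lit 475) (nat_lit 5) (nat_lit 428) (nat_lit 388) (nat_lit 324))) (XT.nd (nat_lit 78) (nat_lit 76) (nat_lit 0) (XT.lf (nat_lit 0) (nat_lit 2133548699) (nat_lit 912) (nat_lit 6028571053) (nat_lit 988) (nat_lit 100154513) (nat_lit 450) (nat_lit 5) (nat_lit 462) (nat_lit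 5) (nat_lit 463) (nat_lit 5) (nat_lit 429) (nat_lit 388) (nat_lit 323)) (XT.lf (nat_lit 0) (nat_lit 2160372327) (nat_lit 988) (nat_lit 888547633) (nat_lit 76) (nat_lit 5282590967) (nat_lit 449) (nat_lit 5) (nat_lit 462) (nat_lit 5) (nat_lit 450) (nat_lit 5) (nat_lit 430) (nat_lit 388) (nat_lit 322))))))))
noncomputable def xc42 : XT := (XT.nd (nat_lit 56394) (nat_lit 0) (nat_lit 18772) (XT.nd (nat_lit 1248) (nat_lit 5016) (nat_lit 0) (XT.nd (nat_lit 624) (nat_lit 3724) (nat_lit 0) (XT.nd (nat_lit 312) (nat_lit 2432) (nat_lit 0) (XT.nd (nat_lit 156) (nat_lit 912) (nat_lit 0) (XT.nd (nat_lit 78) (nat_lit 912) (nat_lit 0) (XT.lf (nat_lit 0) (nat_lit 4458996469) (nat_lit 912) (nat_lit 3923304773) (nat_lit 76) (nat_lit 19933284) (nat_lit 438) (nat_lit 5) (nat_lit 450) (nat_lit 5) (nat_lit 439) (nat_lit 5) (nat_lit 431) (nat_lit 388) (nat_lit 321)) (XT.lf (nat_lit 0) (nat_lit 1454489064) (nat_lit 912) (nat_lit 5350208419)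 (nat_lit 988) (nat_lit 1669653026) (nat_lit 426) (nat_lit 5) (nat_lit 438) (nat_lit 5) (nat_lit 439) (nat_lit 5) (nat_lit 432) (nat_lit 388) (nat_lit 320))) (XT.nd (nat_lit 78) (nat_lit 836) (nat_lit 0) (XT.lf (nat_lit 0) (nat_lit 633075495) (nat_lit 988) (nat_lit 1594876214) (nat_lit 76) (nat_lit 6320028999) (nat_lit 425) (nat_lit 5) (nat_lit 438) (nat_lit 5) (nat_lit 426) (nat_lit 5) (nat_lit 433) (nat_lit 388) (nat_lit 319)) (XT.lf (nat_lit 0) (nat_lit 2957931973) (nat_lit 912) (nat_lit 4685605463) (nat_lit 76) (nat_lit 979356745) (nat_lit 414) (nat_lit 5) (nat_lit 426) (nat_lit 5) (nat_lit 415) (nat_lit 5) (nat_lit 434) (nat_lit 388) (nat_lit 318)))) (XT.nd (nat_lit 156) (nat_lit 1596) (nat_lit 0) (XT.nd (nat_lit 78) (nat_lit 0) (nat_lit 0) (XT.lf (nat_lit 0) (nat_lit 863287168) (nat_lit 836) (nat_lit 4463909648) (nat_lit 912) (nat_lit 3372150884) (nat_lit 403) (nat_lit 5) (nat_lit 414) (nat_lit 5) (nat_lit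 415) (nat_lit 5) (nat_lit 435) (nat_lit 388) (nat_lit 317)) (XT.lf (nat_lit 0) (nat_lit 6551074498) (nat_lit 836) (nat_lit 1191413838) (nat_lit 912) (nat_lit 1034869124) (nat_lit 403) (nat_lit 5) (nat_lit 414) (nat_lit 5) (nat_lit 415) (nat_lit 5) (nat_lit 436) (nat_lit 388) (nat_lit 316))) (XT.nd (nat_lit 78) (nat_lit 760) (nat_lit 0) (XT.lf (nat_lit 0) (nat_lit 1335926308) (nat_lit 836) (nat_lit 5373600875) (nat_lit 76) (nat_lit 2147135791) (nat_lit 392) (nat_lit 5) (nat_lit 403) (nat_lit 5) (nat_lit 393) (nat_lit 5) (nat_lit 437) (nat_lit 388) (nat_lit 315)) (XT.lf (nat_lit 0) (nat_lit 353594546) (nat_lit 760) (nat_lit 3379938767) (nat_lit 836) (nat_lit 5204019424) (nat_lit 382) (nat_lit 5) (nat_lit 392) (nat_lit 5) (nat_lit 393) (nat_lit 5) (nat_lit 438) (nat_lit 388) (nat_lit 314))))) (XT.nd (nat_lit 312) (nat_lit 2128) (nat_lit 0) (XT.nd (nat_lit 156) (nat_lit 836) (nat_lit 0) (XT.nd (nat_lit 78) (nat_lit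 760) (nat_lit 0) (XT.lf (nat_lit 0) (nat_lit 6183883122) (nat_lit 836) (nat_lit 2787596896) (nat_lit 76) (nat_lit 48484465) (nat_lit 382) (nat_lit 5) (nat_lit 393) (nat_lit 5) (nat_lit 383) (nat_lit 5) (nat_lit 439) (nat_lit 388) (nat_lit 313)) (XT.lf (nat_lit 0) (nat_lit 3107685397) (nat_lit 760) (nat_lit 5587121969) (nat_lit 836) (nat_lit 408985748) (nat_lit 372) (nat_lit 5) (nat_lit 382) (nat_lit 5) (nat_lit 383) (nat_lit 5) (nat_lit 440) (nat_lit 388) (nat_lit 312))) (XT.nd (nat_lit 78) (nat_lit 760) (nat_lit 0) (XT.lf (nat_lit 0) (nat_lit 2027560748) (nat_lit 836) (nat_lit 79363354) (nat_lit 76) (nat_lit 7082345584) (nat_lit 371) (nat_lit 5) (nat_lit 382) (nat_lit 5) (nat_lit 372) (nat_lit 5) (nat_lit 441) (nat_lit 388) (nat_lit 311)) (XT.lf (nat_lit 0) (nat_lit 4525703490) (nat_lit 836) (nat_lit 3289044404) (nat_lit 76) (nat_lit 1461286997) (nat_lit 361) (nat_lit 5) (nat_lit 372) (nat_lit 5) (nat_lit 362)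 (nat_lit 5) (nat_lit 442) (nat_lit 388) (nat_lit 310)))) (XT.nd (nat_lit 156) (nat_lit 1368) (nat_lit 0) (XT.nd (nat_lit 78) (nat_lit 76) (nat_lit 0) (XT.lf (nat_lit 0) (nat_lit 2798775796) (nat_lit 684) (nat_lit 4277818123) (nat_lit 760) (nat_lit 2287885784) (nat_lit 352) (nat_lit 5) (nat_lit 361) (nat_lit 5) (nat_lit 362) (nat_lit 5) (nat_lit 443) (nat_lit 388) (nat_lit 309)) (XT.lf (nat_lit 0) (nat_lit 213378236) (nat_lit 760) (nat_lit 438274749) (nat_lit 76) (nat_lit 8803161267) (nat_lit 351) (nat_lit 5) (nat_lit 361) (nat_lit 5) (nat_lit 352) (nat_lit 5) (nat_lit 444) (nat_lit 388) (nat_lit 308))) (XT.nd (nat_lit 78) (nat_lit 684) (nat_lit 0) (XT.lf (nat_lit 0) (nat_lit 2762937328) (nat_lit 760) (nat_lit 3728118297) (nat_lit 76) (nat_lit 3055019317) (nat_lit 342) (nat_lit 5) (nat_lit 352) (nat_lit 5) (nat_lit 343) (nat_lit 5) (nat_lit 445) (nat_lit 388) (nat_lit 307)) (XT.lf (nat_lit 0) (nat_lit 2560419602)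 (nat_lit 684) (nat_lit 2798148910) (nat_lit 760) (nat_lit 4280690715) (nat_lit 333) (nat_lit 5) (nat_lit 342) (nat_lit 5) (nat_lit 343) (nat_lit 5) (nat_lit 446) (nat_lit 388) (nat_lit 306)))))) (XT.nd (nat_lit 624) (nat_lit 1748) (nat_lit 0) (XT.nd (nat_lit 312) (nat_lit 1900) (nat_lit 0) (XT.nd (nat_lit 156) (nat_lit 608) (nat_lit 0) (XT.nd (nat_lit 78) (nat_lit 760) (nat_lit 0) (XT.lf (nat_lit 0) (nat_lit 8009064175) (nat_lit 760) (nat_lit 750273600) (nat_lit 76) (nat_lit 974910387) (nat_lit 333) (nat_lit 5) (nat_lit 343) (nat_lit 5) (nat_lit 334) (nat_lit 5) (nat_lit 447) (nat_lit 388) (nat_lit 305)) (XT.lf (nat_lit 0) (nat_lit 897808721) (nat_lit 760) (nat_lit 4109631120) (nat_lit 76) (nat_lit 4823023858) (nat_lit 323) (nat_lit 5) (nat_lit 333) (nat_lit 5) (nat_lit 324) (nat_lit 5) (nat_lit 448) (nat_lit 388) (nat_lit 304))) (XT.nd (nat_lit 78) (nat_lit 0) (nat_lit 0) (XT.lf (nat_lit 0) (nat_lit 2388164447)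 (nat_lit 608) (nat_lit 1154772871) (nat_lit 684) (nat_lit 6385582633) (nat_lit 315) (nat_lit 5) (nat_lit 323) (nat_lit 5) (nat_lit 324) (nat_lit 5) (nat_lit 449) (nat_lit 388) (nat_lit 303)) (XT.lf (nat_lit 0) (nat_lit 6259202778) (nat_lit 684) (nat_lit 1009564727) (nat_lit 76) (nat_lit 2759405138) (nat_lit 315) (nat_lit 5) (nat_lit 324) (nat_lit 5) (nat_lit 316) (nat_lit 5) (nat_lit 450) (nat_lit 388) (nat_lit 302)))) (XT.nd (nat_lit 156) (nat_lit 608) (nat_lit 0) (XT.nd (nat_lit 78) (nat_lit 684) (nat_lit 0) (XT.lf (nat_lit 0) (nat_lit 5684430439) (nat_lit 608) (nat_lit 3362914828) (nat_lit 684) (nat_lit 1082122088) (nat_lit 307) (nat_lit 5) (nat_lit 315) (nat_lit 5) (nat_lit 316) (nat_lit 5) (nat_lit 451) (nat_lit 388) (nat_lit 301)) (XT.lf (nat_lit 0) (nat_lit 1635647169) (nat_lit 684) (nat_lit 7958921951) (nat_lit 76) (nat_lit 638024773) (nat_lit 298) (nat_lit 5) (nat_lit 307) (nat_lit 5) (nat_lit 299) (nat_lit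 5) (nat_lit 452) (nat_lit 388) (nat_lit 300))) (XT.nd (nat_lit 78) (nat_lit 608) (nat_lit 0) (XT.lf (nat_lit 0) (nat_lit 4418976258) (nat_lit 684) (nat_lit 1214515244) (nat_lit 76) (nat_lit 4703634521) (nat_lit 298) (nat_lit 5) (nat_lit 307) (nat_lit 5) (nat_lit 299) (nat_lit 5) (nat_lit 453) (nat_lit 388) (nat_lit 299)) (XT.lf (nat_lit 0) (nat_lit 5705587234) (nat_lit 608) (nat_lit 1563334525) (nat_lit 684) (nat_lit 3174608041) (nat_lit 290) (nat_lit 5) (nat_lit 298) (nat_lit 5) (nat_lit 299) (nat_lit 5) (nat_lit 454) (nat_lit 388) (nat_lit 298))))) (XT.nd (nat_lit 54210) (nat_lit 0) (nat_lit 37468) (XT.nd (nat_lit 156) (nat_lit 1140) (nat_lit 0) (XT.nd (nat_lit 78) (nat_lit 76) (nat_lit 0) (XT.lf (nat_lit 0) (nat_lit 2206473563) (nat_lit 532) (nat_lit 7982872660) (nat_lit 608) (nat_lit 362445827) (nat_lit 283) (nat_lit 5) (nat_lit 290) (nat_lit 5) (nat_lit 291) (nat_lit 5) (nat_lit 455) (nat_lit 388) (nat_lit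 297)) (XT.lf (nat_lit 0) (nat_lit 2489713678) (nat_lit 608) (nat_lit 1368794806) (nat_lit 76) (nat_lit 6803053253) (nat_lit 282) (nat_lit 5) (nat_lit 290) (nat_lit 5) (nat_lit 283) (nat_lit 5) (nat_lit 456) (nat_lit 388) (nat_lit 296))) (XT.nd (nat_lit 78) (nat_lit 532) (nat_lit 0) (XT.lf (nat_lit 0) (nat_lit 5408879504) (nat_lit 684) (nat_lit 4988651118) (nat_lit 76) (nat_lit 375651953) (nat_lit 274) (nat_lit 5) (nat_lit 283) (nat_lit 5) (nat_lit 275) (nat_lit 5) (nat_lit 457) (nat_lit 388) (nat_lit 295)) (XT.lf (nat_lit 0) (nat_lit 2181699004) (nat_lit 532) (nat_lit 6228682849) (nat_lit 608) (nat_lit 2476174914) (nat_lit 267) (nat_lit 5) (nat_lit 274) (nat_lit 5) (nat_lit 275) (nat_lit 5) (nat_lit 458) (nat_lit 388) (nat_lit 294)))) (XT.nd (nat_lit 156) (nat_lit 0) (nat_lit 0) (XT.nd (nat_lit 78) (nat_lit 684) (nat_lit 0) (XT.lf (nat_lit 0) (nat_lit 2673315549) (nat_lit 684) (nat_lit 312290560) (nat_lit 684)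 (nat_lit 312290560) (nat_lit 769) (nat_lit 3) (nat_lit 778) (nat_lit 3) (nat_lit 778) (nat_lit 5) (nat_lit 389) (nat_lit 389) (nat_lit 362)) (XT.lf (nat_lit 0) (nat_lit 1181865454) (nat_lit 684) (nat_lit 3912464086) (nat_lit 760) (nat_lit 1519046112) (nat_lit 760) (nat_lit 5) (nat_lit 769) (nat_lit 3) (nat_lit 770) (nat_lit 5) (nat_lit 390) (nat_lit 389) (nat_lit 361))) (XT.nd (nat_lit 78) (nat_lit 0) (nat_lit 0) (XT.lf (nat_lit 0) (nat_lit 3585614065) (nat_lit 684) (nat_lit 571431741) (nat_lit 760) (nat_lit 2475282133) (nat_lit 760) (nat_lit 5) (nat_lit 769) (nat_lit 3) (nat_lit 770) (nat_lit 5) (nat_lit 391) (nat_lit 389) (nat_lit 360)) (XT.lf (nat_lit 76) (nat_lit 2841048712) (nat_lit 0) (nat_lit 3152670186) (nat_lit 760) (nat_lit 658814749) (nat_lit 761) (nat_lit 5) (nat_lit 760) (nat_lit 5) (nat_lit 770) (nat_lit 5) (nat_lit 392) (nat_lit 389) (nat_lit 359))))))) (XT.nd (nat_lit 1248) (nat_lit 13300) (nat_lit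 0) (XT.nd (nat_lit 624) (nat_lit 2964) (nat_lit 0) (XT.nd (nat_lit 312) (nat_lit 912) (nat_lit 0) (XT.nd (nat_lit 156) (nat_lit 760) (nat_lit 0) (XT.nd (nat_lit 78) (nat_lit 0) (nat_lit 0) (XT.lf (nat_lit 0) (nat_lit 1695837455) (nat_lit 760) (nat_lit 388340754) (nat_lit 836) (nat_lit 4589888558) (nat_lit 750) (nat_lit 5) (nat_lit 760) (nat_lit 5) (nat_lit 761) (nat_lit 5) (nat_lit 393) (nat_lit 389) (nat_lit 358)) (XT.lf (nat_lit 76) (nat_lit 3107067931) (nat_lit 0) (nat_lit 941520422) (nat_lit 836) (nat_lit 2648158557) (nat_lit 751) (nat_lit 5) (nat_lit 750) (nat_lit 5) (nat_lit 761) (nat_lit 5) (nat_lit 394) (nat_lit 389) (nat_lit 357))) (XT.nd (nat_lit 78) (nat_lit 836) (nat_lit 0) (XT.lf (nat_lit 0) (nat_lit 6393266191) (nat_lit 760) (nat_lit 77384974) (nat_lit 836) (nat_lit 250332053) (nat_lit 751) (nat_lit 5) (nat_lit 761) (nat_lit 5) (nat_lit 762) (nat_lit 5) (nat_lit 395) (nat_lit 389) (nat_lit 356)) (XT.lf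 (nat_lit 0) (nat_lit 1983189782) (nat_lit 836) (nat_lit 3247425034) (nat_lit 912) (nat_lit 1515408646) (nat_lit 740) (nat_lit 5) (nat_lit 751) (nat_lit 5) (nat_lit 752) (nat_lit 5) (nat_lit 396) (nat_lit 389) (nat_lit 355)))) (XT.nd (nat_lit 156) (nat_lit 912) (nat_lit 0) (XT.nd (nat_lit 78) (nat_lit 0) (nat_lit 0) (XT.lf (nat_lit 76) (nat_lit 344319581) (nat_lit 0) (nat_lit 3936871233) (nat_lit 912) (nat_lit 2491425088) (nat_lit 741) (nat_lit 5) (nat_lit 740) (nat_lit 5) (nat_lit 752) (nat_lit 5) (nat_lit 397) (nat_lit 389) (nat_lit 354)) (XT.lf (nat_lit 76) (nat_lit 4018521137) (nat_lit 0) (nat_lit 2571835068) (nat_lit 912) (nat_lit 210079900) (nat_lit 741) (nat_lit 5) (nat_lit 740) (nat_lit 5) (nat_lit 752) (nat_lit 5) (nat_lit 398) (nat_lit 389) (nat_lit 353))) (XT.nd (nat_lit 78) (nat_lit 0) (nat_lit 76) (XT.lf (nat_lit 76) (nat_lit 901994612) (nat_lit 0) (nat_lit 1137145068) (nat_lit 988) (nat_lit 4790397928)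 (nat_lit 729) (nat_lit 5) (nat_lit 728) (nat_lit 5) (nat_lit 741) (nat_lit 5) (nat_lit 399) (nat_lit 389) (nat_lit 352)) (XT.lf (nat_lit 0) (nat_lit 4296617713) (nat_lit 912) (nat_lit 2199693739) (nat_lit 988) (nat_lit 363560177) (nat_lit 729) (nat_lit 5) (nat_lit 741) (nat_lit 5) (nat_lit 742) (nat_lit 5) (nat_lit 400) (nat_lit 389) (nat_lit 351))))) (XT.nd (nat_lit 312) (nat_lit 2052) (nat_lit 0) (XT.nd (nat_lit 156) (nat_lit 0) (nat_lit 0) (XT.nd (nat_lit 78) (nat_lit 988) (nat_lit 0) (XT.lf (nat_lit 76) (nat_lit 1582102987) (nat_lit 0) (nat_lit 4981194650) (nat_lit 988) (nat_lit 328233646) (nat_lit 730) (nat_lit 5) (nat_lit 729) (nat_lit 5) (nat_lit 742) (nat_lit 5) (nat_lit 401) (nat_lit 389) (nat_lit 350)) (XT.lf (nat_lit 0) (nat_lit 1887486603) (nat_lit 988) (nat_lit 1501257569) (nat_lit 1064) (nat_lit 3535594676) (nat_lit 716) (nat_lit 5) (nat_lit 729) (nat_lit 5) (nat_lit 730) (nat_lit 5) (nat_lit 402)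 (nat_lit 389) (nat_lit 349))) (XT.nd (nat_lit 78) (nat_lit 0) (nat_lit 0) (XT.lf (nat_lit 76) (nat_lit 2378455900) (nat_lit 0) (nat_lit 1727896166) (nat_lit 1064) (nat_lit 2852142592) (nat_lit 717) (nat_lit 5) (nat_lit 716) (nat_lit 5) (nat_lit 730) (nat_lit 5) (nat_lit 403) (nat_lit 389) (nat_lit 348)) (XT.lf (nat_lit 76) (nat_lit 6322694086) (nat_lit 0) (nat_lit 5561170) (nat_lit 1064) (nat_lit 665905117) (nat_lit 717) (nat_lit 5) (nat_lit 716) (nat_lit 5) (nat_lit 730) (nat_lit 5) (nat_lit 404) (nat_lit 389) (nat_lit 347)))) (XT.nd (nat_lit 156) (nat_lit 1064) (nat_lit 0) (XT.nd (nat_lit 78) (nat_lit 0) (nat_lit 0) (XT.lf (nat_lit 0) (nat_lit 1526021155) (nat_lit 1064) (nat_lit 3727449639) (nat_lit 1140) (nat_lit 1777215974) (nat_lit 703) (nat_lit 5) (nat_lit 717) (nat_lit 5) (nat_lit 718) (nat_lit 5) (nat_lit 405) (nat_lit 389) (nat_lit 346)) (XT.lf (nat_lit 76) (nat_lit 263333549) (nat_lit 0) (nat_lit 3445974972)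 (nat_lit 1140) (nat_lit 3359418354) (nat_lit 704) (nat_lit 5) (nat_lit 703) (nat_lit 5) (nat_lit 718) (nat_lit 5) (nat_lit 406) (nat_lit 389) (nat_lit 345))) (XT.nd (nat_lit 78) (nat_lit 1064) (nat_lit 0) (XT.lf (nat_lit 76) (nat_lit 4350358367) (nat_lit 0) (nat_lit 1561820900) (nat_lit 1140) (nat_lit 1195830165) (nat_lit 704) (nat_lit 5) (nat_lit 703) (nat_lit 5) (nat_lit 718) (nat_lit 5) (nat_lit 407) (nat_lit 389) (nat_lit 344)) (XT.lf (nat_lit 0) (nat_lit 960603238) (nat_lit 1140) (nat_lit 5803186268) (nat_lit 76) (nat_lit 384900184) (nat_lit 689) (nat_lit 5) (nat_lit 704) (nat_lit 5) (nat_lit 690) (nat_lit 5) (nat_lit 408) (nat_lit 389) (nat_lit 343)))))) (XT.nd (nat_lit 624) (nat_lit 8132) (nat_lit 0) (XT.nd (nat_lit 312) (nat_lit 2736) (nat_lit 0) (XT.nd (nat_lit 156) (nat_lit 1292) (nat_lit 0) (XT.nd (nat_lit 78) (nat_lit 1140) (nat_lit 0) (XT.lf (nat_lit 0) (nat_lit 3125507815) (nat_lit 1140) (nat_lit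 1674993048) (nat_lit 76) (nat_lit 2389897508) (nat_lit 689) (nat_lit 5) (nat_lit 704) (nat_lit 5) (nat_lit 690) (nat_lit 5) (nat_lit 409) (nat_lit 389) (nat_lit 342)) (XT.lf (nat_lit 0) (nat_lit 2534796437) (nat_lit 1140) (nat_lit 2768674249) (nat_lit 1216) (nat_lit 1930075335) (nat_lit 674) (nat_lit 5) (nat_lit 689) (nat_lit 5) (nat_lit 690) (nat_lit 5) (nat_lit 410) (nat_lit 389) (nat_lit 341))) (XT.nd (nat_lit 78) (nat_lit 1216) (nat_lit 0) (XT.lf (nat_lit 0) (nat_lit 209198484) (nat_lit 1216) (nat_lit 462128323) (nat_lit 76) (nat_lit 6606897537) (nat_lit 673) (nat_lit 5) (nat_lit 689) (nat_lit 5) (nat_lit 674) (nat_lit 5) (nat_lit 411) (nat_lit 389) (nat_lit 340)) (XT.lf (nat_lit 0) (nat_lit 2354977801) (nat_lit 1292) (nat_lit 3470617178) (nat_lit 76) (nat_lit 1498154825) (nat_lit 657) (nat_lit 5) (nat_lit 674) (nat_lit 5) (nat_lit 658) (nat_lit 5) (nat_lit 412) (nat_lit 389) (nat_lit 339)))) (XT.nd (nat_lit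 156) (nat_lit 1444) (nat_lit 0) (XT.nd (nat_lit 78) (nat_lit 0) (nat_lit 0) (XT.lf (nat_lit 0) (nat_lit 863024913) (nat_lit 1292) (nat_lit 3649162545) (nat_lit 1368) (nat_lit 2858628019) (nat_lit 640) (nat_lit 5) (nat_lit 657) (nat_lit 5) (nat_lit 658) (nat_lit 5) (nat_lit 413) (nat_lit 389) (nat_lit 338)) (XT.lf (nat_lit 0) (nat_lit 5295946327) (nat_lit 1292) (nat_lit 1395880551) (nat_lit 1368) (nat_lit 727409874) (nat_lit 640) (nat_lit 5) (nat_lit 657) (nat_lit 5) (nat_lit 658) (nat_lit 5) (nat_lit 414) (nat_lit 389) (nat_lit 337))) (XT.nd (nat_lit 78) (nat_lit 0) (nat_lit 0) (XT.lf (nat_lit 0) (nat_lit 1405282049) (nat_lit 1444) (nat_lit 5139282414) (nat_lit 76) (nat_lit 924317773) (nat_lit 621) (nat_lit 5) (nat_lit 640) (nat_lit 5) (nat_lit 622) (nat_lit 5) (nat_lit 415) (nat_lit 389) (nat_lit 336)) (XT.lf (nat_lit 0) (nat_lit 3551743306) (nat_lit 1444) (nat_lit 668088801) (nat_lit 76) (nat_lit 3299975249)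 (nat_lit 621) (nat_lit 5) (nat_lit 640) (nat_lit 5) (nat_lit 622) (nat_lit 5) (nat_lit 416) (nat_lit 389) (nat_lit 335))))) (XT.nd (nat_lit 312) (nat_lit 3496) (nat_lit 0) (XT.nd (nat_lit 156) (nat_lit 1596) (nat_lit 0) (XT.nd (nat_lit 78) (nat_lit 1596) (nat_lit 0) (XT.lf (nat_lit 0) (nat_lit 3909461891) (nat_lit 1444) (nat_lit 1815152177) (nat_lit 1520) (nat_lit 1847467305) (nat_lit 602) (nat_lit 5) (nat_lit 621) (nat_lit 5) (nat_lit 622) (nat_lit 5) (nat_lit 417) (nat_lit 389) (nat_lit 334)) (XT.lf (nat_lit 0) (nat_lit 284697707) (nat_lit 1596) (nat_lit 6692384194) (nat_lit 76) (nat_lit 648812101) (nat_lit 581) (nat_lit 5) (nat_lit 602) (nat_lit 5) (nat_lit 582) (nat_lit 5) (nat_lit 418) (nat_lit 389) (nat_lit 333))) (XT.nd (nat_lit 78) (nat_lit 1596) (nat_lit 0) (XT.lf (nat_lit 0) (nat_lit 2430611481) (nat_lit 1596) (nat_lit 2068801196) (nat_lit 76) (nat_lit 3181209110) (nat_lit 581) (nat_lit 5) (nat_lit 602)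 (nat_lit 5) (nat_lit 582) (nat_lit 5) (nat_lit 419) (nat_lit 389) (nat_lit 332)) (XT.lf (nat_lit 0) (nat_lit 2647365505) (nat_lit 1596) (nat_lit 1949127436) (nat_lit 1672) (nat_lit 3140410199) (nat_lit 560) (nat_lit 5) (nat_lit 581) (nat_lit 5) (nat_lit 582) (nat_lit 5) (nat_lit 420) (nat_lit 389) (nat_lit 331)))) (XT.nd (nat_lit 156) (nat_lit 1748) (nat_lit 0) (XT.nd (nat_lit 78) (nat_lit 1748) (nat_lit 0) (XT.lf (nat_lit 0) (nat_lit 6784359491) (nat_lit 1672) (nat_lit 347666168) (nat_lit 76) (nat_lit 662711112) (nat_lit 560) (nat_lit 5) (nat_lit 582) (nat_lit 5) (nat_lit 561) (nat_lit 5) (nat_lit 421) (nat_lit 389) (nat_lit 330)) (XT.lf (nat_lit 0) (nat_lit 1150398495) (nat_lit 1748) (nat_lit 3360582703) (nat_lit 76) (nat_lit 3342527245) (nat_lit 537) (nat_lit 5) (nat_lit 560) (nat_lit 5) (nat_lit 538) (nat_lit 5) (nat_lit 422) (nat_lit 389) (nat_lit 329))) (XT.nd (nat_lit 78) (nat_lit 0) (nat_lit 0) (XT.lf (nat_lit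 0) (nat_lit 1499796534) (nat_lit 1748) (nat_lit 1814681241) (nat_lit 1824) (nat_lit 4599371863) (nat_lit 514) (nat_lit 5) (nat_lit 537) (nat_lit 5) (nat_lit 538) (nat_lit 5) (nat_lit 423) (nat_lit 389) (nat_lit 328)) (XT.lf (nat_lit 0) (nat_lit 5512683627) (nat_lit 1824) (nat_lit 1513585431) (nat_lit 76) (nat_lit 949311699) (nat_lit 514) (nat_lit 5) (nat_lit 538) (nat_lit 5) (nat_lit 515) (nat_lit 5) (nat_lit 424) (nat_lit 389) (nat_lit 327))))))))
noncomputable def xc43 : XT := (XT.nd (nat_lit 2496) (nat_lit 608) (nat_lit 0) (XT.nd (nat_lit 1248) (nat_lit 7600) (nat_lit 0) (XT.nd (nat_lit 624) (nat_lit 4256) (nat_lit 0) (XT.nd (nat_lit 312) (nat_lit 1824) (nat_lit 0) (XT.nd (nat_lit 156) (nat_lit 912) (nat_lit 0) (XT.nd (nat_lit 78) (nat_lit 1216) (nat_lit 0) (XT.lf (nat_lit 0) (nat_lit 3483906869) (nat_lit 1824) (nat_lit 4268398222) (nat_lit 1900) (nat_lit 286292378) (nat_lit 490) (nat_lit 5) (nat_lit 514) (nat_lit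 5) (nat_lit 515) (nat_lit 5) (nat_lit 425) (nat_lit 389) (nat_lit 326)) (XT.lf (nat_lit 0) (nat_lit 457652103) (nat_lit 1140) (nat_lit 1427101825) (nat_lit 1216) (nat_lit 6218344028) (nat_lit 474) (nat_lit 5) (nat_lit 489) (nat_lit 5) (nat_lit 490) (nat_lit 5) (nat_lit 426) (nat_lit 389) (nat_lit 325))) (XT.nd (nat_lit 78) (nat_lit 912) (nat_lit 0) (XT.lf (nat_lit 0) (nat_lit 4099295488) (nat_lit 1216) (nat_lit 2583376407) (nat_lit 76) (nat_lit 1486100553) (nat_lit 474) (nat_lit 5) (nat_lit 490) (nat_lit 5) (nat_lit 475) (nat_lit 5) (nat_lit 427) (nat_lit 389) (nat_lit 324)) (XT.lf (nat_lit 0) (nat_lit 2569445193) (nat_lit 912) (nat_lit 3779116796) (nat_lit 988) (nat_lit 1887389760) (nat_lit 462) (nat_lit 5) (nat_lit 474) (nat_lit 5) (nat_lit 475) (nat_lit 5) (nat_lit 428) (nat_lit 389) (nat_lit 323)))) (XT.nd (nat_lit 156) (nat_lit 836) (nat_lit 0) (XT.nd (nat_lit 78) (nat_lit 912) (nat_lit 0) (XT.lf (nat_lit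 0) (nat_lit 315895657) (nat_lit 988) (nat_lit 481077509) (nat_lit 76) (nat_lit 7507817657) (nat_lit 461) (nat_lit 5) (nat_lit 474) (nat_lit 5) (nat_lit 462) (nat_lit 5) (nat_lit 429) (nat_lit 389) (nat_lit 322)) (XT.lf (nat_lit 0) (nat_lit 2549428922) (nat_lit 988) (nat_lit 3565151694) (nat_lit 76) (nat_lit 2259947465) (nat_lit 449) (nat_lit 5) (nat_lit 462) (nat_lit 5) (nat_lit 450) (nat_lit 5) (nat_lit 430) (nat_lit 389) (nat_lit 321))) (XT.nd (nat_lit 78) (nat_lit 0) (nat_lit 0) (XT.lf (nat_lit 0) (nat_lit 1749454360) (nat_lit 836) (nat_lit 3063765121) (nat_lit 912) (nat_lit 3632728871) (nat_lit 438) (nat_lit 5) (nat_lit 449) (nat_lit 5) (nat_lit 450) (nat_lit 5) (nat_lit 431) (nat_lit 389) (nat_lit 320)) (XT.lf (nat_lit 0) (nat_lit 7112824776) (nat_lit 912) (nat_lit 1335309618) (nat_lit 76) (nat_lit 70851855) (nat_lit 438) (nat_lit 5) (nat_lit 450) (nat_lit 5) (nat_lit 439) (nat_lit 5) (nat_lit 432) (nat_lit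 389) (nat_lit 319))))) (XT.nd (nat_lit 312) (nat_lit 1596) (nat_lit 0) (XT.nd (nat_lit 156) (nat_lit 836) (nat_lit 0) (XT.nd (nat_lit 78) (nat_lit 836) (nat_lit 0) (XT.lf (nat_lit 0) (nat_lit 867614656) (nat_lit 988) (nat_lit 4466416730) (nat_lit 76) (nat_lit 3259060780) (nat_lit 425) (nat_lit 5) (nat_lit 438) (nat_lit 5) (nat_lit 426) (nat_lit 5) (nat_lit 433) (nat_lit 389) (nat_lit 318)) (XT.lf (nat_lit 0) (nat_lit 1016742035) (nat_lit 836) (nat_lit 2133954164) (nat_lit 912) (nat_lit 5518144938) (nat_lit 414) (nat_lit 5) (nat_lit 425) (nat_lit 5) (nat_lit 426) (nat_lit 5) (nat_lit 434) (nat_lit 389) (nat_lit 317))) (XT.nd (nat_lit 78) (nat_lit 836) (nat_lit 0) (XT.lf (nat_lit 0) (nat_lit 5484377017) (nat_lit 912) (nat_lit 2118065125) (nat_lit 76) (nat_lit 1143564195) (nat_lit 414) (nat_lit 5) (nat_lit 426) (nat_lit 5) (nat_lit 415) (nat_lit 5) (nat_lit 435) (nat_lit 389) (nat_lit 316)) (XT.lf (nat_lit 0) (nat_lit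 3524297118) (nat_lit 836) (nat_lit 4345516814) (nat_lit 912) (nat_lit 954799258) (nat_lit 403) (nat_lit 5) (nat_lit 414) (nat_lit 5) (nat_lit 415) (nat_lit 5) (nat_lit 436) (nat_lit 389) (nat_lit 315)))) (XT.nd (nat_lit 156) (nat_lit 760) (nat_lit 0) (XT.nd (nat_lit 78) (nat_lit 0) (nat_lit 0) (XT.lf (nat_lit 0) (nat_lit 364683326) (nat_lit 760) (nat_lit 1000085519) (nat_lit 836) (nat_lit 7540143005) (nat_lit 392) (nat_lit 5) (nat_lit 402) (nat_lit 5) (nat_lit 403) (nat_lit 5) (nat_lit 437) (nat_lit 389) (nat_lit 314)) (XT.lf (nat_lit 0) (nat_lit 3738063280) (nat_lit 836) (nat_lit 2828512074) (nat_lit 76) (nat_lit 2419712511) (nat_lit 392) (nat_lit 5) (nat_lit 403) (nat_lit 5) (nat_lit 393) (nat_lit 5) (nat_lit 438) (nat_lit 389) (nat_lit 313))) (XT.nd (nat_lit 78) (nat_lit 0) (nat_lit 0) (XT.lf (nat_lit 0) (nat_lit 2995776198) (nat_lit 760) (nat_lit 3158378276) (nat_lit 836) (nat_lit 2915230309) (nat_lit 382)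 (nat_lit 5) (nat_lit 392) (nat_lit 5) (nat_lit 393) (nat_lit 5) (nat_lit 439) (nat_lit 389) (nat_lit 312)) (XT.lf (nat_lit 0) (nat_lit 8609352851) (nat_lit 836) (nat_lit 215749465) (nat_lit 76) (nat_lit 329225615) (nat_lit 382) (nat_lit 5) (nat_lit 393) (nat_lit 5) (nat_lit 383) (nat_lit 5) (nat_lit 440) (nat_lit 389) (nat_lit 311)))))) (XT.nd (nat_lit 624) (nat_lit 3116) (nat_lit 0) (XT.nd (nat_lit 312) (nat_lit 2204) (nat_lit 0) (XT.nd (nat_lit 156) (nat_lit 684) (nat_lit 0) (XT.nd (nat_lit 78) (nat_lit 760) (nat_lit 0) (XT.lf (nat_lit 0) (nat_lit 1876969504) (nat_lit 836) (nat_lit 3472593688) (nat_lit 76) (nat_lit 3890586679) (nat_lit 371) (nat_lit 5) (nat_lit 382) (nat_lit 5) (nat_lit 372) (nat_lit 5) (nat_lit 441) (nat_lit 389) (nat_lit 310)) (XT.lf (nat_lit 0) (nat_lit 2541328046) (nat_lit 760) (nat_lit 1787071911) (nat_lit 836) (nat_lit 4999449363) (nat_lit 361) (nat_lit 5) (nat_lit 371) (nat_lit 5) (nat_lit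 372) (nat_lit 5) (nat_lit 442) (nat_lit 389) (nat_lit 309))) (XT.nd (nat_lit 78) (nat_lit 684) (nat_lit 0) (XT.lf (nat_lit 0) (nat_lit 6835015967) (nat_lit 836) (nat_lit 740886997) (nat_lit 76) (nat_lit 1841276656) (nat_lit 361) (nat_lit 5) (nat_lit 372) (nat_lit 5) (nat_lit 362) (nat_lit 5) (nat_lit 443) (nat_lit 389) (nat_lit 308)) (XT.lf (nat_lit 0) (nat_lit 5451492644) (nat_lit 684) (nat_lit 3958785476) (nat_lit 760) (nat_lit 97648129) (nat_lit 352) (nat_lit 5) (nat_lit 361) (nat_lit 5) (nat_lit 362) (nat_lit 5) (nat_lit 444) (nat_lit 389) (nat_lit 307)))) (XT.nd (nat_lit 156) (nat_lit 1444) (nat_lit 0) (XT.nd (nat_lit 78) (nat_lit 0) (nat_lit 0) (XT.lf (nat_lit 0) (nat_lit 2155808884) (nat_lit 684) (nat_lit 239235708) (nat_lit 760) (nat_lit 7205317968) (nat_lit 342) (nat_lit 5) (nat_lit 351) (nat_lit 5) (nat_lit 352) (nat_lit 5) (nat_lit 445) (nat_lit 389) (nat_lit 306)) (XT.lf (nat_lit 0) (nat_lit 4958511398)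 (nat_lit 760) (nat_lit 1205018827) (nat_lit 76) (nat_lit 3530659909) (nat_lit 342) (nat_lit 5) (nat_lit 352) (nat_lit 5) (nat_lit 343) (nat_lit 5) (nat_lit 446) (nat_lit 389) (nat_lit 305))) (XT.nd (nat_lit 78) (nat_lit 760) (nat_lit 0) (XT.lf (nat_lit 0) (nat_lit 5192199949) (nat_lit 684) (nat_lit 2388643074) (nat_lit 760) (nat_lit 2208899326) (nat_lit 333) (nat_lit 5) (nat_lit 342) (nat_lit 5) (nat_lit 343) (nat_lit 5) (nat_lit 447) (nat_lit 389) (nat_lit 304)) (XT.lf (nat_lit 0) (nat_lit 365678374) (nat_lit 760) (nat_lit 8062402984) (nat_lit 76) (nat_lit 1459034520) (nat_lit 323) (nat_lit 5) (nat_lit 333) (nat_lit 5) (nat_lit 324) (nat_lit 5) (nat_lit 448) (nat_lit 389) (nat_lit 303))))) (XT.nd (nat_lit 312) (nat_lit 1824) (nat_lit 0) (XT.nd (nat_lit 156) (nat_lit 684) (nat_lit 0) (XT.nd (nat_lit 78) (nat_lit 608) (nat_lit 0) (XT.lf (nat_lit 0) (nat_lit 2981799694) (nat_lit 760) (nat_lit 1612782896) (nat_lit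 76) (nat_lit 5391169686) (nat_lit 323) (nat_lit 5) (nat_lit 333) (nat_lit 5) (nat_lit 324) (nat_lit 5) (nat_lit 449) (nat_lit 389) (nat_lit 302)) (XT.lf (nat_lit 0) (nat_lit 4998001209) (nat_lit 608) (nat_lit 657953850) (nat_lit 684) (nat_lit 4430292112) (nat_lit 315) (nat_lit 5) (nat_lit 323) (nat_lit 5) (nat_lit 324) (nat_lit 5) (nat_lit 450) (nat_lit 389) (nat_lit 301))) (XT.nd (nat_lit 78) (nat_lit 76) (nat_lit 0) (XT.lf (nat_lit 0) (nat_lit 1538997841) (nat_lit 608) (nat_lit 6860807288) (nat_lit 684) (nat_lit 1788622601) (nat_lit 307) (nat_lit 5) (nat_lit 315) (nat_lit 5) (nat_lit 316) (nat_lit 5) (nat_lit 451) (nat_lit 389) (nat_lit 300)) (XT.lf (nat_lit 0) (nat_lit 906383121) (nat_lit 684) (nat_lit 1968447134) (nat_lit 76) (nat_lit 7417456343) (nat_lit 306) (nat_lit 5) (nat_lit 315) (nat_lit 5) (nat_lit 307) (nat_lit 5) (nat_lit 452) (nat_lit 389) (nat_lit 299)))) (XT.nd (nat_lit 156) (nat_lit 608) (nat_lit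 0) (XT.nd (nat_lit 78) (nat_lit 608) (nat_lit 0) (XT.lf (nat_lit 0) (nat_lit 3645092700) (nat_lit 684) (nat_lit 5540837246) (nat_lit 76) (nat_lit 1211781173) (nat_lit 298) (nat_lit 5) (nat_lit 307) (nat_lit 5) (nat_lit 299) (nat_lit 5) (nat_lit 453) (nat_lit 389) (nat_lit 298)) (XT.lf (nat_lit 0) (nat_lit 1305038842) (nat_lit 608) (nat_lit 5148763244) (nat_lit 684) (nat_lit 4051137532) (nat_lit 290) (nat_lit 5) (nat_lit 298) (nat_lit 5) (nat_lit 299) (nat_lit 5) (nat_lit 454) (nat_lit 389) (nat_lit 297))) (XT.nd (nat_lit 78) (nat_lit 608) (nat_lit 0) (XT.lf (nat_lit 0) (nat_lit 8329804337) (nat_lit 608) (nat_lit 1000766778) (nat_lit 684) (nat_lit 1283503862) (nat_lit 290) (nat_lit 5) (nat_lit 298) (nat_lit 5) (nat_lit 299) (nat_lit 5) (nat_lit 455) (nat_lit 389) (nat_lit 296)) (XT.lf (nat_lit 0) (nat_lit 1546618622) (nat_lit 608) (nat_lit 5956587611) (nat_lit 76) (nat_lit 3221440370) (nat_lit 282) (nat_lit 5) (nat_lit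 290) (nat_lit 5) (nat_lit 283) (nat_lit 5) (nat_lit 456) (nat_lit 389) (nat_lit 295))))))) (XT.nd (nat_lit 55302) (nat_lit 0) (nat_lit 21736) (XT.nd (nat_lit 54678) (nat_lit 0) (nat_lit 32528) (XT.nd (nat_lit 54366) (nat_lit 0) (nat_lit 35340) (XT.nd (nat_lit 54210) (nat_lit 0) (nat_lit 36176) (XT.nd (nat_lit 54132) (nat_lit 0) (nat_lit 36936) (XT.lf (nat_lit 0) (nat_lit 1121714255) (nat_lit 608) (nat_lit 3299061662) (nat_lit 684) (nat_lit 6416391695) (nat_lit 274) (nat_lit 5) (nat_lit 282) (nat_lit 5) (nat_lit 283) (nat_lit 5) (nat_lit 457) (nat_lit 389) (nat_lit 294)) (XT.lf (nat_lit 0) (nat_lit 888298796) (nat_lit 0) (nat_lit 888298796) (nat_lit 684) (nat_lit 1539233435) (nat_lit 760) (nat_lit 5) (nat_lit 760) (nat_lit 3) (nat_lit 769) (nat_lit 3) (nat_lit 390) (nat_lit 390) (nat_lit 360))) (XT.nd (nat_lit 78) (nat_lit 760) (nat_lit 0) (XT.lf (nat_lit 0) (nat_lit 5127561650) (nat_lit 0) (nat_lit 792216276) (nat_lit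 684) (nat_lit 731579736) (nat_lit 760) (nat_lit 5) (nat_lit 760) (nat_lit 3) (nat_lit 769) (nat_lit 3) (nat_lit 391) (nat_lit 390) (nat_lit 359)) (XT.lf (nat_lit 0) (nat_lit 1592669930) (nat_lit 760) (nat_lit 4817683371) (nat_lit 836) (nat_lit 261833521) (nat_lit 750) (nat_lit 5) (nat_lit 760) (nat_lit 5) (nat_lit 761) (nat_lit 5) (nat_lit 392) (nat_lit 390) (nat_lit 358)))) (XT.nd (nat_lit 156) (nat_lit 836) (nat_lit 0) (XT.nd (nat_lit 78) (nat_lit 0) (nat_lit 0) (XT.lf (nat_lit 0) (nat_lit 3908803338) (nat_lit 760) (nat_lit 1414947901) (nat_lit 836) (nat_lit 1370480720) (nat_lit 750) (nat_lit 5) (nat_lit 760) (nat_lit 5) (nat_lit 761) (nat_lit 5) (nat_lit 393) (nat_lit 390) (nat_lit 357)) (XT.lf (nat_lit 76) (nat_lit 2050792593) (nat_lit 0) (nat_lit 4174611128) (nat_lit 836) (nat_lit 492231391) (nat_lit 751) (nat_lit 5) (nat_lit 750) (nat_lit 5) (nat_lit 761) (nat_lit 5) (nat_lit 394) (nat_lit 390) (nat_lit 356)))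 (XT.nd (nat_lit 78) (nat_lit 0) (nat_lit 0) (XT.lf (nat_lit 0) (nat_lit 1773564026) (nat_lit 836) (nat_lit 1180857083) (nat_lit 912) (nat_lit 3787826287) (nat_lit 739) (nat_lit 5) (nat_lit 750) (nat_lit 5) (nat_lit 751) (nat_lit 5) (nat_lit 395) (nat_lit 390) (nat_lit 355)) (XT.lf (nat_lit 76) (nat_lit 2370804505) (nat_lit 0) (nat_lit 1665225749) (nat_lit 912) (nat_lit 2732097682) (nat_lit 740) (nat_lit 5) (nat_lit 739) (nat_lit 5) (nat_lit 751) (nat_lit 5) (nat_lit 396) (nat_lit 390) (nat_lit 354))))) (XT.nd (nat_lit 312) (nat_lit 1976) (nat_lit 0) (XT.nd (nat_lit 156) (nat_lit 0) (nat_lit 0) (XT.nd (nat_lit 78) (nat_lit 836) (nat_lit 0) (XT.lf (nat_lit 76) (nat_lit 5977838600) (nat_lit 0) (nat_lit 317299189) (nat_lit 912) (nat_lit 500360458) (nat_lit 740) (nat_lit 5) (nat_lit 739) (nat_lit 5) (nat_lit 751) (nat_lit 5) (nat_lit 397) (nat_lit 390) (nat_lit 353)) (XT.lf (nat_lit 0) (nat_lit 1722505458) (nat_lit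 912) (nat_lit 4003794697) (nat_lit 988) (nat_lit 1097489455) (nat_lit 728) (nat_lit 5) (nat_lit 740) (nat_lit 5) (nat_lit 741) (nat_lit 5) (nat_lit 398) (nat_lit 390) (nat_lit 352))) (XT.nd (nat_lit 78) (nat_lit 0) (nat_lit 0) (XT.lf (nat_lit 0) (nat_lit 3936009284) (nat_lit 912) (nat_lit 349330591) (nat_lit 988) (nat_lit 2568183169) (nat_lit 728) (nat_lit 5) (nat_lit 740) (nat_lit 5) (nat_lit 741) (nat_lit 5) (nat_lit 399) (nat_lit 390) (nat_lit 351)) (XT.lf (nat_lit 76) (nat_lit 3390505190) (nat_lit 0) (nat_lit 2771614514) (nat_lit 988) (nat_lit 722364712) (nat_lit 729) (nat_lit 5) (nat_lit 728) (nat_lit 5) (nat_lit 741) (nat_lit 5) (nat_lit 400) (nat_lit 390) (nat_lit 350)))) (XT.nd (nat_lit 156) (nat_lit 988) (nat_lit 0) (XT.nd (nat_lit 78) (nat_lit 0) (nat_lit 76) (XT.lf (nat_lit 76) (nat_lit 254652057) (nat_lit 0) (nat_lit 1192974846) (nat_lit 1064) (nat_lit 5469224542) (nat_lit 716) (nat_lit 5) (nat_lit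 715) (nat_lit 5) (nat_lit 729) (nat_lit 5) (nat_lit 401) (nat_lit 390) (nat_lit 349)) (XT.lf (nat_lit 0) (nat_lit 3625444862) (nat_lit 988) (nat_lit 2865068057) (nat_lit 1064) (nat_lit 459775419) (nat_lit 716) (nat_lit 5) (nat_lit 729) (nat_lit 5) (nat_lit 730) (nat_lit 5) (nat_lit 402) (nat_lit 390) (nat_lit 348))) (XT.nd (nat_lit 78) (nat_lit 1064) (nat_lit 0) (XT.lf (nat_lit 76) (nat_lit 979976784) (nat_lit 0) (nat_lit 4829908722) (nat_lit 1064) (nat_lit 1175247137) (nat_lit 717) (nat_lit 5) (nat_lit 716) (nat_lit 5) (nat_lit 730) (nat_lit 5) (nat_lit 403) (nat_lit 390) (nat_lit 347)) (XT.lf (nat_lit 0) (nat_lit 972612448) (nat_lit 1064) (nat_lit 2119701128) (nat_lit 1140) (nat_lit 3928855874) (nat_lit 702) (nat_lit 5) (nat_lit 716) (nat_lit 5) (nat_lit 717) (nat_lit 5) (nat_lit 404) (nat_lit 390) (nat_lit 346)))))) (XT.nd (nat_lit 624) (nat_lit 7372) (nat_lit 0) (XT.nd (nat_lit 312) (nat_lit 2356) (nat_lit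 0) (XT.nd (nat_lit 156) (nat_lit 1064) (nat_lit 0) (XT.nd (nat_lit 78) (nat_lit 0) (nat_lit 76) (XT.lf (nat_lit 76) (nat_lit 1826856298) (nat_lit 0) (nat_lit 1282967623) (nat_lit 1140) (nat_lit 3948705079) (nat_lit 703) (nat_lit 5) (nat_lit 702) (nat_lit 5) (nat_lit 717) (nat_lit 5) (nat_lit 405) (nat_lit 390) (nat_lit 345)) (XT.lf (nat_lit 0) (nat_lit 5258876570) (nat_lit 1064) (nat_lit 1252673383) (nat_lit 1140) (nat_lit 585703849) (nat_lit 703) (nat_lit 5) (nat_lit 717) (nat_lit 5) (nat_lit 718) (nat_lit 5) (nat_lit 406) (nat_lit 390) (nat_lit 344))) (XT.nd (nat_lit 78) (nat_lit 0) (nat_lit 0) (XT.lf (nat_lit 0) (nat_lit 288663955) (nat_lit 1140) (nat_lit 4337923262) (nat_lit 1216) (nat_lit 2510552550) (nat_lit 688) (nat_lit 5) (nat_lit 703) (nat_lit 5) (nat_lit 704) (nat_lit 5) (nat_lit 407) (nat_lit 390) (nat_lit 343)) (XT.lf (nat_lit 0) (nat_lit 2394613285) (nat_lit 1140) (nat_lit 274168871) (nat_lit 1216)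 (nat_lit 4509578596) (nat_lit 688) (nat_lit 5) (nat_lit 703) (nat_lit 5) (nat_lit 704) (nat_lit 5) (nat_lit 408) (nat_lit 390) (nat_lit 342)))) (XT.nd (nat_lit 156) (nat_lit 1292) (nat_lit 0) (XT.nd (nat_lit 78) (nat_lit 1064) (nat_lit 0) (XT.lf (nat_lit 76) (nat_lit 3889114397) (nat_lit 0) (nat_lit 632247731) (nat_lit 1216) (nat_lit 2699470420) (nat_lit 689) (nat_lit 5) (nat_lit 688) (nat_lit 5) (nat_lit 704) (nat_lit 5) (nat_lit 409) (nat_lit 390) (nat_lit 341)) (XT.lf (nat_lit 0) (nat_lit 843388690) (nat_lit 1140) (nat_lit 5818185368) (nat_lit 1216) (nat_lit 603161158) (nat_lit 674) (nat_lit 5) (nat_lit 689) (nat_lit 5) (nat_lit 690) (nat_lit 5) (nat_lit 410) (nat_lit 390) (nat_lit 340))) (XT.nd (nat_lit 78) (nat_lit 1216) (nat_lit 0) (XT.lf (nat_lit 0) (nat_lit 1496235152) (nat_lit 1216) (nat_lit 2210134410) (nat_lit 76) (nat_lit 3603321170) (nat_lit 673) (nat_lit 5) (nat_lit 689) (nat_lit 5) (nat_lit 674)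 (nat_lit 5) (nat_lit 411) (nat_lit 390) (nat_lit 339)) (XT.lf (nat_lit 0) (nat_lit 2075266416) (nat_lit 1216) (nat_lit 1523249302) (nat_lit 1292) (nat_lit 3757570448) (nat_lit 657) (nat_lit 5) (nat_lit 673) (nat_lit 5) (nat_lit 674) (nat_lit 5) (nat_lit 412) (nat_lit 390) (nat_lit 338))))) (XT.nd (nat_lit 312) (nat_lit 4636) (nat_lit 0) (XT.nd (nat_lit 156) (nat_lit 1368) (nat_lit 0) (XT.nd (nat_lit 78) (nat_lit 1368) (nat_lit 0) (XT.lf (nat_lit 0) (nat_lit 5718558587) (nat_lit 1292) (nat_lit 965431678) (nat_lit 76) (nat_lit 719904910) (nat_lit 657) (nat_lit 5) (nat_lit 674) (nat_lit 5) (nat_lit 658) (nat_lit 5) (nat_lit 413) (nat_lit 390) (nat_lit 337)) (XT.lf (nat_lit 0) (nat_lit 412141648) (nat_lit 1368) (nat_lit 4017636970) (nat_lit 76) (nat_lit 3023037775) (nat_lit 639) (nat_lit 5) (nat_lit 657) (nat_lit 5) (nat_lit 640) (nat_lit 5) (nat_lit 414) (nat_lit 390) (nat_lit 336))) (XT.nd (nat_lit 78) (nat_lit 0)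 (nat_lit 0) (XT.lf (nat_lit 0) (nat_lit 394607072) (nat_lit 1368) (nat_lit 2100924858) (nat_lit 1444) (nat_lit 5007630722) (nat_lit 621) (nat_lit 5) (nat_lit 639) (nat_lit 5) (nat_lit 640) (nat_lit 5) (nat_lit 415) (nat_lit 390) (nat_lit 335)) (XT.lf (nat_lit 0) (nat_lit 4607608759) (nat_lit 1444) (nat_lit 2640721413) (nat_lit 76) (nat_lit 306445289) (nat_lit 621) (nat_lit 5) (nat_lit 640) (nat_lit 5) (nat_lit 622) (nat_lit 5) (nat_lit 416) (nat_lit 390) (nat_lit 334)))) (XT.nd (nat_lit 156) (nat_lit 3116) (nat_lit 0) (XT.nd (nat_lit 78) (nat_lit 76) (nat_lit 0) (XT.lf (nat_lit 0) (nat_lit 1893725830) (nat_lit 1444) (nat_lit 4853329106) (nat_lit 1520) (nat_lit 860663032) (nat_lit 602) (nat_lit 5) (nat_lit 621) (nat_lit 5) (nat_lit 622) (nat_lit 5) (nat_lit 417) (nat_lit 390) (nat_lit 333)) (XT.lf (nat_lit 0) (nat_lit 1228023553) (nat_lit 1520) (nat_lit 1149041438) (nat_lit 76) (nat_lit 5284948192) (nat_lit 601)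 (nat_lit 5) (nat_lit 621) (nat_lit 5) (nat_lit 602) (nat_lit 5) (nat_lit 418) (nat_lit 390) (nat_lit 332))) (XT.nd (nat_lit 78) (nat_lit 1596) (nat_lit 0) (XT.lf (nat_lit 0) (nat_lit 3331023486) (nat_lit 1596) (nat_lit 4204542411) (nat_lit 76) (nat_lit 182033349) (nat_lit 581) (nat_lit 5) (nat_lit 602) (nat_lit 5) (nat_lit 582) (nat_lit 5) (nat_lit 419) (nat_lit 390) (nat_lit 331)) (XT.lf (nat_lit 0) (nat_lit 466221145) (nat_lit 1596) (nat_lit 4997041175) (nat_lit 1672) (nat_lit 2311291130) (nat_lit 560) (nat_lit 5) (nat_lit 581) (nat_lit 5) (nat_lit 582) (nat_lit 5) (nat_lit 420) (nat_lit 390) (nat_lit 330))))))))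
noncomputable def xc44 : XT := (XT.nd (nat_lit 1248) (nat_lit 7372) (nat_lit 0) (XT.nd (nat_lit 624) (nat_lit 5396) (nat_lit 0) (XT.nd (nat_lit 312) (nat_lit 3040) (nat_lit 0) (XT.nd (nat_lit 156) (nat_lit 1748) (nat_lit 0) (XT.nd (nat_lit 78) (nat_lit 1748) (nat_lit 0) (XT.lf (nat_lit 0) (nat_lit 5253686846) (nat_lit 1596) (nat_lit 2373874538) (nat_lit 1672) (nat_lit 205297048) (nat_lit 560) (nat_lit 5) (nat_lit 581) (nat_lit 5) (nat_lit 582) (nat_lit 5) (nat_lit 421) (nat_lit 390) (nat_lit 329)) (XT.lf (nat_lit 0) (nat_lit 1895678584) (nat_lit 1748) (nat_lit 5667103868) (nat_lit 76) (nat_lit 329727937) (nat_lit 537) (nat_lit 5) (nat_lit 560) (nat_lit 5) (nat_lit 538) (nat_lit 5) (nat_lit 422) (nat_lit 390) (nat_lit 328))) (XT.nd (nat_lit 78) (nat_lit 1748) (nat_lit 0) (XT.lf (nat_lit 0) (nat_lit 4031343306) (nat_lit 1748) (nat_lit 843284742) (nat_lit 76) (nat_lit 3078791826) (nat_lit 537) (nat_lit 5) (nat_lit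 560) (nat_lit 5) (nat_lit 538) (nat_lit 5) (nat_lit 423) (nat_lit 390) (nat_lit 327)) (XT.lf (nat_lit 0) (nat_lit 4097298727) (nat_lit 1748) (nat_lit 2102037422) (nat_lit 1824) (nat_lit 1816419106) (nat_lit 514) (nat_lit 5) (nat_lit 537) (nat_lit 5) (nat_lit 538) (nat_lit 5) (nat_lit 424) (nat_lit 390) (nat_lit 326)))) (XT.nd (nat_lit 156) (nat_lit 1140) (nat_lit 0) (XT.nd (nat_lit 78) (nat_lit 0) (nat_lit 0) (XT.lf (nat_lit 0) (nat_lit 307608704) (nat_lit 1900) (nat_lit 7037886036) (nat_lit 76) (nat_lit 734187516) (nat_lit 489) (nat_lit 5) (nat_lit 514) (nat_lit 5) (nat_lit 490) (nat_lit 5) (nat_lit 425) (nat_lit 390) (nat_lit 325)) (XT.lf (nat_lit 0) (nat_lit 2454008343) (nat_lit 1900) (nat_lit 2050353315) (nat_lit 76) (nat_lit 3640201746) (nat_lit 489) (nat_lit 5) (nat_lit 514) (nat_lit 5) (nat_lit 490) (nat_lit 5) (nat_lit 426) (nat_lit 390) (nat_lit 324))) (XT.nd (nat_lit 78) (nat_lit 0) (nat_lit 0) (XT.lf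 (nat_lit 0) (nat_lit 3043277535) (nat_lit 1140) (nat_lit 1584327774) (nat_lit 1216) (nat_lit 3583451479) (nat_lit 474) (nat_lit 5) (nat_lit 489) (nat_lit 5) (nat_lit 490) (nat_lit 5) (nat_lit 427) (nat_lit 390) (nat_lit 323)) (XT.lf (nat_lit 0) (nat_lit 6832576302) (nat_lit 1216) (nat_lit 55229212) (nat_lit 76) (nat_lit 1391316485) (nat_lit 474) (nat_lit 5) (nat_lit 490) (nat_lit 5) (nat_lit 475) (nat_lit 5) (nat_lit 428) (nat_lit 390) (nat_lit 322))))) (XT.nd (nat_lit 312) (nat_lit 2660) (nat_lit 0) (XT.nd (nat_lit 156) (nat_lit 836) (nat_lit 0) (XT.nd (nat_lit 78) (nat_lit 912) (nat_lit 0) (XT.lf (nat_lit 0) (nat_lit 733383532) (nat_lit 988) (nat_lit 3169500353) (nat_lit 76) (nat_lit 4445371433) (nat_lit 461) (nat_lit 5) (nat_lit 474) (nat_lit 5) (nat_lit 462) (nat_lit 5) (nat_lit 429) (nat_lit 390) (nat_lit 321)) (XT.lf (nat_lit 0) (nat_lit 2083525839) (nat_lit 912) (nat_lit 833855130) (nat_lit 988) (nat_lit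 5501602323) (nat_lit 449) (nat_lit 5) (nat_lit 461) (nat_lit 5) (nat_lit 462) (nat_lit 5) (nat_lit 430) (nat_lit 390) (nat_lit 320))) (XT.nd (nat_lit 78) (nat_lit 836) (nat_lit 0) (XT.lf (nat_lit 0) (nat_lit 5147751902) (nat_lit 988) (nat_lit 1055250279) (nat_lit 76) (nat_lit 2288069774) (nat_lit 449) (nat_lit 5) (nat_lit 462) (nat_lit 5) (nat_lit 450) (nat_lit 5) (nat_lit 431) (nat_lit 390) (nat_lit 319)) (XT.lf (nat_lit 0) (nat_lit 4348666288) (nat_lit 836) (nat_lit 3074852886) (nat_lit 912) (nat_lit 1141067439) (nat_lit 438) (nat_lit 5) (nat_lit 449) (nat_lit 5) (nat_lit 450) (nat_lit 5) (nat_lit 432) (nat_lit 390) (nat_lit 318)))) (XT.nd (nat_lit 156) (nat_lit 1672) (nat_lit 0) (XT.nd (nat_lit 78) (nat_lit 0) (nat_lit 0) (XT.lf (nat_lit 0) (nat_lit 1073864056) (nat_lit 988) (nat_lit 7430108783) (nat_lit 76) (nat_lit 135792624) (nat_lit 425) (nat_lit 5) (nat_lit 438) (nat_lit 5) (nat_lit 426) (nat_lit 5) (nat_lit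 433) (nat_lit 390) (nat_lit 317)) (XT.lf (nat_lit 0) (nat_lit 3334337372) (nat_lit 988) (nat_lit 1977136222) (nat_lit 76) (nat_lit 3404493007) (nat_lit 425) (nat_lit 5) (nat_lit 438) (nat_lit 5) (nat_lit 426) (nat_lit 5) (nat_lit 434) (nat_lit 390) (nat_lit 316))) (XT.nd (nat_lit 78) (nat_lit 836) (nat_lit 0) (XT.lf (nat_lit 0) (nat_lit 3598721187) (nat_lit 836) (nat_lit 2032964382) (nat_lit 912) (nat_lit 3162172883) (nat_lit 414) (nat_lit 5) (nat_lit 425) (nat_lit 5) (nat_lit 426) (nat_lit 5) (nat_lit 435) (nat_lit 390) (nat_lit 315)) (XT.lf (nat_lit 0) (nat_lit 402768726) (nat_lit 836) (nat_lit 7565389538) (nat_lit 912) (nat_lit 905286325) (nat_lit 403) (nat_lit 5) (nat_lit 414) (nat_lit 5) (nat_lit 415) (nat_lit 5) (nat_lit 436) (nat_lit 390) (nat_lit 314)))))) (XT.nd (nat_lit 624) (nat_lit 3496) (nat_lit 0) (XT.nd (nat_lit 312) (nat_lit 2280) (nat_lit 0) (XT.nd (nat_lit 156) (nat_lit 760) (nat_lit 0) (XT.nd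 (nat_lit 78) (nat_lit 760) (nat_lit 0) (XT.lf (nat_lit 0) (nat_lit 1395861530) (nat_lit 912) (nat_lit 2827591746) (nat_lit 76) (nat_lit 4730638961) (nat_lit 402) (nat_lit 5) (nat_lit 414) (nat_lit 5) (nat_lit 403) (nat_lit 5) (nat_lit 437) (nat_lit 390) (nat_lit 313)) (XT.lf (nat_lit 0) (nat_lit 2927460732) (nat_lit 760) (nat_lit 791963976) (nat_lit 836) (nat_lit 5317038169) (nat_lit 392) (nat_lit 5) (nat_lit 402) (nat_lit 5) (nat_lit 403) (nat_lit 5) (nat_lit 438) (nat_lit 390) (nat_lit 312))) (XT.nd (nat_lit 78) (nat_lit 760) (nat_lit 0) (XT.lf (nat_lit 0) (nat_lit 6096002599) (nat_lit 836) (nat_lit 335523666) (nat_lit 76) (nat_lit 2688823796) (nat_lit 392) (nat_lit 5) (nat_lit 403) (nat_lit 5) (nat_lit 393) (nat_lit 5) (nat_lit 439) (nat_lit 390) (nat_lit 311)) (XT.lf (nat_lit 0) (nat_lit 5588476959) (nat_lit 760) (nat_lit 2943614982) (nat_lit 836) (nat_lit 673583450) (nat_lit 382) (nat_lit 5) (nat_lit 392)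 (nat_lit 5) (nat_lit 393) (nat_lit 5) (nat_lit 440) (nat_lit 390) (nat_lit 310)))) (XT.nd (nat_lit 156) (nat_lit 1444) (nat_lit 0) (XT.nd (nat_lit 78) (nat_lit 0) (nat_lit 0) (XT.lf (nat_lit 0) (nat_lit 1693746439) (nat_lit 836) (nat_lit 6967865053) (nat_lit 76) (nat_lit 631028567) (nat_lit 371) (nat_lit 5) (nat_lit 382) (nat_lit 5) (nat_lit 372) (nat_lit 5) (nat_lit 441) (nat_lit 390) (nat_lit 309)) (XT.lf (nat_lit 0) (nat_lit 4114301059) (nat_lit 836) (nat_lit 1003860567) (nat_lit 76) (nat_lit 4262795399) (nat_lit 371) (nat_lit 5) (nat_lit 382) (nat_lit 5) (nat_lit 372) (nat_lit 5) (nat_lit 442) (nat_lit 390) (nat_lit 308))) (XT.nd (nat_lit 78) (nat_lit 684) (nat_lit 0) (XT.lf (nat_lit 0) (nat_lit 5113641016) (nat_lit 760) (nat_lit 1474357088) (nat_lit 836) (nat_lit 2882947600) (nat_lit 361) (nat_lit 5) (nat_lit 371) (nat_lit 5) (nat_lit 372) (nat_lit 5) (nat_lit 443) (nat_lit 390) (nat_lit 307)) (XT.lf (nat_lit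 0) (nat_lit 1780077179) (nat_lit 684) (nat_lit 7335836309) (nat_lit 760) (nat_lit 446725780) (nat_lit 352) (nat_lit 5) (nat_lit 361) (nat_lit 5) (nat_lit 362) (nat_lit 5) (nat_lit 444) (nat_lit 390) (nat_lit 306))))) (XT.nd (nat_lit 312) (nat_lit 2052) (nat_lit 0) (XT.nd (nat_lit 156) (nat_lit 684) (nat_lit 0) (XT.nd (nat_lit 78) (nat_lit 684) (nat_lit 0) (XT.lf (nat_lit 0) (nat_lit 2022687400) (nat_lit 760) (nat_lit 1612822163) (nat_lit 76) (nat_lit 6020168501) (nat_lit 351) (nat_lit 5) (nat_lit 361) (nat_lit 5) (nat_lit 352) (nat_lit 5) (nat_lit 445) (nat_lit 390) (nat_lit 305)) (XT.lf (nat_lit 0) (nat_lit 4539709498) (nat_lit 760) (nat_lit 5045133118) (nat_lit 76) (nat_lit 165591915) (nat_lit 342) (nat_lit 5) (nat_lit 352) (nat_lit 5) (nat_lit 343) (nat_lit 5) (nat_lit 446) (nat_lit 390) (nat_lit 304))) (XT.nd (nat_lit 78) (nat_lit 0) (nat_lit 0) (XT.lf (nat_lit 0) (nat_lit 1284518953) (nat_lit 684) (nat_lit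 5838706892) (nat_lit 760) (nat_lit 2723537207) (nat_lit 333) (nat_lit 5) (nat_lit 342) (nat_lit 5) (nat_lit 343) (nat_lit 5) (nat_lit 447) (nat_lit 390) (nat_lit 303)) (XT.lf (nat_lit 0) (nat_lit 7776409150) (nat_lit 684) (nat_lit 1989021843) (nat_lit 760) (nat_lit 179446782) (nat_lit 333) (nat_lit 5) (nat_lit 342) (nat_lit 5) (nat_lit 343) (nat_lit 5) (nat_lit 448) (nat_lit 390) (nat_lit 302)))) (XT.nd (nat_lit 156) (nat_lit 684) (nat_lit 0) (XT.nd (nat_lit 78) (nat_lit 608) (nat_lit 0) (XT.lf (nat_lit 0) (nat_lit 2398516255) (nat_lit 760) (nat_lit 5695179626) (nat_lit 76) (nat_lit 1950651829) (nat_lit 323) (nat_lit 5) (nat_lit 333) (nat_lit 5) (nat_lit 324) (nat_lit 5) (nat_lit 449) (nat_lit 390) (nat_lit 301)) (XT.lf (nat_lit 0) (nat_lit 844936487) (nat_lit 608) (nat_lit 4187793239) (nat_lit 684) (nat_lit 5112911715) (nat_lit 315) (nat_lit 5) (nat_lit 323) (nat_lit 5) (nat_lit 324) (nat_lit 5) (nat_lit 450)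 (nat_lit 390) (nat_lit 300))) (XT.nd (nat_lit 78) (nat_lit 684) (nat_lit 0) (XT.lf (nat_lit 0) (nat_lit 7560546270) (nat_lit 608) (nat_lit 171387361) (nat_lit 684) (nat_lit 2516781294) (nat_lit 315) (nat_lit 5) (nat_lit 323) (nat_lit 5) (nat_lit 324) (nat_lit 5) (nat_lit 451) (nat_lit 390) (nat_lit 299)) (XT.lf (nat_lit 0) (nat_lit 156072982) (nat_lit 684) (nat_lit 6302412373) (nat_lit 76) (nat_lit 3894817018) (nat_lit 306) (nat_lit 5) (nat_lit 315) (nat_lit 5) (nat_lit 307) (nat_lit 5) (nat_lit 452) (nat_lit 390) (nat_lit 298)))))))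
noncomputable def xc45 : XT := (XT.nd (nat_lit 55380) (nat_lit 0) (nat_lit 24244) (XT.nd (nat_lit 54756) (nat_lit 0) (nat_lit 32908) (XT.nd (nat_lit 312) (nat_lit 0) (nat_lit 0) (XT.nd (nat_lit 156) (nat_lit 1216) (nat_lit 0) (XT.nd (nat_lit 78) (nat_lit 0) (nat_lit 0) (XT.lf (nat_lit 0) (nat_lit 457160976) (nat_lit 608) (nat_lit 2388495221) (nat_lit 684) (nat_lit 7614053224) (nat_lit 298) (nat_lit 5) (nat_lit 306) (nat_lit 5) (nat_lit 307) (nat_lit 5) (nat_lit 453) (nat_lit 390) (nat_lit 297)) (XT.lf (nat_lit 0) (nat_lit 5617968206) (nat_lit 684) (nat_lit 3174469116) (nat_lit 76) (nat_lit 1775228546) (nat_lit 298) (nat_lit 5) (nat_lit 307) (nat_lit 5) (nat_lit 299) (nat_lit 5) (nat_lit 454) (nat_lit 390) (nat_lit 296))) (XT.nd (nat_lit 78) (nat_lit 608) (nat_lit 0) (XT.lf (nat_lit 0) (nat_lit 3792027224) (nat_lit 608) (nat_lit 4669547885) (nat_lit 684) (nat_lit 2215889361) (nat_lit 290) (nat_lit 5) (nat_lit 298)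 (nat_lit 5) (nat_lit 299) (nat_lit 5) (nat_lit 455) (nat_lit 390) (nat_lit 295)) (XT.lf (nat_lit 0) (nat_lit 117357492) (nat_lit 532) (nat_lit 445458114) (nat_lit 608) (nat_lit 10226614482) (nat_lit 282) (nat_lit 5) (nat_lit 289) (nat_lit 5) (nat_lit 290) (nat_lit 5) (nat_lit 456) (nat_lit 390) (nat_lit 294)))) (XT.nd (nat_lit 54288) (nat_lit 0) (nat_lit 35492) (XT.nd (nat_lit 54210) (nat_lit 0) (nat_lit 35492) (XT.lf (nat_lit 0) (nat_lit 3414791243) (nat_lit 608) (nat_lit 3621627722) (nat_lit 76) (nat_lit 3865975766) (nat_lit 282) (nat_lit 5) (nat_lit 290) (nat_lit 5) (nat_lit 283) (nat_lit 5) (nat_lit 457) (nat_lit 390) (nat_lit 293)) (XT.lf (nat_lit 0) (nat_lit 781826217) (nat_lit 836) (nat_lit 1276950119) (nat_lit 836) (nat_lit 1276950119) (nat_lit 749) (nat_lit 3) (nat_lit 760) (nat_lit 3) (nat_lit 760) (nat_lit 5) (nat_lit 391) (nat_lit 391) (nat_lit 358))) (XT.nd (nat_lit 78) (nat_lit 0) (nat_lit 0) (XT.lf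 (nat_lit 76) (nat_lit 792216276) (nat_lit 0) (nat_lit 3047587489) (nat_lit 836) (nat_lit 2853153379) (nat_lit 750) (nat_lit 5) (nat_lit 749) (nat_lit 3) (nat_lit 760) (nat_lit 5) (nat_lit 392) (nat_lit 391) (nat_lit 357)) (XT.lf (nat_lit 76) (nat_lit 4209301762) (nat_lit 0) (nat_lit 1909956684) (nat_lit 836) (nat_lit 596477411) (nat_lit 750) (nat_lit 5) (nat_lit 749) (nat_lit 3) (nat_lit 760) (nat_lit 5) (nat_lit 393) (nat_lit 391) (nat_lit 356))))) (XT.nd (nat_lit 312) (nat_lit 912) (nat_lit 0) (XT.nd (nat_lit 156) (nat_lit 836) (nat_lit 0) (XT.nd (nat_lit 78) (nat_lit 0) (nat_lit 76) (XT.lf (nat_lit 76) (nat_lit 926081205) (nat_lit 0) (nat_lit 704318661) (nat_lit 912) (nat_lit 5109400162) (nat_lit 739) (nat_lit 5) (nat_lit 738) (nat_lit 5) (nat_lit 750) (nat_lit 5) (nat_lit 394) (nat_lit 391) (nat_lit 355)) (XT.lf (nat_lit 0) (nat_lit 3856724541) (nat_lit 836) (nat_lit 2342137204) (nat_lit 912) (nat_lit 566146951)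 (nat_lit 739) (nat_lit 5) (nat_lit 750) (nat_lit 5) (nat_lit 751) (nat_lit 5) (nat_lit 395) (nat_lit 391) (nat_lit 354))) (XT.nd (nat_lit 78) (nat_lit 912) (nat_lit 0) (XT.lf (nat_lit 76) (nat_lit 1178414575) (nat_lit 0) (nat_lit 4905149960) (nat_lit 912) (nat_lit 708037225) (nat_lit 740) (nat_lit 5) (nat_lit 739) (nat_lit 5) (nat_lit 751) (nat_lit 5) (nat_lit 396) (nat_lit 391) (nat_lit 353)) (XT.lf (nat_lit 0) (nat_lit 1476097210) (nat_lit 912) (nat_lit 2059152931) (nat_lit 988) (nat_lit 3284076455) (nat_lit 727) (nat_lit 5) (nat_lit 739) (nat_lit 5) (nat_lit 740) (nat_lit 5) (nat_lit 397) (nat_lit 391) (nat_lit 352)))) (XT.nd (nat_lit 156) (nat_lit 912) (nat_lit 0) (XT.nd (nat_lit 78) (nat_lit 0) (nat_lit 0) (XT.lf (nat_lit 76) (nat_lit 1550442595) (nat_lit 0) (nat_lit 2099369660) (nat_lit 988) (nat_lit 3198592503) (nat_lit 728) (nat_lit 5) (nat_lit 727) (nat_lit 5) (nat_lit 740) (nat_lit 5) (nat_lit 398) (nat_lit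 391) (nat_lit 351)) (XT.lf (nat_lit 76) (nat_lit 5229182667) (nat_lit 0) (nat_lit 597811584) (nat_lit 988) (nat_lit 1051870376) (nat_lit 728) (nat_lit 5) (nat_lit 727) (nat_lit 5) (nat_lit 740) (nat_lit 5) (nat_lit 399) (nat_lit 391) (nat_lit 350))) (XT.nd (nat_lit 78) (nat_lit 0) (nat_lit 0) (XT.lf (nat_lit 0) (nat_lit 1089463718) (nat_lit 988) (nat_lit 4856787218) (nat_lit 1064) (nat_lit 964203019) (nat_lit 715) (nat_lit 5) (nat_lit 728) (nat_lit 5) (nat_lit 729) (nat_lit 5) (nat_lit 400) (nat_lit 391) (nat_lit 349)) (XT.lf (nat_lit 0) (nat_lit 3222516591) (nat_lit 988) (nat_lit 1132046668) (nat_lit 1064) (nat_lit 2588713219) (nat_lit 715) (nat_lit 5) (nat_lit 728) (nat_lit 5) (nat_lit 729) (nat_lit 5) (nat_lit 401) (nat_lit 391) (nat_lit 348)))))) (XT.nd (nat_lit 624) (nat_lit 6536) (nat_lit 0) (XT.nd (nat_lit 312) (nat_lit 1064) (nat_lit 0) (XT.nd (nat_lit 156) (nat_lit 0) (nat_lit 76) (XT.nd (nat_lit 78) (nat_lit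 1064) (nat_lit 0) (XT.lf (nat_lit 76) (nat_lit 2670806077) (nat_lit 0) (nat_lit 2693648332) (nat_lit 1064) (nat_lit 1612976565) (nat_lit 716) (nat_lit 5) (nat_lit 715) (nat_lit 5) (nat_lit 729) (nat_lit 5) (nat_lit 402) (nat_lit 391) (nat_lit 347)) (XT.lf (nat_lit 0) (nat_lit 486916713) (nat_lit 1064) (nat_lit 482469366) (nat_lit 1140) (nat_lit 6043672822) (nat_lit 701) (nat_lit 5) (nat_lit 715) (nat_lit 5) (nat_lit 716) (nat_lit 5) (nat_lit 403) (nat_lit 391) (nat_lit 346))) (XT.nd (nat_lit 78) (nat_lit 0) (nat_lit 0) (XT.lf (nat_lit 0) (nat_lit 2585247614) (nat_lit 1064) (nat_lit 3634093486) (nat_lit 1140) (nat_lit 830284301) (nat_lit 702) (nat_lit 5) (nat_lit 716) (nat_lit 5) (nat_lit 717) (nat_lit 5) (nat_lit 404) (nat_lit 391) (nat_lit 345)) (XT.lf (nat_lit 76) (nat_lit 276216096) (nat_lit 0) (nat_lit 4412032022) (nat_lit 1140) (nat_lit 2399421052) (nat_lit 703) (nat_lit 5) (nat_lit 702) (nat_lit 5) (nat_lit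 717) (nat_lit 5) (nat_lit 405) (nat_lit 391) (nat_lit 344)))) (XT.nd (nat_lit 156) (nat_lit 0) (nat_lit 76) (XT.nd (nat_lit 78) (nat_lit 1140) (nat_lit 0) (XT.lf (nat_lit 76) (nat_lit 4282064359) (nat_lit 0) (nat_lit 2527610680) (nat_lit 1140) (nat_lit 317271448) (nat_lit 703) (nat_lit 5) (nat_lit 702) (nat_lit 5) (nat_lit 717) (nat_lit 5) (nat_lit 406) (nat_lit 391) (nat_lit 343)) (XT.lf (nat_lit 76) (nat_lit 1172739441) (nat_lit 0) (nat_lit 570312578) (nat_lit 1216) (nat_lit 5424518275) (nat_lit 688) (nat_lit 5) (nat_lit 687) (nat_lit 5) (nat_lit 703) (nat_lit 5) (nat_lit 407) (nat_lit 391) (nat_lit 342))) (XT.nd (nat_lit 78) (nat_lit 0) (nat_lit 0) (XT.lf (nat_lit 0) (nat_lit 3822243956) (nat_lit 1140) (nat_lit 1943587795) (nat_lit 1216) (nat_lit 1443494677) (nat_lit 688) (nat_lit 5) (nat_lit 703) (nat_lit 5) (nat_lit 704) (nat_lit 5) (nat_lit 408) (nat_lit 391) (nat_lit 341)) (XT.lf (nat_lit 76) (nat_lit 2181402266)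 (nat_lit 0) (nat_lit 3733900436) (nat_lit 1216) (nat_lit 1337169322) (nat_lit 689) (nat_lit 5) (nat_lit 688) (nat_lit 5) (nat_lit 704) (nat_lit 5) (nat_lit 409) (nat_lit 391) (nat_lit 340))))) (XT.nd (nat_lit 312) (nat_lit 4256) (nat_lit 0) (XT.nd (nat_lit 156) (nat_lit 1140) (nat_lit 0) (XT.nd (nat_lit 78) (nat_lit 0) (nat_lit 76) (XT.lf (nat_lit 0) (nat_lit 711718772) (nat_lit 1216) (nat_lit 918462634) (nat_lit 1292) (nat_lit 5666844009) (nat_lit 672) (nat_lit 5) (nat_lit 688) (nat_lit 5) (nat_lit 689) (nat_lit 5) (nat_lit 410) (nat_lit 391) (nat_lit 339)) (XT.lf (nat_lit 0) (nat_lit 2764503655) (nat_lit 1216) (nat_lit 4026359199) (nat_lit 76) (nat_lit 551813771) (nat_lit 673) (nat_lit 5) (nat_lit 689) (nat_lit 5) (nat_lit 674) (nat_lit 5) (nat_lit 411) (nat_lit 391) (nat_lit 338))) (XT.nd (nat_lit 78) (nat_lit 0) (nat_lit 0) (XT.lf (nat_lit 0) (nat_lit 218548632) (nat_lit 1216) (nat_lit 4614578479) (nat_lit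 1292) (nat_lit 2556618090) (nat_lit 657) (nat_lit 5) (nat_lit 673) (nat_lit 5) (nat_lit 674) (nat_lit 5) (nat_lit 412) (nat_lit 391) (nat_lit 337)) (XT.lf (nat_lit 0) (nat_lit 4570541042) (nat_lit 1216) (nat_lit 2356610109) (nat_lit 1292) (nat_lit 510923435) (nat_lit 657) (nat_lit 5) (nat_lit 673) (nat_lit 5) (nat_lit 674) (nat_lit 5) (nat_lit 413) (nat_lit 391) (nat_lit 336)))) (XT.nd (nat_lit 156) (nat_lit 2888) (nat_lit 0) (XT.nd (nat_lit 78) (nat_lit 0) (nat_lit 0) (XT.lf (nat_lit 0) (nat_lit 1499315506) (nat_lit 1292) (nat_lit 23011721) (nat_lit 1368) (nat_lit 5965492575) (nat_lit 639) (nat_lit 5) (nat_lit 656) (nat_lit 5) (nat_lit 657) (nat_lit 5) (nat_lit 414) (nat_lit 391) (nat_lit 335)) (XT.lf (nat_lit 0) (nat_lit 3582342362) (nat_lit 1368) (nat_lit 1597626297) (nat_lit 76) (nat_lit 2358664904) (nat_lit 639) (nat_lit 5) (nat_lit 657) (nat_lit 5) (nat_lit 640) (nat_lit 5) (nat_lit 415) (nat_lit 391) (nat_lit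 334))) (XT.nd (nat_lit 78) (nat_lit 1520) (nat_lit 0) (XT.lf (nat_lit 0) (nat_lit 2886412866) (nat_lit 1368) (nat_lit 2775115624) (nat_lit 1444) (nat_lit 1929375696) (nat_lit 621) (nat_lit 5) (nat_lit 639) (nat_lit 5) (nat_lit 640) (nat_lit 5) (nat_lit 416) (nat_lit 391) (nat_lit 333)) (XT.nd (nat_lit 78) (nat_lit 1444) (nat_lit 0) (XT.lf (nat_lit 0) (nat_lit 106463504) (nat_lit 1444) (nat_lit 195870662) (nat_lit 76) (nat_lit 7342464200) (nat_lit 620) (nat_lit 5) (nat_lit 639) (nat_lit 5) (nat_lit 621) (nat_lit 5) (nat_lit 417) (nat_lit 391) (nat_lit 332)) (XT.lf (nat_lit 0) (nat_lit 2160819311) (nat_lit 1520) (nat_lit 3298458941) (nat_lit 76) (nat_lit 2240164428) (nat_lit 601) (nat_lit 5) (nat_lit 621) (nat_lit 5) (nat_lit 602) (nat_lit 5) (nat_lit 418) (nat_lit 391) (nat_lit 331))))))))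
noncomputable def xc46 : XT := (XT.nd (nat_lit 2496) (nat_lit 3116) (nat_lit 0) (XT.nd (nat_lit 1248) (nat_lit 7752) (nat_lit 0) (XT.nd (nat_lit 624) (nat_lit 4864) (nat_lit 0) (XT.nd (nat_lit 312) (nat_lit 5320) (nat_lit 0) (XT.nd (nat_lit 156) (nat_lit 1672) (nat_lit 0) (XT.nd (nat_lit 78) (nat_lit 0) (nat_lit 0) (XT.lf (nat_lit 0) (nat_lit 1319909450) (nat_lit 1520) (nat_lit 2909069889) (nat_lit 1596) (nat_lit 3526746201) (nat_lit 581) (nat_lit 5) (nat_lit 601) (nat_lit 5) (nat_lit 602) (nat_lit 5) (nat_lit 419) (nat_lit 391) (nat_lit 330)) (XT.lf (nat_lit 0) (nat_lit 6042904411) (nat_lit 1520) (nat_lit 279112112) (nat_lit 1596) (nat_lit 1491447257) (nat_lit 581) (nat_lit 5) (nat_lit 601) (nat_lit 5) (nat_lit 602) (nat_lit 5) (nat_lit 420) (nat_lit 391) (nat_lit 329))) (XT.nd (nat_lit 78) (nat_lit 0) (nat_lit 0) (XT.lf (nat_lit 0) (nat_lit 573993558) (nat_lit 1672) (nat_lit 4897337185) (nat_lit 76) (nat_lit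 2401008084) (nat_lit 559) (nat_lit 5) (nat_lit 581) (nat_lit 5) (nat_lit 560) (nat_lit 5) (nat_lit 421) (nat_lit 391) (nat_lit 328)) (XT.lf (nat_lit 0) (nat_lit 2637060282) (nat_lit 1672) (nat_lit 137380529) (nat_lit 76) (nat_lit 5158227642) (nat_lit 559) (nat_lit 5) (nat_lit 581) (nat_lit 5) (nat_lit 560) (nat_lit 5) (nat_lit 422) (nat_lit 391) (nat_lit 327)))) (XT.nd (nat_lit 156) (nat_lit 1900) (nat_lit 0) (XT.nd (nat_lit 78) (nat_lit 1748) (nat_lit 0) (XT.lf (nat_lit 0) (nat_lit 4735491019) (nat_lit 1748) (nat_lit 3246612989) (nat_lit 76) (nat_lit 12218610) (nat_lit 537) (nat_lit 5) (nat_lit 560) (nat_lit 5) (nat_lit 538) (nat_lit 5) (nat_lit 423) (nat_lit 391) (nat_lit 326)) (XT.lf (nat_lit 0) (nat_lit 1645581617) (nat_lit 1748) (nat_lit 5224032433) (nat_lit 1824) (nat_lit 1187721345) (nat_lit 514) (nat_lit 5) (nat_lit 537) (nat_lit 5) (nat_lit 538) (nat_lit 5) (nat_lit 424) (nat_lit 391) (nat_lit 325))) (XT.nd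 (nat_lit 78) (nat_lit 1824) (nat_lit 0) (XT.lf (nat_lit 0) (nat_lit 898613178) (nat_lit 1824) (nat_lit 1480748316) (nat_lit 76) (nat_lit 5742408221) (nat_lit 513) (nat_lit 5) (nat_lit 537) (nat_lit 5) (nat_lit 514) (nat_lit 5) (nat_lit 425) (nat_lit 391) (nat_lit 324)) (XT.lf (nat_lit 0) (nat_lit 3002189014) (nat_lit 1900) (nat_lit 4635962265) (nat_lit 76) (nat_lit 549356059) (nat_lit 489) (nat_lit 5) (nat_lit 514) (nat_lit 5) (nat_lit 490) (nat_lit 5) (nat_lit 426) (nat_lit 391) (nat_lit 323))))) (XT.nd (nat_lit 312) (nat_lit 2736) (nat_lit 0) (XT.nd (nat_lit 156) (nat_lit 988) (nat_lit 0) (XT.nd (nat_lit 78) (nat_lit 0) (nat_lit 0) (XT.lf (nat_lit 0) (nat_lit 406799863) (nat_lit 1140) (nat_lit 4734643720) (nat_lit 1216) (nat_lit 3113243989) (nat_lit 474) (nat_lit 5) (nat_lit 489) (nat_lit 5) (nat_lit 490) (nat_lit 5) (nat_lit 427) (nat_lit 391) (nat_lit 322)) (XT.lf (nat_lit 0) (nat_lit 5580567913) (nat_lit 1140)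 (nat_lit 1739701289) (nat_lit 1216) (nat_lit 1003006486) (nat_lit 474) (nat_lit 5) (nat_lit 489) (nat_lit 5) (nat_lit 490) (nat_lit 5) (nat_lit 428) (nat_lit 391) (nat_lit 321))) (XT.nd (nat_lit 78) (nat_lit 0) (nat_lit 0) (XT.lf (nat_lit 0) (nat_lit 1125141224) (nat_lit 988) (nat_lit 5945312986) (nat_lit 76) (nat_lit 1322816491) (nat_lit 461) (nat_lit 5) (nat_lit 474) (nat_lit 5) (nat_lit 462) (nat_lit 5) (nat_lit 429) (nat_lit 391) (nat_lit 320)) (XT.lf (nat_lit 0) (nat_lit 3279070582) (nat_lit 988) (nat_lit 735930475) (nat_lit 76) (nat_lit 4449598979) (nat_lit 461) (nat_lit 5) (nat_lit 474) (nat_lit 5) (nat_lit 462) (nat_lit 5) (nat_lit 430) (nat_lit 391) (nat_lit 319)))) (XT.nd (nat_lit 156) (nat_lit 988) (nat_lit 0) (XT.nd (nat_lit 78) (nat_lit 836) (nat_lit 0) (XT.lf (nat_lit 0) (nat_lit 4605728873) (nat_lit 912) (nat_lit 867496527) (nat_lit 988) (nat_lit 3064187622) (nat_lit 449) (nat_lit 5) (nat_lit 461)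 (nat_lit 5) (nat_lit 462) (nat_lit 5) (nat_lit 431) (nat_lit 391) (nat_lit 318)) (XT.lf (nat_lit 0) (nat_lit 1423284481) (nat_lit 836) (nat_lit 6285081667) (nat_lit 912) (nat_lit 903374062) (nat_lit 438) (nat_lit 5) (nat_lit 449) (nat_lit 5) (nat_lit 450) (nat_lit 5) (nat_lit 432) (nat_lit 391) (nat_lit 317))) (XT.nd (nat_lit 78) (nat_lit 912) (nat_lit 0) (XT.lf (nat_lit 0) (nat_lit 1283790800) (nat_lit 912) (nat_lit 1795705536) (nat_lit 76) (nat_lit 5607884844) (nat_lit 437) (nat_lit 5) (nat_lit 449) (nat_lit 5) (nat_lit 438) (nat_lit 5) (nat_lit 433) (nat_lit 391) (nat_lit 316)) (XT.lf (nat_lit 0) (nat_lit 3496684889) (nat_lit 988) (nat_lit 5050663074) (nat_lit 76) (nat_lit 217185939) (nat_lit 425) (nat_lit 5) (nat_lit 438) (nat_lit 5) (nat_lit 426) (nat_lit 5) (nat_lit 434) (nat_lit 391) (nat_lit 315)))))) (XT.nd (nat_lit 624) (nat_lit 3648) (nat_lit 0) (XT.nd (nat_lit 312) (nat_lit 2356) (nat_lit 0) (XT.nd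 (nat_lit 156) (nat_lit 912) (nat_lit 0) (XT.nd (nat_lit 78) (nat_lit 0) (nat_lit 0) (XT.lf (nat_lit 0) (nat_lit 467936442) (nat_lit 836) (nat_lit 5290384214) (nat_lit 912) (nat_lit 3084819345) (nat_lit 414) (nat_lit 5) (nat_lit 425) (nat_lit 5) (nat_lit 426) (nat_lit 5) (nat_lit 435) (nat_lit 391) (nat_lit 314)) (XT.lf (nat_lit 0) (nat_lit 6132868150) (nat_lit 836) (nat_lit 1935533642) (nat_lit 912) (nat_lit 854852178) (nat_lit 414) (nat_lit 5) (nat_lit 425) (nat_lit 5) (nat_lit 426) (nat_lit 5) (nat_lit 436) (nat_lit 391) (nat_lit 313))) (XT.nd (nat_lit 78) (nat_lit 0) (nat_lit 0) (XT.lf (nat_lit 0) (nat_lit 1399486991) (nat_lit 912) (nat_lit 6112125996) (nat_lit 76) (nat_lit 1493205027) (nat_lit 402) (nat_lit 5) (nat_lit 414) (nat_lit 5) (nat_lit 403) (nat_lit 5) (nat_lit 437) (nat_lit 391) (nat_lit 312)) (XT.lf (nat_lit 0) (nat_lit 3689238164) (nat_lit 912) (nat_lit 411625825) (nat_lit 76) (nat_lit 4987000905)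 (nat_lit 402) (nat_lit 5) (nat_lit 414) (nat_lit 5) (nat_lit 403) (nat_lit 5) (nat_lit 438) (nat_lit 391) (nat_lit 311)))) (XT.nd (nat_lit 156) (nat_lit 836) (nat_lit 0) (XT.nd (nat_lit 78) (nat_lit 760) (nat_lit 0) (XT.lf (nat_lit 0) (nat_lit 5442261139) (nat_lit 760) (nat_lit 588538306) (nat_lit 836) (nat_lit 3141652966) (nat_lit 392) (nat_lit 5) (nat_lit 402) (nat_lit 5) (nat_lit 403) (nat_lit 5) (nat_lit 439) (nat_lit 391) (nat_lit 310)) (XT.lf (nat_lit 0) (nat_lit 2136340530) (nat_lit 760) (nat_lit 6289972127) (nat_lit 836) (nat_lit 832276606) (nat_lit 382) (nat_lit 5) (nat_lit 392) (nat_lit 5) (nat_lit 393) (nat_lit 5) (nat_lit 440) (nat_lit 391) (nat_lit 309))) (XT.nd (nat_lit 78) (nat_lit 760) (nat_lit 0) (XT.lf (nat_lit 0) (nat_lit 1503604317) (nat_lit 836) (nat_lit 1221654523) (nat_lit 76) (nat_lit 6620986304) (nat_lit 381) (nat_lit 5) (nat_lit 392) (nat_lit 5) (nat_lit 382) (nat_lit 5) (nat_lit 441)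 (nat_lit 391) (nat_lit 308)) (XT.lf (nat_lit 0) (nat_lit 3884280353) (nat_lit 836) (nat_lit 4618805692) (nat_lit 76) (nat_lit 932273636) (nat_lit 371) (nat_lit 5) (nat_lit 382) (nat_lit 5) (nat_lit 372) (nat_lit 5) (nat_lit 442) (nat_lit 391) (nat_lit 307))))) (XT.nd (nat_lit 312) (nat_lit 1444) (nat_lit 0) (XT.nd (nat_lit 156) (nat_lit 1444) (nat_lit 0) (XT.nd (nat_lit 78) (nat_lit 0) (nat_lit 0) (XT.lf (nat_lit 0) (nat_lit 1434500125) (nat_lit 760) (nat_lit 4885772234) (nat_lit 836) (nat_lit 3205830101) (nat_lit 361) (nat_lit 5) (nat_lit 371) (nat_lit 5) (nat_lit 372) (nat_lit 5) (nat_lit 443) (nat_lit 391) (nat_lit 306)) (XT.lf (nat_lit 0) (nat_lit 7639487856) (nat_lit 760) (nat_lit 1168918948) (nat_lit 836) (nat_lit 810184840) (nat_lit 361) (nat_lit 5) (nat_lit 371) (nat_lit 5) (nat_lit 372) (nat_lit 5) (nat_lit 444) (nat_lit 391) (nat_lit 305))) (XT.nd (nat_lit 78) (nat_lit 684) (nat_lit 0) (XT.lf (nat_lit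 0) (nat_lit 1629710091) (nat_lit 760) (nat_lit 5460653472) (nat_lit 76) (nat_lit 2621999774) (nat_lit 351) (nat_lit 5) (nat_lit 361) (nat_lit 5) (nat_lit 352) (nat_lit 5) (nat_lit 445) (nat_lit 391) (nat_lit 304)) (XT.lf (nat_lit 0) (nat_lit 791380302) (nat_lit 684) (nat_lit 3315520894) (nat_lit 760) (nat_lit 5701015228) (nat_lit 342) (nat_lit 5) (nat_lit 351) (nat_lit 5) (nat_lit 352) (nat_lit 5) (nat_lit 446) (nat_lit 391) (nat_lit 303)))) (XT.nd (nat_lit 156) (nat_lit 760) (nat_lit 0) (XT.nd (nat_lit 78) (nat_lit 684) (nat_lit 0) (XT.lf (nat_lit 0) (nat_lit 6647370621) (nat_lit 760) (nat_lit 2698201015) (nat_lit 76) (nat_lit 559534248) (nat_lit 342) (nat_lit 5) (nat_lit 352) (nat_lit 5) (nat_lit 343) (nat_lit 5) (nat_lit 447) (nat_lit 391) (nat_lit 302)) (XT.lf (nat_lit 0) (nat_lit 3741939922) (nat_lit 684) (nat_lit 5516859370) (nat_lit 760) (nat_lit 745036843) (nat_lit 333) (nat_lit 5) (nat_lit 342) (nat_lit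 5) (nat_lit 343) (nat_lit 5) (nat_lit 448) (nat_lit 391) (nat_lit 301))) (XT.nd (nat_lit 78) (nat_lit 0) (nat_lit 0) (XT.lf (nat_lit 0) (nat_lit 202191751) (nat_lit 684) (nat_lit 1585454786) (nat_lit 760) (nat_lit 8316786926) (nat_lit 323) (nat_lit 5) (nat_lit 332) (nat_lit 5) (nat_lit 333) (nat_lit 5) (nat_lit 449) (nat_lit 391) (nat_lit 300)) (XT.lf (nat_lit 0) (nat_lit 4393357315) (nat_lit 760) (nat_lit 3378795427) (nat_lit 76) (nat_lit 2434144507) (nat_lit 323) (nat_lit 5) (nat_lit 333) (nat_lit 5) (nat_lit 324) (nat_lit 5) (nat_lit 450) (nat_lit 391) (nat_lit 299))))))) (XT.nd (nat_lit 55458) (nat_lit 0) (nat_lit 25764) (XT.nd (nat_lit 54834) (nat_lit 0) (nat_lit 32832) (XT.nd (nat_lit 312) (nat_lit 1216) (nat_lit 0) (XT.nd (nat_lit 156) (nat_lit 1292) (nat_lit 0) (XT.nd (nat_lit 78) (nat_lit 0) (nat_lit 0) (XT.lf (nat_lit 0) (nat_lit 3276134273) (nat_lit 608) (nat_lit 3781622079) (nat_lit 684) (nat_lit 3252310478)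 (nat_lit 315) (nat_lit 5) (nat_lit 323) (nat_lit 5) (nat_lit 324) (nat_lit 5) (nat_lit 451) (nat_lit 391) (nat_lit 298)) (XT.lf (nat_lit 0) (nat_lit 9775195094) (nat_lit 684) (nat_lit 339222929) (nat_lit 76) (nat_lit 301498745) (nat_lit 315) (nat_lit 5) (nat_lit 324) (nat_lit 5) (nat_lit 316) (nat_lit 5) (nat_lit 452) (nat_lit 391) (nat_lit 297))) (XT.nd (nat_lit 78) (nat_lit 608) (nat_lit 0) (XT.lf (nat_lit 0) (nat_lit 2039760345) (nat_lit 684) (nat_lit 4017694636) (nat_lit 76) (nat_lit 4465302122) (nat_lit 306) (nat_lit 5) (nat_lit 315) (nat_lit 5) (nat_lit 307) (nat_lit 5) (nat_lit 453) (nat_lit 391) (nat_lit 296)) (XT.lf (nat_lit 0) (nat_lit 2861209878) (nat_lit 608) (nat_lit 1900600822) (nat_lit 684) (nat_lit 5869908082) (nat_lit 298) (nat_lit 5) (nat_lit 306) (nat_lit 5) (nat_lit 307) (nat_lit 5) (nat_lit 454) (nat_lit 391) (nat_lit 295)))) (XT.nd (nat_lit 156) (nat_lit 608) (nat_lit 0) (XT.nd (nat_lit 78)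 (nat_lit 608) (nat_lit 0) (XT.lf (nat_lit 0) (nat_lit 7556522930) (nat_lit 684) (nat_lit 856965731) (nat_lit 76) (nat_lit 2329006617) (nat_lit 298) (nat_lit 5) (nat_lit 307) (nat_lit 5) (nat_lit 299) (nat_lit 5) (nat_lit 455) (nat_lit 391) (nat_lit 294)) (XT.lf (nat_lit 0) (nat_lit 6233196110) (nat_lit 608) (nat_lit 4203355389) (nat_lit 684) (nat_lit 418347363) (nat_lit 290) (nat_lit 5) (nat_lit 298) (nat_lit 5) (nat_lit 299) (nat_lit 5) (nat_lit 456) (nat_lit 391) (nat_lit 293))) (XT.nd (nat_lit 54288) (nat_lit 0) (nat_lit 35492) (XT.lf (nat_lit 0) (nat_lit 2372337794) (nat_lit 608) (nat_lit 8476591797) (nat_lit 76) (nat_lit 120323781) (nat_lit 282) (nat_lit 5) (nat_lit 290) (nat_lit 5) (nat_lit 283) (nat_lit 5) (nat_lit 457) (nat_lit 391) (nat_lit 292)) (XT.lf (nat_lit 0) (nat_lit 3038190589) (nat_lit 836) (nat_lit 159717919) (nat_lit 836) (nat_lit 159717919) (nat_lit 749) (nat_lit 3) (nat_lit 760) (nat_lit 3)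 (nat_lit 760) (nat_lit 5) (nat_lit 392) (nat_lit 392) (nat_lit 356))))) (XT.nd (nat_lit 312) (nat_lit 912) (nat_lit 0) (XT.nd (nat_lit 156) (nat_lit 912) (nat_lit 0) (XT.nd (nat_lit 78) (nat_lit 0) (nat_lit 0) (XT.lf (nat_lit 0) (nat_lit 1565471419) (nat_lit 836) (nat_lit 3670382387) (nat_lit 912) (nat_lit 1502589986) (nat_lit 738) (nat_lit 5) (nat_lit 749) (nat_lit 3) (nat_lit 750) (nat_lit 5) (nat_lit 393) (nat_lit 392) (nat_lit 355)) (XT.lf (nat_lit 0) (nat_lit 3750082068) (nat_lit 836) (nat_lit 268810395) (nat_lit 912) (nat_lit 2744226921) (nat_lit 738) (nat_lit 5) (nat_lit 749) (nat_lit 3) (nat_lit 750) (nat_lit 5) (nat_lit 394) (nat_lit 392) (nat_lit 354))) (XT.nd (nat_lit 78) (nat_lit 912) (nat_lit 0) (XT.lf (nat_lit 76) (nat_lit 3213380015) (nat_lit 0) (nat_lit 2729563804) (nat_lit 912) (nat_lit 846053490) (nat_lit 739) (nat_lit 5) (nat_lit 738) (nat_lit 5) (nat_lit 750) (nat_lit 5) (nat_lit 395) (nat_lit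 392) (nat_lit 353)) (XT.lf (nat_lit 0) (nat_lit 1292435206) (nat_lit 912) (nat_lit 85471996) (nat_lit 988) (nat_lit 5438387280) (nat_lit 726) (nat_lit 5) (nat_lit 738) (nat_lit 5) (nat_lit 739) (nat_lit 5) (nat_lit 396) (nat_lit 392) (nat_lit 352)))) (XT.nd (nat_lit 156) (nat_lit 988) (nat_lit 0) (XT.nd (nat_lit 78) (nat_lit 0) (nat_lit 0) (XT.lf (nat_lit 0) (nat_lit 3430693643) (nat_lit 912) (nat_lit 3359954483) (nat_lit 988) (nat_lit 54011051) (nat_lit 727) (nat_lit 5) (nat_lit 739) (nat_lit 5) (nat_lit 740) (nat_lit 5) (nat_lit 397) (nat_lit 392) (nat_lit 351)) (XT.lf (nat_lit 76) (nat_lit 217027478) (nat_lit 0) (nat_lit 5352177092) (nat_lit 988) (nat_lit 1305236850) (nat_lit 728) (nat_lit 5) (nat_lit 727) (nat_lit 5) (nat_lit 740) (nat_lit 5) (nat_lit 398) (nat_lit 392) (nat_lit 350))) (XT.nd (nat_lit 78) (nat_lit 0) (nat_lit 0) (XT.lf (nat_lit 0) (nat_lit 804152303) (nat_lit 988) (nat_lit 3029972766) (nat_lit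 1064) (nat_lit 3071192887) (nat_lit 714) (nat_lit 5) (nat_lit 727) (nat_lit 5) (nat_lit 728) (nat_lit 5) (nat_lit 399) (nat_lit 392) (nat_lit 349)) (XT.lf (nat_lit 76) (nat_lit 639308314) (nat_lit 0) (nat_lit 2251033091) (nat_lit 1064) (nat_lit 4047256280) (nat_lit 715) (nat_lit 5) (nat_lit 714) (nat_lit 5) (nat_lit 728) (nat_lit 5) (nat_lit 400) (nat_lit 392) (nat_lit 348)))))) (XT.nd (nat_lit 624) (nat_lit 5016) (nat_lit 0) (XT.nd (nat_lit 312) (nat_lit 1064) (nat_lit 0) (XT.nd (nat_lit 156) (nat_lit 0) (nat_lit 0) (XT.nd (nat_lit 78) (nat_lit 988) (nat_lit 0) (XT.lf (nat_lit 76) (nat_lit 4392797813) (nat_lit 0) (nat_lit 594536062) (nat_lit 1064) (nat_lit 1983807541) (nat_lit 715) (nat_lit 5) (nat_lit 714) (nat_lit 5) (nat_lit 728) (nat_lit 5) (nat_lit 401) (nat_lit 392) (nat_lit 347)) (XT.lf (nat_lit 0) (nat_lit 83837168) (nat_lit 1064) (nat_lit 5812860179) (nat_lit 1140) (nat_lit 1109352721) (nat_lit 701) (nat_lit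 5) (nat_lit 715) (nat_lit 5) (nat_lit 716) (nat_lit 5) (nat_lit 402) (nat_lit 392) (nat_lit 346))) (XT.nd (nat_lit 78) (nat_lit 0) (nat_lit 0) (XT.lf (nat_lit 0) (nat_lit 2137993223) (nat_lit 1064) (nat_lit 2014648517) (nat_lit 1140) (nat_lit 2889318458) (nat_lit 701) (nat_lit 5) (nat_lit 715) (nat_lit 5) (nat_lit 716) (nat_lit 5) (nat_lit 403) (nat_lit 392) (nat_lit 345)) (XT.lf (nat_lit 76) (nat_lit 1853192983) (nat_lit 0) (nat_lit 2343388097) (nat_lit 1140) (nat_lit 2882740478) (nat_lit 702) (nat_lit 5) (nat_lit 701) (nat_lit 5) (nat_lit 716) (nat_lit 5) (nat_lit 404) (nat_lit 392) (nat_lit 344)))) (XT.nd (nat_lit 156) (nat_lit 0) (nat_lit 0) (XT.nd (nat_lit 78) (nat_lit 1064) (nat_lit 0) (XT.lf (nat_lit 76) (nat_lit 5795262628) (nat_lit 0) (nat_lit 466670898) (nat_lit 1140) (nat_lit 856184763) (nat_lit 702) (nat_lit 5) (nat_lit 701) (nat_lit 5) (nat_lit 716) (nat_lit 5) (nat_lit 405) (nat_lit 392) (nat_lit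 343)) (XT.lf (nat_lit 0) (nat_lit 1174634886) (nat_lit 1140) (nat_lit 4512837420) (nat_lit 1216) (nat_lit 1470469129) (nat_lit 687) (nat_lit 5) (nat_lit 702) (nat_lit 5) (nat_lit 703) (nat_lit 5) (nat_lit 406) (nat_lit 392) (nat_lit 342))) (XT.nd (nat_lit 78) (nat_lit 0) (nat_lit 0) (XT.lf (nat_lit 0) (nat_lit 3200182459) (nat_lit 1140) (nat_lit 528154606) (nat_lit 1216) (nat_lit 3470799274) (nat_lit 687) (nat_lit 5) (nat_lit 702) (nat_lit 5) (nat_lit 703) (nat_lit 5) (nat_lit 407) (nat_lit 392) (nat_lit 341)) (XT.lf (nat_lit 76) (nat_lit 3552116127) (nat_lit 0) (nat_lit 1691637300) (nat_lit 1216) (nat_lit 1997851465) (nat_lit 688) (nat_lit 5) (nat_lit 687) (nat_lit 5) (nat_lit 703) (nat_lit 5) (nat_lit 408) (nat_lit 392) (nat_lit 340))))) (XT.nd (nat_lit 312) (nat_lit 3876) (nat_lit 0) (XT.nd (nat_lit 156) (nat_lit 0) (nat_lit 0) (XT.nd (nat_lit 78) (nat_lit 0) (nat_lit 0) (XT.lf (nat_lit 0) (nat_lit 6424126)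 (nat_lit 1216) (nat_lit 6878049226) (nat_lit 1292) (nat_lit 401169472) (nat_lit 672) (nat_lit 5) (nat_lit 688) (nat_lit 5) (nat_lit 689) (nat_lit 5) (nat_lit 409) (nat_lit 392) (nat_lit 339)) (XT.lf (nat_lit 0) (nat_lit 2015805133) (nat_lit 1216) (nat_lit 2749897892) (nat_lit 1292) (nat_lit 2564758950) (nat_lit 672) (nat_lit 5) (nat_lit 688) (nat_lit 5) (nat_lit 689) (nat_lit 5) (nat_lit 410) (nat_lit 392) (nat_lit 338))) (XT.nd (nat_lit 78) (nat_lit 0) (nat_lit 0) (XT.lf (nat_lit 76) (nat_lit 1448576092) (nat_lit 0) (nat_lit 2582693822) (nat_lit 1292) (nat_lit 3345589674) (nat_lit 673) (nat_lit 5) (nat_lit 672) (nat_lit 5) (nat_lit 689) (nat_lit 5) (nat_lit 411) (nat_lit 392) (nat_lit 337)) (XT.lf (nat_lit 76) (nat_lit 5737261954) (nat_lit 0) (nat_lit 325377964) (nat_lit 1292) (nat_lit 1362033315) (nat_lit 673) (nat_lit 5) (nat_lit 672) (nat_lit 5) (nat_lit 689) (nat_lit 5) (nat_lit 412) (nat_lit 392) (nat_lit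 336)))) (XT.nd (nat_lit 156) (nat_lit 2660) (nat_lit 0) (XT.nd (nat_lit 78) (nat_lit 0) (nat_lit 0) (XT.lf (nat_lit 0) (nat_lit 640404033) (nat_lit 1292) (nat_lit 4849321333) (nat_lit 76) (nat_lit 1983874297) (nat_lit 656) (nat_lit 5) (nat_lit 673) (nat_lit 5) (nat_lit 657) (nat_lit 5) (nat_lit 413) (nat_lit 392) (nat_lit 335)) (XT.lf (nat_lit 0) (nat_lit 2636627641) (nat_lit 1292) (nat_lit 521139908) (nat_lit 76) (nat_lit 4366117508) (nat_lit 656) (nat_lit 5) (nat_lit 673) (nat_lit 5) (nat_lit 657) (nat_lit 5) (nat_lit 414) (nat_lit 392) (nat_lit 334))) (XT.nd (nat_lit 78) (nat_lit 1368) (nat_lit 0) (XT.lf (nat_lit 0) (nat_lit 3913870679) (nat_lit 1292) (nat_lit 743536939) (nat_lit 1368) (nat_lit 2918075903) (nat_lit 639) (nat_lit 5) (nat_lit 656) (nat_lit 5) (nat_lit 657) (nat_lit 5) (nat_lit 415) (nat_lit 392) (nat_lit 333)) (XT.lf (nat_lit 0) (nat_lit 783974394) (nat_lit 1368) (nat_lit 5914280098) (nat_lit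 1444) (nat_lit 930266436) (nat_lit 621) (nat_lit 5) (nat_lit 639) (nat_lit 5) (nat_lit 640) (nat_lit 5) (nat_lit 416) (nat_lit 392) (nat_lit 332))))))))
noncomputable def xc47 : XT := (XT.nd (nat_lit 2496) (nat_lit 3952) (nat_lit 0) (XT.nd (nat_lit 1248) (nat_lit 8132) (nat_lit 0) (XT.nd (nat_lit 624) (nat_lit 6688) (nat_lit 0) (XT.nd (nat_lit 312) (nat_lit 3344) (nat_lit 0) (XT.nd (nat_lit 156) (nat_lit 1520) (nat_lit 0) (XT.nd (nat_lit 78) (nat_lit 1444) (nat_lit 0) (XT.lf (nat_lit 0) (nat_lit 1072766485) (nat_lit 1444) (nat_lit 2358276872) (nat_lit 76) (nat_lit 4251636069) (nat_lit 620) (nat_lit 5) (nat_lit 639) (nat_lit 5) (nat_lit 621) (nat_lit 5) (nat_lit 417) (nat_lit 392) (nat_lit 331)) (XT.lf (nat_lit 0) (nat_lit 2209113225) (nat_lit 1444) (nat_lit 869626012) (nat_lit 1520) (nat_lit 4659552166) (nat_lit 601) (nat_lit 5) (nat_lit 620) (nat_lit 5) (nat_lit 621) (nat_lit 5) (nat_lit 418) (nat_lit 392) (nat_lit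 330))) (XT.nd (nat_lit 78) (nat_lit 1520) (nat_lit 0) (XT.lf (nat_lit 0) (nat_lit 5113668627) (nat_lit 1520) (nat_lit 938329230) (nat_lit 76) (nat_lit 1743241019) (nat_lit 601) (nat_lit 5) (nat_lit 621) (nat_lit 5) (nat_lit 602) (nat_lit 5) (nat_lit 419) (nat_lit 392) (nat_lit 329)) (XT.lf (nat_lit 0) (nat_lit 3756445353) (nat_lit 1520) (nat_lit 3425343090) (nat_lit 1596) (nat_lit 671687019) (nat_lit 581) (nat_lit 5) (nat_lit 601) (nat_lit 5) (nat_lit 602) (nat_lit 5) (nat_lit 420) (nat_lit 392) (nat_lit 328)))) (XT.nd (nat_lit 156) (nat_lit 1672) (nat_lit 0) (XT.nd (nat_lit 78) (nat_lit 0) (nat_lit 0) (XT.lf (nat_lit 0) (nat_lit 612436245) (nat_lit 1596) (nat_lit 720827874) (nat_lit 1672) (nat_lit 6579974708) (nat_lit 559) (nat_lit 5) (nat_lit 580) (nat_lit 5) (nat_lit 581) (nat_lit 5) (nat_lit 421) (nat_lit 392) (nat_lit 327)) (XT.lf (nat_lit 0) (nat_lit 3373431188) (nat_lit 1672) (nat_lit 2552132060) (nat_lit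 76) (nat_lit 2048463200) (nat_lit 559) (nat_lit 5) (nat_lit 581) (nat_lit 5) (nat_lit 560) (nat_lit 5) (nat_lit 422) (nat_lit 392) (nat_lit 326))) (XT.nd (nat_lit 78) (nat_lit 0) (nat_lit 0) (XT.lf (nat_lit 0) (nat_lit 2285088131) (nat_lit 1672) (nat_lit 3152841585) (nat_lit 1748) (nat_lit 2598429542) (nat_lit 537) (nat_lit 5) (nat_lit 559) (nat_lit 5) (nat_lit 560) (nat_lit 5) (nat_lit 423) (nat_lit 392) (nat_lit 325)) (XT.lf (nat_lit 0) (nat_lit 7222236182) (nat_lit 1672) (nat_lit 303029844) (nat_lit 1748) (nat_lit 575041741) (nat_lit 537) (nat_lit 5) (nat_lit 559) (nat_lit 5) (nat_lit 560) (nat_lit 5) (nat_lit 424) (nat_lit 392) (nat_lit 324))))) (XT.nd (nat_lit 312) (nat_lit 1900) (nat_lit 0) (XT.nd (nat_lit 156) (nat_lit 1140) (nat_lit 0) (XT.nd (nat_lit 78) (nat_lit 1824) (nat_lit 0) (XT.lf (nat_lit 0) (nat_lit 1478002705) (nat_lit 1824) (nat_lit 4077174054) (nat_lit 76) (nat_lit 2609990863) (nat_lit 513)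 (nat_lit 5) (nat_lit 537) (nat_lit 5) (nat_lit 514) (nat_lit 5) (nat_lit 425) (nat_lit 392) (nat_lit 323)) (XT.lf (nat_lit 0) (nat_lit 908362899) (nat_lit 1824) (nat_lit 2635286663) (nat_lit 1900) (nat_lit 4688014264) (nat_lit 489) (nat_lit 5) (nat_lit 513) (nat_lit 5) (nat_lit 514) (nat_lit 5) (nat_lit 426) (nat_lit 392) (nat_lit 322))) (XT.nd (nat_lit 78) (nat_lit 1140) (nat_lit 0) (XT.lf (nat_lit 0) (nat_lit 5646265989) (nat_lit 1900) (nat_lit 2284735440) (nat_lit 76) (nat_lit 368575393) (nat_lit 489) (nat_lit 5) (nat_lit 514) (nat_lit 5) (nat_lit 490) (nat_lit 5) (nat_lit 427) (nat_lit 392) (nat_lit 321)) (XT.lf (nat_lit 0) (nat_lit 2842803338) (nat_lit 1140) (nat_lit 4950598319) (nat_lit 1216) (nat_lit 575397081) (nat_lit 474) (nat_lit 5) (nat_lit 489) (nat_lit 5) (nat_lit 490) (nat_lit 5) (nat_lit 428) (nat_lit 392) (nat_lit 320)))) (XT.nd (nat_lit 156) (nat_lit 912) (nat_lit 0) (XT.nd (nat_lit 78) (nat_lit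 912) (nat_lit 0) (XT.lf (nat_lit 0) (nat_lit 1506048001) (nat_lit 1216) (nat_lit 377224983) (nat_lit 76) (nat_lit 6556287128) (nat_lit 473) (nat_lit 5) (nat_lit 489) (nat_lit 5) (nat_lit 474) (nat_lit 5) (nat_lit 429) (nat_lit 392) (nat_lit 319)) (XT.lf (nat_lit 0) (nat_lit 3629035597) (nat_lit 988) (nat_lit 3616219358) (nat_lit 76) (nat_lit 1266253328) (nat_lit 461) (nat_lit 5) (nat_lit 474) (nat_lit 5) (nat_lit 462) (nat_lit 5) (nat_lit 430) (nat_lit 392) (nat_lit 318))) (XT.nd (nat_lit 78) (nat_lit 0) (nat_lit 0) (XT.lf (nat_lit 0) (nat_lit 1671269808) (nat_lit 912) (nat_lit 4116969990) (nat_lit 988) (nat_lit 2796780483) (nat_lit 449) (nat_lit 5) (nat_lit 461) (nat_lit 5) (nat_lit 462) (nat_lit 5) (nat_lit 431) (nat_lit 392) (nat_lit 317)) (XT.lf (nat_lit 0) (nat_lit 7082053867) (nat_lit 912) (nat_lit 901152007) (nat_lit 988) (nat_lit 676945089) (nat_lit 449) (nat_lit 5) (nat_lit 461) (nat_lit 5) (nat_lit 462)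 (nat_lit 5) (nat_lit 432) (nat_lit 392) (nat_lit 316)))))) (XT.nd (nat_lit 624) (nat_lit 3800) (nat_lit 0) (XT.nd (nat_lit 312) (nat_lit 1672) (nat_lit 0) (XT.nd (nat_lit 156) (nat_lit 836) (nat_lit 0) (XT.nd (nat_lit 78) (nat_lit 912) (nat_lit 0) (XT.lf (nat_lit 0) (nat_lit 1475363895) (nat_lit 912) (nat_lit 4878226100) (nat_lit 76) (nat_lit 2382810261) (nat_lit 437) (nat_lit 5) (nat_lit 449) (nat_lit 5) (nat_lit 438) (nat_lit 5) (nat_lit 433) (nat_lit 392) (nat_lit 315)) (XT.lf (nat_lit 0) (nat_lit 575949857) (nat_lit 912) (nat_lit 3075217548) (nat_lit 988) (nat_lit 5163127383) (nat_lit 425) (nat_lit 5) (nat_lit 437) (nat_lit 5) (nat_lit 438) (nat_lit 5) (nat_lit 434) (nat_lit 392) (nat_lit 314))) (XT.nd (nat_lit 78) (nat_lit 836) (nat_lit 0) (XT.lf (nat_lit 0) (nat_lit 5874715041) (nat_lit 988) (nat_lit 2721795631) (nat_lit 76) (nat_lit 297151978) (nat_lit 425) (nat_lit 5) (nat_lit 438) (nat_lit 5) (nat_lit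 426) (nat_lit 5) (nat_lit 435) (nat_lit 392) (nat_lit 313)) (XT.lf (nat_lit 0) (nat_lit 2891189818) (nat_lit 836) (nat_lit 5260809518) (nat_lit 912) (nat_lit 822433220) (nat_lit 414) (nat_lit 5) (nat_lit 425) (nat_lit 5) (nat_lit 426) (nat_lit 5) (nat_lit 436) (nat_lit 392) (nat_lit 312)))) (XT.nd (nat_lit 156) (nat_lit 760) (nat_lit 0) (XT.nd (nat_lit 78) (nat_lit 836) (nat_lit 0) (XT.lf (nat_lit 0) (nat_lit 1388115717) (nat_lit 912) (nat_lit 444085786) (nat_lit 76) (nat_lit 7224658189) (nat_lit 413) (nat_lit 5) (nat_lit 425) (nat_lit 5) (nat_lit 414) (nat_lit 5) (nat_lit 437) (nat_lit 392) (nat_lit 311)) (XT.lf (nat_lit 0) (nat_lit 3648515361) (nat_lit 912) (nat_lit 3810331500) (nat_lit 76) (nat_lit 1681646741) (nat_lit 402) (nat_lit 5) (nat_lit 414) (nat_lit 5) (nat_lit 403) (nat_lit 5) (nat_lit 438) (nat_lit 392) (nat_lit 310))) (XT.nd (nat_lit 78) (nat_lit 0) (nat_lit 0) (XT.lf (nat_lit 0) (nat_lit 1982651365)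 (nat_lit 760) (nat_lit 3970733103) (nat_lit 836) (nat_lit 3272430494) (nat_lit 392) (nat_lit 5) (nat_lit 402) (nat_lit 5) (nat_lit 403) (nat_lit 5) (nat_lit 439) (nat_lit 392) (nat_lit 309)) (XT.lf (nat_lit 0) (nat_lit 7911978326) (nat_lit 760) (nat_lit 389558448) (nat_lit 836) (nat_lit 1011362258) (nat_lit 392) (nat_lit 5) (nat_lit 402) (nat_lit 5) (nat_lit 403) (nat_lit 5) (nat_lit 440) (nat_lit 392) (nat_lit 308))))) (XT.nd (nat_lit 312) (nat_lit 1444) (nat_lit 0) (XT.nd (nat_lit 156) (nat_lit 760) (nat_lit 0) (XT.nd (nat_lit 78) (nat_lit 760) (nat_lit 0) (XT.lf (nat_lit 0) (nat_lit 1301082790) (nat_lit 836) (nat_lit 4844057372) (nat_lit 76) (nat_lit 3255953697) (nat_lit 381) (nat_lit 5) (nat_lit 392) (nat_lit 5) (nat_lit 382) (nat_lit 5) (nat_lit 441) (nat_lit 392) (nat_lit 307)) (XT.lf (nat_lit 0) (nat_lit 1136588130) (nat_lit 760) (nat_lit 2501400269) (nat_lit 836) (nat_lit 5853095407) (nat_lit 371) (nat_lit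 5) (nat_lit 381) (nat_lit 5) (nat_lit 382) (nat_lit 5) (nat_lit 442) (nat_lit 392) (nat_lit 306))) (XT.nd (nat_lit 78) (nat_lit 760) (nat_lit 0) (XT.lf (nat_lit 0) (nat_lit 6034879248) (nat_lit 836) (nat_lit 2319393397) (nat_lit 76) (nat_lit 1228335964) (nat_lit 371) (nat_lit 5) (nat_lit 382) (nat_lit 5) (nat_lit 372) (nat_lit 5) (nat_lit 443) (nat_lit 392) (nat_lit 305)) (XT.lf (nat_lit 0) (nat_lit 3839243087) (nat_lit 760) (nat_lit 4655129561) (nat_lit 836) (nat_lit 1181297965) (nat_lit 361) (nat_lit 5) (nat_lit 371) (nat_lit 5) (nat_lit 372) (nat_lit 5) (nat_lit 444) (nat_lit 392) (nat_lit 304)))) (XT.nd (nat_lit 156) (nat_lit 684) (nat_lit 0) (XT.nd (nat_lit 78) (nat_lit 0) (nat_lit 0) (XT.lf (nat_lit 0) (nat_lit 347557448) (nat_lit 684) (nat_lit 859987777) (nat_lit 760) (nat_lit 8563063651) (nat_lit 351) (nat_lit 5) (nat_lit 360) (nat_lit 5) (nat_lit 361) (nat_lit 5) (nat_lit 445) (nat_lit 392) (nat_lit 303))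 (XT.lf (nat_lit 0) (nat_lit 3660953198) (nat_lit 760) (nat_lit 3191356919) (nat_lit 76) (nat_lit 3014327508) (nat_lit 351) (nat_lit 5) (nat_lit 361) (nat_lit 5) (nat_lit 352) (nat_lit 5) (nat_lit 446) (nat_lit 392) (nat_lit 302))) (XT.nd (nat_lit 78) (nat_lit 0) (nat_lit 0) (XT.lf (nat_lit 0) (nat_lit 3170069441) (nat_lit 684) (nat_lit 2993770755) (nat_lit 760) (nat_lit 3800738538) (nat_lit 342) (nat_lit 5) (nat_lit 351) (nat_lit 5) (nat_lit 352) (nat_lit 5) (nat_lit 447) (nat_lit 392) (nat_lit 301)) (XT.lf (nat_lit 0) (nat_lit 8718867564) (nat_lit 760) (nat_lit 399382677) (nat_lit 76) (nat_lit 946186770) (nat_lit 342) (nat_lit 5) (nat_lit 352) (nat_lit 5) (nat_lit 343) (nat_lit 5) (nat_lit 448) (nat_lit 392) (nat_lit 300))))))) (XT.nd (nat_lit 55614) (nat_lit 0) (nat_lit 26448) (XT.nd (nat_lit 54990) (nat_lit 0) (nat_lit 32148) (XT.nd (nat_lit 312) (nat_lit 1900) (nat_lit 0) (XT.nd (nat_lit 156) (nat_lit 608)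 (nat_lit 0) (XT.nd (nat_lit 78) (nat_lit 684) (nat_lit 0) (XT.lf (nat_lit 0) (nat_lit 1178430066) (nat_lit 760) (nat_lit 4019269159) (nat_lit 76) (nat_lit 4967744295) (nat_lit 332) (nat_lit 5) (nat_lit 342) (nat_lit 5) (nat_lit 333) (nat_lit 5) (nat_lit 449) (nat_lit 392) (nat_lit 299)) (XT.lf (nat_lit 0) (nat_lit 2553620948) (nat_lit 684) (nat_lit 1175608449) (nat_lit 760) (nat_lit 6539176137) (nat_lit 323) (nat_lit 5) (nat_lit 332) (nat_lit 5) (nat_lit 333) (nat_lit 5) (nat_lit 450) (nat_lit 392) (nat_lit 298))) (XT.nd (nat_lit 78) (nat_lit 608) (nat_lit 0) (XT.lf (nat_lit 0) (nat_lit 6352495834) (nat_lit 760) (nat_lit 1110454581) (nat_lit 76) (nat_lit 2910047352) (nat_lit 323) (nat_lit 5) (nat_lit 333) (nat_lit 5) (nat_lit 324) (nat_lit 5) (nat_lit 451) (nat_lit 392) (nat_lit 297)) (XT.lf (nat_lit 0) (nat_lit 5662205839) (nat_lit 608) (nat_lit 3386351958) (nat_lit 684) (nat_lit 1430717443) (nat_lit 315) (nat_lit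 5) (nat_lit 323) (nat_lit 5) (nat_lit 324) (nat_lit 5) (nat_lit 452) (nat_lit 392) (nat_lit 296)))) (XT.nd (nat_lit 156) (nat_lit 1216) (nat_lit 0) (XT.nd (nat_lit 78) (nat_lit 0) (nat_lit 0) (XT.lf (nat_lit 0) (nat_lit 1196435758) (nat_lit 684) (nat_lit 8607131946) (nat_lit 76) (nat_lit 783924250) (nat_lit 306) (nat_lit 5) (nat_lit 315) (nat_lit 5) (nat_lit 307) (nat_lit 5) (nat_lit 453) (nat_lit 392) (nat_lit 295)) (XT.lf (nat_lit 0) (nat_lit 3888096790) (nat_lit 684) (nat_lit 1780895524) (nat_lit 76) (nat_lit 5028069106) (nat_lit 306) (nat_lit 5) (nat_lit 315) (nat_lit 5) (nat_lit 307) (nat_lit 5) (nat_lit 454) (nat_lit 392) (nat_lit 294))) (XT.nd (nat_lit 78) (nat_lit 608) (nat_lit 0) (XT.lf (nat_lit 0) (nat_lit 5220342652) (nat_lit 608) (nat_lit 1423749032) (nat_lit 684) (nat_lit 4164520578) (nat_lit 298) (nat_lit 5) (nat_lit 306) (nat_lit 5) (nat_lit 307) (nat_lit 5) (nat_lit 455) (nat_lit 392) (nat_lit 293))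 (XT.lf (nat_lit 0) (nat_lit 1433227911) (nat_lit 608) (nat_lit 8039012911) (nat_lit 684) (nat_lit 1449812613) (nat_lit 290) (nat_lit 5) (nat_lit 298) (nat_lit 5) (nat_lit 299) (nat_lit 5) (nat_lit 456) (nat_lit 392) (nat_lit 292))))) (XT.nd (nat_lit 312) (nat_lit 988) (nat_lit 0) (XT.nd (nat_lit 156) (nat_lit 912) (nat_lit 0) (XT.nd (nat_lit 78) (nat_lit 0) (nat_lit 0) (XT.lf (nat_lit 0) (nat_lit 929329227) (nat_lit 0) (nat_lit 929329227) (nat_lit 836) (nat_lit 1522558617) (nat_lit 738) (nat_lit 5) (nat_lit 738) (nat_lit 3) (nat_lit 749) (nat_lit 3) (nat_lit 393) (nat_lit 393) (nat_lit 354)) (XT.lf (nat_lit 0) (nat_lit 5279255926) (nat_lit 0) (nat_lit 586538669) (nat_lit 836) (nat_lit 922037798) (nat_lit 738) (nat_lit 5) (nat_lit 738) (nat_lit 3) (nat_lit 749) (nat_lit 3) (nat_lit 394) (nat_lit 393) (nat_lit 353))) (XT.nd (nat_lit 78) (nat_lit 0) (nat_lit 0) (XT.lf (nat_lit 0) (nat_lit 1188996814) (nat_lit 912)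 (nat_lit 4875858924) (nat_lit 988) (nat_lit 749485350) (nat_lit 726) (nat_lit 5) (nat_lit 738) (nat_lit 5) (nat_lit 739) (nat_lit 5) (nat_lit 395) (nat_lit 393) (nat_lit 352)) (XT.lf (nat_lit 0) (nat_lit 3289327650) (nat_lit 912) (nat_lit 1405817335) (nat_lit 988) (nat_lit 2146924648) (nat_lit 726) (nat_lit 5) (nat_lit 738) (nat_lit 5) (nat_lit 739) (nat_lit 5) (nat_lit 396) (nat_lit 393) (nat_lit 351)))) (XT.nd (nat_lit 156) (nat_lit 0) (nat_lit 0) (XT.nd (nat_lit 78) (nat_lit 988) (nat_lit 0) (XT.lf (nat_lit 76) (nat_lit 2132660657) (nat_lit 0) (nat_lit 3259258277) (nat_lit 988) (nat_lit 1479228737) (nat_lit 727) (nat_lit 5) (nat_lit 726) (nat_lit 5) (nat_lit 739) (nat_lit 5) (nat_lit 397) (nat_lit 393) (nat_lit 350)) (XT.lf (nat_lit 0) (nat_lit 583835186) (nat_lit 988) (nat_lit 1173294053) (nat_lit 1064) (nat_lit 5144467108) (nat_lit 713) (nat_lit 5) (nat_lit 726) (nat_lit 5) (nat_lit 727) (nat_lit 5) (nat_lit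 398) (nat_lit 393) (nat_lit 349))) (XT.nd (nat_lit 78) (nat_lit 0) (nat_lit 76) (XT.lf (nat_lit 76) (nat_lit 2456755108) (nat_lit 0) (nat_lit 175530749) (nat_lit 1064) (nat_lit 4300893938) (nat_lit 714) (nat_lit 5) (nat_lit 713) (nat_lit 5) (nat_lit 727) (nat_lit 5) (nat_lit 399) (nat_lit 393) (nat_lit 348)) (XT.lf (nat_lit 0) (nat_lit 4687908876) (nat_lit 988) (nat_lit 829167081) (nat_lit 1064) (nat_lit 1448994887) (nat_lit 714) (nat_lit 5) (nat_lit 727) (nat_lit 5) (nat_lit 728) (nat_lit 5) (nat_lit 400) (nat_lit 393) (nat_lit 347)))))) (XT.nd (nat_lit 624) (nat_lit 3648) (nat_lit 0) (XT.nd (nat_lit 312) (nat_lit 1064) (nat_lit 0) (XT.nd (nat_lit 156) (nat_lit 0) (nat_lit 0) (XT.nd (nat_lit 78) (nat_lit 1064) (nat_lit 0) (XT.lf (nat_lit 76) (nat_lit 2898621955) (nat_lit 0) (nat_lit 3855949016) (nat_lit 1064) (nat_lit 245650213) (nat_lit 715) (nat_lit 5) (nat_lit 714) (nat_lit 5) (nat_lit 728) (nat_lit 5) (nat_lit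 401) (nat_lit 393) (nat_lit 346)) (XT.lf (nat_lit 0) (nat_lit 1759555479) (nat_lit 1064) (nat_lit 364372842) (nat_lit 1140) (nat_lit 4911768663) (nat_lit 700) (nat_lit 5) (nat_lit 714) (nat_lit 5) (nat_lit 715) (nat_lit 5) (nat_lit 402) (nat_lit 393) (nat_lit 345))) (XT.nd (nat_lit 78) (nat_lit 0) (nat_lit 76) (XT.lf (nat_lit 76) (nat_lit 3462228329) (nat_lit 0) (nat_lit 313213044) (nat_lit 1140) (nat_lit 3296931146) (nat_lit 701) (nat_lit 5) (nat_lit 700) (nat_lit 5) (nat_lit 715) (nat_lit 5) (nat_lit 403) (nat_lit 393) (nat_lit 344)) (XT.lf (nat_lit 76) (nat_lit 223486418) (nat_lit 0) (nat_lit 5574299922) (nat_lit 1140) (nat_lit 1312672397) (nat_lit 702) (nat_lit 5) (nat_lit 701) (nat_lit 5) (nat_lit 716) (nat_lit 5) (nat_lit 404) (nat_lit 393) (nat_lit 343)))) (XT.nd (nat_lit 156) (nat_lit 0) (nat_lit 76) (XT.nd (nat_lit 78) (nat_lit 0) (nat_lit 0) (XT.lf (nat_lit 0) (nat_lit 681105779) (nat_lit 1140) (nat_lit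 3003418332) (nat_lit 1216) (nat_lit 3465106953) (nat_lit 686) (nat_lit 5) (nat_lit 701) (nat_lit 5) (nat_lit 702) (nat_lit 5) (nat_lit 405) (nat_lit 393) (nat_lit 342)) (XT.lf (nat_lit 76) (nat_lit 931457693) (nat_lit 0) (nat_lit 1725418669) (nat_lit 1216) (nat_lit 4533343071) (nat_lit 687) (nat_lit 5) (nat_lit 686) (nat_lit 5) (nat_lit 702) (nat_lit 5) (nat_lit 406) (nat_lit 393) (nat_lit 341))) (XT.nd (nat_lit 78) (nat_lit 0) (nat_lit 0) (XT.lf (nat_lit 0) (nat_lit 4648671744) (nat_lit 1140) (nat_lit 2278070610) (nat_lit 1216) (nat_lit 305347026) (nat_lit 687) (nat_lit 5) (nat_lit 702) (nat_lit 5) (nat_lit 703) (nat_lit 5) (nat_lit 407) (nat_lit 393) (nat_lit 340)) (XT.lf (nat_lit 76) (nat_lit 1763850377) (nat_lit 0) (nat_lit 4894674250) (nat_lit 1216) (nat_lit 616707669) (nat_lit 688) (nat_lit 5) (nat_lit 687) (nat_lit 5) (nat_lit 703) (nat_lit 5) (nat_lit 408) (nat_lit 393) (nat_lit 339))))) (XT.nd (nat_lit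 312) (nat_lit 2508) (nat_lit 0) (XT.nd (nat_lit 156) (nat_lit 0) (nat_lit 76) (XT.nd (nat_lit 78) (nat_lit 0) (nat_lit 0) (XT.lf (nat_lit 0) (nat_lit 1342236601) (nat_lit 1216) (nat_lit 1441045314) (nat_lit 1292) (nat_lit 4536353314) (nat_lit 671) (nat_lit 5) (nat_lit 687) (nat_lit 5) (nat_lit 688) (nat_lit 5) (nat_lit 409) (nat_lit 393) (nat_lit 338)) (XT.lf (nat_lit 76) (nat_lit 2712302987) (nat_lit 0) (nat_lit 594018030) (nat_lit 1292) (nat_lit 4059039295) (nat_lit 672) (nat_lit 5) (nat_lit 671) (nat_lit 5) (nat_lit 688) (nat_lit 5) (nat_lit 410) (nat_lit 393) (nat_lit 337))) (XT.nd (nat_lit 78) (nat_lit 0) (nat_lit 0) (XT.lf (nat_lit 0) (nat_lit 5287407167) (nat_lit 1216) (nat_lit 484886396) (nat_lit 1292) (nat_lit 1640151934) (nat_lit 672) (nat_lit 5) (nat_lit 688) (nat_lit 5) (nat_lit 689) (nat_lit 5) (nat_lit 411) (nat_lit 393) (nat_lit 336)) (XT.lf (nat_lit 76) (nat_lit 3782293848) (nat_lit 0) (nat_lit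 3512492789) (nat_lit 1292) (nat_lit 165952316) (nat_lit 673) (nat_lit 5) (nat_lit 672) (nat_lit 5) (nat_lit 689) (nat_lit 5) (nat_lit 412) (nat_lit 393) (nat_lit 335)))) (XT.nd (nat_lit 156) (nat_lit 1292) (nat_lit 0) (XT.nd (nat_lit 78) (nat_lit 0) (nat_lit 76) (XT.lf (nat_lit 76) (nat_lit 596989530) (nat_lit 0) (nat_lit 1176980249) (nat_lit 1368) (nat_lit 5736476856) (nat_lit 656) (nat_lit 5) (nat_lit 655) (nat_lit 5) (nat_lit 673) (nat_lit 5) (nat_lit 413) (nat_lit 393) (nat_lit 334)) (XT.lf (nat_lit 0) (nat_lit 3742363757) (nat_lit 1292) (nat_lit 2593012947) (nat_lit 76) (nat_lit 1225911919) (nat_lit 656) (nat_lit 5) (nat_lit 673) (nat_lit 5) (nat_lit 657) (nat_lit 5) (nat_lit 414) (nat_lit 393) (nat_lit 333))) (XT.nd (nat_lit 78) (nat_lit 76) (nat_lit 0) (XT.lf (nat_lit 0) (nat_lit 1799185714) (nat_lit 1292) (nat_lit 3930436029) (nat_lit 1368) (nat_lit 1883935784) (nat_lit 639) (nat_lit 5) (nat_lit 656) (nat_lit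 5) (nat_lit 657) (nat_lit 5) (nat_lit 415) (nat_lit 393) (nat_lit 332)) (XT.lf (nat_lit 0) (nat_lit 66438320) (nat_lit 1368) (nat_lit 1383627505) (nat_lit 76) (nat_lit 6217237083) (nat_lit 638) (nat_lit 5) (nat_lit 656) (nat_lit 5) (nat_lit 639) (nat_lit 5) (nat_lit 416) (nat_lit 393) (nat_lit 331))))))))
noncomputable def xc48 : XT := (XT.nd (nat_lit 2496) (nat_lit 3344) (nat_lit 0) (XT.nd (nat_lit 1248) (nat_lit 8132) (nat_lit 0) (XT.nd (nat_lit 624) (nat_lit 6612) (nat_lit 0) (XT.nd (nat_lit 312) (nat_lit 3344) (nat_lit 0) (XT.nd (nat_lit 156) (nat_lit 3040) (nat_lit 0) (XT.nd (nat_lit 78) (nat_lit 0) (nat_lit 0) (XT.lf (nat_lit 0) (nat_lit 2019376294) (nat_lit 1444) (nat_lit 4595348377) (nat_lit 76) (nat_lit 1107373823) (nat_lit 620) (nat_lit 5) (nat_lit 639) (nat_lit 5) (nat_lit 621) (nat_lit 5) (nat_lit 417) (nat_lit 393) (nat_lit 330)) (XT.lf (nat_lit 0) (nat_lit 3992068320) (nat_lit 1444) (nat_lit 72179288)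 (nat_lit 76) (nat_lit 3714128476) (nat_lit 620) (nat_lit 5) (nat_lit 639) (nat_lit 5) (nat_lit 621) (nat_lit 5) (nat_lit 418) (nat_lit 393) (nat_lit 329))) (XT.nd (nat_lit 78) (nat_lit 1596) (nat_lit 0) (XT.lf (nat_lit 0) (nat_lit 4571208196) (nat_lit 1444) (nat_lit 1425181238) (nat_lit 1520) (nat_lit 1839546288) (nat_lit 601) (nat_lit 5) (nat_lit 620) (nat_lit 5) (nat_lit 621) (nat_lit 5) (nat_lit 419) (nat_lit 393) (nat_lit 328)) (XT.lf (nat_lit 0) (nat_lit 124944793) (nat_lit 1596) (nat_lit 6502786802) (nat_lit 76) (nat_lit 1267281757) (nat_lit 580) (nat_lit 5) (nat_lit 601) (nat_lit 5) (nat_lit 581) (nat_lit 5) (nat_lit 420) (nat_lit 393) (nat_lit 327)))) (XT.nd (nat_lit 156) (nat_lit 1748) (nat_lit 0) (XT.nd (nat_lit 78) (nat_lit 1596) (nat_lit 0) (XT.lf (nat_lit 0) (nat_lit 2098974692) (nat_lit 1596) (nat_lit 1821093573) (nat_lit 76) (nat_lit 4035063471) (nat_lit 580) (nat_lit 5) (nat_lit 601) (nat_lit 5)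 (nat_lit 581) (nat_lit 5) (nat_lit 421) (nat_lit 393) (nat_lit 326)) (XT.lf (nat_lit 0) (nat_lit 2962630765) (nat_lit 1596) (nat_lit 1133174181) (nat_lit 1672) (nat_lit 3920981146) (nat_lit 559) (nat_lit 5) (nat_lit 580) (nat_lit 5) (nat_lit 581) (nat_lit 5) (nat_lit 422) (nat_lit 393) (nat_lit 325))) (XT.nd (nat_lit 78) (nat_lit 1748) (nat_lit 0) (XT.lf (nat_lit 0) (nat_lit 6120597773) (nat_lit 1672) (nat_lit 254893398) (nat_lit 76) (nat_lit 1704421847) (nat_lit 559) (nat_lit 5) (nat_lit 581) (nat_lit 5) (nat_lit 560) (nat_lit 5) (nat_lit 423) (nat_lit 393) (nat_lit 324)) (XT.lf (nat_lit 0) (nat_lit 44162155) (nat_lit 1748) (nat_lit 3480908983) (nat_lit 76) (nat_lit 4619163471) (nat_lit 536) (nat_lit 5) (nat_lit 559) (nat_lit 5) (nat_lit 537) (nat_lit 5) (nat_lit 424) (nat_lit 393) (nat_lit 323))))) (XT.nd (nat_lit 312) (nat_lit 1900) (nat_lit 0) (XT.nd (nat_lit 156) (nat_lit 2964) (nat_lit 0) (XT.nd (nat_lit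 78) (nat_lit 0) (nat_lit 0) (XT.lf (nat_lit 0) (nat_lit 1448922619) (nat_lit 1748) (nat_lit 589281684) (nat_lit 1824) (nat_lit 6171844699) (nat_lit 513) (nat_lit 5) (nat_lit 536) (nat_lit 5) (nat_lit 537) (nat_lit 5) (nat_lit 425) (nat_lit 393) (nat_lit 322)) (XT.lf (nat_lit 0) (nat_lit 4077333765) (nat_lit 1824) (nat_lit 1799097105) (nat_lit 76) (nat_lit 2400644684) (nat_lit 513) (nat_lit 5) (nat_lit 537) (nat_lit 5) (nat_lit 514) (nat_lit 5) (nat_lit 426) (nat_lit 393) (nat_lit 321))) (XT.nd (nat_lit 78) (nat_lit 1140) (nat_lit 0) (XT.lf (nat_lit 0) (nat_lit 3270626768) (nat_lit 1824) (nat_lit 2878498554) (nat_lit 1900) (nat_lit 2196479725) (nat_lit 489) (nat_lit 5) (nat_lit 513) (nat_lit 5) (nat_lit 514) (nat_lit 5) (nat_lit 427) (nat_lit 393) (nat_lit 320)) (XT.lf (nat_lit 0) (nat_lit 18861894) (nat_lit 1140) (nat_lit 8224143915) (nat_lit 1216) (nat_lit 172886259) (nat_lit 474) (nat_lit 5) (nat_lit 489) (nat_lit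 5) (nat_lit 490) (nat_lit 5) (nat_lit 428) (nat_lit 393) (nat_lit 319)))) (XT.nd (nat_lit 156) (nat_lit 912) (nat_lit 0) (XT.nd (nat_lit 78) (nat_lit 912) (nat_lit 0) (XT.lf (nat_lit 0) (nat_lit 1887161866) (nat_lit 1216) (nat_lit 3266337555) (nat_lit 76) (nat_lit 3333424114) (nat_lit 473) (nat_lit 5) (nat_lit 489) (nat_lit 5) (nat_lit 474) (nat_lit 5) (nat_lit 429) (nat_lit 393) (nat_lit 318)) (XT.lf (nat_lit 0) (nat_lit 1960916104) (nat_lit 912) (nat_lit 2005993762) (nat_lit 988) (nat_lit 4592826631) (nat_lit 461) (nat_lit 5) (nat_lit 473) (nat_lit 5) (nat_lit 474) (nat_lit 5) (nat_lit 430) (nat_lit 393) (nat_lit 317))) (XT.nd (nat_lit 78) (nat_lit 912) (nat_lit 0) (XT.lf (nat_lit 0) (nat_lit 6086652400) (nat_lit 988) (nat_lit 1335602677) (nat_lit 76) (nat_lit 1211782650) (nat_lit 461) (nat_lit 5) (nat_lit 474) (nat_lit 5) (nat_lit 462) (nat_lit 5) (nat_lit 431) (nat_lit 393) (nat_lit 316)) (XT.lf (nat_lit 0)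 (nat_lit 4042156397) (nat_lit 912) (nat_lit 4215295223) (nat_lit 988) (nat_lit 452200127) (nat_lit 449) (nat_lit 5) (nat_lit 461) (nat_lit 5) (nat_lit 462) (nat_lit 5) (nat_lit 432) (nat_lit 393) (nat_lit 315)))))) (XT.nd (nat_lit 624) (nat_lit 3800) (nat_lit 0) (XT.nd (nat_lit 312) (nat_lit 2508) (nat_lit 0) (XT.nd (nat_lit 156) (nat_lit 912) (nat_lit 0) (XT.nd (nat_lit 78) (nat_lit 0) (nat_lit 0) (XT.lf (nat_lit 0) (nat_lit 726851328) (nat_lit 836) (nat_lit 919020847) (nat_lit 912) (nat_lit 7141025461) (nat_lit 437) (nat_lit 5) (nat_lit 448) (nat_lit 5) (nat_lit 449) (nat_lit 5) (nat_lit 433) (nat_lit 393) (nat_lit 314)) (XT.lf (nat_lit 0) (nat_lit 3796990134) (nat_lit 912) (nat_lit 2622833937) (nat_lit 76) (nat_lit 2445461811) (nat_lit 437) (nat_lit 5) (nat_lit 449) (nat_lit 5) (nat_lit 438) (nat_lit 5) (nat_lit 434) (nat_lit 393) (nat_lit 313))) (XT.nd (nat_lit 78) (nat_lit 0) (nat_lit 0) (XT.lf (nat_lit 0)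 (nat_lit 2924945560) (nat_lit 912) (nat_lit 3061597094) (nat_lit 988) (nat_lit 2958790991) (nat_lit 425) (nat_lit 5) (nat_lit 437) (nat_lit 5) (nat_lit 438) (nat_lit 5) (nat_lit 435) (nat_lit 393) (nat_lit 312)) (XT.lf (nat_lit 0) (nat_lit 8210679599) (nat_lit 988) (nat_lit 440706069) (nat_lit 76) (nat_lit 375780831) (nat_lit 425) (nat_lit 5) (nat_lit 438) (nat_lit 5) (nat_lit 426) (nat_lit 5) (nat_lit 436) (nat_lit 393) (nat_lit 311)))) (XT.nd (nat_lit 156) (nat_lit 760) (nat_lit 0) (XT.nd (nat_lit 78) (nat_lit 836) (nat_lit 0) (XT.lf (nat_lit 0) (nat_lit 1376658602) (nat_lit 912) (nat_lit 3850003685) (nat_lit 76) (nat_lit 3883277084) (nat_lit 413) (nat_lit 5) (nat_lit 425) (nat_lit 5) (nat_lit 414) (nat_lit 5) (nat_lit 437) (nat_lit 393) (nat_lit 310)) (XT.lf (nat_lit 0) (nat_lit 1875013172) (nat_lit 836) (nat_lit 1714350845) (nat_lit 912) (nat_lit 5605163149) (nat_lit 402) (nat_lit 5) (nat_lit 413) (nat_lit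 5) (nat_lit 414) (nat_lit 5) (nat_lit 438) (nat_lit 393) (nat_lit 309))) (XT.nd (nat_lit 78) (nat_lit 760) (nat_lit 0) (XT.lf (nat_lit 0) (nat_lit 5856278662) (nat_lit 912) (nat_lit 1556629426) (nat_lit 76) (nat_lit 1867699526) (nat_lit 402) (nat_lit 5) (nat_lit 414) (nat_lit 5) (nat_lit 403) (nat_lit 5) (nat_lit 439) (nat_lit 393) (nat_lit 308)) (XT.lf (nat_lit 0) (nat_lit 4336884749) (nat_lit 760) (nat_lit 3843529506) (nat_lit 836) (nat_lit 1187757764) (nat_lit 392) (nat_lit 5) (nat_lit 402) (nat_lit 5) (nat_lit 403) (nat_lit 5) (nat_lit 440) (nat_lit 393) (nat_lit 307))))) (XT.nd (nat_lit 312) (nat_lit 2204) (nat_lit 0) (XT.nd (nat_lit 156) (nat_lit 760) (nat_lit 0) (XT.nd (nat_lit 78) (nat_lit 0) (nat_lit 0) (XT.lf (nat_lit 0) (nat_lit 886224365) (nat_lit 760) (nat_lit 181785365) (nat_lit 836) (nat_lit 8389559843) (nat_lit 381) (nat_lit 5) (nat_lit 391) (nat_lit 5) (nat_lit 392) (nat_lit 5) (nat_lit 441) (nat_lit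 393) (nat_lit 306)) (XT.lf (nat_lit 0) (nat_lit 3382920634) (nat_lit 836) (nat_lit 2619596181) (nat_lit 76) (nat_lit 3545482599) (nat_lit 381) (nat_lit 5) (nat_lit 392) (nat_lit 5) (nat_lit 382) (nat_lit 5) (nat_lit 442) (nat_lit 393) (nat_lit 305))) (XT.nd (nat_lit 78) (nat_lit 0) (nat_lit 0) (XT.lf (nat_lit 0) (nat_lit 3465390242) (nat_lit 760) (nat_lit 2275836529) (nat_lit 836) (nat_lit 3899069139) (nat_lit 371) (nat_lit 5) (nat_lit 381) (nat_lit 5) (nat_lit 382) (nat_lit 5) (nat_lit 443) (nat_lit 393) (nat_lit 304)) (XT.lf (nat_lit 0) (nat_lit 8147996371) (nat_lit 836) (nat_lit 66868914) (nat_lit 76) (nat_lit 1519547105) (nat_lit 371) (nat_lit 5) (nat_lit 382) (nat_lit 5) (nat_lit 372) (nat_lit 5) (nat_lit 444) (nat_lit 393) (nat_lit 303)))) (XT.nd (nat_lit 156) (nat_lit 684) (nat_lit 0) (XT.nd (nat_lit 78) (nat_lit 684) (nat_lit 0) (XT.lf (nat_lit 0) (nat_lit 792093530) (nat_lit 836) (nat_lit 3635215684) (nat_lit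 76) (nat_lit 5402406981) (nat_lit 360) (nat_lit 5) (nat_lit 371) (nat_lit 5) (nat_lit 361) (nat_lit 5) (nat_lit 445) (nat_lit 393) (nat_lit 302)) (XT.lf (nat_lit 0) (nat_lit 2649427684) (nat_lit 684) (nat_lit 539535897) (nat_lit 760) (nat_lit 6737912122) (nat_lit 351) (nat_lit 5) (nat_lit 360) (nat_lit 5) (nat_lit 361) (nat_lit 5) (nat_lit 446) (nat_lit 393) (nat_lit 301))) (XT.nd (nat_lit 78) (nat_lit 684) (nat_lit 0) (XT.lf (nat_lit 0) (nat_lit 5655211194) (nat_lit 760) (nat_lit 969034863) (nat_lit 76) (nat_lit 3401303542) (nat_lit 351) (nat_lit 5) (nat_lit 361) (nat_lit 5) (nat_lit 352) (nat_lit 5) (nat_lit 447) (nat_lit 393) (nat_lit 300)) (XT.lf (nat_lit 0) (nat_lit 5504579569) (nat_lit 684) (nat_lit 2680654477) (nat_lit 760) (nat_lit 1940673921) (nat_lit 342) (nat_lit 5) (nat_lit 351) (nat_lit 5) (nat_lit 352) (nat_lit 5) (nat_lit 448) (nat_lit 393) (nat_lit 299))))))) (XT.nd (nat_lit 55692) (nat_lit 0) (nat_lit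 24472) (XT.nd (nat_lit 55068) (nat_lit 0) (nat_lit 30476) (XT.nd (nat_lit 312) (nat_lit 1292) (nat_lit 0) (XT.nd (nat_lit 156) (nat_lit 1292) (nat_lit 0) (XT.nd (nat_lit 78) (nat_lit 0) (nat_lit 0) (XT.lf (nat_lit 0) (nat_lit 533410825) (nat_lit 760) (nat_lit 8353035636) (nat_lit 76) (nat_lit 1341699684) (nat_lit 332) (nat_lit 5) (nat_lit 342) (nat_lit 5) (nat_lit 333) (nat_lit 5) (nat_lit 449) (nat_lit 393) (nat_lit 298)) (XT.lf (nat_lit 0) (nat_lit 3055517438) (nat_lit 760) (nat_lit 1828479070) (nat_lit 76) (nat_lit 5447685506) (nat_lit 332) (nat_lit 5) (nat_lit 342) (nat_lit 5) (nat_lit 333) (nat_lit 5) (nat_lit 450) (nat_lit 393) (nat_lit 297))) (XT.nd (nat_lit 78) (nat_lit 608) (nat_lit 0) (XT.lf (nat_lit 0) (nat_lit 4860926895) (nat_lit 684) (nat_lit 774711320) (nat_lit 760) (nat_lit 4801498945) (nat_lit 323) (nat_lit 5) (nat_lit 332) (nat_lit 5) (nat_lit 333) (nat_lit 5) (nat_lit 451) (nat_lit 393) (nat_lit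 296)) (XT.lf (nat_lit 0) (nat_lit 1127331745) (nat_lit 608) (nat_lit 7158141014) (nat_lit 684) (nat_lit 2258866422) (nat_lit 315) (nat_lit 5) (nat_lit 323) (nat_lit 5) (nat_lit 324) (nat_lit 5) (nat_lit 452) (nat_lit 393) (nat_lit 295)))) (XT.nd (nat_lit 156) (nat_lit 608) (nat_lit 0) (XT.nd (nat_lit 78) (nat_lit 608) (nat_lit 0) (XT.lf (nat_lit 0) (nat_lit 349403562) (nat_lit 684) (nat_lit 2649713911) (nat_lit 76) (nat_lit 7654140851) (nat_lit 314) (nat_lit 5) (nat_lit 323) (nat_lit 5) (nat_lit 315) (nat_lit 5) (nat_lit 453) (nat_lit 393) (nat_lit 294)) (XT.lf (nat_lit 0) (nat_lit 2992463726) (nat_lit 684) (nat_lit 6507555953) (nat_lit 76) (nat_lit 1263780129) (nat_lit 306) (nat_lit 5) (nat_lit 315) (nat_lit 5) (nat_lit 307) (nat_lit 5) (nat_lit 454) (nat_lit 393) (nat_lit 293))) (XT.nd (nat_lit 78) (nat_lit 0) (nat_lit 0) (XT.lf (nat_lit 0) (nat_lit 416119171) (nat_lit 608) (nat_lit 5289793485) (nat_lit 684)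 (nat_lit 5170288914) (nat_lit 298) (nat_lit 5) (nat_lit 306) (nat_lit 5) (nat_lit 307) (nat_lit 5) (nat_lit 455) (nat_lit 393) (nat_lit 292)) (XT.lf (nat_lit 0) (nat_lit 7537272166) (nat_lit 608) (nat_lit 957352996) (nat_lit 684) (nat_lit 2495806313) (nat_lit 298) (nat_lit 5) (nat_lit 306) (nat_lit 5) (nat_lit 307) (nat_lit 5) (nat_lit 456) (nat_lit 393) (nat_lit 291))))) (XT.nd (nat_lit 312) (nat_lit 1064) (nat_lit 0) (XT.nd (nat_lit 156) (nat_lit 912) (nat_lit 0) (XT.nd (nat_lit 78) (nat_lit 0) (nat_lit 0) (XT.lf (nat_lit 0) (nat_lit 578846109) (nat_lit 988) (nat_lit 1413983604) (nat_lit 988) (nat_lit 1413983604) (nat_lit 725) (nat_lit 3) (nat_lit 738) (nat_lit 3) (nat_lit 738) (nat_lit 5) (nat_lit 394) (nat_lit 394) (nat_lit 352)) (XT.lf (nat_lit 76) (nat_lit 586538669) (nat_lit 0) (nat_lit 2629297864) (nat_lit 988) (nat_lit 3624995021) (nat_lit 726) (nat_lit 5) (nat_lit 725) (nat_lit 3) (nat_lit 738) (nat_lit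 5) (nat_lit 395) (nat_lit 394) (nat_lit 351))) (XT.nd (nat_lit 78) (nat_lit 912) (nat_lit 0) (XT.lf (nat_lit 76) (nat_lit 4079978366) (nat_lit 0) (nat_lit 1200380426) (nat_lit 988) (nat_lit 1588917477) (nat_lit 726) (nat_lit 5) (nat_lit 725) (nat_lit 3) (nat_lit 738) (nat_lit 5) (nat_lit 396) (nat_lit 394) (nat_lit 350)) (XT.lf (nat_lit 0) (nat_lit 435008281) (nat_lit 988) (nat_lit 6177613407) (nat_lit 1064) (nat_lit 286534333) (nat_lit 713) (nat_lit 5) (nat_lit 726) (nat_lit 5) (nat_lit 727) (nat_lit 5) (nat_lit 397) (nat_lit 394) (nat_lit 349)))) (XT.nd (nat_lit 156) (nat_lit 1064) (nat_lit 0) (XT.nd (nat_lit 78) (nat_lit 0) (nat_lit 0) (XT.lf (nat_lit 0) (nat_lit 2452910934) (nat_lit 988) (nat_lit 2636317761) (nat_lit 1064) (nat_lit 1840699136) (nat_lit 713) (nat_lit 5) (nat_lit 726) (nat_lit 5) (nat_lit 727) (nat_lit 5) (nat_lit 398) (nat_lit 394) (nat_lit 348)) (XT.lf (nat_lit 76) (nat_lit 960089436) (nat_lit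 0) (nat_lit 3506299019) (nat_lit 1064) (nat_lit 2495822287) (nat_lit 714) (nat_lit 5) (nat_lit 713) (nat_lit 5) (nat_lit 727) (nat_lit 5) (nat_lit 399) (nat_lit 394) (nat_lit 347))) (XT.nd (nat_lit 78) (nat_lit 1064) (nat_lit 0) (XT.lf (nat_lit 76) (nat_lit 4636040877) (nat_lit 0) (nat_lit 1851586762) (nat_lit 1064) (nat_lit 508161830) (nat_lit 714) (nat_lit 5) (nat_lit 713) (nat_lit 5) (nat_lit 727) (nat_lit 5) (nat_lit 400) (nat_lit 394) (nat_lit 346)) (XT.lf (nat_lit 76) (nat_lit 1334888000) (nat_lit 0) (nat_lit 123564953) (nat_lit 1140) (nat_lit 5572207011) (nat_lit 700) (nat_lit 5) (nat_lit 699) (nat_lit 5) (nat_lit 714) (nat_lit 5) (nat_lit 401) (nat_lit 394) (nat_lit 345)))))) (XT.nd (nat_lit 624) (nat_lit 3800) (nat_lit 0) (XT.nd (nat_lit 312) (nat_lit 1140) (nat_lit 0) (XT.nd (nat_lit 156) (nat_lit 1140) (nat_lit 0) (XT.nd (nat_lit 78) (nat_lit 0) (nat_lit 0) (XT.lf (nat_lit 0) (nat_lit 3435566904) (nat_lit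 1064) (nat_lit 1973769258) (nat_lit 1140) (nat_lit 1657265103) (nat_lit 700) (nat_lit 5) (nat_lit 714) (nat_lit 5) (nat_lit 715) (nat_lit 5) (nat_lit 402) (nat_lit 394) (nat_lit 344)) (XT.lf (nat_lit 76) (nat_lit 1817107800) (nat_lit 0) (nat_lit 3600067972) (nat_lit 1140) (nat_lit 1686786569) (nat_lit 701) (nat_lit 5) (nat_lit 700) (nat_lit 5) (nat_lit 715) (nat_lit 5) (nat_lit 403) (nat_lit 394) (nat_lit 343))) (XT.nd (nat_lit 78) (nat_lit 0) (nat_lit 76) (XT.lf (nat_lit 0) (nat_lit 258568311) (nat_lit 1140) (nat_lit 1462278812) (nat_lit 1216) (nat_lit 5421862857) (nat_lit 685) (nat_lit 5) (nat_lit 700) (nat_lit 5) (nat_lit 701) (nat_lit 5) (nat_lit 404) (nat_lit 394) (nat_lit 342)) (XT.lf (nat_lit 0) (nat_lit 2191317991) (nat_lit 1140) (nat_lit 4753134435) (nat_lit 1216) (nat_lit 238135678) (nat_lit 686) (nat_lit 5) (nat_lit 701) (nat_lit 5) (nat_lit 702) (nat_lit 5) (nat_lit 405) (nat_lit 394) (nat_lit 341))))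 (XT.nd (nat_lit 156) (nat_lit 1216) (nat_lit 0) (XT.nd (nat_lit 78) (nat_lit 0) (nat_lit 0) (XT.lf (nat_lit 0) (nat_lit 4138535329) (nat_lit 1140) (nat_lit 844972840) (nat_lit 1216) (nat_lit 2240239368) (nat_lit 686) (nat_lit 5) (nat_lit 701) (nat_lit 5) (nat_lit 702) (nat_lit 5) (nat_lit 406) (nat_lit 394) (nat_lit 340)) (XT.lf (nat_lit 76) (nat_lit 3154005219) (nat_lit 0) (nat_lit 2946599768) (nat_lit 1216) (nat_lit 1165607012) (nat_lit 687) (nat_lit 5) (nat_lit 686) (nat_lit 5) (nat_lit 702) (nat_lit 5) (nat_lit 407) (nat_lit 394) (nat_lit 339))) (XT.nd (nat_lit 78) (nat_lit 0) (nat_lit 76) (XT.lf (nat_lit 0) (nat_lit 743533913) (nat_lit 1216) (nat_lit 99288188) (nat_lit 1292) (nat_lit 6467370035) (nat_lit 670) (nat_lit 5) (nat_lit 686) (nat_lit 5) (nat_lit 687) (nat_lit 5) (nat_lit 408) (nat_lit 394) (nat_lit 338)) (XT.lf (nat_lit 0) (nat_lit 2666775694) (nat_lit 1216) (nat_lit 3353797536) (nat_lit 1292) (nat_lit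 1334494044) (nat_lit 671) (nat_lit 5) (nat_lit 687) (nat_lit 5) (nat_lit 688) (nat_lit 5) (nat_lit 409) (nat_lit 394) (nat_lit 337))))) (XT.nd (nat_lit 312) (nat_lit 2660) (nat_lit 0) (XT.nd (nat_lit 156) (nat_lit 1216) (nat_lit 0) (XT.nd (nat_lit 78) (nat_lit 0) (nat_lit 0) (XT.lf (nat_lit 76) (nat_lit 759434948) (nat_lit 0) (nat_lit 3837682552) (nat_lit 1292) (nat_lit 2804349710) (nat_lit 672) (nat_lit 5) (nat_lit 671) (nat_lit 5) (nat_lit 688) (nat_lit 5) (nat_lit 410) (nat_lit 394) (nat_lit 336)) (XT.lf (nat_lit 76) (nat_lit 4971289163) (nat_lit 0) (nat_lit 1575380177) (nat_lit 1292) (nat_lit 902513741) (nat_lit 672) (nat_lit 5) (nat_lit 671) (nat_lit 5) (nat_lit 688) (nat_lit 5) (nat_lit 411) (nat_lit 394) (nat_lit 335))) (XT.nd (nat_lit 78) (nat_lit 0) (nat_lit 0) (XT.lf (nat_lit 0) (nat_lit 998760308) (nat_lit 1292) (nat_lit 5746522398) (nat_lit 1368) (nat_lit 752935728) (nat_lit 655) (nat_lit 5) (nat_lit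 672) (nat_lit 5) (nat_lit 673) (nat_lit 5) (nat_lit 412) (nat_lit 394) (nat_lit 334)) (XT.lf (nat_lit 0) (nat_lit 2912504673) (nat_lit 1292) (nat_lit 1494739178) (nat_lit 1368) (nat_lit 3141140741) (nat_lit 655) (nat_lit 5) (nat_lit 672) (nat_lit 5) (nat_lit 673) (nat_lit 5) (nat_lit 413) (nat_lit 394) (nat_lit 333)))) (XT.nd (nat_lit 156) (nat_lit 2660) (nat_lit 0) (XT.nd (nat_lit 78) (nat_lit 0) (nat_lit 76) (XT.lf (nat_lit 76) (nat_lit 2850261867) (nat_lit 0) (nat_lit 1992912087) (nat_lit 1368) (nat_lit 2756807119) (nat_lit 656) (nat_lit 5) (nat_lit 655) (nat_lit 5) (nat_lit 673) (nat_lit 5) (nat_lit 414) (nat_lit 394) (nat_lit 332)) (XT.lf (nat_lit 0) (nat_lit 6786407153) (nat_lit 1292) (nat_lit 382959699) (nat_lit 76) (nat_lit 483763622) (nat_lit 656) (nat_lit 5) (nat_lit 673) (nat_lit 5) (nat_lit 657) (nat_lit 5) (nat_lit 415) (nat_lit 394) (nat_lit 331))) (XT.nd (nat_lit 78) (nat_lit 1368) (nat_lit 0) (XT.lf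 (nat_lit 0) (nat_lit 1048528241) (nat_lit 1368) (nat_lit 3632013649) (nat_lit 76) (nat_lit 3026637508) (nat_lit 638) (nat_lit 5) (nat_lit 656) (nat_lit 5) (nat_lit 639) (nat_lit 5) (nat_lit 416) (nat_lit 394) (nat_lit 330)) (XT.lf (nat_lit 0) (nat_lit 841073128) (nat_lit 1368) (nat_lit 2119351255) (nat_lit 1444) (nat_lit 4802371437) (nat_lit 620) (nat_lit 5) (nat_lit 638) (nat_lit 5) (nat_lit 639) (nat_lit 5) (nat_lit 417) (nat_lit 394) (nat_lit 329))))))))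
noncomputable def xc49 : XT := (XT.nd (nat_lit 2496) (nat_lit 3344) (nat_lit 0) (XT.nd (nat_lit 1248) (nat_lit 8056) (nat_lit 0) (XT.nd (nat_lit 624) (nat_lit 6688) (nat_lit 0) (XT.nd (nat_lit 312) (nat_lit 3344) (nat_lit 0) (XT.nd (nat_lit 156) (nat_lit 1596) (nat_lit 0) (XT.nd (nat_lit 78) (nat_lit 1444) (nat_lit 0) (XT.lf (nat_lit 0) (nat_lit 4900789805) (nat_lit 1444) (nat_lit 2399742480) (nat_lit 76) (nat_lit 519187658) (nat_lit 620) (nat_lit 5) (nat_lit 639) (nat_lit 5) (nat_lit 621) (nat_lit 5) (nat_lit 418) (nat_lit 394) (nat_lit 328)) (XT.lf (nat_lit 0) (nat_lit 2197862154) (nat_lit 1444) (nat_lit 4673637105) (nat_lit 1520) (nat_lit 1006452556) (nat_lit 601) (nat_lit 5) (nat_lit 620) (nat_lit 5) (nat_lit 621) (nat_lit 5) (nat_lit 419) (nat_lit 394) (nat_lit 327))) (XT.nd (nat_lit 78) (nat_lit 1520) (nat_lit 0) (XT.lf (nat_lit 0) (nat_lit 911621746) (nat_lit 1520) (nat_lit 1053210848) (nat_lit 76) (nat_lit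 5972798483) (nat_lit 600) (nat_lit 5) (nat_lit 620) (nat_lit 5) (nat_lit 601) (nat_lit 5) (nat_lit 420) (nat_lit 394) (nat_lit 326)) (XT.lf (nat_lit 0) (nat_lit 2848139739) (nat_lit 1596) (nat_lit 4325559323) (nat_lit 76) (nat_lit 824800637) (nat_lit 580) (nat_lit 5) (nat_lit 601) (nat_lit 5) (nat_lit 581) (nat_lit 5) (nat_lit 421) (nat_lit 394) (nat_lit 325)))) (XT.nd (nat_lit 156) (nat_lit 1748) (nat_lit 0) (XT.nd (nat_lit 78) (nat_lit 0) (nat_lit 0) (XT.lf (nat_lit 0) (nat_lit 409902872) (nat_lit 1596) (nat_lit 4401061743) (nat_lit 1672) (nat_lit 3249869548) (nat_lit 559) (nat_lit 5) (nat_lit 580) (nat_lit 5) (nat_lit 581) (nat_lit 5) (nat_lit 422) (nat_lit 394) (nat_lit 324)) (XT.lf (nat_lit 0) (nat_lit 5269043891) (nat_lit 1596) (nat_lit 1538315318) (nat_lit 1672) (nat_lit 1317169843) (nat_lit 559) (nat_lit 5) (nat_lit 580) (nat_lit 5) (nat_lit 581) (nat_lit 5) (nat_lit 423) (nat_lit 394) (nat_lit 323))) (XT.nd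 (nat_lit 78) (nat_lit 0) (nat_lit 0) (XT.lf (nat_lit 0) (nat_lit 633634263) (nat_lit 1748) (nat_lit 6170260442) (nat_lit 76) (nat_lit 1385757583) (nat_lit 536) (nat_lit 5) (nat_lit 559) (nat_lit 5) (nat_lit 537) (nat_lit 5) (nat_lit 424) (nat_lit 394) (nat_lit 322)) (XT.lf (nat_lit 0) (nat_lit 2601561969) (nat_lit 1748) (nat_lit 1274307031) (nat_lit 76) (nat_lit 4380119969) (nat_lit 536) (nat_lit 5) (nat_lit 559) (nat_lit 5) (nat_lit 537) (nat_lit 5) (nat_lit 425) (nat_lit 394) (nat_lit 321))))) (XT.nd (nat_lit 312) (nat_lit 1900) (nat_lit 0) (XT.nd (nat_lit 156) (nat_lit 1216) (nat_lit 0) (XT.nd (nat_lit 78) (nat_lit 1824) (nat_lit 0) (XT.lf (nat_lit 0) (nat_lit 3739146070) (nat_lit 1748) (nat_lit 860892616) (nat_lit 1824) (nat_lit 3723789890) (nat_lit 513) (nat_lit 5) (nat_lit 536) (nat_lit 5) (nat_lit 537) (nat_lit 5) (nat_lit 426) (nat_lit 394) (nat_lit 320)) (XT.lf (nat_lit 0) (nat_lit 438667650) (nat_lit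 1824) (nat_lit 6193044577) (nat_lit 1900) (nat_lit 1761448202) (nat_lit 489) (nat_lit 5) (nat_lit 513) (nat_lit 5) (nat_lit 514) (nat_lit 5) (nat_lit 427) (nat_lit 394) (nat_lit 319))) (XT.nd (nat_lit 78) (nat_lit 1140) (nat_lit 0) (XT.lf (nat_lit 0) (nat_lit 241288755) (nat_lit 1900) (nat_lit 2876269167) (nat_lit 76) (nat_lit 5346203857) (nat_lit 488) (nat_lit 5) (nat_lit 513) (nat_lit 5) (nat_lit 489) (nat_lit 5) (nat_lit 428) (nat_lit 394) (nat_lit 318)) (XT.lf (nat_lit 0) (nat_lit 2243978135) (nat_lit 1216) (nat_lit 6243858015) (nat_lit 76) (nat_lit 48036471) (nat_lit 473) (nat_lit 5) (nat_lit 489) (nat_lit 5) (nat_lit 474) (nat_lit 5) (nat_lit 429) (nat_lit 394) (nat_lit 317)))) (XT.nd (nat_lit 156) (nat_lit 988) (nat_lit 0) (XT.nd (nat_lit 78) (nat_lit 912) (nat_lit 0) (XT.lf (nat_lit 0) (nat_lit 4295502493) (nat_lit 1216) (nat_lit 1057186050) (nat_lit 76) (nat_lit 3256561514) (nat_lit 473) (nat_lit 5) (nat_lit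 489) (nat_lit 5) (nat_lit 474) (nat_lit 5) (nat_lit 430) (nat_lit 394) (nat_lit 316)) (XT.lf (nat_lit 0) (nat_lit 4259649010) (nat_lit 912) (nat_lit 2125384410) (nat_lit 988) (nat_lit 2299122100) (nat_lit 461) (nat_lit 5) (nat_lit 473) (nat_lit 5) (nat_lit 474) (nat_lit 5) (nat_lit 431) (nat_lit 394) (nat_lit 315))) (XT.nd (nat_lit 78) (nat_lit 76) (nat_lit 0) (XT.lf (nat_lit 0) (nat_lit 911209443) (nat_lit 912) (nat_lit 7595514414) (nat_lit 988) (nat_lit 254027858) (nat_lit 449) (nat_lit 5) (nat_lit 461) (nat_lit 5) (nat_lit 462) (nat_lit 5) (nat_lit 432) (nat_lit 394) (nat_lit 314)) (XT.lf (nat_lit 0) (nat_lit 1821845507) (nat_lit 988) (nat_lit 2480895161) (nat_lit 76) (nat_lit 4535623201) (nat_lit 448) (nat_lit 5) (nat_lit 461) (nat_lit 5) (nat_lit 449) (nat_lit 5) (nat_lit 433) (nat_lit 394) (nat_lit 313)))))) (XT.nd (nat_lit 624) (nat_lit 3724) (nat_lit 0) (XT.nd (nat_lit 312) (nat_lit 1672) (nat_lit 0) (XT.nd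 (nat_lit 156) (nat_lit 1824) (nat_lit 0) (XT.nd (nat_lit 78) (nat_lit 0) (nat_lit 0) (XT.lf (nat_lit 0) (nat_lit 3003363779) (nat_lit 836) (nat_lit 922504573) (nat_lit 912) (nat_lit 4991825663) (nat_lit 437) (nat_lit 5) (nat_lit 448) (nat_lit 5) (nat_lit 449) (nat_lit 5) (nat_lit 434) (nat_lit 394) (nat_lit 312)) (XT.lf (nat_lit 0) (nat_lit 6076043125) (nat_lit 912) (nat_lit 413702106) (nat_lit 76) (nat_lit 2508784104) (nat_lit 437) (nat_lit 5) (nat_lit 449) (nat_lit 5) (nat_lit 438) (nat_lit 5) (nat_lit 435) (nat_lit 394) (nat_lit 311))) (XT.nd (nat_lit 78) (nat_lit 912) (nat_lit 0) (XT.lf (nat_lit 0) (nat_lit 5230154109) (nat_lit 912) (nat_lit 3050621418) (nat_lit 988) (nat_lit 799974751) (nat_lit 425) (nat_lit 5) (nat_lit 437) (nat_lit 5) (nat_lit 438) (nat_lit 5) (nat_lit 436) (nat_lit 394) (nat_lit 310)) (XT.lf (nat_lit 0) (nat_lit 1336441103) (nat_lit 912) (nat_lit 7354446730) (nat_lit 76) (nat_lit 473763435)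 (nat_lit 413) (nat_lit 5) (nat_lit 425) (nat_lit 5) (nat_lit 414) (nat_lit 5) (nat_lit 437) (nat_lit 394) (nat_lit 309)))) (XT.nd (nat_lit 156) (nat_lit 836) (nat_lit 0) (XT.nd (nat_lit 78) (nat_lit 836) (nat_lit 0) (XT.lf (nat_lit 0) (nat_lit 3523125261) (nat_lit 912) (nat_lit 1668778719) (nat_lit 76) (nat_lit 4057855508) (nat_lit 413) (nat_lit 5) (nat_lit 425) (nat_lit 5) (nat_lit 414) (nat_lit 5) (nat_lit 438) (nat_lit 394) (nat_lit 308)) (XT.lf (nat_lit 0) (nat_lit 4155881731) (nat_lit 836) (nat_lit 1597220773) (nat_lit 912) (nat_lit 3583476181) (nat_lit 402) (nat_lit 5) (nat_lit 413) (nat_lit 5) (nat_lit 414) (nat_lit 5) (nat_lit 439) (nat_lit 394) (nat_lit 307))) (XT.nd (nat_lit 78) (nat_lit 76) (nat_lit 0) (XT.lf (nat_lit 0) (nat_lit 660333892) (nat_lit 760) (nat_lit 7369254048) (nat_lit 836) (nat_lit 1395508153) (nat_lit 392) (nat_lit 5) (nat_lit 402) (nat_lit 5) (nat_lit 403) (nat_lit 5) (nat_lit 440)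 (nat_lit 394) (nat_lit 306)) (XT.lf (nat_lit 0) (nat_lit 843901580) (nat_lit 836) (nat_lit 2872240471) (nat_lit 76) (nat_lit 5798760221) (nat_lit 391) (nat_lit 5) (nat_lit 402) (nat_lit 5) (nat_lit 392) (nat_lit 5) (nat_lit 441) (nat_lit 394) (nat_lit 305))))) (XT.nd (nat_lit 312) (nat_lit 1368) (nat_lit 0) (XT.nd (nat_lit 156) (nat_lit 1596) (nat_lit 0) (XT.nd (nat_lit 78) (nat_lit 0) (nat_lit 0) (XT.lf (nat_lit 0) (nat_lit 3103672115) (nat_lit 836) (nat_lit 6465742413) (nat_lit 76) (nat_lit 37020392) (nat_lit 381) (nat_lit 5) (nat_lit 392) (nat_lit 5) (nat_lit 382) (nat_lit 5) (nat_lit 442) (nat_lit 394) (nat_lit 304)) (XT.lf (nat_lit 0) (nat_lit 5426565386) (nat_lit 836) (nat_lit 440786318) (nat_lit 76) (nat_lit 3832087971) (nat_lit 381) (nat_lit 5) (nat_lit 392) (nat_lit 5) (nat_lit 382) (nat_lit 5) (nat_lit 443) (nat_lit 394) (nat_lit 303))) (XT.nd (nat_lit 78) (nat_lit 836) (nat_lit 0) (XT.lf (nat_lit 0)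 (nat_lit 5751220875) (nat_lit 760) (nat_lit 2056463078) (nat_lit 836) (nat_lit 1986385222) (nat_lit 371) (nat_lit 5) (nat_lit 381) (nat_lit 5) (nat_lit 382) (nat_lit 5) (nat_lit 444) (nat_lit 394) (nat_lit 302)) (XT.lf (nat_lit 0) (nat_lit 344993532) (nat_lit 836) (nat_lit 7722892483) (nat_lit 76) (nat_lit 1822586433) (nat_lit 360) (nat_lit 5) (nat_lit 371) (nat_lit 5) (nat_lit 361) (nat_lit 5) (nat_lit 445) (nat_lit 394) (nat_lit 301)))) (XT.nd (nat_lit 156) (nat_lit 684) (nat_lit 0) (XT.nd (nat_lit 78) (nat_lit 684) (nat_lit 0) (XT.lf (nat_lit 0) (nat_lit 2712217083) (nat_lit 836) (nat_lit 1487507438) (nat_lit 76) (nat_lit 5788500365) (nat_lit 360) (nat_lit 5) (nat_lit 371) (nat_lit 5) (nat_lit 361) (nat_lit 5) (nat_lit 446) (nat_lit 394) (nat_lit 300)) (XT.lf (nat_lit 0) (nat_lit 4908220821) (nat_lit 684) (nat_lit 225786404) (nat_lit 760) (nat_lit 4953780705) (nat_lit 351) (nat_lit 5) (nat_lit 360) (nat_lit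 5) (nat_lit 361) (nat_lit 5) (nat_lit 447) (nat_lit 394) (nat_lit 299))) (XT.nd (nat_lit 78) (nat_lit 0) (nat_lit 0) (XT.lf (nat_lit 0) (nat_lit 1225026111) (nat_lit 684) (nat_lit 6397685637) (nat_lit 760) (nat_lit 2566260917) (nat_lit 342) (nat_lit 5) (nat_lit 351) (nat_lit 5) (nat_lit 352) (nat_lit 5) (nat_lit 448) (nat_lit 394) (nat_lit 298)) (XT.lf (nat_lit 0) (nat_lit 7797589979) (nat_lit 684) (nat_lit 2375759596) (nat_lit 760) (nat_lit 118588334) (nat_lit 342) (nat_lit 5) (nat_lit 351) (nat_lit 5) (nat_lit 352) (nat_lit 5) (nat_lit 449) (nat_lit 394) (nat_lit 297))))))) (XT.nd (nat_lit 55770) (nat_lit 0) (nat_lit 24472) (XT.nd (nat_lit 55146) (nat_lit 0) (nat_lit 30476) (XT.nd (nat_lit 312) (nat_lit 1292) (nat_lit 0) (XT.nd (nat_lit 156) (nat_lit 608) (nat_lit 0) (XT.nd (nat_lit 78) (nat_lit 684) (nat_lit 0) (XT.lf (nat_lit 0) (nat_lit 2361254307) (nat_lit 760) (nat_lit 6293453730) (nat_lit 76) (nat_lit 1741657526)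 (nat_lit 332) (nat_lit 5) (nat_lit 342) (nat_lit 5) (nat_lit 333) (nat_lit 5) (nat_lit 450) (nat_lit 394) (nat_lit 296)) (XT.lf (nat_lit 0) (nat_lit 322159486) (nat_lit 684) (nat_lit 4578104350) (nat_lit 760) (nat_lit 5602379097) (nat_lit 323) (nat_lit 5) (nat_lit 332) (nat_lit 5) (nat_lit 333) (nat_lit 5) (nat_lit 451) (nat_lit 394) (nat_lit 295))) (XT.nd (nat_lit 78) (nat_lit 608) (nat_lit 0) (XT.lf (nat_lit 0) (nat_lit 7126766662) (nat_lit 684) (nat_lit 382276579) (nat_lit 760) (nat_lit 3101622816) (nat_lit 323) (nat_lit 5) (nat_lit 332) (nat_lit 5) (nat_lit 333) (nat_lit 5) (nat_lit 452) (nat_lit 394) (nat_lit 294)) (XT.lf (nat_lit 0) (nat_lit 3336583420) (nat_lit 608) (nat_lit 6857561833) (nat_lit 684) (nat_lit 526221452) (nat_lit 315) (nat_lit 5) (nat_lit 323) (nat_lit 5) (nat_lit 324) (nat_lit 5) (nat_lit 453) (nat_lit 394) (nat_lit 293)))) (XT.nd (nat_lit 156) (nat_lit 608) (nat_lit 0) (XT.nd (nat_lit 78)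 (nat_lit 608) (nat_lit 0) (XT.lf (nat_lit 0) (nat_lit 2076495397) (nat_lit 684) (nat_lit 536020445) (nat_lit 76) (nat_lit 8219405573) (nat_lit 314) (nat_lit 5) (nat_lit 323) (nat_lit 5) (nat_lit 315) (nat_lit 5) (nat_lit 454) (nat_lit 394) (nat_lit 292)) (XT.lf (nat_lit 0) (nat_lit 4755599480) (nat_lit 684) (nat_lit 4454202044) (nat_lit 76) (nat_lit 1735208551) (nat_lit 306) (nat_lit 5) (nat_lit 315) (nat_lit 5) (nat_lit 307) (nat_lit 5) (nat_lit 455) (nat_lit 394) (nat_lit 291))) (XT.nd (nat_lit 54600) (nat_lit 0) (nat_lit 32452) (XT.lf (nat_lit 0) (nat_lit 2593581418) (nat_lit 608) (nat_lit 4910421691) (nat_lit 684) (nat_lit 3556043049) (nat_lit 298) (nat_lit 5) (nat_lit 306) (nat_lit 5) (nat_lit 307) (nat_lit 5) (nat_lit 456) (nat_lit 394) (nat_lit 290)) (XT.lf (nat_lit 0) (nat_lit 2619919279) (nat_lit 988) (nat_lit 407220190) (nat_lit 988) (nat_lit 407220190) (nat_lit 725) (nat_lit 3) (nat_lit 738) (nat_lit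 3) (nat_lit 738) (nat_lit 5) (nat_lit 395) (nat_lit 395) (nat_lit 350))))) (XT.nd (nat_lit 312) (nat_lit 988) (nat_lit 0) (XT.nd (nat_lit 156) (nat_lit 0) (nat_lit 0) (XT.nd (nat_lit 78) (nat_lit 0) (nat_lit 0) (XT.lf (nat_lit 0) (nat_lit 370196840) (nat_lit 988) (nat_lit 4245491937) (nat_lit 1064) (nat_lit 2282055571) (nat_lit 712) (nat_lit 5) (nat_lit 725) (nat_lit 3) (nat_lit 726) (nat_lit 5) (nat_lit 396) (nat_lit 395) (nat_lit 349)) (XT.lf (nat_lit 0) (nat_lit 2340950528) (nat_lit 988) (nat_lit 766051213) (nat_lit 1064) (nat_lit 3821062694) (nat_lit 712) (nat_lit 5) (nat_lit 725) (nat_lit 3) (nat_lit 726) (nat_lit 5) (nat_lit 397) (nat_lit 395) (nat_lit 348))) (XT.nd (nat_lit 78) (nat_lit 0) (nat_lit 76) (XT.lf (nat_lit 76) (nat_lit 2792836116) (nat_lit 0) (nat_lit 1525419393) (nat_lit 1064) (nat_lit 2641392690) (nat_lit 713) (nat_lit 5) (nat_lit 712) (nat_lit 5) (nat_lit 726) (nat_lit 5) (nat_lit 398) (nat_lit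 395) (nat_lit 347)) (XT.lf (nat_lit 0) (nat_lit 6290834868) (nat_lit 988) (nat_lit 586830757) (nat_lit 1064) (nat_lit 115083448) (nat_lit 713) (nat_lit 5) (nat_lit 726) (nat_lit 5) (nat_lit 727) (nat_lit 5) (nat_lit 399) (nat_lit 395) (nat_lit 346)))) (XT.nd (nat_lit 156) (nat_lit 0) (nat_lit 0) (XT.nd (nat_lit 78) (nat_lit 0) (nat_lit 0) (XT.lf (nat_lit 0) (nat_lit 1240472111) (nat_lit 1064) (nat_lit 3967379058) (nat_lit 1140) (nat_lit 1818877901) (nat_lit 699) (nat_lit 5) (nat_lit 713) (nat_lit 5) (nat_lit 714) (nat_lit 5) (nat_lit 400) (nat_lit 395) (nat_lit 345)) (XT.lf (nat_lit 0) (nat_lit 3167711117) (nat_lit 1064) (nat_lit 307248793) (nat_lit 1140) (nat_lit 3587227890) (nat_lit 699) (nat_lit 5) (nat_lit 713) (nat_lit 5) (nat_lit 714) (nat_lit 5) (nat_lit 401) (nat_lit 395) (nat_lit 344))) (XT.nd (nat_lit 78) (nat_lit 0) (nat_lit 76) (XT.lf (nat_lit 76) (nat_lit 3444123580) (nat_lit 0) (nat_lit 1664115980)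 (nat_lit 1140) (nat_lit 1990621252) (nat_lit 700) (nat_lit 5) (nat_lit 699) (nat_lit 5) (nat_lit 714) (nat_lit 5) (nat_lit 402) (nat_lit 395) (nat_lit 343)) (XT.lf (nat_lit 76) (nat_lit 110693796) (nat_lit 0) (nat_lit 6934137766) (nat_lit 1140) (nat_lit 92290663) (nat_lit 701) (nat_lit 5) (nat_lit 700) (nat_lit 5) (nat_lit 715) (nat_lit 5) (nat_lit 403) (nat_lit 395) (nat_lit 342)))))) (XT.nd (nat_lit 624) (nat_lit 2584) (nat_lit 0) (XT.nd (nat_lit 312) (nat_lit 1216) (nat_lit 0) (XT.nd (nat_lit 156) (nat_lit 1140) (nat_lit 0) (XT.nd (nat_lit 78) (nat_lit 0) (nat_lit 0) (XT.lf (nat_lit 0) (nat_lit 1809232304) (nat_lit 1140) (nat_lit 3226289212) (nat_lit 1216) (nat_lit 2140599694) (nat_lit 685) (nat_lit 5) (nat_lit 700) (nat_lit 5) (nat_lit 701) (nat_lit 5) (nat_lit 404) (nat_lit 395) (nat_lit 341)) (XT.lf (nat_lit 76) (nat_lit 629607186) (nat_lit 0) (nat_lit 3076641538) (nat_lit 1216) (nat_lit 3510465274) (nat_lit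 686) (nat_lit 5) (nat_lit 685) (nat_lit 5) (nat_lit 701) (nat_lit 5) (nat_lit 405) (nat_lit 395) (nat_lit 340))) (XT.nd (nat_lit 78) (nat_lit 1140) (nat_lit 0) (XT.lf (nat_lit 76) (nat_lit 4578646395) (nat_lit 0) (nat_lit 1039529066) (nat_lit 1216) (nat_lit 1640403783) (nat_lit 686) (nat_lit 5) (nat_lit 685) (nat_lit 5) (nat_lit 701) (nat_lit 5) (nat_lit 406) (nat_lit 395) (nat_lit 339)) (XT.lf (nat_lit 0) (nat_lit 234771044) (nat_lit 1216) (nat_lit 6016020101) (nat_lit 1292) (nat_lit 1051031678) (nat_lit 670) (nat_lit 5) (nat_lit 686) (nat_lit 5) (nat_lit 687) (nat_lit 5) (nat_lit 407) (nat_lit 395) (nat_lit 338)))) (XT.nd (nat_lit 156) (nat_lit 1216) (nat_lit 0) (XT.nd (nat_lit 78) (nat_lit 0) (nat_lit 0) (XT.lf (nat_lit 0) (nat_lit 2107186369) (nat_lit 1216) (nat_lit 2024797842) (nat_lit 1292) (nat_lit 3214096161) (nat_lit 670) (nat_lit 5) (nat_lit 686) (nat_lit 5) (nat_lit 687) (nat_lit 5) (nat_lit 408) (nat_lit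 395) (nat_lit 337)) (XT.lf (nat_lit 76) (nat_lit 2045090743) (nat_lit 0) (nat_lit 1942780790) (nat_lit 1292) (nat_lit 3403935108) (nat_lit 671) (nat_lit 5) (nat_lit 670) (nat_lit 5) (nat_lit 687) (nat_lit 5) (nat_lit 409) (nat_lit 395) (nat_lit 336))) (XT.nd (nat_lit 78) (nat_lit 1292) (nat_lit 0) (XT.lf (nat_lit 0) (nat_lit 5880018475) (nat_lit 1216) (nat_lit 1245048934) (nat_lit 1292) (nat_lit 313903065) (nat_lit 671) (nat_lit 5) (nat_lit 687) (nat_lit 5) (nat_lit 688) (nat_lit 5) (nat_lit 410) (nat_lit 395) (nat_lit 335)) (XT.lf (nat_lit 0) (nat_lit 309669848) (nat_lit 1292) (nat_lit 4553160646) (nat_lit 1368) (nat_lit 2624385669) (nat_lit 654) (nat_lit 5) (nat_lit 671) (nat_lit 5) (nat_lit 672) (nat_lit 5) (nat_lit 411) (nat_lit 395) (nat_lit 334))))) (XT.nd (nat_lit 312) (nat_lit 1292) (nat_lit 0) (XT.nd (nat_lit 156) (nat_lit 1292) (nat_lit 0) (XT.nd (nat_lit 78) (nat_lit 0) (nat_lit 0) (XT.lf (nat_lit 0)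 (nat_lit 2162677396) (nat_lit 1292) (nat_lit 361533308) (nat_lit 1368) (nat_lit 5012652216) (nat_lit 654) (nat_lit 5) (nat_lit 671) (nat_lit 5) (nat_lit 672) (nat_lit 5) (nat_lit 412) (nat_lit 395) (nat_lit 333)) (XT.lf (nat_lit 76) (nat_lit 3937615039) (nat_lit 0) (nat_lit 100948460) (nat_lit 1368) (nat_lit 3549222744) (nat_lit 655) (nat_lit 5) (nat_lit 654) (nat_lit 5) (nat_lit 672) (nat_lit 5) (nat_lit 413) (nat_lit 395) (nat_lit 332))) (XT.nd (nat_lit 78) (nat_lit 1368) (nat_lit 0) (XT.lf (nat_lit 76) (nat_lit 652489303) (nat_lit 0) (nat_lit 5282474956) (nat_lit 1368) (nat_lit 1705103836) (nat_lit 656) (nat_lit 5) (nat_lit 655) (nat_lit 5) (nat_lit 673) (nat_lit 5) (nat_lit 414) (nat_lit 395) (nat_lit 331)) (XT.lf (nat_lit 0) (nat_lit 160168166) (nat_lit 1368) (nat_lit 2633150027) (nat_lit 1444) (nat_lit 4900322996) (nat_lit 637) (nat_lit 5) (nat_lit 655) (nat_lit 5) (nat_lit 656) (nat_lit 5) (nat_lit 415)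 (nat_lit 395) (nat_lit 330)))) (XT.nd (nat_lit 156) (nat_lit 1292) (nat_lit 0) (XT.nd (nat_lit 78) (nat_lit 0) (nat_lit 76) (XT.lf (nat_lit 76) (nat_lit 1792194306) (nat_lit 0) (nat_lit 221389501) (nat_lit 1444) (nat_lit 5735003133) (nat_lit 638) (nat_lit 5) (nat_lit 637) (nat_lit 5) (nat_lit 656) (nat_lit 5) (nat_lit 416) (nat_lit 395) (nat_lit 329)) (XT.lf (nat_lit 0) (nat_lit 3900083602) (nat_lit 1368) (nat_lit 1507259453) (nat_lit 76) (nat_lit 2397368234) (nat_lit 638) (nat_lit 5) (nat_lit 656) (nat_lit 5) (nat_lit 639) (nat_lit 5) (nat_lit 417) (nat_lit 395) (nat_lit 328))) (XT.nd (nat_lit 78) (nat_lit 0) (nat_lit 0) (XT.lf (nat_lit 0) (nat_lit 3040832516) (nat_lit 1368) (nat_lit 2768056568) (nat_lit 1444) (nat_lit 2053377527) (nat_lit 620) (nat_lit 5) (nat_lit 638) (nat_lit 5) (nat_lit 639) (nat_lit 5) (nat_lit 418) (nat_lit 395) (nat_lit 327)) (XT.lf (nat_lit 0) (nat_lit 7672065938) (nat_lit 1368) (nat_lit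 57820557) (nat_lit 1444) (nat_lit 191606230) (nat_lit 620) (nat_lit 5) (nat_lit 638) (nat_lit 5) (nat_lit 639) (nat_lit 5) (nat_lit 419) (nat_lit 395) (nat_lit 326))))))))
noncomputable def xc50 : XT := (XT.nd (nat_lit 2496) (nat_lit 1976) (nat_lit 0) (XT.nd (nat_lit 1248) (nat_lit 7980) (nat_lit 0) (XT.nd (nat_lit 624) (nat_lit 5776) (nat_lit 0) (XT.nd (nat_lit 312) (nat_lit 3496) (nat_lit 0) (XT.nd (nat_lit 156) (nat_lit 1596) (nat_lit 0) (XT.nd (nat_lit 78) (nat_lit 1520) (nat_lit 0) (XT.lf (nat_lit 0) (nat_lit 1696049313) (nat_lit 1520) (nat_lit 3566801888) (nat_lit 76) (nat_lit 2718609613) (nat_lit 600) (nat_lit 5) (nat_lit 620) (nat_lit 5) (nat_lit 601) (nat_lit 5) (nat_lit 420) (nat_lit 395) (nat_lit 325)) (XT.lf (nat_lit 0) (nat_lit 1117065963) (nat_lit 1520) (nat_lit 2476087144) (nat_lit 1596) (nat_lit 4449964612) (nat_lit 580) (nat_lit 5) (nat_lit 600) (nat_lit 5) (nat_lit 601) (nat_lit 5) (nat_lit 421)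 (nat_lit 395) (nat_lit 324))) (XT.nd (nat_lit 78) (nat_lit 1596) (nat_lit 0) (XT.lf (nat_lit 0) (nat_lit 5520150640) (nat_lit 1596) (nat_lit 2194381913) (nat_lit 76) (nat_lit 391636178) (nat_lit 580) (nat_lit 5) (nat_lit 601) (nat_lit 5) (nat_lit 581) (nat_lit 5) (nat_lit 422) (nat_lit 395) (nat_lit 323)) (XT.lf (nat_lit 0) (nat_lit 2621199469) (nat_lit 1596) (nat_lit 4864061069) (nat_lit 1672) (nat_lit 685228776) (nat_lit 559) (nat_lit 5) (nat_lit 580) (nat_lit 5) (nat_lit 581) (nat_lit 5) (nat_lit 423) (nat_lit 395) (nat_lit 322)))) (XT.nd (nat_lit 156) (nat_lit 1748) (nat_lit 0) (XT.nd (nat_lit 78) (nat_lit 1672) (nat_lit 0) (XT.lf (nat_lit 0) (nat_lit 1218371868) (nat_lit 1672) (nat_lit 710159418) (nat_lit 76) (nat_lit 6307777513) (nat_lit 558) (nat_lit 5) (nat_lit 580) (nat_lit 5) (nat_lit 559) (nat_lit 5) (nat_lit 424) (nat_lit 395) (nat_lit 321)) (XT.lf (nat_lit 0) (nat_lit 3152695743) (nat_lit 1748) (nat_lit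 4062077287) (nat_lit 76) (nat_lit 1088544527) (nat_lit 536) (nat_lit 5) (nat_lit 559) (nat_lit 5) (nat_lit 537) (nat_lit 5) (nat_lit 425) (nat_lit 395) (nat_lit 320))) (XT.nd (nat_lit 78) (nat_lit 0) (nat_lit 0) (XT.lf (nat_lit 0) (nat_lit 899840122) (nat_lit 1748) (nat_lit 4216839362) (nat_lit 1824) (nat_lit 3255167540) (nat_lit 513) (nat_lit 5) (nat_lit 536) (nat_lit 5) (nat_lit 537) (nat_lit 5) (nat_lit 426) (nat_lit 395) (nat_lit 319)) (XT.lf (nat_lit 0) (nat_lit 5987367091) (nat_lit 1748) (nat_lit 1127846434) (nat_lit 1824) (nat_lit 1326628141) (nat_lit 513) (nat_lit 5) (nat_lit 536) (nat_lit 5) (nat_lit 537) (nat_lit 5) (nat_lit 427) (nat_lit 395) (nat_lit 318))))) (XT.nd (nat_lit 312) (nat_lit 1824) (nat_lit 0) (XT.nd (nat_lit 156) (nat_lit 2052) (nat_lit 0) (XT.nd (nat_lit 78) (nat_lit 0) (nat_lit 0) (XT.lf (nat_lit 0) (nat_lit 631116679) (nat_lit 1900) (nat_lit 5861071872) (nat_lit 76) (nat_lit 2020983790)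 (nat_lit 488) (nat_lit 5) (nat_lit 513) (nat_lit 5) (nat_lit 489) (nat_lit 5) (nat_lit 428) (nat_lit 395) (nat_lit 317)) (XT.lf (nat_lit 0) (nat_lit 2603202865) (nat_lit 1900) (nat_lit 736887154) (nat_lit 76) (nat_lit 5245805228) (nat_lit 488) (nat_lit 5) (nat_lit 513) (nat_lit 5) (nat_lit 489) (nat_lit 5) (nat_lit 429) (nat_lit 395) (nat_lit 316))) (XT.nd (nat_lit 78) (nat_lit 912) (nat_lit 0) (XT.lf (nat_lit 0) (nat_lit 4520637754) (nat_lit 1140) (nat_lit 92938450) (nat_lit 1216) (nat_lit 4046519499) (nat_lit 473) (nat_lit 5) (nat_lit 488) (nat_lit 5) (nat_lit 489) (nat_lit 5) (nat_lit 430) (nat_lit 395) (nat_lit 315)) (XT.lf (nat_lit 0) (nat_lit 1122550169) (nat_lit 912) (nat_lit 5544694918) (nat_lit 988) (nat_lit 2068473320) (nat_lit 461) (nat_lit 5) (nat_lit 473) (nat_lit 5) (nat_lit 474) (nat_lit 5) (nat_lit 431) (nat_lit 395) (nat_lit 314)))) (XT.nd (nat_lit 156) (nat_lit 836) (nat_lit 0) (XT.nd (nat_lit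 78) (nat_lit 988) (nat_lit 0) (XT.lf (nat_lit 0) (nat_lit 6516616868) (nat_lit 912) (nat_lit 2244084689) (nat_lit 988) (nat_lit 52177723) (nat_lit 461) (nat_lit 5) (nat_lit 473) (nat_lit 5) (nat_lit 474) (nat_lit 5) (nat_lit 432) (nat_lit 395) (nat_lit 313)) (XT.lf (nat_lit 0) (nat_lit 1976682326) (nat_lit 988) (nat_lit 5772541605) (nat_lit 76) (nat_lit 1142128615) (nat_lit 448) (nat_lit 5) (nat_lit 461) (nat_lit 5) (nat_lit 449) (nat_lit 5) (nat_lit 433) (nat_lit 395) (nat_lit 312))) (XT.nd (nat_lit 78) (nat_lit 836) (nat_lit 0) (XT.lf (nat_lit 0) (nat_lit 4046902504) (nat_lit 988) (nat_lit 341974623) (nat_lit 76) (nat_lit 4582481617) (nat_lit 448) (nat_lit 5) (nat_lit 461) (nat_lit 5) (nat_lit 449) (nat_lit 5) (nat_lit 434) (nat_lit 395) (nat_lit 311)) (XT.lf (nat_lit 0) (nat_lit 5237571216) (nat_lit 836) (nat_lit 926636431) (nat_lit 912) (nat_lit 2888643811) (nat_lit 437) (nat_lit 5) (nat_lit 448) (nat_lit 5)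 (nat_lit 449) (nat_lit 5) (nat_lit 435) (nat_lit 395) (nat_lit 310)))))) (XT.nd (nat_lit 624) (nat_lit 3724) (nat_lit 0) (XT.nd (nat_lit 312) (nat_lit 1596) (nat_lit 0) (XT.nd (nat_lit 156) (nat_lit 1672) (nat_lit 0) (XT.nd (nat_lit 78) (nat_lit 76) (nat_lit 0) (XT.lf (nat_lit 0) (nat_lit 1775072517) (nat_lit 912) (nat_lit 6551580037) (nat_lit 988) (nat_lit 809265597) (nat_lit 425) (nat_lit 5) (nat_lit 437) (nat_lit 5) (nat_lit 438) (nat_lit 5) (nat_lit 436) (nat_lit 395) (nat_lit 309)) (XT.lf (nat_lit 0) (nat_lit 1298632338) (nat_lit 988) (nat_lit 1734883294) (nat_lit 76) (nat_lit 6186877510) (nat_lit 424) (nat_lit 5) (nat_lit 437) (nat_lit 5) (nat_lit 425) (nat_lit 5) (nat_lit 437) (nat_lit 395) (nat_lit 308))) (XT.nd (nat_lit 78) (nat_lit 836) (nat_lit 0) (XT.lf (nat_lit 0) (nat_lit 3440555697) (nat_lit 912) (nat_lit 5287589548) (nat_lit 76) (nat_lit 578251333) (nat_lit 413) (nat_lit 5) (nat_lit 425) (nat_lit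 5) (nat_lit 414) (nat_lit 5) (nat_lit 438) (nat_lit 395) (nat_lit 307)) (XT.lf (nat_lit 0) (nat_lit 474605653) (nat_lit 836) (nat_lit 5158716286) (nat_lit 912) (nat_lit 3760638056) (nat_lit 402) (nat_lit 5) (nat_lit 413) (nat_lit 5) (nat_lit 414) (nat_lit 5) (nat_lit 439) (nat_lit 395) (nat_lit 306)))) (XT.nd (nat_lit 156) (nat_lit 760) (nat_lit 0) (XT.nd (nat_lit 78) (nat_lit 836) (nat_lit 0) (XT.lf (nat_lit 0) (nat_lit 6395254936) (nat_lit 836) (nat_lit 1483627810) (nat_lit 912) (nat_lit 1604213148) (nat_lit 402) (nat_lit 5) (nat_lit 413) (nat_lit 5) (nat_lit 414) (nat_lit 5) (nat_lit 440) (nat_lit 395) (nat_lit 305)) (XT.lf (nat_lit 0) (nat_lit 594784669) (nat_lit 836) (nat_lit 6723162141) (nat_lit 76) (nat_lit 2255845348) (nat_lit 391) (nat_lit 5) (nat_lit 402) (nat_lit 5) (nat_lit 392) (nat_lit 5) (nat_lit 441) (nat_lit 395) (nat_lit 304))) (XT.nd (nat_lit 78) (nat_lit 760) (nat_lit 0) (XT.lf (nat_lit 0) (nat_lit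 2821107650) (nat_lit 836) (nat_lit 765319076) (nat_lit 76) (nat_lit 6079567031) (nat_lit 391) (nat_lit 5) (nat_lit 402) (nat_lit 5) (nat_lit 392) (nat_lit 5) (nat_lit 442) (nat_lit 395) (nat_lit 303)) (XT.lf (nat_lit 0) (nat_lit 5102987067) (nat_lit 836) (nat_lit 4407604529) (nat_lit 76) (nat_lit 249227192) (nat_lit 381) (nat_lit 5) (nat_lit 392) (nat_lit 5) (nat_lit 382) (nat_lit 5) (nat_lit 443) (nat_lit 395) (nat_lit 302))))) (XT.nd (nat_lit 312) (nat_lit 1444) (nat_lit 0) (XT.nd (nat_lit 156) (nat_lit 1520) (nat_lit 0) (XT.nd (nat_lit 78) (nat_lit 0) (nat_lit 0) (XT.lf (nat_lit 0) (nat_lit 1717484576) (nat_lit 760) (nat_lit 5728019548) (nat_lit 836) (nat_lit 2409716195) (nat_lit 371) (nat_lit 5) (nat_lit 381) (nat_lit 5) (nat_lit 382) (nat_lit 5) (nat_lit 444) (nat_lit 395) (nat_lit 301)) (XT.lf (nat_lit 0) (nat_lit 7996697837) (nat_lit 760) (nat_lit 1842988166) (nat_lit 836) (nat_lit 112747588) (nat_lit 371)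 (nat_lit 5) (nat_lit 381) (nat_lit 5) (nat_lit 382) (nat_lit 5) (nat_lit 445) (nat_lit 395) (nat_lit 300))) (XT.nd (nat_lit 78) (nat_lit 684) (nat_lit 0) (XT.lf (nat_lit 0) (nat_lit 2218836228) (nat_lit 836) (nat_lit 5700475273) (nat_lit 76) (nat_lit 2131631539) (nat_lit 360) (nat_lit 5) (nat_lit 371) (nat_lit 5) (nat_lit 361) (nat_lit 5) (nat_lit 446) (nat_lit 395) (nat_lit 299)) (XT.lf (nat_lit 0) (nat_lit 625132370) (nat_lit 684) (nat_lit 3975723931) (nat_lit 760) (nat_lit 5550445185) (nat_lit 351) (nat_lit 5) (nat_lit 360) (nat_lit 5) (nat_lit 361) (nat_lit 5) (nat_lit 447) (nat_lit 395) (nat_lit 298)))) (XT.nd (nat_lit 156) (nat_lit 760) (nat_lit 0) (XT.nd (nat_lit 78) (nat_lit 684) (nat_lit 0) (XT.lf (nat_lit 0) (nat_lit 7045429987) (nat_lit 760) (nat_lit 3127373732) (nat_lit 76) (nat_lit 80565117) (nat_lit 351) (nat_lit 5) (nat_lit 361) (nat_lit 5) (nat_lit 352) (nat_lit 5) (nat_lit 448) (nat_lit 395) (nat_lit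 297)) (XT.lf (nat_lit 0) (nat_lit 3389643123) (nat_lit 684) (nat_lit 6174160947) (nat_lit 760) (nat_lit 793175287) (nat_lit 342) (nat_lit 5) (nat_lit 351) (nat_lit 5) (nat_lit 352) (nat_lit 5) (nat_lit 449) (nat_lit 395) (nat_lit 296))) (XT.nd (nat_lit 78) (nat_lit 684) (nat_lit 0) (XT.lf (nat_lit 0) (nat_lit 1645806088) (nat_lit 760) (nat_lit 421837805) (nat_lit 76) (nat_lit 8394844887) (nat_lit 341) (nat_lit 5) (nat_lit 351) (nat_lit 5) (nat_lit 342) (nat_lit 5) (nat_lit 450) (nat_lit 395) (nat_lit 295)) (XT.lf (nat_lit 0) (nat_lit 4155091528) (nat_lit 760) (nat_lit 4279143433) (nat_lit 76) (nat_lit 2135125671) (nat_lit 332) (nat_lit 5) (nat_lit 342) (nat_lit 5) (nat_lit 333) (nat_lit 5) (nat_lit 451) (nat_lit 395) (nat_lit 294))))))) (XT.nd (nat_lit 55848) (nat_lit 0) (nat_lit 20824) (XT.nd (nat_lit 55224) (nat_lit 0) (nat_lit 28728) (XT.nd (nat_lit 312) (nat_lit 0) (nat_lit 0) (XT.nd (nat_lit 156) (nat_lit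 1292) (nat_lit 0) (XT.nd (nat_lit 78) (nat_lit 0) (nat_lit 0) (XT.lf (nat_lit 0) (nat_lit 2454701921) (nat_lit 684) (nat_lit 4269736077) (nat_lit 760) (nat_lit 3953734417) (nat_lit 323) (nat_lit 5) (nat_lit 332) (nat_lit 5) (nat_lit 333) (nat_lit 5) (nat_lit 452) (nat_lit 395) (nat_lit 293)) (XT.lf (nat_lit 0) (nat_lit 9351560609) (nat_lit 760) (nat_lit 1435333978) (nat_lit 76) (nat_lit 2138062) (nat_lit 323) (nat_lit 5) (nat_lit 333) (nat_lit 5) (nat_lit 324) (nat_lit 5) (nat_lit 453) (nat_lit 395) (nat_lit 292))) (XT.nd (nat_lit 78) (nat_lit 608) (nat_lit 0) (XT.lf (nat_lit 0) (nat_lit 1156669875) (nat_lit 684) (nat_lit 5403770371) (nat_lit 76) (nat_lit 4340675966) (nat_lit 314) (nat_lit 5) (nat_lit 323) (nat_lit 5) (nat_lit 315) (nat_lit 5) (nat_lit 454) (nat_lit 395) (nat_lit 291)) (XT.lf (nat_lit 0) (nat_lit 1556221892) (nat_lit 608) (nat_lit 2225217475) (nat_lit 684) (nat_lit 7233852195) (nat_lit 306) (nat_lit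 5) (nat_lit 314) (nat_lit 5) (nat_lit 315) (nat_lit 5) (nat_lit 455) (nat_lit 395) (nat_lit 290)))) (XT.nd (nat_lit 54756) (nat_lit 0) (nat_lit 30856) (XT.nd (nat_lit 54678) (nat_lit 0) (nat_lit 30856) (XT.lf (nat_lit 0) (nat_lit 6487857258) (nat_lit 684) (nat_lit 2444569218) (nat_lit 76) (nat_lit 2198740884) (nat_lit 306) (nat_lit 5) (nat_lit 315) (nat_lit 5) (nat_lit 307) (nat_lit 5) (nat_lit 456) (nat_lit 395) (nat_lit 289)) (XT.lf (nat_lit 0) (nat_lit 575674096) (nat_lit 0) (nat_lit 575674096) (nat_lit 988) (nat_lit 2312382888) (nat_lit 712) (nat_lit 5) (nat_lit 712) (nat_lit 3) (nat_lit 725) (nat_lit 3) (nat_lit 396) (nat_lit 396) (nat_lit 348))) (XT.nd (nat_lit 78) (nat_lit 0) (nat_lit 0) (XT.lf (nat_lit 0) (nat_lit 4240728854) (nat_lit 988) (nat_lit 2302450779) (nat_lit 1064) (nat_lit 415257040) (nat_lit 712) (nat_lit 5) (nat_lit 725) (nat_lit 3) (nat_lit 726) (nat_lit 5) (nat_lit 397) (nat_lit 396) (nat_lit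 347)) (XT.lf (nat_lit 76) (nat_lit 1222852949) (nat_lit 0) (nat_lit 4960236629) (nat_lit 1064) (nat_lit 807629745) (nat_lit 713) (nat_lit 5) (nat_lit 712) (nat_lit 5) (nat_lit 726) (nat_lit 5) (nat_lit 398) (nat_lit 396) (nat_lit 346))))) (XT.nd (nat_lit 312) (nat_lit 1064) (nat_lit 0) (XT.nd (nat_lit 156) (nat_lit 0) (nat_lit 76) (XT.nd (nat_lit 78) (nat_lit 0) (nat_lit 0) (XT.lf (nat_lit 0) (nat_lit 1091731564) (nat_lit 1064) (nat_lit 2207704861) (nat_lit 1140) (nat_lit 3724742253) (nat_lit 698) (nat_lit 5) (nat_lit 712) (nat_lit 5) (nat_lit 713) (nat_lit 5) (nat_lit 399) (nat_lit 396) (nat_lit 345)) (XT.lf (nat_lit 76) (nat_lit 1410604663) (nat_lit 0) (nat_lit 1568289301) (nat_lit 1140) (nat_lit 4080093928) (nat_lit 699) (nat_lit 5) (nat_lit 698) (nat_lit 5) (nat_lit 713) (nat_lit 5) (nat_lit 400) (nat_lit 396) (nat_lit 344))) (XT.nd (nat_lit 78) (nat_lit 0) (nat_lit 0) (XT.lf (nat_lit 0) (nat_lit 4872377884)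 (nat_lit 1064) (nat_lit 1991501677) (nat_lit 1140) (nat_lit 231242163) (nat_lit 699) (nat_lit 5) (nat_lit 713) (nat_lit 5) (nat_lit 714) (nat_lit 5) (nat_lit 401) (nat_lit 396) (nat_lit 343)) (XT.lf (nat_lit 76) (nat_lit 1724145137) (nat_lit 0) (nat_lit 5054483448) (nat_lit 1140) (nat_lit 353851706) (nat_lit 700) (nat_lit 5) (nat_lit 699) (nat_lit 5) (nat_lit 714) (nat_lit 5) (nat_lit 402) (nat_lit 396) (nat_lit 342)))) (XT.nd (nat_lit 156) (nat_lit 0) (nat_lit 76) (XT.nd (nat_lit 78) (nat_lit 0) (nat_lit 0) (XT.lf (nat_lit 0) (nat_lit 1499266901) (nat_lit 1140) (nat_lit 1666424745) (nat_lit 1216) (nat_lit 4005348618) (nat_lit 684) (nat_lit 5) (nat_lit 699) (nat_lit 5) (nat_lit 700) (nat_lit 5) (nat_lit 403) (nat_lit 396) (nat_lit 341)) (XT.lf (nat_lit 76) (nat_lit 2149665515) (nat_lit 0) (nat_lit 1203668862) (nat_lit 1216) (nat_lit 3857617791) (nat_lit 685) (nat_lit 5) (nat_lit 684) (nat_lit 5) (nat_lit 700) (nat_lit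 5) (nat_lit 404) (nat_lit 396) (nat_lit 340))) (XT.nd (nat_lit 78) (nat_lit 0) (nat_lit 0) (XT.lf (nat_lit 0) (nat_lit 5216418147) (nat_lit 1140) (nat_lit 1219369737) (nat_lit 1216) (nat_lit 816435726) (nat_lit 685) (nat_lit 5) (nat_lit 700) (nat_lit 5) (nat_lit 701) (nat_lit 5) (nat_lit 405) (nat_lit 396) (nat_lit 339)) (XT.lf (nat_lit 76) (nat_lit 2700016660) (nat_lit 0) (nat_lit 4398620889) (nat_lit 1216) (nat_lit 196045453) (nat_lit 686) (nat_lit 5) (nat_lit 685) (nat_lit 5) (nat_lit 701) (nat_lit 5) (nat_lit 406) (nat_lit 396) (nat_lit 338)))))) (XT.nd (nat_lit 624) (nat_lit 5548) (nat_lit 0) (XT.nd (nat_lit 312) (nat_lit 1216) (nat_lit 0) (XT.nd (nat_lit 156) (nat_lit 0) (nat_lit 76) (XT.nd (nat_lit 78) (nat_lit 0) (nat_lit 0) (XT.lf (nat_lit 0) (nat_lit 1623476837) (nat_lit 1216) (nat_lit 661680308) (nat_lit 1292) (nat_lit 5053316072) (nat_lit 669) (nat_lit 5) (nat_lit 685) (nat_lit 5) (nat_lit 686) (nat_lit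 5) (nat_lit 407) (nat_lit 396) (nat_lit 337)) (XT.lf (nat_lit 76) (nat_lit 3366141281) (nat_lit 0) (nat_lit 90099023) (nat_lit 1292) (nat_lit 3927283498) (nat_lit 670) (nat_lit 5) (nat_lit 669) (nat_lit 5) (nat_lit 686) (nat_lit 5) (nat_lit 408) (nat_lit 396) (nat_lit 336))) (XT.nd (nat_lit 78) (nat_lit 0) (nat_lit 0) (XT.lf (nat_lit 76) (nat_lit 12858134) (nat_lit 0) (nat_lit 5289681775) (nat_lit 1292) (nat_lit 2127397874) (nat_lit 671) (nat_lit 5) (nat_lit 670) (nat_lit 5) (nat_lit 687) (nat_lit 5) (nat_lit 409) (nat_lit 396) (nat_lit 335)) (XT.lf (nat_lit 76) (nat_lit 4150304912) (nat_lit 0) (nat_lit 3022027260) (nat_lit 1292) (nat_lit 305216537) (nat_lit 671) (nat_lit 5) (nat_lit 670) (nat_lit 5) (nat_lit 687) (nat_lit 5) (nat_lit 410) (nat_lit 396) (nat_lit 334)))) (XT.nd (nat_lit 156) (nat_lit 0) (nat_lit 76) (XT.nd (nat_lit 78) (nat_lit 0) (nat_lit 76) (XT.lf (nat_lit 76) (nat_lit 817774316) (nat_lit 0)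 (nat_lit 680123093) (nat_lit 1368) (nat_lit 6028715486) (nat_lit 654) (nat_lit 5) (nat_lit 653) (nat_lit 5) (nat_lit 671) (nat_lit 5) (nat_lit 411) (nat_lit 396) (nat_lit 333)) (XT.lf (nat_lit 0) (nat_lit 3326812314) (nat_lit 1292) (nat_lit 2526634078) (nat_lit 1368) (nat_lit 1723295113) (nat_lit 654) (nat_lit 5) (nat_lit 671) (nat_lit 5) (nat_lit 672) (nat_lit 5) (nat_lit 412) (nat_lit 396) (nat_lit 332))) (XT.nd (nat_lit 78) (nat_lit 0) (nat_lit 0) (XT.lf (nat_lit 76) (nat_lit 1729993616) (nat_lit 0) (nat_lit 3439080445) (nat_lit 1368) (nat_lit 2459263254) (nat_lit 655) (nat_lit 5) (nat_lit 654) (nat_lit 5) (nat_lit 672) (nat_lit 5) (nat_lit 413) (nat_lit 396) (nat_lit 331)) (XT.lf (nat_lit 76) (nat_lit 6078777409) (nat_lit 0) (nat_lit 947978142) (nat_lit 1368) (nat_lit 654638002) (nat_lit 655) (nat_lit 5) (nat_lit 654) (nat_lit 5) (nat_lit 672) (nat_lit 5) (nat_lit 414) (nat_lit 396) (nat_lit 330))))) (XT.nd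 (nat_lit 312) (nat_lit 3040) (nat_lit 0) (XT.nd (nat_lit 156) (nat_lit 1292) (nat_lit 0) (XT.nd (nat_lit 78) (nat_lit 0) (nat_lit 0) (XT.lf (nat_lit 0) (nat_lit 1161282797) (nat_lit 1368) (nat_lit 4965737737) (nat_lit 1444) (nat_lit 1608521189) (nat_lit 637) (nat_lit 5) (nat_lit 655) (nat_lit 5) (nat_lit 656) (nat_lit 5) (nat_lit 415) (nat_lit 396) (nat_lit 329)) (XT.lf (nat_lit 0) (nat_lit 2984625169) (nat_lit 1368) (nat_lit 577675231) (nat_lit 1444) (nat_lit 4228788540) (nat_lit 637) (nat_lit 5) (nat_lit 655) (nat_lit 5) (nat_lit 656) (nat_lit 5) (nat_lit 416) (nat_lit 396) (nat_lit 328))) (XT.nd (nat_lit 78) (nat_lit 1292) (nat_lit 0) (XT.lf (nat_lit 76) (nat_lit 3922306661) (nat_lit 0) (nat_lit 911081143) (nat_lit 1444) (nat_lit 3014580228) (nat_lit 638) (nat_lit 5) (nat_lit 637) (nat_lit 5) (nat_lit 656) (nat_lit 5) (nat_lit 417) (nat_lit 396) (nat_lit 327)) (XT.lf (nat_lit 0) (nat_lit 582299280) (nat_lit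 1368) (nat_lit 6120236405) (nat_lit 1444) (nat_lit 1203780822) (nat_lit 620) (nat_lit 5) (nat_lit 638) (nat_lit 5) (nat_lit 639) (nat_lit 5) (nat_lit 418) (nat_lit 396) (nat_lit 326)))) (XT.nd (nat_lit 156) (nat_lit 1520) (nat_lit 0) (XT.nd (nat_lit 78) (nat_lit 1444) (nat_lit 0) (XT.lf (nat_lit 0) (nat_lit 631724551) (nat_lit 1444) (nat_lit 2770228154) (nat_lit 76) (nat_lit 4563857197) (nat_lit 619) (nat_lit 5) (nat_lit 638) (nat_lit 5) (nat_lit 620) (nat_lit 5) (nat_lit 419) (nat_lit 396) (nat_lit 325)) (XT.lf (nat_lit 0) (nat_lit 1863485795) (nat_lit 1444) (nat_lit 601522952) (nat_lit 1520) (nat_lit 5561781532) (nat_lit 600) (nat_lit 5) (nat_lit 619) (nat_lit 5) (nat_lit 620) (nat_lit 5) (nat_lit 420) (nat_lit 396) (nat_lit 324))) (XT.nd (nat_lit 78) (nat_lit 1520) (nat_lit 0) (XT.lf (nat_lit 0) (nat_lit 4333937157) (nat_lit 1520) (nat_lit 1504127624) (nat_lit 76) (nat_lit 2250945912) (nat_lit 600) (nat_lit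 5) (nat_lit 620) (nat_lit 5) (nat_lit 601) (nat_lit 5) (nat_lit 421) (nat_lit 396) (nat_lit 323)) (XT.lf (nat_lit 0) (nat_lit 3259378043) (nat_lit 1520) (nat_lit 2972311067) (nat_lit 1596) (nat_lit 1920957506) (nat_lit 580) (nat_lit 5) (nat_lit 600) (nat_lit 5) (nat_lit 601) (nat_lit 5) (nat_lit 422) (nat_lit 396) (nat_lit 322))))))))
noncomputable def xc51 : XT := (XT.nd (nat_lit 2496) (nat_lit 0) (nat_lit 0) (XT.nd (nat_lit 1248) (nat_lit 7524) (nat_lit 0) (XT.nd (nat_lit 624) (nat_lit 4560) (nat_lit 0) (XT.nd (nat_lit 312) (nat_lit 4788) (nat_lit 0) (XT.nd (nat_lit 156) (nat_lit 1672) (nat_lit 0) (XT.nd (nat_lit 78) (nat_lit 1672) (nat_lit 0) (XT.lf (nat_lit 0) (nat_lit 8111105907) (nat_lit 1520) (nat_lit 33165680) (nat_lit 1596) (nat_lit 73746160) (nat_lit 580) (nat_lit 5) (nat_lit 600) (nat_lit 5) (nat_lit 601) (nat_lit 5) (nat_lit 423) (nat_lit 396) (nat_lit 321)) (XT.lf (nat_lit 0) (nat_lit 1804610433) (nat_lit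 1672) (nat_lit 3505039205) (nat_lit 76) (nat_lit 2974452678) (nat_lit 558) (nat_lit 5) (nat_lit 580) (nat_lit 5) (nat_lit 559) (nat_lit 5) (nat_lit 424) (nat_lit 396) (nat_lit 320))) (XT.nd (nat_lit 78) (nat_lit 0) (nat_lit 0) (XT.lf (nat_lit 0) (nat_lit 1402560160) (nat_lit 1672) (nat_lit 2294753288) (nat_lit 1748) (nat_lit 4654630043) (nat_lit 536) (nat_lit 5) (nat_lit 558) (nat_lit 5) (nat_lit 559) (nat_lit 5) (nat_lit 425) (nat_lit 396) (nat_lit 319)) (XT.lf (nat_lit 0) (nat_lit 5624812321) (nat_lit 1748) (nat_lit 1998385765) (nat_lit 76) (nat_lit 798004569) (nat_lit 536) (nat_lit 5) (nat_lit 559) (nat_lit 5) (nat_lit 537) (nat_lit 5) (nat_lit 426) (nat_lit 396) (nat_lit 318)))) (XT.nd (nat_lit 156) (nat_lit 2964) (nat_lit 0) (XT.nd (nat_lit 78) (nat_lit 76) (nat_lit 0) (XT.lf (nat_lit 0) (nat_lit 3048658590) (nat_lit 1748) (nat_lit 4546015332) (nat_lit 1824) (nat_lit 897096825) (nat_lit 513) (nat_lit 5) (nat_lit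 536) (nat_lit 5) (nat_lit 537) (nat_lit 5) (nat_lit 427) (nat_lit 396) (nat_lit 317)) (XT.lf (nat_lit 0) (nat_lit 1009089870) (nat_lit 1824) (nat_lit 374580382) (nat_lit 76) (nat_lit 7180293888) (nat_lit 512) (nat_lit 5) (nat_lit 536) (nat_lit 5) (nat_lit 513) (nat_lit 5) (nat_lit 428) (nat_lit 396) (nat_lit 316))) (XT.nd (nat_lit 78) (nat_lit 1140) (nat_lit 0) (XT.lf (nat_lit 0) (nat_lit 2954609929) (nat_lit 1900) (nat_lit 3824462529) (nat_lit 76) (nat_lit 1858145911) (nat_lit 488) (nat_lit 5) (nat_lit 513) (nat_lit 5) (nat_lit 489) (nat_lit 5) (nat_lit 429) (nat_lit 396) (nat_lit 315)) (XT.lf (nat_lit 0) (nat_lit 1378047244) (nat_lit 1140) (nat_lit 3551726598) (nat_lit 1216) (nat_lit 3782349172) (nat_lit 473) (nat_lit 5) (nat_lit 488) (nat_lit 5) (nat_lit 489) (nat_lit 5) (nat_lit 430) (nat_lit 396) (nat_lit 314))))) (XT.nd (nat_lit 312) (nat_lit 2660) (nat_lit 0) (XT.nd (nat_lit 156) (nat_lit 912) (nat_lit 0)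 (XT.nd (nat_lit 78) (nat_lit 988) (nat_lit 0) (XT.lf (nat_lit 0) (nat_lit 6708757216) (nat_lit 1140) (nat_lit 231847198) (nat_lit 1216) (nat_lit 1847998069) (nat_lit 473) (nat_lit 5) (nat_lit 488) (nat_lit 5) (nat_lit 489) (nat_lit 5) (nat_lit 431) (nat_lit 396) (nat_lit 313)) (XT.lf (nat_lit 0) (nat_lit 136313152) (nat_lit 988) (nat_lit 5593059550) (nat_lit 76) (nat_lit 3136964344) (nat_lit 460) (nat_lit 5) (nat_lit 473) (nat_lit 5) (nat_lit 461) (nat_lit 5) (nat_lit 432) (nat_lit 396) (nat_lit 312))) (XT.nd (nat_lit 78) (nat_lit 912) (nat_lit 0) (XT.lf (nat_lit 0) (nat_lit 2122461995) (nat_lit 988) (nat_lit 225495491) (nat_lit 76) (nat_lit 6597686586) (nat_lit 460) (nat_lit 5) (nat_lit 473) (nat_lit 5) (nat_lit 461) (nat_lit 5) (nat_lit 433) (nat_lit 396) (nat_lit 311)) (XT.lf (nat_lit 0) (nat_lit 4161921939) (nat_lit 988) (nat_lit 3742366515) (nat_lit 76) (nat_lit 1121977023) (nat_lit 448) (nat_lit 5) (nat_lit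 461) (nat_lit 5) (nat_lit 449) (nat_lit 5) (nat_lit 434) (nat_lit 396) (nat_lit 310)))) (XT.nd (nat_lit 156) (nat_lit 1824) (nat_lit 0) (XT.nd (nat_lit 78) (nat_lit 0) (nat_lit 0) (XT.lf (nat_lit 0) (nat_lit 1778060289) (nat_lit 836) (nat_lit 4464957912) (nat_lit 912) (nat_lit 2865464165) (nat_lit 437) (nat_lit 5) (nat_lit 448) (nat_lit 5) (nat_lit 449) (nat_lit 5) (nat_lit 435) (nat_lit 396) (nat_lit 309)) (XT.lf (nat_lit 0) (nat_lit 7432038289) (nat_lit 836) (nat_lit 931406919) (nat_lit 912) (nat_lit 828944209) (nat_lit 437) (nat_lit 5) (nat_lit 448) (nat_lit 5) (nat_lit 449) (nat_lit 5) (nat_lit 436) (nat_lit 396) (nat_lit 308))) (XT.nd (nat_lit 78) (nat_lit 836) (nat_lit 0) (XT.lf (nat_lit 0) (nat_lit 1248026925) (nat_lit 988) (nat_lit 5358166943) (nat_lit 76) (nat_lit 2671296794) (nat_lit 424) (nat_lit 5) (nat_lit 437) (nat_lit 5) (nat_lit 425) (nat_lit 5) (nat_lit 437) (nat_lit 396) (nat_lit 307)) (XT.lf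 (nat_lit 0) (nat_lit 337329677) (nat_lit 836) (nat_lit 3011673218) (nat_lit 912) (nat_lit 6015310151) (nat_lit 413) (nat_lit 5) (nat_lit 424) (nat_lit 5) (nat_lit 425) (nat_lit 5) (nat_lit 438) (nat_lit 396) (nat_lit 306)))))) (XT.nd (nat_lit 624) (nat_lit 3496) (nat_lit 0) (XT.nd (nat_lit 312) (nat_lit 2356) (nat_lit 0) (XT.nd (nat_lit 156) (nat_lit 836) (nat_lit 0) (XT.nd (nat_lit 78) (nat_lit 836) (nat_lit 0) (XT.lf (nat_lit 0) (nat_lit 5506085162) (nat_lit 912) (nat_lit 3265365448) (nat_lit 76) (nat_lit 681139533) (nat_lit 413) (nat_lit 5) (nat_lit 425) (nat_lit 5) (nat_lit 414) (nat_lit 5) (nat_lit 439) (nat_lit 396) (nat_lit 305)) (XT.lf (nat_lit 0) (nat_lit 2598073816) (nat_lit 836) (nat_lit 5119206907) (nat_lit 912) (nat_lit 1825132625) (nat_lit 402) (nat_lit 5) (nat_lit 413) (nat_lit 5) (nat_lit 414) (nat_lit 5) (nat_lit 440) (nat_lit 396) (nat_lit 304))) (XT.nd (nat_lit 78) (nat_lit 760) (nat_lit 0) (XT.lf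 (nat_lit 0) (nat_lit 330601414) (nat_lit 912) (nat_lit 1040594457) (nat_lit 76) (nat_lit 8262865650) (nat_lit 401) (nat_lit 5) (nat_lit 413) (nat_lit 5) (nat_lit 402) (nat_lit 5) (nat_lit 441) (nat_lit 396) (nat_lit 303)) (XT.lf (nat_lit 0) (nat_lit 2528570595) (nat_lit 836) (nat_lit 4735697733) (nat_lit 76) (nat_lit 2462561868) (nat_lit 391) (nat_lit 5) (nat_lit 402) (nat_lit 5) (nat_lit 392) (nat_lit 5) (nat_lit 442) (nat_lit 396) (nat_lit 302)))) (XT.nd (nat_lit 156) (nat_lit 1596) (nat_lit 0) (XT.nd (nat_lit 78) (nat_lit 0) (nat_lit 0) (XT.lf (nat_lit 0) (nat_lit 1316968041) (nat_lit 760) (nat_lit 3453318502) (nat_lit 836) (nat_lit 5051171954) (nat_lit 381) (nat_lit 5) (nat_lit 391) (nat_lit 5) (nat_lit 392) (nat_lit 5) (nat_lit 443) (nat_lit 396) (nat_lit 301)) (XT.lf (nat_lit 0) (nat_lit 7067062869) (nat_lit 836) (nat_lit 2393245343) (nat_lit 76) (nat_lit 457466631) (nat_lit 381) (nat_lit 5) (nat_lit 392)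 (nat_lit 5) (nat_lit 382) (nat_lit 5) (nat_lit 444) (nat_lit 396) (nat_lit 300))) (XT.nd (nat_lit 78) (nat_lit 836) (nat_lit 0) (XT.lf (nat_lit 0) (nat_lit 3840513234) (nat_lit 760) (nat_lit 5592968004) (nat_lit 836) (nat_lit 582062147) (nat_lit 371) (nat_lit 5) (nat_lit 381) (nat_lit 5) (nat_lit 382) (nat_lit 5) (nat_lit 445) (nat_lit 396) (nat_lit 299)) (XT.lf (nat_lit 0) (nat_lit 78773502) (nat_lit 760) (nat_lit 1623191022) (nat_lit 836) (nat_lit 8413223497) (nat_lit 360) (nat_lit 5) (nat_lit 370) (nat_lit 5) (nat_lit 371) (nat_lit 5) (nat_lit 446) (nat_lit 396) (nat_lit 298))))) (XT.nd (nat_lit 312) (nat_lit 2052) (nat_lit 0) (XT.nd (nat_lit 156) (nat_lit 760) (nat_lit 0) (XT.nd (nat_lit 78) (nat_lit 684) (nat_lit 0) (XT.lf (nat_lit 0) (nat_lit 4057660112) (nat_lit 836) (nat_lit 3722140432) (nat_lit 76) (nat_lit 2436272413) (nat_lit 360) (nat_lit 5) (nat_lit 371) (nat_lit 5) (nat_lit 361) (nat_lit 5) (nat_lit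 447) (nat_lit 396) (nat_lit 297)) (XT.lf (nat_lit 0) (nat_lit 2716213942) (nat_lit 684) (nat_lit 3749416920) (nat_lit 760) (nat_lit 3853241505) (nat_lit 351) (nat_lit 5) (nat_lit 360) (nat_lit 5) (nat_lit 361) (nat_lit 5) (nat_lit 448) (nat_lit 396) (nat_lit 296))) (XT.nd (nat_lit 78) (nat_lit 760) (nat_lit 0) (XT.lf (nat_lit 0) (nat_lit 8926282735) (nat_lit 760) (nat_lit 1119285445) (nat_lit 76) (nat_lit 378069150) (nat_lit 351) (nat_lit 5) (nat_lit 361) (nat_lit 5) (nat_lit 352) (nat_lit 5) (nat_lit 449) (nat_lit 396) (nat_lit 295)) (XT.lf (nat_lit 0) (nat_lit 932140304) (nat_lit 760) (nat_lit 5021418641) (nat_lit 76) (nat_lit 4576053687) (nat_lit 341) (nat_lit 5) (nat_lit 351) (nat_lit 5) (nat_lit 342) (nat_lit 5) (nat_lit 450) (nat_lit 396) (nat_lit 294)))) (XT.nd (nat_lit 156) (nat_lit 1368) (nat_lit 0) (XT.nd (nat_lit 78) (nat_lit 0) (nat_lit 0) (XT.lf (nat_lit 0) (nat_lit 1630334530) (nat_lit 684) (nat_lit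 1755608586) (nat_lit 760) (nat_lit 7251651020) (nat_lit 332) (nat_lit 5) (nat_lit 341) (nat_lit 5) (nat_lit 342) (nat_lit 5) (nat_lit 451) (nat_lit 396) (nat_lit 293)) (XT.lf (nat_lit 0) (nat_lit 5916982416) (nat_lit 760) (nat_lit 2307652702) (nat_lit 76) (nat_lit 2522536945) (nat_lit 332) (nat_lit 5) (nat_lit 342) (nat_lit 5) (nat_lit 333) (nat_lit 5) (nat_lit 452) (nat_lit 396) (nat_lit 292))) (XT.nd (nat_lit 78) (nat_lit 684) (nat_lit 0) (XT.lf (nat_lit 0) (nat_lit 4547336179) (nat_lit 684) (nat_lit 3970730222) (nat_lit 760) (nat_lit 2340486669) (nat_lit 323) (nat_lit 5) (nat_lit 332) (nat_lit 5) (nat_lit 333) (nat_lit 5) (nat_lit 453) (nat_lit 396) (nat_lit 291)) (XT.lf (nat_lit 0) (nat_lit 196622681) (nat_lit 684) (nat_lit 10396366840) (nat_lit 76) (nat_lit 379141887) (nat_lit 314) (nat_lit 5) (nat_lit 323) (nat_lit 5) (nat_lit 315) (nat_lit 5) (nat_lit 454) (nat_lit 396) (nat_lit 290))))))) (XT.nd (nat_lit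 56004) (nat_lit 0) (nat_lit 15124) (XT.nd (nat_lit 55380) (nat_lit 0) (nat_lit 25764) (XT.nd (nat_lit 55068) (nat_lit 0) (nat_lit 28044) (XT.nd (nat_lit 54912) (nat_lit 0) (nat_lit 29108) (XT.nd (nat_lit 54834) (nat_lit 0) (nat_lit 30248) (XT.lf (nat_lit 0) (nat_lit 2800695467) (nat_lit 684) (nat_lit 3470127526) (nat_lit 76) (nat_lit 4815897700) (nat_lit 314) (nat_lit 5) (nat_lit 323) (nat_lit 5) (nat_lit 315) (nat_lit 5) (nat_lit 455) (nat_lit 396) (nat_lit 289)) (XT.lf (nat_lit 0) (nat_lit 1537116479) (nat_lit 0) (nat_lit 1537116479) (nat_lit 988) (nat_lit 420775588) (nat_lit 712) (nat_lit 5) (nat_lit 712) (nat_lit 3) (nat_lit 725) (nat_lit 3) (nat_lit 397) (nat_lit 397) (nat_lit 346))) (XT.nd (nat_lit 78) (nat_lit 0) (nat_lit 76) (XT.lf (nat_lit 0) (nat_lit 1011370717) (nat_lit 1140) (nat_lit 415257040) (nat_lit 1140) (nat_lit 5596396078) (nat_lit 697) (nat_lit 3) (nat_lit 712) (nat_lit 3) (nat_lit 712) (nat_lit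 5) (nat_lit 398) (nat_lit 397) (nat_lit 345)) (XT.lf (nat_lit 0) (nat_lit 2864097126) (nat_lit 1064) (nat_lit 3892629281) (nat_lit 1140) (nat_lit 300372765) (nat_lit 698) (nat_lit 5) (nat_lit 712) (nat_lit 5) (nat_lit 713) (nat_lit 5) (nat_lit 399) (nat_lit 397) (nat_lit 344)))) (XT.nd (nat_lit 156) (nat_lit 1140) (nat_lit 0) (XT.nd (nat_lit 78) (nat_lit 0) (nat_lit 0) (XT.lf (nat_lit 0) (nat_lit 4718542091) (nat_lit 1064) (nat_lit 305539469) (nat_lit 1140) (nat_lit 2068481174) (nat_lit 698) (nat_lit 5) (nat_lit 712) (nat_lit 5) (nat_lit 713) (nat_lit 5) (nat_lit 400) (nat_lit 397) (nat_lit 343)) (XT.lf (nat_lit 76) (nat_lit 3372331513) (nat_lit 0) (nat_lit 3212984085) (nat_lit 1140) (nat_lit 543915177) (nat_lit 699) (nat_lit 5) (nat_lit 698) (nat_lit 5) (nat_lit 713) (nat_lit 5) (nat_lit 401) (nat_lit 397) (nat_lit 342))) (XT.nd (nat_lit 78) (nat_lit 0) (nat_lit 76) (XT.lf (nat_lit 0) (nat_lit 1261300228) (nat_lit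 1140) (nat_lit 72929324) (nat_lit 1216) (nat_lit 5833113725) (nat_lit 683) (nat_lit 5) (nat_lit 698) (nat_lit 5) (nat_lit 699) (nat_lit 5) (nat_lit 402) (nat_lit 397) (nat_lit 341)) (XT.lf (nat_lit 0) (nat_lit 3078188312) (nat_lit 1140) (nat_lit 3506095421) (nat_lit 1216) (nat_lit 622205363) (nat_lit 684) (nat_lit 5) (nat_lit 699) (nat_lit 5) (nat_lit 700) (nat_lit 5) (nat_lit 403) (nat_lit 397) (nat_lit 340))))) (XT.nd (nat_lit 312) (nat_lit 1140) (nat_lit 0) (XT.nd (nat_lit 156) (nat_lit 1216) (nat_lit 0) (XT.nd (nat_lit 78) (nat_lit 0) (nat_lit 0) (XT.lf (nat_lit 76) (nat_lit 272510040) (nat_lit 0) (nat_lit 4625554072) (nat_lit 1216) (nat_lit 2349020721) (nat_lit 685) (nat_lit 5) (nat_lit 684) (nat_lit 5) (nat_lit 700) (nat_lit 5) (nat_lit 404) (nat_lit 397) (nat_lit 339)) (XT.lf (nat_lit 76) (nat_lit 4148396185) (nat_lit 0) (nat_lit 2585724938) (nat_lit 1216) (nat_lit 554775687) (nat_lit 685) (nat_lit 5) (nat_lit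 684) (nat_lit 5) (nat_lit 700) (nat_lit 5) (nat_lit 405) (nat_lit 397) (nat_lit 338))) (XT.nd (nat_lit 78) (nat_lit 0) (nat_lit 76) (XT.lf (nat_lit 76) (nat_lit 745871865) (nat_lit 0) (nat_lit 474428237) (nat_lit 1292) (nat_lit 6111845868) (nat_lit 669) (nat_lit 5) (nat_lit 668) (nat_lit 5) (nat_lit 685) (nat_lit 5) (nat_lit 406) (nat_lit 397) (nat_lit 337)) (XT.lf (nat_lit 0) (nat_lit 3013189783) (nat_lit 1216) (nat_lit 2664685279) (nat_lit 1292) (nat_lit 1698516895) (nat_lit 669) (nat_lit 5) (nat_lit 685) (nat_lit 5) (nat_lit 686) (nat_lit 5) (nat_lit 407) (nat_lit 397) (nat_lit 336)))) (XT.nd (nat_lit 156) (nat_lit 1216) (nat_lit 0) (XT.nd (nat_lit 78) (nat_lit 0) (nat_lit 0) (XT.lf (nat_lit 76) (nat_lit 1323399647) (nat_lit 0) (nat_lit 3488721028) (nat_lit 1292) (nat_lit 2609998520) (nat_lit 670) (nat_lit 5) (nat_lit 669) (nat_lit 5) (nat_lit 686) (nat_lit 5) (nat_lit 408) (nat_lit 397) (nat_lit 335)) (XT.lf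 (nat_lit 76) (nat_lit 5401388432) (nat_lit 0) (nat_lit 1222618368) (nat_lit 1292) (nat_lit 845214644) (nat_lit 670) (nat_lit 5) (nat_lit 669) (nat_lit 5) (nat_lit 686) (nat_lit 5) (nat_lit 409) (nat_lit 397) (nat_lit 334))) (XT.nd (nat_lit 78) (nat_lit 0) (nat_lit 0) (XT.lf (nat_lit 0) (nat_lit 922497865) (nat_lit 1292) (nat_lit 5486778132) (nat_lit 1368) (nat_lit 1108262627) (nat_lit 653) (nat_lit 5) (nat_lit 670) (nat_lit 5) (nat_lit 671) (nat_lit 5) (nat_lit 410) (nat_lit 397) (nat_lit 333)) (XT.lf (nat_lit 0) (nat_lit 2696668501) (nat_lit 1292) (nat_lit 1367694448) (nat_lit 1368) (nat_lit 3502699034) (nat_lit 653) (nat_lit 5) (nat_lit 670) (nat_lit 5) (nat_lit 671) (nat_lit 5) (nat_lit 411) (nat_lit 397) (nat_lit 332)))))) (XT.nd (nat_lit 624) (nat_lit 8056) (nat_lit 0) (XT.nd (nat_lit 312) (nat_lit 1292) (nat_lit 0) (XT.nd (nat_lit 156) (nat_lit 1292) (nat_lit 0) (XT.nd (nat_lit 78) (nat_lit 0) (nat_lit 76)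 (XT.lf (nat_lit 76) (nat_lit 2844886458) (nat_lit 0) (nat_lit 1641030282) (nat_lit 1368) (nat_lit 3132067186) (nat_lit 654) (nat_lit 5) (nat_lit 653) (nat_lit 5) (nat_lit 671) (nat_lit 5) (nat_lit 412) (nat_lit 397) (nat_lit 331)) (XT.lf (nat_lit 0) (nat_lit 6287378807) (nat_lit 1292) (nat_lit 541805570) (nat_lit 1368) (nat_lit 841211353) (nat_lit 654) (nat_lit 5) (nat_lit 671) (nat_lit 5) (nat_lit 672) (nat_lit 5) (nat_lit 413) (nat_lit 397) (nat_lit 330))) (XT.nd (nat_lit 78) (nat_lit 0) (nat_lit 0) (XT.lf (nat_lit 0) (nat_lit 393739668) (nat_lit 1368) (nat_lit 3939922061) (nat_lit 1444) (nat_lit 3390182275) (nat_lit 636) (nat_lit 5) (nat_lit 654) (nat_lit 5) (nat_lit 655) (nat_lit 5) (nat_lit 414) (nat_lit 397) (nat_lit 329)) (XT.lf (nat_lit 76) (nat_lit 394549313) (nat_lit 0) (nat_lit 1762067866) (nat_lit 1444) (nat_lit 5622179141) (nat_lit 637) (nat_lit 5) (nat_lit 636) (nat_lit 5) (nat_lit 655) (nat_lit 5)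 (nat_lit 415) (nat_lit 397) (nat_lit 328)))) (XT.nd (nat_lit 156) (nat_lit 1368) (nat_lit 0) (XT.nd (nat_lit 78) (nat_lit 0) (nat_lit 0) (XT.lf (nat_lit 0) (nat_lit 3950443394) (nat_lit 1368) (nat_lit 2998250731) (nat_lit 1444) (nat_lit 886239734) (nat_lit 637) (nat_lit 5) (nat_lit 655) (nat_lit 5) (nat_lit 656) (nat_lit 5) (nat_lit 416) (nat_lit 397) (nat_lit 327)) (XT.lf (nat_lit 76) (nat_lit 1456145105) (nat_lit 0) (nat_lit 4309327750) (nat_lit 1444) (nat_lit 2127014761) (nat_lit 638) (nat_lit 5) (nat_lit 637) (nat_lit 5) (nat_lit 656) (nat_lit 5) (nat_lit 417) (nat_lit 397) (nat_lit 326))) (XT.nd (nat_lit 78) (nat_lit 1368) (nat_lit 0) (XT.lf (nat_lit 76) (nat_lit 6013698266) (nat_lit 0) (nat_lit 1587956988) (nat_lit 1444) (nat_lit 349840145) (nat_lit 638) (nat_lit 5) (nat_lit 637) (nat_lit 5) (nat_lit 656) (nat_lit 5) (nat_lit 418) (nat_lit 397) (nat_lit 325)) (XT.lf (nat_lit 0) (nat_lit 1434032026) (nat_lit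 1444) (nat_lit 5370333262) (nat_lit 76) (nat_lit 1207321292) (nat_lit 619) (nat_lit 5) (nat_lit 638) (nat_lit 5) (nat_lit 620) (nat_lit 5) (nat_lit 419) (nat_lit 397) (nat_lit 324))))) (XT.nd (nat_lit 312) (nat_lit 5016) (nat_lit 0) (XT.nd (nat_lit 156) (nat_lit 1596) (nat_lit 0) (XT.nd (nat_lit 78) (nat_lit 1444) (nat_lit 0) (XT.lf (nat_lit 0) (nat_lit 3238265814) (nat_lit 1444) (nat_lit 774463843) (nat_lit 76) (nat_lit 4060518308) (nat_lit 619) (nat_lit 5) (nat_lit 638) (nat_lit 5) (nat_lit 620) (nat_lit 5) (nat_lit 420) (nat_lit 397) (nat_lit 323)) (XT.lf (nat_lit 0) (nat_lit 3938429853) (nat_lit 1444) (nat_lit 1132154857) (nat_lit 1520) (nat_lit 3065615859) (nat_lit 600) (nat_lit 5) (nat_lit 619) (nat_lit 5) (nat_lit 620) (nat_lit 5) (nat_lit 421) (nat_lit 397) (nat_lit 322))) (XT.nd (nat_lit 78) (nat_lit 76) (nat_lit 0) (XT.lf (nat_lit 0) (nat_lit 523803683) (nat_lit 1520) (nat_lit 6403064748) (nat_lit 1596)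 (nat_lit 1273797425) (nat_lit 580) (nat_lit 5) (nat_lit 600) (nat_lit 5) (nat_lit 601) (nat_lit 5) (nat_lit 422) (nat_lit 397) (nat_lit 321)) (XT.lf (nat_lit 0) (nat_lit 549664610) (nat_lit 1596) (nat_lit 2907760329) (nat_lit 76) (nat_lit 4808862167) (nat_lit 579) (nat_lit 5) (nat_lit 600) (nat_lit 5) (nat_lit 580) (nat_lit 5) (nat_lit 423) (nat_lit 397) (nat_lit 320)))) (XT.nd (nat_lit 156) (nat_lit 3420) (nat_lit 0) (XT.nd (nat_lit 78) (nat_lit 0) (nat_lit 0) (XT.lf (nat_lit 0) (nat_lit 1947024911) (nat_lit 1596) (nat_lit 426032595) (nat_lit 1672) (nat_lit 5960384522) (nat_lit 558) (nat_lit 5) (nat_lit 579) (nat_lit 5) (nat_lit 580) (nat_lit 5) (nat_lit 424) (nat_lit 397) (nat_lit 319)) (XT.lf (nat_lit 0) (nat_lit 4238220085) (nat_lit 1672) (nat_lit 1507955736) (nat_lit 76) (nat_lit 2655658192) (nat_lit 558) (nat_lit 5) (nat_lit 580) (nat_lit 5) (nat_lit 559) (nat_lit 5) (nat_lit 425) (nat_lit 397) (nat_lit 318)))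 (XT.nd (nat_lit 78) (nat_lit 1748) (nat_lit 0) (XT.lf (nat_lit 0) (nat_lit 3484195721) (nat_lit 1672) (nat_lit 2650904526) (nat_lit 1748) (nat_lit 2336605304) (nat_lit 536) (nat_lit 5) (nat_lit 558) (nat_lit 5) (nat_lit 559) (nat_lit 5) (nat_lit 426) (nat_lit 397) (nat_lit 317)) (XT.lf (nat_lit 0) (nat_lit 23598723) (nat_lit 1748) (nat_lit 8029378887) (nat_lit 1824) (nat_lit 490335717) (nat_lit 513) (nat_lit 5) (nat_lit 536) (nat_lit 5) (nat_lit 537) (nat_lit 5) (nat_lit 427) (nat_lit 397) (nat_lit 316))))))))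
noncomputable def xc52 : XT := (XT.nd (nat_lit 57330) (nat_lit 0) (nat_lit 11096) (XT.nd (nat_lit 1248) (nat_lit 5852) (nat_lit 0) (XT.nd (nat_lit 624) (nat_lit 4332) (nat_lit 0) (XT.nd (nat_lit 312) (nat_lit 1900) (nat_lit 0) (XT.nd (nat_lit 156) (nat_lit 1140) (nat_lit 0) (XT.nd (nat_lit 78) (nat_lit 1824) (nat_lit 0) (XT.lf (nat_lit 0) (nat_lit 1395495105) (nat_lit 1824) (nat_lit 3467407805) (nat_lit 76) (nat_lit 3752851414) (nat_lit 512) (nat_lit 5) (nat_lit 536) (nat_lit 5) (nat_lit 513) (nat_lit 5) (nat_lit 428) (nat_lit 397) (nat_lit 315)) (XT.lf (nat_lit 0) (nat_lit 1677800863) (nat_lit 1824) (nat_lit 1615827896) (nat_lit 1900) (nat_lit 5396327522) (nat_lit 488) (nat_lit 5) (nat_lit 512) (nat_lit 5) (nat_lit 513) (nat_lit 5) (nat_lit 429) (nat_lit 397) (nat_lit 314))) (XT.nd (nat_lit 78) (nat_lit 1140) (nat_lit 0) (XT.lf (nat_lit 0) (nat_lit 5234839111) (nat_lit 1900) (nat_lit 1830756873) (nat_lit 76) (nat_lit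 1699944013) (nat_lit 488) (nat_lit 5) (nat_lit 513) (nat_lit 5) (nat_lit 489) (nat_lit 5) (nat_lit 430) (nat_lit 397) (nat_lit 313)) (XT.lf (nat_lit 0) (nat_lit 3462183392) (nat_lit 1140) (nat_lit 3757123854) (nat_lit 1216) (nat_lit 1623239469) (nat_lit 473) (nat_lit 5) (nat_lit 488) (nat_lit 5) (nat_lit 489) (nat_lit 5) (nat_lit 431) (nat_lit 397) (nat_lit 312)))) (XT.nd (nat_lit 156) (nat_lit 912) (nat_lit 0) (XT.nd (nat_lit 78) (nat_lit 912) (nat_lit 0) (XT.lf (nat_lit 0) (nat_lit 301966915) (nat_lit 1216) (nat_lit 64219032) (nat_lit 76) (nat_lit 8555189287) (nat_lit 472) (nat_lit 5) (nat_lit 488) (nat_lit 5) (nat_lit 473) (nat_lit 5) (nat_lit 432) (nat_lit 397) (nat_lit 311)) (XT.lf (nat_lit 0) (nat_lit 2271377912) (nat_lit 988) (nat_lit 3630071111) (nat_lit 76) (nat_lit 3099567993) (nat_lit 460) (nat_lit 5) (nat_lit 473) (nat_lit 5) (nat_lit 461) (nat_lit 5) (nat_lit 433) (nat_lit 397) (nat_lit 310))) (XT.nd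 (nat_lit 78) (nat_lit 0) (nat_lit 0) (XT.lf (nat_lit 0) (nat_lit 1828137250) (nat_lit 912) (nat_lit 2439171402) (nat_lit 988) (nat_lit 4815200353) (nat_lit 448) (nat_lit 5) (nat_lit 460) (nat_lit 5) (nat_lit 461) (nat_lit 5) (nat_lit 434) (nat_lit 397) (nat_lit 309)) (XT.lf (nat_lit 0) (nat_lit 6307545967) (nat_lit 988) (nat_lit 1754905192) (nat_lit 76) (nat_lit 1103091914) (nat_lit 448) (nat_lit 5) (nat_lit 461) (nat_lit 5) (nat_lit 449) (nat_lit 5) (nat_lit 435) (nat_lit 397) (nat_lit 308))))) (XT.nd (nat_lit 312) (nat_lit 1672) (nat_lit 0) (XT.nd (nat_lit 156) (nat_lit 836) (nat_lit 0) (XT.nd (nat_lit 78) (nat_lit 988) (nat_lit 0) (XT.lf (nat_lit 0) (nat_lit 3862362327) (nat_lit 836) (nat_lit 4540764679) (nat_lit 912) (nat_lit 846820039) (nat_lit 437) (nat_lit 5) (nat_lit 448) (nat_lit 5) (nat_lit 449) (nat_lit 5) (nat_lit 436) (nat_lit 397) (nat_lit 307)) (XT.lf (nat_lit 0) (nat_lit 248452131) (nat_lit 912)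 (nat_lit 927282869) (nat_lit 988) (nat_lit 8160408622) (nat_lit 424) (nat_lit 5) (nat_lit 436) (nat_lit 5) (nat_lit 437) (nat_lit 5) (nat_lit 437) (nat_lit 397) (nat_lit 306))) (XT.nd (nat_lit 78) (nat_lit 836) (nat_lit 0) (XT.lf (nat_lit 0) (nat_lit 3255544075) (nat_lit 988) (nat_lit 3404069009) (nat_lit 76) (nat_lit 2763776260) (nat_lit 424) (nat_lit 5) (nat_lit 437) (nat_lit 5) (nat_lit 425) (nat_lit 5) (nat_lit 438) (nat_lit 397) (nat_lit 305)) (XT.lf (nat_lit 0) (nat_lit 2391776615) (nat_lit 836) (nat_lit 2981184320) (nat_lit 912) (nat_lit 4139498814) (nat_lit 413) (nat_lit 5) (nat_lit 424) (nat_lit 5) (nat_lit 425) (nat_lit 5) (nat_lit 439) (nat_lit 397) (nat_lit 304)))) (XT.nd (nat_lit 156) (nat_lit 760) (nat_lit 0) (XT.nd (nat_lit 78) (nat_lit 912) (nat_lit 0) (XT.lf (nat_lit 0) (nat_lit 7535390209) (nat_lit 912) (nat_lit 1285328763) (nat_lit 76) (nat_lit 782539307) (nat_lit 413) (nat_lit 5) (nat_lit 425)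 (nat_lit 5) (nat_lit 414) (nat_lit 5) (nat_lit 440) (nat_lit 397) (nat_lit 303)) (XT.lf (nat_lit 0) (nat_lit 70073041) (nat_lit 912) (nat_lit 5013904654) (nat_lit 76) (nat_lit 4611379806) (nat_lit 401) (nat_lit 5) (nat_lit 413) (nat_lit 5) (nat_lit 402) (nat_lit 5) (nat_lit 441) (nat_lit 397) (nat_lit 302))) (XT.nd (nat_lit 78) (nat_lit 0) (nat_lit 0) (XT.lf (nat_lit 0) (nat_lit 968188380) (nat_lit 760) (nat_lit 1245205927) (nat_lit 836) (nat_lit 7575824828) (nat_lit 391) (nat_lit 5) (nat_lit 401) (nat_lit 5) (nat_lit 402) (nat_lit 5) (nat_lit 442) (nat_lit 397) (nat_lit 301)) (XT.lf (nat_lit 0) (nat_lit 4426402900) (nat_lit 836) (nat_lit 2790881073) (nat_lit 76) (nat_lit 2667137609) (nat_lit 391) (nat_lit 5) (nat_lit 402) (nat_lit 5) (nat_lit 392) (nat_lit 5) (nat_lit 443) (nat_lit 397) (nat_lit 300)))))) (XT.nd (nat_lit 624) (nat_lit 2052) (nat_lit 0) (XT.nd (nat_lit 312) (nat_lit 1444) (nat_lit 0) (XT.nd (nat_lit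 156) (nat_lit 1596) (nat_lit 0) (XT.nd (nat_lit 78) (nat_lit 0) (nat_lit 0) (XT.lf (nat_lit 0) (nat_lit 3369420051) (nat_lit 760) (nat_lit 3320467181) (nat_lit 836) (nat_lit 3291516536) (nat_lit 381) (nat_lit 5) (nat_lit 391) (nat_lit 5) (nat_lit 392) (nat_lit 5) (nat_lit 444) (nat_lit 397) (nat_lit 299)) (XT.lf (nat_lit 0) (nat_lit 8998115834) (nat_lit 836) (nat_lit 420242049) (nat_lit 76) (nat_lit 661978223) (nat_lit 381) (nat_lit 5) (nat_lit 392) (nat_lit 5) (nat_lit 382) (nat_lit 5) (nat_lit 445) (nat_lit 397) (nat_lit 298))) (XT.nd (nat_lit 78) (nat_lit 760) (nat_lit 0) (XT.lf (nat_lit 0) (nat_lit 1193443269) (nat_lit 836) (nat_lit 4263456264) (nat_lit 76) (nat_lit 4723444612) (nat_lit 370) (nat_lit 5) (nat_lit 381) (nat_lit 5) (nat_lit 371) (nat_lit 5) (nat_lit 446) (nat_lit 397) (nat_lit 297)) (XT.lf (nat_lit 0) (nat_lit 2098205459) (nat_lit 760) (nat_lit 1395370337) (nat_lit 836) (nat_lit 6788764545) (nat_lit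 360) (nat_lit 5) (nat_lit 370) (nat_lit 5) (nat_lit 371) (nat_lit 5) (nat_lit 447) (nat_lit 397) (nat_lit 296)))) (XT.nd (nat_lit 156) (nat_lit 760) (nat_lit 0) (XT.nd (nat_lit 78) (nat_lit 684) (nat_lit 0) (XT.lf (nat_lit 0) (nat_lit 5863579904) (nat_lit 836) (nat_lit 1785487174) (nat_lit 76) (nat_lit 2736832006) (nat_lit 360) (nat_lit 5) (nat_lit 371) (nat_lit 5) (nat_lit 361) (nat_lit 5) (nat_lit 448) (nat_lit 397) (nat_lit 295)) (XT.lf (nat_lit 0) (nat_lit 4768403391) (nat_lit 684) (nat_lit 3530459191) (nat_lit 760) (nat_lit 2192308850) (nat_lit 351) (nat_lit 5) (nat_lit 360) (nat_lit 5) (nat_lit 361) (nat_lit 5) (nat_lit 449) (nat_lit 397) (nat_lit 294))) (XT.nd (nat_lit 78) (nat_lit 0) (nat_lit 0) (XT.lf (nat_lit 0) (nat_lit 181804105) (nat_lit 760) (nat_lit 9739910703) (nat_lit 76) (nat_lit 676812095) (nat_lit 341) (nat_lit 5) (nat_lit 351) (nat_lit 5) (nat_lit 342) (nat_lit 5) (nat_lit 450) (nat_lit 397)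 (nat_lit 293)) (XT.lf (nat_lit 0) (nat_lit 2614151438) (nat_lit 760) (nat_lit 3122604895) (nat_lit 76) (nat_lit 4970181186) (nat_lit 341) (nat_lit 5) (nat_lit 351) (nat_lit 5) (nat_lit 342) (nat_lit 5) (nat_lit 451) (nat_lit 397) (nat_lit 292))))) (XT.nd (nat_lit 55146) (nat_lit 0) (nat_lit 28044) (XT.nd (nat_lit 156) (nat_lit 1368) (nat_lit 0) (XT.nd (nat_lit 78) (nat_lit 0) (nat_lit 0) (XT.lf (nat_lit 0) (nat_lit 3649030432) (nat_lit 684) (nat_lit 1448279818) (nat_lit 760) (nat_lit 5720162804) (nat_lit 332) (nat_lit 5) (nat_lit 341) (nat_lit 5) (nat_lit 342) (nat_lit 5) (nat_lit 452) (nat_lit 397) (nat_lit 291)) (XT.lf (nat_lit 0) (nat_lit 7648921696) (nat_lit 760) (nat_lit 376610832) (nat_lit 76) (nat_lit 2904310983) (nat_lit 332) (nat_lit 5) (nat_lit 342) (nat_lit 5) (nat_lit 333) (nat_lit 5) (nat_lit 453) (nat_lit 397) (nat_lit 290))) (XT.nd (nat_lit 78) (nat_lit 684) (nat_lit 0) (XT.lf (nat_lit 0) (nat_lit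 6602469965) (nat_lit 684) (nat_lit 3680670993) (nat_lit 760) (nat_lit 760688909) (nat_lit 323) (nat_lit 5) (nat_lit 332) (nat_lit 5) (nat_lit 333) (nat_lit 5) (nat_lit 454) (nat_lit 397) (nat_lit 289)) (XT.lf (nat_lit 0) (nat_lit 1789665129) (nat_lit 684) (nat_lit 8602609616) (nat_lit 76) (nat_lit 767517091) (nat_lit 314) (nat_lit 5) (nat_lit 323) (nat_lit 5) (nat_lit 315) (nat_lit 5) (nat_lit 455) (nat_lit 397) (nat_lit 288)))) (XT.nd (nat_lit 156) (nat_lit 1064) (nat_lit 0) (XT.nd (nat_lit 78) (nat_lit 0) (nat_lit 0) (XT.lf (nat_lit 0) (nat_lit 1414615098) (nat_lit 1140) (nat_lit 1056792903) (nat_lit 1140) (nat_lit 1056792903) (nat_lit 697) (nat_lit 3) (nat_lit 712) (nat_lit 3) (nat_lit 712) (nat_lit 5) (nat_lit 398) (nat_lit 398) (nat_lit 344)) (XT.lf (nat_lit 76) (nat_lit 1433414588) (nat_lit 0) (nat_lit 3211759398) (nat_lit 1140) (nat_lit 2446038810) (nat_lit 698) (nat_lit 5) (nat_lit 697) (nat_lit 3) (nat_lit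 712) (nat_lit 5) (nat_lit 399) (nat_lit 398) (nat_lit 343))) (XT.nd (nat_lit 78) (nat_lit 1064) (nat_lit 0) (XT.lf (nat_lit 76) (nat_lit 5055899270) (nat_lit 0) (nat_lit 1408917519) (nat_lit 1140) (nat_lit 662555612) (nat_lit 698) (nat_lit 5) (nat_lit 697) (nat_lit 3) (nat_lit 712) (nat_lit 5) (nat_lit 400) (nat_lit 398) (nat_lit 342)) (XT.lf (nat_lit 0) (nat_lit 1108519716) (nat_lit 1140) (nat_lit 5592391158) (nat_lit 1216) (nat_lit 463852308) (nat_lit 683) (nat_lit 5) (nat_lit 698) (nat_lit 5) (nat_lit 699) (nat_lit 5) (nat_lit 401) (nat_lit 398) (nat_lit 341))))))) (XT.nd (nat_lit 1248) (nat_lit 13300) (nat_lit 0) (XT.nd (nat_lit 624) (nat_lit 1292) (nat_lit 0) (XT.nd (nat_lit 312) (nat_lit 1216) (nat_lit 0) (XT.nd (nat_lit 156) (nat_lit 1140) (nat_lit 0) (XT.nd (nat_lit 78) (nat_lit 0) (nat_lit 0) (XT.lf (nat_lit 0) (nat_lit 2884175147) (nat_lit 1140) (nat_lit 1924395753) (nat_lit 1216) (nat_lit 2394682684)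 (nat_lit 683) (nat_lit 5) (nat_lit 698) (nat_lit 5) (nat_lit 699) (nat_lit 5) (nat_lit 402) (nat_lit 398) (nat_lit 340)) (XT.lf (nat_lit 76) (nat_lit 1816136345) (nat_lit 0) (nat_lit 2846585775) (nat_lit 1216) (nat_lit 2580444105) (nat_lit 684) (nat_lit 5) (nat_lit 683) (nat_lit 5) (nat_lit 699) (nat_lit 5) (nat_lit 403) (nat_lit 398) (nat_lit 339))) (XT.nd (nat_lit 78) (nat_lit 1140) (nat_lit 0) (XT.lf (nat_lit 76) (nat_lit 5633084727) (nat_lit 0) (nat_lit 812967792) (nat_lit 1216) (nat_lit 838440350) (nat_lit 684) (nat_lit 5) (nat_lit 683) (nat_lit 5) (nat_lit 699) (nat_lit 5) (nat_lit 404) (nat_lit 398) (nat_lit 338)) (XT.lf (nat_lit 0) (nat_lit 905682874) (nat_lit 1216) (nat_lit 5137660258) (nat_lit 1292) (nat_lit 1283589326) (nat_lit 668) (nat_lit 5) (nat_lit 684) (nat_lit 5) (nat_lit 685) (nat_lit 5) (nat_lit 405) (nat_lit 398) (nat_lit 337)))) (XT.nd (nat_lit 156) (nat_lit 1216) (nat_lit 0) (XT.nd (nat_lit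 78) (nat_lit 0) (nat_lit 0) (XT.lf (nat_lit 0) (nat_lit 2647687580) (nat_lit 1216) (nat_lit 1277235055) (nat_lit 1292) (nat_lit 3445702846) (nat_lit 668) (nat_lit 5) (nat_lit 684) (nat_lit 5) (nat_lit 685) (nat_lit 5) (nat_lit 406) (nat_lit 398) (nat_lit 336)) (XT.lf (nat_lit 76) (nat_lit 2670543496) (nat_lit 0) (nat_lit 1729833842) (nat_lit 1292) (nat_lit 3015298128) (nat_lit 669) (nat_lit 5) (nat_lit 668) (nat_lit 5) (nat_lit 685) (nat_lit 5) (nat_lit 407) (nat_lit 398) (nat_lit 335))) (XT.nd (nat_lit 78) (nat_lit 1292) (nat_lit 0) (XT.lf (nat_lit 0) (nat_lit 6159318199) (nat_lit 1216) (nat_lit 775864340) (nat_lit 1292) (nat_lit 527019964) (nat_lit 669) (nat_lit 5) (nat_lit 685) (nat_lit 5) (nat_lit 686) (nat_lit 5) (nat_lit 408) (nat_lit 398) (nat_lit 334)) (XT.lf (nat_lit 0) (nat_lit 430719168) (nat_lit 1292) (nat_lit 4233432363) (nat_lit 1368) (nat_lit 2845595693) (nat_lit 652) (nat_lit 5) (nat_lit 669) (nat_lit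 5) (nat_lit 670) (nat_lit 5) (nat_lit 409) (nat_lit 398) (nat_lit 333))))) (XT.nd (nat_lit 312) (nat_lit 1292) (nat_lit 0) (XT.nd (nat_lit 156) (nat_lit 0) (nat_lit 76) (XT.nd (nat_lit 78) (nat_lit 0) (nat_lit 76) (XT.lf (nat_lit 0) (nat_lit 2147229522) (nat_lit 1292) (nat_lit 172242404) (nat_lit 1368) (nat_lit 5239285064) (nat_lit 652) (nat_lit 5) (nat_lit 669) (nat_lit 5) (nat_lit 670) (nat_lit 5) (nat_lit 410) (nat_lit 398) (nat_lit 332)) (XT.lf (nat_lit 0) (nat_lit 3885954039) (nat_lit 1292) (nat_lit 3612128475) (nat_lit 1368) (nat_lit 110906758) (nat_lit 653) (nat_lit 5) (nat_lit 670) (nat_lit 5) (nat_lit 671) (nat_lit 5) (nat_lit 411) (nat_lit 398) (nat_lit 331))) (XT.nd (nat_lit 78) (nat_lit 0) (nat_lit 0) (XT.lf (nat_lit 76) (nat_lit 557742258) (nat_lit 0) (nat_lit 5083741842) (nat_lit 1368) (nat_lit 2019101478) (nat_lit 654) (nat_lit 5) (nat_lit 653) (nat_lit 5) (nat_lit 671) (nat_lit 5) (nat_lit 412)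 (nat_lit 398) (nat_lit 330)) (XT.lf (nat_lit 76) (nat_lit 4834460710) (nat_lit 0) (nat_lit 2584370618) (nat_lit 1368) (nat_lit 294648351) (nat_lit 654) (nat_lit 5) (nat_lit 653) (nat_lit 5) (nat_lit 671) (nat_lit 5) (nat_lit 413) (nat_lit 398) (nat_lit 329)))) (XT.nd (nat_lit 156) (nat_lit 0) (nat_lit 76) (XT.nd (nat_lit 78) (nat_lit 0) (nat_lit 76) (XT.lf (nat_lit 76) (nat_lit 1412798770) (nat_lit 0) (nat_lit 4422947) (nat_lit 1444) (nat_lit 6350577154) (nat_lit 636) (nat_lit 5) (nat_lit 635) (nat_lit 5) (nat_lit 654) (nat_lit 5) (nat_lit 414) (nat_lit 398) (nat_lit 328)) (XT.lf (nat_lit 0) (nat_lit 3159485890) (nat_lit 1368) (nat_lit 2038614772) (nat_lit 1444) (nat_lit 2625062793) (nat_lit 636) (nat_lit 5) (nat_lit 654) (nat_lit 5) (nat_lit 655) (nat_lit 5) (nat_lit 415) (nat_lit 398) (nat_lit 327))) (XT.nd (nat_lit 78) (nat_lit 0) (nat_lit 76) (XT.lf (nat_lit 76) (nat_lit 2369519018) (nat_lit 0) (nat_lit 2546797603)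 (nat_lit 1444) (nat_lit 2963724284) (nat_lit 637) (nat_lit 5) (nat_lit 636) (nat_lit 5) (nat_lit 655) (nat_lit 5) (nat_lit 416) (nat_lit 398) (nat_lit 326)) (XT.lf (nat_lit 0) (nat_lit 6687982578) (nat_lit 1368) (nat_lit 1071670415) (nat_lit 1444) (nat_lit 178808937) (nat_lit 637) (nat_lit 5) (nat_lit 655) (nat_lit 5) (nat_lit 656) (nat_lit 5) (nat_lit 417) (nat_lit 398) (nat_lit 325)))))) (XT.nd (nat_lit 624) (nat_lit 7448) (nat_lit 0) (XT.nd (nat_lit 312) (nat_lit 3192) (nat_lit 0) (XT.nd (nat_lit 156) (nat_lit 1368) (nat_lit 0) (XT.nd (nat_lit 78) (nat_lit 0) (nat_lit 0) (XT.lf (nat_lit 0) (nat_lit 495460230) (nat_lit 1444) (nat_lit 4542468708) (nat_lit 1520) (nat_lit 2959958930) (nat_lit 618) (nat_lit 5) (nat_lit 637) (nat_lit 5) (nat_lit 638) (nat_lit 5) (nat_lit 418) (nat_lit 398) (nat_lit 324)) (XT.lf (nat_lit 0) (nat_lit 2232706936) (nat_lit 1444) (nat_lit 5104427) (nat_lit 1520) (nat_lit 5821063002) (nat_lit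 618) (nat_lit 5) (nat_lit 637) (nat_lit 5) (nat_lit 638) (nat_lit 5) (nat_lit 419) (nat_lit 398) (nat_lit 323))) (XT.nd (nat_lit 78) (nat_lit 1444) (nat_lit 0) (XT.lf (nat_lit 0) (nat_lit 4005758522) (nat_lit 1444) (nat_lit 3466790050) (nat_lit 76) (nat_lit 648510823) (nat_lit 619) (nat_lit 5) (nat_lit 638) (nat_lit 5) (nat_lit 620) (nat_lit 5) (nat_lit 420) (nat_lit 398) (nat_lit 322)) (XT.lf (nat_lit 0) (nat_lit 1197268761) (nat_lit 1444) (nat_lit 4606718042) (nat_lit 1520) (nat_lit 2380707008) (nat_lit 600) (nat_lit 5) (nat_lit 619) (nat_lit 5) (nat_lit 620) (nat_lit 5) (nat_lit 421) (nat_lit 398) (nat_lit 321)))) (XT.nd (nat_lit 156) (nat_lit 1596) (nat_lit 0) (XT.nd (nat_lit 78) (nat_lit 1596) (nat_lit 0) (XT.lf (nat_lit 0) (nat_lit 5975747414) (nat_lit 1444) (nat_lit 1653261474) (nat_lit 1520) (nat_lit 620775443) (nat_lit 600) (nat_lit 5) (nat_lit 619) (nat_lit 5) (nat_lit 620) (nat_lit 5) (nat_lit 422) (nat_lit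 398) (nat_lit 320)) (XT.lf (nat_lit 0) (nat_lit 1152417504) (nat_lit 1596) (nat_lit 5791912651) (nat_lit 76) (nat_lit 1371824719) (nat_lit 579) (nat_lit 5) (nat_lit 600) (nat_lit 5) (nat_lit 580) (nat_lit 5) (nat_lit 423) (nat_lit 398) (nat_lit 319))) (XT.nd (nat_lit 78) (nat_lit 1596) (nat_lit 0) (XT.lf (nat_lit 0) (nat_lit 2947570329) (nat_lit 1596) (nat_lit 975669435) (nat_lit 76) (nat_lit 4460634835) (nat_lit 579) (nat_lit 5) (nat_lit 600) (nat_lit 5) (nat_lit 580) (nat_lit 5) (nat_lit 424) (nat_lit 398) (nat_lit 318)) (XT.lf (nat_lit 0) (nat_lit 3963117785) (nat_lit 1596) (nat_lit 810348078) (nat_lit 1672) (nat_lit 3679586061) (nat_lit 558) (nat_lit 5) (nat_lit 579) (nat_lit 5) (nat_lit 580) (nat_lit 5) (nat_lit 425) (nat_lit 398) (nat_lit 317))))) (XT.nd (nat_lit 312) (nat_lit 3952) (nat_lit 0) (XT.nd (nat_lit 156) (nat_lit 1824) (nat_lit 0) (XT.nd (nat_lit 78) (nat_lit 0) (nat_lit 0) (XT.lf (nat_lit 0) (nat_lit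 454762409) (nat_lit 1672) (nat_lit 6175593616) (nat_lit 1748) (nat_lit 1893367237) (nat_lit 536) (nat_lit 5) (nat_lit 558) (nat_lit 5) (nat_lit 559) (nat_lit 5) (nat_lit 426) (nat_lit 398) (nat_lit 316)) (XT.lf (nat_lit 0) (nat_lit 5527720809) (nat_lit 1672) (nat_lit 3002131163) (nat_lit 1748) (nat_lit 65846695) (nat_lit 536) (nat_lit 5) (nat_lit 558) (nat_lit 5) (nat_lit 559) (nat_lit 5) (nat_lit 427) (nat_lit 398) (nat_lit 315))) (XT.nd (nat_lit 78) (nat_lit 0) (nat_lit 0) (XT.lf (nat_lit 0) (nat_lit 1759880721) (nat_lit 1824) (nat_lit 6648993447) (nat_lit 76) (nat_lit 260301097) (nat_lit 512) (nat_lit 5) (nat_lit 536) (nat_lit 5) (nat_lit 513) (nat_lit 5) (nat_lit 428) (nat_lit 398) (nat_lit 314)) (XT.lf (nat_lit 0) (nat_lit 3632683140) (nat_lit 1824) (nat_lit 1538845967) (nat_lit 76) (nat_lit 3572354740) (nat_lit 512) (nat_lit 5) (nat_lit 536) (nat_lit 5) (nat_lit 513) (nat_lit 5) (nat_lit 429) (nat_lit 398)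 (nat_lit 313)))) (XT.nd (nat_lit 156) (nat_lit 988) (nat_lit 0) (XT.nd (nat_lit 78) (nat_lit 1140) (nat_lit 0) (XT.lf (nat_lit 0) (nat_lit 3696122729) (nat_lit 1824) (nat_lit 1842223975) (nat_lit 1900) (nat_lit 3281831795) (nat_lit 488) (nat_lit 5) (nat_lit 512) (nat_lit 5) (nat_lit 513) (nat_lit 5) (nat_lit 430) (nat_lit 398) (nat_lit 312)) (XT.lf (nat_lit 0) (nat_lit 124061796) (nat_lit 1140) (nat_lit 7351167115) (nat_lit 1216) (nat_lit 1422908025) (nat_lit 473) (nat_lit 5) (nat_lit 488) (nat_lit 5) (nat_lit 489) (nat_lit 5) (nat_lit 431) (nat_lit 398) (nat_lit 311))) (XT.nd (nat_lit 78) (nat_lit 912) (nat_lit 0) (XT.lf (nat_lit 0) (nat_lit 485817837) (nat_lit 1216) (nat_lit 3472333657) (nat_lit 76) (nat_lit 5019065010) (nat_lit 472) (nat_lit 5) (nat_lit 488) (nat_lit 5) (nat_lit 473) (nat_lit 5) (nat_lit 432) (nat_lit 398) (nat_lit 310)) (XT.lf (nat_lit 0) (nat_lit 1925323038) (nat_lit 912) (nat_lit 473426078)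 (nat_lit 988) (nat_lit 6659238764) (nat_lit 460) (nat_lit 5) (nat_lit 472) (nat_lit 5) (nat_lit 473) (nat_lit 5) (nat_lit 433) (nat_lit 398) (nat_lit 309))))))))
noncomputable def xc53 : XT := (XT.nd (nat_lit 1248) (nat_lit 2128) (nat_lit 0) (XT.nd (nat_lit 624) (nat_lit 3876) (nat_lit 0) (XT.nd (nat_lit 312) (nat_lit 2584) (nat_lit 0) (XT.nd (nat_lit 156) (nat_lit 912) (nat_lit 0) (XT.nd (nat_lit 78) (nat_lit 912) (nat_lit 0) (XT.lf (nat_lit 0) (nat_lit 4366342665) (nat_lit 988) (nat_lit 1708391844) (nat_lit 76) (nat_lit 3065312105) (nat_lit 460) (nat_lit 5) (nat_lit 473) (nat_lit 5) (nat_lit 461) (nat_lit 5) (nat_lit 434) (nat_lit 398) (nat_lit 308)) (XT.lf (nat_lit 0) (nat_lit 3845860418) (nat_lit 912) (nat_lit 2529007606) (nat_lit 988) (nat_lit 2848846898) (nat_lit 448) (nat_lit 5) (nat_lit 460) (nat_lit 5) (nat_lit 461) (nat_lit 5) (nat_lit 435) (nat_lit 398) (nat_lit 307))) (XT.nd (nat_lit 78) (nat_lit 76)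 (nat_lit 0) (XT.lf (nat_lit 0) (nat_lit 194777945) (nat_lit 836) (nat_lit 8222484213) (nat_lit 912) (nat_lit 891920473) (nat_lit 437) (nat_lit 5) (nat_lit 448) (nat_lit 5) (nat_lit 449) (nat_lit 5) (nat_lit 436) (nat_lit 398) (nat_lit 306)) (XT.lf (nat_lit 0) (nat_lit 1116744225) (nat_lit 912) (nat_lit 3494373340) (nat_lit 76) (nat_lit 4784557136) (nat_lit 436) (nat_lit 5) (nat_lit 448) (nat_lit 5) (nat_lit 437) (nat_lit 5) (nat_lit 437) (nat_lit 398) (nat_lit 305)))) (XT.nd (nat_lit 156) (nat_lit 1672) (nat_lit 0) (XT.nd (nat_lit 78) (nat_lit 0) (nat_lit 0) (XT.lf (nat_lit 0) (nat_lit 2235648831) (nat_lit 912) (nat_lit 907031927) (nat_lit 988) (nat_lit 6341317115) (nat_lit 424) (nat_lit 5) (nat_lit 436) (nat_lit 5) (nat_lit 437) (nat_lit 5) (nat_lit 438) (nat_lit 398) (nat_lit 304)) (XT.lf (nat_lit 0) (nat_lit 5226226478) (nat_lit 988) (nat_lit 1490930403) (nat_lit 76) (nat_lit 2856588819) (nat_lit 424) (nat_lit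 5) (nat_lit 437) (nat_lit 5) (nat_lit 425) (nat_lit 5) (nat_lit 439) (nat_lit 398) (nat_lit 303))) (XT.nd (nat_lit 78) (nat_lit 836) (nat_lit 0) (XT.lf (nat_lit 0) (nat_lit 4407797791) (nat_lit 836) (nat_lit 2953608503) (nat_lit 912) (nat_lit 2303682927) (nat_lit 413) (nat_lit 5) (nat_lit 424) (nat_lit 5) (nat_lit 425) (nat_lit 5) (nat_lit 440) (nat_lit 398) (nat_lit 302)) (XT.lf (nat_lit 0) (nat_lit 663588537) (nat_lit 836) (nat_lit 8871477048) (nat_lit 912) (nat_lit 223278508) (nat_lit 402) (nat_lit 5) (nat_lit 413) (nat_lit 5) (nat_lit 414) (nat_lit 5) (nat_lit 441) (nat_lit 398) (nat_lit 301))))) (XT.nd (nat_lit 312) (nat_lit 2280) (nat_lit 0) (XT.nd (nat_lit 156) (nat_lit 760) (nat_lit 0) (XT.nd (nat_lit 78) (nat_lit 760) (nat_lit 0) (XT.lf (nat_lit 0) (nat_lit 1904704643) (nat_lit 912) (nat_lit 3136832979) (nat_lit 76) (nat_lit 4811062426) (nat_lit 401) (nat_lit 5) (nat_lit 413) (nat_lit 5) (nat_lit 402)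 (nat_lit 5) (nat_lit 442) (nat_lit 398) (nat_lit 300)) (XT.lf (nat_lit 0) (nat_lit 2951893036) (nat_lit 760) (nat_lit 1115807413) (nat_lit 836) (nat_lit 5881102303) (nat_lit 391) (nat_lit 5) (nat_lit 401) (nat_lit 5) (nat_lit 402) (nat_lit 5) (nat_lit 443) (nat_lit 398) (nat_lit 299))) (XT.nd (nat_lit 78) (nat_lit 760) (nat_lit 0) (XT.lf (nat_lit 0) (nat_lit 6290460459) (nat_lit 836) (nat_lit 886365540) (nat_lit 76) (nat_lit 2869773425) (nat_lit 391) (nat_lit 5) (nat_lit 402) (nat_lit 5) (nat_lit 392) (nat_lit 5) (nat_lit 444) (nat_lit 398) (nat_lit 298)) (XT.lf (nat_lit 0) (nat_lit 5384244679) (nat_lit 760) (nat_lit 3192799543) (nat_lit 836) (nat_lit 1568920437) (nat_lit 381) (nat_lit 5) (nat_lit 391) (nat_lit 5) (nat_lit 392) (nat_lit 5) (nat_lit 445) (nat_lit 398) (nat_lit 297)))) (XT.nd (nat_lit 156) (nat_lit 1444) (nat_lit 0) (XT.nd (nat_lit 78) (nat_lit 0) (nat_lit 0) (XT.lf (nat_lit 0) (nat_lit 652244703)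 (nat_lit 836) (nat_lit 8717764977) (nat_lit 76) (nat_lit 877243848) (nat_lit 370) (nat_lit 5) (nat_lit 381) (nat_lit 5) (nat_lit 371) (nat_lit 5) (nat_lit 446) (nat_lit 398) (nat_lit 296)) (XT.lf (nat_lit 0) (nat_lit 2927577545) (nat_lit 836) (nat_lit 2396380353) (nat_lit 76) (nat_lit 5025787821) (nat_lit 370) (nat_lit 5) (nat_lit 381) (nat_lit 5) (nat_lit 371) (nat_lit 5) (nat_lit 447) (nat_lit 398) (nat_lit 295))) (XT.nd (nat_lit 78) (nat_lit 684) (nat_lit 0) (XT.lf (nat_lit 0) (nat_lit 4079670229) (nat_lit 760) (nat_lit 1173100403) (nat_lit 836) (nat_lit 5201430050) (nat_lit 360) (nat_lit 5) (nat_lit 370) (nat_lit 5) (nat_lit 371) (nat_lit 5) (nat_lit 448) (nat_lit 398) (nat_lit 294)) (XT.lf (nat_lit 0) (nat_lit 113291677) (nat_lit 684) (nat_lit 7526087191) (nat_lit 760) (nat_lit 2921067651) (nat_lit 351) (nat_lit 5) (nat_lit 360) (nat_lit 5) (nat_lit 361) (nat_lit 5) (nat_lit 449) (nat_lit 398) (nat_lit 293))))))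 (XT.nd (nat_lit 55614) (nat_lit 0) (nat_lit 24928) (XT.nd (nat_lit 312) (nat_lit 684) (nat_lit 0) (XT.nd (nat_lit 156) (nat_lit 684) (nat_lit 0) (XT.nd (nat_lit 78) (nat_lit 760) (nat_lit 0) (XT.lf (nat_lit 0) (nat_lit 6784057091) (nat_lit 684) (nat_lit 3318536591) (nat_lit 760) (nat_lit 565646103) (nat_lit 351) (nat_lit 5) (nat_lit 360) (nat_lit 5) (nat_lit 361) (nat_lit 5) (nat_lit 450) (nat_lit 398) (nat_lit 292)) (XT.lf (nat_lit 0) (nat_lit 1816193449) (nat_lit 760) (nat_lit 7974667623) (nat_lit 76) (nat_lit 987021303) (nat_lit 341) (nat_lit 5) (nat_lit 351) (nat_lit 5) (nat_lit 342) (nat_lit 5) (nat_lit 451) (nat_lit 398) (nat_lit 291))) (XT.nd (nat_lit 78) (nat_lit 684) (nat_lit 0) (XT.lf (nat_lit 0) (nat_lit 4265212175) (nat_lit 760) (nat_lit 1263447881) (nat_lit 76) (nat_lit 5360440658) (nat_lit 341) (nat_lit 5) (nat_lit 351) (nat_lit 5) (nat_lit 342) (nat_lit 5) (nat_lit 452) (nat_lit 398) (nat_lit 290))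 (XT.lf (nat_lit 0) (nat_lit 5630977986) (nat_lit 684) (nat_lit 1148101874) (nat_lit 760) (nat_lit 4223146187) (nat_lit 332) (nat_lit 5) (nat_lit 341) (nat_lit 5) (nat_lit 342) (nat_lit 5) (nat_lit 453) (nat_lit 398) (nat_lit 289)))) (XT.nd (nat_lit 55146) (nat_lit 0) (nat_lit 27284) (XT.nd (nat_lit 55068) (nat_lit 0) (nat_lit 28424) (XT.lf (nat_lit 0) (nat_lit 1536425482) (nat_lit 684) (nat_lit 7826391733) (nat_lit 760) (nat_lit 1754404826) (nat_lit 323) (nat_lit 5) (nat_lit 332) (nat_lit 5) (nat_lit 333) (nat_lit 5) (nat_lit 454) (nat_lit 398) (nat_lit 288)) (XT.lf (nat_lit 0) (nat_lit 3209706016) (nat_lit 1140) (nat_lit 176861467) (nat_lit 1140) (nat_lit 176861467) (nat_lit 697) (nat_lit 3) (nat_lit 712) (nat_lit 3) (nat_lit 712) (nat_lit 5) (nat_lit 399) (nat_lit 399) (nat_lit 342))) (XT.nd (nat_lit 78) (nat_lit 0) (nat_lit 0) (XT.lf (nat_lit 0) (nat_lit 1036716378) (nat_lit 1140) (nat_lit 3917977542) (nat_lit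 1216) (nat_lit 2208688028) (nat_lit 682) (nat_lit 5) (nat_lit 697) (nat_lit 3) (nat_lit 698) (nat_lit 5) (nat_lit 400) (nat_lit 399) (nat_lit 341)) (XT.lf (nat_lit 0) (nat_lit 2763403780) (nat_lit 1140) (nat_lit 307752359) (nat_lit 1216) (nat_lit 4130244522) (nat_lit 682) (nat_lit 5) (nat_lit 697) (nat_lit 3) (nat_lit 698) (nat_lit 5) (nat_lit 401) (nat_lit 399) (nat_lit 340))))) (XT.nd (nat_lit 312) (nat_lit 1216) (nat_lit 0) (XT.nd (nat_lit 156) (nat_lit 1140) (nat_lit 0) (XT.nd (nat_lit 78) (nat_lit 0) (nat_lit 76) (XT.lf (nat_lit 76) (nat_lit 3395909739) (nat_lit 0) (nat_lit 1106367971) (nat_lit 1216) (nat_lit 2738348983) (nat_lit 683) (nat_lit 5) (nat_lit 682) (nat_lit 5) (nat_lit 698) (nat_lit 5) (nat_lit 402) (nat_lit 399) (nat_lit 339)) (XT.lf (nat_lit 0) (nat_lit 6240294263) (nat_lit 1140) (nat_lit 132780431) (nat_lit 1216) (nat_lit 908275249) (nat_lit 683) (nat_lit 5) (nat_lit 698) (nat_lit 5) (nat_lit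 699) (nat_lit 5) (nat_lit 403) (nat_lit 399) (nat_lit 338))) (XT.nd (nat_lit 78) (nat_lit 0) (nat_lit 0) (XT.lf (nat_lit 0) (nat_lit 669525141) (nat_lit 1216) (nat_lit 3657000875) (nat_lit 1292) (nat_lit 2996504148) (nat_lit 667) (nat_lit 5) (nat_lit 683) (nat_lit 5) (nat_lit 684) (nat_lit 5) (nat_lit 404) (nat_lit 399) (nat_lit 337)) (XT.lf (nat_lit 76) (nat_lit 148038784) (nat_lit 0) (nat_lit 2211927760) (nat_lit 1292) (nat_lit 5006248045) (nat_lit 668) (nat_lit 5) (nat_lit 667) (nat_lit 5) (nat_lit 684) (nat_lit 5) (nat_lit 405) (nat_lit 399) (nat_lit 336)))) (XT.nd (nat_lit 156) (nat_lit 1216) (nat_lit 0) (XT.nd (nat_lit 78) (nat_lit 0) (nat_lit 76) (XT.lf (nat_lit 76) (nat_lit 4054817972) (nat_lit 0) (nat_lit 12330458) (nat_lit 1292) (nat_lit 3343455639) (nat_lit 668) (nat_lit 5) (nat_lit 667) (nat_lit 5) (nat_lit 684) (nat_lit 5) (nat_lit 406) (nat_lit 399) (nat_lit 335)) (XT.lf (nat_lit 76) (nat_lit 552215018)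 (nat_lit 0) (nat_lit 5233650720) (nat_lit 1292) (nat_lit 1670467765) (nat_lit 669) (nat_lit 5) (nat_lit 668) (nat_lit 5) (nat_lit 685) (nat_lit 5) (nat_lit 407) (nat_lit 399) (nat_lit 334))) (XT.nd (nat_lit 78) (nat_lit 0) (nat_lit 0) (XT.lf (nat_lit 0) (nat_lit 17952653) (nat_lit 1292) (nat_lit 2943893956) (nat_lit 1368) (nat_lit 4541477350) (nat_lit 651) (nat_lit 5) (nat_lit 668) (nat_lit 5) (nat_lit 669) (nat_lit 5) (nat_lit 408) (nat_lit 399) (nat_lit 333)) (XT.lf (nat_lit 76) (nat_lit 1074280236) (nat_lit 0) (nat_lit 610974615) (nat_lit 1368) (nat_lit 5866428920) (nat_lit 652) (nat_lit 5) (nat_lit 651) (nat_lit 5) (nat_lit 669) (nat_lit 5) (nat_lit 409) (nat_lit 399) (nat_lit 332)))))))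
noncomputable def xc54 : XT := (XT.nd (nat_lit 1248) (nat_lit 11932) (nat_lit 0) (XT.nd (nat_lit 624) (nat_lit 5852) (nat_lit 0) (XT.nd (nat_lit 312) (nat_lit 0) (nat_lit 0) (XT.nd (nat_lit 156) (nat_lit 1292) (nat_lit 0) (XT.nd (nat_lit 78) (nat_lit 0) (nat_lit 0) (XT.lf (nat_lit 0) (nat_lit 3378590037) (nat_lit 1292) (nat_lit 2424620794) (nat_lit 1368) (nat_lit 1797946209) (nat_lit 652) (nat_lit 5) (nat_lit 669) (nat_lit 5) (nat_lit 670) (nat_lit 5) (nat_lit 410) (nat_lit 399) (nat_lit 331)) (XT.lf (nat_lit 76) (nat_lit 1703001066) (nat_lit 0) (nat_lit 3379854065) (nat_lit 1368) (nat_lit 2569223380) (nat_lit 653) (nat_lit 5) (nat_lit 652) (nat_lit 5) (nat_lit 670) (nat_lit 5) (nat_lit 411) (nat_lit 399) (nat_lit 330))) (XT.nd (nat_lit 78) (nat_lit 1292) (nat_lit 0) (XT.lf (nat_lit 76) (nat_lit 5921697445) (nat_lit 0) (nat_lit 878326387) (nat_lit 1368) (nat_lit 904418211) (nat_lit 653) (nat_lit 5) (nat_lit 652)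 (nat_lit 5) (nat_lit 670) (nat_lit 5) (nat_lit 412) (nat_lit 399) (nat_lit 329)) (XT.lf (nat_lit 0) (nat_lit 773434211) (nat_lit 1368) (nat_lit 5299458719) (nat_lit 1444) (nat_lit 1685053646) (nat_lit 635) (nat_lit 5) (nat_lit 653) (nat_lit 5) (nat_lit 654) (nat_lit 5) (nat_lit 413) (nat_lit 399) (nat_lit 328)))) (XT.nd (nat_lit 156) (nat_lit 0) (nat_lit 76) (XT.nd (nat_lit 78) (nat_lit 0) (nat_lit 0) (XT.lf (nat_lit 0) (nat_lit 2454289769) (nat_lit 1368) (nat_lit 1040461824) (nat_lit 1444) (nat_lit 4318018917) (nat_lit 635) (nat_lit 5) (nat_lit 653) (nat_lit 5) (nat_lit 654) (nat_lit 5) (nat_lit 414) (nat_lit 399) (nat_lit 327)) (XT.lf (nat_lit 76) (nat_lit 3322779206) (nat_lit 0) (nat_lit 831954776) (nat_lit 1444) (nat_lit 3714237511) (nat_lit 636) (nat_lit 5) (nat_lit 635) (nat_lit 5) (nat_lit 654) (nat_lit 5) (nat_lit 415) (nat_lit 399) (nat_lit 326))) (XT.nd (nat_lit 78) (nat_lit 0) (nat_lit 0) (XT.lf (nat_lit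 0) (nat_lit 5873455528) (nat_lit 1368) (nat_lit 176171256) (nat_lit 1444) (nat_lit 1876984342) (nat_lit 636) (nat_lit 5) (nat_lit 654) (nat_lit 5) (nat_lit 655) (nat_lit 5) (nat_lit 416) (nat_lit 399) (nat_lit 325)) (XT.lf (nat_lit 76) (nat_lit 4307604053) (nat_lit 0) (nat_lit 3318118387) (nat_lit 1444) (nat_lit 359697693) (nat_lit 637) (nat_lit 5) (nat_lit 636) (nat_lit 5) (nat_lit 655) (nat_lit 5) (nat_lit 417) (nat_lit 399) (nat_lit 324))))) (XT.nd (nat_lit 312) (nat_lit 4484) (nat_lit 0) (XT.nd (nat_lit 156) (nat_lit 0) (nat_lit 76) (XT.nd (nat_lit 78) (nat_lit 0) (nat_lit 76) (XT.lf (nat_lit 76) (nat_lit 814940422) (nat_lit 0) (nat_lit 507216899) (nat_lit 1520) (nat_lit 6723621114) (nat_lit 618) (nat_lit 5) (nat_lit 617) (nat_lit 5) (nat_lit 637) (nat_lit 5) (nat_lit 418) (nat_lit 399) (nat_lit 323)) (XT.lf (nat_lit 0) (nat_lit 3039549734) (nat_lit 1444) (nat_lit 2702796683) (nat_lit 1520) (nat_lit 2364815602)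 (nat_lit 618) (nat_lit 5) (nat_lit 637) (nat_lit 5) (nat_lit 638) (nat_lit 5) (nat_lit 419) (nat_lit 399) (nat_lit 322))) (XT.nd (nat_lit 78) (nat_lit 0) (nat_lit 76) (XT.lf (nat_lit 76) (nat_lit 1912544891) (nat_lit 0) (nat_lit 2861724183) (nat_lit 1520) (nat_lit 3395844619) (nat_lit 619) (nat_lit 5) (nat_lit 618) (nat_lit 5) (nat_lit 638) (nat_lit 5) (nat_lit 420) (nat_lit 399) (nat_lit 321)) (XT.lf (nat_lit 0) (nat_lit 6530169977) (nat_lit 1444) (nat_lit 1603263609) (nat_lit 76) (nat_lit 101161071) (nat_lit 619) (nat_lit 5) (nat_lit 638) (nat_lit 5) (nat_lit 620) (nat_lit 5) (nat_lit 421) (nat_lit 399) (nat_lit 320)))) (XT.nd (nat_lit 156) (nat_lit 3116) (nat_lit 0) (XT.nd (nat_lit 78) (nat_lit 0) (nat_lit 0) (XT.lf (nat_lit 0) (nat_lit 28315043) (nat_lit 1520) (nat_lit 5159037076) (nat_lit 76) (nat_lit 3112855127) (nat_lit 599) (nat_lit 5) (nat_lit 619) (nat_lit 5) (nat_lit 600) (nat_lit 5) (nat_lit 422) (nat_lit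 399) (nat_lit 319)) (XT.lf (nat_lit 0) (nat_lit 1752356915) (nat_lit 1520) (nat_lit 401318125) (nat_lit 76) (nat_lit 6213642331) (nat_lit 599) (nat_lit 5) (nat_lit 619) (nat_lit 5) (nat_lit 600) (nat_lit 5) (nat_lit 423) (nat_lit 399) (nat_lit 318))) (XT.nd (nat_lit 78) (nat_lit 1596) (nat_lit 0) (XT.lf (nat_lit 0) (nat_lit 3515576077) (nat_lit 1596) (nat_lit 3956529237) (nat_lit 76) (nat_lit 963570454) (nat_lit 579) (nat_lit 5) (nat_lit 600) (nat_lit 5) (nat_lit 580) (nat_lit 5) (nat_lit 424) (nat_lit 399) (nat_lit 317)) (XT.lf (nat_lit 0) (nat_lit 929976401) (nat_lit 1596) (nat_lit 4376809066) (nat_lit 1672) (nat_lit 3198761350) (nat_lit 558) (nat_lit 5) (nat_lit 579) (nat_lit 5) (nat_lit 580) (nat_lit 5) (nat_lit 425) (nat_lit 399) (nat_lit 316)))))) (XT.nd (nat_lit 624) (nat_lit 5396) (nat_lit 0) (XT.nd (nat_lit 312) (nat_lit 3040) (nat_lit 0) (XT.nd (nat_lit 156) (nat_lit 1748) (nat_lit 0) (XT.nd (nat_lit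 78) (nat_lit 1748) (nat_lit 0) (XT.lf (nat_lit 0) (nat_lit 5942757280) (nat_lit 1596) (nat_lit 1187757300) (nat_lit 1672) (nat_lit 1446366795) (nat_lit 558) (nat_lit 5) (nat_lit 579) (nat_lit 5) (nat_lit 580) (nat_lit 5) (nat_lit 426) (nat_lit 399) (nat_lit 315)) (XT.lf (nat_lit 0) (nat_lit 336345286) (nat_lit 1748) (nat_lit 6252864468) (nat_lit 76) (nat_lit 2060393723) (nat_lit 535) (nat_lit 5) (nat_lit 558) (nat_lit 5) (nat_lit 536) (nat_lit 5) (nat_lit 427) (nat_lit 399) (nat_lit 314))) (XT.nd (nat_lit 78) (nat_lit 1748) (nat_lit 0) (XT.lf (nat_lit 0) (nat_lit 2132002900) (nat_lit 1748) (nat_lit 1202492770) (nat_lit 76) (nat_lit 5389159979) (nat_lit 535) (nat_lit 5) (nat_lit 558) (nat_lit 5) (nat_lit 536) (nat_lit 5) (nat_lit 428) (nat_lit 399) (nat_lit 313)) (XT.lf (nat_lit 0) (nat_lit 3961037289) (nat_lit 1824) (nat_lit 4823238028) (nat_lit 76) (nat_lit 14964274) (nat_lit 512) (nat_lit 5) (nat_lit 536) (nat_lit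 5) (nat_lit 513) (nat_lit 5) (nat_lit 429) (nat_lit 399) (nat_lit 312)))) (XT.nd (nat_lit 156) (nat_lit 1216) (nat_lit 0) (XT.nd (nat_lit 78) (nat_lit 0) (nat_lit 0) (XT.lf (nat_lit 0) (nat_lit 355366522) (nat_lit 1824) (nat_lit 5475766726) (nat_lit 1900) (nat_lit 3045112347) (nat_lit 488) (nat_lit 5) (nat_lit 512) (nat_lit 5) (nat_lit 513) (nat_lit 5) (nat_lit 430) (nat_lit 399) (nat_lit 311)) (XT.lf (nat_lit 0) (nat_lit 5677740156) (nat_lit 1824) (nat_lit 2065611632) (nat_lit 1900) (nat_lit 1211345518) (nat_lit 488) (nat_lit 5) (nat_lit 512) (nat_lit 5) (nat_lit 513) (nat_lit 5) (nat_lit 431) (nat_lit 399) (nat_lit 310))) (XT.nd (nat_lit 78) (nat_lit 0) (nat_lit 0) (XT.lf (nat_lit 0) (nat_lit 645911132) (nat_lit 1216) (nat_lit 6974557917) (nat_lit 76) (nat_lit 1414254243) (nat_lit 472) (nat_lit 5) (nat_lit 488) (nat_lit 5) (nat_lit 473) (nat_lit 5) (nat_lit 432) (nat_lit 399) (nat_lit 309)) (XT.lf (nat_lit 0)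 (nat_lit 2533026733) (nat_lit 1216) (nat_lit 1614745532) (nat_lit 76) (nat_lit 4968238718) (nat_lit 472) (nat_lit 5) (nat_lit 488) (nat_lit 5) (nat_lit 473) (nat_lit 5) (nat_lit 433) (nat_lit 399) (nat_lit 308))))) (XT.nd (nat_lit 312) (nat_lit 2660) (nat_lit 0) (XT.nd (nat_lit 156) (nat_lit 912) (nat_lit 0) (XT.nd (nat_lit 78) (nat_lit 912) (nat_lit 0) (XT.lf (nat_lit 0) (nat_lit 3878186437) (nat_lit 912) (nat_lit 578508643) (nat_lit 988) (nat_lit 4742253140) (nat_lit 460) (nat_lit 5) (nat_lit 472) (nat_lit 5) (nat_lit 473) (nat_lit 5) (nat_lit 434) (nat_lit 399) (nat_lit 307)) (XT.lf (nat_lit 0) (nat_lit 176596757) (nat_lit 912) (nat_lit 6248170511) (nat_lit 988) (nat_lit 2858658323) (nat_lit 448) (nat_lit 5) (nat_lit 460) (nat_lit 5) (nat_lit 461) (nat_lit 5) (nat_lit 435) (nat_lit 399) (nat_lit 306))) (XT.nd (nat_lit 78) (nat_lit 912) (nat_lit 0) (XT.lf (nat_lit 0) (nat_lit 5827007174) (nat_lit 912) (nat_lit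 2619046404) (nat_lit 988) (nat_lit 923261877) (nat_lit 448) (nat_lit 5) (nat_lit 460) (nat_lit 5) (nat_lit 461) (nat_lit 5) (nat_lit 436) (nat_lit 399) (nat_lit 305)) (XT.lf (nat_lit 0) (nat_lit 1032733890) (nat_lit 912) (nat_lit 7334555636) (nat_lit 76) (nat_lit 1089583669) (nat_lit 436) (nat_lit 5) (nat_lit 448) (nat_lit 5) (nat_lit 437) (nat_lit 5) (nat_lit 437) (nat_lit 399) (nat_lit 304)))) (XT.nd (nat_lit 156) (nat_lit 1748) (nat_lit 0) (XT.nd (nat_lit 78) (nat_lit 912) (nat_lit 0) (XT.lf (nat_lit 0) (nat_lit 3031786092) (nat_lit 912) (nat_lit 1646387880) (nat_lit 76) (nat_lit 4867560084) (nat_lit 436) (nat_lit 5) (nat_lit 448) (nat_lit 5) (nat_lit 437) (nat_lit 5) (nat_lit 438) (nat_lit 399) (nat_lit 303)) (XT.lf (nat_lit 0) (nat_lit 4185617150) (nat_lit 912) (nat_lit 887882486) (nat_lit 988) (nat_lit 4562818890) (nat_lit 424) (nat_lit 5) (nat_lit 436) (nat_lit 5) (nat_lit 437) (nat_lit 5) (nat_lit 439)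 (nat_lit 399) (nat_lit 302))) (XT.nd (nat_lit 78) (nat_lit 912) (nat_lit 0) (XT.lf (nat_lit 0) (nat_lit 388634802) (nat_lit 836) (nat_lit 6776215337) (nat_lit 912) (nat_lit 2563688493) (nat_lit 413) (nat_lit 5) (nat_lit 424) (nat_lit 5) (nat_lit 425) (nat_lit 5) (nat_lit 440) (nat_lit 399) (nat_lit 301)) (XT.nd (nat_lit 78) (nat_lit 912) (nat_lit 0) (XT.lf (nat_lit 0) (nat_lit 6387712343) (nat_lit 836) (nat_lit 2928867233) (nat_lit 912) (nat_lit 505652526) (nat_lit 413) (nat_lit 5) (nat_lit 424) (nat_lit 5) (nat_lit 425) (nat_lit 5) (nat_lit 441) (nat_lit 399) (nat_lit 300)) (XT.lf (nat_lit 0) (nat_lit 1572527277) (nat_lit 912) (nat_lit 7336593798) (nat_lit 76) (nat_lit 1008473784) (nat_lit 401) (nat_lit 5) (nat_lit 413) (nat_lit 5) (nat_lit 402) (nat_lit 5) (nat_lit 442) (nat_lit 399) (nat_lit 299))))))))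
noncomputable def xc55 : XT := (XT.nd (nat_lit 57564) (nat_lit 0) (nat_lit 1368) (XT.nd (nat_lit 56316) (nat_lit 0) (nat_lit 21660) (XT.nd (nat_lit 624) (nat_lit 1444) (nat_lit 0) (XT.nd (nat_lit 312) (nat_lit 2204) (nat_lit 0) (XT.nd (nat_lit 156) (nat_lit 836) (nat_lit 0) (XT.nd (nat_lit 78) (nat_lit 760) (nat_lit 0) (XT.lf (nat_lit 0) (nat_lit 3704842317) (nat_lit 912) (nat_lit 1299002772) (nat_lit 76) (nat_lit 5010566089) (nat_lit 401) (nat_lit 5) (nat_lit 413) (nat_lit 5) (nat_lit 402) (nat_lit 5) (nat_lit 443) (nat_lit 399) (nat_lit 298)) (XT.lf (nat_lit 0) (nat_lit 4898994034) (nat_lit 760) (nat_lit 989812689) (nat_lit 836) (nat_lit 4224177039) (nat_lit 391) (nat_lit 5) (nat_lit 401) (nat_lit 5) (nat_lit 402) (nat_lit 5) (nat_lit 444) (nat_lit 399) (nat_lit 297))) (XT.nd (nat_lit 78) (nat_lit 76) (nat_lit 0) (XT.lf (nat_lit 0) (nat_lit 993143432) (nat_lit 760) (nat_lit 7136157908) (nat_lit 836) (nat_lit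 2083969439) (nat_lit 381) (nat_lit 5) (nat_lit 391) (nat_lit 5) (nat_lit 392) (nat_lit 5) (nat_lit 445) (nat_lit 399) (nat_lit 296)) (XT.lf (nat_lit 0) (nat_lit 117124285) (nat_lit 836) (nat_lit 2952204547) (nat_lit 76) (nat_lit 7245834225) (nat_lit 380) (nat_lit 5) (nat_lit 391) (nat_lit 5) (nat_lit 381) (nat_lit 5) (nat_lit 446) (nat_lit 399) (nat_lit 295)))) (XT.nd (nat_lit 156) (nat_lit 1444) (nat_lit 0) (XT.nd (nat_lit 78) (nat_lit 0) (nat_lit 0) (XT.lf (nat_lit 0) (nat_lit 2342020392) (nat_lit 836) (nat_lit 6978056516) (nat_lit 76) (nat_lit 1098587075) (nat_lit 370) (nat_lit 5) (nat_lit 381) (nat_lit 5) (nat_lit 371) (nat_lit 5) (nat_lit 447) (nat_lit 399) (nat_lit 294)) (XT.lf (nat_lit 0) (nat_lit 4629982817) (nat_lit 836) (nat_lit 567774861) (nat_lit 76) (nat_lit 5326105881) (nat_lit 370) (nat_lit 5) (nat_lit 381) (nat_lit 5) (nat_lit 371) (nat_lit 5) (nat_lit 448) (nat_lit 399) (nat_lit 293))) (XT.nd (nat_lit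 78) (nat_lit 684) (nat_lit 0) (XT.lf (nat_lit 0) (nat_lit 6025451120) (nat_lit 760) (nat_lit 956099761) (nat_lit 836) (nat_lit 3649259318) (nat_lit 360) (nat_lit 5) (nat_lit 370) (nat_lit 5) (nat_lit 371) (nat_lit 5) (nat_lit 449) (nat_lit 399) (nat_lit 292)) (XT.lf (nat_lit 0) (nat_lit 1998190483) (nat_lit 684) (nat_lit 7399616989) (nat_lit 760) (nat_lit 1341735157) (nat_lit 351) (nat_lit 5) (nat_lit 360) (nat_lit 5) (nat_lit 361) (nat_lit 5) (nat_lit 450) (nat_lit 399) (nat_lit 291))))) (XT.nd (nat_lit 55380) (nat_lit 0) (nat_lit 25384) (XT.nd (nat_lit 156) (nat_lit 684) (nat_lit 0) (XT.nd (nat_lit 78) (nat_lit 684) (nat_lit 0) (XT.lf (nat_lit 0) (nat_lit 1015190652) (nat_lit 760) (nat_lit 2091343476) (nat_lit 76) (nat_lit 7743453717) (nat_lit 350) (nat_lit 5) (nat_lit 360) (nat_lit 5) (nat_lit 351) (nat_lit 5) (nat_lit 451) (nat_lit 399) (nat_lit 290)) (XT.lf (nat_lit 0) (nat_lit 3419946444) (nat_lit 760) (nat_lit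 6250230474) (nat_lit 76) (nat_lit 1291914522) (nat_lit 341) (nat_lit 5) (nat_lit 351) (nat_lit 5) (nat_lit 342) (nat_lit 5) (nat_lit 452) (nat_lit 399) (nat_lit 289))) (XT.nd (nat_lit 78) (nat_lit 0) (nat_lit 0) (XT.lf (nat_lit 0) (nat_lit 565693013) (nat_lit 684) (nat_lit 5325191480) (nat_lit 760) (nat_lit 5185190874) (nat_lit 332) (nat_lit 5) (nat_lit 341) (nat_lit 5) (nat_lit 342) (nat_lit 5) (nat_lit 453) (nat_lit 399) (nat_lit 288)) (XT.lf (nat_lit 0) (nat_lit 7578436979) (nat_lit 684) (nat_lit 854701415) (nat_lit 760) (nat_lit 2758762635) (nat_lit 332) (nat_lit 5) (nat_lit 341) (nat_lit 5) (nat_lit 342) (nat_lit 5) (nat_lit 454) (nat_lit 399) (nat_lit 287)))) (XT.nd (nat_lit 156) (nat_lit 1216) (nat_lit 0) (XT.nd (nat_lit 78) (nat_lit 0) (nat_lit 0) (XT.lf (nat_lit 0) (nat_lit 681168010) (nat_lit 0) (nat_lit 681168010) (nat_lit 1140) (nat_lit 2238040329) (nat_lit 682) (nat_lit 5) (nat_lit 682) (nat_lit 3)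 (nat_lit 697) (nat_lit 3) (nat_lit 400) (nat_lit 400) (nat_lit 340)) (XT.lf (nat_lit 0) (nat_lit 4420536174) (nat_lit 1140) (nat_lit 2230883711) (nat_lit 1216) (nat_lit 587967992) (nat_lit 682) (nat_lit 5) (nat_lit 697) (nat_lit 3) (nat_lit 698) (nat_lit 5) (nat_lit 401) (nat_lit 400) (nat_lit 339))) (XT.nd (nat_lit 78) (nat_lit 1216) (nat_lit 0) (XT.lf (nat_lit 76) (nat_lit 1435759485) (nat_lit 0) (nat_lit 4689376889) (nat_lit 1216) (nat_lit 1154163010) (nat_lit 683) (nat_lit 5) (nat_lit 682) (nat_lit 5) (nat_lit 698) (nat_lit 5) (nat_lit 402) (nat_lit 400) (nat_lit 338)) (XT.lf (nat_lit 0) (nat_lit 508653992) (nat_lit 1216) (nat_lit 2140635004) (nat_lit 1292) (nat_lit 4671210171) (nat_lit 666) (nat_lit 5) (nat_lit 682) (nat_lit 5) (nat_lit 683) (nat_lit 5) (nat_lit 403) (nat_lit 400) (nat_lit 337)))))) (XT.nd (nat_lit 624) (nat_lit 2584) (nat_lit 0) (XT.nd (nat_lit 312) (nat_lit 1140) (nat_lit 0) (XT.nd (nat_lit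 156) (nat_lit 0) (nat_lit 76) (XT.nd (nat_lit 78) (nat_lit 0) (nat_lit 76) (XT.lf (nat_lit 76) (nat_lit 1627210908) (nat_lit 0) (nat_lit 530383994) (nat_lit 1292) (nat_lit 5205409029) (nat_lit 667) (nat_lit 5) (nat_lit 666) (nat_lit 5) (nat_lit 683) (nat_lit 5) (nat_lit 404) (nat_lit 400) (nat_lit 336)) (XT.lf (nat_lit 0) (nat_lit 3823110070) (nat_lit 1216) (nat_lit 1940943883) (nat_lit 1292) (nat_lit 1642632926) (nat_lit 667) (nat_lit 5) (nat_lit 683) (nat_lit 5) (nat_lit 684) (nat_lit 5) (nat_lit 405) (nat_lit 400) (nat_lit 335))) (XT.nd (nat_lit 78) (nat_lit 0) (nat_lit 0) (XT.lf (nat_lit 76) (nat_lit 1928425537) (nat_lit 0) (nat_lit 3568902553) (nat_lit 1292) (nat_lit 1954407547) (nat_lit 668) (nat_lit 5) (nat_lit 667) (nat_lit 5) (nat_lit 684) (nat_lit 5) (nat_lit 406) (nat_lit 400) (nat_lit 334)) (XT.lf (nat_lit 76) (nat_lit 5878488818) (nat_lit 0) (nat_lit 1299573379) (nat_lit 1292) (nat_lit 320162536) (nat_lit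 668) (nat_lit 5) (nat_lit 667) (nat_lit 5) (nat_lit 684) (nat_lit 5) (nat_lit 407) (nat_lit 400) (nat_lit 333)))) (XT.nd (nat_lit 156) (nat_lit 0) (nat_lit 0) (XT.nd (nat_lit 78) (nat_lit 0) (nat_lit 0) (XT.lf (nat_lit 0) (nat_lit 1311822126) (nat_lit 1292) (nat_lit 5191754045) (nat_lit 1368) (nat_lit 1042238203) (nat_lit 651) (nat_lit 5) (nat_lit 668) (nat_lit 5) (nat_lit 669) (nat_lit 5) (nat_lit 408) (nat_lit 400) (nat_lit 332)) (XT.lf (nat_lit 0) (nat_lit 2952971111) (nat_lit 1292) (nat_lit 1199454080) (nat_lit 1368) (nat_lit 3442272059) (nat_lit 651) (nat_lit 5) (nat_lit 668) (nat_lit 5) (nat_lit 669) (nat_lit 5) (nat_lit 409) (nat_lit 400) (nat_lit 331))) (XT.nd (nat_lit 78) (nat_lit 0) (nat_lit 76) (XT.lf (nat_lit 76) (nat_lit 2887219663) (nat_lit 0) (nat_lit 1720488654) (nat_lit 1368) (nat_lit 3037234162) (nat_lit 652) (nat_lit 5) (nat_lit 651) (nat_lit 5) (nat_lit 669) (nat_lit 5) (nat_lit 410) (nat_lit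 400) (nat_lit 330)) (XT.lf (nat_lit 0) (nat_lit 6271283412) (nat_lit 1292) (nat_lit 653159138) (nat_lit 1368) (nat_lit 772235200) (nat_lit 652) (nat_lit 5) (nat_lit 669) (nat_lit 5) (nat_lit 670) (nat_lit 5) (nat_lit 411) (nat_lit 400) (nat_lit 329))))) (XT.nd (nat_lit 312) (nat_lit 1292) (nat_lit 0) (XT.nd (nat_lit 156) (nat_lit 0) (nat_lit 76) (XT.nd (nat_lit 78) (nat_lit 0) (nat_lit 0) (XT.lf (nat_lit 0) (nat_lit 213647840) (nat_lit 1368) (nat_lit 4205854569) (nat_lit 1444) (nat_lit 3329960247) (nat_lit 634) (nat_lit 5) (nat_lit 652) (nat_lit 5) (nat_lit 653) (nat_lit 5) (nat_lit 412) (nat_lit 400) (nat_lit 328)) (XT.lf (nat_lit 0) (nat_lit 1834578485) (nat_lit 1368) (nat_lit 3400455) (nat_lit 1444) (nat_lit 5965772010) (nat_lit 634) (nat_lit 5) (nat_lit 652) (nat_lit 5) (nat_lit 653) (nat_lit 5) (nat_lit 413) (nat_lit 400) (nat_lit 327))) (XT.nd (nat_lit 78) (nat_lit 0) (nat_lit 0) (XT.lf (nat_lit 0) (nat_lit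 3485853322) (nat_lit 1368) (nat_lit 3548402588) (nat_lit 1444) (nat_lit 824910589) (nat_lit 635) (nat_lit 5) (nat_lit 653) (nat_lit 5) (nat_lit 654) (nat_lit 5) (nat_lit 414) (nat_lit 400) (nat_lit 326)) (XT.lf (nat_lit 76) (nat_lit 769453106) (nat_lit 0) (nat_lit 4382987303) (nat_lit 1444) (nat_lit 2763604215) (nat_lit 636) (nat_lit 5) (nat_lit 635) (nat_lit 5) (nat_lit 654) (nat_lit 5) (nat_lit 415) (nat_lit 400) (nat_lit 325)))) (XT.nd (nat_lit 156) (nat_lit 0) (nat_lit 0) (XT.nd (nat_lit 78) (nat_lit 1368) (nat_lit 0) (XT.lf (nat_lit 76) (nat_lit 5197889596) (nat_lit 0) (nat_lit 1643906607) (nat_lit 1444) (nat_lit 1132475370) (nat_lit 636) (nat_lit 5) (nat_lit 635) (nat_lit 5) (nat_lit 654) (nat_lit 5) (nat_lit 416) (nat_lit 400) (nat_lit 324)) (XT.lf (nat_lit 0) (nat_lit 508892022) (nat_lit 1444) (nat_lit 6365777849) (nat_lit 1520) (nat_lit 1159232525) (nat_lit 617) (nat_lit 5) (nat_lit 636) (nat_lit 5) (nat_lit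 637) (nat_lit 5) (nat_lit 417) (nat_lit 400) (nat_lit 323))) (XT.nd (nat_lit 78) (nat_lit 0) (nat_lit 0) (XT.lf (nat_lit 0) (nat_lit 2164228741) (nat_lit 1444) (nat_lit 1898140310) (nat_lit 1520) (nat_lit 4032280955) (nat_lit 617) (nat_lit 5) (nat_lit 636) (nat_lit 5) (nat_lit 637) (nat_lit 5) (nat_lit 418) (nat_lit 400) (nat_lit 322)) (XT.lf (nat_lit 76) (nat_lit 2669912574) (nat_lit 0) (nat_lit 1167398858) (nat_lit 1520) (nat_lit 4319608353) (nat_lit 618) (nat_lit 5) (nat_lit 617) (nat_lit 5) (nat_lit 637) (nat_lit 5) (nat_lit 419) (nat_lit 400) (nat_lit 321))))))) (XT.nd (nat_lit 1248) (nat_lit 8360) (nat_lit 0) (XT.nd (nat_lit 624) (nat_lit 7372) (nat_lit 0) (XT.nd (nat_lit 312) (nat_lit 3116) (nat_lit 0) (XT.nd (nat_lit 156) (nat_lit 1520) (nat_lit 0) (XT.nd (nat_lit 78) (nat_lit 0) (nat_lit 0) (XT.lf (nat_lit 0) (nat_lit 5536115718) (nat_lit 1444) (nat_lit 901295717) (nat_lit 1520) (nat_lit 1783178325) (nat_lit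 618) (nat_lit 5) (nat_lit 637) (nat_lit 5) (nat_lit 638) (nat_lit 5) (nat_lit 420) (nat_lit 400) (nat_lit 320)) (XT.lf (nat_lit 76) (nat_lit 3794145078) (nat_lit 0) (nat_lit 3475592319) (nat_lit 1520) (nat_lit 1015778911) (nat_lit 619) (nat_lit 5) (nat_lit 618) (nat_lit 5) (nat_lit 638) (nat_lit 5) (nat_lit 421) (nat_lit 400) (nat_lit 319))) (XT.nd (nat_lit 78) (nat_lit 0) (nat_lit 76) (XT.lf (nat_lit 76) (nat_lit 218184966) (nat_lit 0) (nat_lit 435342767) (nat_lit 1596) (nat_lit 7698599769) (nat_lit 599) (nat_lit 5) (nat_lit 598) (nat_lit 5) (nat_lit 619) (nat_lit 5) (nat_lit 422) (nat_lit 400) (nat_lit 318)) (XT.lf (nat_lit 0) (nat_lit 2359512181) (nat_lit 1520) (nat_lit 3385660528) (nat_lit 76) (nat_lit 2674426065) (nat_lit 599) (nat_lit 5) (nat_lit 619) (nat_lit 5) (nat_lit 600) (nat_lit 5) (nat_lit 423) (nat_lit 400) (nat_lit 317)))) (XT.nd (nat_lit 156) (nat_lit 1672) (nat_lit 0) (XT.nd (nat_lit 78) (nat_lit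 0) (nat_lit 0) (XT.lf (nat_lit 0) (nat_lit 1449427056) (nat_lit 1520) (nat_lit 2632319831) (nat_lit 1596) (nat_lit 4407029973) (nat_lit 579) (nat_lit 5) (nat_lit 599) (nat_lit 5) (nat_lit 600) (nat_lit 5) (nat_lit 424) (nat_lit 400) (nat_lit 316)) (XT.lf (nat_lit 0) (nat_lit 5835128489) (nat_lit 1596) (nat_lit 2160206470) (nat_lit 76) (nat_lit 564069506) (nat_lit 579) (nat_lit 5) (nat_lit 600) (nat_lit 5) (nat_lit 580) (nat_lit 5) (nat_lit 425) (nat_lit 400) (nat_lit 315))) (XT.nd (nat_lit 78) (nat_lit 76) (nat_lit 0) (XT.lf (nat_lit 0) (nat_lit 2811690771) (nat_lit 1596) (nat_lit 4818465110) (nat_lit 1672) (nat_lit 1001157177) (nat_lit 558) (nat_lit 5) (nat_lit 579) (nat_lit 5) (nat_lit 580) (nat_lit 5) (nat_lit 426) (nat_lit 400) (nat_lit 314)) (XT.lf (nat_lit 0) (nat_lit 732209889) (nat_lit 1672) (nat_lit 821565378) (nat_lit 76) (nat_lit 7151072201) (nat_lit 557) (nat_lit 5) (nat_lit 579) (nat_lit 5) (nat_lit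 558) (nat_lit 5) (nat_lit 427) (nat_lit 400) (nat_lit 313))))) (XT.nd (nat_lit 312) (nat_lit 2128) (nat_lit 0) (XT.nd (nat_lit 156) (nat_lit 1824) (nat_lit 0) (XT.nd (nat_lit 78) (nat_lit 1748) (nat_lit 0) (XT.lf (nat_lit 0) (nat_lit 2498254218) (nat_lit 1748) (nat_lit 4489285900) (nat_lit 76) (nat_lit 1791951789) (nat_lit 535) (nat_lit 5) (nat_lit 558) (nat_lit 5) (nat_lit 536) (nat_lit 5) (nat_lit 428) (nat_lit 400) (nat_lit 312)) (XT.lf (nat_lit 0) (nat_lit 633367890) (nat_lit 1748) (nat_lit 3658310868) (nat_lit 1824) (nat_lit 4564109289) (nat_lit 512) (nat_lit 5) (nat_lit 535) (nat_lit 5) (nat_lit 536) (nat_lit 5) (nat_lit 429) (nat_lit 400) (nat_lit 311))) (XT.nd (nat_lit 78) (nat_lit 1824) (nat_lit 0) (XT.lf (nat_lit 0) (nat_lit 5895046200) (nat_lit 1748) (nat_lit 228547847) (nat_lit 1824) (nat_lit 2809963616) (nat_lit 512) (nat_lit 5) (nat_lit 535) (nat_lit 5) (nat_lit 536) (nat_lit 5) (nat_lit 430) (nat_lit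 400) (nat_lit 310)) (XT.lf (nat_lit 0) (nat_lit 2232763041) (nat_lit 1824) (nat_lit 5768167529) (nat_lit 1900) (nat_lit 1011776445) (nat_lit 488) (nat_lit 5) (nat_lit 512) (nat_lit 5) (nat_lit 513) (nat_lit 5) (nat_lit 431) (nat_lit 400) (nat_lit 309)))) (XT.nd (nat_lit 156) (nat_lit 912) (nat_lit 0) (XT.nd (nat_lit 78) (nat_lit 1140) (nat_lit 0) (XT.lf (nat_lit 0) (nat_lit 806879226) (nat_lit 1900) (nat_lit 1473929532) (nat_lit 76) (nat_lit 6812617999) (nat_lit 487) (nat_lit 5) (nat_lit 512) (nat_lit 5) (nat_lit 488) (nat_lit 5) (nat_lit 432) (nat_lit 400) (nat_lit 308)) (XT.lf (nat_lit 0) (nat_lit 2656371060) (nat_lit 1216) (nat_lit 5224799274) (nat_lit 76) (nat_lit 1294296590) (nat_lit 472) (nat_lit 5) (nat_lit 488) (nat_lit 5) (nat_lit 473) (nat_lit 5) (nat_lit 433) (nat_lit 400) (nat_lit 307))) (XT.nd (nat_lit 78) (nat_lit 0) (nat_lit 0) (XT.lf (nat_lit 0) (nat_lit 207891783) (nat_lit 912) (nat_lit 4335519477)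 (nat_lit 988) (nat_lit 4715725463) (nat_lit 460) (nat_lit 5) (nat_lit 472) (nat_lit 5) (nat_lit 473) (nat_lit 5) (nat_lit 434) (nat_lit 400) (nat_lit 306)) (XT.lf (nat_lit 0) (nat_lit 5795770290) (nat_lit 912) (nat_lit 681980049) (nat_lit 988) (nat_lit 2866538418) (nat_lit 460) (nat_lit 5) (nat_lit 472) (nat_lit 5) (nat_lit 473) (nat_lit 5) (nat_lit 435) (nat_lit 400) (nat_lit 305)))))) (XT.nd (nat_lit 624) (nat_lit 3876) (nat_lit 0) (XT.nd (nat_lit 312) (nat_lit 1748) (nat_lit 0) (XT.nd (nat_lit 156) (nat_lit 1748) (nat_lit 0) (XT.nd (nat_lit 78) (nat_lit 76) (nat_lit 0) (XT.lf (nat_lit 0) (nat_lit 2047020406) (nat_lit 912) (nat_lit 6411818869) (nat_lit 988) (nat_lit 972143294) (nat_lit 448) (nat_lit 5) (nat_lit 460) (nat_lit 5) (nat_lit 461) (nat_lit 5) (nat_lit 436) (nat_lit 400) (nat_lit 304)) (XT.lf (nat_lit 0) (nat_lit 951208486) (nat_lit 988) (nat_lit 1751762156) (nat_lit 76) (nat_lit 6816241716) (nat_lit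 447) (nat_lit 5) (nat_lit 460) (nat_lit 5) (nat_lit 448) (nat_lit 5) (nat_lit 437) (nat_lit 400) (nat_lit 303))) (XT.nd (nat_lit 78) (nat_lit 912) (nat_lit 0) (XT.lf (nat_lit 0) (nat_lit 2908983648) (nat_lit 912) (nat_lit 5600979174) (nat_lit 76) (nat_lit 1098935936) (nat_lit 436) (nat_lit 5) (nat_lit 448) (nat_lit 5) (nat_lit 437) (nat_lit 5) (nat_lit 438) (nat_lit 400) (nat_lit 302)) (XT.lf (nat_lit 0) (nat_lit 166264535) (nat_lit 912) (nat_lit 4746447642) (nat_lit 988) (nat_lit 4787530753) (nat_lit 424) (nat_lit 5) (nat_lit 436) (nat_lit 5) (nat_lit 437) (nat_lit 5) (nat_lit 439) (nat_lit 400) (nat_lit 301)))) (XT.nd (nat_lit 156) (nat_lit 912) (nat_lit 0) (XT.nd (nat_lit 78) (nat_lit 836) (nat_lit 0) (XT.lf (nat_lit 0) (nat_lit 6100601448) (nat_lit 912) (nat_lit 869798075) (nat_lit 988) (nat_lit 2822736775) (nat_lit 424) (nat_lit 5) (nat_lit 436) (nat_lit 5) (nat_lit 437) (nat_lit 5) (nat_lit 440) (nat_lit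 400) (nat_lit 300)) (XT.lf (nat_lit 0) (nat_lit 2251072789) (nat_lit 836) (nat_lit 6829569604) (nat_lit 912) (nat_lit 807017106) (nat_lit 413) (nat_lit 5) (nat_lit 424) (nat_lit 5) (nat_lit 425) (nat_lit 5) (nat_lit 441) (nat_lit 400) (nat_lit 299))) (XT.nd (nat_lit 78) (nat_lit 836) (nat_lit 0) (XT.lf (nat_lit 0) (nat_lit 1240247439) (nat_lit 912) (nat_lit 1658315564) (nat_lit 76) (nat_lit 7085195742) (nat_lit 412) (nat_lit 5) (nat_lit 424) (nat_lit 5) (nat_lit 413) (nat_lit 5) (nat_lit 442) (nat_lit 400) (nat_lit 298)) (XT.lf (nat_lit 0) (nat_lit 3331471529) (nat_lit 912) (nat_lit 5620024824) (nat_lit 76) (nat_lit 1129900529) (nat_lit 401) (nat_lit 5) (nat_lit 413) (nat_lit 5) (nat_lit 402) (nat_lit 5) (nat_lit 443) (nat_lit 400) (nat_lit 297))))) (XT.nd (nat_lit 312) (nat_lit 2280) (nat_lit 0) (XT.nd (nat_lit 156) (nat_lit 836) (nat_lit 0) (XT.nd (nat_lit 78) (nat_lit 0) (nat_lit 0) (XT.lf (nat_lit 0) (nat_lit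 508451138) (nat_lit 760) (nat_lit 4967410507) (nat_lit 836) (nat_lit 4704899307) (nat_lit 391) (nat_lit 5) (nat_lit 401) (nat_lit 5) (nat_lit 402) (nat_lit 5) (nat_lit 444) (nat_lit 400) (nat_lit 296)) (XT.lf (nat_lit 0) (nat_lit 6811721259) (nat_lit 760) (nat_lit 867057162) (nat_lit 836) (nat_lit 2603021105) (nat_lit 391) (nat_lit 5) (nat_lit 401) (nat_lit 5) (nat_lit 402) (nat_lit 5) (nat_lit 445) (nat_lit 400) (nat_lit 295))) (XT.nd (nat_lit 78) (nat_lit 76) (nat_lit 0) (XT.lf (nat_lit 0) (nat_lit 2848118952) (nat_lit 760) (nat_lit 7095997992) (nat_lit 836) (nat_lit 440374659) (nat_lit 381) (nat_lit 5) (nat_lit 391) (nat_lit 5) (nat_lit 392) (nat_lit 5) (nat_lit 446) (nat_lit 400) (nat_lit 294)) (XT.lf (nat_lit 0) (nat_lit 1750027059) (nat_lit 836) (nat_lit 1190449300) (nat_lit 76) (nat_lit 7548378753) (nat_lit 380) (nat_lit 5) (nat_lit 391) (nat_lit 5) (nat_lit 381) (nat_lit 5) (nat_lit 447) (nat_lit 400) (nat_lit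 293)))) (XT.nd (nat_lit 156) (nat_lit 760) (nat_lit 0) (XT.nd (nat_lit 78) (nat_lit 760) (nat_lit 0) (XT.lf (nat_lit 0) (nat_lit 4000482095) (nat_lit 836) (nat_lit 5277879314) (nat_lit 76) (nat_lit 1316443428) (nat_lit 370) (nat_lit 5) (nat_lit 381) (nat_lit 5) (nat_lit 371) (nat_lit 5) (nat_lit 448) (nat_lit 400) (nat_lit 292)) (XT.lf (nat_lit 0) (nat_lit 1240808094) (nat_lit 760) (nat_lit 5069851406) (nat_lit 836) (nat_lit 4391919791) (nat_lit 360) (nat_lit 5) (nat_lit 370) (nat_lit 5) (nat_lit 371) (nat_lit 5) (nat_lit 449) (nat_lit 400) (nat_lit 291))) (XT.nd (nat_lit 78) (nat_lit 760) (nat_lit 0) (XT.lf (nat_lit 0) (nat_lit 7937758957) (nat_lit 760) (nat_lit 744096564) (nat_lit 836) (nat_lit 2130357410) (nat_lit 360) (nat_lit 5) (nat_lit 370) (nat_lit 5) (nat_lit 371) (nat_lit 5) (nat_lit 450) (nat_lit 400) (nat_lit 290)) (XT.lf (nat_lit 0) (nat_lit 202891685) (nat_lit 760) (nat_lit 7077120124) (nat_lit 76)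 (nat_lit 3643429136) (nat_lit 350) (nat_lit 5) (nat_lit 360) (nat_lit 5) (nat_lit 351) (nat_lit 5) (nat_lit 451) (nat_lit 400) (nat_lit 289))))))))
noncomputable def xc56 : XT := (XT.nd (nat_lit 57642) (nat_lit 0) (nat_lit 684) (XT.nd (nat_lit 56394) (nat_lit 0) (nat_lit 15428) (XT.nd (nat_lit 55770) (nat_lit 0) (nat_lit 22876) (XT.nd (nat_lit 55458) (nat_lit 0) (nat_lit 25308) (XT.nd (nat_lit 156) (nat_lit 684) (nat_lit 0) (XT.nd (nat_lit 78) (nat_lit 684) (nat_lit 0) (XT.lf (nat_lit 0) (nat_lit 2558545941) (nat_lit 760) (nat_lit 338882696) (nat_lit 76) (nat_lit 8139097935) (nat_lit 350) (nat_lit 5) (nat_lit 360) (nat_lit 5) (nat_lit 351) (nat_lit 5) (nat_lit 452) (nat_lit 400) (nat_lit 288)) (XT.lf (nat_lit 0) (nat_lit 4994909316) (nat_lit 760) (nat_lit 4564459900) (nat_lit 76) (nat_lit 1591832775) (nat_lit 341) (nat_lit 5) (nat_lit 351) (nat_lit 5) (nat_lit 342) (nat_lit 5) (nat_lit 453) (nat_lit 400) (nat_lit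 287))) (XT.nd (nat_lit 55224) (nat_lit 0) (nat_lit 26600) (XT.lf (nat_lit 0) (nat_lit 2375869063) (nat_lit 684) (nat_lit 5121536000) (nat_lit 760) (nat_lit 3770417754) (nat_lit 332) (nat_lit 5) (nat_lit 341) (nat_lit 5) (nat_lit 342) (nat_lit 5) (nat_lit 454) (nat_lit 400) (nat_lit 286)) (XT.lf (nat_lit 0) (nat_lit 1521761644) (nat_lit 0) (nat_lit 1521761644) (nat_lit 1140) (nat_lit 595781777) (nat_lit 682) (nat_lit 5) (nat_lit 682) (nat_lit 3) (nat_lit 697) (nat_lit 3) (nat_lit 401) (nat_lit 401) (nat_lit 338)))) (XT.nd (nat_lit 156) (nat_lit 0) (nat_lit 76) (XT.nd (nat_lit 78) (nat_lit 0) (nat_lit 76) (XT.lf (nat_lit 0) (nat_lit 423006339) (nat_lit 1292) (nat_lit 587967992) (nat_lit 1292) (nat_lit 6308364143) (nat_lit 665) (nat_lit 3) (nat_lit 682) (nat_lit 3) (nat_lit 682) (nat_lit 5) (nat_lit 402) (nat_lit 401) (nat_lit 337)) (XT.lf (nat_lit 0) (nat_lit 2039308954) (nat_lit 1216) (nat_lit 4224491226) (nat_lit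 1292) (nat_lit 1097215752) (nat_lit 666) (nat_lit 5) (nat_lit 682) (nat_lit 5) (nat_lit 683) (nat_lit 5) (nat_lit 403) (nat_lit 401) (nat_lit 336))) (XT.nd (nat_lit 78) (nat_lit 0) (nat_lit 0) (XT.lf (nat_lit 0) (nat_lit 3657175531) (nat_lit 1216) (nat_lit 489059462) (nat_lit 1292) (nat_lit 3257907188) (nat_lit 666) (nat_lit 5) (nat_lit 682) (nat_lit 5) (nat_lit 683) (nat_lit 5) (nat_lit 404) (nat_lit 401) (nat_lit 335)) (XT.lf (nat_lit 76) (nat_lit 3342996078) (nat_lit 0) (nat_lit 1945491654) (nat_lit 1292) (nat_lit 2160021458) (nat_lit 667) (nat_lit 5) (nat_lit 666) (nat_lit 5) (nat_lit 683) (nat_lit 5) (nat_lit 405) (nat_lit 401) (nat_lit 334))))) (XT.nd (nat_lit 312) (nat_lit 1292) (nat_lit 0) (XT.nd (nat_lit 156) (nat_lit 0) (nat_lit 0) (XT.nd (nat_lit 78) (nat_lit 1292) (nat_lit 0) (XT.lf (nat_lit 0) (nat_lit 6917829122) (nat_lit 1216) (nat_lit 260042451) (nat_lit 1292) (nat_lit 316583907) (nat_lit 667) (nat_lit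 5) (nat_lit 683) (nat_lit 5) (nat_lit 684) (nat_lit 5) (nat_lit 406) (nat_lit 401) (nat_lit 333)) (XT.lf (nat_lit 0) (nat_lit 1022486789) (nat_lit 1292) (nat_lit 3872693480) (nat_lit 1368) (nat_lit 2646052193) (nat_lit 650) (nat_lit 5) (nat_lit 667) (nat_lit 5) (nat_lit 668) (nat_lit 5) (nat_lit 407) (nat_lit 401) (nat_lit 332))) (XT.nd (nat_lit 78) (nat_lit 0) (nat_lit 0) (XT.lf (nat_lit 76) (nat_lit 64700684) (nat_lit 0) (nat_lit 2544649746) (nat_lit 1368) (nat_lit 4980248539) (nat_lit 651) (nat_lit 5) (nat_lit 650) (nat_lit 5) (nat_lit 668) (nat_lit 5) (nat_lit 408) (nat_lit 401) (nat_lit 331)) (XT.lf (nat_lit 76) (nat_lit 4110862449) (nat_lit 0) (nat_lit 104994879) (nat_lit 1368) (nat_lit 3423317359) (nat_lit 651) (nat_lit 5) (nat_lit 650) (nat_lit 5) (nat_lit 668) (nat_lit 5) (nat_lit 409) (nat_lit 401) (nat_lit 330)))) (XT.nd (nat_lit 156) (nat_lit 1368) (nat_lit 0) (XT.nd (nat_lit 78) (nat_lit 0) (nat_lit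 0) (XT.lf (nat_lit 76) (nat_lit 516625198) (nat_lit 0) (nat_lit 5319462611) (nat_lit 1368) (nat_lit 1854022241) (nat_lit 652) (nat_lit 5) (nat_lit 651) (nat_lit 5) (nat_lit 669) (nat_lit 5) (nat_lit 410) (nat_lit 401) (nat_lit 329)) (XT.lf (nat_lit 76) (nat_lit 4666853543) (nat_lit 0) (nat_lit 2809583690) (nat_lit 1368) (nat_lit 265872601) (nat_lit 652) (nat_lit 5) (nat_lit 651) (nat_lit 5) (nat_lit 669) (nat_lit 5) (nat_lit 411) (nat_lit 401) (nat_lit 328))) (XT.nd (nat_lit 78) (nat_lit 0) (nat_lit 76) (XT.lf (nat_lit 76) (nat_lit 1087235311) (nat_lit 0) (nat_lit 219932754) (nat_lit 1444) (nat_lit 6488791991) (nat_lit 634) (nat_lit 5) (nat_lit 633) (nat_lit 5) (nat_lit 652) (nat_lit 5) (nat_lit 412) (nat_lit 401) (nat_lit 327)) (XT.lf (nat_lit 0) (nat_lit 2909083759) (nat_lit 1368) (nat_lit 2516432924) (nat_lit 1444) (nat_lit 2425111966) (nat_lit 634) (nat_lit 5) (nat_lit 652) (nat_lit 5) (nat_lit 653) (nat_lit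 5) (nat_lit 413) (nat_lit 401) (nat_lit 326)))))) (XT.nd (nat_lit 624) (nat_lit 6156) (nat_lit 0) (XT.nd (nat_lit 312) (nat_lit 0) (nat_lit 76) (XT.nd (nat_lit 156) (nat_lit 1368) (nat_lit 0) (XT.nd (nat_lit 78) (nat_lit 0) (nat_lit 0) (XT.lf (nat_lit 76) (nat_lit 1758356158) (nat_lit 0) (nat_lit 2762725371) (nat_lit 1444) (nat_lit 3385748211) (nat_lit 635) (nat_lit 5) (nat_lit 634) (nat_lit 5) (nat_lit 653) (nat_lit 5) (nat_lit 414) (nat_lit 401) (nat_lit 325)) (XT.lf (nat_lit 76) (nat_lit 6129949719) (nat_lit 0) (nat_lit 17961843) (nat_lit 1444) (nat_lit 1816591444) (nat_lit 635) (nat_lit 5) (nat_lit 634) (nat_lit 5) (nat_lit 653) (nat_lit 5) (nat_lit 415) (nat_lit 401) (nat_lit 324))) (XT.nd (nat_lit 78) (nat_lit 1444) (nat_lit 0) (XT.lf (nat_lit 76) (nat_lit 2558033155) (nat_lit 0) (nat_lit 5250365417) (nat_lit 1444) (nat_lit 214908758) (nat_lit 636) (nat_lit 5) (nat_lit 635) (nat_lit 5) (nat_lit 654) (nat_lit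 5) (nat_lit 416) (nat_lit 401) (nat_lit 323)) (XT.lf (nat_lit 0) (nat_lit 1379452281) (nat_lit 1444) (nat_lit 1052505379) (nat_lit 1520) (nat_lit 5651560791) (nat_lit 616) (nat_lit 5) (nat_lit 635) (nat_lit 5) (nat_lit 636) (nat_lit 5) (nat_lit 417) (nat_lit 401) (nat_lit 322)))) (XT.nd (nat_lit 156) (nat_lit 0) (nat_lit 0) (XT.nd (nat_lit 78) (nat_lit 0) (nat_lit 0) (XT.lf (nat_lit 0) (nat_lit 2995842940) (nat_lit 1444) (nat_lit 4678534594) (nat_lit 1520) (nat_lit 470667448) (nat_lit 617) (nat_lit 5) (nat_lit 636) (nat_lit 5) (nat_lit 637) (nat_lit 5) (nat_lit 418) (nat_lit 401) (nat_lit 321)) (XT.lf (nat_lit 0) (nat_lit 4635722216) (nat_lit 1444) (nat_lit 157123889) (nat_lit 1520) (nat_lit 3415132724) (nat_lit 617) (nat_lit 5) (nat_lit 636) (nat_lit 5) (nat_lit 637) (nat_lit 5) (nat_lit 419) (nat_lit 401) (nat_lit 320))) (XT.nd (nat_lit 78) (nat_lit 0) (nat_lit 76) (XT.lf (nat_lit 76) (nat_lit 4490586241) (nat_lit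 0) (nat_lit 1815542704) (nat_lit 1520) (nat_lit 1966087810) (nat_lit 618) (nat_lit 5) (nat_lit 617) (nat_lit 5) (nat_lit 637) (nat_lit 5) (nat_lit 420) (nat_lit 401) (nat_lit 319)) (XT.lf (nat_lit 76) (nat_lit 875666252) (nat_lit 0) (nat_lit 7118048063) (nat_lit 1520) (nat_lit 344349714) (nat_lit 619) (nat_lit 5) (nat_lit 618) (nat_lit 5) (nat_lit 638) (nat_lit 5) (nat_lit 421) (nat_lit 401) (nat_lit 318))))) (XT.nd (nat_lit 312) (nat_lit 3344) (nat_lit 0) (XT.nd (nat_lit 156) (nat_lit 1444) (nat_lit 0) (XT.nd (nat_lit 78) (nat_lit 0) (nat_lit 0) (XT.lf (nat_lit 0) (nat_lit 1299559500) (nat_lit 1520) (nat_lit 2771842826) (nat_lit 1596) (nat_lit 4333517540) (nat_lit 598) (nat_lit 5) (nat_lit 618) (nat_lit 5) (nat_lit 619) (nat_lit 5) (nat_lit 422) (nat_lit 401) (nat_lit 317)) (XT.lf (nat_lit 76) (nat_lit 2013318082) (nat_lit 0) (nat_lit 941441799) (nat_lit 1596) (nat_lit 5518646939) (nat_lit 599) (nat_lit 5) (nat_lit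 598) (nat_lit 5) (nat_lit 619) (nat_lit 5) (nat_lit 423) (nat_lit 401) (nat_lit 316))) (XT.nd (nat_lit 78) (nat_lit 1520) (nat_lit 0) (XT.lf (nat_lit 0) (nat_lit 4646832026) (nat_lit 1520) (nat_lit 1649685456) (nat_lit 76) (nat_lit 2246670676) (nat_lit 599) (nat_lit 5) (nat_lit 619) (nat_lit 5) (nat_lit 600) (nat_lit 5) (nat_lit 424) (nat_lit 401) (nat_lit 315)) (XT.lf (nat_lit 0) (nat_lit 3270237510) (nat_lit 1520) (nat_lit 3100983504) (nat_lit 1596) (nat_lit 2243174601) (nat_lit 579) (nat_lit 5) (nat_lit 599) (nat_lit 5) (nat_lit 600) (nat_lit 5) (nat_lit 425) (nat_lit 401) (nat_lit 314)))) (XT.nd (nat_lit 156) (nat_lit 1672) (nat_lit 0) (XT.nd (nat_lit 78) (nat_lit 1672) (nat_lit 0) (XT.lf (nat_lit 0) (nat_lit 8113731184) (nat_lit 1596) (nat_lit 400783388) (nat_lit 76) (nat_lit 172839980) (nat_lit 579) (nat_lit 5) (nat_lit 600) (nat_lit 5) (nat_lit 580) (nat_lit 5) (nat_lit 426) (nat_lit 401) (nat_lit 313))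 (XT.lf (nat_lit 0) (nat_lit 1137462910) (nat_lit 1672) (nat_lit 4110107484) (nat_lit 76) (nat_lit 3513596524) (nat_lit 557) (nat_lit 5) (nat_lit 579) (nat_lit 5) (nat_lit 558) (nat_lit 5) (nat_lit 427) (nat_lit 401) (nat_lit 312))) (XT.nd (nat_lit 78) (nat_lit 0) (nat_lit 0) (XT.lf (nat_lit 0) (nat_lit 958174920) (nat_lit 1672) (nat_lit 1898086811) (nat_lit 1748) (nat_lit 5980494535) (nat_lit 535) (nat_lit 5) (nat_lit 557) (nat_lit 5) (nat_lit 558) (nat_lit 5) (nat_lit 428) (nat_lit 401) (nat_lit 311)) (XT.lf (nat_lit 0) (nat_lit 4619712984) (nat_lit 1748) (nat_lit 2763773792) (nat_lit 76) (nat_lit 1530165095) (nat_lit 535) (nat_lit 5) (nat_lit 558) (nat_lit 5) (nat_lit 536) (nat_lit 5) (nat_lit 429) (nat_lit 401) (nat_lit 310))))))) (XT.nd (nat_lit 1248) (nat_lit 3800) (nat_lit 0) (XT.nd (nat_lit 624) (nat_lit 4256) (nat_lit 0) (XT.nd (nat_lit 312) (nat_lit 1900) (nat_lit 0) (XT.nd (nat_lit 156) (nat_lit 3040)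 (nat_lit 0) (XT.nd (nat_lit 78) (nat_lit 0) (nat_lit 0) (XT.lf (nat_lit 0) (nat_lit 2449390324) (nat_lit 1748) (nat_lit 3970706744) (nat_lit 1824) (nat_lit 2571955044) (nat_lit 512) (nat_lit 5) (nat_lit 535) (nat_lit 5) (nat_lit 536) (nat_lit 5) (nat_lit 430) (nat_lit 401) (nat_lit 309)) (XT.lf (nat_lit 0) (nat_lit 7780942298) (nat_lit 1748) (nat_lit 467657685) (nat_lit 1824) (nat_lit 823578153) (nat_lit 512) (nat_lit 5) (nat_lit 535) (nat_lit 5) (nat_lit 536) (nat_lit 5) (nat_lit 431) (nat_lit 401) (nat_lit 308))) (XT.nd (nat_lit 78) (nat_lit 1140) (nat_lit 0) (XT.lf (nat_lit 0) (nat_lit 968039618) (nat_lit 1900) (nat_lit 5084779008) (nat_lit 76) (nat_lit 3100546208) (nat_lit 487) (nat_lit 5) (nat_lit 512) (nat_lit 5) (nat_lit 488) (nat_lit 5) (nat_lit 432) (nat_lit 401) (nat_lit 307)) (XT.lf (nat_lit 0) (nat_lit 288675296) (nat_lit 1140) (nat_lit 2483781050) (nat_lit 1216) (nat_lit 6463850156) (nat_lit 472) (nat_lit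 5) (nat_lit 487) (nat_lit 5) (nat_lit 488) (nat_lit 5) (nat_lit 433) (nat_lit 401) (nat_lit 306)))) (XT.nd (nat_lit 156) (nat_lit 988) (nat_lit 0) (XT.nd (nat_lit 78) (nat_lit 912) (nat_lit 0) (XT.lf (nat_lit 0) (nat_lit 4629473207) (nat_lit 1216) (nat_lit 3513407330) (nat_lit 76) (nat_lit 1177696231) (nat_lit 472) (nat_lit 5) (nat_lit 488) (nat_lit 5) (nat_lit 473) (nat_lit 5) (nat_lit 434) (nat_lit 401) (nat_lit 305)) (XT.lf (nat_lit 0) (nat_lit 2015990917) (nat_lit 912) (nat_lit 4512329114) (nat_lit 988) (nat_lit 2878118615) (nat_lit 460) (nat_lit 5) (nat_lit 472) (nat_lit 5) (nat_lit 473) (nat_lit 5) (nat_lit 435) (nat_lit 401) (nat_lit 304))) (XT.nd (nat_lit 78) (nat_lit 988) (nat_lit 0) (XT.lf (nat_lit 0) (nat_lit 7680255596) (nat_lit 912) (nat_lit 783952246) (nat_lit 988) (nat_lit 1029828640) (nat_lit 460) (nat_lit 5) (nat_lit 472) (nat_lit 5) (nat_lit 473) (nat_lit 5) (nat_lit 436) (nat_lit 401) (nat_lit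 303)) (XT.lf (nat_lit 0) (nat_lit 865129142) (nat_lit 988) (nat_lit 5706303397) (nat_lit 76) (nat_lit 3011424234) (nat_lit 447) (nat_lit 5) (nat_lit 460) (nat_lit 5) (nat_lit 448) (nat_lit 5) (nat_lit 437) (nat_lit 401) (nat_lit 302))))) (XT.nd (nat_lit 312) (nat_lit 2508) (nat_lit 0) (XT.nd (nat_lit 156) (nat_lit 912) (nat_lit 0) (XT.nd (nat_lit 78) (nat_lit 836) (nat_lit 0) (XT.lf (nat_lit 0) (nat_lit 2777791941) (nat_lit 988) (nat_lit 3562129) (nat_lit 76) (nat_lit 6892091349) (nat_lit 447) (nat_lit 5) (nat_lit 460) (nat_lit 5) (nat_lit 448) (nat_lit 5) (nat_lit 438) (nat_lit 401) (nat_lit 301)) (XT.lf (nat_lit 0) (nat_lit 4750703383) (nat_lit 912) (nat_lit 3905744264) (nat_lit 76) (nat_lit 1108958285) (nat_lit 436) (nat_lit 5) (nat_lit 448) (nat_lit 5) (nat_lit 437) (nat_lit 5) (nat_lit 439) (nat_lit 401) (nat_lit 300))) (XT.nd (nat_lit 78) (nat_lit 0) (nat_lit 0) (XT.lf (nat_lit 0) (nat_lit 1964954487) (nat_lit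 912) (nat_lit 4806237320) (nat_lit 988) (nat_lit 3087851473) (nat_lit 424) (nat_lit 5) (nat_lit 436) (nat_lit 5) (nat_lit 437) (nat_lit 5) (nat_lit 440) (nat_lit 401) (nat_lit 299)) (XT.lf (nat_lit 0) (nat_lit 7982774909) (nat_lit 912) (nat_lit 852743767) (nat_lit 988) (nat_lit 1118966124) (nat_lit 424) (nat_lit 5) (nat_lit 436) (nat_lit 5) (nat_lit 437) (nat_lit 5) (nat_lit 441) (nat_lit 401) (nat_lit 298)))) (XT.nd (nat_lit 156) (nat_lit 760) (nat_lit 0) (XT.nd (nat_lit 78) (nat_lit 836) (nat_lit 0) (XT.lf (nat_lit 0) (nat_lit 902588072) (nat_lit 912) (nat_lit 5978536806) (nat_lit 76) (nat_lit 3170095708) (nat_lit 412) (nat_lit 5) (nat_lit 424) (nat_lit 5) (nat_lit 413) (nat_lit 5) (nat_lit 442) (nat_lit 401) (nat_lit 297)) (XT.lf (nat_lit 0) (nat_lit 79598500) (nat_lit 836) (nat_lit 2867293894) (nat_lit 912) (nat_lit 7202904726) (nat_lit 401) (nat_lit 5) (nat_lit 412) (nat_lit 5) (nat_lit 413) (nat_lit 5) (nat_lit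 443) (nat_lit 401) (nat_lit 296))) (XT.nd (nat_lit 78) (nat_lit 760) (nat_lit 0) (XT.lf (nat_lit 0) (nat_lit 5058513980) (nat_lit 912) (nat_lit 3941478714) (nat_lit 76) (nat_lit 1249823865) (nat_lit 401) (nat_lit 5) (nat_lit 413) (nat_lit 5) (nat_lit 402) (nat_lit 5) (nat_lit 444) (nat_lit 401) (nat_lit 295)) (XT.lf (nat_lit 0) (nat_lit 2297784224) (nat_lit 760) (nat_lit 4927002069) (nat_lit 836) (nat_lit 3126801729) (nat_lit 391) (nat_lit 5) (nat_lit 401) (nat_lit 5) (nat_lit 402) (nat_lit 5) (nat_lit 445) (nat_lit 401) (nat_lit 294)))))) (XT.nd (nat_lit 55926) (nat_lit 0) (nat_lit 23408) (XT.nd (nat_lit 312) (nat_lit 2204) (nat_lit 0) (XT.nd (nat_lit 156) (nat_lit 760) (nat_lit 0) (XT.nd (nat_lit 78) (nat_lit 836) (nat_lit 0) (XT.lf (nat_lit 0) (nat_lit 8692234178) (nat_lit 760) (nat_lit 747381984) (nat_lit 836) (nat_lit 1015674112) (nat_lit 391) (nat_lit 5) (nat_lit 401) (nat_lit 5) (nat_lit 402) (nat_lit 5)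 (nat_lit 446) (nat_lit 401) (nat_lit 293)) (XT.lf (nat_lit 0) (nat_lit 1155297470) (nat_lit 836) (nat_lit 5899086326) (nat_lit 76) (nat_lit 3505884197) (nat_lit 380) (nat_lit 5) (nat_lit 391) (nat_lit 5) (nat_lit 381) (nat_lit 5) (nat_lit 447) (nat_lit 401) (nat_lit 292))) (XT.nd (nat_lit 78) (nat_lit 0) (nat_lit 0) (XT.lf (nat_lit 0) (nat_lit 542958188) (nat_lit 760) (nat_lit 2812838303) (nat_lit 836) (nat_lit 7311420347) (nat_lit 370) (nat_lit 5) (nat_lit 380) (nat_lit 5) (nat_lit 381) (nat_lit 5) (nat_lit 448) (nat_lit 401) (nat_lit 291)) (XT.lf (nat_lit 0) (nat_lit 5629531813) (nat_lit 836) (nat_lit 3615137850) (nat_lit 76) (nat_lit 1531050469) (nat_lit 370) (nat_lit 5) (nat_lit 381) (nat_lit 5) (nat_lit 371) (nat_lit 5) (nat_lit 449) (nat_lit 401) (nat_lit 290)))) (XT.nd (nat_lit 156) (nat_lit 1444) (nat_lit 0) (XT.nd (nat_lit 78) (nat_lit 0) (nat_lit 0) (XT.lf (nat_lit 0) (nat_lit 3022289760) (nat_lit 760)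 (nat_lit 4944655108) (nat_lit 836) (nat_lit 2919084564) (nat_lit 360) (nat_lit 5) (nat_lit 370) (nat_lit 5) (nat_lit 371) (nat_lit 5) (nat_lit 450) (nat_lit 401) (nat_lit 289)) (XT.lf (nat_lit 0) (nat_lit 9818735219) (nat_lit 760) (nat_lit 536828177) (nat_lit 836) (nat_lit 642892379) (nat_lit 360) (nat_lit 5) (nat_lit 370) (nat_lit 5) (nat_lit 371) (nat_lit 5) (nat_lit 451) (nat_lit 401) (nat_lit 288))) (XT.nd (nat_lit 78) (nat_lit 684) (nat_lit 0) (XT.lf (nat_lit 0) (nat_lit 1700137241) (nat_lit 760) (nat_lit 5459556987) (nat_lit 76) (nat_lit 3952351781) (nat_lit 350) (nat_lit 5) (nat_lit 360) (nat_lit 5) (nat_lit 351) (nat_lit 5) (nat_lit 452) (nat_lit 401) (nat_lit 287)) (XT.lf (nat_lit 0) (nat_lit 1397278482) (nat_lit 684) (nat_lit 2685419968) (nat_lit 760) (nat_lit 7145099022) (nat_lit 341) (nat_lit 5) (nat_lit 350) (nat_lit 5) (nat_lit 351) (nat_lit 5) (nat_lit 453) (nat_lit 401) (nat_lit 286))))) (XT.nd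 (nat_lit 312) (nat_lit 1216) (nat_lit 0) (XT.nd (nat_lit 156) (nat_lit 0) (nat_lit 0) (XT.nd (nat_lit 78) (nat_lit 0) (nat_lit 0) (XT.lf (nat_lit 0) (nat_lit 1000516588) (nat_lit 1292) (nat_lit 1339824305) (nat_lit 1292) (nat_lit 1339824305) (nat_lit 665) (nat_lit 3) (nat_lit 682) (nat_lit 3) (nat_lit 682) (nat_lit 5) (nat_lit 402) (nat_lit 402) (nat_lit 336)) (XT.lf (nat_lit 76) (nat_lit 1013812927) (nat_lit 0) (nat_lit 2561969102) (nat_lit 1292) (nat_lit 3827056903) (nat_lit 666) (nat_lit 5) (nat_lit 665) (nat_lit 3) (nat_lit 682) (nat_lit 5) (nat_lit 403) (nat_lit 402) (nat_lit 335))) (XT.nd (nat_lit 78) (nat_lit 0) (nat_lit 76) (XT.lf (nat_lit 76) (nat_lit 4796481374) (nat_lit 0) (nat_lit 362781391) (nat_lit 1292) (nat_lit 2287390133) (nat_lit 666) (nat_lit 5) (nat_lit 665) (nat_lit 3) (nat_lit 682) (nat_lit 5) (nat_lit 404) (nat_lit 402) (nat_lit 334)) (XT.lf (nat_lit 76) (nat_lit 1144766245) (nat_lit 0) (nat_lit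 5609467943) (nat_lit 1292) (nat_lit 737512535) (nat_lit 667) (nat_lit 5) (nat_lit 666) (nat_lit 5) (nat_lit 683) (nat_lit 5) (nat_lit 405) (nat_lit 402) (nat_lit 333)))) (XT.nd (nat_lit 156) (nat_lit 0) (nat_lit 76) (XT.nd (nat_lit 78) (nat_lit 0) (nat_lit 0) (XT.lf (nat_lit 0) (nat_lit 813168522) (nat_lit 1292) (nat_lit 2515737711) (nat_lit 1368) (nat_lit 4209109342) (nat_lit 649) (nat_lit 5) (nat_lit 666) (nat_lit 5) (nat_lit 667) (nat_lit 5) (nat_lit 406) (nat_lit 402) (nat_lit 332)) (XT.lf (nat_lit 76) (nat_lit 1383943904) (nat_lit 0) (nat_lit 971374416) (nat_lit 1368) (nat_lit 5230387375) (nat_lit 650) (nat_lit 5) (nat_lit 649) (nat_lit 5) (nat_lit 667) (nat_lit 5) (nat_lit 407) (nat_lit 402) (nat_lit 331))) (XT.nd (nat_lit 78) (nat_lit 0) (nat_lit 0) (XT.lf (nat_lit 0) (nat_lit 3916674927) (nat_lit 1292) (nat_lit 2269890020) (nat_lit 1368) (nat_lit 1448017397) (nat_lit 650) (nat_lit 5) (nat_lit 667) (nat_lit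 5) (nat_lit 668) (nat_lit 5) (nat_lit 408) (nat_lit 402) (nat_lit 330)) (XT.lf (nat_lit 76) (nat_lit 1735197702) (nat_lit 0) (nat_lit 3754567899) (nat_lit 1368) (nat_lit 2195060784) (nat_lit 651) (nat_lit 5) (nat_lit 650) (nat_lit 5) (nat_lit 668) (nat_lit 5) (nat_lit 409) (nat_lit 402) (nat_lit 329))))))))
noncomputable def xc57 : XT := (XT.nd (nat_lit 2496) (nat_lit 5624) (nat_lit 0) (XT.nd (nat_lit 1248) (nat_lit 11780) (nat_lit 0) (XT.nd (nat_lit 624) (nat_lit 2736) (nat_lit 0) (XT.nd (nat_lit 312) (nat_lit 1368) (nat_lit 0) (XT.nd (nat_lit 156) (nat_lit 0) (nat_lit 0) (XT.nd (nat_lit 78) (nat_lit 1292) (nat_lit 0) (XT.lf (nat_lit 76) (nat_lit 5829553232) (nat_lit 0) (nat_lit 1243393951) (nat_lit 1368) (nat_lit 663555543) (nat_lit 651) (nat_lit 5) (nat_lit 650) (nat_lit 5) (nat_lit 668) (nat_lit 5) (nat_lit 410) (nat_lit 402) (nat_lit 328)) (XT.lf (nat_lit 0) (nat_lit 873858937) (nat_lit 1368) (nat_lit 5580134032)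 (nat_lit 1444) (nat_lit 1335361659) (nat_lit 633) (nat_lit 5) (nat_lit 651) (nat_lit 5) (nat_lit 652) (nat_lit 5) (nat_lit 411) (nat_lit 402) (nat_lit 327))) (XT.nd (nat_lit 78) (nat_lit 0) (nat_lit 0) (XT.lf (nat_lit 0) (nat_lit 2418797508) (nat_lit 1368) (nat_lit 1444477000) (nat_lit 1444) (nat_lit 3980188121) (nat_lit 633) (nat_lit 5) (nat_lit 651) (nat_lit 5) (nat_lit 652) (nat_lit 5) (nat_lit 412) (nat_lit 402) (nat_lit 326)) (XT.lf (nat_lit 76) (nat_lit 2788584481) (nat_lit 0) (nat_lit 1189387792) (nat_lit 1444) (nat_lit 3921013767) (nat_lit 634) (nat_lit 5) (nat_lit 633) (nat_lit 5) (nat_lit 652) (nat_lit 5) (nat_lit 413) (nat_lit 402) (nat_lit 325)))) (XT.nd (nat_lit 156) (nat_lit 1444) (nat_lit 0) (XT.nd (nat_lit 78) (nat_lit 0) (nat_lit 0) (XT.lf (nat_lit 0) (nat_lit 5553927258) (nat_lit 1368) (nat_lit 862091518) (nat_lit 1444) (nat_lit 1539889210) (nat_lit 634) (nat_lit 5) (nat_lit 652) (nat_lit 5) (nat_lit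 653) (nat_lit 5) (nat_lit 414) (nat_lit 402) (nat_lit 324)) (XT.lf (nat_lit 76) (nat_lit 3486978412) (nat_lit 0) (nat_lit 3671462746) (nat_lit 1444) (nat_lit 855586416) (nat_lit 635) (nat_lit 5) (nat_lit 634) (nat_lit 5) (nat_lit 653) (nat_lit 5) (nat_lit 415) (nat_lit 402) (nat_lit 323))) (XT.nd (nat_lit 78) (nat_lit 0) (nat_lit 76) (XT.lf (nat_lit 0) (nat_lit 684912597) (nat_lit 1444) (nat_lit 165560268) (nat_lit 1520) (nat_lit 7223290119) (nat_lit 615) (nat_lit 5) (nat_lit 634) (nat_lit 5) (nat_lit 635) (nat_lit 5) (nat_lit 416) (nat_lit 402) (nat_lit 322)) (XT.lf (nat_lit 0) (nat_lit 2253694954) (nat_lit 1444) (nat_lit 3835995245) (nat_lit 1520) (nat_lit 2044711203) (nat_lit 616) (nat_lit 5) (nat_lit 635) (nat_lit 5) (nat_lit 636) (nat_lit 5) (nat_lit 417) (nat_lit 402) (nat_lit 321))))) (XT.nd (nat_lit 312) (nat_lit 1368) (nat_lit 0) (XT.nd (nat_lit 156) (nat_lit 1444) (nat_lit 0) (XT.nd (nat_lit 78) (nat_lit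 0) (nat_lit 0) (XT.lf (nat_lit 76) (nat_lit 637910011) (nat_lit 0) (nat_lit 3194868099) (nat_lit 1520) (nat_lit 4363895974) (nat_lit 617) (nat_lit 5) (nat_lit 616) (nat_lit 5) (nat_lit 636) (nat_lit 5) (nat_lit 418) (nat_lit 402) (nat_lit 320)) (XT.lf (nat_lit 76) (nat_lit 5230956785) (nat_lit 0) (nat_lit 206742282) (nat_lit 1520) (nat_lit 2822608030) (nat_lit 617) (nat_lit 5) (nat_lit 616) (nat_lit 5) (nat_lit 636) (nat_lit 5) (nat_lit 419) (nat_lit 402) (nat_lit 319))) (XT.nd (nat_lit 78) (nat_lit 1520) (nat_lit 0) (XT.lf (nat_lit 76) (nat_lit 1570226734) (nat_lit 0) (nat_lit 5502323468) (nat_lit 1520) (nat_lit 1252705933) (nat_lit 618) (nat_lit 5) (nat_lit 617) (nat_lit 5) (nat_lit 637) (nat_lit 5) (nat_lit 420) (nat_lit 402) (nat_lit 318)) (XT.lf (nat_lit 0) (nat_lit 335302367) (nat_lit 1520) (nat_lit 2114835418) (nat_lit 1596) (nat_lit 5941495501) (nat_lit 597) (nat_lit 5) (nat_lit 617) (nat_lit 5) (nat_lit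 618) (nat_lit 5) (nat_lit 421) (nat_lit 402) (nat_lit 317)))) (XT.nd (nat_lit 156) (nat_lit 1444) (nat_lit 0) (XT.nd (nat_lit 78) (nat_lit 0) (nat_lit 0) (XT.lf (nat_lit 0) (nat_lit 1929904554) (nat_lit 1520) (nat_lit 5842082118) (nat_lit 1596) (nat_lit 687353552) (nat_lit 598) (nat_lit 5) (nat_lit 618) (nat_lit 5) (nat_lit 619) (nat_lit 5) (nat_lit 422) (nat_lit 402) (nat_lit 316)) (XT.lf (nat_lit 0) (nat_lit 3557447485) (nat_lit 1520) (nat_lit 1094649140) (nat_lit 1596) (nat_lit 3876283702) (nat_lit 598) (nat_lit 5) (nat_lit 618) (nat_lit 5) (nat_lit 619) (nat_lit 5) (nat_lit 423) (nat_lit 402) (nat_lit 315))) (XT.nd (nat_lit 78) (nat_lit 1444) (nat_lit 0) (XT.lf (nat_lit 76) (nat_lit 3774816101) (nat_lit 0) (nat_lit 1438348468) (nat_lit 1596) (nat_lit 3385724198) (nat_lit 599) (nat_lit 5) (nat_lit 598) (nat_lit 5) (nat_lit 619) (nat_lit 5) (nat_lit 424) (nat_lit 402) (nat_lit 314)) (XT.lf (nat_lit 0) (nat_lit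 51647063) (nat_lit 1520) (nat_lit 6841599569) (nat_lit 1596) (nat_lit 1777735730) (nat_lit 579) (nat_lit 5) (nat_lit 599) (nat_lit 5) (nat_lit 600) (nat_lit 5) (nat_lit 425) (nat_lit 402) (nat_lit 313)))))) (XT.nd (nat_lit 624) (nat_lit 4788) (nat_lit 0) (XT.nd (nat_lit 312) (nat_lit 3648) (nat_lit 0) (XT.nd (nat_lit 156) (nat_lit 1672) (nat_lit 0) (XT.nd (nat_lit 78) (nat_lit 1672) (nat_lit 0) (XT.lf (nat_lit 0) (nat_lit 5057885544) (nat_lit 1520) (nat_lit 3562865991) (nat_lit 1596) (nat_lit 123489869) (nat_lit 579) (nat_lit 5) (nat_lit 599) (nat_lit 5) (nat_lit 600) (nat_lit 5) (nat_lit 426) (nat_lit 402) (nat_lit 312)) (XT.lf (nat_lit 0) (nat_lit 1329914987) (nat_lit 1596) (nat_lit 194404273) (nat_lit 1672) (nat_lit 7294823531) (nat_lit 557) (nat_lit 5) (nat_lit 578) (nat_lit 5) (nat_lit 579) (nat_lit 5) (nat_lit 427) (nat_lit 402) (nat_lit 311))) (XT.nd (nat_lit 78) (nat_lit 1672) (nat_lit 0) (XT.lf (nat_lit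 0) (nat_lit 3222159753) (nat_lit 1672) (nat_lit 2443677310) (nat_lit 76) (nat_lit 3229314241) (nat_lit 557) (nat_lit 5) (nat_lit 579) (nat_lit 5) (nat_lit 558) (nat_lit 5) (nat_lit 428) (nat_lit 402) (nat_lit 310)) (XT.lf (nat_lit 0) (nat_lit 2714466582) (nat_lit 1672) (nat_lit 2231716213) (nat_lit 1748) (nat_lit 4026652680) (nat_lit 535) (nat_lit 5) (nat_lit 557) (nat_lit 5) (nat_lit 558) (nat_lit 5) (nat_lit 429) (nat_lit 402) (nat_lit 309)))) (XT.nd (nat_lit 156) (nat_lit 1900) (nat_lit 0) (XT.nd (nat_lit 78) (nat_lit 1748) (nat_lit 0) (XT.lf (nat_lit 0) (nat_lit 6703162301) (nat_lit 1748) (nat_lit 1074241669) (nat_lit 76) (nat_lit 1274699837) (nat_lit 535) (nat_lit 5) (nat_lit 558) (nat_lit 5) (nat_lit 536) (nat_lit 5) (nat_lit 430) (nat_lit 402) (nat_lit 308)) (XT.lf (nat_lit 0) (nat_lit 4231706732) (nat_lit 1748) (nat_lit 4280060958) (nat_lit 1824) (nat_lit 620860090) (nat_lit 512) (nat_lit 5) (nat_lit 535)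 (nat_lit 5) (nat_lit 536) (nat_lit 5) (nat_lit 431) (nat_lit 402) (nat_lit 307))) (XT.nd (nat_lit 78) (nat_lit 0) (nat_lit 0) (XT.lf (nat_lit 0) (nat_lit 418978976) (nat_lit 1824) (nat_lit 692229058) (nat_lit 1900) (nat_lit 8103717940) (nat_lit 487) (nat_lit 5) (nat_lit 511) (nat_lit 5) (nat_lit 512) (nat_lit 5) (nat_lit 432) (nat_lit 402) (nat_lit 306)) (XT.lf (nat_lit 0) (nat_lit 2896778120) (nat_lit 1900) (nat_lit 3433241851) (nat_lit 76) (nat_lit 2968224604) (nat_lit 487) (nat_lit 5) (nat_lit 512) (nat_lit 5) (nat_lit 488) (nat_lit 5) (nat_lit 433) (nat_lit 402) (nat_lit 305))))) (XT.nd (nat_lit 312) (nat_lit 2660) (nat_lit 0) (XT.nd (nat_lit 156) (nat_lit 988) (nat_lit 0) (XT.nd (nat_lit 78) (nat_lit 0) (nat_lit 0) (XT.lf (nat_lit 0) (nat_lit 2036147113) (nat_lit 1140) (nat_lit 2675005552) (nat_lit 1216) (nat_lit 4672215023) (nat_lit 472) (nat_lit 5) (nat_lit 487) (nat_lit 5) (nat_lit 488) (nat_lit 5) (nat_lit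 434) (nat_lit 402) (nat_lit 304)) (XT.lf (nat_lit 0) (nat_lit 6567482439) (nat_lit 1216) (nat_lit 1838300688) (nat_lit 76) (nat_lit 1064296780) (nat_lit 472) (nat_lit 5) (nat_lit 488) (nat_lit 5) (nat_lit 473) (nat_lit 5) (nat_lit 435) (nat_lit 402) (nat_lit 303))) (XT.nd (nat_lit 78) (nat_lit 76) (nat_lit 0) (XT.lf (nat_lit 0) (nat_lit 3790202795) (nat_lit 912) (nat_lit 4689176281) (nat_lit 988) (nat_lit 1078778491) (nat_lit 460) (nat_lit 5) (nat_lit 472) (nat_lit 5) (nat_lit 473) (nat_lit 5) (nat_lit 436) (nat_lit 402) (nat_lit 302)) (XT.lf (nat_lit 0) (nat_lit 759967857) (nat_lit 988) (nat_lit 119466182) (nat_lit 76) (nat_lit 8768687242) (nat_lit 459) (nat_lit 5) (nat_lit 472) (nat_lit 5) (nat_lit 460) (nat_lit 5) (nat_lit 437) (nat_lit 402) (nat_lit 301)))) (XT.nd (nat_lit 156) (nat_lit 912) (nat_lit 0) (XT.nd (nat_lit 78) (nat_lit 836) (nat_lit 0) (XT.lf (nat_lit 0) (nat_lit 2654548671) (nat_lit 988) (nat_lit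 4072159592) (nat_lit 76) (nat_lit 3012363305) (nat_lit 447) (nat_lit 5) (nat_lit 460) (nat_lit 5) (nat_lit 448) (nat_lit 5) (nat_lit 438) (nat_lit 402) (nat_lit 300)) (XT.lf (nat_lit 0) (nat_lit 1733086439) (nat_lit 836) (nat_lit 2848883244) (nat_lit 912) (nat_lit 5249972207) (nat_lit 436) (nat_lit 5) (nat_lit 447) (nat_lit 5) (nat_lit 448) (nat_lit 5) (nat_lit 439) (nat_lit 402) (nat_lit 299))) (XT.nd (nat_lit 78) (nat_lit 912) (nat_lit 0) (XT.lf (nat_lit 0) (nat_lit 6560000479) (nat_lit 912) (nat_lit 2246782550) (nat_lit 76) (nat_lit 1119645361) (nat_lit 436) (nat_lit 5) (nat_lit 448) (nat_lit 5) (nat_lit 437) (nat_lit 5) (nat_lit 440) (nat_lit 402) (nat_lit 298)) (XT.lf (nat_lit 0) (nat_lit 3729902040) (nat_lit 912) (nat_lit 4868587292) (nat_lit 988) (nat_lit 1423897339) (nat_lit 424) (nat_lit 5) (nat_lit 436) (nat_lit 5) (nat_lit 437) (nat_lit 5) (nat_lit 441) (nat_lit 402) (nat_lit 297))))))) (XT.nd (nat_lit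 56628) (nat_lit 0) (nat_lit 18772) (XT.nd (nat_lit 624) (nat_lit 1520) (nat_lit 0) (XT.nd (nat_lit 312) (nat_lit 2356) (nat_lit 0) (XT.nd (nat_lit 156) (nat_lit 836) (nat_lit 0) (XT.nd (nat_lit 78) (nat_lit 836) (nat_lit 0) (XT.lf (nat_lit 0) (nat_lit 543307965) (nat_lit 988) (nat_lit 289732271) (nat_lit 76) (nat_lit 9287288779) (nat_lit 423) (nat_lit 5) (nat_lit 436) (nat_lit 5) (nat_lit 424) (nat_lit 5) (nat_lit 442) (nat_lit 402) (nat_lit 296)) (XT.lf (nat_lit 0) (nat_lit 2568995912) (nat_lit 912) (nat_lit 4362777712) (nat_lit 76) (nat_lit 3287504252) (nat_lit 412) (nat_lit 5) (nat_lit 424) (nat_lit 5) (nat_lit 413) (nat_lit 5) (nat_lit 443) (nat_lit 402) (nat_lit 295))) (XT.nd (nat_lit 78) (nat_lit 0) (nat_lit 0) (XT.lf (nat_lit 0) (nat_lit 1805103656) (nat_lit 836) (nat_lit 2827954744) (nat_lit 912) (nat_lit 5687190098) (nat_lit 401) (nat_lit 5) (nat_lit 412) (nat_lit 5) (nat_lit 413) (nat_lit 5) (nat_lit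 444) (nat_lit 402) (nat_lit 294)) (XT.lf (nat_lit 0) (nat_lit 6755621419) (nat_lit 912) (nat_lit 2298906321) (nat_lit 76) (nat_lit 1368366407) (nat_lit 401) (nat_lit 5) (nat_lit 413) (nat_lit 5) (nat_lit 402) (nat_lit 5) (nat_lit 445) (nat_lit 402) (nat_lit 293)))) (XT.nd (nat_lit 156) (nat_lit 1520) (nat_lit 0) (XT.nd (nat_lit 78) (nat_lit 76) (nat_lit 0) (XT.lf (nat_lit 0) (nat_lit 4053816863) (nat_lit 760) (nat_lit 4891212384) (nat_lit 836) (nat_lit 1582075592) (nat_lit 391) (nat_lit 5) (nat_lit 401) (nat_lit 5) (nat_lit 402) (nat_lit 5) (nat_lit 446) (nat_lit 402) (nat_lit 292)) (XT.lf (nat_lit 0) (nat_lit 532680588) (nat_lit 836) (nat_lit 94378658) (nat_lit 76) (nat_lit 10006369739) (nat_lit 390) (nat_lit 5) (nat_lit 401) (nat_lit 5) (nat_lit 391) (nat_lit 5) (nat_lit 447) (nat_lit 402) (nat_lit 291))) (XT.nd (nat_lit 78) (nat_lit 760) (nat_lit 0) (XT.lf (nat_lit 0) (nat_lit 2714916797) (nat_lit 836) (nat_lit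 4301288170) (nat_lit 76) (nat_lit 3724538119) (nat_lit 380) (nat_lit 5) (nat_lit 391) (nat_lit 5) (nat_lit 381) (nat_lit 5) (nat_lit 448) (nat_lit 402) (nat_lit 290)) (XT.lf (nat_lit 0) (nat_lit 2258309209) (nat_lit 760) (nat_lit 2682055567) (nat_lit 836) (nat_lit 5909847350) (nat_lit 370) (nat_lit 5) (nat_lit 380) (nat_lit 5) (nat_lit 381) (nat_lit 5) (nat_lit 449) (nat_lit 402) (nat_lit 289))))) (XT.nd (nat_lit 55692) (nat_lit 0) (nat_lit 22648) (XT.nd (nat_lit 156) (nat_lit 760) (nat_lit 0) (XT.nd (nat_lit 78) (nat_lit 760) (nat_lit 0) (XT.lf (nat_lit 0) (nat_lit 7231011411) (nat_lit 836) (nat_lit 1987806764) (nat_lit 76) (nat_lit 1742638581) (nat_lit 370) (nat_lit 5) (nat_lit 381) (nat_lit 5) (nat_lit 371) (nat_lit 5) (nat_lit 450) (nat_lit 402) (nat_lit 288)) (XT.lf (nat_lit 0) (nat_lit 4771187597) (nat_lit 760) (nat_lit 4825753780) (nat_lit 836) (nat_lit 1477395492) (nat_lit 360) (nat_lit 5) (nat_lit 370)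 (nat_lit 5) (nat_lit 371) (nat_lit 5) (nat_lit 451) (nat_lit 402) (nat_lit 287))) (XT.nd (nat_lit 78) (nat_lit 0) (nat_lit 0) (XT.lf (nat_lit 0) (nat_lit 481895825) (nat_lit 684) (nat_lit 325452688) (nat_lit 760) (nat_lit 10382071559) (nat_lit 350) (nat_lit 5) (nat_lit 359) (nat_lit 5) (nat_lit 360) (nat_lit 5) (nat_lit 452) (nat_lit 402) (nat_lit 286)) (XT.lf (nat_lit 0) (nat_lit 3169345408) (nat_lit 760) (nat_lit 3877950800) (nat_lit 76) (nat_lit 4258286613) (nat_lit 350) (nat_lit 5) (nat_lit 360) (nat_lit 5) (nat_lit 351) (nat_lit 5) (nat_lit 453) (nat_lit 402) (nat_lit 285)))) (XT.nd (nat_lit 156) (nat_lit 1292) (nat_lit 0) (XT.nd (nat_lit 78) (nat_lit 0) (nat_lit 0) (XT.lf (nat_lit 0) (nat_lit 2558631438) (nat_lit 1292) (nat_lit 582187487) (nat_lit 1292) (nat_lit 582187487) (nat_lit 665) (nat_lit 3) (nat_lit 682) (nat_lit 3) (nat_lit 682) (nat_lit 5) (nat_lit 403) (nat_lit 403) (nat_lit 334)) (XT.lf (nat_lit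 76) (nat_lit 2592634304) (nat_lit 0) (nat_lit 4080673688) (nat_lit 1292) (nat_lit 817067513) (nat_lit 666) (nat_lit 5) (nat_lit 665) (nat_lit 3) (nat_lit 682) (nat_lit 5) (nat_lit 404) (nat_lit 403) (nat_lit 333))) (XT.nd (nat_lit 78) (nat_lit 0) (nat_lit 76) (XT.lf (nat_lit 0) (nat_lit 683785239) (nat_lit 1292) (nat_lit 1120354596) (nat_lit 1368) (nat_lit 5732022613) (nat_lit 648) (nat_lit 5) (nat_lit 665) (nat_lit 3) (nat_lit 666) (nat_lit 5) (nat_lit 405) (nat_lit 403) (nat_lit 332)) (XT.lf (nat_lit 0) (nat_lit 2186519706) (nat_lit 1292) (nat_lit 4843956598) (nat_lit 1368) (nat_lit 552624709) (nat_lit 649) (nat_lit 5) (nat_lit 666) (nat_lit 5) (nat_lit 667) (nat_lit 5) (nat_lit 406) (nat_lit 403) (nat_lit 331)))))) (XT.nd (nat_lit 624) (nat_lit 2660) (nat_lit 0) (XT.nd (nat_lit 312) (nat_lit 0) (nat_lit 0) (XT.nd (nat_lit 156) (nat_lit 1292) (nat_lit 0) (XT.nd (nat_lit 78) (nat_lit 0) (nat_lit 0) (XT.lf (nat_lit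 0) (nat_lit 3700918589) (nat_lit 1292) (nat_lit 972837464) (nat_lit 1368) (nat_lit 2957590099) (nat_lit 649) (nat_lit 5) (nat_lit 666) (nat_lit 5) (nat_lit 667) (nat_lit 5) (nat_lit 407) (nat_lit 403) (nat_lit 330)) (XT.lf (nat_lit 76) (nat_lit 2994356106) (nat_lit 0) (nat_lit 2233527772) (nat_lit 1368) (nat_lit 2453026748) (nat_lit 650) (nat_lit 5) (nat_lit 649) (nat_lit 5) (nat_lit 667) (nat_lit 5) (nat_lit 408) (nat_lit 403) (nat_lit 329))) (XT.nd (nat_lit 78) (nat_lit 1368) (nat_lit 0) (XT.lf (nat_lit 0) (nat_lit 6757156063) (nat_lit 1292) (nat_lit 700276931) (nat_lit 1368) (nat_lit 274598045) (nat_lit 650) (nat_lit 5) (nat_lit 667) (nat_lit 5) (nat_lit 668) (nat_lit 5) (nat_lit 409) (nat_lit 403) (nat_lit 328)) (XT.lf (nat_lit 0) (nat_lit 526809685) (nat_lit 1368) (nat_lit 4413333200) (nat_lit 1444) (nat_lit 2843942619) (nat_lit 632) (nat_lit 5) (nat_lit 650) (nat_lit 5) (nat_lit 651) (nat_lit 5) (nat_lit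 410) (nat_lit 403) (nat_lit 327)))) (XT.nd (nat_lit 156) (nat_lit 0) (nat_lit 76) (XT.nd (nat_lit 78) (nat_lit 0) (nat_lit 76) (XT.lf (nat_lit 0) (nat_lit 2014802299) (nat_lit 1368) (nat_lit 332114439) (nat_lit 1444) (nat_lit 5490748886) (nat_lit 632) (nat_lit 5) (nat_lit 650) (nat_lit 5) (nat_lit 651) (nat_lit 5) (nat_lit 411) (nat_lit 403) (nat_lit 326)) (XT.lf (nat_lit 0) (nat_lit 3525091856) (nat_lit 1368) (nat_lit 4034160563) (nat_lit 1444) (nat_lit 333214185) (nat_lit 633) (nat_lit 5) (nat_lit 651) (nat_lit 5) (nat_lit 652) (nat_lit 5) (nat_lit 412) (nat_lit 403) (nat_lit 325))) (XT.nd (nat_lit 78) (nat_lit 0) (nat_lit 0) (XT.lf (nat_lit 76) (nat_lit 153724236) (nat_lit 0) (nat_lit 4896560772) (nat_lit 1444) (nat_lit 2898384641) (nat_lit 634) (nat_lit 5) (nat_lit 633) (nat_lit 5) (nat_lit 652) (nat_lit 5) (nat_lit 413) (nat_lit 403) (nat_lit 324)) (XT.lf (nat_lit 76) (nat_lit 4458739545) (nat_lit 0) (nat_lit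 2140757616) (nat_lit 1444) (nat_lit 1406629291) (nat_lit 634) (nat_lit 5) (nat_lit 633) (nat_lit 5) (nat_lit 652) (nat_lit 5) (nat_lit 414) (nat_lit 403) (nat_lit 323))))) (XT.nd (nat_lit 312) (nat_lit 1368) (nat_lit 0) (XT.nd (nat_lit 156) (nat_lit 0) (nat_lit 0) (XT.nd (nat_lit 78) (nat_lit 0) (nat_lit 0) (XT.lf (nat_lit 0) (nat_lit 89823163) (nat_lit 1444) (nat_lit 7296561928) (nat_lit 1520) (nat_lit 678804978) (nat_lit 615) (nat_lit 5) (nat_lit 634) (nat_lit 5) (nat_lit 635) (nat_lit 5) (nat_lit 415) (nat_lit 403) (nat_lit 322)) (XT.lf (nat_lit 0) (nat_lit 1602996907) (nat_lit 1444) (nat_lit 2951479229) (nat_lit 1520) (nat_lit 3570660323) (nat_lit 615) (nat_lit 5) (nat_lit 634) (nat_lit 5) (nat_lit 635) (nat_lit 5) (nat_lit 416) (nat_lit 403) (nat_lit 321))) (XT.nd (nat_lit 78) (nat_lit 0) (nat_lit 76) (XT.lf (nat_lit 76) (nat_lit 1478405116) (nat_lit 0) (nat_lit 1645735363) (nat_lit 1520) (nat_lit 5062587174)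 (nat_lit 616) (nat_lit 5) (nat_lit 615) (nat_lit 5) (nat_lit 635) (nat_lit 5) (nat_lit 417) (nat_lit 403) (nat_lit 320)) (XT.lf (nat_lit 0) (nat_lit 4672881646) (nat_lit 1444) (nat_lit 2243010058) (nat_lit 1520) (nat_lit 1333715470) (nat_lit 616) (nat_lit 5) (nat_lit 635) (nat_lit 5) (nat_lit 636) (nat_lit 5) (nat_lit 418) (nat_lit 403) (nat_lit 319)))) (XT.nd (nat_lit 156) (nat_lit 1444) (nat_lit 0) (XT.nd (nat_lit 78) (nat_lit 0) (nat_lit 0) (XT.lf (nat_lit 76) (nat_lit 2309388400) (nat_lit 0) (nat_lit 3938376345) (nat_lit 1520) (nat_lit 2066076199) (nat_lit 617) (nat_lit 5) (nat_lit 616) (nat_lit 5) (nat_lit 636) (nat_lit 5) (nat_lit 419) (nat_lit 403) (nat_lit 318)) (XT.lf (nat_lit 76) (nat_lit 6961772185) (nat_lit 0) (nat_lit 877162308) (nat_lit 1520) (nat_lit 540729117) (nat_lit 617) (nat_lit 5) (nat_lit 616) (nat_lit 5) (nat_lit 636) (nat_lit 5) (nat_lit 420) (nat_lit 403) (nat_lit 317))) (XT.nd (nat_lit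 78) (nat_lit 0) (nat_lit 0) (XT.lf (nat_lit 0) (nat_lit 1008028027) (nat_lit 1520) (nat_lit 5186336612) (nat_lit 1596) (nat_lit 2252181939) (nat_lit 597) (nat_lit 5) (nat_lit 617) (nat_lit 5) (nat_lit 618) (nat_lit 5) (nat_lit 421) (nat_lit 403) (nat_lit 316)) (XT.lf (nat_lit 0) (nat_lit 2566547656) (nat_lit 1520) (nat_lit 494879861) (nat_lit 1596) (nat_lit 5453547651) (nat_lit 597) (nat_lit 5) (nat_lit 617) (nat_lit 5) (nat_lit 618) (nat_lit 5) (nat_lit 422) (nat_lit 403) (nat_lit 315))))))))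
noncomputable def xc58 : XT := (XT.nd (nat_lit 57954) (nat_lit 0) (nat_lit 9272) (XT.nd (nat_lit 1248) (nat_lit 7372) (nat_lit 0) (XT.nd (nat_lit 624) (nat_lit 6688) (nat_lit 0) (XT.nd (nat_lit 312) (nat_lit 3268) (nat_lit 0) (XT.nd (nat_lit 156) (nat_lit 1520) (nat_lit 0) (XT.nd (nat_lit 78) (nat_lit 0) (nat_lit 0) (XT.lf (nat_lit 0) (nat_lit 4156636758) (nat_lit 1520) (nat_lit 4260266365) (nat_lit 1596) (nat_lit 167861224) (nat_lit 598) (nat_lit 5) (nat_lit 618) (nat_lit 5) (nat_lit 619) (nat_lit 5) (nat_lit 423) (nat_lit 403) (nat_lit 314)) (XT.lf (nat_lit 76) (nat_lit 556101636) (nat_lit 0) (nat_lit 5221334901) (nat_lit 1596) (nat_lit 2878534595) (nat_lit 599) (nat_lit 5) (nat_lit 598) (nat_lit 5) (nat_lit 619) (nat_lit 5) (nat_lit 424) (nat_lit 403) (nat_lit 313))) (XT.nd (nat_lit 78) (nat_lit 1520) (nat_lit 0) (XT.lf (nat_lit 76) (nat_lit 5504706558) (nat_lit 0) (nat_lit 1926628925) (nat_lit 1596) (nat_lit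 1297252907) (nat_lit 599) (nat_lit 5) (nat_lit 598) (nat_lit 5) (nat_lit 619) (nat_lit 5) (nat_lit 425) (nat_lit 403) (nat_lit 312)) (XT.lf (nat_lit 0) (nat_lit 304765483) (nat_lit 1596) (nat_lit 7063643310) (nat_lit 76) (nat_lit 1434343191) (nat_lit 578) (nat_lit 5) (nat_lit 599) (nat_lit 5) (nat_lit 579) (nat_lit 5) (nat_lit 426) (nat_lit 403) (nat_lit 311)))) (XT.nd (nat_lit 156) (nat_lit 1672) (nat_lit 0) (XT.nd (nat_lit 78) (nat_lit 1596) (nat_lit 0) (XT.lf (nat_lit 0) (nat_lit 1928902412) (nat_lit 1596) (nat_lit 2076612605) (nat_lit 76) (nat_lit 4872563370) (nat_lit 578) (nat_lit 5) (nat_lit 599) (nat_lit 5) (nat_lit 579) (nat_lit 5) (nat_lit 427) (nat_lit 403) (nat_lit 310)) (XT.lf (nat_lit 0) (nat_lit 3028095764) (nat_lit 1596) (nat_lit 550513979) (nat_lit 1672) (nat_lit 5376439822) (nat_lit 557) (nat_lit 5) (nat_lit 578) (nat_lit 5) (nat_lit 579) (nat_lit 5) (nat_lit 428) (nat_lit 403) (nat_lit 309)))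 (XT.nd (nat_lit 78) (nat_lit 1672) (nat_lit 0) (XT.lf (nat_lit 0) (nat_lit 5268482596) (nat_lit 1672) (nat_lit 811820057) (nat_lit 76) (nat_lit 2953114085) (nat_lit 557) (nat_lit 5) (nat_lit 579) (nat_lit 5) (nat_lit 558) (nat_lit 5) (nat_lit 429) (nat_lit 403) (nat_lit 308)) (XT.lf (nat_lit 0) (nat_lit 4438429273) (nat_lit 1672) (nat_lit 2560537067) (nat_lit 1748) (nat_lit 2114248646) (nat_lit 535) (nat_lit 5) (nat_lit 557) (nat_lit 5) (nat_lit 558) (nat_lit 5) (nat_lit 430) (nat_lit 403) (nat_lit 307))))) (XT.nd (nat_lit 312) (nat_lit 3040) (nat_lit 0) (XT.nd (nat_lit 156) (nat_lit 1824) (nat_lit 0) (XT.nd (nat_lit 78) (nat_lit 76) (nat_lit 0) (XT.lf (nat_lit 0) (nat_lit 589053634) (nat_lit 1748) (nat_lit 8165736402) (nat_lit 1824) (nat_lit 440004558) (nat_lit 512) (nat_lit 5) (nat_lit 535) (nat_lit 5) (nat_lit 536) (nat_lit 5) (nat_lit 431) (nat_lit 403) (nat_lit 306)) (XT.lf (nat_lit 0) (nat_lit 1274557722)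 (nat_lit 1824) (nat_lit 3303562728) (nat_lit 76) (nat_lit 4699251530) (nat_lit 511) (nat_lit 5) (nat_lit 535) (nat_lit 5) (nat_lit 512) (nat_lit 5) (nat_lit 432) (nat_lit 403) (nat_lit 305))) (XT.nd (nat_lit 78) (nat_lit 0) (nat_lit 0) (XT.lf (nat_lit 0) (nat_lit 2107496898) (nat_lit 1824) (nat_lit 899127663) (nat_lit 1900) (nat_lit 6355136085) (nat_lit 487) (nat_lit 5) (nat_lit 511) (nat_lit 5) (nat_lit 512) (nat_lit 5) (nat_lit 433) (nat_lit 403) (nat_lit 304)) (XT.lf (nat_lit 0) (nat_lit 4789947929) (nat_lit 1900) (nat_lit 1816754115) (nat_lit 76) (nat_lit 2840802738) (nat_lit 487) (nat_lit 5) (nat_lit 512) (nat_lit 5) (nat_lit 488) (nat_lit 5) (nat_lit 434) (nat_lit 403) (nat_lit 303)))) (XT.nd (nat_lit 156) (nat_lit 1900) (nat_lit 0) (XT.nd (nat_lit 78) (nat_lit 0) (nat_lit 0) (XT.lf (nat_lit 0) (nat_lit 3750936098) (nat_lit 1140) (nat_lit 2864558029) (nat_lit 1216) (nat_lit 2919338546) (nat_lit 472) (nat_lit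 5) (nat_lit 487) (nat_lit 5) (nat_lit 488) (nat_lit 5) (nat_lit 435) (nat_lit 403) (nat_lit 302)) (XT.lf (nat_lit 0) (nat_lit 8472591957) (nat_lit 1216) (nat_lit 197466944) (nat_lit 76) (nat_lit 953947408) (nat_lit 472) (nat_lit 5) (nat_lit 488) (nat_lit 5) (nat_lit 473) (nat_lit 5) (nat_lit 436) (nat_lit 403) (nat_lit 301))) (XT.nd (nat_lit 78) (nat_lit 912) (nat_lit 0) (XT.lf (nat_lit 0) (nat_lit 675466060) (nat_lit 988) (nat_lit 4186198792) (nat_lit 76) (nat_lit 4852570975) (nat_lit 459) (nat_lit 5) (nat_lit 472) (nat_lit 5) (nat_lit 460) (nat_lit 5) (nat_lit 437) (nat_lit 403) (nat_lit 300)) (XT.lf (nat_lit 0) (nat_lit 1555377716) (nat_lit 912) (nat_lit 956739787) (nat_lit 988) (nat_lit 7294227199) (nat_lit 447) (nat_lit 5) (nat_lit 459) (nat_lit 5) (nat_lit 460) (nat_lit 5) (nat_lit 438) (nat_lit 403) (nat_lit 299)))))) (XT.nd (nat_lit 624) (nat_lit 3876) (nat_lit 0) (XT.nd (nat_lit 312) (nat_lit 1672) (nat_lit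 0) (XT.nd (nat_lit 156) (nat_lit 988) (nat_lit 0) (XT.nd (nat_lit 78) (nat_lit 836) (nat_lit 0) (XT.lf (nat_lit 0) (nat_lit 4410943131) (nat_lit 988) (nat_lit 2473220362) (nat_lit 76) (nat_lit 3015623438) (nat_lit 447) (nat_lit 5) (nat_lit 460) (nat_lit 5) (nat_lit 448) (nat_lit 5) (nat_lit 439) (nat_lit 403) (nat_lit 298)) (XT.lf (nat_lit 0) (nat_lit 3437075443) (nat_lit 836) (nat_lit 2917277392) (nat_lit 912) (nat_lit 3640613018) (nat_lit 436) (nat_lit 5) (nat_lit 447) (nat_lit 5) (nat_lit 448) (nat_lit 5) (nat_lit 440) (nat_lit 403) (nat_lit 297))) (XT.nd (nat_lit 78) (nat_lit 988) (nat_lit 0) (XT.lf (nat_lit 0) (nat_lit 8338915817) (nat_lit 912) (nat_lit 622094403) (nat_lit 76) (nat_lit 1130992431) (nat_lit 436) (nat_lit 5) (nat_lit 448) (nat_lit 5) (nat_lit 437) (nat_lit 5) (nat_lit 441) (nat_lit 403) (nat_lit 296)) (XT.lf (nat_lit 0) (nat_lit 203618427) (nat_lit 988) (nat_lit 4728510965) (nat_lit 76) (nat_lit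 5258154698) (nat_lit 423) (nat_lit 5) (nat_lit 436) (nat_lit 5) (nat_lit 424) (nat_lit 5) (nat_lit 442) (nat_lit 403) (nat_lit 295)))) (XT.nd (nat_lit 156) (nat_lit 836) (nat_lit 0) (XT.nd (nat_lit 78) (nat_lit 0) (nat_lit 0) (XT.lf (nat_lit 0) (nat_lit 1369884040) (nat_lit 836) (nat_lit 798032859) (nat_lit 912) (nat_lit 8122543841) (nat_lit 412) (nat_lit 5) (nat_lit 423) (nat_lit 5) (nat_lit 424) (nat_lit 5) (nat_lit 443) (nat_lit 403) (nat_lit 294)) (XT.lf (nat_lit 0) (nat_lit 4204724234) (nat_lit 912) (nat_lit 2782088408) (nat_lit 76) (nat_lit 3405163824) (nat_lit 412) (nat_lit 5) (nat_lit 424) (nat_lit 5) (nat_lit 413) (nat_lit 5) (nat_lit 444) (nat_lit 403) (nat_lit 293))) (XT.nd (nat_lit 78) (nat_lit 0) (nat_lit 0) (XT.lf (nat_lit 0) (nat_lit 3498177266) (nat_lit 836) (nat_lit 2791583208) (nat_lit 912) (nat_lit 4205612176) (nat_lit 401) (nat_lit 5) (nat_lit 412) (nat_lit 5) (nat_lit 413) (nat_lit 5) (nat_lit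 445) (nat_lit 403) (nat_lit 292)) (XT.lf (nat_lit 0) (nat_lit 8424698821) (nat_lit 912) (nat_lit 690326617) (nat_lit 76) (nat_lit 1485647293) (nat_lit 401) (nat_lit 5) (nat_lit 413) (nat_lit 5) (nat_lit 402) (nat_lit 5) (nat_lit 446) (nat_lit 403) (nat_lit 291))))) (XT.nd (nat_lit 312) (nat_lit 1520) (nat_lit 0) (XT.nd (nat_lit 156) (nat_lit 760) (nat_lit 0) (XT.nd (nat_lit 78) (nat_lit 836) (nat_lit 0) (XT.lf (nat_lit 0) (nat_lit 5778565782) (nat_lit 760) (nat_lit 4859923092) (nat_lit 836) (nat_lit 68866880) (nat_lit 391) (nat_lit 5) (nat_lit 401) (nat_lit 5) (nat_lit 402) (nat_lit 5) (nat_lit 447) (nat_lit 403) (nat_lit 290)) (XT.lf (nat_lit 0) (nat_lit 1555441080) (nat_lit 760) (nat_lit 492687403) (nat_lit 836) (nat_lit 8767873196) (nat_lit 380) (nat_lit 5) (nat_lit 390) (nat_lit 5) (nat_lit 391) (nat_lit 5) (nat_lit 448) (nat_lit 403) (nat_lit 289))) (XT.nd (nat_lit 78) (nat_lit 760) (nat_lit 0) (XT.lf (nat_lit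 0) (nat_lit 4246063824) (nat_lit 836) (nat_lit 2738159874) (nat_lit 76) (nat_lit 3941797275) (nat_lit 380) (nat_lit 5) (nat_lit 391) (nat_lit 5) (nat_lit 381) (nat_lit 5) (nat_lit 449) (nat_lit 403) (nat_lit 288)) (XT.lf (nat_lit 0) (nat_lit 3941779755) (nat_lit 760) (nat_lit 2555920150) (nat_lit 836) (nat_lit 4540345909) (nat_lit 370) (nat_lit 5) (nat_lit 380) (nat_lit 5) (nat_lit 381) (nat_lit 5) (nat_lit 450) (nat_lit 403) (nat_lit 287)))) (XT.nd (nat_lit 156) (nat_lit 760) (nat_lit 0) (XT.nd (nat_lit 78) (nat_lit 760) (nat_lit 0) (XT.lf (nat_lit 0) (nat_lit 8806705228) (nat_lit 836) (nat_lit 393927909) (nat_lit 76) (nat_lit 1951431282) (nat_lit 370) (nat_lit 5) (nat_lit 381) (nat_lit 5) (nat_lit 371) (nat_lit 5) (nat_lit 451) (nat_lit 403) (nat_lit 286)) (XT.lf (nat_lit 0) (nat_lit 6489498740) (nat_lit 760) (nat_lit 4712931648) (nat_lit 836) (nat_lit 65122215) (nat_lit 360) (nat_lit 5) (nat_lit 370) (nat_lit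 5) (nat_lit 371) (nat_lit 5) (nat_lit 452) (nat_lit 403) (nat_lit 285))) (XT.nd (nat_lit 55536) (nat_lit 0) (nat_lit 22648) (XT.lf (nat_lit 0) (nat_lit 2122529580) (nat_lit 684) (nat_lit 106566629) (nat_lit 760) (nat_lit 9156000250) (nat_lit 350) (nat_lit 5) (nat_lit 359) (nat_lit 5) (nat_lit 360) (nat_lit 5) (nat_lit 453) (nat_lit 403) (nat_lit 284)) (XT.lf (nat_lit 0) (nat_lit 159088003) (nat_lit 0) (nat_lit 159088003) (nat_lit 1292) (nat_lit 3449639516) (nat_lit 648) (nat_lit 5) (nat_lit 648) (nat_lit 3) (nat_lit 665) (nat_lit 3) (nat_lit 404) (nat_lit 404) (nat_lit 332))))))) (XT.nd (nat_lit 1248) (nat_lit 9424) (nat_lit 0) (XT.nd (nat_lit 624) (nat_lit 2660) (nat_lit 0) (XT.nd (nat_lit 312) (nat_lit 1292) (nat_lit 0) (XT.nd (nat_lit 156) (nat_lit 0) (nat_lit 0) (XT.nd (nat_lit 78) (nat_lit 0) (nat_lit 0) (XT.lf (nat_lit 0) (nat_lit 2105289729) (nat_lit 1292) (nat_lit 3453351571) (nat_lit 1368) (nat_lit 2023094570)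 (nat_lit 648) (nat_lit 5) (nat_lit 665) (nat_lit 3) (nat_lit 666) (nat_lit 5) (nat_lit 405) (nat_lit 404) (nat_lit 331)) (XT.lf (nat_lit 76) (nat_lit 368873616) (nat_lit 0) (nat_lit 3201343364) (nat_lit 1368) (nat_lit 4059213597) (nat_lit 649) (nat_lit 5) (nat_lit 648) (nat_lit 5) (nat_lit 666) (nat_lit 5) (nat_lit 406) (nat_lit 404) (nat_lit 330))) (XT.nd (nat_lit 78) (nat_lit 0) (nat_lit 76) (XT.lf (nat_lit 76) (nat_lit 4294594195) (nat_lit 0) (nat_lit 755745743) (nat_lit 1368) (nat_lit 2628021298) (nat_lit 649) (nat_lit 5) (nat_lit 648) (nat_lit 5) (nat_lit 666) (nat_lit 5) (nat_lit 407) (nat_lit 404) (nat_lit 329)) (XT.lf (nat_lit 76) (nat_lit 546218054) (nat_lit 0) (nat_lit 5992248685) (nat_lit 1368) (nat_lit 1190235740) (nat_lit 650) (nat_lit 5) (nat_lit 649) (nat_lit 5) (nat_lit 667) (nat_lit 5) (nat_lit 408) (nat_lit 404) (nat_lit 328)))) (XT.nd (nat_lit 156) (nat_lit 0) (nat_lit 76) (XT.nd (nat_lit 78)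 (nat_lit 0) (nat_lit 0) (XT.lf (nat_lit 0) (nat_lit 264456261) (nat_lit 1368) (nat_lit 3206436733) (nat_lit 1444) (nat_lit 4309286185) (nat_lit 631) (nat_lit 5) (nat_lit 649) (nat_lit 5) (nat_lit 650) (nat_lit 5) (nat_lit 409) (nat_lit 404) (nat_lit 327)) (XT.lf (nat_lit 76) (nat_lit 832002843) (nat_lit 0) (nat_lit 870338774) (nat_lit 1444) (nat_lit 6130785710) (nat_lit 632) (nat_lit 5) (nat_lit 631) (nat_lit 5) (nat_lit 650) (nat_lit 5) (nat_lit 410) (nat_lit 404) (nat_lit 326))) (XT.nd (nat_lit 78) (nat_lit 0) (nat_lit 0) (XT.lf (nat_lit 0) (nat_lit 3167495144) (nat_lit 1368) (nat_lit 2924561003) (nat_lit 1444) (nat_lit 1795108081) (nat_lit 632) (nat_lit 5) (nat_lit 650) (nat_lit 5) (nat_lit 651) (nat_lit 5) (nat_lit 411) (nat_lit 404) (nat_lit 325)) (XT.lf (nat_lit 76) (nat_lit 1223404977) (nat_lit 0) (nat_lit 3418214235) (nat_lit 1444) (nat_lit 3301069307) (nat_lit 633) (nat_lit 5) (nat_lit 632) (nat_lit 5)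 (nat_lit 651) (nat_lit 5) (nat_lit 412) (nat_lit 404) (nat_lit 324))))) (XT.nd (nat_lit 312) (nat_lit 1368) (nat_lit 0) (XT.nd (nat_lit 156) (nat_lit 1368) (nat_lit 0) (XT.nd (nat_lit 78) (nat_lit 0) (nat_lit 76) (XT.lf (nat_lit 76) (nat_lit 5473697638) (nat_lit 0) (nat_lit 657649749) (nat_lit 1444) (nat_lit 1868253477) (nat_lit 633) (nat_lit 5) (nat_lit 632) (nat_lit 5) (nat_lit 651) (nat_lit 5) (nat_lit 413) (nat_lit 404) (nat_lit 323)) (XT.lf (nat_lit 76) (nat_lit 1739527520) (nat_lit 0) (nat_lit 5903886172) (nat_lit 1444) (nat_lit 414386891) (nat_lit 634) (nat_lit 5) (nat_lit 633) (nat_lit 5) (nat_lit 652) (nat_lit 5) (nat_lit 414) (nat_lit 404) (nat_lit 322))) (XT.nd (nat_lit 78) (nat_lit 0) (nat_lit 0) (XT.lf (nat_lit 0) (nat_lit 1043493624) (nat_lit 1444) (nat_lit 2024639678) (nat_lit 1520) (nat_lit 5049113221) (nat_lit 614) (nat_lit 5) (nat_lit 633) (nat_lit 5) (nat_lit 634) (nat_lit 5) (nat_lit 415) (nat_lit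 404) (nat_lit 321)) (XT.lf (nat_lit 76) (nat_lit 2362602938) (nat_lit 0) (nat_lit 145894776) (nat_lit 1520) (nat_lit 5669658594) (nat_lit 615) (nat_lit 5) (nat_lit 614) (nat_lit 5) (nat_lit 634) (nat_lit 5) (nat_lit 416) (nat_lit 404) (nat_lit 320)))) (XT.nd (nat_lit 156) (nat_lit 1444) (nat_lit 0) (XT.nd (nat_lit 78) (nat_lit 0) (nat_lit 0) (XT.lf (nat_lit 0) (nat_lit 4003616495) (nat_lit 1444) (nat_lit 1414541126) (nat_lit 1520) (nat_lit 2822110375) (nat_lit 615) (nat_lit 5) (nat_lit 634) (nat_lit 5) (nat_lit 635) (nat_lit 5) (nat_lit 417) (nat_lit 404) (nat_lit 319)) (XT.lf (nat_lit 76) (nat_lit 3093441118) (nat_lit 0) (nat_lit 2425593383) (nat_lit 1520) (nat_lit 2784779480) (nat_lit 616) (nat_lit 5) (nat_lit 615) (nat_lit 5) (nat_lit 635) (nat_lit 5) (nat_lit 418) (nat_lit 404) (nat_lit 318))) (XT.nd (nat_lit 78) (nat_lit 1520) (nat_lit 0) (XT.lf (nat_lit 0) (nat_lit 7048262378) (nat_lit 1444) (nat_lit 683001852)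 (nat_lit 1520) (nat_lit 637696625) (nat_lit 616) (nat_lit 5) (nat_lit 635) (nat_lit 5) (nat_lit 636) (nat_lit 5) (nat_lit 419) (nat_lit 404) (nat_lit 317)) (XT.lf (nat_lit 0) (nat_lit 182656314) (nat_lit 1520) (nat_lit 4486482602) (nat_lit 1596) (nat_lit 3766004196) (nat_lit 596) (nat_lit 5) (nat_lit 616) (nat_lit 5) (nat_lit 617) (nat_lit 5) (nat_lit 420) (nat_lit 404) (nat_lit 316)))))) (XT.nd (nat_lit 624) (nat_lit 7980) (nat_lit 0) (XT.nd (nat_lit 312) (nat_lit 1444) (nat_lit 0) (XT.nd (nat_lit 156) (nat_lit 0) (nat_lit 76) (XT.nd (nat_lit 78) (nat_lit 0) (nat_lit 76) (XT.lf (nat_lit 76) (nat_lit 151849113) (nat_lit 0) (nat_lit 1522880743) (nat_lit 1596) (nat_lit 6828217846) (nat_lit 597) (nat_lit 5) (nat_lit 596) (nat_lit 5) (nat_lit 617) (nat_lit 5) (nat_lit 421) (nat_lit 404) (nat_lit 315)) (XT.lf (nat_lit 0) (nat_lit 3209109412) (nat_lit 1520) (nat_lit 3660404260) (nat_lit 1596) (nat_lit 1702345420) (nat_lit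 597) (nat_lit 5) (nat_lit 617) (nat_lit 5) (nat_lit 618) (nat_lit 5) (nat_lit 422) (nat_lit 404) (nat_lit 314))) (XT.nd (nat_lit 78) (nat_lit 0) (nat_lit 0) (XT.lf (nat_lit 76) (nat_lit 1107451957) (nat_lit 0) (nat_lit 3655774636) (nat_lit 1596) (nat_lit 3879141118) (nat_lit 598) (nat_lit 5) (nat_lit 597) (nat_lit 5) (nat_lit 618) (nat_lit 5) (nat_lit 423) (nat_lit 404) (nat_lit 313)) (XT.lf (nat_lit 76) (nat_lit 5999330675) (nat_lit 0) (nat_lit 345850507) (nat_lit 1596) (nat_lit 2369170219) (nat_lit 598) (nat_lit 5) (nat_lit 597) (nat_lit 5) (nat_lit 618) (nat_lit 5) (nat_lit 424) (nat_lit 404) (nat_lit 312)))) (XT.nd (nat_lit 156) (nat_lit 0) (nat_lit 76) (XT.nd (nat_lit 78) (nat_lit 1596) (nat_lit 0) (XT.lf (nat_lit 76) (nat_lit 2189178703) (nat_lit 0) (nat_lit 5776265018) (nat_lit 1596) (nat_lit 822197665) (nat_lit 599) (nat_lit 5) (nat_lit 598) (nat_lit 5) (nat_lit 619) (nat_lit 5) (nat_lit 425) (nat_lit 404)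 (nat_lit 311)) (XT.lf (nat_lit 0) (nat_lit 739433801) (nat_lit 1596) (nat_lit 1662435731) (nat_lit 1672) (nat_lit 6460556892) (nat_lit 577) (nat_lit 5) (nat_lit 598) (nat_lit 5) (nat_lit 599) (nat_lit 5) (nat_lit 426) (nat_lit 404) (nat_lit 310))) (XT.nd (nat_lit 78) (nat_lit 0) (nat_lit 0) (XT.lf (nat_lit 0) (nat_lit 2323811868) (nat_lit 1596) (nat_lit 5555256805) (nat_lit 76) (nat_lit 1059479330) (nat_lit 578) (nat_lit 5) (nat_lit 599) (nat_lit 5) (nat_lit 579) (nat_lit 5) (nat_lit 427) (nat_lit 404) (nat_lit 309)) (XT.lf (nat_lit 0) (nat_lit 3940961907) (nat_lit 1596) (nat_lit 500831747) (nat_lit 76) (nat_lit 4574376672) (nat_lit 578) (nat_lit 5) (nat_lit 599) (nat_lit 5) (nat_lit 579) (nat_lit 5) (nat_lit 428) (nat_lit 404) (nat_lit 308))))) (XT.nd (nat_lit 312) (nat_lit 2964) (nat_lit 0) (XT.nd (nat_lit 156) (nat_lit 1824) (nat_lit 0) (XT.nd (nat_lit 78) (nat_lit 1672) (nat_lit 0) (XT.lf (nat_lit 0) (nat_lit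 4695330571) (nat_lit 1596) (nat_lit 900068684) (nat_lit 1672) (nat_lit 3499846955) (nat_lit 557) (nat_lit 5) (nat_lit 578) (nat_lit 5) (nat_lit 579) (nat_lit 5) (nat_lit 429) (nat_lit 404) (nat_lit 307)) (XT.lf (nat_lit 0) (nat_lit 797873773) (nat_lit 1672) (nat_lit 6486079646) (nat_lit 1748) (nat_lit 1891929630) (nat_lit 535) (nat_lit 5) (nat_lit 557) (nat_lit 5) (nat_lit 558) (nat_lit 5) (nat_lit 430) (nat_lit 404) (nat_lit 306))) (XT.nd (nat_lit 78) (nat_lit 1824) (nat_lit 0) (XT.lf (nat_lit 0) (nat_lit 6132035767) (nat_lit 1672) (nat_lit 2884899029) (nat_lit 1748) (nat_lit 240984708) (nat_lit 535) (nat_lit 5) (nat_lit 557) (nat_lit 5) (nat_lit 558) (nat_lit 5) (nat_lit 431) (nat_lit 404) (nat_lit 305)) (XT.lf (nat_lit 0) (nat_lit 1419365298) (nat_lit 1824) (nat_lit 7116838816) (nat_lit 76) (nat_lit 805298975) (nat_lit 511) (nat_lit 5) (nat_lit 535) (nat_lit 5) (nat_lit 512) (nat_lit 5) (nat_lit 432) (nat_lit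 404) (nat_lit 304)))) (XT.nd (nat_lit 156) (nat_lit 1140) (nat_lit 0) (XT.nd (nat_lit 78) (nat_lit 1824) (nat_lit 0) (XT.lf (nat_lit 0) (nat_lit 3125817302) (nat_lit 1824) (nat_lit 1744042781) (nat_lit 76) (nat_lit 4556543969) (nat_lit 511) (nat_lit 5) (nat_lit 535) (nat_lit 5) (nat_lit 512) (nat_lit 5) (nat_lit 433) (nat_lit 404) (nat_lit 303)) (XT.lf (nat_lit 0) (nat_lit 3764543359) (nat_lit 1824) (nat_lit 1102667718) (nat_lit 1900) (nat_lit 4645775703) (nat_lit 487) (nat_lit 5) (nat_lit 511) (nat_lit 5) (nat_lit 512) (nat_lit 5) (nat_lit 434) (nat_lit 404) (nat_lit 302))) (XT.nd (nat_lit 78) (nat_lit 1140) (nat_lit 0) (XT.lf (nat_lit 0) (nat_lit 6649716752) (nat_lit 1900) (nat_lit 233373153) (nat_lit 76) (nat_lit 2718085576) (nat_lit 487) (nat_lit 5) (nat_lit 512) (nat_lit 5) (nat_lit 488) (nat_lit 5) (nat_lit 435) (nat_lit 404) (nat_lit 301)) (XT.lf (nat_lit 0) (nat_lit 5435014838) (nat_lit 1140) (nat_lit 3052618476)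 (nat_lit 1216) (nat_lit 1203099427) (nat_lit 472) (nat_lit 5) (nat_lit 487) (nat_lit 5) (nat_lit 488) (nat_lit 5) (nat_lit 436) (nat_lit 404) (nat_lit 300))))))))
noncomputable def xc59 : XT := (XT.nd (nat_lit 58110) (nat_lit 0) (nat_lit 760) (XT.nd (nat_lit 56862) (nat_lit 0) (nat_lit 17860) (XT.nd (nat_lit 624) (nat_lit 3952) (nat_lit 0) (XT.nd (nat_lit 312) (nat_lit 2660) (nat_lit 0) (XT.nd (nat_lit 156) (nat_lit 912) (nat_lit 0) (XT.nd (nat_lit 78) (nat_lit 0) (nat_lit 0) (XT.lf (nat_lit 0) (nat_lit 566478249) (nat_lit 988) (nat_lit 8356137737) (nat_lit 76) (nat_lit 859512597) (nat_lit 459) (nat_lit 5) (nat_lit 472) (nat_lit 5) (nat_lit 460) (nat_lit 5) (nat_lit 437) (nat_lit 404) (nat_lit 299)) (XT.lf (nat_lit 0) (nat_lit 2381967288) (nat_lit 988) (nat_lit 2645575548) (nat_lit 76) (nat_lit 4847117869) (nat_lit 459) (nat_lit 5) (nat_lit 472) (nat_lit 5) (nat_lit 460) (nat_lit 5) (nat_lit 438) (nat_lit 404)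 (nat_lit 298))) (XT.nd (nat_lit 78) (nat_lit 0) (nat_lit 0) (XT.lf (nat_lit 0) (nat_lit 3200145995) (nat_lit 912) (nat_lit 1032486801) (nat_lit 988) (nat_lit 5736433341) (nat_lit 447) (nat_lit 5) (nat_lit 459) (nat_lit 5) (nat_lit 460) (nat_lit 5) (nat_lit 439) (nat_lit 404) (nat_lit 297)) (XT.lf (nat_lit 0) (nat_lit 6136324130) (nat_lit 988) (nat_lit 907553644) (nat_lit 76) (nat_lit 3021161653) (nat_lit 447) (nat_lit 5) (nat_lit 460) (nat_lit 5) (nat_lit 448) (nat_lit 5) (nat_lit 440) (nat_lit 404) (nat_lit 296)))) (XT.nd (nat_lit 156) (nat_lit 912) (nat_lit 0) (XT.nd (nat_lit 78) (nat_lit 912) (nat_lit 0) (XT.lf (nat_lit 0) (nat_lit 5110322214) (nat_lit 836) (nat_lit 2986596107) (nat_lit 912) (nat_lit 2065637280) (nat_lit 436) (nat_lit 5) (nat_lit 447) (nat_lit 5) (nat_lit 448) (nat_lit 5) (nat_lit 441) (nat_lit 404) (nat_lit 295)) (XT.lf (nat_lit 0) (nat_lit 983148143) (nat_lit 912) (nat_lit 9112661774) (nat_lit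 988) (nat_lit 166230472) (nat_lit 424) (nat_lit 5) (nat_lit 436) (nat_lit 5) (nat_lit 437) (nat_lit 5) (nat_lit 442) (nat_lit 404) (nat_lit 294))) (XT.nd (nat_lit 78) (nat_lit 836) (nat_lit 0) (XT.lf (nat_lit 0) (nat_lit 1781071755) (nat_lit 988) (nat_lit 3207939340) (nat_lit 76) (nat_lit 5373611057) (nat_lit 423) (nat_lit 5) (nat_lit 436) (nat_lit 5) (nat_lit 424) (nat_lit 5) (nat_lit 443) (nat_lit 404) (nat_lit 293)) (XT.lf (nat_lit 0) (nat_lit 3001797632) (nat_lit 836) (nat_lit 762425539) (nat_lit 912) (nat_lit 6700987825) (nat_lit 412) (nat_lit 5) (nat_lit 423) (nat_lit 5) (nat_lit 424) (nat_lit 5) (nat_lit 444) (nat_lit 404) (nat_lit 292))))) (XT.nd (nat_lit 312) (nat_lit 2280) (nat_lit 0) (XT.nd (nat_lit 156) (nat_lit 836) (nat_lit 0) (XT.nd (nat_lit 78) (nat_lit 836) (nat_lit 0) (XT.lf (nat_lit 0) (nat_lit 5811644942) (nat_lit 912) (nat_lit 1234553650) (nat_lit 76) (nat_lit 3523160879) (nat_lit 412) (nat_lit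 5) (nat_lit 424) (nat_lit 5) (nat_lit 413) (nat_lit 5) (nat_lit 445) (nat_lit 404) (nat_lit 291)) (XT.lf (nat_lit 0) (nat_lit 5160770124) (nat_lit 836) (nat_lit 2758092852) (nat_lit 912) (nat_lit 2756350982) (nat_lit 401) (nat_lit 5) (nat_lit 412) (nat_lit 5) (nat_lit 413) (nat_lit 5) (nat_lit 446) (nat_lit 404) (nat_lit 290))) (XT.nd (nat_lit 78) (nat_lit 76) (nat_lit 0) (XT.lf (nat_lit 0) (nat_lit 897952999) (nat_lit 760) (nat_lit 9175469150) (nat_lit 836) (nat_lit 709659450) (nat_lit 391) (nat_lit 5) (nat_lit 401) (nat_lit 5) (nat_lit 402) (nat_lit 5) (nat_lit 447) (nat_lit 404) (nat_lit 289)) (XT.lf (nat_lit 0) (nat_lit 1396064623) (nat_lit 836) (nat_lit 3427588698) (nat_lit 76) (nat_lit 6068550918) (nat_lit 390) (nat_lit 5) (nat_lit 401) (nat_lit 5) (nat_lit 391) (nat_lit 5) (nat_lit 448) (nat_lit 404) (nat_lit 288)))) (XT.nd (nat_lit 156) (nat_lit 1520) (nat_lit 0) (XT.nd (nat_lit 78) (nat_lit 0) (nat_lit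 0) (XT.lf (nat_lit 0) (nat_lit 3175349054) (nat_lit 760) (nat_lit 360712022) (nat_lit 836) (nat_lit 7467321235) (nat_lit 380) (nat_lit 5) (nat_lit 390) (nat_lit 5) (nat_lit 391) (nat_lit 5) (nat_lit 449) (nat_lit 404) (nat_lit 287)) (XT.lf (nat_lit 0) (nat_lit 5750485957) (nat_lit 836) (nat_lit 1207807674) (nat_lit 76) (nat_lit 4157857744) (nat_lit 380) (nat_lit 5) (nat_lit 391) (nat_lit 5) (nat_lit 381) (nat_lit 5) (nat_lit 450) (nat_lit 404) (nat_lit 286))) (XT.nd (nat_lit 78) (nat_lit 760) (nat_lit 0) (XT.lf (nat_lit 0) (nat_lit 5595302356) (nat_lit 760) (nat_lit 2434242965) (nat_lit 836) (nat_lit 3201223580) (nat_lit 370) (nat_lit 5) (nat_lit 380) (nat_lit 5) (nat_lit 381) (nat_lit 5) (nat_lit 451) (nat_lit 404) (nat_lit 285)) (XT.lf (nat_lit 0) (nat_lit 1183919805) (nat_lit 760) (nat_lit 9182109577) (nat_lit 836) (nat_lit 981412525) (nat_lit 360) (nat_lit 5) (nat_lit 370) (nat_lit 5) (nat_lit 371) (nat_lit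 5) (nat_lit 452) (nat_lit 404) (nat_lit 284)))))) (XT.nd (nat_lit 624) (nat_lit 2660) (nat_lit 0) (XT.nd (nat_lit 312) (nat_lit 0) (nat_lit 76) (XT.nd (nat_lit 156) (nat_lit 1368) (nat_lit 0) (XT.nd (nat_lit 78) (nat_lit 0) (nat_lit 0) (XT.lf (nat_lit 0) (nat_lit 882197152) (nat_lit 0) (nat_lit 882197152) (nat_lit 1292) (nat_lit 2049980432) (nat_lit 648) (nat_lit 5) (nat_lit 648) (nat_lit 3) (nat_lit 665) (nat_lit 3) (nat_lit 405) (nat_lit 405) (nat_lit 330)) (XT.lf (nat_lit 0) (nat_lit 4961474999) (nat_lit 1292) (nat_lit 2045166189) (nat_lit 1368) (nat_lit 670447810) (nat_lit 648) (nat_lit 5) (nat_lit 665) (nat_lit 3) (nat_lit 666) (nat_lit 5) (nat_lit 406) (nat_lit 405) (nat_lit 329))) (XT.nd (nat_lit 78) (nat_lit 1368) (nat_lit 0) (XT.lf (nat_lit 76) (nat_lit 1843784737) (nat_lit 0) (nat_lit 4566266232) (nat_lit 1368) (nat_lit 1316599627) (nat_lit 649) (nat_lit 5) (nat_lit 648) (nat_lit 5) (nat_lit 666) (nat_lit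 5) (nat_lit 407) (nat_lit 405) (nat_lit 328)) (XT.lf (nat_lit 0) (nat_lit 86695783) (nat_lit 1368) (nat_lit 1958971337) (nat_lit 1444) (nat_lit 5731967000) (nat_lit 630) (nat_lit 5) (nat_lit 648) (nat_lit 5) (nat_lit 649) (nat_lit 5) (nat_lit 408) (nat_lit 405) (nat_lit 327)))) (XT.nd (nat_lit 156) (nat_lit 0) (nat_lit 0) (XT.nd (nat_lit 78) (nat_lit 0) (nat_lit 0) (XT.lf (nat_lit 0) (nat_lit 1482007609) (nat_lit 1368) (nat_lit 5791189338) (nat_lit 1444) (nat_lit 556634714) (nat_lit 631) (nat_lit 5) (nat_lit 649) (nat_lit 5) (nat_lit 650) (nat_lit 5) (nat_lit 409) (nat_lit 405) (nat_lit 326)) (XT.lf (nat_lit 0) (nat_lit 2897319609) (nat_lit 1368) (nat_lit 1773445448) (nat_lit 1444) (nat_lit 3212466221) (nat_lit 631) (nat_lit 5) (nat_lit 649) (nat_lit 5) (nat_lit 650) (nat_lit 5) (nat_lit 410) (nat_lit 405) (nat_lit 325))) (XT.nd (nat_lit 78) (nat_lit 0) (nat_lit 76) (XT.lf (nat_lit 76) (nat_lit 2335913446) (nat_lit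 0) (nat_lit 1986184510) (nat_lit 1444) (nat_lit 3615977728) (nat_lit 632) (nat_lit 5) (nat_lit 631) (nat_lit 5) (nat_lit 650) (nat_lit 5) (nat_lit 411) (nat_lit 405) (nat_lit 324)) (XT.lf (nat_lit 0) (nat_lit 5758862411) (nat_lit 1368) (nat_lit 1467251703) (nat_lit 1444) (nat_lit 768233051) (nat_lit 632) (nat_lit 5) (nat_lit 650) (nat_lit 5) (nat_lit 651) (nat_lit 5) (nat_lit 412) (nat_lit 405) (nat_lit 323))))) (XT.nd (nat_lit 312) (nat_lit 1368) (nat_lit 0) (XT.nd (nat_lit 156) (nat_lit 0) (nat_lit 76) (XT.nd (nat_lit 78) (nat_lit 1444) (nat_lit 0) (XT.lf (nat_lit 76) (nat_lit 2753701225) (nat_lit 0) (nat_lit 4468975604) (nat_lit 1444) (nat_lit 829100957) (nat_lit 633) (nat_lit 5) (nat_lit 632) (nat_lit 5) (nat_lit 651) (nat_lit 5) (nat_lit 413) (nat_lit 405) (nat_lit 322)) (XT.lf (nat_lit 0) (nat_lit 574965693) (nat_lit 1444) (nat_lit 1055113124) (nat_lit 1520) (nat_lit 6480649681) (nat_lit 613) (nat_lit 5)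 (nat_lit 632) (nat_lit 5) (nat_lit 633) (nat_lit 5) (nat_lit 414) (nat_lit 405) (nat_lit 321))) (XT.nd (nat_lit 78) (nat_lit 0) (nat_lit 0) (XT.lf (nat_lit 0) (nat_lit 1994082885) (nat_lit 1444) (nat_lit 4888580964) (nat_lit 1520) (nat_lit 1288123350) (nat_lit 614) (nat_lit 5) (nat_lit 633) (nat_lit 5) (nat_lit 634) (nat_lit 5) (nat_lit 415) (nat_lit 405) (nat_lit 320)) (XT.lf (nat_lit 0) (nat_lit 3428298851) (nat_lit 1444) (nat_lit 542276318) (nat_lit 1520) (nat_lit 4261737578) (nat_lit 614) (nat_lit 5) (nat_lit 633) (nat_lit 5) (nat_lit 634) (nat_lit 5) (nat_lit 416) (nat_lit 405) (nat_lit 319)))) (XT.nd (nat_lit 156) (nat_lit 1444) (nat_lit 0) (XT.nd (nat_lit 78) (nat_lit 0) (nat_lit 76) (XT.lf (nat_lit 76) (nat_lit 3922692360) (nat_lit 0) (nat_lit 963381333) (nat_lit 1520) (nat_lit 3409097621) (nat_lit 615) (nat_lit 5) (nat_lit 614) (nat_lit 5) (nat_lit 634) (nat_lit 5) (nat_lit 417) (nat_lit 405) (nat_lit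 318)) (XT.lf (nat_lit 76) (nat_lit 92373868) (nat_lit 0) (nat_lit 6268500301) (nat_lit 1520) (nat_lit 1998655480) (nat_lit 616) (nat_lit 5) (nat_lit 615) (nat_lit 5) (nat_lit 635) (nat_lit 5) (nat_lit 418) (nat_lit 405) (nat_lit 317))) (XT.nd (nat_lit 78) (nat_lit 1520) (nat_lit 0) (XT.lf (nat_lit 76) (nat_lit 4679212190) (nat_lit 0) (nat_lit 3192043844) (nat_lit 1520) (nat_lit 553797410) (nat_lit 616) (nat_lit 5) (nat_lit 615) (nat_lit 5) (nat_lit 635) (nat_lit 5) (nat_lit 419) (nat_lit 405) (nat_lit 316)) (XT.lf (nat_lit 76) (nat_lit 850976749) (nat_lit 0) (nat_lit 33234607) (nat_lit 1596) (nat_lit 7608030520) (nat_lit 596) (nat_lit 5) (nat_lit 595) (nat_lit 5) (nat_lit 616) (nat_lit 5) (nat_lit 420) (nat_lit 405) (nat_lit 315))))))) (XT.nd (nat_lit 1248) (nat_lit 7752) (nat_lit 0) (XT.nd (nat_lit 624) (nat_lit 7980) (nat_lit 0) (XT.nd (nat_lit 312) (nat_lit 1444) (nat_lit 0) (XT.nd (nat_lit 156) (nat_lit 0)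 (nat_lit 76) (XT.nd (nat_lit 78) (nat_lit 0) (nat_lit 0) (XT.lf (nat_lit 0) (nat_lit 2360872241) (nat_lit 1520) (nat_lit 3014912399) (nat_lit 1596) (nat_lit 3184570079) (nat_lit 596) (nat_lit 5) (nat_lit 616) (nat_lit 5) (nat_lit 617) (nat_lit 5) (nat_lit 421) (nat_lit 405) (nat_lit 314)) (XT.lf (nat_lit 76) (nat_lit 1705914241) (nat_lit 0) (nat_lit 2144304830) (nat_lit 1596) (nat_lit 4779947693) (nat_lit 597) (nat_lit 5) (nat_lit 596) (nat_lit 5) (nat_lit 617) (nat_lit 5) (nat_lit 422) (nat_lit 405) (nat_lit 313))) (XT.nd (nat_lit 78) (nat_lit 0) (nat_lit 0) (XT.lf (nat_lit 0) (nat_lit 5369524612) (nat_lit 1520) (nat_lit 2167234910) (nat_lit 1596) (nat_lit 1164612093) (nat_lit 597) (nat_lit 5) (nat_lit 617) (nat_lit 5) (nat_lit 618) (nat_lit 5) (nat_lit 423) (nat_lit 405) (nat_lit 312)) (XT.lf (nat_lit 76) (nat_lit 2685673317) (nat_lit 0) (nat_lit 4238051265) (nat_lit 1596) (nat_lit 1850185814) (nat_lit 598) (nat_lit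 5) (nat_lit 597) (nat_lit 5) (nat_lit 618) (nat_lit 5) (nat_lit 424) (nat_lit 405) (nat_lit 311)))) (XT.nd (nat_lit 156) (nat_lit 0) (nat_lit 0) (XT.nd (nat_lit 78) (nat_lit 1520) (nat_lit 0) (XT.lf (nat_lit 76) (nat_lit 7644878387) (nat_lit 0) (nat_lit 851945101) (nat_lit 1596) (nat_lit 351320166) (nat_lit 598) (nat_lit 5) (nat_lit 597) (nat_lit 5) (nat_lit 618) (nat_lit 5) (nat_lit 425) (nat_lit 405) (nat_lit 310)) (XT.lf (nat_lit 0) (nat_lit 1177531618) (nat_lit 1596) (nat_lit 5139366665) (nat_lit 1672) (nat_lit 2606501344) (nat_lit 577) (nat_lit 5) (nat_lit 598) (nat_lit 5) (nat_lit 599) (nat_lit 5) (nat_lit 426) (nat_lit 405) (nat_lit 309))) (XT.nd (nat_lit 78) (nat_lit 0) (nat_lit 76) (XT.lf (nat_lit 0) (nat_lit 2720079635) (nat_lit 1596) (nat_lit 141154784) (nat_lit 1672) (nat_lit 6139123389) (nat_lit 577) (nat_lit 5) (nat_lit 598) (nat_lit 5) (nat_lit 599) (nat_lit 5) (nat_lit 427) (nat_lit 405) (nat_lit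 308)) (XT.lf (nat_lit 0) (nat_lit 4305073837) (nat_lit 1596) (nat_lit 4080760853) (nat_lit 76) (nat_lit 692788559) (nat_lit 578) (nat_lit 5) (nat_lit 599) (nat_lit 5) (nat_lit 579) (nat_lit 5) (nat_lit 428) (nat_lit 405) (nat_lit 307))))) (XT.nd (nat_lit 312) (nat_lit 4712) (nat_lit 0) (XT.nd (nat_lit 156) (nat_lit 1748) (nat_lit 0) (XT.nd (nat_lit 78) (nat_lit 0) (nat_lit 0) (XT.lf (nat_lit 0) (nat_lit 1057532213) (nat_lit 1596) (nat_lit 4865963889) (nat_lit 1672) (nat_lit 3234923332) (nat_lit 557) (nat_lit 5) (nat_lit 578) (nat_lit 5) (nat_lit 579) (nat_lit 5) (nat_lit 429) (nat_lit 405) (nat_lit 306)) (XT.lf (nat_lit 0) (nat_lit 6333521008) (nat_lit 1596) (nat_lit 1243468390) (nat_lit 1672) (nat_lit 1662768092) (nat_lit 557) (nat_lit 5) (nat_lit 578) (nat_lit 5) (nat_lit 579) (nat_lit 5) (nat_lit 430) (nat_lit 405) (nat_lit 305))) (XT.nd (nat_lit 78) (nat_lit 76) (nat_lit 0) (XT.lf (nat_lit 0) (nat_lit 2387201747)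 (nat_lit 1672) (nat_lit 6883596553) (nat_lit 1748) (nat_lit 51779094) (nat_lit 535) (nat_lit 5) (nat_lit 557) (nat_lit 5) (nat_lit 558) (nat_lit 5) (nat_lit 431) (nat_lit 405) (nat_lit 304)) (XT.lf (nat_lit 0) (nat_lit 1574437958) (nat_lit 1748) (nat_lit 1620138169) (nat_lit 76) (nat_lit 6212193313) (nat_lit 534) (nat_lit 5) (nat_lit 557) (nat_lit 5) (nat_lit 535) (nat_lit 5) (nat_lit 432) (nat_lit 405) (nat_lit 303)))) (XT.nd (nat_lit 156) (nat_lit 2964) (nat_lit 0) (XT.nd (nat_lit 78) (nat_lit 0) (nat_lit 0) (XT.lf (nat_lit 0) (nat_lit 3237721648) (nat_lit 1824) (nat_lit 5665458728) (nat_lit 76) (nat_lit 589353393) (nat_lit 511) (nat_lit 5) (nat_lit 535) (nat_lit 5) (nat_lit 512) (nat_lit 5) (nat_lit 433) (nat_lit 405) (nat_lit 302)) (XT.lf (nat_lit 0) (nat_lit 4943205260) (nat_lit 1824) (nat_lit 216456122) (nat_lit 76) (nat_lit 4420173318) (nat_lit 511) (nat_lit 5) (nat_lit 535) (nat_lit 5) (nat_lit 512) (nat_lit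 5) (nat_lit 434) (nat_lit 405) (nat_lit 301))) (XT.nd (nat_lit 78) (nat_lit 1140) (nat_lit 0) (XT.lf (nat_lit 0) (nat_lit 5392022349) (nat_lit 1824) (nat_lit 1303073149) (nat_lit 1900) (nat_lit 2973540213) (nat_lit 487) (nat_lit 5) (nat_lit 511) (nat_lit 5) (nat_lit 512) (nat_lit 5) (nat_lit 435) (nat_lit 405) (nat_lit 300)) (XT.lf (nat_lit 0) (nat_lit 1336305770) (nat_lit 1140) (nat_lit 7150554265) (nat_lit 1216) (nat_lit 1272255977) (nat_lit 472) (nat_lit 5) (nat_lit 487) (nat_lit 5) (nat_lit 488) (nat_lit 5) (nat_lit 436) (nat_lit 405) (nat_lit 299)))))) (XT.nd (nat_lit 624) (nat_lit 4028) (nat_lit 0) (XT.nd (nat_lit 312) (nat_lit 1824) (nat_lit 0) (XT.nd (nat_lit 156) (nat_lit 912) (nat_lit 0) (XT.nd (nat_lit 78) (nat_lit 912) (nat_lit 0) (XT.lf (nat_lit 0) (nat_lit 472277272) (nat_lit 1216) (nat_lit 2763915700) (nat_lit 76) (nat_lit 6614846890) (nat_lit 471) (nat_lit 5) (nat_lit 487) (nat_lit 5) (nat_lit 472)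 (nat_lit 5) (nat_lit 437) (nat_lit 405) (nat_lit 298)) (XT.lf (nat_lit 0) (nat_lit 2237603800) (nat_lit 988) (nat_lit 6930763218) (nat_lit 76) (nat_lit 776208216) (nat_lit 459) (nat_lit 5) (nat_lit 472) (nat_lit 5) (nat_lit 460) (nat_lit 5) (nat_lit 438) (nat_lit 405) (nat_lit 297))) (XT.nd (nat_lit 78) (nat_lit 912) (nat_lit 0) (XT.lf (nat_lit 0) (nat_lit 4056857601) (nat_lit 988) (nat_lit 1137215222) (nat_lit 76) (nat_lit 4845536077) (nat_lit 459) (nat_lit 5) (nat_lit 472) (nat_lit 5) (nat_lit 460) (nat_lit 5) (nat_lit 439) (nat_lit 405) (nat_lit 296)) (XT.lf (nat_lit 0) (nat_lit 4815149227) (nat_lit 912) (nat_lit 1107550433) (nat_lit 988) (nat_lit 4213639515) (nat_lit 447) (nat_lit 5) (nat_lit 459) (nat_lit 5) (nat_lit 460) (nat_lit 5) (nat_lit 440) (nat_lit 405) (nat_lit 295)))) (XT.nd (nat_lit 156) (nat_lit 988) (nat_lit 0) (XT.nd (nat_lit 78) (nat_lit 0) (nat_lit 0) (XT.lf (nat_lit 0) (nat_lit 635037529)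 (nat_lit 836) (nat_lit 7201725302) (nat_lit 912) (nat_lit 2398023139) (nat_lit 436) (nat_lit 5) (nat_lit 447) (nat_lit 5) (nat_lit 448) (nat_lit 5) (nat_lit 441) (nat_lit 405) (nat_lit 294)) (XT.lf (nat_lit 0) (nat_lit 6754729026) (nat_lit 836) (nat_lit 3056875095) (nat_lit 912) (nat_lit 523147643) (nat_lit 436) (nat_lit 5) (nat_lit 447) (nat_lit 5) (nat_lit 448) (nat_lit 5) (nat_lit 442) (nat_lit 405) (nat_lit 293))) (XT.nd (nat_lit 78) (nat_lit 0) (nat_lit 0) (XT.lf (nat_lit 0) (nat_lit 1375199016) (nat_lit 988) (nat_lit 7879896830) (nat_lit 76) (nat_lit 1181356761) (nat_lit 423) (nat_lit 5) (nat_lit 436) (nat_lit 5) (nat_lit 424) (nat_lit 5) (nat_lit 443) (nat_lit 405) (nat_lit 292)) (XT.lf (nat_lit 0) (nat_lit 3328977850) (nat_lit 988) (nat_lit 1719674208) (nat_lit 76) (nat_lit 5490976844) (nat_lit 423) (nat_lit 5) (nat_lit 436) (nat_lit 5) (nat_lit 424) (nat_lit 5) (nat_lit 444) (nat_lit 405) (nat_lit 291)))))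 (XT.nd (nat_lit 312) (nat_lit 1520) (nat_lit 0) (XT.nd (nat_lit 156) (nat_lit 836) (nat_lit 0) (XT.nd (nat_lit 78) (nat_lit 836) (nat_lit 0) (XT.lf (nat_lit 0) (nat_lit 4604044188) (nat_lit 836) (nat_lit 728108520) (nat_lit 912) (nat_lit 5312509606) (nat_lit 412) (nat_lit 5) (nat_lit 423) (nat_lit 5) (nat_lit 424) (nat_lit 5) (nat_lit 445) (nat_lit 405) (nat_lit 290)) (XT.lf (nat_lit 0) (nat_lit 285421863) (nat_lit 836) (nat_lit 7108002150) (nat_lit 912) (nat_lit 3358011723) (nat_lit 401) (nat_lit 5) (nat_lit 412) (nat_lit 5) (nat_lit 413) (nat_lit 5) (nat_lit 446) (nat_lit 405) (nat_lit 289))) (XT.nd (nat_lit 78) (nat_lit 836) (nat_lit 0) (XT.lf (nat_lit 0) (nat_lit 6794771101) (nat_lit 836) (nat_lit 2727401171) (nat_lit 912) (nat_lit 1337647323) (nat_lit 401) (nat_lit 5) (nat_lit 412) (nat_lit 5) (nat_lit 413) (nat_lit 5) (nat_lit 447) (nat_lit 405) (nat_lit 288)) (XT.lf (nat_lit 0) (nat_lit 722295304) (nat_lit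 836) (nat_lit 8510169675) (nat_lit 76) (nat_lit 1737639157) (nat_lit 390) (nat_lit 5) (nat_lit 401) (nat_lit 5) (nat_lit 391) (nat_lit 5) (nat_lit 448) (nat_lit 405) (nat_lit 287)))) (XT.nd (nat_lit 156) (nat_lit 760) (nat_lit 0) (XT.nd (nat_lit 78) (nat_lit 760) (nat_lit 0) (XT.lf (nat_lit 0) (nat_lit 2832470706) (nat_lit 836) (nat_lit 1958923054) (nat_lit 76) (nat_lit 6290484868) (nat_lit 390) (nat_lit 5) (nat_lit 401) (nat_lit 5) (nat_lit 391) (nat_lit 5) (nat_lit 449) (nat_lit 405) (nat_lit 286)) (XT.lf (nat_lit 0) (nat_lit 4765960181) (nat_lit 760) (nat_lit 231604532) (nat_lit 836) (nat_lit 6198069597) (nat_lit 380) (nat_lit 5) (nat_lit 390) (nat_lit 5) (nat_lit 391) (nat_lit 5) (nat_lit 450) (nat_lit 405) (nat_lit 285))) (XT.nd (nat_lit 78) (nat_lit 0) (nat_lit 0) (XT.lf (nat_lit 0) (nat_lit 295474811) (nat_lit 760) (nat_lit 6936319191) (nat_lit 836) (nat_lit 4079354435) (nat_lit 370) (nat_lit 5) (nat_lit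 380) (nat_lit 5) (nat_lit 381) (nat_lit 5) (nat_lit 451) (nat_lit 405) (nat_lit 284)) (XT.lf (nat_lit 0) (nat_lit 7220748394) (nat_lit 760) (nat_lit 2316842100) (nat_lit 836) (nat_lit 1890844700) (nat_lit 370) (nat_lit 5) (nat_lit 380) (nat_lit 5) (nat_lit 381) (nat_lit 5) (nat_lit 452) (nat_lit 405) (nat_lit 283))))))))
noncomputable def xc60 : XT := (XT.nd (nat_lit 2496) (nat_lit 6916) (nat_lit 0) (XT.nd (nat_lit 1248) (nat_lit 9424) (nat_lit 0) (XT.nd (nat_lit 624) (nat_lit 1292) (nat_lit 0) (XT.nd (nat_lit 312) (nat_lit 1368) (nat_lit 0) (XT.nd (nat_lit 156) (nat_lit 1368) (nat_lit 0) (XT.nd (nat_lit 78) (nat_lit 0) (nat_lit 0) (XT.lf (nat_lit 0) (nat_lit 1591812826) (nat_lit 0) (nat_lit 1591812826) (nat_lit 1292) (nat_lit 679357708) (nat_lit 648) (nat_lit 5) (nat_lit 648) (nat_lit 3) (nat_lit 665) (nat_lit 3) (nat_lit 406) (nat_lit 406) (nat_lit 328)) (XT.lf (nat_lit 0) (nat_lit 7105957621) (nat_lit 0) (nat_lit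 663862453) (nat_lit 1292) (nat_lit 6628393) (nat_lit 648) (nat_lit 5) (nat_lit 648) (nat_lit 3) (nat_lit 665) (nat_lit 3) (nat_lit 407) (nat_lit 406) (nat_lit 327))) (XT.nd (nat_lit 78) (nat_lit 0) (nat_lit 0) (XT.lf (nat_lit 0) (nat_lit 1353231361) (nat_lit 1368) (nat_lit 4545659924) (nat_lit 1444) (nat_lit 1928895703) (nat_lit 630) (nat_lit 5) (nat_lit 648) (nat_lit 5) (nat_lit 649) (nat_lit 5) (nat_lit 408) (nat_lit 406) (nat_lit 326)) (XT.lf (nat_lit 0) (nat_lit 2714459298) (nat_lit 1368) (nat_lit 580362479) (nat_lit 1444) (nat_lit 4585844432) (nat_lit 630) (nat_lit 5) (nat_lit 648) (nat_lit 5) (nat_lit 649) (nat_lit 5) (nat_lit 409) (nat_lit 406) (nat_lit 325)))) (XT.nd (nat_lit 156) (nat_lit 1368) (nat_lit 0) (XT.nd (nat_lit 78) (nat_lit 0) (nat_lit 76) (XT.lf (nat_lit 76) (nat_lit 3491685919) (nat_lit 0) (nat_lit 599910015) (nat_lit 1444) (nat_lit 3843233398) (nat_lit 631) (nat_lit 5) (nat_lit 630) (nat_lit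 5) (nat_lit 649) (nat_lit 5) (nat_lit 410) (nat_lit 406) (nat_lit 324)) (XT.lf (nat_lit 0) (nat_lit 5480808313) (nat_lit 1368) (nat_lit 369929332) (nat_lit 1444) (nat_lit 2139647411) (nat_lit 631) (nat_lit 5) (nat_lit 649) (nat_lit 5) (nat_lit 650) (nat_lit 5) (nat_lit 411) (nat_lit 406) (nat_lit 323))) (XT.nd (nat_lit 78) (nat_lit 1444) (nat_lit 0) (XT.lf (nat_lit 76) (nat_lit 3812149733) (nat_lit 0) (nat_lit 3081693436) (nat_lit 1444) (nat_lit 1153287963) (nat_lit 632) (nat_lit 5) (nat_lit 631) (nat_lit 5) (nat_lit 650) (nat_lit 5) (nat_lit 412) (nat_lit 406) (nat_lit 322)) (XT.lf (nat_lit 0) (nat_lit 197229375) (nat_lit 1444) (nat_lit 42519362) (nat_lit 1520) (nat_lit 7865831090) (nat_lit 612) (nat_lit 5) (nat_lit 631) (nat_lit 5) (nat_lit 632) (nat_lit 5) (nat_lit 413) (nat_lit 406) (nat_lit 321))))) (XT.nd (nat_lit 312) (nat_lit 1368) (nat_lit 0) (XT.nd (nat_lit 156) (nat_lit 0) (nat_lit 76) (XT.nd (nat_lit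 78) (nat_lit 0) (nat_lit 0) (XT.lf (nat_lit 0) (nat_lit 1572851161) (nat_lit 1444) (nat_lit 3919198703) (nat_lit 1520) (nat_lit 2672724435) (nat_lit 613) (nat_lit 5) (nat_lit 632) (nat_lit 5) (nat_lit 633) (nat_lit 5) (nat_lit 414) (nat_lit 406) (nat_lit 320)) (XT.lf (nat_lit 76) (nat_lit 379098374) (nat_lit 0) (nat_lit 2570066082) (nat_lit 1520) (nat_lit 5276524623) (nat_lit 614) (nat_lit 5) (nat_lit 613) (nat_lit 5) (nat_lit 633) (nat_lit 5) (nat_lit 415) (nat_lit 406) (nat_lit 319))) (XT.nd (nat_lit 78) (nat_lit 0) (nat_lit 0) (XT.lf (nat_lit 0) (nat_lit 4351548222) (nat_lit 1444) (nat_lit 3493356355) (nat_lit 1520) (nat_lit 442946692) (nat_lit 614) (nat_lit 5) (nat_lit 633) (nat_lit 5) (nat_lit 634) (nat_lit 5) (nat_lit 416) (nat_lit 406) (nat_lit 318)) (XT.lf (nat_lit 76) (nat_lit 922701342) (nat_lit 0) (nat_lit 4852295137) (nat_lit 1520) (nat_lit 2576399889) (nat_lit 615) (nat_lit 5) (nat_lit 614) (nat_lit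 5) (nat_lit 634) (nat_lit 5) (nat_lit 417) (nat_lit 406) (nat_lit 317)))) (XT.nd (nat_lit 156) (nat_lit 0) (nat_lit 0) (XT.nd (nat_lit 78) (nat_lit 1444) (nat_lit 0) (XT.lf (nat_lit 76) (nat_lit 5455238251) (nat_lit 0) (nat_lit 1765586926) (nat_lit 1520) (nat_lit 1195508962) (nat_lit 615) (nat_lit 5) (nat_lit 614) (nat_lit 5) (nat_lit 634) (nat_lit 5) (nat_lit 418) (nat_lit 406) (nat_lit 316)) (XT.lf (nat_lit 0) (nat_lit 200547087) (nat_lit 1520) (nat_lit 6895838810) (nat_lit 1596) (nat_lit 1386350294) (nat_lit 595) (nat_lit 5) (nat_lit 615) (nat_lit 5) (nat_lit 616) (nat_lit 5) (nat_lit 419) (nat_lit 406) (nat_lit 315))) (XT.nd (nat_lit 78) (nat_lit 0) (nat_lit 0) (XT.lf (nat_lit 0) (nat_lit 1611592603) (nat_lit 1520) (nat_lit 2323537646) (nat_lit 1596) (nat_lit 4615116464) (nat_lit 595) (nat_lit 5) (nat_lit 615) (nat_lit 5) (nat_lit 616) (nat_lit 5) (nat_lit 420) (nat_lit 406) (nat_lit 314)) (XT.lf (nat_lit 76)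 (nat_lit 2351723179) (nat_lit 0) (nat_lit 686332749) (nat_lit 1596) (nat_lit 5581307578) (nat_lit 596) (nat_lit 5) (nat_lit 595) (nat_lit 5) (nat_lit 616) (nat_lit 5) (nat_lit 421) (nat_lit 406) (nat_lit 313)))))) (XT.nd (nat_lit 624) (nat_lit 7980) (nat_lit 0) (XT.nd (nat_lit 312) (nat_lit 0) (nat_lit 0) (XT.nd (nat_lit 156) (nat_lit 1520) (nat_lit 0) (XT.nd (nat_lit 78) (nat_lit 0) (nat_lit 0) (XT.lf (nat_lit 0) (nat_lit 4498211563) (nat_lit 1520) (nat_lit 1574537968) (nat_lit 1596) (nat_lit 2617009845) (nat_lit 596) (nat_lit 5) (nat_lit 616) (nat_lit 5) (nat_lit 617) (nat_lit 5) (nat_lit 422) (nat_lit 406) (nat_lit 312)) (XT.lf (nat_lit 76) (nat_lit 3230832358) (nat_lit 0) (nat_lit 2755209450) (nat_lit 1596) (nat_lit 2775551923) (nat_lit 597) (nat_lit 5) (nat_lit 596) (nat_lit 5) (nat_lit 617) (nat_lit 5) (nat_lit 423) (nat_lit 406) (nat_lit 311))) (XT.nd (nat_lit 78) (nat_lit 1596) (nat_lit 0) (XT.lf (nat_lit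 0) (nat_lit 7491748833) (nat_lit 1520) (nat_lit 705026517) (nat_lit 1596) (nat_lit 638327022) (nat_lit 597) (nat_lit 5) (nat_lit 617) (nat_lit 5) (nat_lit 618) (nat_lit 5) (nat_lit 424) (nat_lit 406) (nat_lit 310)) (XT.lf (nat_lit 0) (nat_lit 135745170) (nat_lit 1596) (nat_lit 4675545987) (nat_lit 1672) (nat_lit 4098378828) (nat_lit 576) (nat_lit 5) (nat_lit 597) (nat_lit 5) (nat_lit 598) (nat_lit 5) (nat_lit 425) (nat_lit 406) (nat_lit 309)))) (XT.nd (nat_lit 156) (nat_lit 0) (nat_lit 76) (XT.nd (nat_lit 78) (nat_lit 0) (nat_lit 76) (XT.lf (nat_lit 76) (nat_lit 270904847) (nat_lit 0) (nat_lit 1336211051) (nat_lit 1672) (nat_lit 7378821908) (nat_lit 577) (nat_lit 5) (nat_lit 576) (nat_lit 5) (nat_lit 598) (nat_lit 5) (nat_lit 426) (nat_lit 406) (nat_lit 308)) (XT.lf (nat_lit 0) (nat_lit 3128393190) (nat_lit 1596) (nat_lit 3718105311) (nat_lit 1672) (nat_lit 2216822900) (nat_lit 577) (nat_lit 5) (nat_lit 598) (nat_lit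 5) (nat_lit 599) (nat_lit 5) (nat_lit 427) (nat_lit 406) (nat_lit 307))) (XT.nd (nat_lit 78) (nat_lit 0) (nat_lit 76) (XT.lf (nat_lit 76) (nat_lit 1368130780) (nat_lit 0) (nat_lit 3304753789) (nat_lit 1672) (nat_lit 4469512329) (nat_lit 578) (nat_lit 5) (nat_lit 577) (nat_lit 5) (nat_lit 599) (nat_lit 5) (nat_lit 428) (nat_lit 406) (nat_lit 306)) (XT.lf (nat_lit 0) (nat_lit 6250830957) (nat_lit 1596) (nat_lit 2638345804) (nat_lit 76) (nat_lit 333825839) (nat_lit 578) (nat_lit 5) (nat_lit 599) (nat_lit 5) (nat_lit 579) (nat_lit 5) (nat_lit 429) (nat_lit 406) (nat_lit 305))))) (XT.nd (nat_lit 312) (nat_lit 4788) (nat_lit 0) (XT.nd (nat_lit 156) (nat_lit 1672) (nat_lit 0) (XT.nd (nat_lit 78) (nat_lit 76) (nat_lit 0) (XT.lf (nat_lit 0) (nat_lit 2592686607) (nat_lit 1596) (nat_lit 5282301140) (nat_lit 1672) (nat_lit 1429939641) (nat_lit 557) (nat_lit 5) (nat_lit 578) (nat_lit 5) (nat_lit 579) (nat_lit 5) (nat_lit 430)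 (nat_lit 406) (nat_lit 304)) (XT.lf (nat_lit 0) (nat_lit 135201512) (nat_lit 1672) (nat_lit 1444991691) (nat_lit 76) (nat_lit 7808400045) (nat_lit 556) (nat_lit 5) (nat_lit 578) (nat_lit 5) (nat_lit 557) (nat_lit 5) (nat_lit 431) (nat_lit 406) (nat_lit 303))) (XT.nd (nat_lit 78) (nat_lit 0) (nat_lit 0) (XT.lf (nat_lit 0) (nat_lit 1729268773) (nat_lit 1748) (nat_lit 5537791903) (nat_lit 76) (nat_lit 2206347309) (nat_lit 534) (nat_lit 5) (nat_lit 557) (nat_lit 5) (nat_lit 535) (nat_lit 5) (nat_lit 432) (nat_lit 406) (nat_lit 302)) (XT.lf (nat_lit 0) (nat_lit 3352388262) (nat_lit 1748) (nat_lit 146709217) (nat_lit 76) (nat_lit 6060878119) (nat_lit 534) (nat_lit 5) (nat_lit 557) (nat_lit 5) (nat_lit 535) (nat_lit 5) (nat_lit 433) (nat_lit 406) (nat_lit 301)))) (XT.nd (nat_lit 156) (nat_lit 1216) (nat_lit 0) (XT.nd (nat_lit 78) (nat_lit 1824) (nat_lit 0) (XT.lf (nat_lit 0) (nat_lit 5022938446) (nat_lit 1824) (nat_lit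 4246937007) (nat_lit 76) (nat_lit 378099745) (nat_lit 511) (nat_lit 5) (nat_lit 535) (nat_lit 5) (nat_lit 512) (nat_lit 5) (nat_lit 434) (nat_lit 406) (nat_lit 300)) (XT.lf (nat_lit 0) (nat_lit 1298033696) (nat_lit 1824) (nat_lit 5439191174) (nat_lit 1900) (nat_lit 3000303414) (nat_lit 487) (nat_lit 5) (nat_lit 511) (nat_lit 5) (nat_lit 512) (nat_lit 5) (nat_lit 435) (nat_lit 406) (nat_lit 299))) (XT.nd (nat_lit 78) (nat_lit 1216) (nat_lit 0) (XT.lf (nat_lit 0) (nat_lit 6991777562) (nat_lit 1824) (nat_lit 1500561061) (nat_lit 1900) (nat_lit 1336402978) (nat_lit 487) (nat_lit 5) (nat_lit 511) (nat_lit 5) (nat_lit 512) (nat_lit 5) (nat_lit 436) (nat_lit 406) (nat_lit 298)) (XT.lf (nat_lit 0) (nat_lit 369655981) (nat_lit 1216) (nat_lit 7044655601) (nat_lit 76) (nat_lit 2507148510) (nat_lit 471) (nat_lit 5) (nat_lit 487) (nat_lit 5) (nat_lit 472) (nat_lit 5) (nat_lit 437) (nat_lit 406) (nat_lit 297))))))) (XT.nd (nat_lit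 57096) (nat_lit 0) (nat_lit 16264) (XT.nd (nat_lit 624) (nat_lit 3268) (nat_lit 0) (XT.nd (nat_lit 312) (nat_lit 1824) (nat_lit 0) (XT.nd (nat_lit 156) (nat_lit 912) (nat_lit 0) (XT.nd (nat_lit 78) (nat_lit 912) (nat_lit 0) (XT.lf (nat_lit 0) (nat_lit 2099700754) (nat_lit 1216) (nat_lit 1311169201) (nat_lit 76) (nat_lit 6604831145) (nat_lit 471) (nat_lit 5) (nat_lit 487) (nat_lit 5) (nat_lit 472) (nat_lit 5) (nat_lit 438) (nat_lit 406) (nat_lit 296)) (XT.lf (nat_lit 0) (nat_lit 3877699962) (nat_lit 988) (nat_lit 5538719818) (nat_lit 76) (nat_lit 695140077) (nat_lit 459) (nat_lit 5) (nat_lit 472) (nat_lit 5) (nat_lit 460) (nat_lit 5) (nat_lit 439) (nat_lit 406) (nat_lit 295))) (XT.nd (nat_lit 78) (nat_lit 0) (nat_lit 0) (XT.lf (nat_lit 0) (nat_lit 345213762) (nat_lit 912) (nat_lit 5359085176) (nat_lit 988) (nat_lit 4504776056) (nat_lit 447) (nat_lit 5) (nat_lit 459) (nat_lit 5) (nat_lit 460) (nat_lit 5) (nat_lit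 440) (nat_lit 406) (nat_lit 294)) (XT.lf (nat_lit 0) (nat_lit 6402225291) (nat_lit 912) (nat_lit 1182002380) (nat_lit 988) (nat_lit 2723976807) (nat_lit 447) (nat_lit 5) (nat_lit 459) (nat_lit 5) (nat_lit 460) (nat_lit 5) (nat_lit 441) (nat_lit 406) (nat_lit 293)))) (XT.nd (nat_lit 156) (nat_lit 912) (nat_lit 0) (XT.nd (nat_lit 78) (nat_lit 76) (nat_lit 0) (XT.lf (nat_lit 0) (nat_lit 2159699424) (nat_lit 836) (nat_lit 7356100069) (nat_lit 912) (nat_lit 893236168) (nat_lit 436) (nat_lit 5) (nat_lit 447) (nat_lit 5) (nat_lit 448) (nat_lit 5) (nat_lit 442) (nat_lit 406) (nat_lit 292)) (XT.lf (nat_lit 0) (nat_lit 975723951) (nat_lit 912) (nat_lit 2145878535) (nat_lit 76) (nat_lit 7389866881) (nat_lit 435) (nat_lit 5) (nat_lit 447) (nat_lit 5) (nat_lit 436) (nat_lit 5) (nat_lit 443) (nat_lit 406) (nat_lit 291))) (XT.nd (nat_lit 78) (nat_lit 0) (nat_lit 0) (XT.lf (nat_lit 0) (nat_lit 2885335016) (nat_lit 988) (nat_lit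 6515510533) (nat_lit 76) (nat_lit 1214683470) (nat_lit 423) (nat_lit 5) (nat_lit 436) (nat_lit 5) (nat_lit 424) (nat_lit 5) (nat_lit 444) (nat_lit 406) (nat_lit 290)) (XT.lf (nat_lit 0) (nat_lit 4849118211) (nat_lit 988) (nat_lit 261926286) (nat_lit 76) (nat_lit 5610305767) (nat_lit 423) (nat_lit 5) (nat_lit 436) (nat_lit 5) (nat_lit 424) (nat_lit 5) (nat_lit 445) (nat_lit 406) (nat_lit 289))))) (XT.nd (nat_lit 312) (nat_lit 760) (nat_lit 0) (XT.nd (nat_lit 156) (nat_lit 836) (nat_lit 0) (XT.nd (nat_lit 78) (nat_lit 836) (nat_lit 0) (XT.lf (nat_lit 0) (nat_lit 6178449758) (nat_lit 836) (nat_lit 695029851) (nat_lit 912) (nat_lit 3955382275) (nat_lit 412) (nat_lit 5) (nat_lit 423) (nat_lit 5) (nat_lit 424) (nat_lit 5) (nat_lit 446) (nat_lit 406) (nat_lit 288)) (XT.lf (nat_lit 0) (nat_lit 1791900472) (nat_lit 836) (nat_lit 7165992058) (nat_lit 912) (nat_lit 1980239920) (nat_lit 401) (nat_lit 5) (nat_lit 412) (nat_lit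 5) (nat_lit 413) (nat_lit 5) (nat_lit 447) (nat_lit 406) (nat_lit 287))) (XT.nd (nat_lit 78) (nat_lit 760) (nat_lit 0) (XT.lf (nat_lit 0) (nat_lit 51515157) (nat_lit 912) (nat_lit 2647568604) (nat_lit 76) (nat_lit 8350148978) (nat_lit 400) (nat_lit 5) (nat_lit 412) (nat_lit 5) (nat_lit 401) (nat_lit 5) (nat_lit 448) (nat_lit 406) (nat_lit 286)) (XT.lf (nat_lit 0) (nat_lit 2117608652) (nat_lit 836) (nat_lit 7173297168) (nat_lit 76) (nat_lit 1870983050) (nat_lit 390) (nat_lit 5) (nat_lit 401) (nat_lit 5) (nat_lit 391) (nat_lit 5) (nat_lit 449) (nat_lit 406) (nat_lit 285)))) (XT.nd (nat_lit 56004) (nat_lit 0) (nat_lit 18924) (XT.nd (nat_lit 78) (nat_lit 760) (nat_lit 0) (XT.lf (nat_lit 0) (nat_lit 4242911730) (nat_lit 836) (nat_lit 520576123) (nat_lit 76) (nat_lit 6512952516) (nat_lit 390) (nat_lit 5) (nat_lit 401) (nat_lit 5) (nat_lit 391) (nat_lit 5) (nat_lit 450) (nat_lit 406) (nat_lit 284)) (XT.lf (nat_lit 0)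 (nat_lit 6329084216) (nat_lit 760) (nat_lit 105208431) (nat_lit 836) (nat_lit 4958518817) (nat_lit 380) (nat_lit 5) (nat_lit 390) (nat_lit 5) (nat_lit 391) (nat_lit 5) (nat_lit 451) (nat_lit 406) (nat_lit 283))) (XT.nd (nat_lit 78) (nat_lit 0) (nat_lit 0) (XT.lf (nat_lit 0) (nat_lit 655155777) (nat_lit 1444) (nat_lit 1629198491) (nat_lit 1444) (nat_lit 1629198491) (nat_lit 629) (nat_lit 3) (nat_lit 648) (nat_lit 3) (nat_lit 648) (nat_lit 5) (nat_lit 407) (nat_lit 407) (nat_lit 326)) (XT.lf (nat_lit 76) (nat_lit 663862453) (nat_lit 0) (nat_lit 1959290285) (nat_lit 1444) (nat_lit 5256229075) (nat_lit 630) (nat_lit 5) (nat_lit 629) (nat_lit 3) (nat_lit 648) (nat_lit 5) (nat_lit 408) (nat_lit 407) (nat_lit 325)))))) (XT.nd (nat_lit 624) (nat_lit 1368) (nat_lit 0) (XT.nd (nat_lit 312) (nat_lit 1368) (nat_lit 0) (XT.nd (nat_lit 156) (nat_lit 0) (nat_lit 0) (XT.nd (nat_lit 78) (nat_lit 0) (nat_lit 0) (XT.lf (nat_lit 0)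 (nat_lit 3954834811) (nat_lit 1368) (nat_lit 3246584608) (nat_lit 1444) (nat_lit 731432532) (nat_lit 630) (nat_lit 5) (nat_lit 648) (nat_lit 5) (nat_lit 649) (nat_lit 5) (nat_lit 409) (nat_lit 407) (nat_lit 324)) (XT.lf (nat_lit 76) (nat_lit 781007157) (nat_lit 0) (nat_lit 4516869813) (nat_lit 1444) (nat_lit 2689819994) (nat_lit 631) (nat_lit 5) (nat_lit 630) (nat_lit 5) (nat_lit 649) (nat_lit 5) (nat_lit 410) (nat_lit 407) (nat_lit 323))) (XT.nd (nat_lit 78) (nat_lit 0) (nat_lit 76) (XT.lf (nat_lit 76) (nat_lit 4915288120) (nat_lit 0) (nat_lit 1741495638) (nat_lit 1444) (nat_lit 1387075042) (nat_lit 631) (nat_lit 5) (nat_lit 630) (nat_lit 5) (nat_lit 649) (nat_lit 5) (nat_lit 411) (nat_lit 407) (nat_lit 322)) (XT.lf (nat_lit 76) (nat_lit 1019145844) (nat_lit 0) (nat_lit 7005368033) (nat_lit 1444) (nat_lit 76997093) (nat_lit 632) (nat_lit 5) (nat_lit 631) (nat_lit 5) (nat_lit 650) (nat_lit 5) (nat_lit 412) (nat_lit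 407) (nat_lit 321)))) (XT.nd (nat_lit 156) (nat_lit 0) (nat_lit 76) (XT.nd (nat_lit 78) (nat_lit 0) (nat_lit 0) (XT.lf (nat_lit 0) (nat_lit 1243690108) (nat_lit 1444) (nat_lit 2906079190) (nat_lit 1520) (nat_lit 4010364895) (nat_lit 612) (nat_lit 5) (nat_lit 631) (nat_lit 5) (nat_lit 632) (nat_lit 5) (nat_lit 413) (nat_lit 407) (nat_lit 320)) (XT.lf (nat_lit 76) (nat_lit 1352768293) (nat_lit 0) (nat_lit 1214655150) (nat_lit 1520) (nat_lit 5652942990) (nat_lit 613) (nat_lit 5) (nat_lit 612) (nat_lit 5) (nat_lit 632) (nat_lit 5) (nat_lit 414) (nat_lit 407) (nat_lit 319))) (XT.nd (nat_lit 78) (nat_lit 0) (nat_lit 0) (XT.lf (nat_lit 0) (nat_lit 3918267097) (nat_lit 1444) (nat_lit 2575678934) (nat_lit 1520) (nat_lit 1787844576) (nat_lit 613) (nat_lit 5) (nat_lit 632) (nat_lit 5) (nat_lit 633) (nat_lit 5) (nat_lit 415) (nat_lit 407) (nat_lit 318)) (XT.lf (nat_lit 76) (nat_lit 1799229454) (nat_lit 0) (nat_lit 3486676665)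 (nat_lit 1520) (nat_lit 3058741573) (nat_lit 614) (nat_lit 5) (nat_lit 613) (nat_lit 5) (nat_lit 633) (nat_lit 5) (nat_lit 416) (nat_lit 407) (nat_lit 317))))) (XT.nd (nat_lit 312) (nat_lit 0) (nat_lit 76) (XT.nd (nat_lit 156) (nat_lit 1444) (nat_lit 0) (XT.nd (nat_lit 78) (nat_lit 0) (nat_lit 76) (XT.lf (nat_lit 76) (nat_lit 6278268739) (nat_lit 0) (nat_lit 390434488) (nat_lit 1520) (nat_lit 1740302587) (nat_lit 614) (nat_lit 5) (nat_lit 613) (nat_lit 5) (nat_lit 633) (nat_lit 5) (nat_lit 417) (nat_lit 407) (nat_lit 316)) (XT.lf (nat_lit 76) (nat_lit 2366735805) (nat_lit 0) (nat_lit 5716927282) (nat_lit 1520) (nat_lit 390897875) (nat_lit 615) (nat_lit 5) (nat_lit 614) (nat_lit 5) (nat_lit 634) (nat_lit 5) (nat_lit 418) (nat_lit 407) (nat_lit 315))) (XT.nd (nat_lit 78) (nat_lit 0) (nat_lit 76) (XT.lf (nat_lit 0) (nat_lit 960976661) (nat_lit 1520) (nat_lit 1586008875) (nat_lit 1596) (nat_lit 5994545573) (nat_lit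 594) (nat_lit 5) (nat_lit 614) (nat_lit 5) (nat_lit 615) (nat_lit 5) (nat_lit 419) (nat_lit 407) (nat_lit 314)) (XT.lf (nat_lit 0) (nat_lit 2331085035) (nat_lit 1520) (nat_lit 5569488036) (nat_lit 1596) (nat_lit 709287304) (nat_lit 595) (nat_lit 5) (nat_lit 615) (nat_lit 5) (nat_lit 616) (nat_lit 5) (nat_lit 420) (nat_lit 407) (nat_lit 313)))) (XT.nd (nat_lit 156) (nat_lit 0) (nat_lit 76) (XT.nd (nat_lit 78) (nat_lit 0) (nat_lit 0) (XT.lf (nat_lit 0) (nat_lit 3728654853) (nat_lit 1520) (nat_lit 934451977) (nat_lit 1596) (nat_lit 4016448208) (nat_lit 595) (nat_lit 5) (nat_lit 615) (nat_lit 5) (nat_lit 616) (nat_lit 5) (nat_lit 421) (nat_lit 407) (nat_lit 312)) (XT.lf (nat_lit 76) (nat_lit 3824869614) (nat_lit 0) (nat_lit 1327158068) (nat_lit 1596) (nat_lit 3598658881) (nat_lit 596) (nat_lit 5) (nat_lit 595) (nat_lit 5) (nat_lit 616) (nat_lit 5) (nat_lit 422) (nat_lit 407) (nat_lit 311))) (XT.nd (nat_lit 78) (nat_lit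 0) (nat_lit 0) (XT.lf (nat_lit 0) (nat_lit 6597135691) (nat_lit 1520) (nat_lit 163628997) (nat_lit 1596) (nat_lit 2062610677) (nat_lit 596) (nat_lit 5) (nat_lit 616) (nat_lit 5) (nat_lit 617) (nat_lit 5) (nat_lit 423) (nat_lit 407) (nat_lit 310)) (XT.lf (nat_lit 76) (nat_lit 4728359264) (nat_lit 0) (nat_lit 3356275312) (nat_lit 1596) (nat_lit 812613593) (nat_lit 597) (nat_lit 5) (nat_lit 596) (nat_lit 5) (nat_lit 617) (nat_lit 5) (nat_lit 424) (nat_lit 407) (nat_lit 309))))))))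
noncomputable def xc61 : XT := (XT.nd (nat_lit 58422) (nat_lit 0) (nat_lit 4180) (XT.nd (nat_lit 1248) (nat_lit 6004) (nat_lit 0) (XT.nd (nat_lit 624) (nat_lit 7372) (nat_lit 0) (XT.nd (nat_lit 312) (nat_lit 1520) (nat_lit 0) (XT.nd (nat_lit 156) (nat_lit 0) (nat_lit 0) (XT.nd (nat_lit 78) (nat_lit 0) (nat_lit 0) (XT.lf (nat_lit 0) (nat_lit 601991443) (nat_lit 1596) (nat_lit 8239299367) (nat_lit 1672) (nat_lit 131606711) (nat_lit 576) (nat_lit 5) (nat_lit 597) (nat_lit 5) (nat_lit 598) (nat_lit 5) (nat_lit 425) (nat_lit 407) (nat_lit 308)) (XT.lf (nat_lit 0) (nat_lit 2059052030) (nat_lit 1596) (nat_lit 3305962954) (nat_lit 1672) (nat_lit 3684436562) (nat_lit 576) (nat_lit 5) (nat_lit 597) (nat_lit 5) (nat_lit 598) (nat_lit 5) (nat_lit 426) (nat_lit 407) (nat_lit 307))) (XT.nd (nat_lit 78) (nat_lit 0) (nat_lit 76) (XT.lf (nat_lit 76) (nat_lit 1729791278) (nat_lit 0) (nat_lit 1801837109) (nat_lit 1672) (nat_lit 5596180772)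 (nat_lit 577) (nat_lit 5) (nat_lit 576) (nat_lit 5) (nat_lit 598) (nat_lit 5) (nat_lit 427) (nat_lit 407) (nat_lit 306)) (XT.lf (nat_lit 0) (nat_lit 5043432161) (nat_lit 1596) (nat_lit 2327599398) (nat_lit 1672) (nat_lit 1836506848) (nat_lit 577) (nat_lit 5) (nat_lit 598) (nat_lit 5) (nat_lit 599) (nat_lit 5) (nat_lit 428) (nat_lit 407) (nat_lit 305)))) (XT.nd (nat_lit 156) (nat_lit 1596) (nat_lit 0) (XT.nd (nat_lit 78) (nat_lit 0) (nat_lit 0) (XT.lf (nat_lit 76) (nat_lit 2850724125) (nat_lit 0) (nat_lit 3741214603) (nat_lit 1672) (nat_lit 2696794179) (nat_lit 578) (nat_lit 5) (nat_lit 577) (nat_lit 5) (nat_lit 599) (nat_lit 5) (nat_lit 429) (nat_lit 407) (nat_lit 304)) (XT.lf (nat_lit 76) (nat_lit 8145331677) (nat_lit 0) (nat_lit 18076210) (nat_lit 1672) (nat_lit 1208303560) (nat_lit 578) (nat_lit 5) (nat_lit 577) (nat_lit 5) (nat_lit 599) (nat_lit 5) (nat_lit 430) (nat_lit 407) (nat_lit 303))) (XT.nd (nat_lit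 78) (nat_lit 0) (nat_lit 0) (XT.lf (nat_lit 0) (nat_lit 334101652) (nat_lit 1672) (nat_lit 5358233629) (nat_lit 76) (nat_lit 3763409829) (nat_lit 556) (nat_lit 5) (nat_lit 578) (nat_lit 5) (nat_lit 557) (nat_lit 5) (nat_lit 431) (nat_lit 407) (nat_lit 302)) (XT.lf (nat_lit 0) (nat_lit 1876641907) (nat_lit 1672) (nat_lit 24105085) (nat_lit 76) (nat_lit 7640843394) (nat_lit 556) (nat_lit 5) (nat_lit 578) (nat_lit 5) (nat_lit 557) (nat_lit 5) (nat_lit 432) (nat_lit 407) (nat_lit 301))))) (XT.nd (nat_lit 312) (nat_lit 2128) (nat_lit 0) (XT.nd (nat_lit 156) (nat_lit 1824) (nat_lit 0) (XT.nd (nat_lit 78) (nat_lit 1748) (nat_lit 0) (XT.lf (nat_lit 0) (nat_lit 3476071350) (nat_lit 1748) (nat_lit 4172242137) (nat_lit 76) (nat_lit 1980318313) (nat_lit 534) (nat_lit 5) (nat_lit 557) (nat_lit 5) (nat_lit 535) (nat_lit 5) (nat_lit 433) (nat_lit 407) (nat_lit 300)) (XT.lf (nat_lit 0) (nat_lit 1314960983) (nat_lit 1748) (nat_lit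 3791656958) (nat_lit 1824) (nat_lit 4610813531) (nat_lit 511) (nat_lit 5) (nat_lit 534) (nat_lit 5) (nat_lit 535) (nat_lit 5) (nat_lit 434) (nat_lit 407) (nat_lit 299))) (XT.nd (nat_lit 78) (nat_lit 1824) (nat_lit 0) (XT.lf (nat_lit 0) (nat_lit 6777051929) (nat_lit 1824) (nat_lit 2859527711) (nat_lit 76) (nat_lit 171281966) (nat_lit 511) (nat_lit 5) (nat_lit 535) (nat_lit 5) (nat_lit 512) (nat_lit 5) (nat_lit 435) (nat_lit 407) (nat_lit 298)) (XT.lf (nat_lit 0) (nat_lit 2786655905) (nat_lit 1824) (nat_lit 5716040143) (nat_lit 1900) (nat_lit 1396968268) (nat_lit 487) (nat_lit 5) (nat_lit 511) (nat_lit 5) (nat_lit 512) (nat_lit 5) (nat_lit 436) (nat_lit 407) (nat_lit 297)))) (XT.nd (nat_lit 156) (nat_lit 912) (nat_lit 0) (XT.nd (nat_lit 78) (nat_lit 1140) (nat_lit 0) (XT.lf (nat_lit 0) (nat_lit 264086077) (nat_lit 1900) (nat_lit 1429483798) (nat_lit 76) (nat_lit 8299736776) (nat_lit 486) (nat_lit 5) (nat_lit 511)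 (nat_lit 5) (nat_lit 487) (nat_lit 5) (nat_lit 437) (nat_lit 407) (nat_lit 296)) (XT.lf (nat_lit 0) (nat_lit 1963301980) (nat_lit 1216) (nat_lit 5707093014) (nat_lit 76) (nat_lit 2417769242) (nat_lit 471) (nat_lit 5) (nat_lit 487) (nat_lit 5) (nat_lit 472) (nat_lit 5) (nat_lit 438) (nat_lit 407) (nat_lit 295))) (XT.nd (nat_lit 78) (nat_lit 0) (nat_lit 0) (XT.lf (nat_lit 0) (nat_lit 113563187) (nat_lit 912) (nat_lit 3584018791) (nat_lit 988) (nat_lit 6487315400) (nat_lit 459) (nat_lit 5) (nat_lit 471) (nat_lit 5) (nat_lit 472) (nat_lit 5) (nat_lit 439) (nat_lit 407) (nat_lit 294)) (XT.lf (nat_lit 0) (nat_lit 5488648892) (nat_lit 988) (nat_lit 4178272892) (nat_lit 76) (nat_lit 616201372) (nat_lit 459) (nat_lit 5) (nat_lit 472) (nat_lit 5) (nat_lit 460) (nat_lit 5) (nat_lit 440) (nat_lit 407) (nat_lit 293)))))) (XT.nd (nat_lit 624) (nat_lit 1596) (nat_lit 0) (XT.nd (nat_lit 312) (nat_lit 2584) (nat_lit 0) (XT.nd (nat_lit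 156) (nat_lit 912) (nat_lit 0) (XT.nd (nat_lit 78) (nat_lit 0) (nat_lit 0) (XT.lf (nat_lit 0) (nat_lit 1813660273) (nat_lit 912) (nat_lit 5517542310) (nat_lit 988) (nat_lit 3051797559) (nat_lit 447) (nat_lit 5) (nat_lit 459) (nat_lit 5) (nat_lit 460) (nat_lit 5) (nat_lit 441) (nat_lit 407) (nat_lit 292)) (XT.lf (nat_lit 0) (nat_lit 7963154341) (nat_lit 912) (nat_lit 1255912457) (nat_lit 988) (nat_lit 1265638678) (nat_lit 447) (nat_lit 5) (nat_lit 459) (nat_lit 5) (nat_lit 460) (nat_lit 5) (nat_lit 442) (nat_lit 407) (nat_lit 291))) (XT.nd (nat_lit 78) (nat_lit 0) (nat_lit 0) (XT.lf (nat_lit 0) (nat_lit 573726937) (nat_lit 912) (nat_lit 6935583859) (nat_lit 76) (nat_lit 3078566317) (nat_lit 435) (nat_lit 5) (nat_lit 447) (nat_lit 5) (nat_lit 436) (nat_lit 5) (nat_lit 443) (nat_lit 407) (nat_lit 290)) (XT.lf (nat_lit 0) (nat_lit 2439237035) (nat_lit 912) (nat_lit 744851369) (nat_lit 76) (nat_lit 7508730379) (nat_lit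 435) (nat_lit 5) (nat_lit 447) (nat_lit 5) (nat_lit 436) (nat_lit 5) (nat_lit 444) (nat_lit 407) (nat_lit 289)))) (XT.nd (nat_lit 156) (nat_lit 836) (nat_lit 0) (XT.nd (nat_lit 78) (nat_lit 836) (nat_lit 0) (XT.lf (nat_lit 0) (nat_lit 4368101328) (nat_lit 988) (nat_lit 5182937012) (nat_lit 76) (nat_lit 1248300067) (nat_lit 423) (nat_lit 5) (nat_lit 436) (nat_lit 5) (nat_lit 424) (nat_lit 5) (nat_lit 445) (nat_lit 407) (nat_lit 288)) (XT.lf (nat_lit 0) (nat_lit 1182544203) (nat_lit 836) (nat_lit 5168351498) (nat_lit 912) (nat_lit 4556785666) (nat_lit 412) (nat_lit 5) (nat_lit 423) (nat_lit 5) (nat_lit 424) (nat_lit 5) (nat_lit 446) (nat_lit 407) (nat_lit 287))) (XT.nd (nat_lit 78) (nat_lit 836) (nat_lit 0) (XT.lf (nat_lit 0) (nat_lit 7726782965) (nat_lit 836) (nat_lit 663139560) (nat_lit 912) (nat_lit 2627937130) (nat_lit 412) (nat_lit 5) (nat_lit 423) (nat_lit 5) (nat_lit 424) (nat_lit 5) (nat_lit 447) (nat_lit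 407) (nat_lit 286)) (XT.lf (nat_lit 0) (nat_lit 3270231919) (nat_lit 836) (nat_lit 7228410194) (nat_lit 912) (nat_lit 631021153) (nat_lit 401) (nat_lit 5) (nat_lit 412) (nat_lit 5) (nat_lit 413) (nat_lit 5) (nat_lit 448) (nat_lit 407) (nat_lit 285))))) (XT.nd (nat_lit 56238) (nat_lit 0) (nat_lit 17556) (XT.nd (nat_lit 156) (nat_lit 760) (nat_lit 0) (XT.nd (nat_lit 78) (nat_lit 760) (nat_lit 0) (XT.lf (nat_lit 0) (nat_lit 1396279670) (nat_lit 912) (nat_lit 1268453203) (nat_lit 76) (nat_lit 8578609835) (nat_lit 400) (nat_lit 5) (nat_lit 412) (nat_lit 5) (nat_lit 401) (nat_lit 5) (nat_lit 449) (nat_lit 407) (nat_lit 284)) (XT.lf (nat_lit 0) (nat_lit 3487207502) (nat_lit 836) (nat_lit 5868208805) (nat_lit 76) (nat_lit 2003165407) (nat_lit 390) (nat_lit 5) (nat_lit 401) (nat_lit 5) (nat_lit 391) (nat_lit 5) (nat_lit 450) (nat_lit 407) (nat_lit 283))) (XT.nd (nat_lit 56004) (nat_lit 0) (nat_lit 18924) (XT.lf (nat_lit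 0) (nat_lit 900980151) (nat_lit 760) (nat_lit 4733861806) (nat_lit 836) (nat_lit 5840985780) (nat_lit 380) (nat_lit 5) (nat_lit 390) (nat_lit 5) (nat_lit 391) (nat_lit 5) (nat_lit 451) (nat_lit 407) (nat_lit 282)) (XT.lf (nat_lit 0) (nat_lit 1955275948) (nat_lit 1444) (nat_lit 1005403762) (nat_lit 1444) (nat_lit 1005403762) (nat_lit 629) (nat_lit 3) (nat_lit 648) (nat_lit 3) (nat_lit 648) (nat_lit 5) (nat_lit 408) (nat_lit 408) (nat_lit 324)))) (XT.nd (nat_lit 156) (nat_lit 1368) (nat_lit 0) (XT.nd (nat_lit 78) (nat_lit 0) (nat_lit 0) (XT.lf (nat_lit 76) (nat_lit 1981260537) (nat_lit 0) (nat_lit 3226385327) (nat_lit 1444) (nat_lit 2778682984) (nat_lit 630) (nat_lit 5) (nat_lit 629) (nat_lit 3) (nat_lit 648) (nat_lit 5) (nat_lit 409) (nat_lit 408) (nat_lit 323)) (XT.lf (nat_lit 76) (nat_lit 6063548991) (nat_lit 0) (nat_lit 447856641) (nat_lit 1444) (nat_lit 1530553875) (nat_lit 630) (nat_lit 5) (nat_lit 629) (nat_lit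 3) (nat_lit 648) (nat_lit 5) (nat_lit 410) (nat_lit 408) (nat_lit 322))) (XT.nd (nat_lit 78) (nat_lit 1444) (nat_lit 0) (XT.lf (nat_lit 76) (nat_lit 2123851303) (nat_lit 0) (nat_lit 5714645859) (nat_lit 1444) (nat_lit 260260488) (nat_lit 631) (nat_lit 5) (nat_lit 630) (nat_lit 5) (nat_lit 649) (nat_lit 5) (nat_lit 411) (nat_lit 408) (nat_lit 321)) (XT.lf (nat_lit 0) (nat_lit 1006470644) (nat_lit 1444) (nat_lit 1848825125) (nat_lit 1520) (nat_lit 5301569294) (nat_lit 611) (nat_lit 5) (nat_lit 630) (nat_lit 5) (nat_lit 631) (nat_lit 5) (nat_lit 412) (nat_lit 408) (nat_lit 320))))))) (XT.nd (nat_lit 1248) (nat_lit 10640) (nat_lit 0) (XT.nd (nat_lit 624) (nat_lit 1368) (nat_lit 0) (XT.nd (nat_lit 312) (nat_lit 1444) (nat_lit 0) (XT.nd (nat_lit 156) (nat_lit 0) (nat_lit 0) (XT.nd (nat_lit 78) (nat_lit 0) (nat_lit 0) (XT.lf (nat_lit 0) (nat_lit 2279959403) (nat_lit 1444) (nat_lit 5845106271) (nat_lit 1520) (nat_lit 91336385)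 (nat_lit 612) (nat_lit 5) (nat_lit 631) (nat_lit 5) (nat_lit 632) (nat_lit 5) (nat_lit 413) (nat_lit 408) (nat_lit 319)) (XT.lf (nat_lit 0) (nat_lit 3579805491) (nat_lit 1444) (nat_lit 1612831908) (nat_lit 1520) (nat_lit 3084474647) (nat_lit 612) (nat_lit 5) (nat_lit 631) (nat_lit 5) (nat_lit 632) (nat_lit 5) (nat_lit 414) (nat_lit 408) (nat_lit 318))) (XT.nd (nat_lit 78) (nat_lit 0) (nat_lit 76) (XT.lf (nat_lit 76) (nat_lit 2722301941) (nat_lit 0) (nat_lit 2171109349) (nat_lit 1520) (nat_lit 3445869685) (nat_lit 613) (nat_lit 5) (nat_lit 612) (nat_lit 5) (nat_lit 632) (nat_lit 5) (nat_lit 415) (nat_lit 408) (nat_lit 317)) (XT.lf (nat_lit 0) (nat_lit 6220737507) (nat_lit 1444) (nat_lit 1260503025) (nat_lit 1520) (nat_lit 921703786) (nat_lit 613) (nat_lit 5) (nat_lit 632) (nat_lit 5) (nat_lit 633) (nat_lit 5) (nat_lit 416) (nat_lit 408) (nat_lit 316)))) (XT.nd (nat_lit 156) (nat_lit 0) (nat_lit 76) (XT.nd (nat_lit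 78) (nat_lit 1520) (nat_lit 0) (XT.lf (nat_lit 76) (nat_lit 3192912153) (nat_lit 0) (nat_lit 4388022331) (nat_lit 1520) (nat_lit 886819958) (nat_lit 614) (nat_lit 5) (nat_lit 613) (nat_lit 5) (nat_lit 633) (nat_lit 5) (nat_lit 417) (nat_lit 408) (nat_lit 315)) (XT.lf (nat_lit 0) (nat_lit 408769273) (nat_lit 1520) (nat_lit 802036859) (nat_lit 1596) (nat_lit 7323398361) (nat_lit 593) (nat_lit 5) (nat_lit 613) (nat_lit 5) (nat_lit 614) (nat_lit 5) (nat_lit 418) (nat_lit 408) (nat_lit 314))) (XT.nd (nat_lit 78) (nat_lit 0) (nat_lit 0) (XT.lf (nat_lit 0) (nat_lit 1728477026) (nat_lit 1520) (nat_lit 4828969744) (nat_lit 1596) (nat_lit 2044217914) (nat_lit 594) (nat_lit 5) (nat_lit 614) (nat_lit 5) (nat_lit 615) (nat_lit 5) (nat_lit 419) (nat_lit 408) (nat_lit 313)) (XT.lf (nat_lit 0) (nat_lit 3060552694) (nat_lit 1520) (nat_lit 246725925) (nat_lit 1596) (nat_lit 5363475982) (nat_lit 594) (nat_lit 5) (nat_lit 614) (nat_lit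 5) (nat_lit 615) (nat_lit 5) (nat_lit 420) (nat_lit 408) (nat_lit 312))))) (XT.nd (nat_lit 312) (nat_lit 1520) (nat_lit 0) (XT.nd (nat_lit 156) (nat_lit 0) (nat_lit 0) (XT.nd (nat_lit 78) (nat_lit 0) (nat_lit 0) (XT.lf (nat_lit 0) (nat_lit 4421658106) (nat_lit 1520) (nat_lit 4273469540) (nat_lit 1596) (nat_lit 46050908) (nat_lit 595) (nat_lit 5) (nat_lit 615) (nat_lit 5) (nat_lit 616) (nat_lit 5) (nat_lit 421) (nat_lit 408) (nat_lit 311)) (XT.lf (nat_lit 76) (nat_lit 432341231) (nat_lit 0) (nat_lit 5377567657) (nat_lit 1596) (nat_lit 3003103632) (nat_lit 596) (nat_lit 5) (nat_lit 595) (nat_lit 5) (nat_lit 616) (nat_lit 5) (nat_lit 422) (nat_lit 408) (nat_lit 310))) (XT.nd (nat_lit 78) (nat_lit 0) (nat_lit 76) (XT.lf (nat_lit 76) (nat_lit 5272101312) (nat_lit 0) (nat_lit 1956448889) (nat_lit 1596) (nat_lit 1657680456) (nat_lit 596) (nat_lit 5) (nat_lit 595) (nat_lit 5) (nat_lit 616) (nat_lit 5) (nat_lit 423) (nat_lit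 408) (nat_lit 309)) (XT.lf (nat_lit 76) (nat_lit 1235694366) (nat_lit 0) (nat_lit 7432356522) (nat_lit 1596) (nat_lit 293012535) (nat_lit 597) (nat_lit 5) (nat_lit 596) (nat_lit 5) (nat_lit 617) (nat_lit 5) (nat_lit 424) (nat_lit 408) (nat_lit 308)))) (XT.nd (nat_lit 156) (nat_lit 0) (nat_lit 76) (XT.nd (nat_lit 78) (nat_lit 0) (nat_lit 0) (XT.lf (nat_lit 0) (nat_lit 1096631005) (nat_lit 1596) (nat_lit 2844172156) (nat_lit 1672) (nat_lit 5096205078) (nat_lit 575) (nat_lit 5) (nat_lit 596) (nat_lit 5) (nat_lit 597) (nat_lit 5) (nat_lit 425) (nat_lit 408) (nat_lit 307)) (XT.lf (nat_lit 76) (nat_lit 2142655536) (nat_lit 0) (nat_lit 356624469) (nat_lit 1672) (nat_lit 6615370492) (nat_lit 576) (nat_lit 5) (nat_lit 575) (nat_lit 5) (nat_lit 597) (nat_lit 5) (nat_lit 426) (nat_lit 408) (nat_lit 306))) (XT.nd (nat_lit 78) (nat_lit 0) (nat_lit 0) (XT.lf (nat_lit 0) (nat_lit 3946246100) (nat_lit 1596) (nat_lit 1965801982)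 (nat_lit 1672) (nat_lit 3281472233) (nat_lit 576) (nat_lit 5) (nat_lit 597) (nat_lit 5) (nat_lit 598) (nat_lit 5) (nat_lit 427) (nat_lit 408) (nat_lit 305)) (XT.lf (nat_lit 76) (nat_lit 3161415492) (nat_lit 0) (nat_lit 2259732594) (nat_lit 1672) (nat_lit 3852839514) (nat_lit 577) (nat_lit 5) (nat_lit 576) (nat_lit 5) (nat_lit 598) (nat_lit 5) (nat_lit 428) (nat_lit 408) (nat_lit 304)))))) (XT.nd (nat_lit 624) (nat_lit 5776) (nat_lit 0) (XT.nd (nat_lit 312) (nat_lit 3344) (nat_lit 0) (XT.nd (nat_lit 156) (nat_lit 1672) (nat_lit 0) (XT.nd (nat_lit 78) (nat_lit 0) (nat_lit 0) (XT.lf (nat_lit 0) (nat_lit 6924838201) (nat_lit 1596) (nat_lit 966165977) (nat_lit 1672) (nat_lit 1465074250) (nat_lit 577) (nat_lit 5) (nat_lit 598) (nat_lit 5) (nat_lit 599) (nat_lit 5) (nat_lit 429) (nat_lit 408) (nat_lit 303)) (XT.lf (nat_lit 76) (nat_lit 4306460955) (nat_lit 0) (nat_lit 4172022879) (nat_lit 1672) (nat_lit 960929604) (nat_lit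 578) (nat_lit 5) (nat_lit 577) (nat_lit 5) (nat_lit 599) (nat_lit 5) (nat_lit 430) (nat_lit 408) (nat_lit 302))) (XT.nd (nat_lit 78) (nat_lit 0) (nat_lit 76) (XT.lf (nat_lit 76) (nat_lit 153416435) (nat_lit 0) (nat_lit 362967117) (nat_lit 1748) (nat_lit 9008268381) (nat_lit 556) (nat_lit 5) (nat_lit 555) (nat_lit 5) (nat_lit 578) (nat_lit 5) (nat_lit 431) (nat_lit 408) (nat_lit 301)) (XT.lf (nat_lit 0) (nat_lit 2045427180) (nat_lit 1672) (nat_lit 4044039047) (nat_lit 76) (nat_lit 3521300915) (nat_lit 556) (nat_lit 5) (nat_lit 578) (nat_lit 5) (nat_lit 557) (nat_lit 5) (nat_lit 432) (nat_lit 408) (nat_lit 300)))) (XT.nd (nat_lit 156) (nat_lit 1748) (nat_lit 0) (XT.nd (nat_lit 78) (nat_lit 0) (nat_lit 0) (XT.lf (nat_lit 0) (nat_lit 1387094268) (nat_lit 1672) (nat_lit 2207305525) (nat_lit 1748) (nat_lit 6104417899) (nat_lit 534) (nat_lit 5) (nat_lit 556) (nat_lit 5) (nat_lit 557) (nat_lit 5) (nat_lit 433) (nat_lit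 408) (nat_lit 299)) (XT.lf (nat_lit 0) (nat_lit 5191322497) (nat_lit 1748) (nat_lit 2836708122) (nat_lit 76) (nat_lit 1760259223) (nat_lit 534) (nat_lit 5) (nat_lit 557) (nat_lit 5) (nat_lit 535) (nat_lit 5) (nat_lit 434) (nat_lit 408) (nat_lit 298))) (XT.nd (nat_lit 78) (nat_lit 0) (nat_lit 0) (XT.lf (nat_lit 0) (nat_lit 2750903673) (nat_lit 1748) (nat_lit 4080459477) (nat_lit 1824) (nat_lit 3047964694) (nat_lit 511) (nat_lit 5) (nat_lit 534) (nat_lit 5) (nat_lit 535) (nat_lit 5) (nat_lit 435) (nat_lit 408) (nat_lit 297)) (XT.lf (nat_lit 0) (nat_lit 8470476357) (nat_lit 1748) (nat_lit 31764131) (nat_lit 1824) (nat_lit 1469985401) (nat_lit 511) (nat_lit 5) (nat_lit 534) (nat_lit 5) (nat_lit 535) (nat_lit 5) (nat_lit 436) (nat_lit 408) (nat_lit 296))))) (XT.nd (nat_lit 312) (nat_lit 1824) (nat_lit 0) (XT.nd (nat_lit 156) (nat_lit 2052) (nat_lit 0) (XT.nd (nat_lit 78) (nat_lit 0) (nat_lit 0) (XT.lf (nat_lit 0) (nat_lit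 171564018) (nat_lit 1900) (nat_lit 5819184614) (nat_lit 76) (nat_lit 4075538325) (nat_lit 486) (nat_lit 5) (nat_lit 511) (nat_lit 5) (nat_lit 487) (nat_lit 5) (nat_lit 437) (nat_lit 408) (nat_lit 295)) (XT.lf (nat_lit 0) (nat_lit 1816214596) (nat_lit 1900) (nat_lit 59218062) (nat_lit 76) (nat_lit 8286803191) (nat_lit 486) (nat_lit 5) (nat_lit 511) (nat_lit 5) (nat_lit 487) (nat_lit 5) (nat_lit 438) (nat_lit 408) (nat_lit 294))) (XT.nd (nat_lit 78) (nat_lit 912) (nat_lit 0) (XT.lf (nat_lit 0) (nat_lit 3527224767) (nat_lit 1216) (nat_lit 4400189412) (nat_lit 76) (nat_lit 2332020208) (nat_lit 471) (nat_lit 5) (nat_lit 487) (nat_lit 5) (nat_lit 472) (nat_lit 5) (nat_lit 439) (nat_lit 408) (nat_lit 293)) (XT.lf (nat_lit 0) (nat_lit 1527530930) (nat_lit 912) (nat_lit 3747929874) (nat_lit 988) (nat_lit 5083055978) (nat_lit 459) (nat_lit 5) (nat_lit 471) (nat_lit 5) (nat_lit 472) (nat_lit 5) (nat_lit 440) (nat_lit 408)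 (nat_lit 292)))) (XT.nd (nat_lit 156) (nat_lit 912) (nat_lit 0) (XT.nd (nat_lit 78) (nat_lit 912) (nat_lit 0) (XT.lf (nat_lit 0) (nat_lit 7072273207) (nat_lit 988) (nat_lit 2847746344) (nat_lit 76) (nat_lit 539289042) (nat_lit 459) (nat_lit 5) (nat_lit 472) (nat_lit 5) (nat_lit 460) (nat_lit 5) (nat_lit 441) (nat_lit 408) (nat_lit 291)) (XT.lf (nat_lit 0) (nat_lit 3254722247) (nat_lit 912) (nat_lit 5677177498) (nat_lit 988) (nat_lit 1629678936) (nat_lit 447) (nat_lit 5) (nat_lit 459) (nat_lit 5) (nat_lit 460) (nat_lit 5) (nat_lit 442) (nat_lit 408) (nat_lit 290))) (XT.nd (nat_lit 78) (nat_lit 836) (nat_lit 0) (XT.lf (nat_lit 0) (nat_lit 160982289) (nat_lit 988) (nat_lit 1167286124) (nat_lit 76) (nat_lit 9337598754) (nat_lit 446) (nat_lit 5) (nat_lit 459) (nat_lit 5) (nat_lit 447) (nat_lit 5) (nat_lit 443) (nat_lit 408) (nat_lit 289)) (XT.lf (nat_lit 0) (nat_lit 2000886383) (nat_lit 912) (nat_lit 5658663441) (nat_lit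 76) (nat_lit 3111771133) (nat_lit 435) (nat_lit 5) (nat_lit 447) (nat_lit 5) (nat_lit 436) (nat_lit 5) (nat_lit 444) (nat_lit 408) (nat_lit 288))))))))
noncomputable def xc62 : XT := (XT.nd (nat_lit 57330) (nat_lit 0) (nat_lit 10944) (XT.nd (nat_lit 56706) (nat_lit 0) (nat_lit 15428) (XT.nd (nat_lit 312) (nat_lit 1672) (nat_lit 0) (XT.nd (nat_lit 156) (nat_lit 836) (nat_lit 0) (XT.nd (nat_lit 78) (nat_lit 0) (nat_lit 0) (XT.lf (nat_lit 0) (nat_lit 636473673) (nat_lit 912) (nat_lit 3243606891) (nat_lit 988) (nat_lit 6998753419) (nat_lit 423) (nat_lit 5) (nat_lit 435) (nat_lit 5) (nat_lit 436) (nat_lit 5) (nat_lit 445) (nat_lit 408) (nat_lit 287)) (XT.lf (nat_lit 0) (nat_lit 5825186164) (nat_lit 988) (nat_lit 3880517579) (nat_lit 76) (nat_lit 1282226976) (nat_lit 423) (nat_lit 5) (nat_lit 436) (nat_lit 5) (nat_lit 424) (nat_lit 5) (nat_lit 446) (nat_lit 408) (nat_lit 286))) (XT.nd (nat_lit 78) (nat_lit 0) (nat_lit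 0) (XT.lf (nat_lit 0) (nat_lit 2603022746) (nat_lit 836) (nat_lit 5226825501) (nat_lit 912) (nat_lit 3268948055) (nat_lit 412) (nat_lit 5) (nat_lit 423) (nat_lit 5) (nat_lit 424) (nat_lit 5) (nat_lit 447) (nat_lit 408) (nat_lit 285)) (XT.lf (nat_lit 0) (nat_lit 9250757505) (nat_lit 836) (nat_lit 632389579) (nat_lit 912) (nat_lit 1328561242) (nat_lit 412) (nat_lit 5) (nat_lit 423) (nat_lit 5) (nat_lit 424) (nat_lit 5) (nat_lit 448) (nat_lit 408) (nat_lit 284)))) (XT.nd (nat_lit 56238) (nat_lit 0) (nat_lit 18164) (XT.nd (nat_lit 78) (nat_lit 760) (nat_lit 0) (XT.lf (nat_lit 0) (nat_lit 682186379) (nat_lit 912) (nat_lit 6608453994) (nat_lit 76) (nat_lit 4035352006) (nat_lit 400) (nat_lit 5) (nat_lit 412) (nat_lit 5) (nat_lit 401) (nat_lit 5) (nat_lit 449) (nat_lit 408) (nat_lit 283)) (XT.lf (nat_lit 0) (nat_lit 83733789) (nat_lit 760) (nat_lit 2632570502) (nat_lit 836) (nat_lit 8726063291) (nat_lit 390) (nat_lit 5)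 (nat_lit 400) (nat_lit 5) (nat_lit 401) (nat_lit 5) (nat_lit 450) (nat_lit 408) (nat_lit 282))) (XT.nd (nat_lit 78) (nat_lit 0) (nat_lit 0) (XT.lf (nat_lit 0) (nat_lit 3231422082) (nat_lit 1444) (nat_lit 394621124) (nat_lit 1444) (nat_lit 394621124) (nat_lit 629) (nat_lit 3) (nat_lit 648) (nat_lit 3) (nat_lit 648) (nat_lit 5) (nat_lit 409) (nat_lit 409) (nat_lit 322)) (XT.lf (nat_lit 76) (nat_lit 3274365980) (nat_lit 0) (nat_lit 4471141058) (nat_lit 1444) (nat_lit 351874221) (nat_lit 630) (nat_lit 5) (nat_lit 629) (nat_lit 3) (nat_lit 648) (nat_lit 5) (nat_lit 410) (nat_lit 409) (nat_lit 321))))) (XT.nd (nat_lit 312) (nat_lit 1292) (nat_lit 0) (XT.nd (nat_lit 156) (nat_lit 0) (nat_lit 76) (XT.nd (nat_lit 78) (nat_lit 0) (nat_lit 76) (XT.lf (nat_lit 0) (nat_lit 861099741) (nat_lit 1444) (nat_lit 747021898) (nat_lit 1520) (nat_lit 6546843986) (nat_lit 610) (nat_lit 5) (nat_lit 629) (nat_lit 3) (nat_lit 630) (nat_lit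 5) (nat_lit 411) (nat_lit 409) (nat_lit 320)) (XT.lf (nat_lit 0) (nat_lit 2093635162) (nat_lit 1444) (nat_lit 4785689678) (nat_lit 1520) (nat_lit 1334330051) (nat_lit 611) (nat_lit 5) (nat_lit 630) (nat_lit 5) (nat_lit 631) (nat_lit 5) (nat_lit 412) (nat_lit 409) (nat_lit 319))) (XT.nd (nat_lit 78) (nat_lit 0) (nat_lit 0) (XT.lf (nat_lit 0) (nat_lit 3336030674) (nat_lit 1444) (nat_lit 604437689) (nat_lit 1520) (nat_lit 4333345388) (nat_lit 611) (nat_lit 5) (nat_lit 630) (nat_lit 5) (nat_lit 631) (nat_lit 5) (nat_lit 413) (nat_lit 409) (nat_lit 318)) (XT.lf (nat_lit 76) (nat_lit 3692280791) (nat_lit 0) (nat_lit 905077280) (nat_lit 1520) (nat_lit 3737936040) (nat_lit 612) (nat_lit 5) (nat_lit 611) (nat_lit 5) (nat_lit 631) (nat_lit 5) (nat_lit 414) (nat_lit 409) (nat_lit 317)))) (XT.nd (nat_lit 156) (nat_lit 1444) (nat_lit 0) (XT.nd (nat_lit 78) (nat_lit 0) (nat_lit 0) (XT.lf (nat_lit 0) (nat_lit 5872894854) (nat_lit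 1444) (nat_lit 346194979) (nat_lit 1520) (nat_lit 2179134588) (nat_lit 612) (nat_lit 5) (nat_lit 631) (nat_lit 5) (nat_lit 632) (nat_lit 5) (nat_lit 415) (nat_lit 409) (nat_lit 316)) (XT.lf (nat_lit 76) (nat_lit 4067096194) (nat_lit 0) (nat_lit 3110495681) (nat_lit 1520) (nat_lit 1284748473) (nat_lit 613) (nat_lit 5) (nat_lit 612) (nat_lit 5) (nat_lit 632) (nat_lit 5) (nat_lit 416) (nat_lit 409) (nat_lit 315))) (XT.nd (nat_lit 78) (nat_lit 1520) (nat_lit 0) (XT.lf (nat_lit 76) (nat_lit 28277042) (nat_lit 0) (nat_lit 8454799166) (nat_lit 1520) (nat_lit 45168517) (nat_lit 614) (nat_lit 5) (nat_lit 613) (nat_lit 5) (nat_lit 633) (nat_lit 5) (nat_lit 417) (nat_lit 409) (nat_lit 314)) (XT.lf (nat_lit 0) (nat_lit 1225539458) (nat_lit 1520) (nat_lit 4041338924) (nat_lit 1596) (nat_lit 3327983961) (nat_lit 593) (nat_lit 5) (nat_lit 613) (nat_lit 5) (nat_lit 614) (nat_lit 5) (nat_lit 418) (nat_lit 409) (nat_lit 313))))))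 (XT.nd (nat_lit 624) (nat_lit 3040) (nat_lit 0) (XT.nd (nat_lit 312) (nat_lit 1444) (nat_lit 0) (XT.nd (nat_lit 156) (nat_lit 0) (nat_lit 76) (XT.nd (nat_lit 78) (nat_lit 0) (nat_lit 76) (XT.lf (nat_lit 76) (nat_lit 495407239) (nat_lit 0) (nat_lit 2001452359) (nat_lit 1596) (nat_lit 6166430686) (nat_lit 594) (nat_lit 5) (nat_lit 593) (nat_lit 5) (nat_lit 614) (nat_lit 5) (nat_lit 419) (nat_lit 409) (nat_lit 312)) (XT.lf (nat_lit 0) (nat_lit 3802611762) (nat_lit 1520) (nat_lit 3581428426) (nat_lit 1596) (nat_lit 1348866486) (nat_lit 594) (nat_lit 5) (nat_lit 614) (nat_lit 5) (nat_lit 615) (nat_lit 5) (nat_lit 420) (nat_lit 409) (nat_lit 311))) (XT.nd (nat_lit 78) (nat_lit 0) (nat_lit 0) (XT.lf (nat_lit 76) (nat_lit 1080272934) (nat_lit 0) (nat_lit 4048078384) (nat_lit 1596) (nat_lit 3675686625) (nat_lit 595) (nat_lit 5) (nat_lit 594) (nat_lit 5) (nat_lit 615) (nat_lit 5) (nat_lit 421) (nat_lit 409) (nat_lit 310))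 (XT.lf (nat_lit 76) (nat_lit 5866474297) (nat_lit 0) (nat_lit 612173857) (nat_lit 1596) (nat_lit 2397982834) (nat_lit 595) (nat_lit 5) (nat_lit 594) (nat_lit 5) (nat_lit 615) (nat_lit 5) (nat_lit 422) (nat_lit 409) (nat_lit 309)))) (XT.nd (nat_lit 156) (nat_lit 0) (nat_lit 76) (XT.nd (nat_lit 78) (nat_lit 1596) (nat_lit 0) (XT.lf (nat_lit 76) (nat_lit 1784845218) (nat_lit 0) (nat_lit 6076048088) (nat_lit 1596) (nat_lit 1089683741) (nat_lit 596) (nat_lit 5) (nat_lit 595) (nat_lit 5) (nat_lit 616) (nat_lit 5) (nat_lit 423) (nat_lit 409) (nat_lit 308)) (XT.lf (nat_lit 0) (nat_lit 240752697) (nat_lit 1596) (nat_lit 2332551824) (nat_lit 1672) (nat_lit 6452682085) (nat_lit 574) (nat_lit 5) (nat_lit 595) (nat_lit 5) (nat_lit 596) (nat_lit 5) (nat_lit 424) (nat_lit 409) (nat_lit 307))) (XT.nd (nat_lit 78) (nat_lit 0) (nat_lit 0) (XT.lf (nat_lit 0) (nat_lit 1582131441) (nat_lit 1596) (nat_lit 6502727154) (nat_lit 1672)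 (nat_lit 1017923217) (nat_lit 575) (nat_lit 5) (nat_lit 596) (nat_lit 5) (nat_lit 597) (nat_lit 5) (nat_lit 425) (nat_lit 409) (nat_lit 306)) (XT.lf (nat_lit 0) (nat_lit 2958842505) (nat_lit 1596) (nat_lit 1552811674) (nat_lit 1672) (nat_lit 4669288648) (nat_lit 575) (nat_lit 5) (nat_lit 596) (nat_lit 5) (nat_lit 597) (nat_lit 5) (nat_lit 426) (nat_lit 409) (nat_lit 305))))) (XT.nd (nat_lit 312) (nat_lit 3116) (nat_lit 0) (XT.nd (nat_lit 156) (nat_lit 0) (nat_lit 76) (XT.nd (nat_lit 78) (nat_lit 0) (nat_lit 76) (XT.lf (nat_lit 76) (nat_lit 3524882546) (nat_lit 0) (nat_lit 837274142) (nat_lit 1672) (nat_lit 4898528997) (nat_lit 576) (nat_lit 5) (nat_lit 575) (nat_lit 5) (nat_lit 597) (nat_lit 5) (nat_lit 427) (nat_lit 409) (nat_lit 304)) (XT.lf (nat_lit 0) (nat_lit 5799501116) (nat_lit 1596) (nat_lit 653445366) (nat_lit 1672) (nat_lit 2888957638) (nat_lit 576) (nat_lit 5) (nat_lit 597) (nat_lit 5) (nat_lit 598)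 (nat_lit 5) (nat_lit 428) (nat_lit 409) (nat_lit 303))) (XT.nd (nat_lit 78) (nat_lit 0) (nat_lit 76) (XT.lf (nat_lit 76) (nat_lit 4567423874) (nat_lit 0) (nat_lit 2710404701) (nat_lit 1672) (nat_lit 2146673627) (nat_lit 577) (nat_lit 5) (nat_lit 576) (nat_lit 5) (nat_lit 598) (nat_lit 5) (nat_lit 429) (nat_lit 409) (nat_lit 302)) (XT.lf (nat_lit 76) (nat_lit 372710487) (nat_lit 0) (nat_lit 8404441320) (nat_lit 1672) (nat_lit 731771853) (nat_lit 578) (nat_lit 5) (nat_lit 577) (nat_lit 5) (nat_lit 599) (nat_lit 5) (nat_lit 430) (nat_lit 409) (nat_lit 301)))) (XT.nd (nat_lit 156) (nat_lit 1596) (nat_lit 0) (XT.nd (nat_lit 78) (nat_lit 0) (nat_lit 0) (XT.lf (nat_lit 0) (nat_lit 730444899) (nat_lit 1672) (nat_lit 3862277460) (nat_lit 1748) (nat_lit 5001651857) (nat_lit 555) (nat_lit 5) (nat_lit 577) (nat_lit 5) (nat_lit 578) (nat_lit 5) (nat_lit 431) (nat_lit 409) (nat_lit 300)) (XT.lf (nat_lit 76) (nat_lit 1514461840)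 (nat_lit 0) (nat_lit 685515562) (nat_lit 1748) (nat_lit 7481702246) (nat_lit 556) (nat_lit 5) (nat_lit 555) (nat_lit 5) (nat_lit 578) (nat_lit 5) (nat_lit 432) (nat_lit 409) (nat_lit 299))) (XT.nd (nat_lit 78) (nat_lit 1672) (nat_lit 0) (XT.lf (nat_lit 0) (nat_lit 3724785834) (nat_lit 1672) (nat_lit 2758753685) (nat_lit 76) (nat_lit 3286673963) (nat_lit 556) (nat_lit 5) (nat_lit 578) (nat_lit 5) (nat_lit 557) (nat_lit 5) (nat_lit 433) (nat_lit 409) (nat_lit 298)) (XT.lf (nat_lit 0) (nat_lit 2772014361) (nat_lit 1672) (nat_lit 2509408767) (nat_lit 1748) (nat_lit 4579068211) (nat_lit 534) (nat_lit 5) (nat_lit 556) (nat_lit 5) (nat_lit 557) (nat_lit 5) (nat_lit 434) (nat_lit 409) (nat_lit 297)))))))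
noncomputable def xc63 : XT := (XT.nd (nat_lit 57408) (nat_lit 0) (nat_lit 13224) (XT.nd (nat_lit 624) (nat_lit 4484) (nat_lit 0) (XT.nd (nat_lit 312) (nat_lit 2052) (nat_lit 0) (XT.nd (nat_lit 156) (nat_lit 1900) (nat_lit 0) (XT.nd (nat_lit 78) (nat_lit 1748) (nat_lit 0) (XT.lf (nat_lit 0) (nat_lit 6876972977) (nat_lit 1748) (nat_lit 1529564105) (nat_lit 76) (nat_lit 1545882076) (nat_lit 534) (nat_lit 5) (nat_lit 557) (nat_lit 5) (nat_lit 535) (nat_lit 5) (nat_lit 435) (nat_lit 409) (nat_lit 296)) (XT.lf (nat_lit 0) (nat_lit 4160827043) (nat_lit 1748) (nat_lit 4366768186) (nat_lit 1824) (nat_lit 1518127075) (nat_lit 511) (nat_lit 5) (nat_lit 534) (nat_lit 5) (nat_lit 535) (nat_lit 5) (nat_lit 436) (nat_lit 409) (nat_lit 295))) (XT.nd (nat_lit 78) (nat_lit 1824) (nat_lit 0) (XT.lf (nat_lit 0) (nat_lit 59429914) (nat_lit 1824) (nat_lit 173256497) (nat_lit 76) (nat_lit 9908395690) (nat_lit 510) (nat_lit 5) (nat_lit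 534) (nat_lit 5) (nat_lit 511) (nat_lit 5) (nat_lit 437) (nat_lit 409) (nat_lit 294)) (XT.lf (nat_lit 0) (nat_lit 1691511766) (nat_lit 1900) (nat_lit 4564141431) (nat_lit 76) (nat_lit 3981629170) (nat_lit 486) (nat_lit 5) (nat_lit 511) (nat_lit 5) (nat_lit 487) (nat_lit 5) (nat_lit 438) (nat_lit 409) (nat_lit 293)))) (XT.nd (nat_lit 156) (nat_lit 912) (nat_lit 0) (XT.nd (nat_lit 78) (nat_lit 0) (nat_lit 0) (XT.lf (nat_lit 0) (nat_lit 1301199189) (nat_lit 1140) (nat_lit 2046568797) (nat_lit 1216) (nat_lit 6987807998) (nat_lit 471) (nat_lit 5) (nat_lit 486) (nat_lit 5) (nat_lit 487) (nat_lit 5) (nat_lit 439) (nat_lit 409) (nat_lit 292)) (XT.lf (nat_lit 0) (nat_lit 5063221729) (nat_lit 1216) (nat_lit 3122328665) (nat_lit 76) (nat_lit 2249763631) (nat_lit 471) (nat_lit 5) (nat_lit 487) (nat_lit 5) (nat_lit 472) (nat_lit 5) (nat_lit 440) (nat_lit 409) (nat_lit 291))) (XT.nd (nat_lit 78) (nat_lit 0) (nat_lit 0) (XT.lf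 (nat_lit 0) (nat_lit 2914960133) (nat_lit 912) (nat_lit 3911537748) (nat_lit 988) (nat_lit 3710278680) (nat_lit 459) (nat_lit 5) (nat_lit 471) (nat_lit 5) (nat_lit 472) (nat_lit 5) (nat_lit 441) (nat_lit 409) (nat_lit 290)) (XT.lf (nat_lit 0) (nat_lit 8630338564) (nat_lit 988) (nat_lit 1545520181) (nat_lit 76) (nat_lit 464303621) (nat_lit 459) (nat_lit 5) (nat_lit 472) (nat_lit 5) (nat_lit 460) (nat_lit 5) (nat_lit 442) (nat_lit 409) (nat_lit 289))))) (XT.nd (nat_lit 312) (nat_lit 1748) (nat_lit 0) (XT.nd (nat_lit 156) (nat_lit 912) (nat_lit 0) (XT.nd (nat_lit 78) (nat_lit 912) (nat_lit 0) (XT.lf (nat_lit 0) (nat_lit 4670055801) (nat_lit 912) (nat_lit 5838091620) (nat_lit 988) (nat_lit 236710641) (nat_lit 447) (nat_lit 5) (nat_lit 459) (nat_lit 5) (nat_lit 460) (nat_lit 5) (nat_lit 443) (nat_lit 409) (nat_lit 288)) (XT.lf (nat_lit 0) (nat_lit 153474735) (nat_lit 836) (nat_lit 1391003436) (nat_lit 912) (nat_lit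 9307100814) (nat_lit 435) (nat_lit 5) (nat_lit 446) (nat_lit 5) (nat_lit 447) (nat_lit 5) (nat_lit 444) (nat_lit 409) (nat_lit 287))) (XT.nd (nat_lit 78) (nat_lit 912) (nat_lit 0) (XT.lf (nat_lit 0) (nat_lit 3401616247) (nat_lit 912) (nat_lit 4411175334) (nat_lit 76) (nat_lit 3146741552) (nat_lit 435) (nat_lit 5) (nat_lit 447) (nat_lit 5) (nat_lit 436) (nat_lit 5) (nat_lit 445) (nat_lit 409) (nat_lit 286)) (XT.lf (nat_lit 0) (nat_lit 2000912802) (nat_lit 912) (nat_lit 3299577075) (nat_lit 988) (nat_lit 5769064631) (nat_lit 423) (nat_lit 5) (nat_lit 435) (nat_lit 5) (nat_lit 436) (nat_lit 5) (nat_lit 446) (nat_lit 409) (nat_lit 285)))) (XT.nd (nat_lit 156) (nat_lit 912) (nat_lit 0) (XT.nd (nat_lit 78) (nat_lit 836) (nat_lit 0) (XT.lf (nat_lit 0) (nat_lit 7258224691) (nat_lit 988) (nat_lit 2606649487) (nat_lit 76) (nat_lit 1316484459) (nat_lit 423) (nat_lit 5) (nat_lit 436) (nat_lit 5) (nat_lit 424) (nat_lit 5) (nat_lit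 447) (nat_lit 409) (nat_lit 284)) (XT.lf (nat_lit 0) (nat_lit 3997670339) (nat_lit 836) (nat_lit 5288212234) (nat_lit 912) (nat_lit 2008900907) (nat_lit 412) (nat_lit 5) (nat_lit 423) (nat_lit 5) (nat_lit 424) (nat_lit 5) (nat_lit 448) (nat_lit 409) (nat_lit 283))) (XT.nd (nat_lit 78) (nat_lit 912) (nat_lit 0) (XT.lf (nat_lit 0) (nat_lit 10752034556) (nat_lit 836) (nat_lit 602733668) (nat_lit 912) (nat_lit 55695105) (nat_lit 412) (nat_lit 5) (nat_lit 423) (nat_lit 5) (nat_lit 424) (nat_lit 5) (nat_lit 449) (nat_lit 409) (nat_lit 282)) (XT.lf (nat_lit 0) (nat_lit 1962060865) (nat_lit 912) (nat_lit 5391154570) (nat_lit 76) (nat_lit 4173972177) (nat_lit 400) (nat_lit 5) (nat_lit 412) (nat_lit 5) (nat_lit 401) (nat_lit 5) (nat_lit 450) (nat_lit 409) (nat_lit 281)))))) (XT.nd (nat_lit 624) (nat_lit 1368) (nat_lit 0) (XT.nd (nat_lit 312) (nat_lit 1368) (nat_lit 0) (XT.nd (nat_lit 156) (nat_lit 0) (nat_lit 0) (XT.nd (nat_lit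 78) (nat_lit 0) (nat_lit 0) (XT.lf (nat_lit 0) (nat_lit 202537602) (nat_lit 0) (nat_lit 202537602) (nat_lit 1444) (nat_lit 3672116064) (nat_lit 610) (nat_lit 5) (nat_lit 610) (nat_lit 3) (nat_lit 629) (nat_lit 3) (nat_lit 410) (nat_lit 410) (nat_lit 320)) (XT.lf (nat_lit 0) (nat_lit 2000491305) (nat_lit 1444) (nat_lit 3681046556) (nat_lit 1520) (nat_lit 2530743714) (nat_lit 610) (nat_lit 5) (nat_lit 629) (nat_lit 3) (nat_lit 630) (nat_lit 5) (nat_lit 411) (nat_lit 410) (nat_lit 319))) (XT.nd (nat_lit 78) (nat_lit 0) (nat_lit 76) (XT.lf (nat_lit 76) (nat_lit 455878092) (nat_lit 0) (nat_lit 2733928820) (nat_lit 1520) (nat_lit 5082028323) (nat_lit 611) (nat_lit 5) (nat_lit 610) (nat_lit 5) (nat_lit 630) (nat_lit 5) (nat_lit 412) (nat_lit 410) (nat_lit 318)) (XT.lf (nat_lit 0) (nat_lit 4399655529) (nat_lit 1444) (nat_lit 3625164316) (nat_lit 1520) (nat_lit 307825189) (nat_lit 611) (nat_lit 5) (nat_lit 630) (nat_lit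 5) (nat_lit 631) (nat_lit 5) (nat_lit 413) (nat_lit 410) (nat_lit 317)))) (XT.nd (nat_lit 156) (nat_lit 1444) (nat_lit 0) (XT.nd (nat_lit 78) (nat_lit 0) (nat_lit 0) (XT.lf (nat_lit 76) (nat_lit 623254668) (nat_lit 0) (nat_lit 5003295814) (nat_lit 1520) (nat_lit 2768263561) (nat_lit 612) (nat_lit 5) (nat_lit 611) (nat_lit 5) (nat_lit 631) (nat_lit 5) (nat_lit 414) (nat_lit 410) (nat_lit 316)) (XT.lf (nat_lit 76) (nat_lit 4989630744) (nat_lit 0) (nat_lit 1883846341) (nat_lit 1520) (nat_lit 1584839471) (nat_lit 612) (nat_lit 5) (nat_lit 611) (nat_lit 5) (nat_lit 631) (nat_lit 5) (nat_lit 415) (nat_lit 410) (nat_lit 315))) (XT.nd (nat_lit 78) (nat_lit 1520) (nat_lit 0) (XT.lf (nat_lit 76) (nat_lit 907235624) (nat_lit 0) (nat_lit 7224237464) (nat_lit 1520) (nat_lit 391893415) (nat_lit 613) (nat_lit 5) (nat_lit 612) (nat_lit 5) (nat_lit 632) (nat_lit 5) (nat_lit 416) (nat_lit 410) (nat_lit 314)) (XT.lf (nat_lit 0) (nat_lit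 822075100) (nat_lit 1520) (nat_lit 3206286702) (nat_lit 1596) (nat_lit 4561088881) (nat_lit 592) (nat_lit 5) (nat_lit 612) (nat_lit 5) (nat_lit 613) (nat_lit 5) (nat_lit 417) (nat_lit 410) (nat_lit 313))))) (XT.nd (nat_lit 312) (nat_lit 1368) (nat_lit 0) (XT.nd (nat_lit 156) (nat_lit 0) (nat_lit 76) (XT.nd (nat_lit 78) (nat_lit 0) (nat_lit 76) (XT.lf (nat_lit 76) (nat_lit 1289658035) (nat_lit 0) (nat_lit 746418992) (nat_lit 1596) (nat_lit 6621107681) (nat_lit 593) (nat_lit 5) (nat_lit 592) (nat_lit 5) (nat_lit 613) (nat_lit 5) (nat_lit 418) (nat_lit 410) (nat_lit 312)) (XT.lf (nat_lit 0) (nat_lit 3286029097) (nat_lit 1520) (nat_lit 2840805427) (nat_lit 1596) (nat_lit 2599205488) (nat_lit 593) (nat_lit 5) (nat_lit 613) (nat_lit 5) (nat_lit 614) (nat_lit 5) (nat_lit 419) (nat_lit 410) (nat_lit 311))) (XT.nd (nat_lit 78) (nat_lit 0) (nat_lit 76) (XT.lf (nat_lit 76) (nat_lit 1778245658) (nat_lit 0) (nat_lit 2772873537)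 (nat_lit 1596) (nat_lit 4245350447) (nat_lit 594) (nat_lit 5) (nat_lit 593) (nat_lit 5) (nat_lit 614) (nat_lit 5) (nat_lit 420) (nat_lit 410) (nat_lit 310)) (XT.lf (nat_lit 0) (nat_lit 5839030391) (nat_lit 1520) (nat_lit 2361130127) (nat_lit 1596) (nat_lit 668196961) (nat_lit 594) (nat_lit 5) (nat_lit 614) (nat_lit 5) (nat_lit 615) (nat_lit 5) (nat_lit 421) (nat_lit 410) (nat_lit 309)))) (XT.nd (nat_lit 156) (nat_lit 1520) (nat_lit 0) (XT.nd (nat_lit 78) (nat_lit 0) (nat_lit 0) (XT.lf (nat_lit 76) (nat_lit 2385305741) (nat_lit 0) (nat_lit 4775873301) (nat_lit 1596) (nat_lit 1780334445) (nat_lit 595) (nat_lit 5) (nat_lit 594) (nat_lit 5) (nat_lit 615) (nat_lit 5) (nat_lit 422) (nat_lit 410) (nat_lit 308)) (XT.lf (nat_lit 76) (nat_lit 7242065889) (nat_lit 0) (nat_lit 1258567677) (nat_lit 1596) (nat_lit 515681792) (nat_lit 595) (nat_lit 5) (nat_lit 594) (nat_lit 5) (nat_lit 615) (nat_lit 5) (nat_lit 423) (nat_lit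 410) (nat_lit 307))) (XT.nd (nat_lit 78) (nat_lit 0) (nat_lit 0) (XT.lf (nat_lit 0) (nat_lit 775071545) (nat_lit 1596) (nat_lit 5985278947) (nat_lit 1672) (nat_lit 2331942990) (nat_lit 574) (nat_lit 5) (nat_lit 595) (nat_lit 5) (nat_lit 596) (nat_lit 5) (nat_lit 424) (nat_lit 410) (nat_lit 306)) (XT.nd (nat_lit 78) (nat_lit 0) (nat_lit 76) (XT.lf (nat_lit 0) (nat_lit 2080834158) (nat_lit 1596) (nat_lit 1088466517) (nat_lit 1672) (nat_lit 6000500334) (nat_lit 574) (nat_lit 5) (nat_lit 595) (nat_lit 5) (nat_lit 596) (nat_lit 5) (nat_lit 425) (nat_lit 410) (nat_lit 305)) (XT.lf (nat_lit 0) (nat_lit 3417969050) (nat_lit 1596) (nat_lit 5310973927) (nat_lit 1672) (nat_lit 519810572) (nat_lit 575) (nat_lit 5) (nat_lit 596) (nat_lit 5) (nat_lit 597) (nat_lit 5) (nat_lit 426) (nat_lit 410) (nat_lit 304))))))))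
noncomputable def xc64 : XT := (XT.nd (nat_lit 58734) (nat_lit 0) (nat_lit 1748) (XT.nd (nat_lit 1248) (nat_lit 4484) (nat_lit 0) (XT.nd (nat_lit 624) (nat_lit 7296) (nat_lit 0) (XT.nd (nat_lit 312) (nat_lit 1520) (nat_lit 0) (XT.nd (nat_lit 156) (nat_lit 0) (nat_lit 76) (XT.nd (nat_lit 78) (nat_lit 0) (nat_lit 0) (XT.lf (nat_lit 0) (nat_lit 4786837963) (nat_lit 1596) (nat_lit 287977937) (nat_lit 1672) (nat_lit 4254369412) (nat_lit 575) (nat_lit 5) (nat_lit 596) (nat_lit 5) (nat_lit 597) (nat_lit 5) (nat_lit 427) (nat_lit 410) (nat_lit 303)) (XT.lf (nat_lit 76) (nat_lit 4882744576) (nat_lit 0) (nat_lit 1309149559) (nat_lit 1672) (nat_lit 3219155377) (nat_lit 576) (nat_lit 5) (nat_lit 575) (nat_lit 5) (nat_lit 597) (nat_lit 5) (nat_lit 428) (nat_lit 410) (nat_lit 302))) (XT.nd (nat_lit 78) (nat_lit 0) (nat_lit 0) (XT.lf (nat_lit 76) (nat_lit 641079154) (nat_lit 0) (nat_lit 6984004989) (nat_lit 1672) (nat_lit 1869466199)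 (nat_lit 577) (nat_lit 5) (nat_lit 576) (nat_lit 5) (nat_lit 598) (nat_lit 5) (nat_lit 429) (nat_lit 410) (nat_lit 301)) (XT.lf (nat_lit 76) (nat_lit 5949410637) (nat_lit 0) (nat_lit 3154345065) (nat_lit 1672) (nat_lit 475629132) (nat_lit 577) (nat_lit 5) (nat_lit 576) (nat_lit 5) (nat_lit 598) (nat_lit 5) (nat_lit 430) (nat_lit 410) (nat_lit 300)))) (XT.nd (nat_lit 156) (nat_lit 0) (nat_lit 0) (XT.nd (nat_lit 78) (nat_lit 0) (nat_lit 0) (XT.lf (nat_lit 0) (nat_lit 927831266) (nat_lit 1672) (nat_lit 7973924303) (nat_lit 1748) (nat_lit 764154501) (nat_lit 555) (nat_lit 5) (nat_lit 577) (nat_lit 5) (nat_lit 578) (nat_lit 5) (nat_lit 431) (nat_lit 410) (nat_lit 299)) (XT.lf (nat_lit 0) (nat_lit 2376866828) (nat_lit 1672) (nat_lit 2625633830) (nat_lit 1748) (nat_lit 4751124782) (nat_lit 555) (nat_lit 5) (nat_lit 577) (nat_lit 5) (nat_lit 578) (nat_lit 5) (nat_lit 432) (nat_lit 410) (nat_lit 298))) (XT.nd (nat_lit 78)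 (nat_lit 0) (nat_lit 76) (XT.lf (nat_lit 76) (nat_lit 2849996248) (nat_lit 0) (nat_lit 1002271916) (nat_lit 1748) (nat_lit 5990879253) (nat_lit 556) (nat_lit 5) (nat_lit 555) (nat_lit 5) (nat_lit 578) (nat_lit 5) (nat_lit 433) (nat_lit 410) (nat_lit 297)) (XT.lf (nat_lit 0) (nat_lit 5374108647) (nat_lit 1672) (nat_lit 1500812512) (nat_lit 76) (nat_lit 3059200051) (nat_lit 556) (nat_lit 5) (nat_lit 578) (nat_lit 5) (nat_lit 557) (nat_lit 5) (nat_lit 434) (nat_lit 410) (nat_lit 296))))) (XT.nd (nat_lit 312) (nat_lit 2052) (nat_lit 0) (XT.nd (nat_lit 156) (nat_lit 3648) (nat_lit 0) (XT.nd (nat_lit 78) (nat_lit 0) (nat_lit 0) (XT.lf (nat_lit 0) (nat_lit 4131931972) (nat_lit 1672) (nat_lit 2807537285) (nat_lit 1748) (nat_lit 3087183557) (nat_lit 534) (nat_lit 5) (nat_lit 556) (nat_lit 5) (nat_lit 557) (nat_lit 5) (nat_lit 435) (nat_lit 410) (nat_lit 295)) (XT.lf (nat_lit 0) (nat_lit 8534912311) (nat_lit 1748) (nat_lit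 249238259) (nat_lit 76) (nat_lit 1336908973) (nat_lit 534) (nat_lit 5) (nat_lit 557) (nat_lit 5) (nat_lit 535) (nat_lit 5) (nat_lit 436) (nat_lit 410) (nat_lit 294))) (XT.nd (nat_lit 78) (nat_lit 1900) (nat_lit 0) (XT.lf (nat_lit 0) (nat_lit 5546336257) (nat_lit 1748) (nat_lit 4650854337) (nat_lit 1824) (nat_lit 19465287) (nat_lit 511) (nat_lit 5) (nat_lit 534) (nat_lit 5) (nat_lit 535) (nat_lit 5) (nat_lit 437) (nat_lit 410) (nat_lit 293)) (XT.lf (nat_lit 0) (nat_lit 1134576291) (nat_lit 1824) (nat_lit 412791878) (nat_lit 1900) (nat_lit 8766800580) (nat_lit 486) (nat_lit 5) (nat_lit 510) (nat_lit 5) (nat_lit 511) (nat_lit 5) (nat_lit 438) (nat_lit 410) (nat_lit 292)))) (XT.nd (nat_lit 156) (nat_lit 912) (nat_lit 0) (XT.nd (nat_lit 78) (nat_lit 1140) (nat_lit 0) (XT.lf (nat_lit 0) (nat_lit 3182970286) (nat_lit 1900) (nat_lit 3337251562) (nat_lit 76) (nat_lit 3892653600) (nat_lit 486) (nat_lit 5) (nat_lit 511) (nat_lit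 5) (nat_lit 487) (nat_lit 5) (nat_lit 439) (nat_lit 410) (nat_lit 291)) (XT.lf (nat_lit 0) (nat_lit 2636723682) (nat_lit 1140) (nat_lit 2215549148) (nat_lit 1216) (nat_lit 5661263684) (nat_lit 471) (nat_lit 5) (nat_lit 486) (nat_lit 5) (nat_lit 487) (nat_lit 5) (nat_lit 440) (nat_lit 410) (nat_lit 290))) (XT.nd (nat_lit 78) (nat_lit 912) (nat_lit 0) (XT.lf (nat_lit 0) (nat_lit 6573033326) (nat_lit 1216) (nat_lit 1871948888) (nat_lit 76) (nat_lit 2170867149) (nat_lit 471) (nat_lit 5) (nat_lit 487) (nat_lit 5) (nat_lit 472) (nat_lit 5) (nat_lit 441) (nat_lit 410) (nat_lit 289)) (XT.lf (nat_lit 0) (nat_lit 4277448671) (nat_lit 912) (nat_lit 4074975420) (nat_lit 988) (nat_lit 2367300076) (nat_lit 459) (nat_lit 5) (nat_lit 471) (nat_lit 5) (nat_lit 472) (nat_lit 5) (nat_lit 442) (nat_lit 410) (nat_lit 288)))))) (XT.nd (nat_lit 56862) (nat_lit 0) (nat_lit 14516) (XT.nd (nat_lit 312) (nat_lit 2660) (nat_lit 0) (XT.nd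 (nat_lit 156) (nat_lit 836) (nat_lit 0) (XT.nd (nat_lit 78) (nat_lit 988) (nat_lit 0) (XT.lf (nat_lit 0) (nat_lit 10164556151) (nat_lit 988) (nat_lit 270028154) (nat_lit 76) (nat_lit 391149093) (nat_lit 459) (nat_lit 5) (nat_lit 472) (nat_lit 5) (nat_lit 460) (nat_lit 5) (nat_lit 443) (nat_lit 410) (nat_lit 287)) (XT.lf (nat_lit 0) (nat_lit 1113956814) (nat_lit 988) (nat_lit 4878952516) (nat_lit 76) (nat_lit 4939832544) (nat_lit 446) (nat_lit 5) (nat_lit 459) (nat_lit 5) (nat_lit 447) (nat_lit 5) (nat_lit 444) (nat_lit 410) (nat_lit 286))) (XT.nd (nat_lit 78) (nat_lit 0) (nat_lit 0) (XT.lf (nat_lit 0) (nat_lit 1463665966) (nat_lit 836) (nat_lit 1445909134) (nat_lit 912) (nat_lit 8132351318) (nat_lit 435) (nat_lit 5) (nat_lit 446) (nat_lit 5) (nat_lit 447) (nat_lit 5) (nat_lit 445) (nat_lit 410) (nat_lit 285)) (XT.lf (nat_lit 0) (nat_lit 4777522598) (nat_lit 912) (nat_lit 3191573605) (nat_lit 76) (nat_lit 3183470112)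 (nat_lit 435) (nat_lit 5) (nat_lit 447) (nat_lit 5) (nat_lit 436) (nat_lit 5) (nat_lit 446) (nat_lit 410) (nat_lit 284)))) (XT.nd (nat_lit 156) (nat_lit 1748) (nat_lit 0) (XT.nd (nat_lit 78) (nat_lit 0) (nat_lit 0) (XT.lf (nat_lit 0) (nat_lit 3340152181) (nat_lit 912) (nat_lit 3357012337) (nat_lit 988) (nat_lit 4567967784) (nat_lit 423) (nat_lit 5) (nat_lit 435) (nat_lit 5) (nat_lit 436) (nat_lit 5) (nat_lit 447) (nat_lit 410) (nat_lit 283)) (XT.lf (nat_lit 0) (nat_lit 8668801337) (nat_lit 988) (nat_lit 1359783588) (nat_lit 76) (nat_lit 1351092642) (nat_lit 423) (nat_lit 5) (nat_lit 436) (nat_lit 5) (nat_lit 424) (nat_lit 5) (nat_lit 448) (nat_lit 410) (nat_lit 282))) (XT.nd (nat_lit 78) (nat_lit 912) (nat_lit 0) (XT.lf (nat_lit 0) (nat_lit 5368076589) (nat_lit 836) (nat_lit 5352502261) (nat_lit 912) (nat_lit 775120727) (nat_lit 412) (nat_lit 5) (nat_lit 423) (nat_lit 5) (nat_lit 424) (nat_lit 5) (nat_lit 449)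 (nat_lit 410) (nat_lit 281)) (XT.lf (nat_lit 0) (nat_lit 618412509) (nat_lit 836) (nat_lit 562136734) (nat_lit 912) (nat_lit 10433398466) (nat_lit 400) (nat_lit 5) (nat_lit 411) (nat_lit 5) (nat_lit 412) (nat_lit 5) (nat_lit 450) (nat_lit 410) (nat_lit 280))))) (XT.nd (nat_lit 312) (nat_lit 1444) (nat_lit 0) (XT.nd (nat_lit 156) (nat_lit 0) (nat_lit 0) (XT.nd (nat_lit 78) (nat_lit 0) (nat_lit 0) (XT.lf (nat_lit 0) (nat_lit 785599344) (nat_lit 0) (nat_lit 785599344) (nat_lit 1444) (nat_lit 2564375966) (nat_lit 610) (nat_lit 5) (nat_lit 610) (nat_lit 3) (nat_lit 629) (nat_lit 3) (nat_lit 411) (nat_lit 411) (nat_lit 318)) (XT.lf (nat_lit 0) (nat_lit 4303761242) (nat_lit 1444) (nat_lit 2566567972) (nat_lit 1520) (nat_lit 1460932790) (nat_lit 610) (nat_lit 5) (nat_lit 629) (nat_lit 3) (nat_lit 630) (nat_lit 5) (nat_lit 412) (nat_lit 411) (nat_lit 317))) (XT.nd (nat_lit 78) (nat_lit 0) (nat_lit 0) (XT.lf (nat_lit 76)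 (nat_lit 1645278726) (nat_lit 0) (nat_lit 3834869967) (nat_lit 1520) (nat_lit 2912592334) (nat_lit 611) (nat_lit 5) (nat_lit 610) (nat_lit 5) (nat_lit 630) (nat_lit 5) (nat_lit 413) (nat_lit 411) (nat_lit 316)) (XT.lf (nat_lit 76) (nat_lit 5960877582) (nat_lit 0) (nat_lit 707593273) (nat_lit 1520) (nat_lit 1787210636) (nat_lit 611) (nat_lit 5) (nat_lit 610) (nat_lit 5) (nat_lit 630) (nat_lit 5) (nat_lit 414) (nat_lit 411) (nat_lit 315)))) (XT.nd (nat_lit 156) (nat_lit 0) (nat_lit 76) (XT.nd (nat_lit 78) (nat_lit 1520) (nat_lit 0) (XT.lf (nat_lit 76) (nat_lit 1835233818) (nat_lit 0) (nat_lit 6045192628) (nat_lit 1520) (nat_lit 639456980) (nat_lit 612) (nat_lit 5) (nat_lit 611) (nat_lit 5) (nat_lit 631) (nat_lit 5) (nat_lit 415) (nat_lit 411) (nat_lit 314)) (XT.lf (nat_lit 0) (nat_lit 517925731) (nat_lit 1520) (nat_lit 2323485607) (nat_lit 1596) (nat_lit 5744016246) (nat_lit 591) (nat_lit 5) (nat_lit 611) (nat_lit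 5) (nat_lit 612) (nat_lit 5) (nat_lit 416) (nat_lit 411) (nat_lit 313))) (XT.nd (nat_lit 78) (nat_lit 0) (nat_lit 0) (XT.lf (nat_lit 0) (nat_lit 1679366011) (nat_lit 1520) (nat_lit 6522373796) (nat_lit 1596) (nat_lit 450668837) (nat_lit 592) (nat_lit 5) (nat_lit 612) (nat_lit 5) (nat_lit 613) (nat_lit 5) (nat_lit 417) (nat_lit 411) (nat_lit 312)) (XT.lf (nat_lit 0) (nat_lit 2871707530) (nat_lit 1520) (nat_lit 2051310103) (nat_lit 1596) (nat_lit 3797558244) (nat_lit 592) (nat_lit 5) (nat_lit 612) (nat_lit 5) (nat_lit 613) (nat_lit 5) (nat_lit 418) (nat_lit 411) (nat_lit 311))))))) (XT.nd (nat_lit 1248) (nat_lit 9956) (nat_lit 0) (XT.nd (nat_lit 624) (nat_lit 1444) (nat_lit 0) (XT.nd (nat_lit 312) (nat_lit 1444) (nat_lit 0) (XT.nd (nat_lit 156) (nat_lit 0) (nat_lit 76) (XT.nd (nat_lit 78) (nat_lit 0) (nat_lit 76) (XT.lf (nat_lit 76) (nat_lit 2526533118) (nat_lit 0) (nat_lit 1551453036) (nat_lit 1596) (nat_lit 4712318496)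 (nat_lit 593) (nat_lit 5) (nat_lit 592) (nat_lit 5) (nat_lit 613) (nat_lit 5) (nat_lit 419) (nat_lit 411) (nat_lit 310)) (XT.lf (nat_lit 0) (nat_lit 5308668990) (nat_lit 1520) (nat_lit 1666018041) (nat_lit 1596) (nat_lit 1886735396) (nat_lit 593) (nat_lit 5) (nat_lit 613) (nat_lit 5) (nat_lit 614) (nat_lit 5) (nat_lit 420) (nat_lit 411) (nat_lit 309))) (XT.nd (nat_lit 78) (nat_lit 0) (nat_lit 76) (XT.lf (nat_lit 76) (nat_lit 3037311411) (nat_lit 0) (nat_lit 3531322290) (nat_lit 1596) (nat_lit 2365235491) (nat_lit 594) (nat_lit 5) (nat_lit 593) (nat_lit 5) (nat_lit 614) (nat_lit 5) (nat_lit 421) (nat_lit 411) (nat_lit 308)) (XT.lf (nat_lit 0) (nat_lit 7840053976) (nat_lit 1520) (nat_lit 1166592956) (nat_lit 1596) (nat_lit 1392837) (nat_lit 594) (nat_lit 5) (nat_lit 614) (nat_lit 5) (nat_lit 615) (nat_lit 5) (nat_lit 422) (nat_lit 411) (nat_lit 307)))) (XT.nd (nat_lit 156) (nat_lit 0) (nat_lit 76) (XT.nd (nat_lit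 78) (nat_lit 0) (nat_lit 0) (XT.lf (nat_lit 0) (nat_lit 75468379) (nat_lit 1596) (nat_lit 5417131977) (nat_lit 1672) (nat_lit 3590627344) (nat_lit 573) (nat_lit 5) (nat_lit 594) (nat_lit 5) (nat_lit 595) (nat_lit 5) (nat_lit 423) (nat_lit 411) (nat_lit 306)) (XT.lf (nat_lit 0) (nat_lit 1311876743) (nat_lit 1596) (nat_lit 572584416) (nat_lit 1672) (nat_lit 7275629336) (nat_lit 573) (nat_lit 5) (nat_lit 594) (nat_lit 5) (nat_lit 595) (nat_lit 5) (nat_lit 424) (nat_lit 411) (nat_lit 305))) (XT.nd (nat_lit 78) (nat_lit 0) (nat_lit 0) (XT.lf (nat_lit 0) (nat_lit 2589853767) (nat_lit 1596) (nat_lit 4839556739) (nat_lit 1672) (nat_lit 1808743230) (nat_lit 574) (nat_lit 5) (nat_lit 595) (nat_lit 5) (nat_lit 596) (nat_lit 5) (nat_lit 425) (nat_lit 411) (nat_lit 304)) (XT.lf (nat_lit 76) (nat_lit 132112305) (nat_lit 0) (nat_lit 3755197072) (nat_lit 1672) (nat_lit 5430590482) (nat_lit 575) (nat_lit 5) (nat_lit 574) (nat_lit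 5) (nat_lit 596) (nat_lit 5) (nat_lit 426) (nat_lit 411) (nat_lit 303))))) (XT.nd (nat_lit 312) (nat_lit 1596) (nat_lit 0) (XT.nd (nat_lit 156) (nat_lit 0) (nat_lit 0) (XT.nd (nat_lit 78) (nat_lit 0) (nat_lit 0) (XT.lf (nat_lit 0) (nat_lit 5220464320) (nat_lit 1596) (nat_lit 4146713042) (nat_lit 1672) (nat_lit 31868539) (nat_lit 575) (nat_lit 5) (nat_lit 596) (nat_lit 5) (nat_lit 597) (nat_lit 5) (nat_lit 427) (nat_lit 411) (nat_lit 302)) (XT.lf (nat_lit 76) (nat_lit 964480827) (nat_lit 0) (nat_lit 5624489169) (nat_lit 1672) (nat_lit 2892671116) (nat_lit 576) (nat_lit 5) (nat_lit 575) (nat_lit 5) (nat_lit 597) (nat_lit 5) (nat_lit 428) (nat_lit 411) (nat_lit 301))) (XT.nd (nat_lit 78) (nat_lit 0) (nat_lit 76) (XT.lf (nat_lit 76) (nat_lit 6217773918) (nat_lit 0) (nat_lit 1772789235) (nat_lit 1672) (nat_lit 1575210726) (nat_lit 576) (nat_lit 5) (nat_lit 575) (nat_lit 5) (nat_lit 597) (nat_lit 5) (nat_lit 429) (nat_lit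 411) (nat_lit 300)) (XT.lf (nat_lit 76) (nat_lit 1919232390) (nat_lit 0) (nat_lit 7505775550) (nat_lit 1672) (nat_lit 226484967) (nat_lit 577) (nat_lit 5) (nat_lit 576) (nat_lit 5) (nat_lit 598) (nat_lit 5) (nat_lit 430) (nat_lit 411) (nat_lit 299)))) (XT.nd (nat_lit 156) (nat_lit 0) (nat_lit 76) (XT.nd (nat_lit 78) (nat_lit 0) (nat_lit 76) (XT.lf (nat_lit 0) (nat_lit 1147036882) (nat_lit 1672) (nat_lit 2437296354) (nat_lit 1748) (nat_lit 6154185974) (nat_lit 554) (nat_lit 5) (nat_lit 576) (nat_lit 5) (nat_lit 577) (nat_lit 5) (nat_lit 431) (nat_lit 411) (nat_lit 298)) (XT.lf (nat_lit 0) (nat_lit 2546204588) (nat_lit 1672) (nat_lit 6845276143) (nat_lit 1748) (nat_lit 435751206) (nat_lit 555) (nat_lit 5) (nat_lit 577) (nat_lit 5) (nat_lit 578) (nat_lit 5) (nat_lit 432) (nat_lit 411) (nat_lit 297))) (XT.nd (nat_lit 78) (nat_lit 0) (nat_lit 0) (XT.lf (nat_lit 0) (nat_lit 3992851906) (nat_lit 1672) (nat_lit 1415277246)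 (nat_lit 1748) (nat_lit 4509199842) (nat_lit 555) (nat_lit 5) (nat_lit 577) (nat_lit 5) (nat_lit 578) (nat_lit 5) (nat_lit 433) (nat_lit 411) (nat_lit 296)) (XT.lf (nat_lit 76) (nat_lit 4161557083) (nat_lit 0) (nat_lit 1313595750) (nat_lit 1748) (nat_lit 4533940746) (nat_lit 556) (nat_lit 5) (nat_lit 555) (nat_lit 5) (nat_lit 578) (nat_lit 5) (nat_lit 434) (nat_lit 411) (nat_lit 295)))))) (XT.nd (nat_lit 624) (nat_lit 3648) (nat_lit 0) (XT.nd (nat_lit 312) (nat_lit 2964) (nat_lit 0) (XT.nd (nat_lit 156) (nat_lit 1824) (nat_lit 0) (XT.nd (nat_lit 78) (nat_lit 1672) (nat_lit 0) (XT.lf (nat_lit 0) (nat_lit 6995265460) (nat_lit 1672) (nat_lit 268702421) (nat_lit 76) (nat_lit 2838562261) (nat_lit 556) (nat_lit 5) (nat_lit 578) (nat_lit 5) (nat_lit 557) (nat_lit 5) (nat_lit 435) (nat_lit 411) (nat_lit 294)) (XT.lf (nat_lit 0) (nat_lit 5468393491) (nat_lit 1672) (nat_lit 3102000546) (nat_lit 1748) (nat_lit 1626949125)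 (nat_lit 534) (nat_lit 5) (nat_lit 556) (nat_lit 5) (nat_lit 557) (nat_lit 5) (nat_lit 436) (nat_lit 411) (nat_lit 293))) (XT.nd (nat_lit 78) (nat_lit 76) (nat_lit 0) (XT.lf (nat_lit 0) (nat_lit 1019156006) (nat_lit 1748) (nat_lit 9154432482) (nat_lit 1824) (nat_lit 120532688) (nat_lit 511) (nat_lit 5) (nat_lit 534) (nat_lit 5) (nat_lit 535) (nat_lit 5) (nat_lit 437) (nat_lit 411) (nat_lit 292)) (XT.lf (nat_lit 0) (nat_lit 1430781524) (nat_lit 1824) (nat_lit 3492599317) (nat_lit 76) (nat_lit 5468603222) (nat_lit 510) (nat_lit 5) (nat_lit 534) (nat_lit 5) (nat_lit 511) (nat_lit 5) (nat_lit 438) (nat_lit 411) (nat_lit 291)))) (XT.nd (nat_lit 156) (nat_lit 1140) (nat_lit 0) (XT.nd (nat_lit 78) (nat_lit 0) (nat_lit 0) (XT.lf (nat_lit 0) (nat_lit 2419903781) (nat_lit 1824) (nat_lit 588546604) (nat_lit 1900) (nat_lit 7483399043) (nat_lit 486) (nat_lit 5) (nat_lit 510) (nat_lit 5) (nat_lit 511) (nat_lit 5) (nat_lit 439)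 (nat_lit 411) (nat_lit 290)) (XT.lf (nat_lit 0) (nat_lit 4647656494) (nat_lit 1900) (nat_lit 2137010148) (nat_lit 76) (nat_lit 3808445780) (nat_lit 486) (nat_lit 5) (nat_lit 511) (nat_lit 5) (nat_lit 487) (nat_lit 5) (nat_lit 440) (nat_lit 411) (nat_lit 289))) (XT.nd (nat_lit 78) (nat_lit 0) (nat_lit 0) (XT.lf (nat_lit 0) (nat_lit 3948109164) (nat_lit 1140) (nat_lit 2382936808) (nat_lit 1216) (nat_lit 4365126719) (nat_lit 471) (nat_lit 5) (nat_lit 486) (nat_lit 5) (nat_lit 487) (nat_lit 5) (nat_lit 441) (nat_lit 411) (nat_lit 288)) (XT.lf (nat_lit 0) (nat_lit 8058345551) (nat_lit 1216) (nat_lit 647540162) (nat_lit 76) (nat_lit 2095203605) (nat_lit 471) (nat_lit 5) (nat_lit 487) (nat_lit 5) (nat_lit 472) (nat_lit 5) (nat_lit 442) (nat_lit 411) (nat_lit 287))))) (XT.nd (nat_lit 312) (nat_lit 912) (nat_lit 0) (XT.nd (nat_lit 156) (nat_lit 836) (nat_lit 0) (XT.nd (nat_lit 78) (nat_lit 988) (nat_lit 0) (XT.lf (nat_lit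 0) (nat_lit 5616543718) (nat_lit 912) (nat_lit 4238373157) (nat_lit 988) (nat_lit 1052492889) (nat_lit 459) (nat_lit 5) (nat_lit 471) (nat_lit 5) (nat_lit 472) (nat_lit 5) (nat_lit 443) (nat_lit 411) (nat_lit 286)) (XT.lf (nat_lit 0) (nat_lit 658340727) (nat_lit 988) (nat_lit 10027004071) (nat_lit 76) (nat_lit 330512909) (nat_lit 446) (nat_lit 5) (nat_lit 459) (nat_lit 5) (nat_lit 447) (nat_lit 5) (nat_lit 444) (nat_lit 411) (nat_lit 285))) (XT.nd (nat_lit 78) (nat_lit 836) (nat_lit 0) (XT.lf (nat_lit 0) (nat_lit 2435962091) (nat_lit 988) (nat_lit 3711846665) (nat_lit 76) (nat_lit 4977593433) (nat_lit 446) (nat_lit 5) (nat_lit 459) (nat_lit 5) (nat_lit 447) (nat_lit 5) (nat_lit 445) (nat_lit 411) (nat_lit 284)) (XT.lf (nat_lit 0) (nat_lit 2749303891) (nat_lit 836) (nat_lit 1500861177) (nat_lit 912) (nat_lit 6986951909) (nat_lit 435) (nat_lit 5) (nat_lit 446) (nat_lit 5) (nat_lit 447) (nat_lit 5) (nat_lit 446) (nat_lit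 411) (nat_lit 283)))) (XT.nd (nat_lit 156) (nat_lit 0) (nat_lit 0) (XT.nd (nat_lit 78) (nat_lit 912) (nat_lit 0) (XT.lf (nat_lit 0) (nat_lit 6130160734) (nat_lit 912) (nat_lit 1998364289) (nat_lit 76) (nat_lit 3221950866) (nat_lit 435) (nat_lit 5) (nat_lit 447) (nat_lit 5) (nat_lit 436) (nat_lit 5) (nat_lit 447) (nat_lit 411) (nat_lit 282)) (XT.lf (nat_lit 0) (nat_lit 4655726008) (nat_lit 912) (nat_lit 3415928554) (nat_lit 988) (nat_lit 3393969451) (nat_lit 423) (nat_lit 5) (nat_lit 435) (nat_lit 5) (nat_lit 436) (nat_lit 5) (nat_lit 448) (nat_lit 411) (nat_lit 281))) (XT.nd (nat_lit 56472) (nat_lit 0) (nat_lit 14212) (XT.lf (nat_lit 0) (nat_lit 10058452020) (nat_lit 988) (nat_lit 138422081) (nat_lit 76) (nat_lit 1386071524) (nat_lit 423) (nat_lit 5) (nat_lit 436) (nat_lit 5) (nat_lit 424) (nat_lit 5) (nat_lit 449) (nat_lit 411) (nat_lit 280)) (XT.lf (nat_lit 0) (nat_lit 1357838618) (nat_lit 0) (nat_lit 1357838618)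 (nat_lit 1444) (nat_lit 1480347818) (nat_lit 610) (nat_lit 5) (nat_lit 610) (nat_lit 3) (nat_lit 629) (nat_lit 3) (nat_lit 412) (nat_lit 412) (nat_lit 316))))))))
noncomputable def xc65 : XT := (XT.nd (nat_lit 2496) (nat_lit 2660) (nat_lit 0) (XT.nd (nat_lit 1248) (nat_lit 8664) (nat_lit 0) (XT.nd (nat_lit 624) (nat_lit 1368) (nat_lit 0) (XT.nd (nat_lit 312) (nat_lit 0) (nat_lit 76) (XT.nd (nat_lit 156) (nat_lit 1520) (nat_lit 0) (XT.nd (nat_lit 78) (nat_lit 0) (nat_lit 0) (XT.lf (nat_lit 0) (nat_lit 6565211429) (nat_lit 1444) (nat_lit 1475935167) (nat_lit 1520) (nat_lit 413233148) (nat_lit 610) (nat_lit 5) (nat_lit 629) (nat_lit 3) (nat_lit 630) (nat_lit 5) (nat_lit 413) (nat_lit 412) (nat_lit 315)) (XT.lf (nat_lit 76) (nat_lit 2812635542) (nat_lit 0) (nat_lit 4917202287) (nat_lit 1520) (nat_lit 787956296) (nat_lit 611) (nat_lit 5) (nat_lit 610) (nat_lit 5) (nat_lit 630) (nat_lit 5) (nat_lit 414) (nat_lit 412)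 (nat_lit 314))) (XT.nd (nat_lit 78) (nat_lit 0) (nat_lit 76) (XT.lf (nat_lit 0) (nat_lit 312972078) (nat_lit 1520) (nat_lit 1392589441) (nat_lit 1596) (nat_lit 6877229948) (nat_lit 590) (nat_lit 5) (nat_lit 610) (nat_lit 5) (nat_lit 611) (nat_lit 5) (nat_lit 415) (nat_lit 412) (nat_lit 313)) (XT.lf (nat_lit 0) (nat_lit 1428132548) (nat_lit 1520) (nat_lit 5633638867) (nat_lit 1596) (nat_lit 1587157888) (nat_lit 591) (nat_lit 5) (nat_lit 611) (nat_lit 5) (nat_lit 612) (nat_lit 5) (nat_lit 416) (nat_lit 412) (nat_lit 312)))) (XT.nd (nat_lit 156) (nat_lit 0) (nat_lit 76) (XT.nd (nat_lit 78) (nat_lit 0) (nat_lit 0) (XT.lf (nat_lit 0) (nat_lit 2559484582) (nat_lit 1520) (nat_lit 1212632850) (nat_lit 1596) (nat_lit 4944394697) (nat_lit 591) (nat_lit 5) (nat_lit 611) (nat_lit 5) (nat_lit 612) (nat_lit 5) (nat_lit 417) (nat_lit 412) (nat_lit 311)) (XT.lf (nat_lit 76) (nat_lit 3325428761) (nat_lit 0) (nat_lit 383337893)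 (nat_lit 1596) (nat_lit 5076773897) (nat_lit 592) (nat_lit 5) (nat_lit 591) (nat_lit 5) (nat_lit 612) (nat_lit 5) (nat_lit 418) (nat_lit 412) (nat_lit 310))) (XT.nd (nat_lit 78) (nat_lit 0) (nat_lit 0) (XT.lf (nat_lit 0) (nat_lit 4883381327) (nat_lit 1520) (nat_lit 920573202) (nat_lit 1596) (nat_lit 3051948073) (nat_lit 592) (nat_lit 5) (nat_lit 612) (nat_lit 5) (nat_lit 613) (nat_lit 5) (nat_lit 419) (nat_lit 412) (nat_lit 309)) (XT.lf (nat_lit 76) (nat_lit 3741117916) (nat_lit 0) (nat_lit 2341906995) (nat_lit 1596) (nat_lit 2844616252) (nat_lit 593) (nat_lit 5) (nat_lit 592) (nat_lit 5) (nat_lit 613) (nat_lit 5) (nat_lit 420) (nat_lit 412) (nat_lit 308))))) (XT.nd (nat_lit 312) (nat_lit 0) (nat_lit 76) (XT.nd (nat_lit 156) (nat_lit 1596) (nat_lit 0) (XT.nd (nat_lit 78) (nat_lit 0) (nat_lit 0) (XT.lf (nat_lit 0) (nat_lit 7295772118) (nat_lit 1520) (nat_lit 515559572) (nat_lit 1596) (nat_lit 1189700590) (nat_lit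 593) (nat_lit 5) (nat_lit 613) (nat_lit 5) (nat_lit 614) (nat_lit 5) (nat_lit 421) (nat_lit 412) (nat_lit 307)) (XT.lf (nat_lit 76) (nat_lit 4274048451) (nat_lit 0) (nat_lit 4277642010) (nat_lit 1596) (nat_lit 523822434) (nat_lit 594) (nat_lit 5) (nat_lit 593) (nat_lit 5) (nat_lit 614) (nat_lit 5) (nat_lit 422) (nat_lit 412) (nat_lit 306))) (XT.nd (nat_lit 78) (nat_lit 0) (nat_lit 76) (XT.lf (nat_lit 0) (nat_lit 651668707) (nat_lit 1596) (nat_lit 4963064) (nat_lit 1672) (nat_lit 8495175703) (nat_lit 572) (nat_lit 5) (nat_lit 593) (nat_lit 5) (nat_lit 594) (nat_lit 5) (nat_lit 423) (nat_lit 412) (nat_lit 305)) (XT.lf (nat_lit 0) (nat_lit 1872049950) (nat_lit 1596) (nat_lit 4315930566) (nat_lit 1672) (nat_lit 3041010295) (nat_lit 573) (nat_lit 5) (nat_lit 594) (nat_lit 5) (nat_lit 595) (nat_lit 5) (nat_lit 424) (nat_lit 412) (nat_lit 304)))) (XT.nd (nat_lit 156) (nat_lit 0) (nat_lit 76) (XT.nd (nat_lit 78) (nat_lit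 0) (nat_lit 76) (XT.lf (nat_lit 76) (nat_lit 609788886) (nat_lit 0) (nat_lit 2492159254) (nat_lit 1672) (nat_lit 6206067488) (nat_lit 574) (nat_lit 5) (nat_lit 573) (nat_lit 5) (nat_lit 595) (nat_lit 5) (nat_lit 425) (nat_lit 412) (nat_lit 303)) (XT.lf (nat_lit 0) (nat_lit 4371063367) (nat_lit 1596) (nat_lit 3720058190) (nat_lit 1672) (nat_lit 1297207003) (nat_lit 574) (nat_lit 5) (nat_lit 595) (nat_lit 5) (nat_lit 596) (nat_lit 5) (nat_lit 426) (nat_lit 412) (nat_lit 302))) (XT.nd (nat_lit 78) (nat_lit 0) (nat_lit 0) (XT.lf (nat_lit 76) (nat_lit 1343042330) (nat_lit 0) (nat_lit 4325360716) (nat_lit 1672) (nat_lit 3801787861) (nat_lit 575) (nat_lit 5) (nat_lit 574) (nat_lit 5) (nat_lit 596) (nat_lit 5) (nat_lit 427) (nat_lit 412) (nat_lit 301)) (XT.lf (nat_lit 76) (nat_lit 6542193510) (nat_lit 0) (nat_lit 452414753) (nat_lit 1672) (nat_lit 2559023864) (nat_lit 575) (nat_lit 5) (nat_lit 574) (nat_lit 5) (nat_lit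 596) (nat_lit 5) (nat_lit 428) (nat_lit 412) (nat_lit 300)))))) (XT.nd (nat_lit 624) (nat_lit 5776) (nat_lit 0) (XT.nd (nat_lit 312) (nat_lit 1444) (nat_lit 0) (XT.nd (nat_lit 156) (nat_lit 0) (nat_lit 76) (XT.nd (nat_lit 78) (nat_lit 1672) (nat_lit 0) (XT.lf (nat_lit 76) (nat_lit 2196882650) (nat_lit 0) (nat_lit 6165858055) (nat_lit 1672) (nat_lit 1275693403) (nat_lit 576) (nat_lit 5) (nat_lit 575) (nat_lit 5) (nat_lit 597) (nat_lit 5) (nat_lit 429) (nat_lit 412) (nat_lit 299)) (XT.lf (nat_lit 0) (nat_lit 34813712) (nat_lit 1672) (nat_lit 2193667398) (nat_lit 1748) (nat_lit 7496407759) (nat_lit 553) (nat_lit 5) (nat_lit 575) (nat_lit 5) (nat_lit 576) (nat_lit 5) (nat_lit 430) (nat_lit 412) (nat_lit 298))) (XT.nd (nat_lit 78) (nat_lit 0) (nat_lit 0) (XT.lf (nat_lit 0) (nat_lit 1365952266) (nat_lit 1672) (nat_lit 6648025959) (nat_lit 1748) (nat_lit 1798695795) (nat_lit 554) (nat_lit 5) (nat_lit 576) (nat_lit 5)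 (nat_lit 577) (nat_lit 5) (nat_lit 431) (nat_lit 412) (nat_lit 297)) (XT.lf (nat_lit 0) (nat_lit 2732661085) (nat_lit 1672) (nat_lit 1272924763) (nat_lit 1748) (nat_lit 5896450078) (nat_lit 554) (nat_lit 5) (nat_lit 576) (nat_lit 5) (nat_lit 577) (nat_lit 5) (nat_lit 432) (nat_lit 412) (nat_lit 296)))) (XT.nd (nat_lit 156) (nat_lit 1596) (nat_lit 0) (XT.nd (nat_lit 78) (nat_lit 0) (nat_lit 0) (XT.lf (nat_lit 0) (nat_lit 4134822544) (nat_lit 1672) (nat_lit 5744074548) (nat_lit 1748) (nat_lit 114125607) (nat_lit 555) (nat_lit 5) (nat_lit 577) (nat_lit 5) (nat_lit 578) (nat_lit 5) (nat_lit 433) (nat_lit 412) (nat_lit 295)) (XT.lf (nat_lit 0) (nat_lit 5580251948) (nat_lit 1672) (nat_lit 229752283) (nat_lit 1748) (nat_lit 4275520483) (nat_lit 555) (nat_lit 5) (nat_lit 577) (nat_lit 5) (nat_lit 578) (nat_lit 5) (nat_lit 434) (nat_lit 412) (nat_lit 294))) (XT.nd (nat_lit 78) (nat_lit 1596) (nat_lit 0) (XT.lf (nat_lit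 76) (nat_lit 5450633006) (nat_lit 0) (nat_lit 1619835366) (nat_lit 1748) (nat_lit 3109090830) (nat_lit 556) (nat_lit 5) (nat_lit 555) (nat_lit 5) (nat_lit 578) (nat_lit 5) (nat_lit 435) (nat_lit 412) (nat_lit 293)) (XT.lf (nat_lit 0) (nat_lit 951519315) (nat_lit 1672) (nat_lit 7644726158) (nat_lit 1748) (nat_lit 1679113777) (nat_lit 534) (nat_lit 5) (nat_lit 556) (nat_lit 5) (nat_lit 557) (nat_lit 5) (nat_lit 436) (nat_lit 412) (nat_lit 292))))) (XT.nd (nat_lit 312) (nat_lit 2128) (nat_lit 0) (XT.nd (nat_lit 156) (nat_lit 1824) (nat_lit 0) (XT.nd (nat_lit 78) (nat_lit 1824) (nat_lit 0) (XT.lf (nat_lit 0) (nat_lit 6782896769) (nat_lit 1672) (nat_lit 3393099108) (nat_lit 1748) (nat_lit 196610269) (nat_lit 534) (nat_lit 5) (nat_lit 556) (nat_lit 5) (nat_lit 557) (nat_lit 5) (nat_lit 437) (nat_lit 412) (nat_lit 291)) (XT.lf (nat_lit 0) (nat_lit 1300606063) (nat_lit 1824) (nat_lit 8213589978) (nat_lit 76) (nat_lit 957384783)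 (nat_lit 510) (nat_lit 5) (nat_lit 534) (nat_lit 5) (nat_lit 511) (nat_lit 5) (nat_lit 438) (nat_lit 412) (nat_lit 290))) (XT.nd (nat_lit 78) (nat_lit 1824) (nat_lit 0) (XT.lf (nat_lit 0) (nat_lit 2853453019) (nat_lit 1824) (nat_lit 2340807906) (nat_lit 76) (nat_lit 5377681702) (nat_lit 510) (nat_lit 5) (nat_lit 534) (nat_lit 5) (nat_lit 511) (nat_lit 5) (nat_lit 439) (nat_lit 412) (nat_lit 289)) (XT.lf (nat_lit 0) (nat_lit 3681908127) (nat_lit 1824) (nat_lit 761312238) (nat_lit 1900) (nat_lit 6230974032) (nat_lit 486) (nat_lit 5) (nat_lit 510) (nat_lit 5) (nat_lit 511) (nat_lit 5) (nat_lit 440) (nat_lit 412) (nat_lit 288)))) (XT.nd (nat_lit 156) (nat_lit 988) (nat_lit 0) (XT.nd (nat_lit 78) (nat_lit 1140) (nat_lit 0) (XT.lf (nat_lit 0) (nat_lit 6087232847) (nat_lit 1900) (nat_lit 961962533) (nat_lit 76) (nat_lit 3728846825) (nat_lit 486) (nat_lit 5) (nat_lit 511) (nat_lit 5) (nat_lit 487) (nat_lit 5) (nat_lit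 441) (nat_lit 412) (nat_lit 287)) (XT.lf (nat_lit 0) (nat_lit 5236847403) (nat_lit 1140) (nat_lit 2548893003) (nat_lit 1216) (nat_lit 3097794268) (nat_lit 471) (nat_lit 5) (nat_lit 486) (nat_lit 5) (nat_lit 487) (nat_lit 5) (nat_lit 442) (nat_lit 412) (nat_lit 286))) (XT.nd (nat_lit 78) (nat_lit 76) (nat_lit 0) (XT.lf (nat_lit 0) (nat_lit 559698195) (nat_lit 912) (nat_lit 8964728051) (nat_lit 988) (nat_lit 1466586583) (nat_lit 459) (nat_lit 5) (nat_lit 471) (nat_lit 5) (nat_lit 472) (nat_lit 5) (nat_lit 443) (nat_lit 412) (nat_lit 285)) (XT.lf (nat_lit 0) (nat_lit 232624909) (nat_lit 988) (nat_lit 4167672695) (nat_lit 76) (nat_lit 6699557999) (nat_lit 458) (nat_lit 5) (nat_lit 471) (nat_lit 5) (nat_lit 459) (nat_lit 5) (nat_lit 444) (nat_lit 412) (nat_lit 284))))))) (XT.nd (nat_lit 57720) (nat_lit 0) (nat_lit 6612) (XT.nd (nat_lit 57096) (nat_lit 0) (nat_lit 11324) (XT.nd (nat_lit 312) (nat_lit 912) (nat_lit 0)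 (XT.nd (nat_lit 156) (nat_lit 836) (nat_lit 0) (XT.nd (nat_lit 78) (nat_lit 0) (nat_lit 0) (XT.lf (nat_lit 0) (nat_lit 1945748855) (nat_lit 988) (nat_lit 8987656994) (nat_lit 76) (nat_lit 277284185) (nat_lit 446) (nat_lit 5) (nat_lit 459) (nat_lit 5) (nat_lit 447) (nat_lit 5) (nat_lit 445) (nat_lit 412) (nat_lit 283)) (XT.lf (nat_lit 0) (nat_lit 3733937523) (nat_lit 988) (nat_lit 2570507953) (nat_lit 76) (nat_lit 5018479633) (nat_lit 446) (nat_lit 5) (nat_lit 459) (nat_lit 5) (nat_lit 447) (nat_lit 5) (nat_lit 446) (nat_lit 412) (nat_lit 282))) (XT.nd (nat_lit 78) (nat_lit 0) (nat_lit 0) (XT.lf (nat_lit 0) (nat_lit 4011868405) (nat_lit 836) (nat_lit 1555901335) (nat_lit 912) (nat_lit 5869437548) (nat_lit 435) (nat_lit 5) (nat_lit 446) (nat_lit 5) (nat_lit 447) (nat_lit 5) (nat_lit 447) (nat_lit 412) (nat_lit 281)) (XT.lf (nat_lit 0) (nat_lit 7461037385) (nat_lit 912) (nat_lit 830103212) (nat_lit 76) (nat_lit 3262179340)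 (nat_lit 435) (nat_lit 5) (nat_lit 447) (nat_lit 5) (nat_lit 436) (nat_lit 5) (nat_lit 448) (nat_lit 412) (nat_lit 280)))) (XT.nd (nat_lit 56628) (nat_lit 0) (nat_lit 12616) (XT.nd (nat_lit 56550) (nat_lit 0) (nat_lit 14212) (XT.lf (nat_lit 0) (nat_lit 5949120019) (nat_lit 912) (nat_lit 3476342445) (nat_lit 988) (nat_lit 2245626532) (nat_lit 423) (nat_lit 5) (nat_lit 435) (nat_lit 5) (nat_lit 436) (nat_lit 5) (nat_lit 449) (nat_lit 412) (nat_lit 279)) (XT.lf (nat_lit 0) (nat_lit 1919912046) (nat_lit 0) (nat_lit 1919912046) (nat_lit 1444) (nat_lit 418724799) (nat_lit 610) (nat_lit 5) (nat_lit 610) (nat_lit 3) (nat_lit 629) (nat_lit 3) (nat_lit 413) (nat_lit 413) (nat_lit 314))) (XT.nd (nat_lit 78) (nat_lit 0) (nat_lit 76) (XT.lf (nat_lit 0) (nat_lit 207133765) (nat_lit 1596) (nat_lit 413233148) (nat_lit 1596) (nat_lit 7961174385) (nat_lit 589) (nat_lit 3) (nat_lit 610) (nat_lit 3) (nat_lit 610) (nat_lit 5) (nat_lit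 414) (nat_lit 413) (nat_lit 313)) (XT.lf (nat_lit 0) (nat_lit 1277431868) (nat_lit 1520) (nat_lit 4696127114) (nat_lit 1596) (nat_lit 2673283261) (nat_lit 590) (nat_lit 5) (nat_lit 610) (nat_lit 5) (nat_lit 611) (nat_lit 5) (nat_lit 415) (nat_lit 413) (nat_lit 312))))) (XT.nd (nat_lit 312) (nat_lit 1368) (nat_lit 0) (XT.nd (nat_lit 156) (nat_lit 0) (nat_lit 76) (XT.nd (nat_lit 78) (nat_lit 0) (nat_lit 76) (XT.lf (nat_lit 0) (nat_lit 2349237812) (nat_lit 1520) (nat_lit 324444772) (nat_lit 1596) (nat_lit 6040164586) (nat_lit 590) (nat_lit 5) (nat_lit 610) (nat_lit 5) (nat_lit 611) (nat_lit 5) (nat_lit 416) (nat_lit 413) (nat_lit 311)) (XT.lf (nat_lit 0) (nat_lit 3448068077) (nat_lit 1520) (nat_lit 4611681772) (nat_lit 1596) (nat_lit 722330582) (nat_lit 591) (nat_lit 5) (nat_lit 611) (nat_lit 5) (nat_lit 612) (nat_lit 5) (nat_lit 417) (nat_lit 413) (nat_lit 310))) (XT.nd (nat_lit 78) (nat_lit 0) (nat_lit 0) (XT.lf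 (nat_lit 0) (nat_lit 4563000625) (nat_lit 1520) (nat_lit 124503279) (nat_lit 1596) (nat_lit 4164291940) (nat_lit 591) (nat_lit 5) (nat_lit 611) (nat_lit 5) (nat_lit 612) (nat_lit 5) (nat_lit 418) (nat_lit 413) (nat_lit 309)) (XT.lf (nat_lit 76) (nat_lit 4497001259) (nat_lit 0) (nat_lit 1207160978) (nat_lit 1596) (nat_lit 3218664720) (nat_lit 592) (nat_lit 5) (nat_lit 591) (nat_lit 5) (nat_lit 612) (nat_lit 5) (nat_lit 419) (nat_lit 413) (nat_lit 308)))) (XT.nd (nat_lit 156) (nat_lit 1520) (nat_lit 0) (XT.nd (nat_lit 78) (nat_lit 0) (nat_lit 0) (XT.lf (nat_lit 76) (nat_lit 189766266) (nat_lit 0) (nat_lit 6670868915) (nat_lit 1596) (nat_lit 2134793749) (nat_lit 593) (nat_lit 5) (nat_lit 592) (nat_lit 5) (nat_lit 613) (nat_lit 5) (nat_lit 420) (nat_lit 413) (nat_lit 307)) (XT.lf (nat_lit 76) (nat_lit 4934792769) (nat_lit 0) (nat_lit 3118680638) (nat_lit 1596) (nat_lit 1015744819) (nat_lit 593) (nat_lit 5) (nat_lit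 592) (nat_lit 5) (nat_lit 613) (nat_lit 5) (nat_lit 421) (nat_lit 413) (nat_lit 306))) (XT.nd (nat_lit 78) (nat_lit 0) (nat_lit 0) (XT.lf (nat_lit 0) (nat_lit 107363051) (nat_lit 1596) (nat_lit 8525448066) (nat_lit 1672) (nat_lit 511989344) (nat_lit 572) (nat_lit 5) (nat_lit 593) (nat_lit 5) (nat_lit 594) (nat_lit 5) (nat_lit 422) (nat_lit 413) (nat_lit 305)) (XT.lf (nat_lit 0) (nat_lit 1264276107) (nat_lit 1596) (nat_lit 3739890066) (nat_lit 1672) (nat_lit 4217095009) (nat_lit 572) (nat_lit 5) (nat_lit 593) (nat_lit 5) (nat_lit 594) (nat_lit 5) (nat_lit 423) (nat_lit 413) (nat_lit 304)))))) (XT.nd (nat_lit 624) (nat_lit 3268) (nat_lit 0) (XT.nd (nat_lit 312) (nat_lit 1444) (nat_lit 0) (XT.nd (nat_lit 156) (nat_lit 0) (nat_lit 76) (XT.nd (nat_lit 78) (nat_lit 0) (nat_lit 76) (XT.lf (nat_lit 76) (nat_lit 1141412052) (nat_lit 0) (nat_lit 1287139622) (nat_lit 1672) (nat_lit 6871014958) (nat_lit 573) (nat_lit 5) (nat_lit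 572) (nat_lit 5) (nat_lit 594) (nat_lit 5) (nat_lit 424) (nat_lit 413) (nat_lit 303)) (XT.lf (nat_lit 0) (nat_lit 3634858310) (nat_lit 1596) (nat_lit 3239673197) (nat_lit 1672) (nat_lit 2504531773) (nat_lit 573) (nat_lit 5) (nat_lit 594) (nat_lit 5) (nat_lit 595) (nat_lit 5) (nat_lit 425) (nat_lit 413) (nat_lit 302))) (XT.nd (nat_lit 78) (nat_lit 0) (nat_lit 76) (XT.lf (nat_lit 76) (nat_lit 1776912118) (nat_lit 0) (nat_lit 3086110169) (nat_lit 1672) (nat_lit 4597172950) (nat_lit 574) (nat_lit 5) (nat_lit 573) (nat_lit 5) (nat_lit 595) (nat_lit 5) (nat_lit 426) (nat_lit 413) (nat_lit 301)) (XT.lf (nat_lit 0) (nat_lit 6120741964) (nat_lit 1596) (nat_lit 2625399680) (nat_lit 1672) (nat_lit 796708340) (nat_lit 574) (nat_lit 5) (nat_lit 595) (nat_lit 5) (nat_lit 596) (nat_lit 5) (nat_lit 427) (nat_lit 413) (nat_lit 300)))) (XT.nd (nat_lit 156) (nat_lit 1596) (nat_lit 0) (XT.nd (nat_lit 78) (nat_lit 0) (nat_lit 0) (XT.lf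 (nat_lit 76) (nat_lit 2531271667) (nat_lit 0) (nat_lit 4887703862) (nat_lit 1672) (nat_lit 2207875107) (nat_lit 575) (nat_lit 5) (nat_lit 574) (nat_lit 5) (nat_lit 596) (nat_lit 5) (nat_lit 428) (nat_lit 413) (nat_lit 299)) (XT.lf (nat_lit 76) (nat_lit 7811633940) (nat_lit 0) (nat_lit 927968863) (nat_lit 1672) (nat_lit 972999919) (nat_lit 575) (nat_lit 5) (nat_lit 574) (nat_lit 5) (nat_lit 596) (nat_lit 5) (nat_lit 429) (nat_lit 413) (nat_lit 298))) (XT.nd (nat_lit 78) (nat_lit 0) (nat_lit 0) (XT.lf (nat_lit 0) (nat_lit 304540940) (nat_lit 1672) (nat_lit 6394815850) (nat_lit 1748) (nat_lit 3100241314) (nat_lit 553) (nat_lit 5) (nat_lit 575) (nat_lit 5) (nat_lit 576) (nat_lit 5) (nat_lit 430) (nat_lit 413) (nat_lit 297)) (XT.lf (nat_lit 0) (nat_lit 1593041991) (nat_lit 1672) (nat_lit 1073699238) (nat_lit 1748) (nat_lit 7221494777) (nat_lit 553) (nat_lit 5) (nat_lit 575) (nat_lit 5) (nat_lit 576) (nat_lit 5) (nat_lit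 431) (nat_lit 413) (nat_lit 296))))) (XT.nd (nat_lit 312) (nat_lit 3344) (nat_lit 0) (XT.nd (nat_lit 156) (nat_lit 0) (nat_lit 0) (XT.nd (nat_lit 78) (nat_lit 0) (nat_lit 0) (XT.lf (nat_lit 0) (nat_lit 2925313924) (nat_lit 1672) (nat_lit 5591655579) (nat_lit 1748) (nat_lit 1461317146) (nat_lit 554) (nat_lit 5) (nat_lit 576) (nat_lit 5) (nat_lit 577) (nat_lit 5) (nat_lit 432) (nat_lit 413) (nat_lit 295)) (XT.lf (nat_lit 0) (nat_lit 4289316868) (nat_lit 1672) (nat_lit 132372572) (nat_lit 1748) (nat_lit 5648347153) (nat_lit 554) (nat_lit 5) (nat_lit 576) (nat_lit 5) (nat_lit 577) (nat_lit 5) (nat_lit 433) (nat_lit 413) (nat_lit 294))) (XT.nd (nat_lit 78) (nat_lit 0) (nat_lit 76) (XT.lf (nat_lit 76) (nat_lit 5493047838) (nat_lit 0) (nat_lit 203777553) (nat_lit 1748) (nat_lit 4466471634) (nat_lit 555) (nat_lit 5) (nat_lit 554) (nat_lit 5) (nat_lit 577) (nat_lit 5) (nat_lit 434) (nat_lit 413) (nat_lit 293)) (XT.lf (nat_lit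 76) (nat_lit 944739083) (nat_lit 0) (nat_lit 6202255048) (nat_lit 1748) (nat_lit 3111138334) (nat_lit 556) (nat_lit 5) (nat_lit 555) (nat_lit 5) (nat_lit 578) (nat_lit 5) (nat_lit 435) (nat_lit 413) (nat_lit 292)))) (XT.nd (nat_lit 156) (nat_lit 1824) (nat_lit 0) (XT.nd (nat_lit 78) (nat_lit 1596) (nat_lit 0) (XT.lf (nat_lit 76) (nat_lit 6718666025) (nat_lit 0) (nat_lit 1921328286) (nat_lit 1748) (nat_lit 1714593743) (nat_lit 556) (nat_lit 5) (nat_lit 555) (nat_lit 5) (nat_lit 578) (nat_lit 5) (nat_lit 436) (nat_lit 413) (nat_lit 291)) (XT.lf (nat_lit 0) (nat_lit 2152055004) (nat_lit 1672) (nat_lit 8022187888) (nat_lit 1748) (nat_lit 278502093) (nat_lit 534) (nat_lit 5) (nat_lit 556) (nat_lit 5) (nat_lit 557) (nat_lit 5) (nat_lit 437) (nat_lit 413) (nat_lit 290))) (XT.nd (nat_lit 78) (nat_lit 1748) (nat_lit 0) (XT.lf (nat_lit 0) (nat_lit 1189719291) (nat_lit 1748) (nat_lit 2483422084) (nat_lit 76) (nat_lit 6879190302)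 (nat_lit 533) (nat_lit 5) (nat_lit 556) (nat_lit 5) (nat_lit 534) (nat_lit 5) (nat_lit 438) (nat_lit 413) (nat_lit 289)) (XT.lf (nat_lit 0) (nat_lit 2693339620) (nat_lit 1824) (nat_lit 7180172172) (nat_lit 76) (nat_lit 780166220) (nat_lit 510) (nat_lit 5) (nat_lit 534) (nat_lit 5) (nat_lit 511) (nat_lit 5) (nat_lit 439) (nat_lit 413) (nat_lit 288))))))))
noncomputable def xc66 : XT := (XT.nd (nat_lit 59124) (nat_lit 0) (nat_lit 836) (XT.nd (nat_lit 57876) (nat_lit 0) (nat_lit 8892) (XT.nd (nat_lit 624) (nat_lit 836) (nat_lit 0) (XT.nd (nat_lit 312) (nat_lit 1900) (nat_lit 0) (XT.nd (nat_lit 156) (nat_lit 1140) (nat_lit 0) (XT.nd (nat_lit 78) (nat_lit 1824) (nat_lit 0) (XT.lf (nat_lit 0) (nat_lit 4250445055) (nat_lit 1824) (nat_lit 1213418568) (nat_lit 76) (nat_lit 5292719396) (nat_lit 510) (nat_lit 5) (nat_lit 534) (nat_lit 5) (nat_lit 511) (nat_lit 5) (nat_lit 440) (nat_lit 413) (nat_lit 287)) (XT.lf (nat_lit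 0) (nat_lit 4922026749) (nat_lit 1824) (nat_lit 931281565) (nat_lit 1900) (nat_lit 5007945500) (nat_lit 486) (nat_lit 5) (nat_lit 510) (nat_lit 5) (nat_lit 511) (nat_lit 5) (nat_lit 441) (nat_lit 413) (nat_lit 286))) (XT.nd (nat_lit 78) (nat_lit 0) (nat_lit 0) (XT.lf (nat_lit 0) (nat_lit 191813517) (nat_lit 1140) (nat_lit 7312741570) (nat_lit 1216) (nat_lit 3463136411) (nat_lit 471) (nat_lit 5) (nat_lit 486) (nat_lit 5) (nat_lit 487) (nat_lit 5) (nat_lit 442) (nat_lit 413) (nat_lit 285)) (XT.lf (nat_lit 0) (nat_lit 6504383328) (nat_lit 1140) (nat_lit 2713574689) (nat_lit 1216) (nat_lit 1857717295) (nat_lit 471) (nat_lit 5) (nat_lit 486) (nat_lit 5) (nat_lit 487) (nat_lit 5) (nat_lit 443) (nat_lit 413) (nat_lit 284)))) (XT.nd (nat_lit 156) (nat_lit 912) (nat_lit 0) (XT.nd (nat_lit 78) (nat_lit 76) (nat_lit 0) (XT.lf (nat_lit 0) (nat_lit 1752136622) (nat_lit 912) (nat_lit 9221197142) (nat_lit 988) (nat_lit 212330942)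 (nat_lit 459) (nat_lit 5) (nat_lit 471) (nat_lit 5) (nat_lit 472) (nat_lit 5) (nat_lit 444) (nat_lit 413) (nat_lit 283)) (XT.lf (nat_lit 0) (nat_lit 1479192009) (nat_lit 988) (nat_lit 3076438951) (nat_lit 76) (nat_lit 6741383464) (nat_lit 458) (nat_lit 5) (nat_lit 471) (nat_lit 5) (nat_lit 459) (nat_lit 5) (nat_lit 445) (nat_lit 413) (nat_lit 282))) (XT.nd (nat_lit 78) (nat_lit 0) (nat_lit 0) (XT.lf (nat_lit 0) (nat_lit 3209424803) (nat_lit 988) (nat_lit 7975669306) (nat_lit 76) (nat_lit 225314506) (nat_lit 446) (nat_lit 5) (nat_lit 459) (nat_lit 5) (nat_lit 447) (nat_lit 5) (nat_lit 446) (nat_lit 413) (nat_lit 281)) (XT.lf (nat_lit 0) (nat_lit 5009362323) (nat_lit 988) (nat_lit 1453544751) (nat_lit 76) (nat_lit 5062461616) (nat_lit 446) (nat_lit 5) (nat_lit 459) (nat_lit 5) (nat_lit 447) (nat_lit 5) (nat_lit 447) (nat_lit 413) (nat_lit 280))))) (XT.nd (nat_lit 56940) (nat_lit 0) (nat_lit 11780) (XT.nd (nat_lit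 56784) (nat_lit 0) (nat_lit 11704) (XT.nd (nat_lit 56706) (nat_lit 0) (nat_lit 11704) (XT.lf (nat_lit 0) (nat_lit 5252792468) (nat_lit 836) (nat_lit 1611070625) (nat_lit 912) (nat_lit 4778393583) (nat_lit 435) (nat_lit 5) (nat_lit 446) (nat_lit 5) (nat_lit 447) (nat_lit 5) (nat_lit 448) (nat_lit 413) (nat_lit 279)) (XT.lf (nat_lit 0) (nat_lit 613602437) (nat_lit 1596) (nat_lit 1854735443) (nat_lit 1596) (nat_lit 1854735443) (nat_lit 589) (nat_lit 3) (nat_lit 610) (nat_lit 3) (nat_lit 610) (nat_lit 5) (nat_lit 414) (nat_lit 414) (nat_lit 312))) (XT.nd (nat_lit 78) (nat_lit 0) (nat_lit 76) (XT.lf (nat_lit 76) (nat_lit 621756890) (nat_lit 0) (nat_lit 1623164738) (nat_lit 1596) (nat_lit 6467577592) (nat_lit 590) (nat_lit 5) (nat_lit 589) (nat_lit 3) (nat_lit 610) (nat_lit 5) (nat_lit 415) (nat_lit 414) (nat_lit 311)) (XT.lf (nat_lit 0) (nat_lit 3293182753) (nat_lit 1520) (nat_lit 3715543326) (nat_lit 1596) (nat_lit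 1771248965) (nat_lit 590) (nat_lit 5) (nat_lit 610) (nat_lit 5) (nat_lit 611) (nat_lit 5) (nat_lit 416) (nat_lit 414) (nat_lit 310)))) (XT.nd (nat_lit 156) (nat_lit 0) (nat_lit 76) (XT.nd (nat_lit 78) (nat_lit 0) (nat_lit 0) (XT.lf (nat_lit 76) (nat_lit 732105607) (nat_lit 0) (nat_lit 3620048950) (nat_lit 1596) (nat_lit 4496850917) (nat_lit 591) (nat_lit 5) (nat_lit 590) (nat_lit 5) (nat_lit 611) (nat_lit 5) (nat_lit 417) (nat_lit 414) (nat_lit 309)) (XT.lf (nat_lit 76) (nat_lit 5305257864) (nat_lit 0) (nat_lit 126639242) (nat_lit 1596) (nat_lit 3487527580) (nat_lit 591) (nat_lit 5) (nat_lit 590) (nat_lit 5) (nat_lit 611) (nat_lit 5) (nat_lit 418) (nat_lit 414) (nat_lit 308))) (XT.nd (nat_lit 78) (nat_lit 0) (nat_lit 0) (XT.lf (nat_lit 76) (nat_lit 954714982) (nat_lit 0) (nat_lit 5582259437) (nat_lit 1596) (nat_lit 2454203066) (nat_lit 592) (nat_lit 5) (nat_lit 591) (nat_lit 5) (nat_lit 612) (nat_lit 5) (nat_lit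 419) (nat_lit 414) (nat_lit 307)) (XT.lf (nat_lit 76) (nat_lit 5649094228) (nat_lit 0) (nat_lit 2015768180) (nat_lit 1596) (nat_lit 1399488749) (nat_lit 592) (nat_lit 5) (nat_lit 591) (nat_lit 5) (nat_lit 612) (nat_lit 5) (nat_lit 420) (nat_lit 414) (nat_lit 306)))))) (XT.nd (nat_lit 624) (nat_lit 1444) (nat_lit 0) (XT.nd (nat_lit 312) (nat_lit 0) (nat_lit 76) (XT.nd (nat_lit 156) (nat_lit 0) (nat_lit 0) (XT.nd (nat_lit 78) (nat_lit 1596) (nat_lit 0) (XT.lf (nat_lit 76) (nat_lit 1290475802) (nat_lit 0) (nat_lit 7519909337) (nat_lit 1596) (nat_lit 328701625) (nat_lit 593) (nat_lit 5) (nat_lit 592) (nat_lit 5) (nat_lit 613) (nat_lit 5) (nat_lit 421) (nat_lit 414) (nat_lit 305)) (XT.lf (nat_lit 0) (nat_lit 766293895) (nat_lit 1596) (nat_lit 3111209339) (nat_lit 1672) (nat_lit 5337458583) (nat_lit 571) (nat_lit 5) (nat_lit 592) (nat_lit 5) (nat_lit 593) (nat_lit 5) (nat_lit 422) (nat_lit 414) (nat_lit 304))) (XT.nd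 (nat_lit 78) (nat_lit 0) (nat_lit 76) (XT.lf (nat_lit 76) (nat_lit 1727190284) (nat_lit 0) (nat_lit 139665618) (nat_lit 1672) (nat_lit 7425693656) (nat_lit 572) (nat_lit 5) (nat_lit 571) (nat_lit 5) (nat_lit 593) (nat_lit 5) (nat_lit 423) (nat_lit 414) (nat_lit 303)) (XT.lf (nat_lit 0) (nat_lit 3011560441) (nat_lit 1596) (nat_lit 2705369677) (nat_lit 1672) (nat_lit 3654316311) (nat_lit 572) (nat_lit 5) (nat_lit 593) (nat_lit 5) (nat_lit 594) (nat_lit 5) (nat_lit 424) (nat_lit 414) (nat_lit 302)))) (XT.nd (nat_lit 156) (nat_lit 0) (nat_lit 76) (XT.nd (nat_lit 78) (nat_lit 0) (nat_lit 76) (XT.lf (nat_lit 76) (nat_lit 2266260337) (nat_lit 0) (nat_lit 1906251545) (nat_lit 1672) (nat_lit 5279138299) (nat_lit 573) (nat_lit 5) (nat_lit 572) (nat_lit 5) (nat_lit 594) (nat_lit 5) (nat_lit 425) (nat_lit 414) (nat_lit 301)) (XT.lf (nat_lit 0) (nat_lit 5365924720) (nat_lit 1596) (nat_lit 2187034922) (nat_lit 1672) (nat_lit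 1980517518) (nat_lit 573) (nat_lit 5) (nat_lit 594) (nat_lit 5) (nat_lit 595) (nat_lit 5) (nat_lit 426) (nat_lit 414) (nat_lit 300))) (XT.nd (nat_lit 78) (nat_lit 0) (nat_lit 76) (XT.lf (nat_lit 76) (nat_lit 2922530574) (nat_lit 0) (nat_lit 3670811735) (nat_lit 1672) (nat_lit 3023395641) (nat_lit 574) (nat_lit 5) (nat_lit 573) (nat_lit 5) (nat_lit 595) (nat_lit 5) (nat_lit 427) (nat_lit 414) (nat_lit 299)) (XT.lf (nat_lit 0) (nat_lit 7840866654) (nat_lit 1596) (nat_lit 1554244013) (nat_lit 1672) (nat_lit 306642120) (nat_lit 574) (nat_lit 5) (nat_lit 595) (nat_lit 5) (nat_lit 596) (nat_lit 5) (nat_lit 428) (nat_lit 414) (nat_lit 298))))) (XT.nd (nat_lit 312) (nat_lit 0) (nat_lit 152) (XT.nd (nat_lit 156) (nat_lit 0) (nat_lit 76) (XT.nd (nat_lit 78) (nat_lit 1672) (nat_lit 0) (XT.lf (nat_lit 76) (nat_lit 3698168238) (nat_lit 0) (nat_lit 5442816582) (nat_lit 1672) (nat_lit 646930234) (nat_lit 575) (nat_lit 5) (nat_lit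 574) (nat_lit 5) (nat_lit 596) (nat_lit 5) (nat_lit 429) (nat_lit 414) (nat_lit 297)) (XT.lf (nat_lit 0) (nat_lit 573547714) (nat_lit 1672) (nat_lit 817522544) (nat_lit 1748) (nat_lit 8484853565) (nat_lit 552) (nat_lit 5) (nat_lit 574) (nat_lit 5) (nat_lit 575) (nat_lit 5) (nat_lit 430) (nat_lit 414) (nat_lit 296))) (XT.nd (nat_lit 78) (nat_lit 0) (nat_lit 0) (XT.lf (nat_lit 0) (nat_lit 1837623921) (nat_lit 1672) (nat_lit 5381691081) (nat_lit 1748) (nat_lit 2745735221) (nat_lit 553) (nat_lit 5) (nat_lit 575) (nat_lit 5) (nat_lit 576) (nat_lit 5) (nat_lit 431) (nat_lit 414) (nat_lit 295)) (XT.lf (nat_lit 76) (nat_lit 23786868) (nat_lit 0) (nat_lit 3098321541) (nat_lit 1748) (nat_lit 6933948205) (nat_lit 554) (nat_lit 5) (nat_lit 553) (nat_lit 5) (nat_lit 576) (nat_lit 5) (nat_lit 432) (nat_lit 414) (nat_lit 294)))) (XT.nd (nat_lit 156) (nat_lit 0) (nat_lit 0) (XT.nd (nat_lit 78) (nat_lit 0) (nat_lit 0) (XT.lf (nat_lit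 0) (nat_lit 4456371733) (nat_lit 1672) (nat_lit 4560340959) (nat_lit 1748) (nat_lit 1131688659) (nat_lit 554) (nat_lit 5) (nat_lit 576) (nat_lit 5) (nat_lit 577) (nat_lit 5) (nat_lit 433) (nat_lit 414) (nat_lit 293)) (XT.lf (nat_lit 76) (nat_lit 998812653) (nat_lit 0) (nat_lit 4826453477) (nat_lit 1748) (nat_lit 4417167936) (nat_lit 555) (nat_lit 5) (nat_lit 554) (nat_lit 5) (nat_lit 577) (nat_lit 5) (nat_lit 434) (nat_lit 414) (nat_lit 292))) (XT.nd (nat_lit 78) (nat_lit 0) (nat_lit 76) (XT.lf (nat_lit 76) (nat_lit 6716268621) (nat_lit 0) (nat_lit 517092509) (nat_lit 1748) (nat_lit 3104749852) (nat_lit 555) (nat_lit 5) (nat_lit 554) (nat_lit 5) (nat_lit 577) (nat_lit 5) (nat_lit 435) (nat_lit 414) (nat_lit 291)) (XT.lf (nat_lit 76) (nat_lit 2099928334) (nat_lit 0) (nat_lit 6590119967) (nat_lit 1748) (nat_lit 1745244529) (nat_lit 556) (nat_lit 5) (nat_lit 555) (nat_lit 5) (nat_lit 578) (nat_lit 5) (nat_lit 436)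 (nat_lit 414) (nat_lit 290))))))) (XT.nd (nat_lit 57954) (nat_lit 0) (nat_lit 8056) (XT.nd (nat_lit 624) (nat_lit 1900) (nat_lit 0) (XT.nd (nat_lit 312) (nat_lit 2964) (nat_lit 0) (XT.nd (nat_lit 156) (nat_lit 1748) (nat_lit 0) (XT.nd (nat_lit 78) (nat_lit 1672) (nat_lit 0) (XT.lf (nat_lit 76) (nat_lit 7967053531) (nat_lit 0) (nat_lit 2218401732) (nat_lit 1748) (nat_lit 348771331) (nat_lit 556) (nat_lit 5) (nat_lit 555) (nat_lit 5) (nat_lit 578) (nat_lit 5) (nat_lit 437) (nat_lit 414) (nat_lit 289)) (XT.lf (nat_lit 0) (nat_lit 1080076673) (nat_lit 1748) (nat_lit 7311154078) (nat_lit 76) (nat_lit 2243397559) (nat_lit 533) (nat_lit 5) (nat_lit 556) (nat_lit 5) (nat_lit 534) (nat_lit 5) (nat_lit 438) (nat_lit 414) (nat_lit 288))) (XT.nd (nat_lit 78) (nat_lit 1748) (nat_lit 0) (XT.lf (nat_lit 0) (nat_lit 2547261866) (nat_lit 1748) (nat_lit 1402006879) (nat_lit 76) (nat_lit 6787434603) (nat_lit 533) (nat_lit 5) (nat_lit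 556) (nat_lit 5) (nat_lit 534) (nat_lit 5) (nat_lit 439) (nat_lit 414) (nat_lit 287)) (XT.lf (nat_lit 0) (nat_lit 4060856389) (nat_lit 1824) (nat_lit 6172593757) (nat_lit 76) (nat_lit 607028427) (nat_lit 510) (nat_lit 5) (nat_lit 534) (nat_lit 5) (nat_lit 511) (nat_lit 5) (nat_lit 440) (nat_lit 414) (nat_lit 286)))) (XT.nd (nat_lit 156) (nat_lit 1140) (nat_lit 0) (XT.nd (nat_lit 78) (nat_lit 1824) (nat_lit 0) (XT.lf (nat_lit 0) (nat_lit 5623346090) (nat_lit 1824) (nat_lit 109077275) (nat_lit 76) (nat_lit 5213533473) (nat_lit 510) (nat_lit 5) (nat_lit 534) (nat_lit 5) (nat_lit 511) (nat_lit 5) (nat_lit 441) (nat_lit 414) (nat_lit 285)) (XT.lf (nat_lit 0) (nat_lit 6141651885) (nat_lit 1824) (nat_lit 1098641416) (nat_lit 1900) (nat_lit 3812787212) (nat_lit 486) (nat_lit 5) (nat_lit 510) (nat_lit 5) (nat_lit 511) (nat_lit 5) (nat_lit 442) (nat_lit 414) (nat_lit 284))) (XT.nd (nat_lit 78) (nat_lit 0) (nat_lit 0) (XT.lf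 (nat_lit 0) (nat_lit 1335648784) (nat_lit 1140) (nat_lit 7570470740) (nat_lit 1216) (nat_lit 2255896337) (nat_lit 471) (nat_lit 5) (nat_lit 486) (nat_lit 5) (nat_lit 487) (nat_lit 5) (nat_lit 443) (nat_lit 414) (nat_lit 283)) (XT.lf (nat_lit 0) (nat_lit 7752117070) (nat_lit 1140) (nat_lit 2877134749) (nat_lit 1216) (nat_lit 643398305) (nat_lit 471) (nat_lit 5) (nat_lit 486) (nat_lit 5) (nat_lit 487) (nat_lit 5) (nat_lit 444) (nat_lit 414) (nat_lit 282))))) (XT.nd (nat_lit 57018) (nat_lit 0) (nat_lit 10868) (XT.nd (nat_lit 156) (nat_lit 912) (nat_lit 0) (XT.nd (nat_lit 78) (nat_lit 0) (nat_lit 0) (XT.lf (nat_lit 0) (nat_lit 1003826226) (nat_lit 988) (nat_lit 8469236405) (nat_lit 76) (nat_lit 1911992226) (nat_lit 458) (nat_lit 5) (nat_lit 471) (nat_lit 5) (nat_lit 459) (nat_lit 5) (nat_lit 445) (nat_lit 414) (nat_lit 281)) (XT.lf (nat_lit 0) (nat_lit 2702465393) (nat_lit 988) (nat_lit 2008991185) (nat_lit 76) (nat_lit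 6787624344) (nat_lit 458) (nat_lit 5) (nat_lit 471) (nat_lit 5) (nat_lit 459) (nat_lit 5) (nat_lit 446) (nat_lit 414) (nat_lit 280))) (XT.nd (nat_lit 78) (nat_lit 0) (nat_lit 0) (XT.lf (nat_lit 0) (nat_lit 4450815309) (nat_lit 988) (nat_lit 6989718612) (nat_lit 76) (nat_lit 174538826) (nat_lit 446) (nat_lit 5) (nat_lit 459) (nat_lit 5) (nat_lit 447) (nat_lit 5) (nat_lit 447) (nat_lit 414) (nat_lit 279)) (XT.lf (nat_lit 0) (nat_lit 6263669187) (nat_lit 988) (nat_lit 359611647) (nat_lit 76) (nat_lit 5109512838) (nat_lit 446) (nat_lit 5) (nat_lit 459) (nat_lit 5) (nat_lit 447) (nat_lit 5) (nat_lit 448) (nat_lit 414) (nat_lit 278)))) (XT.nd (nat_lit 156) (nat_lit 0) (nat_lit 76) (XT.nd (nat_lit 78) (nat_lit 0) (nat_lit 0) (XT.lf (nat_lit 0) (nat_lit 1620780530) (nat_lit 1596) (nat_lit 1384428070) (nat_lit 1596) (nat_lit 1384428070) (nat_lit 589) (nat_lit 3) (nat_lit 610) (nat_lit 3) (nat_lit 610) (nat_lit 5) (nat_lit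 415) (nat_lit 415) (nat_lit 310)) (XT.lf (nat_lit 76) (nat_lit 1642319850) (nat_lit 0) (nat_lit 2604841811) (nat_lit 1596) (nat_lit 4600440712) (nat_lit 590) (nat_lit 5) (nat_lit 589) (nat_lit 3) (nat_lit 610) (nat_lit 5) (nat_lit 416) (nat_lit 415) (nat_lit 309))) (XT.nd (nat_lit 78) (nat_lit 0) (nat_lit 0) (XT.lf (nat_lit 0) (nat_lit 5271966677) (nat_lit 1520) (nat_lit 2757072252) (nat_lit 1596) (nat_lit 888277210) (nat_lit 590) (nat_lit 5) (nat_lit 610) (nat_lit 5) (nat_lit 611) (nat_lit 5) (nat_lit 417) (nat_lit 415) (nat_lit 308)) (XT.lf (nat_lit 76) (nat_lit 1772735042) (nat_lit 0) (nat_lit 4548536025) (nat_lit 1596) (nat_lit 2667073048) (nat_lit 591) (nat_lit 5) (nat_lit 590) (nat_lit 5) (nat_lit 611) (nat_lit 5) (nat_lit 418) (nat_lit 415) (nat_lit 307)))))) (XT.nd (nat_lit 624) (nat_lit 1368) (nat_lit 0) (XT.nd (nat_lit 312) (nat_lit 0) (nat_lit 76) (XT.nd (nat_lit 156) (nat_lit 1520) (nat_lit 0) (XT.nd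 (nat_lit 78) (nat_lit 0) (nat_lit 76) (XT.lf (nat_lit 76) (nat_lit 6417232945) (nat_lit 0) (nat_lit 968472121) (nat_lit 1596) (nat_lit 1675204714) (nat_lit 591) (nat_lit 5) (nat_lit 590) (nat_lit 5) (nat_lit 611) (nat_lit 5) (nat_lit 419) (nat_lit 415) (nat_lit 306)) (XT.lf (nat_lit 76) (nat_lit 2015135698) (nat_lit 0) (nat_lit 6462986961) (nat_lit 1596) (nat_lit 656670201) (nat_lit 592) (nat_lit 5) (nat_lit 591) (nat_lit 5) (nat_lit 612) (nat_lit 5) (nat_lit 420) (nat_lit 415) (nat_lit 305))) (XT.nd (nat_lit 78) (nat_lit 0) (nat_lit 76) (XT.lf (nat_lit 0) (nat_lit 377908027) (nat_lit 1596) (nat_lit 2429641844) (nat_lit 1672) (nat_lit 6402540374) (nat_lit 570) (nat_lit 5) (nat_lit 591) (nat_lit 5) (nat_lit 592) (nat_lit 5) (nat_lit 421) (nat_lit 415) (nat_lit 304)) (XT.lf (nat_lit 0) (nat_lit 1422813210) (nat_lit 1596) (nat_lit 6925781016) (nat_lit 1672) (nat_lit 938243977) (nat_lit 571) (nat_lit 5) (nat_lit 592)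 (nat_lit 5) (nat_lit 593) (nat_lit 5) (nat_lit 422) (nat_lit 415) (nat_lit 303)))) (XT.nd (nat_lit 156) (nat_lit 0) (nat_lit 76) (XT.nd (nat_lit 78) (nat_lit 0) (nat_lit 0) (XT.lf (nat_lit 0) (nat_lit 2500925330) (nat_lit 1596) (nat_lit 2116938100) (nat_lit 1672) (nat_lit 4747011512) (nat_lit 571) (nat_lit 5) (nat_lit 592) (nat_lit 5) (nat_lit 593) (nat_lit 5) (nat_lit 423) (nat_lit 415) (nat_lit 302)) (XT.lf (nat_lit 76) (nat_lit 2811278887) (nat_lit 0) (nat_lit 785322157) (nat_lit 1672) (nat_lit 5847951345) (nat_lit 572) (nat_lit 5) (nat_lit 571) (nat_lit 5) (nat_lit 593) (nat_lit 5) (nat_lit 424) (nat_lit 415) (nat_lit 301))) (XT.nd (nat_lit 78) (nat_lit 0) (nat_lit 0) (XT.lf (nat_lit 0) (nat_lit 4726923150) (nat_lit 1596) (nat_lit 1693235058) (nat_lit 1672) (nat_lit 3105410520) (nat_lit 572) (nat_lit 5) (nat_lit 593) (nat_lit 5) (nat_lit 594) (nat_lit 5) (nat_lit 425) (nat_lit 415) (nat_lit 300)) (XT.lf (nat_lit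 76) (nat_lit 3370812806) (nat_lit 0) (nat_lit 2514704461) (nat_lit 1672) (nat_lit 3722574815) (nat_lit 573) (nat_lit 5) (nat_lit 572) (nat_lit 5) (nat_lit 594) (nat_lit 5) (nat_lit 426) (nat_lit 415) (nat_lit 299))))) (XT.nd (nat_lit 312) (nat_lit 0) (nat_lit 0) (XT.nd (nat_lit 156) (nat_lit 1596) (nat_lit 0) (XT.nd (nat_lit 78) (nat_lit 0) (nat_lit 0) (XT.lf (nat_lit 0) (nat_lit 7067215960) (nat_lit 1596) (nat_lit 1156735118) (nat_lit 1672) (nat_lit 1468316171) (nat_lit 573) (nat_lit 5) (nat_lit 594) (nat_lit 5) (nat_lit 595) (nat_lit 5) (nat_lit 427) (nat_lit 415) (nat_lit 298)) (XT.lf (nat_lit 76) (nat_lit 4047955632) (nat_lit 0) (nat_lit 4246899407) (nat_lit 1672) (nat_lit 1482824752) (nat_lit 574) (nat_lit 5) (nat_lit 573) (nat_lit 5) (nat_lit 595) (nat_lit 5) (nat_lit 428) (nat_lit 415) (nat_lit 297))) (XT.nd (nat_lit 78) (nat_lit 1596) (nat_lit 0) (XT.lf (nat_lit 76) (nat_lit 9358611214) (nat_lit 0) (nat_lit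 175883556) (nat_lit 1672) (nat_lit 330556857) (nat_lit 574) (nat_lit 5) (nat_lit 573) (nat_lit 5) (nat_lit 595) (nat_lit 5) (nat_lit 429) (nat_lit 415) (nat_lit 296)) (XT.lf (nat_lit 0) (nat_lit 871325990) (nat_lit 1672) (nat_lit 5114098716) (nat_lit 1748) (nat_lit 3967883525) (nat_lit 552) (nat_lit 5) (nat_lit 574) (nat_lit 5) (nat_lit 575) (nat_lit 5) (nat_lit 430) (nat_lit 415) (nat_lit 295)))) (XT.nd (nat_lit 156) (nat_lit 0) (nat_lit 76) (XT.nd (nat_lit 78) (nat_lit 0) (nat_lit 76) (XT.lf (nat_lit 76) (nat_lit 241012168) (nat_lit 0) (nat_lit 1838258107) (nat_lit 1748) (nat_lit 7964286993) (nat_lit 553) (nat_lit 5) (nat_lit 552) (nat_lit 5) (nat_lit 575) (nat_lit 5) (nat_lit 431) (nat_lit 415) (nat_lit 294)) (XT.lf (nat_lit 0) (nat_lit 3342073594) (nat_lit 1672) (nat_lit 4392611056) (nat_lit 1748) (nat_lit 2400312632) (nat_lit 553) (nat_lit 5) (nat_lit 575) (nat_lit 5) (nat_lit 576) (nat_lit 5) (nat_lit 432)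 (nat_lit 415) (nat_lit 293))) (XT.nd (nat_lit 78) (nat_lit 0) (nat_lit 76) (XT.lf (nat_lit 76) (nat_lit 1113761229) (nat_lit 0) (nat_lit 3516781914) (nat_lit 1748) (nat_lit 5597714751) (nat_lit 554) (nat_lit 5) (nat_lit 553) (nat_lit 5) (nat_lit 576) (nat_lit 5) (nat_lit 433) (nat_lit 415) (nat_lit 292)) (XT.lf (nat_lit 0) (nat_lit 5960869728) (nat_lit 1672) (nat_lit 3552789866) (nat_lit 1748) (nat_lit 809402373) (nat_lit 554) (nat_lit 5) (nat_lit 576) (nat_lit 5) (nat_lit 577) (nat_lit 5) (nat_lit 434) (nat_lit 415) (nat_lit 291))))))))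
noncomputable def xc67 : XT := (XT.nd (nat_lit 58110) (nat_lit 0) (nat_lit 7068) (XT.nd (nat_lit 624) (nat_lit 2128) (nat_lit 0) (XT.nd (nat_lit 312) (nat_lit 3496) (nat_lit 0) (XT.nd (nat_lit 156) (nat_lit 1672) (nat_lit 0) (XT.nd (nat_lit 78) (nat_lit 0) (nat_lit 0) (XT.lf (nat_lit 76) (nat_lit 2110318147) (nat_lit 0) (nat_lit 5226158433) (nat_lit 1748) (nat_lit 3082912064) (nat_lit 555) (nat_lit 5) (nat_lit 554) (nat_lit 5) (nat_lit 577) (nat_lit 5) (nat_lit 435) (nat_lit 415) (nat_lit 290)) (XT.lf (nat_lit 76) (nat_lit 7920720700) (nat_lit 0) (nat_lit 824665620) (nat_lit 1748) (nat_lit 1772139721) (nat_lit 555) (nat_lit 5) (nat_lit 554) (nat_lit 5) (nat_lit 577) (nat_lit 5) (nat_lit 436) (nat_lit 415) (nat_lit 289))) (XT.nd (nat_lit 78) (nat_lit 1748) (nat_lit 0) (XT.lf (nat_lit 76) (nat_lit 3234097671) (nat_lit 0) (nat_lit 6975497738) (nat_lit 1748) (nat_lit 407488354) (nat_lit 556) (nat_lit 5) (nat_lit 555)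 (nat_lit 5) (nat_lit 578) (nat_lit 5) (nat_lit 437) (nat_lit 415) (nat_lit 288)) (XT.lf (nat_lit 0) (nat_lit 977015364) (nat_lit 1748) (nat_lit 1527801421) (nat_lit 1824) (nat_lit 8213578607) (nat_lit 532) (nat_lit 5) (nat_lit 555) (nat_lit 5) (nat_lit 556) (nat_lit 5) (nat_lit 438) (nat_lit 415) (nat_lit 287)))) (XT.nd (nat_lit 156) (nat_lit 3572) (nat_lit 0) (XT.nd (nat_lit 78) (nat_lit 0) (nat_lit 0) (XT.lf (nat_lit 0) (nat_lit 2409274470) (nat_lit 1748) (nat_lit 6348471623) (nat_lit 76) (nat_lit 2063422858) (nat_lit 533) (nat_lit 5) (nat_lit 556) (nat_lit 5) (nat_lit 534) (nat_lit 5) (nat_lit 439) (nat_lit 415) (nat_lit 286)) (XT.lf (nat_lit 0) (nat_lit 3880164224) (nat_lit 1748) (nat_lit 342884727) (nat_lit 76) (nat_lit 6702749321) (nat_lit 533) (nat_lit 5) (nat_lit 556) (nat_lit 5) (nat_lit 534) (nat_lit 5) (nat_lit 440) (nat_lit 415) (nat_lit 285))) (XT.nd (nat_lit 78) (nat_lit 1824) (nat_lit 0) (XT.lf (nat_lit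 0) (nat_lit 5404712864) (nat_lit 1824) (nat_lit 5189565568) (nat_lit 76) (nat_lit 437756926) (nat_lit 510) (nat_lit 5) (nat_lit 534) (nat_lit 5) (nat_lit 511) (nat_lit 5) (nat_lit 441) (nat_lit 415) (nat_lit 284)) (XT.lf (nat_lit 0) (nat_lit 986463198) (nat_lit 1824) (nat_lit 5993636300) (nat_lit 1900) (nat_lit 4159890747) (nat_lit 486) (nat_lit 5) (nat_lit 510) (nat_lit 5) (nat_lit 511) (nat_lit 5) (nat_lit 442) (nat_lit 415) (nat_lit 283))))) (XT.nd (nat_lit 312) (nat_lit 0) (nat_lit 0) (XT.nd (nat_lit 156) (nat_lit 988) (nat_lit 0) (XT.nd (nat_lit 78) (nat_lit 1140) (nat_lit 0) (XT.lf (nat_lit 0) (nat_lit 7342132560) (nat_lit 1824) (nat_lit 1263572932) (nat_lit 1900) (nat_lit 2644024505) (nat_lit 486) (nat_lit 5) (nat_lit 510) (nat_lit 5) (nat_lit 511) (nat_lit 5) (nat_lit 443) (nat_lit 415) (nat_lit 282)) (XT.lf (nat_lit 0) (nat_lit 2458093206) (nat_lit 1140) (nat_lit 7829025809) (nat_lit 1216) (nat_lit 1074079621)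 (nat_lit 471) (nat_lit 5) (nat_lit 486) (nat_lit 5) (nat_lit 487) (nat_lit 5) (nat_lit 444) (nat_lit 415) (nat_lit 281))) (XT.nd (nat_lit 78) (nat_lit 912) (nat_lit 0) (XT.lf (nat_lit 0) (nat_lit 539441929) (nat_lit 1216) (nat_lit 2496660335) (nat_lit 76) (nat_lit 8438344059) (nat_lit 470) (nat_lit 5) (nat_lit 486) (nat_lit 5) (nat_lit 471) (nat_lit 5) (nat_lit 445) (nat_lit 415) (nat_lit 280)) (XT.lf (nat_lit 0) (nat_lit 2194186617) (nat_lit 988) (nat_lit 7531781382) (nat_lit 76) (nat_lit 1863382277) (nat_lit 458) (nat_lit 5) (nat_lit 471) (nat_lit 5) (nat_lit 459) (nat_lit 5) (nat_lit 446) (nat_lit 415) (nat_lit 279)))) (XT.nd (nat_lit 57018) (nat_lit 0) (nat_lit 9956) (XT.nd (nat_lit 56940) (nat_lit 0) (nat_lit 9956) (XT.lf (nat_lit 0) (nat_lit 3903851824) (nat_lit 988) (nat_lit 964033998) (nat_lit 76) (nat_lit 6838229975) (nat_lit 458) (nat_lit 5) (nat_lit 471) (nat_lit 5) (nat_lit 459) (nat_lit 5) (nat_lit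 447) (nat_lit 415) (nat_lit 278)) (XT.lf (nat_lit 0) (nat_lit 2609468770) (nat_lit 1596) (nat_lit 924417590) (nat_lit 1596) (nat_lit 924417590) (nat_lit 589) (nat_lit 3) (nat_lit 610) (nat_lit 3) (nat_lit 610) (nat_lit 5) (nat_lit 416) (nat_lit 416) (nat_lit 308))) (XT.nd (nat_lit 78) (nat_lit 0) (nat_lit 76) (XT.lf (nat_lit 76) (nat_lit 2644147237) (nat_lit 0) (nat_lit 3569293297) (nat_lit 1596) (nat_lit 2773487174) (nat_lit 590) (nat_lit 5) (nat_lit 589) (nat_lit 3) (nat_lit 610) (nat_lit 5) (nat_lit 417) (nat_lit 416) (nat_lit 307)) (XT.lf (nat_lit 0) (nat_lit 7216045253) (nat_lit 1520) (nat_lit 1819535938) (nat_lit 1596) (nat_lit 23308485) (nat_lit 590) (nat_lit 5) (nat_lit 610) (nat_lit 5) (nat_lit 611) (nat_lit 5) (nat_lit 418) (nat_lit 416) (nat_lit 306)))))) (XT.nd (nat_lit 624) (nat_lit 1368) (nat_lit 0) (XT.nd (nat_lit 312) (nat_lit 0) (nat_lit 152) (XT.nd (nat_lit 156) (nat_lit 0) (nat_lit 76) (XT.nd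 (nat_lit 78) (nat_lit 1596) (nat_lit 0) (XT.lf (nat_lit 76) (nat_lit 2794336727) (nat_lit 0) (nat_lit 5462349974) (nat_lit 1596) (nat_lit 875244491) (nat_lit 591) (nat_lit 5) (nat_lit 590) (nat_lit 5) (nat_lit 611) (nat_lit 5) (nat_lit 419) (nat_lit 416) (nat_lit 305)) (XT.lf (nat_lit 0) (nat_lit 98966196) (nat_lit 1596) (nat_lit 1694920300) (nat_lit 1672) (nat_lit 7412758061) (nat_lit 569) (nat_lit 5) (nat_lit 590) (nat_lit 5) (nat_lit 591) (nat_lit 5) (nat_lit 420) (nat_lit 416) (nat_lit 304))) (XT.nd (nat_lit 78) (nat_lit 0) (nat_lit 0) (XT.lf (nat_lit 0) (nat_lit 1090613258) (nat_lit 1596) (nat_lit 6233532784) (nat_lit 1672) (nat_lit 1958397006) (nat_lit 570) (nat_lit 5) (nat_lit 591) (nat_lit 5) (nat_lit 592) (nat_lit 5) (nat_lit 421) (nat_lit 416) (nat_lit 303)) (XT.lf (nat_lit 0) (nat_lit 2102752727) (nat_lit 1596) (nat_lit 1474147707) (nat_lit 1672) (nat_lit 5783045885) (nat_lit 570) (nat_lit 5) (nat_lit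 591) (nat_lit 5) (nat_lit 592) (nat_lit 5) (nat_lit 422) (nat_lit 416) (nat_lit 302)))) (XT.nd (nat_lit 156) (nat_lit 0) (nat_lit 0) (XT.nd (nat_lit 78) (nat_lit 0) (nat_lit 0) (XT.lf (nat_lit 0) (nat_lit 3136863157) (nat_lit 1596) (nat_lit 6028516807) (nat_lit 1672) (nat_lit 273483129) (nat_lit 571) (nat_lit 5) (nat_lit 592) (nat_lit 5) (nat_lit 593) (nat_lit 5) (nat_lit 423) (nat_lit 416) (nat_lit 301)) (XT.lf (nat_lit 0) (nat_lit 4203486663) (nat_lit 1596) (nat_lit 1143806441) (nat_lit 1672) (nat_lit 4171828480) (nat_lit 571) (nat_lit 5) (nat_lit 592) (nat_lit 5) (nat_lit 593) (nat_lit 5) (nat_lit 424) (nat_lit 416) (nat_lit 300))) (XT.nd (nat_lit 78) (nat_lit 0) (nat_lit 76) (XT.lf (nat_lit 76) (nat_lit 3876294159) (nat_lit 0) (nat_lit 1418928664) (nat_lit 1672) (nat_lit 4305686819) (nat_lit 572) (nat_lit 5) (nat_lit 571) (nat_lit 5) (nat_lit 593) (nat_lit 5) (nat_lit 425) (nat_lit 416) (nat_lit 299)) (XT.lf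 (nat_lit 0) (nat_lit 6412322339) (nat_lit 1596) (nat_lit 702261223) (nat_lit 1672) (nat_lit 2569679325) (nat_lit 572) (nat_lit 5) (nat_lit 593) (nat_lit 5) (nat_lit 594) (nat_lit 5) (nat_lit 426) (nat_lit 416) (nat_lit 298))))) (XT.nd (nat_lit 312) (nat_lit 0) (nat_lit 76) (XT.nd (nat_lit 156) (nat_lit 1596) (nat_lit 0) (XT.nd (nat_lit 78) (nat_lit 0) (nat_lit 76) (XT.lf (nat_lit 76) (nat_lit 4456325239) (nat_lit 0) (nat_lit 3113179907) (nat_lit 1672) (nat_lit 2199423226) (nat_lit 573) (nat_lit 5) (nat_lit 572) (nat_lit 5) (nat_lit 594) (nat_lit 5) (nat_lit 427) (nat_lit 416) (nat_lit 297)) (XT.lf (nat_lit 0) (nat_lit 8740637120) (nat_lit 1596) (nat_lit 147535620) (nat_lit 1672) (nat_lit 967298317) (nat_lit 573) (nat_lit 5) (nat_lit 594) (nat_lit 5) (nat_lit 595) (nat_lit 5) (nat_lit 428) (nat_lit 416) (nat_lit 296))) (XT.nd (nat_lit 78) (nat_lit 0) (nat_lit 0) (XT.lf (nat_lit 0) (nat_lit 26041191) (nat_lit 1672)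 (nat_lit 4788773546) (nat_lit 1748) (nat_lit 5128241332) (nat_lit 551) (nat_lit 5) (nat_lit 573) (nat_lit 5) (nat_lit 574) (nat_lit 5) (nat_lit 429) (nat_lit 416) (nat_lit 295)) (XT.lf (nat_lit 76) (nat_lit 517629350) (nat_lit 0) (nat_lit 641893286) (nat_lit 1748) (nat_lit 8873028434) (nat_lit 552) (nat_lit 5) (nat_lit 551) (nat_lit 5) (nat_lit 574) (nat_lit 5) (nat_lit 430) (nat_lit 416) (nat_lit 294)))) (XT.nd (nat_lit 156) (nat_lit 0) (nat_lit 76) (XT.nd (nat_lit 78) (nat_lit 0) (nat_lit 0) (XT.lf (nat_lit 0) (nat_lit 2352170937) (nat_lit 1672) (nat_lit 4165670645) (nat_lit 1748) (nat_lit 3605264445) (nat_lit 552) (nat_lit 5) (nat_lit 574) (nat_lit 5) (nat_lit 575) (nat_lit 5) (nat_lit 431) (nat_lit 416) (nat_lit 293)) (XT.lf (nat_lit 76) (nat_lit 1289629890) (nat_lit 0) (nat_lit 2272726764) (nat_lit 1748) (nat_lit 6653241740) (nat_lit 553) (nat_lit 5) (nat_lit 552) (nat_lit 5) (nat_lit 575) (nat_lit 5) (nat_lit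 432) (nat_lit 416) (nat_lit 292))) (XT.nd (nat_lit 78) (nat_lit 0) (nat_lit 0) (XT.lf (nat_lit 0) (nat_lit 4819619790) (nat_lit 1672) (nat_lit 3426336166) (nat_lit 1748) (nat_lit 2063527177) (nat_lit 553) (nat_lit 5) (nat_lit 575) (nat_lit 5) (nat_lit 576) (nat_lit 5) (nat_lit 433) (nat_lit 416) (nat_lit 291)) (XT.lf (nat_lit 76) (nat_lit 2183228518) (nat_lit 0) (nat_lit 3929768401) (nat_lit 1748) (nat_lit 4292029275) (nat_lit 554) (nat_lit 5) (nat_lit 553) (nat_lit 5) (nat_lit 576) (nat_lit 5) (nat_lit 434) (nat_lit 416) (nat_lit 290)))))))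
noncomputable def xc68 : XT := (XT.nd (nat_lit 58266) (nat_lit 0) (nat_lit 6156) (XT.nd (nat_lit 624) (nat_lit 3040) (nat_lit 0) (XT.nd (nat_lit 312) (nat_lit 1672) (nat_lit 0) (XT.nd (nat_lit 156) (nat_lit 1672) (nat_lit 0) (XT.nd (nat_lit 78) (nat_lit 0) (nat_lit 0) (XT.lf (nat_lit 0) (nat_lit 7440497119) (nat_lit 1672) (nat_lit 2567753860) (nat_lit 1748) (nat_lit 494064027) (nat_lit 554) (nat_lit 5) (nat_lit 576) (nat_lit 5) (nat_lit 577) (nat_lit 5) (nat_lit 435) (nat_lit 416) (nat_lit 289)) (XT.lf (nat_lit 76) (nat_lit 3201668341) (nat_lit 0) (nat_lit 5622084799) (nat_lit 1748) (nat_lit 1777212337) (nat_lit 555) (nat_lit 5) (nat_lit 554) (nat_lit 5) (nat_lit 577) (nat_lit 5) (nat_lit 436) (nat_lit 416) (nat_lit 288))) (XT.nd (nat_lit 78) (nat_lit 1672) (nat_lit 0) (XT.lf (nat_lit 76) (nat_lit 9107707497) (nat_lit 0) (nat_lit 1126848342) (nat_lit 1748) (nat_lit 467035487) (nat_lit 555) (nat_lit 5) (nat_lit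 554) (nat_lit 5) (nat_lit 577) (nat_lit 5) (nat_lit 437) (nat_lit 416) (nat_lit 287)) (XT.lf (nat_lit 0) (nat_lit 891868380) (nat_lit 1748) (nat_lit 6460883138) (nat_lit 1824) (nat_lit 3450686786) (nat_lit 532) (nat_lit 5) (nat_lit 555) (nat_lit 5) (nat_lit 556) (nat_lit 5) (nat_lit 438) (nat_lit 416) (nat_lit 286)))) (XT.nd (nat_lit 156) (nat_lit 1672) (nat_lit 0) (XT.nd (nat_lit 78) (nat_lit 0) (nat_lit 76) (XT.lf (nat_lit 0) (nat_lit 2273080507) (nat_lit 1748) (nat_lit 512216197) (nat_lit 1824) (nat_lit 8121936099) (nat_lit 532) (nat_lit 5) (nat_lit 555) (nat_lit 5) (nat_lit 556) (nat_lit 5) (nat_lit 439) (nat_lit 416) (nat_lit 285)) (XT.lf (nat_lit 0) (nat_lit 3714280666) (nat_lit 1748) (nat_lit 5409595673) (nat_lit 76) (nat_lit 1888579576) (nat_lit 533) (nat_lit 5) (nat_lit 556) (nat_lit 5) (nat_lit 534) (nat_lit 5) (nat_lit 440) (nat_lit 416) (nat_lit 284))) (XT.nd (nat_lit 78) (nat_lit 0) (nat_lit 0) (XT.lf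 (nat_lit 0) (nat_lit 704442927) (nat_lit 1748) (nat_lit 4490075455) (nat_lit 1824) (nat_lit 5925060838) (nat_lit 510) (nat_lit 5) (nat_lit 533) (nat_lit 5) (nat_lit 534) (nat_lit 5) (nat_lit 441) (nat_lit 416) (nat_lit 283)) (XT.lf (nat_lit 0) (nat_lit 6726416644) (nat_lit 1824) (nat_lit 4229842785) (nat_lit 76) (nat_lit 272144446) (nat_lit 510) (nat_lit 5) (nat_lit 534) (nat_lit 5) (nat_lit 511) (nat_lit 5) (nat_lit 442) (nat_lit 416) (nat_lit 282))))) (XT.nd (nat_lit 57330) (nat_lit 0) (nat_lit 7524) (XT.nd (nat_lit 156) (nat_lit 1216) (nat_lit 0) (XT.nd (nat_lit 78) (nat_lit 0) (nat_lit 0) (XT.lf (nat_lit 0) (nat_lit 2062709753) (nat_lit 1824) (nat_lit 6253664603) (nat_lit 1900) (nat_lit 3022482237) (nat_lit 486) (nat_lit 5) (nat_lit 510) (nat_lit 5) (nat_lit 511) (nat_lit 5) (nat_lit 443) (nat_lit 416) (nat_lit 281)) (XT.lf (nat_lit 0) (nat_lit 8524776477) (nat_lit 1824) (nat_lit 1426251819) (nat_lit 1900)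 (nat_lit 1500232126) (nat_lit 486) (nat_lit 5) (nat_lit 510) (nat_lit 5) (nat_lit 511) (nat_lit 5) (nat_lit 444) (nat_lit 416) (nat_lit 280))) (XT.nd (nat_lit 78) (nat_lit 0) (nat_lit 0) (XT.lf (nat_lit 0) (nat_lit 82631926) (nat_lit 1216) (nat_lit 8005404952) (nat_lit 76) (nat_lit 3477251500) (nat_lit 470) (nat_lit 5) (nat_lit 486) (nat_lit 5) (nat_lit 471) (nat_lit 5) (nat_lit 445) (nat_lit 416) (nat_lit 279)) (XT.lf (nat_lit 0) (nat_lit 1691235334) (nat_lit 1216) (nat_lit 1498897976) (nat_lit 76) (nat_lit 8490981847) (nat_lit 470) (nat_lit 5) (nat_lit 486) (nat_lit 5) (nat_lit 471) (nat_lit 5) (nat_lit 446) (nat_lit 416) (nat_lit 278)))) (XT.nd (nat_lit 156) (nat_lit 1520) (nat_lit 0) (XT.nd (nat_lit 78) (nat_lit 0) (nat_lit 0) (XT.lf (nat_lit 0) (nat_lit 3580797544) (nat_lit 1596) (nat_lit 474144848) (nat_lit 1596) (nat_lit 474144848) (nat_lit 589) (nat_lit 3) (nat_lit 610) (nat_lit 3) (nat_lit 610) (nat_lit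 5) (nat_lit 417) (nat_lit 417) (nat_lit 306)) (XT.lf (nat_lit 76) (nat_lit 3628384458) (nat_lit 0) (nat_lit 4517605969) (nat_lit 1596) (nat_lit 984510212) (nat_lit 590) (nat_lit 5) (nat_lit 589) (nat_lit 3) (nat_lit 610) (nat_lit 5) (nat_lit 418) (nat_lit 417) (nat_lit 305))) (XT.nd (nat_lit 78) (nat_lit 1520) (nat_lit 0) (XT.lf (nat_lit 76) (nat_lit 8297392783) (nat_lit 0) (nat_lit 835641555) (nat_lit 1596) (nat_lit 71579769) (nat_lit 590) (nat_lit 5) (nat_lit 589) (nat_lit 3) (nat_lit 610) (nat_lit 5) (nat_lit 419) (nat_lit 417) (nat_lit 304)) (XT.lf (nat_lit 0) (nat_lit 869218973) (nat_lit 1596) (nat_lit 5487436308) (nat_lit 1672) (nat_lit 2923025267) (nat_lit 569) (nat_lit 5) (nat_lit 590) (nat_lit 5) (nat_lit 591) (nat_lit 5) (nat_lit 420) (nat_lit 417) (nat_lit 303)))))) (XT.nd (nat_lit 624) (nat_lit 1368) (nat_lit 0) (XT.nd (nat_lit 312) (nat_lit 0) (nat_lit 152) (XT.nd (nat_lit 156) (nat_lit 0) (nat_lit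 76) (XT.nd (nat_lit 78) (nat_lit 0) (nat_lit 76) (XT.lf (nat_lit 0) (nat_lit 1816886487) (nat_lit 1596) (nat_lit 776746425) (nat_lit 1672) (nat_lit 6762825717) (nat_lit 569) (nat_lit 5) (nat_lit 590) (nat_lit 5) (nat_lit 591) (nat_lit 5) (nat_lit 421) (nat_lit 417) (nat_lit 302)) (XT.lf (nat_lit 0) (nat_lit 2796039777) (nat_lit 1596) (nat_lit 5373804446) (nat_lit 1672) (nat_lit 1264677401) (nat_lit 570) (nat_lit 5) (nat_lit 591) (nat_lit 5) (nat_lit 592) (nat_lit 5) (nat_lit 422) (nat_lit 417) (nat_lit 301))) (XT.nd (nat_lit 78) (nat_lit 0) (nat_lit 0) (XT.lf (nat_lit 0) (nat_lit 3795409991) (nat_lit 1596) (nat_lit 538533609) (nat_lit 1672) (nat_lit 5180189601) (nat_lit 570) (nat_lit 5) (nat_lit 591) (nat_lit 5) (nat_lit 592) (nat_lit 5) (nat_lit 423) (nat_lit 417) (nat_lit 300)) (XT.lf (nat_lit 76) (nat_lit 4439172862) (nat_lit 0) (nat_lit 383054629) (nat_lit 1672) (nat_lit 4772960323) (nat_lit 571) (nat_lit 5)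 (nat_lit 570) (nat_lit 5) (nat_lit 592) (nat_lit 5) (nat_lit 424) (nat_lit 417) (nat_lit 299)))) (XT.nd (nat_lit 156) (nat_lit 0) (nat_lit 76) (XT.nd (nat_lit 78) (nat_lit 0) (nat_lit 0) (XT.lf (nat_lit 0) (nat_lit 5875928971) (nat_lit 1596) (nat_lit 190644103) (nat_lit 1672) (nat_lit 3611163490) (nat_lit 571) (nat_lit 5) (nat_lit 592) (nat_lit 5) (nat_lit 593) (nat_lit 5) (nat_lit 425) (nat_lit 417) (nat_lit 298)) (XT.lf (nat_lit 76) (nat_lit 4923437203) (nat_lit 0) (nat_lit 2041213488) (nat_lit 1672) (nat_lit 2797006675) (nat_lit 572) (nat_lit 5) (nat_lit 571) (nat_lit 5) (nat_lit 593) (nat_lit 5) (nat_lit 426) (nat_lit 417) (nat_lit 297))) (XT.nd (nat_lit 78) (nat_lit 0) (nat_lit 0) (XT.lf (nat_lit 76) (nat_lit 272307722) (nat_lit 0) (nat_lit 7799114731) (nat_lit 1672) (nat_lit 1775908619) (nat_lit 573) (nat_lit 5) (nat_lit 572) (nat_lit 5) (nat_lit 594) (nat_lit 5) (nat_lit 427) (nat_lit 417) (nat_lit 296))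 (XT.lf (nat_lit 76) (nat_lit 5524014006) (nat_lit 0) (nat_lit 3702338313) (nat_lit 1672) (nat_lit 707845480) (nat_lit 573) (nat_lit 5) (nat_lit 572) (nat_lit 5) (nat_lit 594) (nat_lit 5) (nat_lit 428) (nat_lit 417) (nat_lit 295))))) (XT.nd (nat_lit 312) (nat_lit 0) (nat_lit 76) (XT.nd (nat_lit 156) (nat_lit 0) (nat_lit 0) (XT.nd (nat_lit 78) (nat_lit 0) (nat_lit 0) (XT.lf (nat_lit 0) (nat_lit 365694276) (nat_lit 1672) (nat_lit 9172476282) (nat_lit 1748) (nat_lit 484799356) (nat_lit 551) (nat_lit 5) (nat_lit 573) (nat_lit 5) (nat_lit 574) (nat_lit 5) (nat_lit 429) (nat_lit 417) (nat_lit 294)) (XT.lf (nat_lit 0) (nat_lit 1486275563) (nat_lit 1672) (nat_lit 3879430730) (nat_lit 1748) (nat_lit 4747016626) (nat_lit 551) (nat_lit 5) (nat_lit 573) (nat_lit 5) (nat_lit 574) (nat_lit 5) (nat_lit 430) (nat_lit 417) (nat_lit 293))) (XT.nd (nat_lit 78) (nat_lit 0) (nat_lit 76) (XT.lf (nat_lit 76) (nat_lit 1526487603) (nat_lit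 0) (nat_lit 1093800160) (nat_lit 1748) (nat_lit 7584162834) (nat_lit 552) (nat_lit 5) (nat_lit 551) (nat_lit 5) (nat_lit 574) (nat_lit 5) (nat_lit 431) (nat_lit 417) (nat_lit 292)) (XT.lf (nat_lit 0) (nat_lit 3805806461) (nat_lit 1672) (nat_lit 3239074365) (nat_lit 1748) (nat_lit 3252555479) (nat_lit 552) (nat_lit 5) (nat_lit 574) (nat_lit 5) (nat_lit 575) (nat_lit 5) (nat_lit 432) (nat_lit 417) (nat_lit 291)))) (XT.nd (nat_lit 156) (nat_lit 0) (nat_lit 76) (XT.nd (nat_lit 78) (nat_lit 0) (nat_lit 76) (XT.lf (nat_lit 76) (nat_lit 2318688038) (nat_lit 0) (nat_lit 2700441482) (nat_lit 1748) (nat_lit 5373070326) (nat_lit 553) (nat_lit 5) (nat_lit 552) (nat_lit 5) (nat_lit 575) (nat_lit 5) (nat_lit 433) (nat_lit 417) (nat_lit 290)) (XT.lf (nat_lit 0) (nat_lit 6271937527) (nat_lit 1672) (nat_lit 2481668819) (nat_lit 1748) (nat_lit 1734947944) (nat_lit 553) (nat_lit 5) (nat_lit 575) (nat_lit 5) (nat_lit 576) (nat_lit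 5) (nat_lit 434) (nat_lit 417) (nat_lit 289))) (XT.nd (nat_lit 78) (nat_lit 0) (nat_lit 76) (XT.lf (nat_lit 76) (nat_lit 3233421409) (nat_lit 0) (nat_lit 4337709068) (nat_lit 1748) (nat_lit 3015278770) (nat_lit 554) (nat_lit 5) (nat_lit 553) (nat_lit 5) (nat_lit 576) (nat_lit 5) (nat_lit 435) (nat_lit 417) (nat_lit 288)) (XT.nd (nat_lit 78) (nat_lit 0) (nat_lit 0) (XT.lf (nat_lit 0) (nat_lit 8896890679) (nat_lit 1672) (nat_lit 1604026466) (nat_lit 1748) (nat_lit 185292488) (nat_lit 554) (nat_lit 5) (nat_lit 576) (nat_lit 5) (nat_lit 577) (nat_lit 5) (nat_lit 436) (nat_lit 417) (nat_lit 287)) (XT.lf (nat_lit 76) (nat_lit 4274106005) (nat_lit 0) (nat_lit 6014614151) (nat_lit 1748) (nat_lit 498494791) (nat_lit 555) (nat_lit 5) (nat_lit 554) (nat_lit 5) (nat_lit 577) (nat_lit 5) (nat_lit 437) (nat_lit 417) (nat_lit 286))))))))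
noncomputable def xc69 : XT := (XT.nd (nat_lit 59592) (nat_lit 0) (nat_lit 1216) (XT.nd (nat_lit 58344) (nat_lit 0) (nat_lit 4636) (XT.nd (nat_lit 624) (nat_lit 1216) (nat_lit 0) (XT.nd (nat_lit 312) (nat_lit 3420) (nat_lit 0) (XT.nd (nat_lit 156) (nat_lit 0) (nat_lit 76) (XT.nd (nat_lit 78) (nat_lit 0) (nat_lit 76) (XT.lf (nat_lit 0) (nat_lit 801464711) (nat_lit 1748) (nat_lit 617138089) (nat_lit 1824) (nat_lit 9471650349) (nat_lit 531) (nat_lit 5) (nat_lit 554) (nat_lit 5) (nat_lit 555) (nat_lit 5) (nat_lit 438) (nat_lit 417) (nat_lit 285)) (XT.lf (nat_lit 0) (nat_lit 2161200685) (nat_lit 1748) (nat_lit 5564472121) (nat_lit 1824) (nat_lit 3268804365) (nat_lit 532) (nat_lit 5) (nat_lit 555) (nat_lit 5) (nat_lit 556) (nat_lit 5) (nat_lit 439) (nat_lit 417) (nat_lit 284))) (XT.nd (nat_lit 78) (nat_lit 0) (nat_lit 76) (XT.lf (nat_lit 76) (nat_lit 489477376) (nat_lit 0) (nat_lit 3059198574) (nat_lit 1824) (nat_lit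 7552098833) (nat_lit 533) (nat_lit 5) (nat_lit 532) (nat_lit 5) (nat_lit 556) (nat_lit 5) (nat_lit 440) (nat_lit 417) (nat_lit 283)) (XT.lf (nat_lit 0) (nat_lit 4996583107) (nat_lit 1748) (nat_lit 4493330280) (nat_lit 76) (nat_lit 1718631311) (nat_lit 533) (nat_lit 5) (nat_lit 556) (nat_lit 5) (nat_lit 534) (nat_lit 5) (nat_lit 441) (nat_lit 417) (nat_lit 282)))) (XT.nd (nat_lit 156) (nat_lit 1824) (nat_lit 0) (XT.nd (nat_lit 78) (nat_lit 0) (nat_lit 0) (XT.lf (nat_lit 0) (nat_lit 1736249242) (nat_lit 1748) (nat_lit 4753097427) (nat_lit 1824) (nat_lit 4828805377) (nat_lit 510) (nat_lit 5) (nat_lit 533) (nat_lit 5) (nat_lit 534) (nat_lit 5) (nat_lit 442) (nat_lit 417) (nat_lit 281)) (XT.lf (nat_lit 0) (nat_lit 8027428562) (nat_lit 1824) (nat_lit 3292223095) (nat_lit 76) (nat_lit 109990624) (nat_lit 510) (nat_lit 5) (nat_lit 534) (nat_lit 5) (nat_lit 511) (nat_lit 5) (nat_lit 443) (nat_lit 417) (nat_lit 280))) (XT.nd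 (nat_lit 78) (nat_lit 0) (nat_lit 0) (XT.lf (nat_lit 0) (nat_lit 3119455385) (nat_lit 1824) (nat_lit 6513451060) (nat_lit 1900) (nat_lit 1909723187) (nat_lit 486) (nat_lit 5) (nat_lit 510) (nat_lit 5) (nat_lit 511) (nat_lit 5) (nat_lit 444) (nat_lit 417) (nat_lit 279)) (XT.lf (nat_lit 0) (nat_lit 9690851847) (nat_lit 1824) (nat_lit 1586848586) (nat_lit 1900) (nat_lit 380032167) (nat_lit 486) (nat_lit 5) (nat_lit 510) (nat_lit 5) (nat_lit 511) (nat_lit 5) (nat_lit 445) (nat_lit 417) (nat_lit 278))))) (XT.nd (nat_lit 57408) (nat_lit 0) (nat_lit 7524) (XT.nd (nat_lit 57252) (nat_lit 0) (nat_lit 7448) (XT.nd (nat_lit 57174) (nat_lit 0) (nat_lit 9044) (XT.lf (nat_lit 0) (nat_lit 1202916492) (nat_lit 1216) (nat_lit 7138360537) (nat_lit 76) (nat_lit 3432944478) (nat_lit 470) (nat_lit 5) (nat_lit 486) (nat_lit 5) (nat_lit 471) (nat_lit 5) (nat_lit 446) (nat_lit 417) (nat_lit 277)) (XT.lf (nat_lit 0) (nat_lit 4535861590)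 (nat_lit 1596) (nat_lit 33069217) (nat_lit 1596) (nat_lit 33069217) (nat_lit 589) (nat_lit 3) (nat_lit 610) (nat_lit 3) (nat_lit 610) (nat_lit 5) (nat_lit 418) (nat_lit 418) (nat_lit 304))) (XT.nd (nat_lit 78) (nat_lit 0) (nat_lit 0) (XT.lf (nat_lit 0) (nat_lit 758543531) (nat_lit 1596) (nat_lit 4687199001) (nat_lit 1672) (nat_lit 3832507045) (nat_lit 568) (nat_lit 5) (nat_lit 589) (nat_lit 3) (nat_lit 590) (nat_lit 5) (nat_lit 419) (nat_lit 418) (nat_lit 303)) (XT.lf (nat_lit 0) (nat_lit 1643214505) (nat_lit 1596) (nat_lit 24460762) (nat_lit 1672) (nat_lit 7686735236) (nat_lit 568) (nat_lit 5) (nat_lit 589) (nat_lit 3) (nat_lit 590) (nat_lit 5) (nat_lit 420) (nat_lit 418) (nat_lit 302)))) (XT.nd (nat_lit 156) (nat_lit 0) (nat_lit 76) (XT.nd (nat_lit 78) (nat_lit 0) (nat_lit 0) (XT.lf (nat_lit 0) (nat_lit 2568898417) (nat_lit 1596) (nat_lit 4663780837) (nat_lit 1672) (nat_lit 2198949002) (nat_lit 569) (nat_lit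 5) (nat_lit 590) (nat_lit 5) (nat_lit 591) (nat_lit 5) (nat_lit 421) (nat_lit 418) (nat_lit 301)) (XT.lf (nat_lit 76) (nat_lit 124453023) (nat_lit 0) (nat_lit 3378888112) (nat_lit 1672) (nat_lit 6007244328) (nat_lit 570) (nat_lit 5) (nat_lit 569) (nat_lit 5) (nat_lit 591) (nat_lit 5) (nat_lit 422) (nat_lit 418) (nat_lit 300))) (XT.nd (nat_lit 78) (nat_lit 0) (nat_lit 0) (XT.lf (nat_lit 0) (nat_lit 4470198033) (nat_lit 1596) (nat_lit 4535106954) (nat_lit 1672) (nat_lit 585542320) (nat_lit 570) (nat_lit 5) (nat_lit 591) (nat_lit 5) (nat_lit 592) (nat_lit 5) (nat_lit 423) (nat_lit 418) (nat_lit 299)) (XT.lf (nat_lit 76) (nat_lit 383344508) (nat_lit 0) (nat_lit 5076969924) (nat_lit 1672) (nat_lit 4212321509) (nat_lit 571) (nat_lit 5) (nat_lit 570) (nat_lit 5) (nat_lit 592) (nat_lit 5) (nat_lit 424) (nat_lit 418) (nat_lit 298)))))) (XT.nd (nat_lit 624) (nat_lit 1444) (nat_lit 0) (XT.nd (nat_lit 312) (nat_lit 1520) (nat_lit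 0) (XT.nd (nat_lit 156) (nat_lit 0) (nat_lit 76) (XT.nd (nat_lit 78) (nat_lit 0) (nat_lit 76) (XT.lf (nat_lit 76) (nat_lit 5449474706) (nat_lit 0) (nat_lit 1030579771) (nat_lit 1672) (nat_lit 3275809444) (nat_lit 571) (nat_lit 5) (nat_lit 570) (nat_lit 5) (nat_lit 592) (nat_lit 5) (nat_lit 425) (nat_lit 418) (nat_lit 297)) (XT.lf (nat_lit 76) (nat_lit 753563842) (nat_lit 0) (nat_lit 6771470476) (nat_lit 1672) (nat_lit 2315625242) (nat_lit 572) (nat_lit 5) (nat_lit 571) (nat_lit 5) (nat_lit 593) (nat_lit 5) (nat_lit 426) (nat_lit 418) (nat_lit 296))) (XT.nd (nat_lit 78) (nat_lit 0) (nat_lit 76) (XT.lf (nat_lit 76) (nat_lit 5953871692) (nat_lit 0) (nat_lit 2652881906) (nat_lit 1672) (nat_lit 1320080718) (nat_lit 572) (nat_lit 5) (nat_lit 571) (nat_lit 5) (nat_lit 593) (nat_lit 5) (nat_lit 427) (nat_lit 418) (nat_lit 295)) (XT.lf (nat_lit 76) (nat_lit 1237128643) (nat_lit 0) (nat_lit 8471660562) (nat_lit 1672) (nat_lit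 305969722) (nat_lit 573) (nat_lit 5) (nat_lit 572) (nat_lit 5) (nat_lit 594) (nat_lit 5) (nat_lit 428) (nat_lit 418) (nat_lit 294)))) (XT.nd (nat_lit 156) (nat_lit 0) (nat_lit 76) (XT.nd (nat_lit 78) (nat_lit 0) (nat_lit 76) (XT.lf (nat_lit 0) (nat_lit 744047907) (nat_lit 1672) (nat_lit 3533779058) (nat_lit 1748) (nat_lit 5826016922) (nat_lit 550) (nat_lit 5) (nat_lit 572) (nat_lit 5) (nat_lit 573) (nat_lit 5) (nat_lit 429) (nat_lit 418) (nat_lit 293)) (XT.lf (nat_lit 0) (nat_lit 1804099876) (nat_lit 1672) (nat_lit 8370515722) (nat_lit 1748) (nat_lit 20191880) (nat_lit 551) (nat_lit 5) (nat_lit 573) (nat_lit 5) (nat_lit 574) (nat_lit 5) (nat_lit 430) (nat_lit 418) (nat_lit 292))) (XT.nd (nat_lit 78) (nat_lit 0) (nat_lit 0) (XT.lf (nat_lit 0) (nat_lit 2919032167) (nat_lit 1672) (nat_lit 2990931026) (nat_lit 1748) (nat_lit 4376953563) (nat_lit 551) (nat_lit 5) (nat_lit 573) (nat_lit 5) (nat_lit 574) (nat_lit 5) (nat_lit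 431) (nat_lit 418) (nat_lit 291)) (XT.lf (nat_lit 76) (nat_lit 2516749830) (nat_lit 0) (nat_lit 1537695587) (nat_lit 1748) (nat_lit 6326459155) (nat_lit 552) (nat_lit 5) (nat_lit 551) (nat_lit 5) (nat_lit 574) (nat_lit 5) (nat_lit 432) (nat_lit 418) (nat_lit 290))))) (XT.nd (nat_lit 312) (nat_lit 1596) (nat_lit 0) (XT.nd (nat_lit 156) (nat_lit 0) (nat_lit 76) (XT.nd (nat_lit 78) (nat_lit 0) (nat_lit 0) (XT.lf (nat_lit 0) (nat_lit 5233895011) (nat_lit 1672) (nat_lit 2333162183) (nat_lit 1748) (nat_lit 2909288389) (nat_lit 552) (nat_lit 5) (nat_lit 574) (nat_lit 5) (nat_lit 575) (nat_lit 5) (nat_lit 433) (nat_lit 418) (nat_lit 289)) (XT.lf (nat_lit 76) (nat_lit 3329369326) (nat_lit 0) (nat_lit 3121866866) (nat_lit 1748) (nat_lit 4122173170) (nat_lit 553) (nat_lit 5) (nat_lit 552) (nat_lit 5) (nat_lit 575) (nat_lit 5) (nat_lit 434) (nat_lit 418) (nat_lit 288))) (XT.nd (nat_lit 78) (nat_lit 0) (nat_lit 0) (XT.lf (nat_lit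 0) (nat_lit 7700649384) (nat_lit 1672) (nat_lit 1557451686) (nat_lit 1748) (nat_lit 1414158844) (nat_lit 553) (nat_lit 5) (nat_lit 575) (nat_lit 5) (nat_lit 576) (nat_lit 5) (nat_lit 435) (nat_lit 418) (nat_lit 287)) (XT.lf (nat_lit 76) (nat_lit 4265533435) (nat_lit 0) (nat_lit 4741019668) (nat_lit 1748) (nat_lit 1765904327) (nat_lit 554) (nat_lit 5) (nat_lit 553) (nat_lit 5) (nat_lit 576) (nat_lit 5) (nat_lit 436) (nat_lit 418) (nat_lit 286)))) (XT.nd (nat_lit 156) (nat_lit 0) (nat_lit 0) (XT.nd (nat_lit 78) (nat_lit 1672) (nat_lit 0) (XT.lf (nat_lit 76) (nat_lit 10213569226) (nat_lit 0) (nat_lit 118839403) (nat_lit 1748) (nat_lit 542373595) (nat_lit 554) (nat_lit 5) (nat_lit 553) (nat_lit 5) (nat_lit 576) (nat_lit 5) (nat_lit 437) (nat_lit 418) (nat_lit 285)) (XT.lf (nat_lit 0) (nat_lit 744863868) (nat_lit 1748) (nat_lit 5654255648) (nat_lit 1824) (nat_lit 4578972557) (nat_lit 531) (nat_lit 5) (nat_lit 554) (nat_lit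 5) (nat_lit 555) (nat_lit 5) (nat_lit 438) (nat_lit 418) (nat_lit 284))) (XT.nd (nat_lit 78) (nat_lit 0) (nat_lit 76) (XT.lf (nat_lit 76) (nat_lit 341482243) (nat_lit 0) (nat_lit 1700444528) (nat_lit 1824) (nat_lit 9041642785) (nat_lit 532) (nat_lit 5) (nat_lit 531) (nat_lit 5) (nat_lit 555) (nat_lit 5) (nat_lit 439) (nat_lit 418) (nat_lit 283)) (XT.lf (nat_lit 0) (nat_lit 3407322562) (nat_lit 1748) (nat_lit 4689959296) (nat_lit 1824) (nat_lit 3093026899) (nat_lit 532) (nat_lit 5) (nat_lit 555) (nat_lit 5) (nat_lit 556) (nat_lit 5) (nat_lit 440) (nat_lit 418) (nat_lit 282))))))) (XT.nd (nat_lit 58500) (nat_lit 0) (nat_lit 1824) (XT.nd (nat_lit 57876) (nat_lit 0) (nat_lit 4788) (XT.nd (nat_lit 312) (nat_lit 1824) (nat_lit 0) (XT.nd (nat_lit 156) (nat_lit 1672) (nat_lit 0) (XT.nd (nat_lit 78) (nat_lit 0) (nat_lit 76) (XT.lf (nat_lit 76) (nat_lit 1478583650) (nat_lit 0) (nat_lit 3326735824) (nat_lit 1824) (nat_lit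 6493757404) (nat_lit 533) (nat_lit 5) (nat_lit 532) (nat_lit 5) (nat_lit 556) (nat_lit 5) (nat_lit 441) (nat_lit 418) (nat_lit 281)) (XT.lf (nat_lit 0) (nat_lit 6257622830) (nat_lit 1748) (nat_lit 3598520504) (nat_lit 76) (nat_lit 1553350097) (nat_lit 533) (nat_lit 5) (nat_lit 556) (nat_lit 5) (nat_lit 534) (nat_lit 5) (nat_lit 442) (nat_lit 418) (nat_lit 280))) (XT.nd (nat_lit 78) (nat_lit 0) (nat_lit 0) (XT.lf (nat_lit 0) (nat_lit 2749172474) (nat_lit 1748) (nat_lit 5014653477) (nat_lit 1824) (nat_lit 3757795289) (nat_lit 510) (nat_lit 5) (nat_lit 533) (nat_lit 5) (nat_lit 534) (nat_lit 5) (nat_lit 443) (nat_lit 418) (nat_lit 279)) (XT.lf (nat_lit 0) (nat_lit 9259938316) (nat_lit 1748) (nat_lit 49548122) (nat_lit 1824) (nat_lit 2326318502) (nat_lit 510) (nat_lit 5) (nat_lit 533) (nat_lit 5) (nat_lit 534) (nat_lit 5) (nat_lit 444) (nat_lit 418) (nat_lit 278)))) (XT.nd (nat_lit 57408) (nat_lit 0) (nat_lit 6232)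 (XT.nd (nat_lit 57330) (nat_lit 0) (nat_lit 6232) (XT.lf (nat_lit 0) (nat_lit 4157903160) (nat_lit 1824) (nat_lit 6773202170) (nat_lit 1900) (nat_lit 820266080) (nat_lit 486) (nat_lit 5) (nat_lit 510) (nat_lit 5) (nat_lit 511) (nat_lit 5) (nat_lit 445) (nat_lit 418) (nat_lit 277)) (XT.lf (nat_lit 0) (nat_lit 396705004) (nat_lit 0) (nat_lit 396705004) (nat_lit 1596) (nat_lit 3883439047) (nat_lit 568) (nat_lit 5) (nat_lit 568) (nat_lit 3) (nat_lit 589) (nat_lit 3) (nat_lit 419) (nat_lit 419) (nat_lit 302))) (XT.nd (nat_lit 78) (nat_lit 0) (nat_lit 0) (XT.lf (nat_lit 0) (nat_lit 2455350002) (nat_lit 1596) (nat_lit 3898167541) (nat_lit 1672) (nat_lit 3076664315) (nat_lit 568) (nat_lit 5) (nat_lit 589) (nat_lit 3) (nat_lit 590) (nat_lit 5) (nat_lit 420) (nat_lit 419) (nat_lit 301)) (XT.lf (nat_lit 76) (nat_lit 851686157) (nat_lit 0) (nat_lit 2478584702) (nat_lit 1672) (nat_lit 6178144013) (nat_lit 569) (nat_lit 5) (nat_lit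 568) (nat_lit 5) (nat_lit 590) (nat_lit 5) (nat_lit 421) (nat_lit 419) (nat_lit 300))))) (XT.nd (nat_lit 312) (nat_lit 1520) (nat_lit 0) (XT.nd (nat_lit 156) (nat_lit 0) (nat_lit 0) (XT.nd (nat_lit 78) (nat_lit 0) (nat_lit 0) (XT.lf (nat_lit 0) (nat_lit 4237245883) (nat_lit 1596) (nat_lit 3859897480) (nat_lit 1672) (nat_lit 1490778069) (nat_lit 569) (nat_lit 5) (nat_lit 590) (nat_lit 5) (nat_lit 591) (nat_lit 5) (nat_lit 422) (nat_lit 419) (nat_lit 299)) (XT.lf (nat_lit 76) (nat_lit 1018198696) (nat_lit 0) (nat_lit 4146260104) (nat_lit 1672) (nat_lit 4504517355) (nat_lit 570) (nat_lit 5) (nat_lit 569) (nat_lit 5) (nat_lit 591) (nat_lit 5) (nat_lit 423) (nat_lit 419) (nat_lit 298))) (XT.nd (nat_lit 78) (nat_lit 0) (nat_lit 76) (XT.lf (nat_lit 76) (nat_lit 6034644037) (nat_lit 0) (nat_lit 80882427) (nat_lit 1672) (nat_lit 3636019300) (nat_lit 570) (nat_lit 5) (nat_lit 569) (nat_lit 5) (nat_lit 591) (nat_lit 5) (nat_lit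 424) (nat_lit 419) (nat_lit 297)) (XT.lf (nat_lit 76) (nat_lit 1294460797) (nat_lit 0) (nat_lit 5805827018) (nat_lit 1672) (nat_lit 2735185503) (nat_lit 571) (nat_lit 5) (nat_lit 570) (nat_lit 5) (nat_lit 592) (nat_lit 5) (nat_lit 425) (nat_lit 419) (nat_lit 296)))) (XT.nd (nat_lit 156) (nat_lit 1596) (nat_lit 0) (XT.nd (nat_lit 78) (nat_lit 0) (nat_lit 76) (XT.lf (nat_lit 76) (nat_lit 6444198905) (nat_lit 0) (nat_lit 1666208714) (nat_lit 1672) (nat_lit 1810558539) (nat_lit 571) (nat_lit 5) (nat_lit 570) (nat_lit 5) (nat_lit 592) (nat_lit 5) (nat_lit 426) (nat_lit 419) (nat_lit 295)) (XT.lf (nat_lit 76) (nat_lit 1682327026) (nat_lit 0) (nat_lit 7466551010) (nat_lit 1672) (nat_lit 859127855) (nat_lit 572) (nat_lit 5) (nat_lit 571) (nat_lit 5) (nat_lit 593) (nat_lit 5) (nat_lit 427) (nat_lit 419) (nat_lit 294))) (XT.nd (nat_lit 78) (nat_lit 0) (nat_lit 76) (XT.lf (nat_lit 0) (nat_lit 125196898) (nat_lit 1672) (nat_lit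 3128580082) (nat_lit 1748) (nat_lit 6842688470) (nat_lit 549) (nat_lit 5) (nat_lit 571) (nat_lit 5) (nat_lit 572) (nat_lit 5) (nat_lit 428) (nat_lit 419) (nat_lit 293)) (XT.lf (nat_lit 0) (nat_lit 1120024680) (nat_lit 1672) (nat_lit 8010057883) (nat_lit 1748) (nat_lit 1056451655) (nat_lit 550) (nat_lit 5) (nat_lit 572) (nat_lit 5) (nat_lit 573) (nat_lit 5) (nat_lit 429) (nat_lit 419) (nat_lit 292)))))) (XT.nd (nat_lit 624) (nat_lit 3040) (nat_lit 0) (XT.nd (nat_lit 312) (nat_lit 0) (nat_lit 152) (XT.nd (nat_lit 156) (nat_lit 0) (nat_lit 76) (XT.nd (nat_lit 78) (nat_lit 0) (nat_lit 0) (XT.lf (nat_lit 0) (nat_lit 2158949152) (nat_lit 1672) (nat_lit 2681808837) (nat_lit 1748) (nat_lit 5437162370) (nat_lit 550) (nat_lit 5) (nat_lit 572) (nat_lit 5) (nat_lit 573) (nat_lit 5) (nat_lit 430) (nat_lit 419) (nat_lit 291)) (XT.lf (nat_lit 76) (nat_lit 2777491563) (nat_lit 0) (nat_lit 441074738) (nat_lit 1748) (nat_lit 7152569638)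 (nat_lit 551) (nat_lit 5) (nat_lit 550) (nat_lit 5) (nat_lit 573) (nat_lit 5) (nat_lit 431) (nat_lit 419) (nat_lit 290))) (XT.nd (nat_lit 78) (nat_lit 0) (nat_lit 0) (XT.lf (nat_lit 0) (nat_lit 4325962495) (nat_lit 1672) (nat_lit 2122175714) (nat_lit 1748) (nat_lit 4017545887) (nat_lit 551) (nat_lit 5) (nat_lit 573) (nat_lit 5) (nat_lit 574) (nat_lit 5) (nat_lit 432) (nat_lit 419) (nat_lit 289)) (XT.lf (nat_lit 76) (nat_lit 3489549719) (nat_lit 0) (nat_lit 1974081395) (nat_lit 1748) (nat_lit 5098329614) (nat_lit 552) (nat_lit 5) (nat_lit 551) (nat_lit 5) (nat_lit 574) (nat_lit 5) (nat_lit 433) (nat_lit 419) (nat_lit 288)))) (XT.nd (nat_lit 156) (nat_lit 0) (nat_lit 76) (XT.nd (nat_lit 78) (nat_lit 0) (nat_lit 0) (XT.lf (nat_lit 0) (nat_lit 6638046594) (nat_lit 1672) (nat_lit 1446824976) (nat_lit 1748) (nat_lit 2575011451) (nat_lit 552) (nat_lit 5) (nat_lit 574) (nat_lit 5) (nat_lit 575) (nat_lit 5) (nat_lit 434)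 (nat_lit 419) (nat_lit 287)) (XT.lf (nat_lit 76) (nat_lit 4322819002) (nat_lit 0) (nat_lit 3537453526) (nat_lit 1748) (nat_lit 2899004790) (nat_lit 553) (nat_lit 5) (nat_lit 552) (nat_lit 5) (nat_lit 575) (nat_lit 5) (nat_lit 435) (nat_lit 419) (nat_lit 286))) (XT.nd (nat_lit 78) (nat_lit 0) (nat_lit 0) (XT.lf (nat_lit 0) (nat_lit 9107327796) (nat_lit 1672) (nat_lit 652566011) (nat_lit 1748) (nat_lit 1100757997) (nat_lit 553) (nat_lit 5) (nat_lit 575) (nat_lit 5) (nat_lit 576) (nat_lit 5) (nat_lit 436) (nat_lit 419) (nat_lit 285)) (XT.lf (nat_lit 76) (nat_lit 5280720689) (nat_lit 0) (nat_lit 5140104209) (nat_lit 1748) (nat_lit 542398867) (nat_lit 554) (nat_lit 5) (nat_lit 553) (nat_lit 5) (nat_lit 576) (nat_lit 5) (nat_lit 437) (nat_lit 419) (nat_lit 284))))) (XT.nd (nat_lit 312) (nat_lit 1520) (nat_lit 0) (XT.nd (nat_lit 156) (nat_lit 0) (nat_lit 76) (XT.nd (nat_lit 78) (nat_lit 0) (nat_lit 76) (XT.lf (nat_lit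 76) (nat_lit 260399493) (nat_lit 0) (nat_lit 413280473) (nat_lit 1824) (nat_lit 10394276831) (nat_lit 531) (nat_lit 5) (nat_lit 530) (nat_lit 5) (nat_lit 554) (nat_lit 5) (nat_lit 438) (nat_lit 419) (nat_lit 283)) (XT.lf (nat_lit 0) (nat_lit 1958011771) (nat_lit 1748) (nat_lit 4819806944) (nat_lit 1824) (nat_lit 4395870188) (nat_lit 531) (nat_lit 5) (nat_lit 554) (nat_lit 5) (nat_lit 555) (nat_lit 5) (nat_lit 439) (nat_lit 419) (nat_lit 282))) (XT.nd (nat_lit 78) (nat_lit 0) (nat_lit 76) (XT.lf (nat_lit 76) (nat_lit 1289611931) (nat_lit 0) (nat_lit 1974020435) (nat_lit 1824) (nat_lit 8017991241) (nat_lit 532) (nat_lit 5) (nat_lit 531) (nat_lit 5) (nat_lit 555) (nat_lit 5) (nat_lit 440) (nat_lit 419) (nat_lit 281)) (XT.lf (nat_lit 0) (nat_lit 4631656887) (nat_lit 1748) (nat_lit 3836236118) (nat_lit 1824) (nat_lit 2923098170) (nat_lit 532) (nat_lit 5) (nat_lit 555) (nat_lit 5) (nat_lit 556) (nat_lit 5) (nat_lit 441)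 (nat_lit 419) (nat_lit 280)))) (XT.nd (nat_lit 156) (nat_lit 1672) (nat_lit 0) (XT.nd (nat_lit 78) (nat_lit 0) (nat_lit 76) (XT.lf (nat_lit 76) (nat_lit 2449443987) (nat_lit 0) (nat_lit 3591610869) (nat_lit 1824) (nat_lit 5461210979) (nat_lit 533) (nat_lit 5) (nat_lit 532) (nat_lit 5) (nat_lit 556) (nat_lit 5) (nat_lit 442) (nat_lit 419) (nat_lit 279)) (XT.lf (nat_lit 0) (nat_lit 7498796107) (nat_lit 1748) (nat_lit 2724050716) (nat_lit 76) (nat_lit 1392516059) (nat_lit 533) (nat_lit 5) (nat_lit 556) (nat_lit 5) (nat_lit 534) (nat_lit 5) (nat_lit 443) (nat_lit 419) (nat_lit 278))) (XT.nd (nat_lit 78) (nat_lit 0) (nat_lit 0) (XT.lf (nat_lit 0) (nat_lit 3744369541) (nat_lit 1748) (nat_lit 5274975479) (nat_lit 1824) (nat_lit 2710703794) (nat_lit 510) (nat_lit 5) (nat_lit 533) (nat_lit 5) (nat_lit 534) (nat_lit 5) (nat_lit 444) (nat_lit 419) (nat_lit 277)) (XT.lf (nat_lit 0) (nat_lit 10366915139) (nat_lit 1748) (nat_lit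 207430194) (nat_lit 1824) (nat_lit 1272602322) (nat_lit 510) (nat_lit 5) (nat_lit 533) (nat_lit 5) (nat_lit 534) (nat_lit 5) (nat_lit 445) (nat_lit 419) (nat_lit 276))))))))
noncomputable def xc70 : XT := (XT.nd (nat_lit 59982) (nat_lit 0) (nat_lit 0) (XT.nd (nat_lit 1248) (nat_lit 1444) (nat_lit 0) (XT.nd (nat_lit 624) (nat_lit 1444) (nat_lit 0) (XT.nd (nat_lit 312) (nat_lit 0) (nat_lit 76) (XT.nd (nat_lit 156) (nat_lit 0) (nat_lit 0) (XT.nd (nat_lit 78) (nat_lit 0) (nat_lit 0) (XT.lf (nat_lit 0) (nat_lit 818147077) (nat_lit 0) (nat_lit 818147077) (nat_lit 1596) (nat_lit 3117551564) (nat_lit 568) (nat_lit 5) (nat_lit 568) (nat_lit 3) (nat_lit 589) (nat_lit 3) (nat_lit 420) (nat_lit 420) (nat_lit 300)) (XT.lf (nat_lit 0) (nat_lit 4120792642) (nat_lit 1596) (nat_lit 3127634697) (nat_lit 1672) (nat_lit 2338031442) (nat_lit 568) (nat_lit 5) (nat_lit 589) (nat_lit 3) (nat_lit 590) (nat_lit 5) (nat_lit 421) (nat_lit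 420) (nat_lit 299))) (XT.nd (nat_lit 78) (nat_lit 0) (nat_lit 76) (XT.lf (nat_lit 76) (nat_lit 1711633863) (nat_lit 0) (nat_lit 3275357955) (nat_lit 1672) (nat_lit 4679789041) (nat_lit 569) (nat_lit 5) (nat_lit 568) (nat_lit 5) (nat_lit 590) (nat_lit 5) (nat_lit 422) (nat_lit 420) (nat_lit 298)) (XT.lf (nat_lit 0) (nat_lit 5876171402) (nat_lit 1596) (nat_lit 3074774232) (nat_lit 1672) (nat_lit 797650615) (nat_lit 569) (nat_lit 5) (nat_lit 590) (nat_lit 5) (nat_lit 591) (nat_lit 5) (nat_lit 423) (nat_lit 420) (nat_lit 297)))) (XT.nd (nat_lit 156) (nat_lit 0) (nat_lit 76) (XT.nd (nat_lit 78) (nat_lit 0) (nat_lit 0) (XT.lf (nat_lit 76) (nat_lit 1895210702) (nat_lit 0) (nat_lit 4901805674) (nat_lit 1672) (nat_lit 3034753935) (nat_lit 570) (nat_lit 5) (nat_lit 569) (nat_lit 5) (nat_lit 591) (nat_lit 5) (nat_lit 424) (nat_lit 420) (nat_lit 296)) (XT.lf (nat_lit 76) (nat_lit 6995187929) (nat_lit 0) (nat_lit 741931808)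 (nat_lit 1672) (nat_lit 2179471287) (nat_lit 570) (nat_lit 5) (nat_lit 569) (nat_lit 5) (nat_lit 591) (nat_lit 5) (nat_lit 425) (nat_lit 420) (nat_lit 295))) (XT.nd (nat_lit 78) (nat_lit 0) (nat_lit 0) (XT.lf (nat_lit 76) (nat_lit 2188717371) (nat_lit 0) (nat_lit 6524901743) (nat_lit 1672) (nat_lit 1289137160) (nat_lit 571) (nat_lit 5) (nat_lit 570) (nat_lit 5) (nat_lit 592) (nat_lit 5) (nat_lit 426) (nat_lit 420) (nat_lit 294)) (XT.lf (nat_lit 76) (nat_lit 7424423430) (nat_lit 0) (nat_lit 2290668364) (nat_lit 1672) (nat_lit 375444167) (nat_lit 571) (nat_lit 5) (nat_lit 570) (nat_lit 5) (nat_lit 592) (nat_lit 5) (nat_lit 427) (nat_lit 420) (nat_lit 293))))) (XT.nd (nat_lit 312) (nat_lit 0) (nat_lit 76) (XT.nd (nat_lit 156) (nat_lit 0) (nat_lit 76) (XT.nd (nat_lit 78) (nat_lit 0) (nat_lit 0) (XT.lf (nat_lit 0) (nat_lit 560692235) (nat_lit 1672) (nat_lit 7589346444) (nat_lit 1748) (nat_lit 2029730927) (nat_lit 549)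 (nat_lit 5) (nat_lit 571) (nat_lit 5) (nat_lit 572) (nat_lit 5) (nat_lit 428) (nat_lit 420) (nat_lit 292)) (XT.lf (nat_lit 0) (nat_lit 1525259345) (nat_lit 1672) (nat_lit 2311586576) (nat_lit 1748) (nat_lit 6433597668) (nat_lit 549) (nat_lit 5) (nat_lit 571) (nat_lit 5) (nat_lit 572) (nat_lit 5) (nat_lit 429) (nat_lit 420) (nat_lit 291))) (XT.nd (nat_lit 78) (nat_lit 0) (nat_lit 0) (XT.lf (nat_lit 0) (nat_lit 2514994082) (nat_lit 1672) (nat_lit 7265704333) (nat_lit 1748) (nat_lit 582115110) (nat_lit 550) (nat_lit 5) (nat_lit 572) (nat_lit 5) (nat_lit 573) (nat_lit 5) (nat_lit 430) (nat_lit 420) (nat_lit 290)) (XT.lf (nat_lit 0) (nat_lit 3547783928) (nat_lit 1672) (nat_lit 1848626673) (nat_lit 1748) (nat_lit 5060155050) (nat_lit 550) (nat_lit 5) (nat_lit 572) (nat_lit 5) (nat_lit 573) (nat_lit 5) (nat_lit 431) (nat_lit 420) (nat_lit 289)))) (XT.nd (nat_lit 156) (nat_lit 0) (nat_lit 76) (XT.nd (nat_lit 78) (nat_lit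 0) (nat_lit 76) (XT.lf (nat_lit 76) (nat_lit 3714025405) (nat_lit 0) (nat_lit 893902540) (nat_lit 1748) (nat_lit 5944130907) (nat_lit 551) (nat_lit 5) (nat_lit 550) (nat_lit 5) (nat_lit 573) (nat_lit 5) (nat_lit 432) (nat_lit 420) (nat_lit 288)) (XT.lf (nat_lit 0) (nat_lit 5708665602) (nat_lit 1672) (nat_lit 1272102954) (nat_lit 1748) (nat_lit 3668305545) (nat_lit 551) (nat_lit 5) (nat_lit 573) (nat_lit 5) (nat_lit 574) (nat_lit 5) (nat_lit 433) (nat_lit 420) (nat_lit 287))) (XT.nd (nat_lit 78) (nat_lit 0) (nat_lit 76) (XT.lf (nat_lit 76) (nat_lit 4445985170) (nat_lit 0) (nat_lit 2403443737) (nat_lit 1748) (nat_lit 3898240531) (nat_lit 552) (nat_lit 5) (nat_lit 551) (nat_lit 5) (nat_lit 574) (nat_lit 5) (nat_lit 434) (nat_lit 420) (nat_lit 286)) (XT.lf (nat_lit 0) (nat_lit 8019821063) (nat_lit 1672) (nat_lit 578990569) (nat_lit 1748) (nat_lit 2249288779) (nat_lit 552) (nat_lit 5) (nat_lit 574) (nat_lit 5) (nat_lit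 575) (nat_lit 5) (nat_lit 435) (nat_lit 420) (nat_lit 285)))))) (XT.nd (nat_lit 624) (nat_lit 0) (nat_lit 228) (XT.nd (nat_lit 312) (nat_lit 0) (nat_lit 76) (XT.nd (nat_lit 156) (nat_lit 1672) (nat_lit 0) (XT.nd (nat_lit 78) (nat_lit 0) (nat_lit 76) (XT.lf (nat_lit 76) (nat_lit 5300146480) (nat_lit 0) (nat_lit 3947638699) (nat_lit 1748) (nat_lit 1702071540) (nat_lit 553) (nat_lit 5) (nat_lit 552) (nat_lit 5) (nat_lit 575) (nat_lit 5) (nat_lit 436) (nat_lit 420) (nat_lit 284)) (XT.lf (nat_lit 76) (nat_lit 237180674) (nat_lit 0) (nat_lit 10257856510) (nat_lit 1748) (nat_lit 558716399) (nat_lit 554) (nat_lit 5) (nat_lit 553) (nat_lit 5) (nat_lit 576) (nat_lit 5) (nat_lit 437) (nat_lit 420) (nat_lit 283))) (XT.nd (nat_lit 78) (nat_lit 0) (nat_lit 0) (XT.lf (nat_lit 0) (nat_lit 648082375) (nat_lit 1748) (nat_lit 4882924144) (nat_lit 1824) (nat_lit 5627672097) (nat_lit 530) (nat_lit 5) (nat_lit 553) (nat_lit 5) (nat_lit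 554) (nat_lit 5) (nat_lit 438) (nat_lit 420) (nat_lit 282)) (XT.lf (nat_lit 76) (nat_lit 1169259979) (nat_lit 0) (nat_lit 694420785) (nat_lit 1824) (nat_lit 9402104625) (nat_lit 531) (nat_lit 5) (nat_lit 530) (nat_lit 5) (nat_lit 554) (nat_lit 5) (nat_lit 439) (nat_lit 420) (nat_lit 281)))) (XT.nd (nat_lit 156) (nat_lit 0) (nat_lit 76) (XT.nd (nat_lit 78) (nat_lit 0) (nat_lit 0) (XT.lf (nat_lit 0) (nat_lit 3148893099) (nat_lit 1748) (nat_lit 4005463158) (nat_lit 1824) (nat_lit 4219772001) (nat_lit 531) (nat_lit 5) (nat_lit 554) (nat_lit 5) (nat_lit 555) (nat_lit 5) (nat_lit 440) (nat_lit 420) (nat_lit 280)) (XT.lf (nat_lit 76) (nat_lit 2220152384) (nat_lit 0) (nat_lit 2243765182) (nat_lit 1824) (nat_lit 7020638262) (nat_lit 532) (nat_lit 5) (nat_lit 531) (nat_lit 5) (nat_lit 555) (nat_lit 5) (nat_lit 441) (nat_lit 420) (nat_lit 279))) (XT.nd (nat_lit 78) (nat_lit 0) (nat_lit 0) (XT.lf (nat_lit 0) (nat_lit 5835581714)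 (nat_lit 1748) (nat_lit 3002231924) (nat_lit 1824) (nat_lit 2758771527) (nat_lit 532) (nat_lit 5) (nat_lit 555) (nat_lit 5) (nat_lit 556) (nat_lit 5) (nat_lit 442) (nat_lit 420) (nat_lit 278)) (XT.lf (nat_lit 76) (nat_lit 3403170145) (nat_lit 0) (nat_lit 3854081619) (nat_lit 1824) (nat_lit 4453151871) (nat_lit 533) (nat_lit 5) (nat_lit 532) (nat_lit 5) (nat_lit 556) (nat_lit 5) (nat_lit 443) (nat_lit 420) (nat_lit 277))))) (XT.nd (nat_lit 57798) (nat_lit 0) (nat_lit 1140) (XT.nd (nat_lit 57642) (nat_lit 0) (nat_lit 2660) (XT.nd (nat_lit 57564) (nat_lit 0) (nat_lit 2660) (XT.lf (nat_lit 0) (nat_lit 8721456400) (nat_lit 1748) (nat_lit 1868842960) (nat_lit 76) (nat_lit 1235917093) (nat_lit 533) (nat_lit 5) (nat_lit 556) (nat_lit 5) (nat_lit 534) (nat_lit 5) (nat_lit 444) (nat_lit 420) (nat_lit 276)) (XT.lf (nat_lit 0) (nat_lit 1231960972) (nat_lit 0) (nat_lit 1231960972) (nat_lit 1596) (nat_lit 2369102650) (nat_lit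 568) (nat_lit 5) (nat_lit 568) (nat_lit 3) (nat_lit 589) (nat_lit 3) (nat_lit 421) (nat_lit 421) (nat_lit 298))) (XT.nd (nat_lit 78) (nat_lit 0) (nat_lit 0) (XT.lf (nat_lit 0) (nat_lit 5756779853) (nat_lit 1596) (nat_lit 2374639337) (nat_lit 1672) (nat_lit 1615697340) (nat_lit 568) (nat_lit 5) (nat_lit 589) (nat_lit 3) (nat_lit 590) (nat_lit 5) (nat_lit 422) (nat_lit 421) (nat_lit 297)) (XT.lf (nat_lit 76) (nat_lit 2556049146) (nat_lit 0) (nat_lit 4059051925) (nat_lit 1672) (nat_lit 3214448017) (nat_lit 569) (nat_lit 5) (nat_lit 568) (nat_lit 5) (nat_lit 590) (nat_lit 5) (nat_lit 423) (nat_lit 421) (nat_lit 296)))) (XT.nd (nat_lit 156) (nat_lit 1596) (nat_lit 0) (XT.nd (nat_lit 78) (nat_lit 0) (nat_lit 0) (XT.lf (nat_lit 0) (nat_lit 7487524705) (nat_lit 1596) (nat_lit 2307433502) (nat_lit 1672) (nat_lit 118733370) (nat_lit 569) (nat_lit 5) (nat_lit 590) (nat_lit 5) (nat_lit 591) (nat_lit 5) (nat_lit 424) (nat_lit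 421) (nat_lit 295)) (XT.lf (nat_lit 76) (nat_lit 2756498261) (nat_lit 0) (nat_lit 5646343486) (nat_lit 1672) (nat_lit 1596166270) (nat_lit 570) (nat_lit 5) (nat_lit 569) (nat_lit 5) (nat_lit 591) (nat_lit 5) (nat_lit 425) (nat_lit 421) (nat_lit 294))) (XT.nd (nat_lit 78) (nat_lit 1596) (nat_lit 0) (XT.lf (nat_lit 76) (nat_lit 7942330261) (nat_lit 0) (nat_lit 1390595639) (nat_lit 1672) (nat_lit 753175670) (nat_lit 570) (nat_lit 5) (nat_lit 569) (nat_lit 5) (nat_lit 591) (nat_lit 5) (nat_lit 426) (nat_lit 421) (nat_lit 293)) (XT.lf (nat_lit 0) (nat_lit 125883196) (nat_lit 1672) (nat_lit 7108216422) (nat_lit 1748) (nat_lit 2940411374) (nat_lit 548) (nat_lit 5) (nat_lit 570) (nat_lit 5) (nat_lit 571) (nat_lit 5) (nat_lit 427) (nat_lit 421) (nat_lit 292))))))) (XT.nd (nat_lit 58890) (nat_lit 0) (nat_lit 1292) (XT.nd (nat_lit 624) (nat_lit 1368) (nat_lit 0) (XT.nd (nat_lit 312) (nat_lit 0) (nat_lit 152) (XT.nd (nat_lit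 156) (nat_lit 0) (nat_lit 76) (XT.nd (nat_lit 78) (nat_lit 0) (nat_lit 76) (XT.lf (nat_lit 0) (nat_lit 1017714240) (nat_lit 1672) (nat_lit 1880119056) (nat_lit 1748) (nat_lit 7366650215) (nat_lit 548) (nat_lit 5) (nat_lit 570) (nat_lit 5) (nat_lit 571) (nat_lit 5) (nat_lit 428) (nat_lit 421) (nat_lit 291)) (XT.lf (nat_lit 0) (nat_lit 1942061481) (nat_lit 1672) (nat_lit 6878814640) (nat_lit 1748) (nat_lit 1535085769) (nat_lit 549) (nat_lit 5) (nat_lit 571) (nat_lit 5) (nat_lit 572) (nat_lit 5) (nat_lit 429) (nat_lit 421) (nat_lit 290))) (XT.nd (nat_lit 78) (nat_lit 0) (nat_lit 76) (XT.lf (nat_lit 0) (nat_lit 2899054141) (nat_lit 1672) (nat_lit 1512407785) (nat_lit 1748) (nat_lit 6037524742) (nat_lit 549) (nat_lit 5) (nat_lit 571) (nat_lit 5) (nat_lit 572) (nat_lit 5) (nat_lit 430) (nat_lit 421) (nat_lit 289)) (XT.lf (nat_lit 0) (nat_lit 3884564349) (nat_lit 1672) (nat_lit 6541588673) (nat_lit 1748) (nat_lit 117531365)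 (nat_lit 550) (nat_lit 5) (nat_lit 572) (nat_lit 5) (nat_lit 573) (nat_lit 5) (nat_lit 431) (nat_lit 421) (nat_lit 288)))) (XT.nd (nat_lit 156) (nat_lit 0) (nat_lit 76) (XT.nd (nat_lit 78) (nat_lit 0) (nat_lit 0) (XT.lf (nat_lit 0) (nat_lit 4912141945) (nat_lit 1672) (nat_lit 1033217102) (nat_lit 1748) (nat_lit 4694469870) (nat_lit 550) (nat_lit 5) (nat_lit 572) (nat_lit 5) (nat_lit 573) (nat_lit 5) (nat_lit 432) (nat_lit 421) (nat_lit 287)) (XT.lf (nat_lit 76) (nat_lit 4635080240) (nat_lit 0) (nat_lit 1338545593) (nat_lit 1748) (nat_lit 4764003409) (nat_lit 551) (nat_lit 5) (nat_lit 550) (nat_lit 5) (nat_lit 573) (nat_lit 5) (nat_lit 433) (nat_lit 421) (nat_lit 286))) (XT.nd (nat_lit 78) (nat_lit 0) (nat_lit 0) (XT.lf (nat_lit 0) (nat_lit 7068690373) (nat_lit 1672) (nat_lit 439686234) (nat_lit 1748) (nat_lit 3328761948) (nat_lit 551) (nat_lit 5) (nat_lit 573) (nat_lit 5) (nat_lit 574) (nat_lit 5) (nat_lit 434)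 (nat_lit 421) (nat_lit 285)) (XT.lf (nat_lit 76) (nat_lit 5387119846) (nat_lit 0) (nat_lit 2826253783) (nat_lit 1748) (nat_lit 2724710076) (nat_lit 552) (nat_lit 5) (nat_lit 551) (nat_lit 5) (nat_lit 574) (nat_lit 5) (nat_lit 435) (nat_lit 421) (nat_lit 284))))) (XT.nd (nat_lit 312) (nat_lit 0) (nat_lit 0) (XT.nd (nat_lit 156) (nat_lit 1672) (nat_lit 0) (XT.nd (nat_lit 78) (nat_lit 0) (nat_lit 0) (XT.lf (nat_lit 76) (nat_lit 274984286) (nat_lit 0) (nat_lit 9107531396) (nat_lit 1748) (nat_lit 1658500773) (nat_lit 553) (nat_lit 5) (nat_lit 552) (nat_lit 5) (nat_lit 575) (nat_lit 5) (nat_lit 436) (nat_lit 421) (nat_lit 283)) (XT.lf (nat_lit 76) (nat_lit 6262426897) (nat_lit 0) (nat_lit 4352846859) (nat_lit 1748) (nat_lit 529929441) (nat_lit 553) (nat_lit 5) (nat_lit 552) (nat_lit 5) (nat_lit 575) (nat_lit 5) (nat_lit 437) (nat_lit 421) (nat_lit 282))) (XT.nd (nat_lit 78) (nat_lit 0) (nat_lit 0) (XT.lf (nat_lit 0)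 (nat_lit 608243578) (nat_lit 1748) (nat_lit 10137403329) (nat_lit 1824) (nat_lit 505842548) (nat_lit 530) (nat_lit 5) (nat_lit 553) (nat_lit 5) (nat_lit 554) (nat_lit 5) (nat_lit 438) (nat_lit 421) (nat_lit 281)) (XT.lf (nat_lit 0) (nat_lit 1808749991) (nat_lit 1748) (nat_lit 4106267989) (nat_lit 1824) (nat_lit 5443880089) (nat_lit 530) (nat_lit 5) (nat_lit 553) (nat_lit 5) (nat_lit 554) (nat_lit 5) (nat_lit 439) (nat_lit 421) (nat_lit 280)))) (XT.nd (nat_lit 156) (nat_lit 0) (nat_lit 76) (XT.nd (nat_lit 78) (nat_lit 0) (nat_lit 76) (XT.lf (nat_lit 76) (nat_lit 2061207746) (nat_lit 0) (nat_lit 970587847) (nat_lit 1824) (nat_lit 8436688680) (nat_lit 531) (nat_lit 5) (nat_lit 530) (nat_lit 5) (nat_lit 554) (nat_lit 5) (nat_lit 440) (nat_lit 421) (nat_lit 279)) (XT.lf (nat_lit 0) (nat_lit 4318869320) (nat_lit 1748) (nat_lit 3210197638) (nat_lit 1824) (nat_lit 4050403898) (nat_lit 531) (nat_lit 5) (nat_lit 554) (nat_lit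 5) (nat_lit 555) (nat_lit 5) (nat_lit 441) (nat_lit 421) (nat_lit 278))) (XT.nd (nat_lit 78) (nat_lit 0) (nat_lit 76) (XT.lf (nat_lit 76) (nat_lit 3134171170) (nat_lit 0) (nat_lit 2509963378) (nat_lit 1824) (nat_lit 6048293624) (nat_lit 532) (nat_lit 5) (nat_lit 531) (nat_lit 5) (nat_lit 555) (nat_lit 5) (nat_lit 442) (nat_lit 421) (nat_lit 277)) (XT.lf (nat_lit 0) (nat_lit 7020432227) (nat_lit 1748) (nat_lit 2186912360) (nat_lit 1824) (nat_lit 2599809503) (nat_lit 532) (nat_lit 5) (nat_lit 555) (nat_lit 5) (nat_lit 556) (nat_lit 5) (nat_lit 443) (nat_lit 421) (nat_lit 276)))))) (XT.nd (nat_lit 624) (nat_lit 0) (nat_lit 152) (XT.nd (nat_lit 312) (nat_lit 1596) (nat_lit 0) (XT.nd (nat_lit 156) (nat_lit 0) (nat_lit 0) (XT.nd (nat_lit 78) (nat_lit 0) (nat_lit 0) (XT.lf (nat_lit 0) (nat_lit 1638617640) (nat_lit 0) (nat_lit 1638617640) (nat_lit 1596) (nat_lit 1637169107) (nat_lit 568) (nat_lit 5) (nat_lit 568) (nat_lit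 3) (nat_lit 589) (nat_lit 3) (nat_lit 422) (nat_lit 422) (nat_lit 296)) (XT.lf (nat_lit 0) (nat_lit 7365159738) (nat_lit 1596) (nat_lit 1638252796) (nat_lit 1672) (nat_lit 908781441) (nat_lit 568) (nat_lit 5) (nat_lit 589) (nat_lit 3) (nat_lit 590) (nat_lit 5) (nat_lit 423) (nat_lit 422) (nat_lit 295))) (XT.nd (nat_lit 78) (nat_lit 0) (nat_lit 0) (XT.lf (nat_lit 76) (nat_lit 3385892356) (nat_lit 0) (nat_lit 4830531706) (nat_lit 1672) (nat_lit 1780335588) (nat_lit 569) (nat_lit 5) (nat_lit 568) (nat_lit 5) (nat_lit 590) (nat_lit 5) (nat_lit 424) (nat_lit 422) (nat_lit 294)) (XT.lf (nat_lit 76) (nat_lit 8522649100) (nat_lit 0) (nat_lit 554045972) (nat_lit 1672) (nat_lit 1006481938) (nat_lit 569) (nat_lit 5) (nat_lit 568) (nat_lit 5) (nat_lit 590) (nat_lit 5) (nat_lit 425) (nat_lit 422) (nat_lit 293)))) (XT.nd (nat_lit 156) (nat_lit 0) (nat_lit 76) (XT.nd (nat_lit 78) (nat_lit 1672) (nat_lit 0) (XT.lf (nat_lit 76)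 (nat_lit 3603038592) (nat_lit 0) (nat_lit 6380667605) (nat_lit 1672) (nat_lit 187025827) (nat_lit 570) (nat_lit 5) (nat_lit 569) (nat_lit 5) (nat_lit 591) (nat_lit 5) (nat_lit 426) (nat_lit 422) (nat_lit 292)) (XT.lf (nat_lit 0) (nat_lit 636114801) (nat_lit 1672) (nat_lit 1387237075) (nat_lit 1748) (nat_lit 8236685916) (nat_lit 547) (nat_lit 5) (nat_lit 569) (nat_lit 5) (nat_lit 570) (nat_lit 5) (nat_lit 427) (nat_lit 422) (nat_lit 291))) (XT.nd (nat_lit 78) (nat_lit 0) (nat_lit 0) (XT.lf (nat_lit 0) (nat_lit 1496680070) (nat_lit 1672) (nat_lit 6429959828) (nat_lit 1748) (nat_lit 2423995730) (nat_lit 548) (nat_lit 5) (nat_lit 570) (nat_lit 5) (nat_lit 571) (nat_lit 5) (nat_lit 428) (nat_lit 422) (nat_lit 290)) (XT.lf (nat_lit 0) (nat_lit 2379518731) (nat_lit 1672) (nat_lit 1113387200) (nat_lit 1748) (nat_lit 6950038248) (nat_lit 548) (nat_lit 5) (nat_lit 570) (nat_lit 5) (nat_lit 571) (nat_lit 5) (nat_lit 429)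 (nat_lit 422) (nat_lit 289))))) (XT.nd (nat_lit 312) (nat_lit 0) (nat_lit 76) (XT.nd (nat_lit 156) (nat_lit 0) (nat_lit 0) (XT.nd (nat_lit 78) (nat_lit 0) (nat_lit 0) (XT.lf (nat_lit 0) (nat_lit 3297853308) (nat_lit 1672) (nat_lit 6187557088) (nat_lit 1748) (nat_lit 1051331721) (nat_lit 549) (nat_lit 5) (nat_lit 571) (nat_lit 5) (nat_lit 572) (nat_lit 5) (nat_lit 430) (nat_lit 422) (nat_lit 288)) (XT.lf (nat_lit 0) (nat_lit 4248163260) (nat_lit 1672) (nat_lit 730073739) (nat_lit 1748) (nat_lit 5653906842) (nat_lit 549) (nat_lit 5) (nat_lit 571) (nat_lit 5) (nat_lit 572) (nat_lit 5) (nat_lit 431) (nat_lit 422) (nat_lit 287))) (XT.nd (nat_lit 78) (nat_lit 0) (nat_lit 76) (XT.lf (nat_lit 76) (nat_lit 4890178366) (nat_lit 0) (nat_lit 342341486) (nat_lit 1748) (nat_lit 5496632939) (nat_lit 550) (nat_lit 5) (nat_lit 549) (nat_lit 5) (nat_lit 572) (nat_lit 5) (nat_lit 432) (nat_lit 422) (nat_lit 286)) (XT.lf (nat_lit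 0) (nat_lit 6253562733) (nat_lit 1672) (nat_lit 234598376) (nat_lit 1748) (nat_lit 4339600827) (nat_lit 550) (nat_lit 5) (nat_lit 572) (nat_lit 5) (nat_lit 573) (nat_lit 5) (nat_lit 433) (nat_lit 422) (nat_lit 285)))) (XT.nd (nat_lit 156) (nat_lit 0) (nat_lit 76) (XT.nd (nat_lit 78) (nat_lit 0) (nat_lit 76) (XT.lf (nat_lit 76) (nat_lit 5541674893) (nat_lit 0) (nat_lit 1775509701) (nat_lit 1748) (nat_lit 3610715508) (nat_lit 551) (nat_lit 5) (nat_lit 550) (nat_lit 5) (nat_lit 573) (nat_lit 5) (nat_lit 434) (nat_lit 422) (nat_lit 284)) (XT.lf (nat_lit 76) (nat_lit 381064853) (nat_lit 0) (nat_lit 8028946980) (nat_lit 1748) (nat_lit 2619870539) (nat_lit 552) (nat_lit 5) (nat_lit 551) (nat_lit 5) (nat_lit 574) (nat_lit 5) (nat_lit 435) (nat_lit 422) (nat_lit 283))) (XT.nd (nat_lit 78) (nat_lit 0) (nat_lit 76) (XT.lf (nat_lit 76) (nat_lit 6313984669) (nat_lit 0) (nat_lit 3242968374) (nat_lit 1748) (nat_lit 1576306098)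 (nat_lit 552) (nat_lit 5) (nat_lit 551) (nat_lit 5) (nat_lit 574) (nat_lit 5) (nat_lit 436) (nat_lit 422) (nat_lit 282)) (XT.lf (nat_lit 76) (nat_lit 1119971704) (nat_lit 0) (nat_lit 9609540245) (nat_lit 1748) (nat_lit 509137915) (nat_lit 553) (nat_lit 5) (nat_lit 552) (nat_lit 5) (nat_lit 575) (nat_lit 5) (nat_lit 437) (nat_lit 422) (nat_lit 281))))))))
noncomputable def xc71 : XT := (XT.nd (nat_lit 118092) (nat_lit 76) (nat_lit 0) (XT.nd (nat_lit 58968) (nat_lit 0) (nat_lit 0) (XT.nd (nat_lit 58344) (nat_lit 0) (nat_lit 1292) (XT.nd (nat_lit 312) (nat_lit 0) (nat_lit 152) (XT.nd (nat_lit 156) (nat_lit 0) (nat_lit 76) (XT.nd (nat_lit 78) (nat_lit 0) (nat_lit 76) (XT.lf (nat_lit 0) (nat_lit 610702015) (nat_lit 1748) (nat_lit 4138690140) (nat_lit 1824) (nat_lit 6595902476) (nat_lit 529) (nat_lit 5) (nat_lit 552) (nat_lit 5) (nat_lit 553) (nat_lit 5) (nat_lit 438) (nat_lit 422) (nat_lit 280)) (XT.lf (nat_lit 0) (nat_lit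 1745610379) (nat_lit 1748) (nat_lit 9482980182) (nat_lit 1824) (nat_lit 225424645) (nat_lit 530) (nat_lit 5) (nat_lit 553) (nat_lit 5) (nat_lit 554) (nat_lit 5) (nat_lit 439) (nat_lit 422) (nat_lit 279))) (XT.nd (nat_lit 78) (nat_lit 0) (nat_lit 0) (XT.lf (nat_lit 0) (nat_lit 2948064137) (nat_lit 1748) (nat_lit 3348029414) (nat_lit 1824) (nat_lit 5267919697) (nat_lit 530) (nat_lit 5) (nat_lit 553) (nat_lit 5) (nat_lit 554) (nat_lit 5) (nat_lit 440) (nat_lit 422) (nat_lit 278)) (XT.lf (nat_lit 76) (nat_lit 2937267126) (nat_lit 0) (nat_lit 1242093650) (nat_lit 1824) (nat_lit 7496754597) (nat_lit 531) (nat_lit 5) (nat_lit 530) (nat_lit 5) (nat_lit 554) (nat_lit 5) (nat_lit 441) (nat_lit 422) (nat_lit 277)))) (XT.nd (nat_lit 57876) (nat_lit 0) (nat_lit 2812) (XT.nd (nat_lit 78) (nat_lit 0) (nat_lit 0) (XT.lf (nat_lit 0) (nat_lit 5469258971) (nat_lit 1748) (nat_lit 2433018677) (nat_lit 1824) (nat_lit 3887502381) (nat_lit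 531) (nat_lit 5) (nat_lit 554) (nat_lit 5) (nat_lit 555) (nat_lit 5) (nat_lit 442) (nat_lit 422) (nat_lit 276)) (XT.lf (nat_lit 76) (nat_lit 4032702093) (nat_lit 0) (nat_lit 2772891300) (nat_lit 1824) (nat_lit 5099711819) (nat_lit 532) (nat_lit 5) (nat_lit 531) (nat_lit 5) (nat_lit 555) (nat_lit 5) (nat_lit 443) (nat_lit 422) (nat_lit 275))) (XT.nd (nat_lit 78) (nat_lit 0) (nat_lit 0) (XT.lf (nat_lit 0) (nat_lit 2038573239) (nat_lit 0) (nat_lit 2038573239) (nat_lit 1596) (nat_lit 920858668) (nat_lit 568) (nat_lit 5) (nat_lit 568) (nat_lit 3) (nat_lit 589) (nat_lit 3) (nat_lit 423) (nat_lit 423) (nat_lit 294)) (XT.lf (nat_lit 0) (nat_lit 8947722726) (nat_lit 1596) (nat_lit 917577513) (nat_lit 1672) (nat_lit 216432420) (nat_lit 568) (nat_lit 5) (nat_lit 589) (nat_lit 3) (nat_lit 590) (nat_lit 5) (nat_lit 424) (nat_lit 423) (nat_lit 293))))) (XT.nd (nat_lit 312) (nat_lit 0) (nat_lit 152) (XT.nd (nat_lit 156) (nat_lit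 0) (nat_lit 76) (XT.nd (nat_lit 78) (nat_lit 1672) (nat_lit 0) (XT.lf (nat_lit 76) (nat_lit 4202093698) (nat_lit 0) (nat_lit 5590635941) (nat_lit 1672) (nat_lit 375725662) (nat_lit 569) (nat_lit 5) (nat_lit 568) (nat_lit 5) (nat_lit 590) (nat_lit 5) (nat_lit 425) (nat_lit 423) (nat_lit 292)) (XT.lf (nat_lit 0) (nat_lit 380311379) (nat_lit 1672) (nat_lit 832747345) (nat_lit 1748) (nat_lit 9044045960) (nat_lit 546) (nat_lit 5) (nat_lit 568) (nat_lit 5) (nat_lit 569) (nat_lit 5) (nat_lit 426) (nat_lit 423) (nat_lit 291))) (XT.nd (nat_lit 78) (nat_lit 0) (nat_lit 0) (XT.lf (nat_lit 0) (nat_lit 1178675188) (nat_lit 1672) (nat_lit 5918963875) (nat_lit 1748) (nat_lit 3249193582) (nat_lit 547) (nat_lit 5) (nat_lit 569) (nat_lit 5) (nat_lit 570) (nat_lit 5) (nat_lit 427) (nat_lit 423) (nat_lit 290)) (XT.lf (nat_lit 0) (nat_lit 1988973957) (nat_lit 1672) (nat_lit 651408439) (nat_lit 1748) (nat_lit 7798053414) (nat_lit 547)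 (nat_lit 5) (nat_lit 569) (nat_lit 5) (nat_lit 570) (nat_lit 5) (nat_lit 428) (nat_lit 423) (nat_lit 289)))) (XT.nd (nat_lit 156) (nat_lit 0) (nat_lit 76) (XT.nd (nat_lit 78) (nat_lit 0) (nat_lit 0) (XT.lf (nat_lit 0) (nat_lit 2841760931) (nat_lit 1672) (nat_lit 5769996047) (nat_lit 1748) (nat_lit 1919588417) (nat_lit 548) (nat_lit 5) (nat_lit 570) (nat_lit 5) (nat_lit 571) (nat_lit 5) (nat_lit 429) (nat_lit 423) (nat_lit 288)) (XT.lf (nat_lit 0) (nat_lit 3716469164) (nat_lit 1672) (nat_lit 362553985) (nat_lit 1748) (nat_lit 6546992711) (nat_lit 548) (nat_lit 5) (nat_lit 570) (nat_lit 5) (nat_lit 571) (nat_lit 5) (nat_lit 430) (nat_lit 423) (nat_lit 287))) (XT.nd (nat_lit 78) (nat_lit 0) (nat_lit 0) (XT.lf (nat_lit 0) (nat_lit 4629622174) (nat_lit 1672) (nat_lit 5514659012) (nat_lit 1748) (nat_lit 577879537) (nat_lit 549) (nat_lit 5) (nat_lit 571) (nat_lit 5) (nat_lit 572) (nat_lit 5) (nat_lit 431) (nat_lit 423)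 (nat_lit 286)) (XT.lf (nat_lit 76) (nat_lit 36836547) (nat_lit 0) (nat_lit 5537521106) (nat_lit 1748) (nat_lit 5245604442) (nat_lit 550) (nat_lit 5) (nat_lit 549) (nat_lit 5) (nat_lit 572) (nat_lit 5) (nat_lit 432) (nat_lit 423) (nat_lit 285)))))) (XT.nd (nat_lit 624) (nat_lit 0) (nat_lit 76) (XT.nd (nat_lit 312) (nat_lit 1520) (nat_lit 0) (XT.nd (nat_lit 156) (nat_lit 0) (nat_lit 76) (XT.nd (nat_lit 78) (nat_lit 0) (nat_lit 76) (XT.lf (nat_lit 76) (nat_lit 5763872232) (nat_lit 0) (nat_lit 794994397) (nat_lit 1748) (nat_lit 4360435290) (nat_lit 550) (nat_lit 5) (nat_lit 549) (nat_lit 5) (nat_lit 572) (nat_lit 5) (nat_lit 433) (nat_lit 423) (nat_lit 284)) (XT.lf (nat_lit 76) (nat_lit 555463974) (nat_lit 0) (nat_lit 7021680289) (nat_lit 1748) (nat_lit 3443202707) (nat_lit 551) (nat_lit 5) (nat_lit 550) (nat_lit 5) (nat_lit 573) (nat_lit 5) (nat_lit 434) (nat_lit 423) (nat_lit 283))) (XT.nd (nat_lit 78) (nat_lit 0)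 (nat_lit 76) (XT.lf (nat_lit 76) (nat_lit 6434796980) (nat_lit 0) (nat_lit 2205284790) (nat_lit 1748) (nat_lit 2482845265) (nat_lit 551) (nat_lit 5) (nat_lit 550) (nat_lit 5) (nat_lit 573) (nat_lit 5) (nat_lit 435) (nat_lit 423) (nat_lit 282)) (XT.lf (nat_lit 76) (nat_lit 1191747352) (nat_lit 0) (nat_lit 8542652895) (nat_lit 1748) (nat_lit 1492956009) (nat_lit 552) (nat_lit 5) (nat_lit 551) (nat_lit 5) (nat_lit 574) (nat_lit 5) (nat_lit 436) (nat_lit 423) (nat_lit 281)))) (XT.nd (nat_lit 156) (nat_lit 0) (nat_lit 0) (XT.nd (nat_lit 78) (nat_lit 1672) (nat_lit 0) (XT.lf (nat_lit 76) (nat_lit 7227579266) (nat_lit 0) (nat_lit 3654030658) (nat_lit 1748) (nat_lit 451644043) (nat_lit 552) (nat_lit 5) (nat_lit 551) (nat_lit 5) (nat_lit 574) (nat_lit 5) (nat_lit 437) (nat_lit 423) (nat_lit 280)) (XT.lf (nat_lit 0) (nat_lit 609197097) (nat_lit 1748) (nat_lit 9495883657) (nat_lit 1824) (nat_lit 1335975409) (nat_lit 529)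 (nat_lit 5) (nat_lit 552) (nat_lit 5) (nat_lit 553) (nat_lit 5) (nat_lit 438) (nat_lit 423) (nat_lit 279))) (XT.nd (nat_lit 78) (nat_lit 0) (nat_lit 0) (XT.lf (nat_lit 0) (nat_lit 1722628592) (nat_lit 1748) (nat_lit 3415781303) (nat_lit 1824) (nat_lit 6411796379) (nat_lit 529) (nat_lit 5) (nat_lit 552) (nat_lit 5) (nat_lit 553) (nat_lit 5) (nat_lit 439) (nat_lit 423) (nat_lit 278)) (XT.lf (nat_lit 76) (nat_lit 2812380794) (nat_lit 0) (nat_lit 49975231) (nat_lit 1824) (nat_lit 8799102816) (nat_lit 530) (nat_lit 5) (nat_lit 529) (nat_lit 5) (nat_lit 553) (nat_lit 5) (nat_lit 440) (nat_lit 423) (nat_lit 277))))) (XT.nd (nat_lit 58188) (nat_lit 0) (nat_lit 1216) (XT.nd (nat_lit 58032) (nat_lit 0) (nat_lit 1140) (XT.nd (nat_lit 78) (nat_lit 0) (nat_lit 0) (XT.lf (nat_lit 0) (nat_lit 4067328328) (nat_lit 1748) (nat_lit 2607258423) (nat_lit 1824) (nat_lit 5099500703) (nat_lit 530) (nat_lit 5) (nat_lit 553) (nat_lit 5)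 (nat_lit 554) (nat_lit 5) (nat_lit 441) (nat_lit 423) (nat_lit 276)) (XT.lf (nat_lit 76) (nat_lit 3798430024) (nat_lit 0) (nat_lit 1509240450) (nat_lit 1824) (nat_lit 6581072757) (nat_lit 531) (nat_lit 5) (nat_lit 530) (nat_lit 5) (nat_lit 554) (nat_lit 5) (nat_lit 442) (nat_lit 423) (nat_lit 275))) (XT.nd (nat_lit 78) (nat_lit 1748) (nat_lit 0) (XT.lf (nat_lit 0) (nat_lit 2432269776) (nat_lit 0) (nat_lit 2432269776) (nat_lit 1596) (nat_lit 219308693) (nat_lit 568) (nat_lit 5) (nat_lit 568) (nat_lit 3) (nat_lit 589) (nat_lit 3) (nat_lit 424) (nat_lit 424) (nat_lit 292)) (XT.lf (nat_lit 0) (nat_lit 250203661) (nat_lit 1748) (nat_lit 216432420) (nat_lit 1748) (nat_lit 9789046960) (nat_lit 545) (nat_lit 3) (nat_lit 568) (nat_lit 3) (nat_lit 568) (nat_lit 5) (nat_lit 425) (nat_lit 424) (nat_lit 291)))) (XT.nd (nat_lit 156) (nat_lit 0) (nat_lit 76) (XT.nd (nat_lit 78) (nat_lit 0) (nat_lit 0) (XT.lf (nat_lit 0) (nat_lit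 987922128) (nat_lit 1672) (nat_lit 5345626389) (nat_lit 1748) (nat_lit 4011002934) (nat_lit 546) (nat_lit 5) (nat_lit 568) (nat_lit 5) (nat_lit 569) (nat_lit 5) (nat_lit 426) (nat_lit 424) (nat_lit 290)) (XT.lf (nat_lit 0) (nat_lit 1727266666) (nat_lit 1672) (nat_lit 126290334) (nat_lit 1748) (nat_lit 8581902796) (nat_lit 546) (nat_lit 5) (nat_lit 568) (nat_lit 5) (nat_lit 569) (nat_lit 5) (nat_lit 427) (nat_lit 424) (nat_lit 289))) (XT.nd (nat_lit 78) (nat_lit 0) (nat_lit 0) (XT.lf (nat_lit 0) (nat_lit 2516108359) (nat_lit 1672) (nat_lit 5288741802) (nat_lit 1748) (nat_lit 2722641943) (nat_lit 547) (nat_lit 5) (nat_lit 569) (nat_lit 5) (nat_lit 570) (nat_lit 5) (nat_lit 428) (nat_lit 424) (nat_lit 288)) (XT.lf (nat_lit 76) (nat_lit 70409720) (nat_lit 0) (nat_lit 3246898576) (nat_lit 1748) (nat_lit 7304125134) (nat_lit 548) (nat_lit 5) (nat_lit 547) (nat_lit 5) (nat_lit 570) (nat_lit 5) (nat_lit 429) (nat_lit 424)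 (nat_lit 287))))))) (XT.nd (nat_lit 59280) (nat_lit 0) (nat_lit 0) (XT.nd (nat_lit 624) (nat_lit 1520) (nat_lit 0) (XT.nd (nat_lit 312) (nat_lit 0) (nat_lit 76) (XT.nd (nat_lit 156) (nat_lit 0) (nat_lit 76) (XT.nd (nat_lit 78) (nat_lit 0) (nat_lit 0) (XT.lf (nat_lit 0) (nat_lit 4162674639) (nat_lit 1672) (nat_lit 5127453852) (nat_lit 1748) (nat_lit 1426562242) (nat_lit 548) (nat_lit 5) (nat_lit 570) (nat_lit 5) (nat_lit 571) (nat_lit 5) (nat_lit 430) (nat_lit 424) (nat_lit 286)) (XT.lf (nat_lit 76) (nat_lit 378236074) (nat_lit 0) (nat_lit 4654310869) (nat_lit 1748) (nat_lit 5781154267) (nat_lit 549) (nat_lit 5) (nat_lit 548) (nat_lit 5) (nat_lit 571) (nat_lit 5) (nat_lit 431) (nat_lit 424) (nat_lit 285))) (XT.nd (nat_lit 78) (nat_lit 0) (nat_lit 0) (XT.lf (nat_lit 0) (nat_lit 5938873403) (nat_lit 1672) (nat_lit 4859237835) (nat_lit 1748) (nat_lit 114159524) (nat_lit 549) (nat_lit 5) (nat_lit 571) (nat_lit 5) (nat_lit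 572) (nat_lit 5) (nat_lit 432) (nat_lit 424) (nat_lit 284)) (XT.lf (nat_lit 76) (nat_lit 798250041) (nat_lit 0) (nat_lit 6085336314) (nat_lit 1748) (nat_lit 4128820151) (nat_lit 550) (nat_lit 5) (nat_lit 549) (nat_lit 5) (nat_lit 572) (nat_lit 5) (nat_lit 433) (nat_lit 424) (nat_lit 283)))) (XT.nd (nat_lit 156) (nat_lit 0) (nat_lit 76) (XT.nd (nat_lit 78) (nat_lit 0) (nat_lit 76) (XT.lf (nat_lit 76) (nat_lit 6624911208) (nat_lit 0) (nat_lit 1239389173) (nat_lit 1748) (nat_lit 3249902447) (nat_lit 550) (nat_lit 5) (nat_lit 549) (nat_lit 5) (nat_lit 572) (nat_lit 5) (nat_lit 434) (nat_lit 424) (nat_lit 282)) (XT.lf (nat_lit 76) (nat_lit 1333522850) (nat_lit 0) (nat_lit 7548648105) (nat_lit 1748) (nat_lit 2335513277) (nat_lit 551) (nat_lit 5) (nat_lit 550) (nat_lit 5) (nat_lit 573) (nat_lit 5) (nat_lit 435) (nat_lit 424) (nat_lit 281))) (XT.nd (nat_lit 78) (nat_lit 0) (nat_lit 76) (XT.lf (nat_lit 76) (nat_lit 7315404289)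 (nat_lit 0) (nat_lit 2628345594) (nat_lit 1748) (nat_lit 1379018362) (nat_lit 551) (nat_lit 5) (nat_lit 550) (nat_lit 5) (nat_lit 573) (nat_lit 5) (nat_lit 436) (nat_lit 424) (nat_lit 280)) (XT.lf (nat_lit 76) (nat_lit 1987459655) (nat_lit 0) (nat_lit 9052920578) (nat_lit 1748) (nat_lit 389297309) (nat_lit 552) (nat_lit 5) (nat_lit 551) (nat_lit 5) (nat_lit 574) (nat_lit 5) (nat_lit 437) (nat_lit 424) (nat_lit 279))))) (XT.nd (nat_lit 58344) (nat_lit 0) (nat_lit 1292) (XT.nd (nat_lit 156) (nat_lit 0) (nat_lit 76) (XT.nd (nat_lit 78) (nat_lit 0) (nat_lit 76) (XT.lf (nat_lit 0) (nat_lit 642082123) (nat_lit 1748) (nat_lit 3413479874) (nat_lit 1824) (nat_lit 7482482525) (nat_lit 528) (nat_lit 5) (nat_lit 551) (nat_lit 5) (nat_lit 552) (nat_lit 5) (nat_lit 438) (nat_lit 424) (nat_lit 278)) (XT.lf (nat_lit 0) (nat_lit 1699530585) (nat_lit 1748) (nat_lit 8895916388) (nat_lit 1824) (nat_lit 1052867322) (nat_lit 529) (nat_lit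 5) (nat_lit 552) (nat_lit 5) (nat_lit 553) (nat_lit 5) (nat_lit 439) (nat_lit 424) (nat_lit 277))) (XT.nd (nat_lit 78) (nat_lit 0) (nat_lit 0) (XT.lf (nat_lit 0) (nat_lit 2814090522) (nat_lit 1748) (nat_lit 2709699927) (nat_lit 1824) (nat_lit 6236279763) (nat_lit 529) (nat_lit 5) (nat_lit 552) (nat_lit 5) (nat_lit 553) (nat_lit 5) (nat_lit 440) (nat_lit 424) (nat_lit 276)) (XT.lf (nat_lit 76) (nat_lit 3637930695) (nat_lit 0) (nat_lit 322950957) (nat_lit 1824) (nat_lit 7912980796) (nat_lit 530) (nat_lit 5) (nat_lit 529) (nat_lit 5) (nat_lit 553) (nat_lit 5) (nat_lit 441) (nat_lit 424) (nat_lit 275)))) (XT.nd (nat_lit 156) (nat_lit 0) (nat_lit 76) (XT.nd (nat_lit 78) (nat_lit 0) (nat_lit 0) (XT.lf (nat_lit 0) (nat_lit 462173043) (nat_lit 1748) (nat_lit 2354861267) (nat_lit 1748) (nat_lit 2354861267) (nat_lit 545) (nat_lit 3) (nat_lit 568) (nat_lit 3) (nat_lit 568) (nat_lit 5) (nat_lit 425) (nat_lit 425) (nat_lit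 290)) (XT.lf (nat_lit 76) (nat_lit 468315079) (nat_lit 0) (nat_lit 1129019760) (nat_lit 1748) (nat_lit 8836619320) (nat_lit 546) (nat_lit 5) (nat_lit 545) (nat_lit 3) (nat_lit 568) (nat_lit 5) (nat_lit 426) (nat_lit 425) (nat_lit 289))) (XT.nd (nat_lit 78) (nat_lit 0) (nat_lit 0) (XT.lf (nat_lit 0) (nat_lit 2320767884) (nat_lit 1672) (nat_lit 4743605625) (nat_lit 1748) (nat_lit 3460807225) (nat_lit 546) (nat_lit 5) (nat_lit 568) (nat_lit 5) (nat_lit 569) (nat_lit 5) (nat_lit 427) (nat_lit 425) (nat_lit 288)) (XT.lf (nat_lit 76) (nat_lit 573741217) (nat_lit 0) (nat_lit 2479136394) (nat_lit 1748) (nat_lit 7565470070) (nat_lit 547) (nat_lit 5) (nat_lit 546) (nat_lit 5) (nat_lit 569) (nat_lit 5) (nat_lit 428) (nat_lit 425) (nat_lit 287)))))) (XT.nd (nat_lit 624) (nat_lit 1444) (nat_lit 0) (XT.nd (nat_lit 312) (nat_lit 0) (nat_lit 76) (XT.nd (nat_lit 156) (nat_lit 0) (nat_lit 76) (XT.nd (nat_lit 78) (nat_lit 0) (nat_lit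 0) (XT.lf (nat_lit 0) (nat_lit 3829271421) (nat_lit 1672) (nat_lit 4674984390) (nat_lit 1748) (nat_lit 2208529317) (nat_lit 547) (nat_lit 5) (nat_lit 569) (nat_lit 5) (nat_lit 570) (nat_lit 5) (nat_lit 429) (nat_lit 425) (nat_lit 286)) (XT.lf (nat_lit 76) (nat_lit 786616397) (nat_lit 0) (nat_lit 3839758319) (nat_lit 1748) (nat_lit 6182632977) (nat_lit 548) (nat_lit 5) (nat_lit 547) (nat_lit 5) (nat_lit 570) (nat_lit 5) (nat_lit 430) (nat_lit 425) (nat_lit 285))) (XT.nd (nat_lit 78) (nat_lit 0) (nat_lit 0) (XT.lf (nat_lit 0) (nat_lit 5460920913) (nat_lit 1672) (nat_lit 4501492629) (nat_lit 1748) (nat_lit 944311151) (nat_lit 548) (nat_lit 5) (nat_lit 570) (nat_lit 5) (nat_lit 571) (nat_lit 5) (nat_lit 431) (nat_lit 425) (nat_lit 284)) (XT.lf (nat_lit 76) (nat_lit 1109518265) (nat_lit 0) (nat_lit 5219547864) (nat_lit 1748) (nat_lit 4676991740) (nat_lit 549) (nat_lit 5) (nat_lit 548) (nat_lit 5) (nat_lit 571) (nat_lit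 5) (nat_lit 432) (nat_lit 425) (nat_lit 283)))) (XT.nd (nat_lit 156) (nat_lit 0) (nat_lit 76) (XT.nd (nat_lit 78) (nat_lit 0) (nat_lit 76) (XT.lf (nat_lit 76) (nat_lit 6884401909) (nat_lit 0) (nat_lit 344902742) (nat_lit 1748) (nat_lit 3877778451) (nat_lit 549) (nat_lit 5) (nat_lit 548) (nat_lit 5) (nat_lit 571) (nat_lit 5) (nat_lit 433) (nat_lit 425) (nat_lit 282)) (XT.lf (nat_lit 76) (nat_lit 1545353799) (nat_lit 0) (nat_lit 6627136068) (nat_lit 1748) (nat_lit 3037140133) (nat_lit 550) (nat_lit 5) (nat_lit 549) (nat_lit 5) (nat_lit 572) (nat_lit 5) (nat_lit 434) (nat_lit 425) (nat_lit 281))) (XT.nd (nat_lit 78) (nat_lit 0) (nat_lit 76) (XT.lf (nat_lit 76) (nat_lit 7474212135) (nat_lit 0) (nat_lit 1676032867) (nat_lit 1748) (nat_lit 2163668711) (nat_lit 550) (nat_lit 5) (nat_lit 549) (nat_lit 5) (nat_lit 572) (nat_lit 5) (nat_lit 435) (nat_lit 425) (nat_lit 280)) (XT.lf (nat_lit 76) (nat_lit 2097361317) (nat_lit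 0) (nat_lit 8071145683) (nat_lit 1748) (nat_lit 1251357065) (nat_lit 551) (nat_lit 5) (nat_lit 550) (nat_lit 5) (nat_lit 573) (nat_lit 5) (nat_lit 436) (nat_lit 425) (nat_lit 279))))) (XT.nd (nat_lit 312) (nat_lit 0) (nat_lit 76) (XT.nd (nat_lit 156) (nat_lit 0) (nat_lit 0) (XT.nd (nat_lit 78) (nat_lit 1672) (nat_lit 0) (XT.lf (nat_lit 76) (nat_lit 8184426110) (nat_lit 0) (nat_lit 3045152326) (nat_lit 1748) (nat_lit 297906104) (nat_lit 551) (nat_lit 5) (nat_lit 550) (nat_lit 5) (nat_lit 573) (nat_lit 5) (nat_lit 437) (nat_lit 425) (nat_lit 278)) (XT.lf (nat_lit 0) (nat_lit 683337491) (nat_lit 1748) (nat_lit 8872290685) (nat_lit 1824) (nat_lit 2081190221) (nat_lit 528) (nat_lit 5) (nat_lit 551) (nat_lit 5) (nat_lit 552) (nat_lit 5) (nat_lit 438) (nat_lit 425) (nat_lit 277))) (XT.nd (nat_lit 78) (nat_lit 0) (nat_lit 76) (XT.lf (nat_lit 0) (nat_lit 1709054088) (nat_lit 1748) (nat_lit 2740383362) (nat_lit 1824) (nat_lit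 7298285357) (nat_lit 528) (nat_lit 5) (nat_lit 551) (nat_lit 5) (nat_lit 552) (nat_lit 5) (nat_lit 439) (nat_lit 425) (nat_lit 276)) (XT.lf (nat_lit 0) (nat_lit 2769804881) (nat_lit 1748) (nat_lit 8314621969) (nat_lit 1824) (nat_lit 776128057) (nat_lit 529) (nat_lit 5) (nat_lit 552) (nat_lit 5) (nat_lit 553) (nat_lit 5) (nat_lit 440) (nat_lit 425) (nat_lit 275)))) (XT.nd (nat_lit 58266) (nat_lit 0) (nat_lit 1216) (XT.nd (nat_lit 58188) (nat_lit 0) (nat_lit 1216) (XT.lf (nat_lit 0) (nat_lit 3886336730) (nat_lit 1748) (nat_lit 2019567703) (nat_lit 1824) (nat_lit 6069047896) (nat_lit 529) (nat_lit 5) (nat_lit 552) (nat_lit 5) (nat_lit 553) (nat_lit 5) (nat_lit 441) (nat_lit 425) (nat_lit 274)) (XT.lf (nat_lit 0) (nat_lit 1127831451) (nat_lit 1748) (nat_lit 2067186868) (nat_lit 1748) (nat_lit 2067186868) (nat_lit 545) (nat_lit 3) (nat_lit 568) (nat_lit 3) (nat_lit 568) (nat_lit 5) (nat_lit 426) (nat_lit 426) (nat_lit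 288))) (XT.nd (nat_lit 78) (nat_lit 0) (nat_lit 76) (XT.lf (nat_lit 76) (nat_lit 1142819738) (nat_lit 0) (nat_lit 1777868451) (nat_lit 1748) (nat_lit 7696116920) (nat_lit 546) (nat_lit 5) (nat_lit 545) (nat_lit 3) (nat_lit 568) (nat_lit 5) (nat_lit 427) (nat_lit 426) (nat_lit 287)) (XT.lf (nat_lit 0) (nat_lit 3629281775) (nat_lit 1672) (nat_lit 4157073189) (nat_lit 1748) (nat_lit 2924087414) (nat_lit 546) (nat_lit 5) (nat_lit 568) (nat_lit 5) (nat_lit 569) (nat_lit 5) (nat_lit 428) (nat_lit 426) (nat_lit 286))))))))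
noncomputable def xc72 : XT := (XT.nd (nat_lit 59514) (nat_lit 0) (nat_lit 0) (XT.nd (nat_lit 624) (nat_lit 1444) (nat_lit 0) (XT.nd (nat_lit 312) (nat_lit 0) (nat_lit 152) (XT.nd (nat_lit 156) (nat_lit 0) (nat_lit 76) (XT.nd (nat_lit 78) (nat_lit 0) (nat_lit 76) (XT.lf (nat_lit 76) (nat_lit 1262137665) (nat_lit 0) (nat_lit 3093544025) (nat_lit 1748) (nat_lit 6450198014) (nat_lit 547) (nat_lit 5) (nat_lit 546) (nat_lit 5) (nat_lit 569) (nat_lit 5) (nat_lit 429) (nat_lit 426) (nat_lit 285)) (XT.lf (nat_lit 0) (nat_lit 5119660094) (nat_lit 1672) (nat_lit 4076892145) (nat_lit 1748) (nat_lit 1706212528) (nat_lit 547) (nat_lit 5) (nat_lit 569) (nat_lit 5) (nat_lit 570) (nat_lit 5) (nat_lit 430) (nat_lit 426) (nat_lit 284))) (XT.nd (nat_lit 78) (nat_lit 0) (nat_lit 76) (XT.lf (nat_lit 76) (nat_lit 1489390712) (nat_lit 0) (nat_lit 4423975412) (nat_lit 1748) (nat_lit 5087932445) (nat_lit 548) (nat_lit 5) (nat_lit 547)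 (nat_lit 5) (nat_lit 570) (nat_lit 5) (nat_lit 431) (nat_lit 426) (nat_lit 283)) (XT.lf (nat_lit 0) (nat_lit 6737952461) (nat_lit 1672) (nat_lit 3891301124) (nat_lit 1748) (nat_lit 472249338) (nat_lit 548) (nat_lit 5) (nat_lit 570) (nat_lit 5) (nat_lit 571) (nat_lit 5) (nat_lit 432) (nat_lit 426) (nat_lit 282)))) (XT.nd (nat_lit 156) (nat_lit 0) (nat_lit 76) (XT.nd (nat_lit 78) (nat_lit 0) (nat_lit 0) (XT.lf (nat_lit 76) (nat_lit 1827323268) (nat_lit 0) (nat_lit 5777755408) (nat_lit 1748) (nat_lit 3598111725) (nat_lit 549) (nat_lit 5) (nat_lit 548) (nat_lit 5) (nat_lit 571) (nat_lit 5) (nat_lit 433) (nat_lit 426) (nat_lit 281)) (XT.lf (nat_lit 76) (nat_lit 7704065082) (nat_lit 0) (nat_lit 796719020) (nat_lit 1748) (nat_lit 2805902795) (nat_lit 549) (nat_lit 5) (nat_lit 548) (nat_lit 5) (nat_lit 571) (nat_lit 5) (nat_lit 434) (nat_lit 426) (nat_lit 280))) (XT.nd (nat_lit 78) (nat_lit 0) (nat_lit 0) (XT.lf (nat_lit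 76) (nat_lit 2279008623) (nat_lit 0) (nat_lit 7163459093) (nat_lit 1748) (nat_lit 1969224323) (nat_lit 550) (nat_lit 5) (nat_lit 549) (nat_lit 5) (nat_lit 572) (nat_lit 5) (nat_lit 435) (nat_lit 426) (nat_lit 279)) (XT.lf (nat_lit 76) (nat_lit 8312664759) (nat_lit 0) (nat_lit 2105416567) (nat_lit 1748) (nat_lit 1100414034) (nat_lit 550) (nat_lit 5) (nat_lit 549) (nat_lit 5) (nat_lit 572) (nat_lit 5) (nat_lit 436) (nat_lit 426) (nat_lit 278))))) (XT.nd (nat_lit 58578) (nat_lit 0) (nat_lit 1368) (XT.nd (nat_lit 156) (nat_lit 0) (nat_lit 76) (XT.nd (nat_lit 78) (nat_lit 1748) (nat_lit 0) (XT.lf (nat_lit 76) (nat_lit 2847851421) (nat_lit 0) (nat_lit 8589666459) (nat_lit 1748) (nat_lit 189430651) (nat_lit 551) (nat_lit 5) (nat_lit 550) (nat_lit 5) (nat_lit 573) (nat_lit 5) (nat_lit 437) (nat_lit 426) (nat_lit 277)) (XT.lf (nat_lit 0) (nat_lit 751785677) (nat_lit 1748) (nat_lit 2699320761) (nat_lit 1824) (nat_lit 8285933957)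 (nat_lit 527) (nat_lit 5) (nat_lit 550) (nat_lit 5) (nat_lit 551) (nat_lit 5) (nat_lit 438) (nat_lit 426) (nat_lit 276))) (XT.nd (nat_lit 78) (nat_lit 0) (nat_lit 0) (XT.lf (nat_lit 0) (nat_lit 1730465341) (nat_lit 1748) (nat_lit 8322906979) (nat_lit 1824) (nat_lit 1795513223) (nat_lit 528) (nat_lit 5) (nat_lit 551) (nat_lit 5) (nat_lit 552) (nat_lit 5) (nat_lit 439) (nat_lit 426) (nat_lit 275)) (XT.lf (nat_lit 0) (nat_lit 2756432326) (nat_lit 1748) (nat_lit 2082613069) (nat_lit 1824) (nat_lit 7123367924) (nat_lit 528) (nat_lit 5) (nat_lit 551) (nat_lit 5) (nat_lit 552) (nat_lit 5) (nat_lit 440) (nat_lit 426) (nat_lit 274)))) (XT.nd (nat_lit 156) (nat_lit 0) (nat_lit 76) (XT.nd (nat_lit 78) (nat_lit 0) (nat_lit 0) (XT.lf (nat_lit 0) (nat_lit 1781313636) (nat_lit 1748) (nat_lit 1786758573) (nat_lit 1748) (nat_lit 1786758573) (nat_lit 545) (nat_lit 3) (nat_lit 568) (nat_lit 3) (nat_lit 568) (nat_lit 5) (nat_lit 427)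 (nat_lit 427) (nat_lit 286)) (XT.lf (nat_lit 76) (nat_lit 1804986357) (nat_lit 0) (nat_lit 2415375354) (nat_lit 1748) (nat_lit 6583954305) (nat_lit 546) (nat_lit 5) (nat_lit 545) (nat_lit 3) (nat_lit 568) (nat_lit 5) (nat_lit 428) (nat_lit 427) (nat_lit 285))) (XT.nd (nat_lit 78) (nat_lit 0) (nat_lit 0) (XT.lf (nat_lit 0) (nat_lit 4914957119) (nat_lit 1672) (nat_lit 3585269874) (nat_lit 1748) (nat_lit 2400162439) (nat_lit 546) (nat_lit 5) (nat_lit 568) (nat_lit 5) (nat_lit 569) (nat_lit 5) (nat_lit 429) (nat_lit 427) (nat_lit 284)) (XT.lf (nat_lit 76) (nat_lit 1938016350) (nat_lit 0) (nat_lit 3698306970) (nat_lit 1748) (nat_lit 5361803418) (nat_lit 547) (nat_lit 5) (nat_lit 546) (nat_lit 5) (nat_lit 569) (nat_lit 5) (nat_lit 430) (nat_lit 427) (nat_lit 283)))))) (XT.nd (nat_lit 624) (nat_lit 0) (nat_lit 0) (XT.nd (nat_lit 312) (nat_lit 1520) (nat_lit 0) (XT.nd (nat_lit 156) (nat_lit 0) (nat_lit 76) (XT.nd (nat_lit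 78) (nat_lit 0) (nat_lit 0) (XT.lf (nat_lit 0) (nat_lit 6388723080) (nat_lit 1672) (nat_lit 3493693412) (nat_lit 1748) (nat_lit 1215070174) (nat_lit 547) (nat_lit 5) (nat_lit 569) (nat_lit 5) (nat_lit 570) (nat_lit 5) (nat_lit 431) (nat_lit 427) (nat_lit 282)) (XT.lf (nat_lit 76) (nat_lit 2179541835) (nat_lit 0) (nat_lit 5000173034) (nat_lit 1748) (nat_lit 4018648042) (nat_lit 548) (nat_lit 5) (nat_lit 547) (nat_lit 5) (nat_lit 570) (nat_lit 5) (nat_lit 432) (nat_lit 427) (nat_lit 281))) (XT.nd (nat_lit 78) (nat_lit 0) (nat_lit 0) (XT.lf (nat_lit 0) (nat_lit 7995177034) (nat_lit 1672) (nat_lit 3296096238) (nat_lit 1748) (nat_lit 9810400) (nat_lit 548) (nat_lit 5) (nat_lit 570) (nat_lit 5) (nat_lit 571) (nat_lit 5) (nat_lit 433) (nat_lit 427) (nat_lit 280)) (XT.lf (nat_lit 76) (nat_lit 2532472807) (nat_lit 0) (nat_lit 6329504853) (nat_lit 1748) (nat_lit 2543180602) (nat_lit 549) (nat_lit 5) (nat_lit 548) (nat_lit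 5) (nat_lit 571) (nat_lit 5) (nat_lit 434) (nat_lit 427) (nat_lit 279)))) (XT.nd (nat_lit 156) (nat_lit 1596) (nat_lit 0) (XT.nd (nat_lit 78) (nat_lit 0) (nat_lit 76) (XT.lf (nat_lit 76) (nat_lit 8513639593) (nat_lit 0) (nat_lit 1240294906) (nat_lit 1748) (nat_lit 1757223441) (nat_lit 549) (nat_lit 5) (nat_lit 548) (nat_lit 5) (nat_lit 571) (nat_lit 5) (nat_lit 435) (nat_lit 427) (nat_lit 278)) (XT.lf (nat_lit 76) (nat_lit 3000047992) (nat_lit 0) (nat_lit 7694829297) (nat_lit 1748) (nat_lit 923777387) (nat_lit 550) (nat_lit 5) (nat_lit 549) (nat_lit 5) (nat_lit 572) (nat_lit 5) (nat_lit 436) (nat_lit 427) (nat_lit 277))) (XT.nd (nat_lit 78) (nat_lit 1672) (nat_lit 0) (XT.lf (nat_lit 76) (nat_lit 9141132952) (nat_lit 0) (nat_lit 2528016096) (nat_lit 1748) (nat_lit 58862096) (nat_lit 550) (nat_lit 5) (nat_lit 549) (nat_lit 5) (nat_lit 572) (nat_lit 5) (nat_lit 437) (nat_lit 427) (nat_lit 276)) (XT.lf (nat_lit 0)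 (nat_lit 840358634) (nat_lit 1748) (nat_lit 8258693223) (nat_lit 1824) (nat_lit 2739839860) (nat_lit 527) (nat_lit 5) (nat_lit 550) (nat_lit 5) (nat_lit 551) (nat_lit 5) (nat_lit 438) (nat_lit 427) (nat_lit 275))))) (XT.nd (nat_lit 58734) (nat_lit 0) (nat_lit 1444) (XT.nd (nat_lit 58578) (nat_lit 0) (nat_lit 1368) (XT.nd (nat_lit 58500) (nat_lit 0) (nat_lit 1368) (XT.lf (nat_lit 0) (nat_lit 1777648639) (nat_lit 1748) (nat_lit 2072198036) (nat_lit 1824) (nat_lit 8101717983) (nat_lit 527) (nat_lit 5) (nat_lit 550) (nat_lit 5) (nat_lit 551) (nat_lit 5) (nat_lit 439) (nat_lit 427) (nat_lit 274)) (XT.lf (nat_lit 0) (nat_lit 2423365856) (nat_lit 1748) (nat_lit 1513216511) (nat_lit 1748) (nat_lit 1513216511) (nat_lit 545) (nat_lit 3) (nat_lit 568) (nat_lit 3) (nat_lit 568) (nat_lit 5) (nat_lit 428) (nat_lit 428) (nat_lit 284))) (XT.nd (nat_lit 78) (nat_lit 0) (nat_lit 76) (XT.lf (nat_lit 76) (nat_lit 2455571112) (nat_lit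 0) (nat_lit 3042257961) (nat_lit 1748) (nat_lit 5498712060) (nat_lit 546) (nat_lit 5) (nat_lit 545) (nat_lit 3) (nat_lit 568) (nat_lit 5) (nat_lit 429) (nat_lit 428) (nat_lit 283)) (XT.lf (nat_lit 0) (nat_lit 6179240218) (nat_lit 1672) (nat_lit 3027462796) (nat_lit 1748) (nat_lit 1888374528) (nat_lit 546) (nat_lit 5) (nat_lit 568) (nat_lit 5) (nat_lit 569) (nat_lit 5) (nat_lit 430) (nat_lit 428) (nat_lit 282)))) (XT.nd (nat_lit 156) (nat_lit 0) (nat_lit 76) (XT.nd (nat_lit 78) (nat_lit 0) (nat_lit 76) (XT.lf (nat_lit 76) (nat_lit 2602147623) (nat_lit 0) (nat_lit 4294084012) (nat_lit 1748) (nat_lit 4298914000) (nat_lit 547) (nat_lit 5) (nat_lit 546) (nat_lit 5) (nat_lit 569) (nat_lit 5) (nat_lit 431) (nat_lit 428) (nat_lit 281)) (XT.lf (nat_lit 0) (nat_lit 7637864117) (nat_lit 1672) (nat_lit 2924643236) (nat_lit 1748) (nat_lit 734501715) (nat_lit 547) (nat_lit 5) (nat_lit 569) (nat_lit 5) (nat_lit 570) (nat_lit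 5) (nat_lit 432) (nat_lit 428) (nat_lit 280))) (XT.nd (nat_lit 78) (nat_lit 0) (nat_lit 0) (XT.lf (nat_lit 76) (nat_lit 2857853268) (nat_lit 0) (nat_lit 5568955921) (nat_lit 1748) (nat_lit 2973450981) (nat_lit 548) (nat_lit 5) (nat_lit 547) (nat_lit 5) (nat_lit 570) (nat_lit 5) (nat_lit 433) (nat_lit 428) (nat_lit 279)) (XT.lf (nat_lit 76) (nat_lit 8787429427) (nat_lit 0) (nat_lit 449448081) (nat_lit 1748) (nat_lit 2268591898) (nat_lit 548) (nat_lit 5) (nat_lit 547) (nat_lit 5) (nat_lit 570) (nat_lit 5) (nat_lit 434) (nat_lit 428) (nat_lit 278)))))))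
noncomputable def xc73 : XT := (XT.nd (nat_lit 118482) (nat_lit 76) (nat_lit 0) (XT.nd (nat_lit 59202) (nat_lit 76) (nat_lit 0) (XT.nd (nat_lit 58890) (nat_lit 0) (nat_lit 1444) (XT.nd (nat_lit 156) (nat_lit 1672) (nat_lit 0) (XT.nd (nat_lit 78) (nat_lit 0) (nat_lit 0) (XT.lf (nat_lit 76) (nat_lit 3225762665) (nat_lit 0) (nat_lit 6875351328) (nat_lit 1748) (nat_lit 1510909498) (nat_lit 549) (nat_lit 5) (nat_lit 548) (nat_lit 5) (nat_lit 571) (nat_lit 5) (nat_lit 435) (nat_lit 428) (nat_lit 277)) (XT.lf (nat_lit 76) (nat_lit 9313951994) (nat_lit 0) (nat_lit 1676136469) (nat_lit 1748) (nat_lit 730471130) (nat_lit 549) (nat_lit 5) (nat_lit 548) (nat_lit 5) (nat_lit 571) (nat_lit 5) (nat_lit 436) (nat_lit 428) (nat_lit 276))) (XT.nd (nat_lit 78) (nat_lit 0) (nat_lit 0) (XT.lf (nat_lit 0) (nat_lit 99135700) (nat_lit 1748) (nat_lit 8121955517) (nat_lit 1824) (nat_lit 3609478291) (nat_lit 526) (nat_lit 5) (nat_lit 549)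 (nat_lit 5) (nat_lit 550) (nat_lit 5) (nat_lit 437) (nat_lit 428) (nat_lit 275)) (XT.lf (nat_lit 0) (nat_lit 949601832) (nat_lit 1748) (nat_lit 1988318519) (nat_lit 1824) (nat_lit 9004481738) (nat_lit 526) (nat_lit 5) (nat_lit 549) (nat_lit 5) (nat_lit 550) (nat_lit 5) (nat_lit 438) (nat_lit 428) (nat_lit 274)))) (XT.nd (nat_lit 156) (nat_lit 0) (nat_lit 76) (XT.nd (nat_lit 78) (nat_lit 0) (nat_lit 0) (XT.lf (nat_lit 0) (nat_lit 3054710861) (nat_lit 1748) (nat_lit 1246213220) (nat_lit 1748) (nat_lit 1246213220) (nat_lit 545) (nat_lit 3) (nat_lit 568) (nat_lit 3) (nat_lit 568) (nat_lit 5) (nat_lit 429) (nat_lit 429) (nat_lit 282)) (XT.lf (nat_lit 76) (nat_lit 3095306361) (nat_lit 0) (nat_lit 3659211444) (nat_lit 1748) (nat_lit 4439019508) (nat_lit 546) (nat_lit 5) (nat_lit 545) (nat_lit 3) (nat_lit 568) (nat_lit 5) (nat_lit 430) (nat_lit 429) (nat_lit 281))) (XT.nd (nat_lit 78) (nat_lit 0) (nat_lit 0) (XT.lf (nat_lit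 0) (nat_lit 7423532400) (nat_lit 1672) (nat_lit 2482944313) (nat_lit 1748) (nat_lit 1388088231) (nat_lit 546) (nat_lit 5) (nat_lit 568) (nat_lit 5) (nat_lit 569) (nat_lit 5) (nat_lit 431) (nat_lit 429) (nat_lit 280)) (XT.lf (nat_lit 76) (nat_lit 3255277605) (nat_lit 0) (nat_lit 4881514043) (nat_lit 1748) (nat_lit 3260204193) (nat_lit 547) (nat_lit 5) (nat_lit 546) (nat_lit 5) (nat_lit 569) (nat_lit 5) (nat_lit 432) (nat_lit 429) (nat_lit 279))))) (XT.nd (nat_lit 312) (nat_lit 1672) (nat_lit 0) (XT.nd (nat_lit 156) (nat_lit 0) (nat_lit 0) (XT.nd (nat_lit 78) (nat_lit 0) (nat_lit 0) (XT.lf (nat_lit 0) (nat_lit 8868443944) (nat_lit 1672) (nat_lit 2369022255) (nat_lit 1748) (nat_lit 263926599) (nat_lit 547) (nat_lit 5) (nat_lit 569) (nat_lit 5) (nat_lit 570) (nat_lit 5) (nat_lit 433) (nat_lit 429) (nat_lit 278)) (XT.lf (nat_lit 76) (nat_lit 3525083956) (nat_lit 0) (nat_lit 6130911188) (nat_lit 1748) (nat_lit 1951057233)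 (nat_lit 548) (nat_lit 5) (nat_lit 547) (nat_lit 5) (nat_lit 570) (nat_lit 5) (nat_lit 434) (nat_lit 429) (nat_lit 277))) (XT.nd (nat_lit 78) (nat_lit 0) (nat_lit 76) (XT.lf (nat_lit 76) (nat_lit 9561289410) (nat_lit 0) (nat_lit 900178365) (nat_lit 1748) (nat_lit 1253313965) (nat_lit 548) (nat_lit 5) (nat_lit 547) (nat_lit 5) (nat_lit 570) (nat_lit 5) (nat_lit 435) (nat_lit 429) (nat_lit 276)) (XT.lf (nat_lit 76) (nat_lit 3907963810) (nat_lit 0) (nat_lit 7415834497) (nat_lit 1748) (nat_lit 500052414) (nat_lit 549) (nat_lit 5) (nat_lit 548) (nat_lit 5) (nat_lit 571) (nat_lit 5) (nat_lit 436) (nat_lit 429) (nat_lit 275)))) (XT.nd (nat_lit 58812) (nat_lit 0) (nat_lit 1520) (XT.nd (nat_lit 78) (nat_lit 0) (nat_lit 76) (XT.lf (nat_lit 0) (nat_lit 271967180) (nat_lit 1748) (nat_lit 1830941625) (nat_lit 1824) (nat_lit 9832013214) (nat_lit 525) (nat_lit 5) (nat_lit 548) (nat_lit 5) (nat_lit 549) (nat_lit 5) (nat_lit 437)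 (nat_lit 429) (nat_lit 274)) (XT.lf (nat_lit 0) (nat_lit 1090190712) (nat_lit 1748) (nat_lit 7647230488) (nat_lit 1824) (nat_lit 3309978252) (nat_lit 526) (nat_lit 5) (nat_lit 549) (nat_lit 5) (nat_lit 550) (nat_lit 5) (nat_lit 438) (nat_lit 429) (nat_lit 273))) (XT.nd (nat_lit 78) (nat_lit 0) (nat_lit 0) (XT.lf (nat_lit 0) (nat_lit 3676048916) (nat_lit 1748) (nat_lit 985413127) (nat_lit 1748) (nat_lit 985413127) (nat_lit 545) (nat_lit 3) (nat_lit 568) (nat_lit 3) (nat_lit 568) (nat_lit 5) (nat_lit 430) (nat_lit 430) (nat_lit 280)) (XT.lf (nat_lit 76) (nat_lit 3724901672) (nat_lit 0) (nat_lit 4266909633) (nat_lit 1748) (nat_lit 3403552692) (nat_lit 546) (nat_lit 5) (nat_lit 545) (nat_lit 3) (nat_lit 568) (nat_lit 5) (nat_lit 431) (nat_lit 430) (nat_lit 279)))))) (XT.nd (nat_lit 59436) (nat_lit 76) (nat_lit 0) (XT.nd (nat_lit 312) (nat_lit 1596) (nat_lit 0) (XT.nd (nat_lit 156) (nat_lit 0) (nat_lit 0) (XT.nd (nat_lit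 78) (nat_lit 0) (nat_lit 0) (XT.lf (nat_lit 0) (nat_lit 8649191994) (nat_lit 1672) (nat_lit 1951030979) (nat_lit 1748) (nat_lit 898689492) (nat_lit 546) (nat_lit 5) (nat_lit 568) (nat_lit 5) (nat_lit 569) (nat_lit 5) (nat_lit 432) (nat_lit 430) (nat_lit 278)) (XT.lf (nat_lit 76) (nat_lit 3898129245) (nat_lit 0) (nat_lit 5461216940) (nat_lit 1748) (nat_lit 2244393199) (nat_lit 547) (nat_lit 5) (nat_lit 546) (nat_lit 5) (nat_lit 569) (nat_lit 5) (nat_lit 433) (nat_lit 430) (nat_lit 277))) (XT.nd (nat_lit 78) (nat_lit 0) (nat_lit 76) (XT.lf (nat_lit 76) (nat_lit 9883242195) (nat_lit 0) (nat_lit 199837485) (nat_lit 1748) (nat_lit 1627595636) (nat_lit 547) (nat_lit 5) (nat_lit 546) (nat_lit 5) (nat_lit 569) (nat_lit 5) (nat_lit 434) (nat_lit 430) (nat_lit 276)) (XT.lf (nat_lit 76) (nat_lit 4181969355) (nat_lit 0) (nat_lit 6686609140) (nat_lit 1748) (nat_lit 950225661) (nat_lit 548) (nat_lit 5) (nat_lit 547) (nat_lit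 5) (nat_lit 570) (nat_lit 5) (nat_lit 435) (nat_lit 430) (nat_lit 275)))) (XT.nd (nat_lit 58968) (nat_lit 0) (nat_lit 1520) (XT.nd (nat_lit 78) (nat_lit 1672) (nat_lit 0) (XT.lf (nat_lit 76) (nat_lit 10327401199) (nat_lit 0) (nat_lit 1342769901) (nat_lit 1748) (nat_lit 258916796) (nat_lit 548) (nat_lit 5) (nat_lit 547) (nat_lit 5) (nat_lit 570) (nat_lit 5) (nat_lit 436) (nat_lit 430) (nat_lit 274)) (XT.lf (nat_lit 0) (nat_lit 484161341) (nat_lit 1748) (nat_lit 7464068957) (nat_lit 1824) (nat_lit 4092413163) (nat_lit 525) (nat_lit 5) (nat_lit 548) (nat_lit 5) (nat_lit 549) (nat_lit 5) (nat_lit 437) (nat_lit 430) (nat_lit 273))) (XT.nd (nat_lit 78) (nat_lit 0) (nat_lit 0) (XT.lf (nat_lit 0) (nat_lit 4288058781) (nat_lit 1748) (nat_lit 730492058) (nat_lit 1748) (nat_lit 730492058) (nat_lit 545) (nat_lit 3) (nat_lit 568) (nat_lit 3) (nat_lit 568) (nat_lit 5) (nat_lit 431) (nat_lit 431) (nat_lit 278)) (XT.lf (nat_lit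 76) (nat_lit 4345044825) (nat_lit 0) (nat_lit 4866005957) (nat_lit 1748) (nat_lit 2391032429) (nat_lit 546) (nat_lit 5) (nat_lit 545) (nat_lit 3) (nat_lit 568) (nat_lit 5) (nat_lit 432) (nat_lit 431) (nat_lit 277))))) (XT.nd (nat_lit 59280) (nat_lit 0) (nat_lit 1596) (XT.nd (nat_lit 156) (nat_lit 1672) (nat_lit 0) (XT.nd (nat_lit 78) (nat_lit 0) (nat_lit 0) (XT.lf (nat_lit 0) (nat_lit 9857536219) (nat_lit 1672) (nat_lit 1431062536) (nat_lit 1748) (nat_lit 419584751) (nat_lit 546) (nat_lit 5) (nat_lit 568) (nat_lit 5) (nat_lit 569) (nat_lit 5) (nat_lit 433) (nat_lit 431) (nat_lit 276)) (XT.lf (nat_lit 76) (nat_lit 4531403333) (nat_lit 0) (nat_lit 6033794427) (nat_lit 1748) (nat_lit 1250243118) (nat_lit 547) (nat_lit 5) (nat_lit 546) (nat_lit 5) (nat_lit 569) (nat_lit 5) (nat_lit 434) (nat_lit 431) (nat_lit 275))) (XT.nd (nat_lit 78) (nat_lit 1672) (nat_lit 0) (XT.lf (nat_lit 76) (nat_lit 10625330082) (nat_lit 0)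 (nat_lit 658102028) (nat_lit 1748) (nat_lit 641482897) (nat_lit 547) (nat_lit 5) (nat_lit 546) (nat_lit 5) (nat_lit 569) (nat_lit 5) (nat_lit 435) (nat_lit 431) (nat_lit 274)) (XT.lf (nat_lit 0) (nat_lit 29847141) (nat_lit 1748) (nat_lit 7206556606) (nat_lit 1824) (nat_lit 4799175036) (nat_lit 524) (nat_lit 5) (nat_lit 547) (nat_lit 5) (nat_lit 548) (nat_lit 5) (nat_lit 436) (nat_lit 431) (nat_lit 273)))) (XT.nd (nat_lit 156) (nat_lit 0) (nat_lit 0) (XT.nd (nat_lit 78) (nat_lit 0) (nat_lit 0) (XT.lf (nat_lit 0) (nat_lit 4891398663) (nat_lit 1748) (nat_lit 481136758) (nat_lit 1748) (nat_lit 481136758) (nat_lit 545) (nat_lit 3) (nat_lit 568) (nat_lit 3) (nat_lit 568) (nat_lit 5) (nat_lit 432) (nat_lit 432) (nat_lit 276)) (XT.lf (nat_lit 76) (nat_lit 4956402777) (nat_lit 0) (nat_lit 5457134354) (nat_lit 1748) (nat_lit 1400222438) (nat_lit 546) (nat_lit 5) (nat_lit 545) (nat_lit 3) (nat_lit 568) (nat_lit 5) (nat_lit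 433) (nat_lit 432) (nat_lit 275))) (XT.nd (nat_lit 78) (nat_lit 0) (nat_lit 0) (XT.lf (nat_lit 76) (nat_lit 10999708921) (nat_lit 0) (nat_lit 50461733) (nat_lit 1748) (nat_lit 872266848) (nat_lit 546) (nat_lit 5) (nat_lit 545) (nat_lit 3) (nat_lit 568) (nat_lit 5) (nat_lit 434) (nat_lit 432) (nat_lit 274)) (XT.nd (nat_lit 59280) (nat_lit 76) (nat_lit 0) (XT.lf (nat_lit 76) (nat_lit 5155779481) (nat_lit 0) (nat_lit 6599830898) (nat_lit 1748) (nat_lit 276557145) (nat_lit 547) (nat_lit 5) (nat_lit 546) (nat_lit 5) (nat_lit 569) (nat_lit 5) (nat_lit 435) (nat_lit 432) (nat_lit 273)) (XT.lf (nat_lit 76) (nat_lit 5559622582) (nat_lit 0) (nat_lit 6040910140) (nat_lit 1748) (nat_lit 429927542) (nat_lit 546) (nat_lit 5) (nat_lit 545) (nat_lit 3) (nat_lit 568) (nat_lit 5) (nat_lit 434) (nat_lit 433) (nat_lit 273))))))))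
noncomputable def ec0 : XT := (XT.nd (nat_lit 296010) (nat_lit 0) (nat_lit 0) (XT.nd (nat_lit 177840) (nat_lit 0) (nat_lit 0) (XT.nd (nat_lit 118482) (nat_lit 0) (nat_lit 0) (XT.nd (nat_lit 59280) (nat_lit 0) (nat_lit 0) (XT.nd (nat_lit 78) (nat_lit 0) (nat_lit 0) (XT.lf (nat_lit 1900) (nat_lit 427741516) (nat_lit 0) (nat_lit 431318430) (nat_lit 1900) (nat_lit 427741516) (nat_lit 522) (nat_lit 1) (nat_lit 497) (nat_lit 0) (nat_lit 522) (nat_lit 0) (nat_lit 426) (nat_lit 357) (nat_lit 357)) (XT.nd (nat_lit 59124) (nat_lit 0) (nat_lit 0) (XT.lf (nat_lit 1900) (nat_lit 1691354267) (nat_lit 76) (nat_lit 428480809) (nat_lit 0) (nat_lit 428480809) (nat_lit 522) (nat_lit 1) (nat_lit 498) (nat_lit 1) (nat_lit 497) (nat_lit 0) (nat_lit 427) (nat_lit 357) (nat_lit 356)) (XT.lf (nat_lit 1900) (nat_lit 436296346) (nat_lit 0) (nat_lit 439944799) (nat_lit 1900) (nat_lit 436296346) (nat_lit 522) (nat_lit 1) (nat_lit 497) (nat_lit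 0) (nat_lit 522) (nat_lit 0) (nat_lit 424) (nat_lit 358) (nat_lit 358)))) (XT.nd (nat_lit 156) (nat_lit 0) (nat_lit 0) (XT.nd (nat_lit 78) (nat_lit 0) (nat_lit 76) (XT.lf (nat_lit 1900) (nat_lit 1725181353) (nat_lit 76) (nat_lit 437050425) (nat_lit 0) (nat_lit 437050425) (nat_lit 522) (nat_lit 1) (nat_lit 498) (nat_lit 1) (nat_lit 497) (nat_lit 0) (nat_lit 425) (nat_lit 358) (nat_lit 357)) (XT.lf (nat_lit 1900) (nat_lit 847072256) (nat_lit 0) (nat_lit 879626629) (nat_lit 1824) (nat_lit 847072256) (nat_lit 523) (nat_lit 1) (nat_lit 498) (nat_lit 1) (nat_lit 522) (nat_lit 1) (nat_lit 426) (nat_lit 358) (nat_lit 356))) (XT.nd (nat_lit 58968) (nat_lit 76) (nat_lit 0) (XT.lf (nat_lit 1900) (nat_lit 1657929220) (nat_lit 76) (nat_lit 445358803) (nat_lit 0) (nat_lit 445358803) (nat_lit 523) (nat_lit 1) (nat_lit 499) (nat_lit 1) (nat_lit 498) (nat_lit 1) (nat_lit 427) (nat_lit 358) (nat_lit 355)) (XT.lf (nat_lit 1900) (nat_lit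 445022273) (nat_lit 0) (nat_lit 448743695) (nat_lit 1900) (nat_lit 445022273) (nat_lit 522) (nat_lit 1) (nat_lit 497) (nat_lit 0) (nat_lit 522) (nat_lit 0) (nat_lit 422) (nat_lit 359) (nat_lit 359))))) (XT.nd (nat_lit 312) (nat_lit 0) (nat_lit 0) (XT.nd (nat_lit 156) (nat_lit 0) (nat_lit 76) (XT.nd (nat_lit 78) (nat_lit 0) (nat_lit 76) (XT.lf (nat_lit 1900) (nat_lit 1759684980) (nat_lit 76) (nat_lit 445791433) (nat_lit 0) (nat_lit 445791433) (nat_lit 522) (nat_lit 1) (nat_lit 498) (nat_lit 1) (nat_lit 497) (nat_lit 0) (nat_lit 423) (nat_lit 359) (nat_lit 358)) (XT.lf (nat_lit 1900) (nat_lit 864013701) (nat_lit 0) (nat_lit 897219162) (nat_lit 1824) (nat_lit 864013701) (nat_lit 523) (nat_lit 1) (nat_lit 498) (nat_lit 1) (nat_lit 522) (nat_lit 1) (nat_lit 424) (nat_lit 359) (nat_lit 357))) (XT.nd (nat_lit 78) (nat_lit 0) (nat_lit 76) (XT.lf (nat_lit 1900) (nat_lit 1691087804) (nat_lit 76) (nat_lit 454265979) (nat_lit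 0) (nat_lit 454265979) (nat_lit 523) (nat_lit 1) (nat_lit 499) (nat_lit 1) (nat_lit 498) (nat_lit 1) (nat_lit 425) (nat_lit 359) (nat_lit 356)) (XT.lf (nat_lit 1900) (nat_lit 821836627) (nat_lit 0) (nat_lit 930602599) (nat_lit 1824) (nat_lit 821836627) (nat_lit 524) (nat_lit 1) (nat_lit 499) (nat_lit 1) (nat_lit 523) (nat_lit 1) (nat_lit 426) (nat_lit 359) (nat_lit 355)))) (XT.nd (nat_lit 58890) (nat_lit 0) (nat_lit 0) (XT.nd (nat_lit 58812) (nat_lit 152) (nat_lit 0) (XT.lf (nat_lit 1900) (nat_lit 1591066017) (nat_lit 76) (nat_lit 479121410) (nat_lit 0) (nat_lit 479121410) (nat_lit 524) (nat_lit 1) (nat_lit 500) (nat_lit 1) (nat_lit 499) (nat_lit 1) (nat_lit 427) (nat_lit 359) (nat_lit 354)) (XT.lf (nat_lit 1900) (nat_lit 453922719) (nat_lit 0) (nat_lit 457718568) (nat_lit 1900) (nat_lit 453922719) (nat_lit 522) (nat_lit 1) (nat_lit 497) (nat_lit 0) (nat_lit 522) (nat_lit 0) (nat_lit 420) (nat_lit 360) (nat_lit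 360))) (XT.nd (nat_lit 78) (nat_lit 0) (nat_lit 76) (XT.lf (nat_lit 1900) (nat_lit 1794878679) (nat_lit 76) (nat_lit 454707262) (nat_lit 0) (nat_lit 454707262) (nat_lit 522) (nat_lit 1) (nat_lit 498) (nat_lit 1) (nat_lit 497) (nat_lit 0) (nat_lit 421) (nat_lit 360) (nat_lit 359)) (XT.lf (nat_lit 1900) (nat_lit 881293975) (nat_lit 0) (nat_lit 915163545) (nat_lit 1824) (nat_lit 881293975) (nat_lit 523) (nat_lit 1) (nat_lit 498) (nat_lit 1) (nat_lit 522) (nat_lit 1) (nat_lit 422) (nat_lit 360) (nat_lit 358)))))) (XT.nd (nat_lit 59124) (nat_lit 0) (nat_lit 76) (XT.nd (nat_lit 234) (nat_lit 76) (nat_lit 0) (XT.nd (nat_lit 78) (nat_lit 0) (nat_lit 76) (XT.lf (nat_lit 1900) (nat_lit 1724909560) (nat_lit 76) (nat_lit 463351299) (nat_lit 0) (nat_lit 463351299) (nat_lit 523) (nat_lit 1) (nat_lit 499) (nat_lit 1) (nat_lit 498) (nat_lit 1) (nat_lit 423) (nat_lit 360) (nat_lit 357)) (XT.nd (nat_lit 78) (nat_lit 0) (nat_lit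 0) (XT.lf (nat_lit 1900) (nat_lit 838273360) (nat_lit 0) (nat_lit 949214651) (nat_lit 1824) (nat_lit 838273360) (nat_lit 524) (nat_lit 1) (nat_lit 499) (nat_lit 1) (nat_lit 523) (nat_lit 1) (nat_lit 424) (nat_lit 360) (nat_lit 356)) (XT.lf (nat_lit 1900) (nat_lit 1622887338) (nat_lit 76) (nat_lit 488703838) (nat_lit 0) (nat_lit 488703838) (nat_lit 524) (nat_lit 1) (nat_lit 500) (nat_lit 1) (nat_lit 499) (nat_lit 1) (nat_lit 425) (nat_lit 360) (nat_lit 355)))) (XT.nd (nat_lit 58734) (nat_lit 228) (nat_lit 0) (XT.nd (nat_lit 78) (nat_lit 0) (nat_lit 0) (XT.lf (nat_lit 1900) (nat_lit 779766251) (nat_lit 0) (nat_lit 1015584760) (nat_lit 1824) (nat_lit 779766251) (nat_lit 525) (nat_lit 1) (nat_lit 500) (nat_lit 1) (nat_lit 524) (nat_lit 1) (nat_lit 426) (nat_lit 360) (nat_lit 354)) (XT.lf (nat_lit 1900) (nat_lit 1490738439) (nat_lit 76) (nat_lit 529781871) (nat_lit 0) (nat_lit 529781871) (nat_lit 525) (nat_lit 1) (nat_lit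 501) (nat_lit 1) (nat_lit 500) (nat_lit 1) (nat_lit 427) (nat_lit 360) (nat_lit 353))) (XT.nd (nat_lit 78) (nat_lit 0) (nat_lit 0) (XT.lf (nat_lit 1900) (nat_lit 463001173) (nat_lit 0) (nat_lit 466872940) (nat_lit 1900) (nat_lit 463001173) (nat_lit 522) (nat_lit 1) (nat_lit 497) (nat_lit 0) (nat_lit 522) (nat_lit 0) (nat_lit 418) (nat_lit 361) (nat_lit 361)) (XT.lf (nat_lit 1900) (nat_lit 1830776253) (nat_lit 76) (nat_lit 463801407) (nat_lit 0) (nat_lit 463801407) (nat_lit 522) (nat_lit 1) (nat_lit 498) (nat_lit 1) (nat_lit 497) (nat_lit 0) (nat_lit 419) (nat_lit 361) (nat_lit 360))))) (XT.nd (nat_lit 312) (nat_lit 0) (nat_lit 152) (XT.nd (nat_lit 156) (nat_lit 0) (nat_lit 76) (XT.nd (nat_lit 78) (nat_lit 0) (nat_lit 0) (XT.lf (nat_lit 1900) (nat_lit 898919855) (nat_lit 0) (nat_lit 933466816) (nat_lit 1824) (nat_lit 898919855) (nat_lit 523) (nat_lit 1) (nat_lit 498) (nat_lit 1) (nat_lit 522) (nat_lit 1) (nat_lit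 420) (nat_lit 361) (nat_lit 359)) (XT.lf (nat_lit 1900) (nat_lit 1759407752) (nat_lit 76) (nat_lit 472618325) (nat_lit 0) (nat_lit 472618325) (nat_lit 523) (nat_lit 1) (nat_lit 499) (nat_lit 1) (nat_lit 498) (nat_lit 1) (nat_lit 421) (nat_lit 361) (nat_lit 358))) (XT.nd (nat_lit 78) (nat_lit 0) (nat_lit 0) (XT.lf (nat_lit 1900) (nat_lit 855038827) (nat_lit 0) (nat_lit 968198944) (nat_lit 1824) (nat_lit 855038827) (nat_lit 524) (nat_lit 1) (nat_lit 499) (nat_lit 1) (nat_lit 523) (nat_lit 1) (nat_lit 422) (nat_lit 361) (nat_lit 357)) (XT.lf (nat_lit 1900) (nat_lit 1655345085) (nat_lit 76) (nat_lit 498477915) (nat_lit 0) (nat_lit 498477915) (nat_lit 524) (nat_lit 1) (nat_lit 500) (nat_lit 1) (nat_lit 499) (nat_lit 1) (nat_lit 423) (nat_lit 361) (nat_lit 356)))) (XT.nd (nat_lit 156) (nat_lit 0) (nat_lit 76) (XT.nd (nat_lit 78) (nat_lit 0) (nat_lit 0) (XT.lf (nat_lit 1900) (nat_lit 795361576) (nat_lit 0) (nat_lit 1035896455)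 (nat_lit 1824) (nat_lit 795361576) (nat_lit 525) (nat_lit 1) (nat_lit 500) (nat_lit 1) (nat_lit 524) (nat_lit 1) (nat_lit 424) (nat_lit 361) (nat_lit 355)) (XT.lf (nat_lit 1900) (nat_lit 1520553208) (nat_lit 76) (nat_lit 540377508) (nat_lit 0) (nat_lit 540377508) (nat_lit 525) (nat_lit 1) (nat_lit 501) (nat_lit 1) (nat_lit 500) (nat_lit 1) (nat_lit 425) (nat_lit 361) (nat_lit 354))) (XT.nd (nat_lit 78) (nat_lit 0) (nat_lit 0) (XT.lf (nat_lit 1900) (nat_lit 720844628) (nat_lit 0) (nat_lit 1134606438) (nat_lit 1824) (nat_lit 720844628) (nat_lit 526) (nat_lit 1) (nat_lit 501) (nat_lit 1) (nat_lit 525) (nat_lit 1) (nat_lit 426) (nat_lit 361) (nat_lit 353)) (XT.lf (nat_lit 1900) (nat_lit 1356907140) (nat_lit 76) (nat_lit 597360051) (nat_lit 0) (nat_lit 597360051) (nat_lit 526) (nat_lit 1) (nat_lit 502) (nat_lit 1) (nat_lit 501) (nat_lit 1) (nat_lit 427) (nat_lit 361) (nat_lit 352))))))) (XT.nd (nat_lit 59436) (nat_lit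 0) (nat_lit 0) (XT.nd (nat_lit 546) (nat_lit 0) (nat_lit 0) (XT.nd (nat_lit 234) (nat_lit 0) (nat_lit 76) (XT.nd (nat_lit 78) (nat_lit 0) (nat_lit 0) (XT.lf (nat_lit 1900) (nat_lit 472261197) (nat_lit 0) (nat_lit 476210399) (nat_lit 1900) (nat_lit 472261197) (nat_lit 522) (nat_lit 1) (nat_lit 497) (nat_lit 0) (nat_lit 522) (nat_lit 0) (nat_lit 416) (nat_lit 362) (nat_lit 362)) (XT.nd (nat_lit 78) (nat_lit 0) (nat_lit 76) (XT.lf (nat_lit 1900) (nat_lit 1867391778) (nat_lit 76) (nat_lit 473077435) (nat_lit 0) (nat_lit 473077435) (nat_lit 522) (nat_lit 1) (nat_lit 498) (nat_lit 1) (nat_lit 497) (nat_lit 0) (nat_lit 417) (nat_lit 362) (nat_lit 361)) (XT.lf (nat_lit 1900) (nat_lit 916898252) (nat_lit 0) (nat_lit 952136152) (nat_lit 1824) (nat_lit 916898252) (nat_lit 523) (nat_lit 1) (nat_lit 498) (nat_lit 1) (nat_lit 522) (nat_lit 1) (nat_lit 418) (nat_lit 362) (nat_lit 360)))) (XT.nd (nat_lit 156) (nat_lit 0) (nat_lit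 76) (XT.nd (nat_lit 78) (nat_lit 0) (nat_lit 76) (XT.lf (nat_lit 1900) (nat_lit 1794595907) (nat_lit 76) (nat_lit 482070691) (nat_lit 0) (nat_lit 482070691) (nat_lit 523) (nat_lit 1) (nat_lit 499) (nat_lit 1) (nat_lit 498) (nat_lit 1) (nat_lit 419) (nat_lit 362) (nat_lit 359)) (XT.lf (nat_lit 1900) (nat_lit 872139604) (nat_lit 0) (nat_lit 987562923) (nat_lit 1824) (nat_lit 872139604) (nat_lit 524) (nat_lit 1) (nat_lit 499) (nat_lit 1) (nat_lit 523) (nat_lit 1) (nat_lit 420) (nat_lit 362) (nat_lit 358))) (XT.nd (nat_lit 78) (nat_lit 0) (nat_lit 76) (XT.lf (nat_lit 1900) (nat_lit 1688451986) (nat_lit 76) (nat_lit 508447473) (nat_lit 0) (nat_lit 508447473) (nat_lit 524) (nat_lit 1) (nat_lit 500) (nat_lit 1) (nat_lit 499) (nat_lit 1) (nat_lit 421) (nat_lit 362) (nat_lit 357)) (XT.lf (nat_lit 1900) (nat_lit 811268807) (nat_lit 0) (nat_lit 1056614384) (nat_lit 1824) (nat_lit 811268807) (nat_lit 525) (nat_lit 1) (nat_lit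 500) (nat_lit 1) (nat_lit 524) (nat_lit 1) (nat_lit 422) (nat_lit 362) (nat_lit 356))))) (XT.nd (nat_lit 312) (nat_lit 228) (nat_lit 0) (XT.nd (nat_lit 156) (nat_lit 0) (nat_lit 76) (XT.nd (nat_lit 78) (nat_lit 0) (nat_lit 76) (XT.lf (nat_lit 1900) (nat_lit 1550964272) (nat_lit 76) (nat_lit 551185058) (nat_lit 0) (nat_lit 551185058) (nat_lit 525) (nat_lit 1) (nat_lit 501) (nat_lit 1) (nat_lit 500) (nat_lit 1) (nat_lit 423) (nat_lit 362) (nat_lit 355)) (XT.lf (nat_lit 1900) (nat_lit 735261520) (nat_lit 0) (nat_lit 1157298567) (nat_lit 1824) (nat_lit 735261520) (nat_lit 526) (nat_lit 1) (nat_lit 501) (nat_lit 1) (nat_lit 525) (nat_lit 1) (nat_lit 424) (nat_lit 362) (nat_lit 354))) (XT.nd (nat_lit 78) (nat_lit 0) (nat_lit 76) (XT.lf (nat_lit 1900) (nat_lit 1384045283) (nat_lit 76) (nat_lit 609307252) (nat_lit 0) (nat_lit 609307252) (nat_lit 526) (nat_lit 1) (nat_lit 502) (nat_lit 1) (nat_lit 501) (nat_lit 1) (nat_lit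 425) (nat_lit 362) (nat_lit 353)) (XT.lf (nat_lit 1900) (nat_lit 645048652) (nat_lit 0) (nat_lit 1287714309) (nat_lit 1824) (nat_lit 645048652) (nat_lit 527) (nat_lit 1) (nat_lit 502) (nat_lit 1) (nat_lit 526) (nat_lit 1) (nat_lit 426) (nat_lit 362) (nat_lit 352)))) (XT.nd (nat_lit 58422) (nat_lit 0) (nat_lit 0) (XT.nd (nat_lit 58344) (nat_lit 380) (nat_lit 0) (XT.lf (nat_lit 1900) (nat_lit 1189519638) (nat_lit 76) (nat_lit 681882453) (nat_lit 0) (nat_lit 681882453) (nat_lit 527) (nat_lit 1) (nat_lit 503) (nat_lit 1) (nat_lit 502) (nat_lit 1) (nat_lit 427) (nat_lit 362) (nat_lit 351)) (XT.lf (nat_lit 1900) (nat_lit 481706421) (nat_lit 0) (nat_lit 485734607) (nat_lit 1900) (nat_lit 481706421) (nat_lit 522) (nat_lit 1) (nat_lit 497) (nat_lit 0) (nat_lit 522) (nat_lit 0) (nat_lit 414) (nat_lit 363) (nat_lit 363))) (XT.nd (nat_lit 78) (nat_lit 0) (nat_lit 76) (XT.lf (nat_lit 1900) (nat_lit 1904739614) (nat_lit 76)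 (nat_lit 482538984) (nat_lit 0) (nat_lit 482538984) (nat_lit 522) (nat_lit 1) (nat_lit 498) (nat_lit 1) (nat_lit 497) (nat_lit 0) (nat_lit 415) (nat_lit 363) (nat_lit 362)) (XT.lf (nat_lit 1900) (nat_lit 935236217) (nat_lit 0) (nat_lit 971178875) (nat_lit 1824) (nat_lit 935236217) (nat_lit 523) (nat_lit 1) (nat_lit 498) (nat_lit 1) (nat_lit 522) (nat_lit 1) (nat_lit 416) (nat_lit 363) (nat_lit 361)))))) (XT.nd (nat_lit 624) (nat_lit 76) (nat_lit 0) (XT.nd (nat_lit 312) (nat_lit 0) (nat_lit 152) (XT.nd (nat_lit 156) (nat_lit 0) (nat_lit 76) (XT.nd (nat_lit 78) (nat_lit 0) (nat_lit 76) (XT.lf (nat_lit 1900) (nat_lit 1830487825) (nat_lit 76) (nat_lit 491712105) (nat_lit 0) (nat_lit 491712105) (nat_lit 523) (nat_lit 1) (nat_lit 499) (nat_lit 1) (nat_lit 498) (nat_lit 1) (nat_lit 417) (nat_lit 363) (nat_lit 360)) (XT.lf (nat_lit 1900) (nat_lit 889582396) (nat_lit 0) (nat_lit 1007314181) (nat_lit 1824) (nat_lit 889582396)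 (nat_lit 524) (nat_lit 1) (nat_lit 499) (nat_lit 1) (nat_lit 523) (nat_lit 1) (nat_lit 418) (nat_lit 363) (nat_lit 359))) (XT.nd (nat_lit 78) (nat_lit 0) (nat_lit 76) (XT.lf (nat_lit 1900) (nat_lit 1722221026) (nat_lit 76) (nat_lit 518616423) (nat_lit 0) (nat_lit 518616423) (nat_lit 524) (nat_lit 1) (nat_lit 500) (nat_lit 1) (nat_lit 499) (nat_lit 1) (nat_lit 419) (nat_lit 363) (nat_lit 358)) (XT.lf (nat_lit 1900) (nat_lit 827494183) (nat_lit 0) (nat_lit 1077746672) (nat_lit 1824) (nat_lit 827494183) (nat_lit 525) (nat_lit 1) (nat_lit 500) (nat_lit 1) (nat_lit 524) (nat_lit 1) (nat_lit 420) (nat_lit 363) (nat_lit 357)))) (XT.nd (nat_lit 156) (nat_lit 0) (nat_lit 76) (XT.nd (nat_lit 78) (nat_lit 0) (nat_lit 76) (XT.lf (nat_lit 1900) (nat_lit 1581983557) (nat_lit 76) (nat_lit 562208759) (nat_lit 0) (nat_lit 562208759) (nat_lit 525) (nat_lit 1) (nat_lit 501) (nat_lit 1) (nat_lit 500) (nat_lit 1) (nat_lit 421) (nat_lit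 363) (nat_lit 356)) (XT.lf (nat_lit 1900) (nat_lit 749966751) (nat_lit 0) (nat_lit 1180444538) (nat_lit 1824) (nat_lit 749966751) (nat_lit 526) (nat_lit 1) (nat_lit 501) (nat_lit 1) (nat_lit 525) (nat_lit 1) (nat_lit 422) (nat_lit 363) (nat_lit 355))) (XT.nd (nat_lit 78) (nat_lit 0) (nat_lit 76) (XT.lf (nat_lit 1900) (nat_lit 1411726188) (nat_lit 76) (nat_lit 621493397) (nat_lit 0) (nat_lit 621493397) (nat_lit 526) (nat_lit 1) (nat_lit 502) (nat_lit 1) (nat_lit 501) (nat_lit 1) (nat_lit 423) (nat_lit 363) (nat_lit 354)) (XT.lf (nat_lit 1900) (nat_lit 657949625) (nat_lit 0) (nat_lit 1313468596) (nat_lit 1824) (nat_lit 657949625) (nat_lit 527) (nat_lit 1) (nat_lit 502) (nat_lit 1) (nat_lit 526) (nat_lit 1) (nat_lit 424) (nat_lit 363) (nat_lit 353))))) (XT.nd (nat_lit 58422) (nat_lit 0) (nat_lit 0) (XT.nd (nat_lit 156) (nat_lit 380) (nat_lit 0) (XT.nd (nat_lit 78) (nat_lit 0) (nat_lit 76) (XT.lf (nat_lit 1900) (nat_lit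 1213310031) (nat_lit 76) (nat_lit 695520102) (nat_lit 0) (nat_lit 695520102) (nat_lit 527) (nat_lit 1) (nat_lit 503) (nat_lit 1) (nat_lit 502) (nat_lit 1) (nat_lit 425) (nat_lit 363) (nat_lit 352)) (XT.lf (nat_lit 1900) (nat_lit 552348599) (nat_lit 0) (nat_lit 1474968416) (nat_lit 1824) (nat_lit 552348599) (nat_lit 528) (nat_lit 1) (nat_lit 503) (nat_lit 1) (nat_lit 527) (nat_lit 1) (nat_lit 426) (nat_lit 363) (nat_lit 351))) (XT.nd (nat_lit 58188) (nat_lit 456) (nat_lit 0) (XT.lf (nat_lit 1900) (nat_lit 988510291) (nat_lit 76) (nat_lit 783382222) (nat_lit 0) (nat_lit 783382222) (nat_lit 528) (nat_lit 1) (nat_lit 504) (nat_lit 1) (nat_lit 503) (nat_lit 1) (nat_lit 427) (nat_lit 363) (nat_lit 350)) (XT.lf (nat_lit 1900) (nat_lit 491340549) (nat_lit 0) (nat_lit 495449299) (nat_lit 1900) (nat_lit 491340549) (nat_lit 522) (nat_lit 1) (nat_lit 497) (nat_lit 0) (nat_lit 522) (nat_lit 0) (nat_lit 412) (nat_lit 364) (nat_lit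 364)))) (XT.nd (nat_lit 156) (nat_lit 0) (nat_lit 76) (XT.nd (nat_lit 78) (nat_lit 0) (nat_lit 76) (XT.lf (nat_lit 1900) (nat_lit 1942834406) (nat_lit 76) (nat_lit 492189764) (nat_lit 0) (nat_lit 492189764) (nat_lit 522) (nat_lit 1) (nat_lit 498) (nat_lit 1) (nat_lit 497) (nat_lit 0) (nat_lit 413) (nat_lit 364) (nat_lit 363)) (XT.lf (nat_lit 1900) (nat_lit 953940941) (nat_lit 0) (nat_lit 990602453) (nat_lit 1824) (nat_lit 953940941) (nat_lit 523) (nat_lit 1) (nat_lit 498) (nat_lit 1) (nat_lit 522) (nat_lit 1) (nat_lit 414) (nat_lit 364) (nat_lit 362))) (XT.nd (nat_lit 78) (nat_lit 0) (nat_lit 76) (XT.lf (nat_lit 1900) (nat_lit 1867097581) (nat_lit 76) (nat_lit 501546347) (nat_lit 0) (nat_lit 501546347) (nat_lit 523) (nat_lit 1) (nat_lit 499) (nat_lit 1) (nat_lit 498) (nat_lit 1) (nat_lit 415) (nat_lit 364) (nat_lit 361)) (XT.lf (nat_lit 1900) (nat_lit 907374044) (nat_lit 0) (nat_lit 1027460465) (nat_lit 1824) (nat_lit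 907374044) (nat_lit 524) (nat_lit 1) (nat_lit 499) (nat_lit 1) (nat_lit 523) (nat_lit 1) (nat_lit 416) (nat_lit 364) (nat_lit 360))))))))
noncomputable def ec1 : XT := (XT.nd (nat_lit 118248) (nat_lit 0) (nat_lit 0) (XT.nd (nat_lit 59124) (nat_lit 0) (nat_lit 0) (XT.nd (nat_lit 546) (nat_lit 152) (nat_lit 0) (XT.nd (nat_lit 234) (nat_lit 0) (nat_lit 152) (XT.nd (nat_lit 78) (nat_lit 0) (nat_lit 76) (XT.lf (nat_lit 1900) (nat_lit 1756665447) (nat_lit 76) (nat_lit 528988751) (nat_lit 0) (nat_lit 528988751) (nat_lit 524) (nat_lit 1) (nat_lit 500) (nat_lit 1) (nat_lit 499) (nat_lit 1) (nat_lit 417) (nat_lit 364) (nat_lit 359)) (XT.nd (nat_lit 78) (nat_lit 0) (nat_lit 0) (XT.lf (nat_lit 1900) (nat_lit 844044067) (nat_lit 0) (nat_lit 1099301605) (nat_lit 1824) (nat_lit 844044067) (nat_lit 525) (nat_lit 1) (nat_lit 500) (nat_lit 1) (nat_lit 524) (nat_lit 1) (nat_lit 418) (nat_lit 364) (nat_lit 358)) (XT.lf (nat_lit 1900)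 (nat_lit 1613623228) (nat_lit 76) (nat_lit 573452935) (nat_lit 0) (nat_lit 573452935) (nat_lit 525) (nat_lit 1) (nat_lit 501) (nat_lit 1) (nat_lit 500) (nat_lit 1) (nat_lit 419) (nat_lit 364) (nat_lit 357)))) (XT.nd (nat_lit 156) (nat_lit 0) (nat_lit 76) (XT.nd (nat_lit 78) (nat_lit 0) (nat_lit 0) (XT.lf (nat_lit 1900) (nat_lit 764966086) (nat_lit 0) (nat_lit 1204053429) (nat_lit 1824) (nat_lit 764966086) (nat_lit 526) (nat_lit 1) (nat_lit 501) (nat_lit 1) (nat_lit 525) (nat_lit 1) (nat_lit 420) (nat_lit 364) (nat_lit 356)) (XT.lf (nat_lit 1900) (nat_lit 1439960712) (nat_lit 76) (nat_lit 633923265) (nat_lit 0) (nat_lit 633923265) (nat_lit 526) (nat_lit 1) (nat_lit 502) (nat_lit 1) (nat_lit 501) (nat_lit 1) (nat_lit 421) (nat_lit 364) (nat_lit 355))) (XT.nd (nat_lit 78) (nat_lit 0) (nat_lit 0) (XT.lf (nat_lit 1900) (nat_lit 671108617) (nat_lit 0) (nat_lit 1339737968) (nat_lit 1824) (nat_lit 671108617) (nat_lit 527)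 (nat_lit 1) (nat_lit 502) (nat_lit 1) (nat_lit 526) (nat_lit 1) (nat_lit 422) (nat_lit 364) (nat_lit 354)) (XT.lf (nat_lit 1900) (nat_lit 1237576232) (nat_lit 76) (nat_lit 709430504) (nat_lit 0) (nat_lit 709430504) (nat_lit 527) (nat_lit 1) (nat_lit 503) (nat_lit 1) (nat_lit 502) (nat_lit 1) (nat_lit 423) (nat_lit 364) (nat_lit 353))))) (XT.nd (nat_lit 58266) (nat_lit 456) (nat_lit 0) (XT.nd (nat_lit 156) (nat_lit 0) (nat_lit 76) (XT.nd (nat_lit 78) (nat_lit 0) (nat_lit 0) (XT.lf (nat_lit 1900) (nat_lit 563395571) (nat_lit 0) (nat_lit 1504467784) (nat_lit 1824) (nat_lit 563395571) (nat_lit 528) (nat_lit 1) (nat_lit 503) (nat_lit 1) (nat_lit 527) (nat_lit 1) (nat_lit 424) (nat_lit 364) (nat_lit 352)) (XT.lf (nat_lit 1900) (nat_lit 1008280497) (nat_lit 76) (nat_lit 799049867) (nat_lit 0) (nat_lit 799049867) (nat_lit 528) (nat_lit 1) (nat_lit 504) (nat_lit 1) (nat_lit 503) (nat_lit 1) (nat_lit 425) (nat_lit 364) (nat_lit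 351))) (XT.nd (nat_lit 78) (nat_lit 0) (nat_lit 0) (XT.lf (nat_lit 1900) (nat_lit 442708117) (nat_lit 0) (nat_lit 1696442190) (nat_lit 1824) (nat_lit 442708117) (nat_lit 529) (nat_lit 1) (nat_lit 504) (nat_lit 1) (nat_lit 528) (nat_lit 1) (nat_lit 426) (nat_lit 364) (nat_lit 350)) (XT.lf (nat_lit 1900) (nat_lit 753800271) (nat_lit 76) (nat_lit 901899163) (nat_lit 0) (nat_lit 901899163) (nat_lit 529) (nat_lit 1) (nat_lit 505) (nat_lit 1) (nat_lit 504) (nat_lit 1) (nat_lit 427) (nat_lit 364) (nat_lit 349)))) (XT.nd (nat_lit 156) (nat_lit 0) (nat_lit 76) (XT.nd (nat_lit 78) (nat_lit 0) (nat_lit 0) (XT.lf (nat_lit 1900) (nat_lit 501167360) (nat_lit 0) (nat_lit 505358285) (nat_lit 1900) (nat_lit 501167360) (nat_lit 522) (nat_lit 1) (nat_lit 497) (nat_lit 0) (nat_lit 522) (nat_lit 0) (nat_lit 410) (nat_lit 365) (nat_lit 365)) (XT.lf (nat_lit 1900) (nat_lit 1981691094) (nat_lit 76) (nat_lit 502033559) (nat_lit 0) (nat_lit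 502033559) (nat_lit 522) (nat_lit 1) (nat_lit 498) (nat_lit 1) (nat_lit 497) (nat_lit 0) (nat_lit 411) (nat_lit 365) (nat_lit 364))) (XT.nd (nat_lit 78) (nat_lit 0) (nat_lit 0) (XT.lf (nat_lit 1900) (nat_lit 973019760) (nat_lit 0) (nat_lit 1010414502) (nat_lit 1824) (nat_lit 973019760) (nat_lit 523) (nat_lit 1) (nat_lit 498) (nat_lit 1) (nat_lit 522) (nat_lit 1) (nat_lit 412) (nat_lit 365) (nat_lit 363)) (XT.lf (nat_lit 1900) (nat_lit 1904439533) (nat_lit 76) (nat_lit 511577274) (nat_lit 0) (nat_lit 511577274) (nat_lit 523) (nat_lit 1) (nat_lit 499) (nat_lit 1) (nat_lit 498) (nat_lit 1) (nat_lit 413) (nat_lit 365) (nat_lit 362)))))) (XT.nd (nat_lit 624) (nat_lit 152) (nat_lit 0) (XT.nd (nat_lit 312) (nat_lit 0) (nat_lit 152) (XT.nd (nat_lit 156) (nat_lit 0) (nat_lit 76) (XT.nd (nat_lit 78) (nat_lit 0) (nat_lit 0) (XT.lf (nat_lit 1900) (nat_lit 925521525) (nat_lit 0) (nat_lit 1048009674) (nat_lit 1824) (nat_lit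 925521525) (nat_lit 524) (nat_lit 1) (nat_lit 499) (nat_lit 1) (nat_lit 523) (nat_lit 1) (nat_lit 414) (nat_lit 365) (nat_lit 361)) (XT.lf (nat_lit 1900) (nat_lit 1791798755) (nat_lit 76) (nat_lit 539568526) (nat_lit 0) (nat_lit 539568526) (nat_lit 524) (nat_lit 1) (nat_lit 500) (nat_lit 1) (nat_lit 499) (nat_lit 1) (nat_lit 415) (nat_lit 365) (nat_lit 360))) (XT.nd (nat_lit 78) (nat_lit 0) (nat_lit 0) (XT.lf (nat_lit 1900) (nat_lit 860924948) (nat_lit 0) (nat_lit 1121287637) (nat_lit 1824) (nat_lit 860924948) (nat_lit 525) (nat_lit 1) (nat_lit 500) (nat_lit 1) (nat_lit 524) (nat_lit 1) (nat_lit 416) (nat_lit 365) (nat_lit 359)) (XT.lf (nat_lit 1900) (nat_lit 1645895693) (nat_lit 76) (nat_lit 584921993) (nat_lit 0) (nat_lit 584921993) (nat_lit 525) (nat_lit 1) (nat_lit 501) (nat_lit 1) (nat_lit 500) (nat_lit 1) (nat_lit 417) (nat_lit 365) (nat_lit 358)))) (XT.nd (nat_lit 156) (nat_lit 0) (nat_lit 76) (XT.nd (nat_lit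 78) (nat_lit 0) (nat_lit 0) (XT.lf (nat_lit 1900) (nat_lit 780265407) (nat_lit 0) (nat_lit 1228134498) (nat_lit 1824) (nat_lit 780265407) (nat_lit 526) (nat_lit 1) (nat_lit 501) (nat_lit 1) (nat_lit 525) (nat_lit 1) (nat_lit 418) (nat_lit 365) (nat_lit 357)) (XT.lf (nat_lit 1900) (nat_lit 1468759927) (nat_lit 76) (nat_lit 646601731) (nat_lit 0) (nat_lit 646601731) (nat_lit 526) (nat_lit 1) (nat_lit 502) (nat_lit 1) (nat_lit 501) (nat_lit 1) (nat_lit 419) (nat_lit 365) (nat_lit 356))) (XT.nd (nat_lit 78) (nat_lit 0) (nat_lit 0) (XT.lf (nat_lit 1900) (nat_lit 684530790) (nat_lit 0) (nat_lit 1366532727) (nat_lit 1824) (nat_lit 684530790) (nat_lit 527) (nat_lit 1) (nat_lit 502) (nat_lit 1) (nat_lit 526) (nat_lit 1) (nat_lit 420) (nat_lit 365) (nat_lit 355)) (XT.lf (nat_lit 1900) (nat_lit 1262327756) (nat_lit 76) (nat_lit 723619114) (nat_lit 0) (nat_lit 723619114) (nat_lit 527) (nat_lit 1) (nat_lit 503) (nat_lit 1)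 (nat_lit 502) (nat_lit 1) (nat_lit 421) (nat_lit 365) (nat_lit 354))))) (XT.nd (nat_lit 312) (nat_lit 456) (nat_lit 0) (XT.nd (nat_lit 156) (nat_lit 0) (nat_lit 76) (XT.nd (nat_lit 78) (nat_lit 0) (nat_lit 0) (XT.lf (nat_lit 1900) (nat_lit 574663483) (nat_lit 0) (nat_lit 1534557140) (nat_lit 1824) (nat_lit 574663483) (nat_lit 528) (nat_lit 1) (nat_lit 503) (nat_lit 1) (nat_lit 527) (nat_lit 1) (nat_lit 422) (nat_lit 365) (nat_lit 353)) (XT.lf (nat_lit 1900) (nat_lit 1028446107) (nat_lit 76) (nat_lit 815030864) (nat_lit 0) (nat_lit 815030864) (nat_lit 528) (nat_lit 1) (nat_lit 504) (nat_lit 1) (nat_lit 503) (nat_lit 1) (nat_lit 423) (nat_lit 365) (nat_lit 352))) (XT.nd (nat_lit 78) (nat_lit 0) (nat_lit 0) (XT.lf (nat_lit 1900) (nat_lit 451562279) (nat_lit 0) (nat_lit 1730371034) (nat_lit 1824) (nat_lit 451562279) (nat_lit 529) (nat_lit 1) (nat_lit 504) (nat_lit 1) (nat_lit 528) (nat_lit 1) (nat_lit 424) (nat_lit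 365) (nat_lit 351)) (XT.lf (nat_lit 1900) (nat_lit 768876277) (nat_lit 76) (nat_lit 919937146) (nat_lit 0) (nat_lit 919937146) (nat_lit 529) (nat_lit 1) (nat_lit 505) (nat_lit 1) (nat_lit 504) (nat_lit 1) (nat_lit 425) (nat_lit 365) (nat_lit 350)))) (XT.nd (nat_lit 58032) (nat_lit 0) (nat_lit 0) (XT.nd (nat_lit 57954) (nat_lit 608) (nat_lit 0) (XT.lf (nat_lit 1900) (nat_lit 316084209) (nat_lit 0) (nat_lit 1952222485) (nat_lit 1824) (nat_lit 316084209) (nat_lit 530) (nat_lit 1) (nat_lit 505) (nat_lit 1) (nat_lit 529) (nat_lit 1) (nat_lit 426) (nat_lit 365) (nat_lit 349)) (XT.lf (nat_lit 1900) (nat_lit 511190707) (nat_lit 0) (nat_lit 515465450) (nat_lit 1900) (nat_lit 511190707) (nat_lit 522) (nat_lit 1) (nat_lit 497) (nat_lit 0) (nat_lit 522) (nat_lit 0) (nat_lit 408) (nat_lit 366) (nat_lit 366))) (XT.nd (nat_lit 78) (nat_lit 0) (nat_lit 76) (XT.lf (nat_lit 1900) (nat_lit 2021324916) (nat_lit 76) (nat_lit 512074230)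 (nat_lit 0) (nat_lit 512074230) (nat_lit 522) (nat_lit 1) (nat_lit 498) (nat_lit 1) (nat_lit 497) (nat_lit 0) (nat_lit 409) (nat_lit 366) (nat_lit 365)) (XT.lf (nat_lit 1900) (nat_lit 992480155) (nat_lit 0) (nat_lit 1030622792) (nat_lit 1824) (nat_lit 992480155) (nat_lit 523) (nat_lit 1) (nat_lit 498) (nat_lit 1) (nat_lit 522) (nat_lit 1) (nat_lit 410) (nat_lit 366) (nat_lit 364))))))) (XT.nd (nat_lit 1170) (nat_lit 76) (nat_lit 0) (XT.nd (nat_lit 546) (nat_lit 0) (nat_lit 304) (XT.nd (nat_lit 234) (nat_lit 0) (nat_lit 152) (XT.nd (nat_lit 78) (nat_lit 0) (nat_lit 76) (XT.lf (nat_lit 1900) (nat_lit 1942528324) (nat_lit 76) (nat_lit 521808819) (nat_lit 0) (nat_lit 521808819) (nat_lit 523) (nat_lit 1) (nat_lit 499) (nat_lit 1) (nat_lit 498) (nat_lit 1) (nat_lit 411) (nat_lit 366) (nat_lit 363)) (XT.nd (nat_lit 78) (nat_lit 0) (nat_lit 0) (XT.lf (nat_lit 1900) (nat_lit 944031955) (nat_lit 0) (nat_lit 1068969868) (nat_lit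 1824) (nat_lit 944031955) (nat_lit 524) (nat_lit 1) (nat_lit 499) (nat_lit 1) (nat_lit 523) (nat_lit 1) (nat_lit 412) (nat_lit 366) (nat_lit 362)) (XT.lf (nat_lit 1900) (nat_lit 1827634731) (nat_lit 76) (nat_lit 550359897) (nat_lit 0) (nat_lit 550359897) (nat_lit 524) (nat_lit 1) (nat_lit 500) (nat_lit 1) (nat_lit 499) (nat_lit 1) (nat_lit 413) (nat_lit 366) (nat_lit 361)))) (XT.nd (nat_lit 156) (nat_lit 0) (nat_lit 76) (XT.nd (nat_lit 78) (nat_lit 0) (nat_lit 0) (XT.lf (nat_lit 1900) (nat_lit 878143447) (nat_lit 0) (nat_lit 1143713390) (nat_lit 1824) (nat_lit 878143447) (nat_lit 525) (nat_lit 1) (nat_lit 500) (nat_lit 1) (nat_lit 524) (nat_lit 1) (nat_lit 414) (nat_lit 366) (nat_lit 360)) (XT.lf (nat_lit 1900) (nat_lit 1678813607) (nat_lit 76) (nat_lit 596620433) (nat_lit 0) (nat_lit 596620433) (nat_lit 525) (nat_lit 1) (nat_lit 501) (nat_lit 1) (nat_lit 500) (nat_lit 1) (nat_lit 415) (nat_lit 366) (nat_lit 359)))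 (XT.nd (nat_lit 78) (nat_lit 0) (nat_lit 0) (XT.lf (nat_lit 1900) (nat_lit 795870716) (nat_lit 0) (nat_lit 1252697188) (nat_lit 1824) (nat_lit 795870716) (nat_lit 526) (nat_lit 1) (nat_lit 501) (nat_lit 1) (nat_lit 525) (nat_lit 1) (nat_lit 416) (nat_lit 366) (nat_lit 358)) (XT.lf (nat_lit 1900) (nat_lit 1498135125) (nat_lit 76) (nat_lit 659533765) (nat_lit 0) (nat_lit 659533765) (nat_lit 526) (nat_lit 1) (nat_lit 502) (nat_lit 1) (nat_lit 501) (nat_lit 1) (nat_lit 417) (nat_lit 366) (nat_lit 357))))) (XT.nd (nat_lit 312) (nat_lit 0) (nat_lit 152) (XT.nd (nat_lit 156) (nat_lit 0) (nat_lit 76) (XT.nd (nat_lit 78) (nat_lit 0) (nat_lit 0) (XT.lf (nat_lit 1900) (nat_lit 698221406) (nat_lit 0) (nat_lit 1393863381) (nat_lit 1824) (nat_lit 698221406) (nat_lit 527) (nat_lit 1) (nat_lit 502) (nat_lit 1) (nat_lit 526) (nat_lit 1) (nat_lit 418) (nat_lit 366) (nat_lit 356)) (XT.lf (nat_lit 1900) (nat_lit 1287574311) (nat_lit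 76) (nat_lit 738091497) (nat_lit 0) (nat_lit 738091497) (nat_lit 527) (nat_lit 1) (nat_lit 503) (nat_lit 1) (nat_lit 502) (nat_lit 1) (nat_lit 419) (nat_lit 366) (nat_lit 355))) (XT.nd (nat_lit 78) (nat_lit 0) (nat_lit 0) (XT.lf (nat_lit 1900) (nat_lit 586156752) (nat_lit 0) (nat_lit 1565248282) (nat_lit 1824) (nat_lit 586156752) (nat_lit 528) (nat_lit 1) (nat_lit 503) (nat_lit 1) (nat_lit 527) (nat_lit 1) (nat_lit 420) (nat_lit 366) (nat_lit 354)) (XT.lf (nat_lit 1900) (nat_lit 1049015029) (nat_lit 76) (nat_lit 831331482) (nat_lit 0) (nat_lit 831331482) (nat_lit 528) (nat_lit 1) (nat_lit 504) (nat_lit 1) (nat_lit 503) (nat_lit 1) (nat_lit 421) (nat_lit 366) (nat_lit 353)))) (XT.nd (nat_lit 156) (nat_lit 0) (nat_lit 76) (XT.nd (nat_lit 78) (nat_lit 0) (nat_lit 0) (XT.lf (nat_lit 1900) (nat_lit 460593525) (nat_lit 0) (nat_lit 1764978454) (nat_lit 1824) (nat_lit 460593525) (nat_lit 529) (nat_lit 1) (nat_lit 504)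 (nat_lit 1) (nat_lit 528) (nat_lit 1) (nat_lit 422) (nat_lit 366) (nat_lit 352)) (XT.lf (nat_lit 1900) (nat_lit 784253802) (nat_lit 76) (nat_lit 938335889) (nat_lit 0) (nat_lit 938335889) (nat_lit 529) (nat_lit 1) (nat_lit 505) (nat_lit 1) (nat_lit 504) (nat_lit 1) (nat_lit 423) (nat_lit 366) (nat_lit 351))) (XT.nd (nat_lit 78) (nat_lit 0) (nat_lit 0) (XT.lf (nat_lit 1900) (nat_lit 322405893) (nat_lit 0) (nat_lit 1991266934) (nat_lit 1824) (nat_lit 322405893) (nat_lit 530) (nat_lit 1) (nat_lit 505) (nat_lit 1) (nat_lit 529) (nat_lit 1) (nat_lit 424) (nat_lit 366) (nat_lit 350)) (XT.lf (nat_lit 1900) (nat_lit 495003487) (nat_lit 76) (nat_lit 1058229347) (nat_lit 0) (nat_lit 1058229347) (nat_lit 530) (nat_lit 1) (nat_lit 506) (nat_lit 1) (nat_lit 505) (nat_lit 1) (nat_lit 425) (nat_lit 366) (nat_lit 349)))))) (XT.nd (nat_lit 58344) (nat_lit 0) (nat_lit 228) (XT.nd (nat_lit 58032) (nat_lit 0) (nat_lit 76) (XT.nd (nat_lit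 57876) (nat_lit 0) (nat_lit 0) (XT.nd (nat_lit 57798) (nat_lit 684) (nat_lit 0) (XT.lf (nat_lit 1900) (nat_lit 172427218) (nat_lit 0) (nat_lit 2242409606) (nat_lit 1824) (nat_lit 172427218) (nat_lit 531) (nat_lit 1) (nat_lit 506) (nat_lit 1) (nat_lit 530) (nat_lit 1) (nat_lit 426) (nat_lit 366) (nat_lit 348)) (XT.lf (nat_lit 1900) (nat_lit 521414521) (nat_lit 0) (nat_lit 525774759) (nat_lit 1900) (nat_lit 521414521) (nat_lit 522) (nat_lit 1) (nat_lit 497) (nat_lit 0) (nat_lit 522) (nat_lit 0) (nat_lit 406) (nat_lit 367) (nat_lit 367))) (XT.nd (nat_lit 78) (nat_lit 0) (nat_lit 76) (XT.lf (nat_lit 1900) (nat_lit 2061751414) (nat_lit 76) (nat_lit 522315715) (nat_lit 0) (nat_lit 522315715) (nat_lit 522) (nat_lit 1) (nat_lit 498) (nat_lit 1) (nat_lit 497) (nat_lit 0) (nat_lit 407) (nat_lit 367) (nat_lit 366)) (XT.lf (nat_lit 1900) (nat_lit 1012329758) (nat_lit 0) (nat_lit 1051235248) (nat_lit 1824) (nat_lit 1012329758)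 (nat_lit 523) (nat_lit 1) (nat_lit 498) (nat_lit 1) (nat_lit 522) (nat_lit 1) (nat_lit 408) (nat_lit 367) (nat_lit 365)))) (XT.nd (nat_lit 156) (nat_lit 0) (nat_lit 76) (XT.nd (nat_lit 78) (nat_lit 0) (nat_lit 76) (XT.lf (nat_lit 1900) (nat_lit 1981378890) (nat_lit 76) (nat_lit 532244996) (nat_lit 0) (nat_lit 532244996) (nat_lit 523) (nat_lit 1) (nat_lit 499) (nat_lit 1) (nat_lit 498) (nat_lit 1) (nat_lit 409) (nat_lit 367) (nat_lit 364)) (XT.lf (nat_lit 1900) (nat_lit 962912594) (nat_lit 0) (nat_lit 1090349265) (nat_lit 1824) (nat_lit 962912594) (nat_lit 524) (nat_lit 1) (nat_lit 499) (nat_lit 1) (nat_lit 523) (nat_lit 1) (nat_lit 410) (nat_lit 367) (nat_lit 363))) (XT.nd (nat_lit 78) (nat_lit 0) (nat_lit 76) (XT.lf (nat_lit 1900) (nat_lit 1864187425) (nat_lit 76) (nat_lit 561367095) (nat_lit 0) (nat_lit 561367095) (nat_lit 524) (nat_lit 1) (nat_lit 500) (nat_lit 1) (nat_lit 499) (nat_lit 1) (nat_lit 411) (nat_lit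 367) (nat_lit 362)) (XT.lf (nat_lit 1900) (nat_lit 895706316) (nat_lit 0) (nat_lit 1166587658) (nat_lit 1824) (nat_lit 895706316) (nat_lit 525) (nat_lit 1) (nat_lit 500) (nat_lit 1) (nat_lit 524) (nat_lit 1) (nat_lit 412) (nat_lit 367) (nat_lit 361))))) (XT.nd (nat_lit 312) (nat_lit 0) (nat_lit 152) (XT.nd (nat_lit 156) (nat_lit 0) (nat_lit 76) (XT.nd (nat_lit 78) (nat_lit 0) (nat_lit 76) (XT.lf (nat_lit 1900) (nat_lit 1712389879) (nat_lit 76) (nat_lit 608552842) (nat_lit 0) (nat_lit 608552842) (nat_lit 525) (nat_lit 1) (nat_lit 501) (nat_lit 1) (nat_lit 500) (nat_lit 1) (nat_lit 413) (nat_lit 367) (nat_lit 360)) (XT.lf (nat_lit 1900) (nat_lit 811788130) (nat_lit 0) (nat_lit 1277751132) (nat_lit 1824) (nat_lit 811788130) (nat_lit 526) (nat_lit 1) (nat_lit 501) (nat_lit 1) (nat_lit 525) (nat_lit 1) (nat_lit 414) (nat_lit 367) (nat_lit 359))) (XT.nd (nat_lit 78) (nat_lit 0) (nat_lit 76) (XT.lf (nat_lit 1900) (nat_lit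 1528097828) (nat_lit 76) (nat_lit 672724440) (nat_lit 0) (nat_lit 672724440) (nat_lit 526) (nat_lit 1) (nat_lit 502) (nat_lit 1) (nat_lit 501) (nat_lit 1) (nat_lit 415) (nat_lit 367) (nat_lit 358)) (XT.lf (nat_lit 1900) (nat_lit 712185834) (nat_lit 0) (nat_lit 1421740649) (nat_lit 1824) (nat_lit 712185834) (nat_lit 527) (nat_lit 1) (nat_lit 502) (nat_lit 1) (nat_lit 526) (nat_lit 1) (nat_lit 416) (nat_lit 367) (nat_lit 357)))) (XT.nd (nat_lit 156) (nat_lit 0) (nat_lit 76) (XT.nd (nat_lit 78) (nat_lit 0) (nat_lit 76) (XT.lf (nat_lit 1900) (nat_lit 1313325798) (nat_lit 76) (nat_lit 752853327) (nat_lit 0) (nat_lit 752853327) (nat_lit 527) (nat_lit 1) (nat_lit 503) (nat_lit 1) (nat_lit 502) (nat_lit 1) (nat_lit 417) (nat_lit 367) (nat_lit 356)) (XT.lf (nat_lit 1900) (nat_lit 597879887) (nat_lit 0) (nat_lit 1596553248) (nat_lit 1824) (nat_lit 597879887) (nat_lit 528) (nat_lit 1) (nat_lit 503) (nat_lit 1) (nat_lit 527)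 (nat_lit 1) (nat_lit 418) (nat_lit 367) (nat_lit 355))) (XT.nd (nat_lit 78) (nat_lit 0) (nat_lit 76) (XT.lf (nat_lit 1900) (nat_lit 1069995330) (nat_lit 76) (nat_lit 847958111) (nat_lit 0) (nat_lit 847958111) (nat_lit 528) (nat_lit 1) (nat_lit 504) (nat_lit 1) (nat_lit 503) (nat_lit 1) (nat_lit 419) (nat_lit 367) (nat_lit 354)) (XT.lf (nat_lit 1900) (nat_lit 469805395) (nat_lit 0) (nat_lit 1800278023) (nat_lit 1824) (nat_lit 469805395) (nat_lit 529) (nat_lit 1) (nat_lit 504) (nat_lit 1) (nat_lit 528) (nat_lit 1) (nat_lit 420) (nat_lit 367) (nat_lit 353))))))))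
noncomputable def ec2 : XT := (XT.nd (nat_lit 117312) (nat_lit 0) (nat_lit 0) (XT.nd (nat_lit 58734) (nat_lit 1140) (nat_lit 0) (XT.nd (nat_lit 58110) (nat_lit 0) (nat_lit 0) (XT.nd (nat_lit 234) (nat_lit 532) (nat_lit 0) (XT.nd (nat_lit 78) (nat_lit 0) (nat_lit 76) (XT.lf (nat_lit 1900) (nat_lit 799938878) (nat_lit 76) (nat_lit 957102607) (nat_lit 0) (nat_lit 957102607) (nat_lit 529) (nat_lit 1) (nat_lit 505) (nat_lit 1) (nat_lit 504) (nat_lit 1) (nat_lit 421) (nat_lit 367) (nat_lit 352)) (XT.nd (nat_lit 78) (nat_lit 0) (nat_lit 0) (XT.lf (nat_lit 1900) (nat_lit 328854011) (nat_lit 0) (nat_lit 2031092273) (nat_lit 1824) (nat_lit 328854011) (nat_lit 530) (nat_lit 1) (nat_lit 505) (nat_lit 1) (nat_lit 529) (nat_lit 1) (nat_lit 422) (nat_lit 367) (nat_lit 351)) (XT.lf (nat_lit 1900) (nat_lit 504903557) (nat_lit 76) (nat_lit 1079393934) (nat_lit 0) (nat_lit 1079393934) (nat_lit 530) (nat_lit 1) (nat_lit 506) (nat_lit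 1) (nat_lit 505) (nat_lit 1) (nat_lit 423) (nat_lit 367) (nat_lit 350)))) (XT.nd (nat_lit 156) (nat_lit 684) (nat_lit 0) (XT.nd (nat_lit 78) (nat_lit 0) (nat_lit 0) (XT.lf (nat_lit 1900) (nat_lit 175875762) (nat_lit 0) (nat_lit 2287257798) (nat_lit 1824) (nat_lit 175875762) (nat_lit 531) (nat_lit 1) (nat_lit 506) (nat_lit 1) (nat_lit 530) (nat_lit 1) (nat_lit 424) (nat_lit 367) (nat_lit 349)) (XT.lf (nat_lit 1900) (nat_lit 186554726) (nat_lit 76) (nat_lit 1213980702) (nat_lit 0) (nat_lit 1213980702) (nat_lit 531) (nat_lit 1) (nat_lit 507) (nat_lit 1) (nat_lit 506) (nat_lit 1) (nat_lit 425) (nat_lit 367) (nat_lit 348))) (XT.nd (nat_lit 57642) (nat_lit 760) (nat_lit 0) (XT.lf (nat_lit 1900) (nat_lit 11680809) (nat_lit 0) (nat_lit 2567117352) (nat_lit 1824) (nat_lit 11680809) (nat_lit 532) (nat_lit 1) (nat_lit 507) (nat_lit 1) (nat_lit 531) (nat_lit 1) (nat_lit 426) (nat_lit 367) (nat_lit 347)) (XT.lf (nat_lit 1900)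 (nat_lit 531842812) (nat_lit 0) (nat_lit 536290255) (nat_lit 1900) (nat_lit 531842812) (nat_lit 522) (nat_lit 1) (nat_lit 497) (nat_lit 0) (nat_lit 522) (nat_lit 0) (nat_lit 404) (nat_lit 368) (nat_lit 368))))) (XT.nd (nat_lit 312) (nat_lit 0) (nat_lit 152) (XT.nd (nat_lit 156) (nat_lit 0) (nat_lit 76) (XT.nd (nat_lit 78) (nat_lit 0) (nat_lit 76) (XT.lf (nat_lit 1900) (nat_lit 2102986442) (nat_lit 76) (nat_lit 532762029) (nat_lit 0) (nat_lit 532762029) (nat_lit 522) (nat_lit 1) (nat_lit 498) (nat_lit 1) (nat_lit 497) (nat_lit 0) (nat_lit 405) (nat_lit 368) (nat_lit 367)) (XT.lf (nat_lit 1900) (nat_lit 1032576353) (nat_lit 0) (nat_lit 1072259953) (nat_lit 1824) (nat_lit 1032576353) (nat_lit 523) (nat_lit 1) (nat_lit 498) (nat_lit 1) (nat_lit 522) (nat_lit 1) (nat_lit 406) (nat_lit 368) (nat_lit 366))) (XT.nd (nat_lit 78) (nat_lit 0) (nat_lit 76) (XT.lf (nat_lit 1900) (nat_lit 2021006468) (nat_lit 76) (nat_lit 542889896)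 (nat_lit 0) (nat_lit 542889896) (nat_lit 523) (nat_lit 1) (nat_lit 499) (nat_lit 1) (nat_lit 498) (nat_lit 1) (nat_lit 407) (nat_lit 368) (nat_lit 365)) (XT.lf (nat_lit 1900) (nat_lit 982170846) (nat_lit 0) (nat_lit 1112156250) (nat_lit 1824) (nat_lit 982170846) (nat_lit 524) (nat_lit 1) (nat_lit 499) (nat_lit 1) (nat_lit 523) (nat_lit 1) (nat_lit 408) (nat_lit 368) (nat_lit 364)))) (XT.nd (nat_lit 156) (nat_lit 0) (nat_lit 76) (XT.nd (nat_lit 78) (nat_lit 0) (nat_lit 76) (XT.lf (nat_lit 1900) (nat_lit 1901471174) (nat_lit 76) (nat_lit 572594437) (nat_lit 0) (nat_lit 572594437) (nat_lit 524) (nat_lit 1) (nat_lit 500) (nat_lit 1) (nat_lit 499) (nat_lit 1) (nat_lit 409) (nat_lit 368) (nat_lit 363)) (XT.lf (nat_lit 1900) (nat_lit 913620443) (nat_lit 0) (nat_lit 1189919411) (nat_lit 1824) (nat_lit 913620443) (nat_lit 525) (nat_lit 1) (nat_lit 500) (nat_lit 1) (nat_lit 524) (nat_lit 1) (nat_lit 410) (nat_lit 368) (nat_lit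 362))) (XT.nd (nat_lit 78) (nat_lit 0) (nat_lit 76) (XT.lf (nat_lit 1900) (nat_lit 1746637677) (nat_lit 76) (nat_lit 620723899) (nat_lit 0) (nat_lit 620723899) (nat_lit 525) (nat_lit 1) (nat_lit 501) (nat_lit 1) (nat_lit 500) (nat_lit 1) (nat_lit 411) (nat_lit 368) (nat_lit 361)) (XT.lf (nat_lit 1900) (nat_lit 828023892) (nat_lit 0) (nat_lit 1303306154) (nat_lit 1824) (nat_lit 828023892) (nat_lit 526) (nat_lit 1) (nat_lit 501) (nat_lit 1) (nat_lit 525) (nat_lit 1) (nat_lit 412) (nat_lit 368) (nat_lit 360)))))) (XT.nd (nat_lit 546) (nat_lit 1444) (nat_lit 0) (XT.nd (nat_lit 234) (nat_lit 0) (nat_lit 152) (XT.nd (nat_lit 78) (nat_lit 0) (nat_lit 76) (XT.lf (nat_lit 1900) (nat_lit 1558659784) (nat_lit 76) (nat_lit 686178929) (nat_lit 0) (nat_lit 686178929) (nat_lit 526) (nat_lit 1) (nat_lit 502) (nat_lit 1) (nat_lit 501) (nat_lit 1) (nat_lit 413) (nat_lit 368) (nat_lit 359)) (XT.nd (nat_lit 78) (nat_lit 0) (nat_lit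 0) (XT.lf (nat_lit 1900) (nat_lit 726429550) (nat_lit 0) (nat_lit 1450175462) (nat_lit 1824) (nat_lit 726429550) (nat_lit 527) (nat_lit 1) (nat_lit 502) (nat_lit 1) (nat_lit 526) (nat_lit 1) (nat_lit 414) (nat_lit 368) (nat_lit 358)) (XT.lf (nat_lit 1900) (nat_lit 1339592313) (nat_lit 76) (nat_lit 767910393) (nat_lit 0) (nat_lit 767910393) (nat_lit 527) (nat_lit 1) (nat_lit 503) (nat_lit 1) (nat_lit 502) (nat_lit 1) (nat_lit 415) (nat_lit 368) (nat_lit 357)))) (XT.nd (nat_lit 156) (nat_lit 0) (nat_lit 76) (XT.nd (nat_lit 78) (nat_lit 0) (nat_lit 0) (XT.lf (nat_lit 1900) (nat_lit 609837485) (nat_lit 0) (nat_lit 1628484313) (nat_lit 1824) (nat_lit 609837485) (nat_lit 528) (nat_lit 1) (nat_lit 503) (nat_lit 1) (nat_lit 527) (nat_lit 1) (nat_lit 416) (nat_lit 368) (nat_lit 356)) (XT.lf (nat_lit 1900) (nat_lit 1091395236) (nat_lit 76) (nat_lit 864917273) (nat_lit 0) (nat_lit 864917273) (nat_lit 528) (nat_lit 1) (nat_lit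 504) (nat_lit 1) (nat_lit 503) (nat_lit 1) (nat_lit 417) (nat_lit 368) (nat_lit 355))) (XT.nd (nat_lit 78) (nat_lit 0) (nat_lit 0) (XT.lf (nat_lit 1900) (nat_lit 479201503) (nat_lit 0) (nat_lit 1836283584) (nat_lit 1824) (nat_lit 479201503) (nat_lit 529) (nat_lit 1) (nat_lit 504) (nat_lit 1) (nat_lit 528) (nat_lit 1) (nat_lit 418) (nat_lit 368) (nat_lit 354)) (XT.lf (nat_lit 1900) (nat_lit 815937656) (nat_lit 76) (nat_lit 976244659) (nat_lit 0) (nat_lit 976244659) (nat_lit 529) (nat_lit 1) (nat_lit 505) (nat_lit 1) (nat_lit 504) (nat_lit 1) (nat_lit 419) (nat_lit 368) (nat_lit 353))))) (XT.nd (nat_lit 312) (nat_lit 1748) (nat_lit 0) (XT.nd (nat_lit 156) (nat_lit 0) (nat_lit 76) (XT.nd (nat_lit 78) (nat_lit 0) (nat_lit 0) (XT.lf (nat_lit 1900) (nat_lit 335431091) (nat_lit 0) (nat_lit 2071714118) (nat_lit 1824) (nat_lit 335431091) (nat_lit 530) (nat_lit 1) (nat_lit 505) (nat_lit 1) (nat_lit 529) (nat_lit 1) (nat_lit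 420) (nat_lit 368) (nat_lit 352)) (XT.lf (nat_lit 1900) (nat_lit 515001628) (nat_lit 76) (nat_lit 1100981813) (nat_lit 0) (nat_lit 1100981813) (nat_lit 530) (nat_lit 1) (nat_lit 506) (nat_lit 1) (nat_lit 505) (nat_lit 1) (nat_lit 421) (nat_lit 368) (nat_lit 351))) (XT.nd (nat_lit 78) (nat_lit 0) (nat_lit 0) (XT.lf (nat_lit 1900) (nat_lit 179393278) (nat_lit 0) (nat_lit 2333002954) (nat_lit 1824) (nat_lit 179393278) (nat_lit 531) (nat_lit 1) (nat_lit 506) (nat_lit 1) (nat_lit 530) (nat_lit 1) (nat_lit 422) (nat_lit 368) (nat_lit 350)) (XT.lf (nat_lit 1900) (nat_lit 190285821) (nat_lit 76) (nat_lit 1238260316) (nat_lit 0) (nat_lit 1238260316) (nat_lit 531) (nat_lit 1) (nat_lit 507) (nat_lit 1) (nat_lit 506) (nat_lit 1) (nat_lit 423) (nat_lit 368) (nat_lit 349)))) (XT.nd (nat_lit 156) (nat_lit 0) (nat_lit 0) (XT.nd (nat_lit 78) (nat_lit 1900) (nat_lit 0) (XT.lf (nat_lit 1900) (nat_lit 11914425) (nat_lit 0) (nat_lit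 2618459699) (nat_lit 1824) (nat_lit 11914425) (nat_lit 532) (nat_lit 1) (nat_lit 507) (nat_lit 1) (nat_lit 531) (nat_lit 1) (nat_lit 424) (nat_lit 368) (nat_lit 348)) (XT.lf (nat_lit 1976) (nat_lit 1231678016) (nat_lit 0) (nat_lit 154537246) (nat_lit 1900) (nat_lit 1231678016) (nat_lit 508) (nat_lit 1) (nat_lit 482) (nat_lit 1) (nat_lit 507) (nat_lit 1) (nat_lit 425) (nat_lit 368) (nat_lit 347))) (XT.nd (nat_lit 57486) (nat_lit 0) (nat_lit 1140) (XT.lf (nat_lit 1976) (nat_lit 2263701290) (nat_lit 76) (nat_lit 165124516) (nat_lit 0) (nat_lit 165124516) (nat_lit 508) (nat_lit 1) (nat_lit 483) (nat_lit 1) (nat_lit 482) (nat_lit 1) (nat_lit 426) (nat_lit 368) (nat_lit 346)) (XT.lf (nat_lit 1900) (nat_lit 542479668) (nat_lit 0) (nat_lit 547016060) (nat_lit 1900) (nat_lit 542479668) (nat_lit 522) (nat_lit 1) (nat_lit 497) (nat_lit 0) (nat_lit 522) (nat_lit 0) (nat_lit 402) (nat_lit 369) (nat_lit 369))))))) (XT.nd (nat_lit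 1170) (nat_lit 1140) (nat_lit 0) (XT.nd (nat_lit 546) (nat_lit 0) (nat_lit 304) (XT.nd (nat_lit 234) (nat_lit 0) (nat_lit 152) (XT.nd (nat_lit 78) (nat_lit 0) (nat_lit 76) (XT.lf (nat_lit 1900) (nat_lit 2145046171) (nat_lit 76) (nat_lit 543417270) (nat_lit 0) (nat_lit 543417270) (nat_lit 522) (nat_lit 1) (nat_lit 498) (nat_lit 1) (nat_lit 497) (nat_lit 0) (nat_lit 403) (nat_lit 369) (nat_lit 368)) (XT.nd (nat_lit 78) (nat_lit 0) (nat_lit 0) (XT.lf (nat_lit 1900) (nat_lit 1053227880) (nat_lit 0) (nat_lit 1093705152) (nat_lit 1824) (nat_lit 1053227880) (nat_lit 523) (nat_lit 1) (nat_lit 498) (nat_lit 1) (nat_lit 522) (nat_lit 1) (nat_lit 404) (nat_lit 369) (nat_lit 367)) (XT.lf (nat_lit 1900) (nat_lit 2061426597) (nat_lit 76) (nat_lit 553747694) (nat_lit 0) (nat_lit 553747694) (nat_lit 523) (nat_lit 1) (nat_lit 499) (nat_lit 1) (nat_lit 498) (nat_lit 1) (nat_lit 405) (nat_lit 369) (nat_lit 366)))) (XT.nd (nat_lit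 156) (nat_lit 0) (nat_lit 76) (XT.nd (nat_lit 78) (nat_lit 0) (nat_lit 0) (XT.lf (nat_lit 1900) (nat_lit 1001814263) (nat_lit 0) (nat_lit 1134399376) (nat_lit 1824) (nat_lit 1001814263) (nat_lit 524) (nat_lit 1) (nat_lit 499) (nat_lit 1) (nat_lit 523) (nat_lit 1) (nat_lit 406) (nat_lit 369) (nat_lit 365)) (XT.lf (nat_lit 1900) (nat_lit 1939500597) (nat_lit 76) (nat_lit 584046326) (nat_lit 0) (nat_lit 584046326) (nat_lit 524) (nat_lit 1) (nat_lit 500) (nat_lit 1) (nat_lit 499) (nat_lit 1) (nat_lit 407) (nat_lit 369) (nat_lit 364))) (XT.nd (nat_lit 78) (nat_lit 0) (nat_lit 0) (XT.lf (nat_lit 1900) (nat_lit 931892852) (nat_lit 0) (nat_lit 1213717799) (nat_lit 1824) (nat_lit 931892852) (nat_lit 525) (nat_lit 1) (nat_lit 500) (nat_lit 1) (nat_lit 524) (nat_lit 1) (nat_lit 408) (nat_lit 369) (nat_lit 363)) (XT.lf (nat_lit 1900) (nat_lit 1781570430) (nat_lit 76) (nat_lit 633138377) (nat_lit 0) (nat_lit 633138377) (nat_lit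 525) (nat_lit 1) (nat_lit 501) (nat_lit 1) (nat_lit 500) (nat_lit 1) (nat_lit 409) (nat_lit 369) (nat_lit 362))))) (XT.nd (nat_lit 312) (nat_lit 0) (nat_lit 152) (XT.nd (nat_lit 156) (nat_lit 0) (nat_lit 76) (XT.nd (nat_lit 78) (nat_lit 0) (nat_lit 0) (XT.lf (nat_lit 1900) (nat_lit 844584370) (nat_lit 0) (nat_lit 1329372277) (nat_lit 1824) (nat_lit 844584370) (nat_lit 526) (nat_lit 1) (nat_lit 501) (nat_lit 1) (nat_lit 525) (nat_lit 1) (nat_lit 410) (nat_lit 369) (nat_lit 361)) (XT.lf (nat_lit 1900) (nat_lit 1589832980) (nat_lit 76) (nat_lit 699902508) (nat_lit 0) (nat_lit 699902508) (nat_lit 526) (nat_lit 1) (nat_lit 502) (nat_lit 1) (nat_lit 501) (nat_lit 1) (nat_lit 411) (nat_lit 369) (nat_lit 360))) (XT.nd (nat_lit 78) (nat_lit 0) (nat_lit 0) (XT.lf (nat_lit 1900) (nat_lit 740958141) (nat_lit 0) (nat_lit 1479178971) (nat_lit 1824) (nat_lit 740958141) (nat_lit 527) (nat_lit 1) (nat_lit 502) (nat_lit 1) (nat_lit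 526) (nat_lit 1) (nat_lit 412) (nat_lit 369) (nat_lit 359)) (XT.lf (nat_lit 1900) (nat_lit 1366384160) (nat_lit 76) (nat_lit 783268601) (nat_lit 0) (nat_lit 783268601) (nat_lit 527) (nat_lit 1) (nat_lit 503) (nat_lit 1) (nat_lit 502) (nat_lit 1) (nat_lit 413) (nat_lit 369) (nat_lit 358)))) (XT.nd (nat_lit 156) (nat_lit 0) (nat_lit 76) (XT.nd (nat_lit 78) (nat_lit 0) (nat_lit 0) (XT.lf (nat_lit 1900) (nat_lit 622034235) (nat_lit 0) (nat_lit 1661053999) (nat_lit 1824) (nat_lit 622034235) (nat_lit 528) (nat_lit 1) (nat_lit 503) (nat_lit 1) (nat_lit 527) (nat_lit 1) (nat_lit 414) (nat_lit 369) (nat_lit 357)) (XT.lf (nat_lit 1900) (nat_lit 1113223141) (nat_lit 76) (nat_lit 882215619) (nat_lit 0) (nat_lit 882215619) (nat_lit 528) (nat_lit 1) (nat_lit 504) (nat_lit 1) (nat_lit 503) (nat_lit 1) (nat_lit 415) (nat_lit 369) (nat_lit 356))) (XT.nd (nat_lit 78) (nat_lit 0) (nat_lit 0) (XT.lf (nat_lit 1900) (nat_lit 488785533)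 (nat_lit 0) (nat_lit 1873009256) (nat_lit 1824) (nat_lit 488785533) (nat_lit 529) (nat_lit 1) (nat_lit 504) (nat_lit 1) (nat_lit 528) (nat_lit 1) (nat_lit 416) (nat_lit 369) (nat_lit 355)) (XT.lf (nat_lit 1900) (nat_lit 832256409) (nat_lit 76) (nat_lit 995769552) (nat_lit 0) (nat_lit 995769552) (nat_lit 529) (nat_lit 1) (nat_lit 505) (nat_lit 1) (nat_lit 504) (nat_lit 1) (nat_lit 417) (nat_lit 369) (nat_lit 354)))))) (XT.nd (nat_lit 624) (nat_lit 0) (nat_lit 76) (XT.nd (nat_lit 312) (nat_lit 1748) (nat_lit 0) (XT.nd (nat_lit 156) (nat_lit 0) (nat_lit 76) (XT.nd (nat_lit 78) (nat_lit 0) (nat_lit 0) (XT.lf (nat_lit 1900) (nat_lit 342139713) (nat_lit 0) (nat_lit 2113148401) (nat_lit 1824) (nat_lit 342139713) (nat_lit 530) (nat_lit 1) (nat_lit 505) (nat_lit 1) (nat_lit 529) (nat_lit 1) (nat_lit 418) (nat_lit 369) (nat_lit 353)) (XT.lf (nat_lit 1900) (nat_lit 525301661) (nat_lit 76) (nat_lit 1123001449) (nat_lit 0)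 (nat_lit 1123001449) (nat_lit 530) (nat_lit 1) (nat_lit 506) (nat_lit 1) (nat_lit 505) (nat_lit 1) (nat_lit 419) (nat_lit 369) (nat_lit 352))) (XT.nd (nat_lit 78) (nat_lit 0) (nat_lit 0) (XT.lf (nat_lit 1900) (nat_lit 182981143) (nat_lit 0) (nat_lit 2379663013) (nat_lit 1824) (nat_lit 182981143) (nat_lit 531) (nat_lit 1) (nat_lit 506) (nat_lit 1) (nat_lit 530) (nat_lit 1) (nat_lit 420) (nat_lit 369) (nat_lit 351)) (XT.lf (nat_lit 1900) (nat_lit 194091537) (nat_lit 76) (nat_lit 1263025522) (nat_lit 0) (nat_lit 1263025522) (nat_lit 531) (nat_lit 1) (nat_lit 507) (nat_lit 1) (nat_lit 506) (nat_lit 1) (nat_lit 421) (nat_lit 369) (nat_lit 350)))) (XT.nd (nat_lit 156) (nat_lit 0) (nat_lit 0) (XT.nd (nat_lit 78) (nat_lit 1900) (nat_lit 0) (XT.lf (nat_lit 1900) (nat_lit 12152714) (nat_lit 0) (nat_lit 2670828893) (nat_lit 1824) (nat_lit 12152714) (nat_lit 532) (nat_lit 1) (nat_lit 507) (nat_lit 1) (nat_lit 531) (nat_lit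 1) (nat_lit 422) (nat_lit 369) (nat_lit 349)) (XT.lf (nat_lit 1976) (nat_lit 1256311576) (nat_lit 0) (nat_lit 157627991) (nat_lit 1900) (nat_lit 1256311576) (nat_lit 508) (nat_lit 1) (nat_lit 482) (nat_lit 1) (nat_lit 507) (nat_lit 1) (nat_lit 423) (nat_lit 369) (nat_lit 348))) (XT.nd (nat_lit 78) (nat_lit 0) (nat_lit 76) (XT.lf (nat_lit 1976) (nat_lit 2308975316) (nat_lit 76) (nat_lit 168427006) (nat_lit 0) (nat_lit 168427006) (nat_lit 508) (nat_lit 1) (nat_lit 483) (nat_lit 1) (nat_lit 482) (nat_lit 1) (nat_lit 424) (nat_lit 369) (nat_lit 347)) (XT.lf (nat_lit 1976) (nat_lit 1047014673) (nat_lit 0) (nat_lit 527557198) (nat_lit 1900) (nat_lit 1047014673) (nat_lit 509) (nat_lit 1) (nat_lit 483) (nat_lit 1) (nat_lit 508) (nat_lit 1) (nat_lit 425) (nat_lit 369) (nat_lit 346))))) (XT.nd (nat_lit 57564) (nat_lit 0) (nat_lit 1140) (XT.nd (nat_lit 57408) (nat_lit 0) (nat_lit 1064) (XT.nd (nat_lit 57330) (nat_lit 0) (nat_lit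 1064) (XT.lf (nat_lit 1976) (nat_lit 1879827234) (nat_lit 76) (nat_lit 358961910) (nat_lit 0) (nat_lit 358961910) (nat_lit 509) (nat_lit 1) (nat_lit 484) (nat_lit 1) (nat_lit 483) (nat_lit 1) (nat_lit 426) (nat_lit 369) (nat_lit 345)) (XT.lf (nat_lit 1900) (nat_lit 553329261) (nat_lit 0) (nat_lit 557956381) (nat_lit 1900) (nat_lit 553329261) (nat_lit 522) (nat_lit 1) (nat_lit 497) (nat_lit 0) (nat_lit 522) (nat_lit 0) (nat_lit 400) (nat_lit 370) (nat_lit 370))) (XT.nd (nat_lit 78) (nat_lit 0) (nat_lit 76) (XT.lf (nat_lit 1900) (nat_lit 2187947095) (nat_lit 76) (nat_lit 554285615) (nat_lit 0) (nat_lit 554285615) (nat_lit 522) (nat_lit 1) (nat_lit 498) (nat_lit 1) (nat_lit 497) (nat_lit 0) (nat_lit 401) (nat_lit 370) (nat_lit 369)) (XT.lf (nat_lit 1900) (nat_lit 1074292438) (nat_lit 0) (nat_lit 1115579255) (nat_lit 1824) (nat_lit 1074292438) (nat_lit 523) (nat_lit 1) (nat_lit 498) (nat_lit 1) (nat_lit 522) (nat_lit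 1) (nat_lit 402) (nat_lit 370) (nat_lit 368)))) (XT.nd (nat_lit 156) (nat_lit 0) (nat_lit 76) (XT.nd (nat_lit 78) (nat_lit 0) (nat_lit 76) (XT.lf (nat_lit 1900) (nat_lit 2102655129) (nat_lit 76) (nat_lit 564822648) (nat_lit 0) (nat_lit 564822648) (nat_lit 523) (nat_lit 1) (nat_lit 499) (nat_lit 1) (nat_lit 498) (nat_lit 1) (nat_lit 403) (nat_lit 370) (nat_lit 367)) (XT.lf (nat_lit 1900) (nat_lit 1021850548) (nat_lit 0) (nat_lit 1157087363) (nat_lit 1824) (nat_lit 1021850548) (nat_lit 524) (nat_lit 1) (nat_lit 499) (nat_lit 1) (nat_lit 523) (nat_lit 1) (nat_lit 404) (nat_lit 370) (nat_lit 366))) (XT.nd (nat_lit 78) (nat_lit 0) (nat_lit 76) (XT.lf (nat_lit 1900) (nat_lit 1978290609) (nat_lit 76) (nat_lit 595727252) (nat_lit 0) (nat_lit 595727252) (nat_lit 524) (nat_lit 1) (nat_lit 500) (nat_lit 1) (nat_lit 499) (nat_lit 1) (nat_lit 405) (nat_lit 370) (nat_lit 365)) (XT.lf (nat_lit 1900) (nat_lit 950530709) (nat_lit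 0) (nat_lit 1237992155) (nat_lit 1824) (nat_lit 950530709) (nat_lit 525) (nat_lit 1) (nat_lit 500) (nat_lit 1) (nat_lit 524) (nat_lit 1) (nat_lit 406) (nat_lit 370) (nat_lit 364))))))))
noncomputable def ec3 : XT := (XT.nd (nat_lit 59514) (nat_lit 912) (nat_lit 0) (XT.nd (nat_lit 1170) (nat_lit 988) (nat_lit 0) (XT.nd (nat_lit 546) (nat_lit 1368) (nat_lit 0) (XT.nd (nat_lit 234) (nat_lit 0) (nat_lit 152) (XT.nd (nat_lit 78) (nat_lit 0) (nat_lit 76) (XT.lf (nat_lit 1900) (nat_lit 1817201839) (nat_lit 76) (nat_lit 645801144) (nat_lit 0) (nat_lit 645801144) (nat_lit 525) (nat_lit 1) (nat_lit 501) (nat_lit 1) (nat_lit 500) (nat_lit 1) (nat_lit 407) (nat_lit 370) (nat_lit 363)) (XT.nd (nat_lit 78) (nat_lit 0) (nat_lit 0) (XT.lf (nat_lit 1900) (nat_lit 861476058) (nat_lit 0) (nat_lit 1355959723) (nat_lit 1824) (nat_lit 861476058) (nat_lit 526) (nat_lit 1) (nat_lit 501) (nat_lit 1) (nat_lit 525) (nat_lit 1) (nat_lit 408)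 (nat_lit 370) (nat_lit 362)) (XT.lf (nat_lit 1900) (nat_lit 1621629639) (nat_lit 76) (nat_lit 713900558) (nat_lit 0) (nat_lit 713900558) (nat_lit 526) (nat_lit 1) (nat_lit 502) (nat_lit 1) (nat_lit 501) (nat_lit 1) (nat_lit 409) (nat_lit 370) (nat_lit 361)))) (XT.nd (nat_lit 156) (nat_lit 0) (nat_lit 76) (XT.nd (nat_lit 78) (nat_lit 0) (nat_lit 0) (XT.lf (nat_lit 1900) (nat_lit 755777304) (nat_lit 0) (nat_lit 1508762551) (nat_lit 1824) (nat_lit 755777304) (nat_lit 527) (nat_lit 1) (nat_lit 502) (nat_lit 1) (nat_lit 526) (nat_lit 1) (nat_lit 410) (nat_lit 370) (nat_lit 360)) (XT.lf (nat_lit 1900) (nat_lit 1393711843) (nat_lit 76) (nat_lit 798933973) (nat_lit 0) (nat_lit 798933973) (nat_lit 527) (nat_lit 1) (nat_lit 503) (nat_lit 1) (nat_lit 502) (nat_lit 1) (nat_lit 411) (nat_lit 370) (nat_lit 359))) (XT.nd (nat_lit 78) (nat_lit 0) (nat_lit 0) (XT.lf (nat_lit 1900) (nat_lit 634474920) (nat_lit 0) (nat_lit 1694275079)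 (nat_lit 1824) (nat_lit 634474920) (nat_lit 528) (nat_lit 1) (nat_lit 503) (nat_lit 1) (nat_lit 527) (nat_lit 1) (nat_lit 412) (nat_lit 370) (nat_lit 358)) (XT.lf (nat_lit 1900) (nat_lit 1135487604) (nat_lit 76) (nat_lit 899859931) (nat_lit 0) (nat_lit 899859931) (nat_lit 528) (nat_lit 1) (nat_lit 504) (nat_lit 1) (nat_lit 503) (nat_lit 1) (nat_lit 413) (nat_lit 370) (nat_lit 357))))) (XT.nd (nat_lit 312) (nat_lit 1672) (nat_lit 0) (XT.nd (nat_lit 156) (nat_lit 0) (nat_lit 76) (XT.nd (nat_lit 78) (nat_lit 0) (nat_lit 0) (XT.lf (nat_lit 1900) (nat_lit 498561244) (nat_lit 0) (nat_lit 1910469441) (nat_lit 1824) (nat_lit 498561244) (nat_lit 529) (nat_lit 1) (nat_lit 504) (nat_lit 1) (nat_lit 528) (nat_lit 1) (nat_lit 414) (nat_lit 370) (nat_lit 356)) (XT.lf (nat_lit 1900) (nat_lit 848901537) (nat_lit 76) (nat_lit 1015684943) (nat_lit 0) (nat_lit 1015684943) (nat_lit 529) (nat_lit 1) (nat_lit 505) (nat_lit 1) (nat_lit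 504) (nat_lit 1) (nat_lit 415) (nat_lit 370) (nat_lit 355))) (XT.nd (nat_lit 78) (nat_lit 0) (nat_lit 0) (XT.lf (nat_lit 1900) (nat_lit 348982507) (nat_lit 0) (nat_lit 2155411369) (nat_lit 1824) (nat_lit 348982507) (nat_lit 530) (nat_lit 1) (nat_lit 505) (nat_lit 1) (nat_lit 529) (nat_lit 1) (nat_lit 416) (nat_lit 370) (nat_lit 354)) (XT.lf (nat_lit 1900) (nat_lit 535807694) (nat_lit 76) (nat_lit 1145461478) (nat_lit 0) (nat_lit 1145461478) (nat_lit 530) (nat_lit 1) (nat_lit 506) (nat_lit 1) (nat_lit 505) (nat_lit 1) (nat_lit 417) (nat_lit 370) (nat_lit 353)))) (XT.nd (nat_lit 156) (nat_lit 1824) (nat_lit 0) (XT.nd (nat_lit 78) (nat_lit 0) (nat_lit 0) (XT.lf (nat_lit 1900) (nat_lit 186640766) (nat_lit 0) (nat_lit 2427256273) (nat_lit 1824) (nat_lit 186640766) (nat_lit 531) (nat_lit 1) (nat_lit 506) (nat_lit 1) (nat_lit 530) (nat_lit 1) (nat_lit 418) (nat_lit 370) (nat_lit 352)) (XT.lf (nat_lit 1900) (nat_lit 197973368)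 (nat_lit 76) (nat_lit 1288286032) (nat_lit 0) (nat_lit 1288286032) (nat_lit 531) (nat_lit 1) (nat_lit 507) (nat_lit 1) (nat_lit 506) (nat_lit 1) (nat_lit 419) (nat_lit 370) (nat_lit 351))) (XT.nd (nat_lit 78) (nat_lit 1900) (nat_lit 0) (XT.lf (nat_lit 1900) (nat_lit 12395768) (nat_lit 0) (nat_lit 2724245471) (nat_lit 1824) (nat_lit 12395768) (nat_lit 532) (nat_lit 1) (nat_lit 507) (nat_lit 1) (nat_lit 531) (nat_lit 1) (nat_lit 420) (nat_lit 370) (nat_lit 350)) (XT.lf (nat_lit 1976) (nat_lit 1281437808) (nat_lit 0) (nat_lit 160780551) (nat_lit 1900) (nat_lit 1281437808) (nat_lit 508) (nat_lit 1) (nat_lit 482) (nat_lit 1) (nat_lit 507) (nat_lit 1) (nat_lit 421) (nat_lit 370) (nat_lit 349)))))) (XT.nd (nat_lit 57720) (nat_lit 0) (nat_lit 2204) (XT.nd (nat_lit 312) (nat_lit 988) (nat_lit 0) (XT.nd (nat_lit 156) (nat_lit 0) (nat_lit 76) (XT.nd (nat_lit 78) (nat_lit 0) (nat_lit 76) (XT.lf (nat_lit 1976) (nat_lit 2355154823)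 (nat_lit 76) (nat_lit 171795546) (nat_lit 0) (nat_lit 171795546) (nat_lit 508) (nat_lit 1) (nat_lit 483) (nat_lit 1) (nat_lit 482) (nat_lit 1) (nat_lit 422) (nat_lit 370) (nat_lit 348)) (XT.lf (nat_lit 1976) (nat_lit 1067954967) (nat_lit 0) (nat_lit 538108342) (nat_lit 1900) (nat_lit 1067954967) (nat_lit 509) (nat_lit 1) (nat_lit 483) (nat_lit 1) (nat_lit 508) (nat_lit 1) (nat_lit 423) (nat_lit 370) (nat_lit 347))) (XT.nd (nat_lit 78) (nat_lit 0) (nat_lit 76) (XT.lf (nat_lit 1976) (nat_lit 1917423779) (nat_lit 76) (nat_lit 366141149) (nat_lit 0) (nat_lit 366141149) (nat_lit 509) (nat_lit 1) (nat_lit 484) (nat_lit 1) (nat_lit 483) (nat_lit 1) (nat_lit 424) (nat_lit 370) (nat_lit 346)) (XT.lf (nat_lit 76) (nat_lit 845261747) (nat_lit 0) (nat_lit 935098108) (nat_lit 1900) (nat_lit 845261747) (nat_lit 485) (nat_lit 1) (nat_lit 484) (nat_lit 1) (nat_lit 509) (nat_lit 1) (nat_lit 425) (nat_lit 370) (nat_lit 345)))) (XT.nd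 (nat_lit 57252) (nat_lit 0) (nat_lit 2128) (XT.nd (nat_lit 57174) (nat_lit 0) (nat_lit 2128) (XT.lf (nat_lit 1216) (nat_lit 1461920275) (nat_lit 0) (nat_lit 569984236) (nat_lit 1140) (nat_lit 569984236) (nat_lit 485) (nat_lit 1) (nat_lit 469) (nat_lit 1) (nat_lit 484) (nat_lit 1) (nat_lit 426) (nat_lit 370) (nat_lit 344)) (XT.lf (nat_lit 1900) (nat_lit 564395847) (nat_lit 0) (nat_lit 569115509) (nat_lit 1900) (nat_lit 564395847) (nat_lit 522) (nat_lit 1) (nat_lit 497) (nat_lit 0) (nat_lit 522) (nat_lit 0) (nat_lit 398) (nat_lit 371) (nat_lit 371))) (XT.nd (nat_lit 78) (nat_lit 0) (nat_lit 76) (XT.lf (nat_lit 1900) (nat_lit 2231706037) (nat_lit 76) (nat_lit 565371328) (nat_lit 0) (nat_lit 565371328) (nat_lit 522) (nat_lit 1) (nat_lit 498) (nat_lit 1) (nat_lit 497) (nat_lit 0) (nat_lit 399) (nat_lit 371) (nat_lit 370)) (XT.lf (nat_lit 1900) (nat_lit 1095778287) (nat_lit 0) (nat_lit 1137890840) (nat_lit 1824) (nat_lit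 1095778287) (nat_lit 523) (nat_lit 1) (nat_lit 498) (nat_lit 1) (nat_lit 522) (nat_lit 1) (nat_lit 400) (nat_lit 371) (nat_lit 369))))) (XT.nd (nat_lit 312) (nat_lit 0) (nat_lit 152) (XT.nd (nat_lit 156) (nat_lit 0) (nat_lit 76) (XT.nd (nat_lit 78) (nat_lit 0) (nat_lit 76) (XT.lf (nat_lit 1900) (nat_lit 2144708232) (nat_lit 76) (nat_lit 576119100) (nat_lit 0) (nat_lit 576119100) (nat_lit 523) (nat_lit 1) (nat_lit 499) (nat_lit 1) (nat_lit 498) (nat_lit 1) (nat_lit 401) (nat_lit 371) (nat_lit 368)) (XT.lf (nat_lit 1900) (nat_lit 1042287559) (nat_lit 0) (nat_lit 1180229110) (nat_lit 1824) (nat_lit 1042287559) (nat_lit 524) (nat_lit 1) (nat_lit 499) (nat_lit 1) (nat_lit 523) (nat_lit 1) (nat_lit 402) (nat_lit 371) (nat_lit 367))) (XT.nd (nat_lit 78) (nat_lit 0) (nat_lit 76) (XT.lf (nat_lit 1900) (nat_lit 2017856421) (nat_lit 76) (nat_lit 607641797) (nat_lit 0) (nat_lit 607641797) (nat_lit 524) (nat_lit 1) (nat_lit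 500) (nat_lit 1) (nat_lit 499) (nat_lit 1) (nat_lit 403) (nat_lit 371) (nat_lit 366)) (XT.lf (nat_lit 1900) (nat_lit 969541323) (nat_lit 0) (nat_lit 1262751999) (nat_lit 1824) (nat_lit 969541323) (nat_lit 525) (nat_lit 1) (nat_lit 500) (nat_lit 1) (nat_lit 524) (nat_lit 1) (nat_lit 404) (nat_lit 371) (nat_lit 365)))) (XT.nd (nat_lit 156) (nat_lit 0) (nat_lit 76) (XT.nd (nat_lit 78) (nat_lit 0) (nat_lit 76) (XT.lf (nat_lit 1900) (nat_lit 1853545875) (nat_lit 76) (nat_lit 658717167) (nat_lit 0) (nat_lit 658717167) (nat_lit 525) (nat_lit 1) (nat_lit 501) (nat_lit 1) (nat_lit 500) (nat_lit 1) (nat_lit 405) (nat_lit 371) (nat_lit 364)) (XT.lf (nat_lit 1900) (nat_lit 878705579) (nat_lit 0) (nat_lit 1383078917) (nat_lit 1824) (nat_lit 878705579) (nat_lit 526) (nat_lit 1) (nat_lit 501) (nat_lit 1) (nat_lit 525) (nat_lit 1) (nat_lit 406) (nat_lit 371) (nat_lit 363))) (XT.nd (nat_lit 78) (nat_lit 0) (nat_lit 76) (XT.lf (nat_lit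 1900) (nat_lit 1654062232) (nat_lit 76) (nat_lit 728178569) (nat_lit 0) (nat_lit 728178569) (nat_lit 526) (nat_lit 1) (nat_lit 502) (nat_lit 1) (nat_lit 501) (nat_lit 1) (nat_lit 407) (nat_lit 371) (nat_lit 362)) (XT.lf (nat_lit 1900) (nat_lit 770892850) (nat_lit 0) (nat_lit 1538937802) (nat_lit 1824) (nat_lit 770892850) (nat_lit 527) (nat_lit 1) (nat_lit 502) (nat_lit 1) (nat_lit 526) (nat_lit 1) (nat_lit 408) (nat_lit 371) (nat_lit 361))))))) (XT.nd (nat_lit 1170) (nat_lit 1900) (nat_lit 0) (XT.nd (nat_lit 546) (nat_lit 1520) (nat_lit 0) (XT.nd (nat_lit 234) (nat_lit 0) (nat_lit 152) (XT.nd (nat_lit 78) (nat_lit 0) (nat_lit 76) (XT.lf (nat_lit 1900) (nat_lit 1421586080) (nat_lit 76) (nat_lit 814912652) (nat_lit 0) (nat_lit 814912652) (nat_lit 527) (nat_lit 1) (nat_lit 503) (nat_lit 1) (nat_lit 502) (nat_lit 1) (nat_lit 409) (nat_lit 371) (nat_lit 360)) (XT.nd (nat_lit 78) (nat_lit 0) (nat_lit 0) (XT.lf (nat_lit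 1900) (nat_lit 647164418) (nat_lit 0) (nat_lit 1728160581) (nat_lit 1824) (nat_lit 647164418) (nat_lit 528) (nat_lit 1) (nat_lit 503) (nat_lit 1) (nat_lit 527) (nat_lit 1) (nat_lit 410) (nat_lit 371) (nat_lit 359)) (XT.lf (nat_lit 1900) (nat_lit 1158197356) (nat_lit 76) (nat_lit 917857130) (nat_lit 0) (nat_lit 917857130) (nat_lit 528) (nat_lit 1) (nat_lit 504) (nat_lit 1) (nat_lit 503) (nat_lit 1) (nat_lit 411) (nat_lit 371) (nat_lit 358)))) (XT.nd (nat_lit 156) (nat_lit 0) (nat_lit 76) (XT.nd (nat_lit 78) (nat_lit 0) (nat_lit 0) (XT.lf (nat_lit 1900) (nat_lit 508532469) (nat_lit 0) (nat_lit 1948678830) (nat_lit 1824) (nat_lit 508532469) (nat_lit 529) (nat_lit 1) (nat_lit 504) (nat_lit 1) (nat_lit 528) (nat_lit 1) (nat_lit 412) (nat_lit 371) (nat_lit 357)) (XT.lf (nat_lit 1900) (nat_lit 865879568) (nat_lit 76) (nat_lit 1035998642) (nat_lit 0) (nat_lit 1035998642) (nat_lit 529) (nat_lit 1) (nat_lit 505) (nat_lit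 1) (nat_lit 504) (nat_lit 1) (nat_lit 413) (nat_lit 371) (nat_lit 356))) (XT.nd (nat_lit 78) (nat_lit 0) (nat_lit 0) (XT.lf (nat_lit 1900) (nat_lit 355962157) (nat_lit 0) (nat_lit 2198519596) (nat_lit 1824) (nat_lit 355962157) (nat_lit 530) (nat_lit 1) (nat_lit 505) (nat_lit 1) (nat_lit 529) (nat_lit 1) (nat_lit 414) (nat_lit 371) (nat_lit 355)) (XT.lf (nat_lit 1900) (nat_lit 546523848) (nat_lit 76) (nat_lit 1168370708) (nat_lit 0) (nat_lit 1168370708) (nat_lit 530) (nat_lit 1) (nat_lit 506) (nat_lit 1) (nat_lit 505) (nat_lit 1) (nat_lit 415) (nat_lit 371) (nat_lit 354))))) (XT.nd (nat_lit 312) (nat_lit 0) (nat_lit 0) (XT.nd (nat_lit 156) (nat_lit 1824) (nat_lit 0) (XT.nd (nat_lit 78) (nat_lit 0) (nat_lit 0) (XT.lf (nat_lit 1900) (nat_lit 190373581) (nat_lit 0) (nat_lit 2475801399) (nat_lit 1824) (nat_lit 190373581) (nat_lit 531) (nat_lit 1) (nat_lit 506) (nat_lit 1) (nat_lit 530) (nat_lit 1) (nat_lit 416) (nat_lit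 371) (nat_lit 353)) (XT.lf (nat_lit 1900) (nat_lit 201932835) (nat_lit 76) (nat_lit 1314051753) (nat_lit 0) (nat_lit 1314051753) (nat_lit 531) (nat_lit 1) (nat_lit 507) (nat_lit 1) (nat_lit 506) (nat_lit 1) (nat_lit 417) (nat_lit 371) (nat_lit 352))) (XT.nd (nat_lit 78) (nat_lit 1900) (nat_lit 0) (XT.lf (nat_lit 1900) (nat_lit 12643683) (nat_lit 0) (nat_lit 2778730381) (nat_lit 1824) (nat_lit 12643683) (nat_lit 532) (nat_lit 1) (nat_lit 507) (nat_lit 1) (nat_lit 531) (nat_lit 1) (nat_lit 418) (nat_lit 371) (nat_lit 351)) (XT.lf (nat_lit 1976) (nat_lit 1307066564) (nat_lit 0) (nat_lit 163996162) (nat_lit 1900) (nat_lit 1307066564) (nat_lit 508) (nat_lit 1) (nat_lit 482) (nat_lit 1) (nat_lit 507) (nat_lit 1) (nat_lit 419) (nat_lit 371) (nat_lit 350)))) (XT.nd (nat_lit 156) (nat_lit 0) (nat_lit 76) (XT.nd (nat_lit 78) (nat_lit 0) (nat_lit 76) (XT.lf (nat_lit 1976) (nat_lit 2402257919) (nat_lit 76) (nat_lit 175231457)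 (nat_lit 0) (nat_lit 175231457) (nat_lit 508) (nat_lit 1) (nat_lit 483) (nat_lit 1) (nat_lit 482) (nat_lit 1) (nat_lit 420) (nat_lit 371) (nat_lit 349)) (XT.lf (nat_lit 1976) (nat_lit 1089314066) (nat_lit 0) (nat_lit 548870508) (nat_lit 1900) (nat_lit 1089314066) (nat_lit 509) (nat_lit 1) (nat_lit 483) (nat_lit 1) (nat_lit 508) (nat_lit 1) (nat_lit 421) (nat_lit 371) (nat_lit 348))) (XT.nd (nat_lit 78) (nat_lit 0) (nat_lit 76) (XT.lf (nat_lit 1976) (nat_lit 1955772255) (nat_lit 76) (nat_lit 373463972) (nat_lit 0) (nat_lit 373463972) (nat_lit 509) (nat_lit 1) (nat_lit 484) (nat_lit 1) (nat_lit 483) (nat_lit 1) (nat_lit 422) (nat_lit 371) (nat_lit 347)) (XT.lf (nat_lit 76) (nat_lit 862166982) (nat_lit 0) (nat_lit 953800070) (nat_lit 1900) (nat_lit 862166982) (nat_lit 485) (nat_lit 1) (nat_lit 484) (nat_lit 1) (nat_lit 509) (nat_lit 1) (nat_lit 423) (nat_lit 371) (nat_lit 346)))))) (XT.nd (nat_lit 57564) (nat_lit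 0) (nat_lit 3192) (XT.nd (nat_lit 57252) (nat_lit 0) (nat_lit 3040) (XT.nd (nat_lit 156) (nat_lit 912) (nat_lit 0) (XT.nd (nat_lit 78) (nat_lit 0) (nat_lit 0) (XT.lf (nat_lit 1216) (nat_lit 1491158681) (nat_lit 0) (nat_lit 581383921) (nat_lit 1140) (nat_lit 581383921) (nat_lit 485) (nat_lit 1) (nat_lit 469) (nat_lit 1) (nat_lit 484) (nat_lit 1) (nat_lit 424) (nat_lit 371) (nat_lit 345)) (XT.lf (nat_lit 76) (nat_lit 626340119) (nat_lit 0) (nat_lit 1377319798) (nat_lit 1216) (nat_lit 626340119) (nat_lit 470) (nat_lit 1) (nat_lit 469) (nat_lit 1) (nat_lit 485) (nat_lit 1) (nat_lit 425) (nat_lit 371) (nat_lit 344))) (XT.nd (nat_lit 57018) (nat_lit 0) (nat_lit 3040) (XT.lf (nat_lit 988) (nat_lit 1009816529) (nat_lit 0) (nat_lit 798274247) (nat_lit 912) (nat_lit 798274247) (nat_lit 470) (nat_lit 1) (nat_lit 457) (nat_lit 1) (nat_lit 469) (nat_lit 1) (nat_lit 426) (nat_lit 371) (nat_lit 343)) (XT.lf (nat_lit 1900) (nat_lit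 575683764) (nat_lit 0) (nat_lit 580497819) (nat_lit 1900) (nat_lit 575683764) (nat_lit 522) (nat_lit 1) (nat_lit 497) (nat_lit 0) (nat_lit 522) (nat_lit 0) (nat_lit 396) (nat_lit 372) (nat_lit 372)))) (XT.nd (nat_lit 156) (nat_lit 0) (nat_lit 76) (XT.nd (nat_lit 78) (nat_lit 0) (nat_lit 76) (XT.lf (nat_lit 1900) (nat_lit 2276340157) (nat_lit 76) (nat_lit 576678754) (nat_lit 0) (nat_lit 576678754) (nat_lit 522) (nat_lit 1) (nat_lit 498) (nat_lit 1) (nat_lit 497) (nat_lit 0) (nat_lit 397) (nat_lit 372) (nat_lit 371)) (XT.lf (nat_lit 1900) (nat_lit 1117693853) (nat_lit 0) (nat_lit 1160648657) (nat_lit 1824) (nat_lit 1117693853) (nat_lit 523) (nat_lit 1) (nat_lit 498) (nat_lit 1) (nat_lit 522) (nat_lit 1) (nat_lit 398) (nat_lit 372) (nat_lit 370))) (XT.nd (nat_lit 78) (nat_lit 0) (nat_lit 76) (XT.lf (nat_lit 1900) (nat_lit 2187602397) (nat_lit 76) (nat_lit 587641482) (nat_lit 0) (nat_lit 587641482) (nat_lit 523) (nat_lit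 1) (nat_lit 499) (nat_lit 1) (nat_lit 498) (nat_lit 1) (nat_lit 399) (nat_lit 372) (nat_lit 369)) (XT.lf (nat_lit 1900) (nat_lit 1063133310) (nat_lit 0) (nat_lit 1203833693) (nat_lit 1824) (nat_lit 1063133310) (nat_lit 524) (nat_lit 1) (nat_lit 499) (nat_lit 1) (nat_lit 523) (nat_lit 1) (nat_lit 400) (nat_lit 372) (nat_lit 368))))) (XT.nd (nat_lit 312) (nat_lit 0) (nat_lit 152) (XT.nd (nat_lit 156) (nat_lit 0) (nat_lit 76) (XT.nd (nat_lit 78) (nat_lit 0) (nat_lit 76) (XT.lf (nat_lit 1900) (nat_lit 2058213550) (nat_lit 76) (nat_lit 619794633) (nat_lit 0) (nat_lit 619794633) (nat_lit 524) (nat_lit 1) (nat_lit 500) (nat_lit 1) (nat_lit 499) (nat_lit 1) (nat_lit 401) (nat_lit 372) (nat_lit 367)) (XT.lf (nat_lit 1900) (nat_lit 988932149) (nat_lit 0) (nat_lit 1288007039) (nat_lit 1824) (nat_lit 988932149) (nat_lit 525) (nat_lit 1) (nat_lit 500) (nat_lit 1) (nat_lit 524) (nat_lit 1) (nat_lit 402) (nat_lit 372) (nat_lit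 366))) (XT.nd (nat_lit 78) (nat_lit 0) (nat_lit 76) (XT.lf (nat_lit 1900) (nat_lit 1890616793) (nat_lit 76) (nat_lit 671891510) (nat_lit 0) (nat_lit 671891510) (nat_lit 525) (nat_lit 1) (nat_lit 501) (nat_lit 1) (nat_lit 500) (nat_lit 1) (nat_lit 403) (nat_lit 372) (nat_lit 365)) (XT.lf (nat_lit 1900) (nat_lit 896279691) (nat_lit 0) (nat_lit 1410740496) (nat_lit 1824) (nat_lit 896279691) (nat_lit 526) (nat_lit 1) (nat_lit 501) (nat_lit 1) (nat_lit 525) (nat_lit 1) (nat_lit 404) (nat_lit 372) (nat_lit 364)))) (XT.nd (nat_lit 156) (nat_lit 0) (nat_lit 76) (XT.nd (nat_lit 78) (nat_lit 0) (nat_lit 76) (XT.lf (nat_lit 1900) (nat_lit 1687143477) (nat_lit 76) (nat_lit 742742141) (nat_lit 0) (nat_lit 742742141) (nat_lit 526) (nat_lit 1) (nat_lit 502) (nat_lit 1) (nat_lit 501) (nat_lit 1) (nat_lit 405) (nat_lit 372) (nat_lit 363)) (XT.lf (nat_lit 1900) (nat_lit 786310707) (nat_lit 0) (nat_lit 1569716558) (nat_lit 1824)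 (nat_lit 786310707) (nat_lit 527) (nat_lit 1) (nat_lit 502) (nat_lit 1) (nat_lit 526) (nat_lit 1) (nat_lit 406) (nat_lit 372) (nat_lit 362))) (XT.nd (nat_lit 78) (nat_lit 0) (nat_lit 76) (XT.lf (nat_lit 1900) (nat_lit 1450017801) (nat_lit 76) (nat_lit 831210906) (nat_lit 0) (nat_lit 831210906) (nat_lit 527) (nat_lit 1) (nat_lit 503) (nat_lit 1) (nat_lit 502) (nat_lit 1) (nat_lit 407) (nat_lit 372) (nat_lit 361)) (XT.lf (nat_lit 1900) (nat_lit 660107706) (nat_lit 0) (nat_lit 1762723793) (nat_lit 1824) (nat_lit 660107706) (nat_lit 528) (nat_lit 1) (nat_lit 503) (nat_lit 1) (nat_lit 527) (nat_lit 1) (nat_lit 408) (nat_lit 372) (nat_lit 360))))))))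
noncomputable def ec4 : XT := (XT.nd (nat_lit 59202) (nat_lit 912) (nat_lit 0) (XT.nd (nat_lit 1170) (nat_lit 912) (nat_lit 0) (XT.nd (nat_lit 546) (nat_lit 2584) (nat_lit 0) (XT.nd (nat_lit 234) (nat_lit 0) (nat_lit 152) (XT.nd (nat_lit 78) (nat_lit 0) (nat_lit 76) (XT.lf (nat_lit 1900) (nat_lit 1181361303) (nat_lit 76) (nat_lit 936214273) (nat_lit 0) (nat_lit 936214273) (nat_lit 528) (nat_lit 1) (nat_lit 504) (nat_lit 1) (nat_lit 503) (nat_lit 1) (nat_lit 409) (nat_lit 372) (nat_lit 359)) (XT.nd (nat_lit 78) (nat_lit 0) (nat_lit 0) (XT.lf (nat_lit 1900) (nat_lit 518703118) (nat_lit 0) (nat_lit 1987652406) (nat_lit 1824) (nat_lit 518703118) (nat_lit 529) (nat_lit 1) (nat_lit 504) (nat_lit 1) (nat_lit 528) (nat_lit 1) (nat_lit 410) (nat_lit 372) (nat_lit 358)) (XT.lf (nat_lit 1900) (nat_lit 883197160) (nat_lit 76) (nat_lit 1056718615) (nat_lit 0) (nat_lit 1056718615) (nat_lit 529) (nat_lit 1) (nat_lit 505) (nat_lit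 1) (nat_lit 504) (nat_lit 1) (nat_lit 411) (nat_lit 372) (nat_lit 357)))) (XT.nd (nat_lit 156) (nat_lit 0) (nat_lit 76) (XT.nd (nat_lit 78) (nat_lit 0) (nat_lit 0) (XT.lf (nat_lit 1900) (nat_lit 363081400) (nat_lit 0) (nat_lit 2242489988) (nat_lit 1824) (nat_lit 363081400) (nat_lit 530) (nat_lit 1) (nat_lit 505) (nat_lit 1) (nat_lit 529) (nat_lit 1) (nat_lit 412) (nat_lit 372) (nat_lit 356)) (XT.lf (nat_lit 1900) (nat_lit 557454325) (nat_lit 76) (nat_lit 1191738122) (nat_lit 0) (nat_lit 1191738122) (nat_lit 530) (nat_lit 1) (nat_lit 506) (nat_lit 1) (nat_lit 505) (nat_lit 1) (nat_lit 413) (nat_lit 372) (nat_lit 355))) (XT.nd (nat_lit 78) (nat_lit 0) (nat_lit 0) (XT.lf (nat_lit 1900) (nat_lit 194181053) (nat_lit 0) (nat_lit 2525317427) (nat_lit 1824) (nat_lit 194181053) (nat_lit 531) (nat_lit 1) (nat_lit 506) (nat_lit 1) (nat_lit 530) (nat_lit 1) (nat_lit 414) (nat_lit 372) (nat_lit 354)) (XT.lf (nat_lit 1900) (nat_lit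 205971492) (nat_lit 76) (nat_lit 1340332788) (nat_lit 0) (nat_lit 1340332788) (nat_lit 531) (nat_lit 1) (nat_lit 507) (nat_lit 1) (nat_lit 506) (nat_lit 1) (nat_lit 415) (nat_lit 372) (nat_lit 353))))) (XT.nd (nat_lit 312) (nat_lit 988) (nat_lit 0) (XT.nd (nat_lit 156) (nat_lit 0) (nat_lit 0) (XT.nd (nat_lit 78) (nat_lit 1900) (nat_lit 0) (XT.lf (nat_lit 1900) (nat_lit 12896557) (nat_lit 0) (nat_lit 2834304988) (nat_lit 1824) (nat_lit 12896557) (nat_lit 532) (nat_lit 1) (nat_lit 507) (nat_lit 1) (nat_lit 531) (nat_lit 1) (nat_lit 416) (nat_lit 372) (nat_lit 352)) (XT.lf (nat_lit 1976) (nat_lit 1333207895) (nat_lit 0) (nat_lit 167276085) (nat_lit 1900) (nat_lit 1333207895) (nat_lit 508) (nat_lit 1) (nat_lit 482) (nat_lit 1) (nat_lit 507) (nat_lit 1) (nat_lit 417) (nat_lit 372) (nat_lit 351))) (XT.nd (nat_lit 78) (nat_lit 0) (nat_lit 76) (XT.lf (nat_lit 1976) (nat_lit 2450303077) (nat_lit 76) (nat_lit 178736086)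 (nat_lit 0) (nat_lit 178736086) (nat_lit 508) (nat_lit 1) (nat_lit 483) (nat_lit 1) (nat_lit 482) (nat_lit 1) (nat_lit 418) (nat_lit 372) (nat_lit 350)) (XT.lf (nat_lit 1976) (nat_lit 1111100348) (nat_lit 0) (nat_lit 559847919) (nat_lit 1900) (nat_lit 1111100348) (nat_lit 509) (nat_lit 1) (nat_lit 483) (nat_lit 1) (nat_lit 508) (nat_lit 1) (nat_lit 419) (nat_lit 372) (nat_lit 349)))) (XT.nd (nat_lit 156) (nat_lit 1064) (nat_lit 0) (XT.nd (nat_lit 78) (nat_lit 0) (nat_lit 76) (XT.lf (nat_lit 1976) (nat_lit 1994887700) (nat_lit 76) (nat_lit 380933251) (nat_lit 0) (nat_lit 380933251) (nat_lit 509) (nat_lit 1) (nat_lit 484) (nat_lit 1) (nat_lit 483) (nat_lit 1) (nat_lit 420) (nat_lit 372) (nat_lit 348)) (XT.lf (nat_lit 76) (nat_lit 879410322) (nat_lit 0) (nat_lit 972876072) (nat_lit 1900) (nat_lit 879410322) (nat_lit 485) (nat_lit 1) (nat_lit 484) (nat_lit 1) (nat_lit 509) (nat_lit 1) (nat_lit 421) (nat_lit 372) (nat_lit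 347))) (XT.nd (nat_lit 78) (nat_lit 0) (nat_lit 0) (XT.lf (nat_lit 1216) (nat_lit 1520981855) (nat_lit 0) (nat_lit 593011599) (nat_lit 1140) (nat_lit 593011599) (nat_lit 485) (nat_lit 1) (nat_lit 469) (nat_lit 1) (nat_lit 484) (nat_lit 1) (nat_lit 422) (nat_lit 372) (nat_lit 346)) (XT.lf (nat_lit 76) (nat_lit 638866921) (nat_lit 0) (nat_lit 1404866194) (nat_lit 1216) (nat_lit 638866921) (nat_lit 470) (nat_lit 1) (nat_lit 469) (nat_lit 1) (nat_lit 485) (nat_lit 1) (nat_lit 423) (nat_lit 372) (nat_lit 345)))))) (XT.nd (nat_lit 57408) (nat_lit 0) (nat_lit 3192) (XT.nd (nat_lit 57096) (nat_lit 0) (nat_lit 3040) (XT.nd (nat_lit 78) (nat_lit 0) (nat_lit 0) (XT.lf (nat_lit 988) (nat_lit 1030012859) (nat_lit 0) (nat_lit 814239732) (nat_lit 912) (nat_lit 814239732) (nat_lit 470) (nat_lit 1) (nat_lit 457) (nat_lit 1) (nat_lit 469) (nat_lit 1) (nat_lit 424) (nat_lit 372) (nat_lit 344)) (XT.nd (nat_lit 56940) (nat_lit 0) (nat_lit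 3040) (XT.lf (nat_lit 76) (nat_lit 390163936) (nat_lit 0) (nat_lit 1854395687) (nat_lit 988) (nat_lit 390163936) (nat_lit 458) (nat_lit 1) (nat_lit 457) (nat_lit 1) (nat_lit 470) (nat_lit 1) (nat_lit 425) (nat_lit 372) (nat_lit 343)) (XT.lf (nat_lit 1900) (nat_lit 587197439) (nat_lit 0) (nat_lit 592107775) (nat_lit 1900) (nat_lit 587197439) (nat_lit 522) (nat_lit 1) (nat_lit 497) (nat_lit 0) (nat_lit 522) (nat_lit 0) (nat_lit 394) (nat_lit 373) (nat_lit 373)))) (XT.nd (nat_lit 156) (nat_lit 0) (nat_lit 76) (XT.nd (nat_lit 78) (nat_lit 0) (nat_lit 76) (XT.lf (nat_lit 1900) (nat_lit 2321866961) (nat_lit 76) (nat_lit 588212329) (nat_lit 0) (nat_lit 588212329) (nat_lit 522) (nat_lit 1) (nat_lit 498) (nat_lit 1) (nat_lit 497) (nat_lit 0) (nat_lit 395) (nat_lit 373) (nat_lit 372)) (XT.lf (nat_lit 1900) (nat_lit 1140047730) (nat_lit 0) (nat_lit 1183861630) (nat_lit 1824) (nat_lit 1140047730) (nat_lit 523) (nat_lit 1)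 (nat_lit 498) (nat_lit 1) (nat_lit 522) (nat_lit 1) (nat_lit 396) (nat_lit 373) (nat_lit 371))) (XT.nd (nat_lit 78) (nat_lit 0) (nat_lit 76) (XT.lf (nat_lit 1900) (nat_lit 2231354445) (nat_lit 76) (nat_lit 599394312) (nat_lit 0) (nat_lit 599394312) (nat_lit 523) (nat_lit 1) (nat_lit 499) (nat_lit 1) (nat_lit 498) (nat_lit 1) (nat_lit 397) (nat_lit 373) (nat_lit 370)) (XT.lf (nat_lit 1900) (nat_lit 1084395977) (nat_lit 0) (nat_lit 1227910366) (nat_lit 1824) (nat_lit 1084395977) (nat_lit 524) (nat_lit 1) (nat_lit 499) (nat_lit 1) (nat_lit 523) (nat_lit 1) (nat_lit 398) (nat_lit 373) (nat_lit 369))))) (XT.nd (nat_lit 312) (nat_lit 0) (nat_lit 152) (XT.nd (nat_lit 156) (nat_lit 0) (nat_lit 76) (XT.nd (nat_lit 78) (nat_lit 0) (nat_lit 76) (XT.lf (nat_lit 1900) (nat_lit 2099377821) (nat_lit 76) (nat_lit 632190526) (nat_lit 0) (nat_lit 632190526) (nat_lit 524) (nat_lit 1) (nat_lit 500) (nat_lit 1) (nat_lit 499) (nat_lit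 1) (nat_lit 399) (nat_lit 373) (nat_lit 368)) (XT.lf (nat_lit 1900) (nat_lit 1008710792) (nat_lit 0) (nat_lit 1313767179) (nat_lit 1824) (nat_lit 1008710792) (nat_lit 525) (nat_lit 1) (nat_lit 500) (nat_lit 1) (nat_lit 524) (nat_lit 1) (nat_lit 400) (nat_lit 373) (nat_lit 367))) (XT.nd (nat_lit 78) (nat_lit 0) (nat_lit 76) (XT.lf (nat_lit 1900) (nat_lit 1928429129) (nat_lit 76) (nat_lit 685329341) (nat_lit 0) (nat_lit 685329341) (nat_lit 525) (nat_lit 1) (nat_lit 501) (nat_lit 1) (nat_lit 500) (nat_lit 1) (nat_lit 401) (nat_lit 373) (nat_lit 366)) (XT.lf (nat_lit 1900) (nat_lit 914205284) (nat_lit 0) (nat_lit 1438955306) (nat_lit 1824) (nat_lit 914205284) (nat_lit 526) (nat_lit 1) (nat_lit 501) (nat_lit 1) (nat_lit 525) (nat_lit 1) (nat_lit 402) (nat_lit 373) (nat_lit 365)))) (XT.nd (nat_lit 156) (nat_lit 0) (nat_lit 76) (XT.nd (nat_lit 78) (nat_lit 0) (nat_lit 76) (XT.lf (nat_lit 1900) (nat_lit 1720886346) (nat_lit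 76) (nat_lit 757596983) (nat_lit 0) (nat_lit 757596983) (nat_lit 526) (nat_lit 1) (nat_lit 502) (nat_lit 1) (nat_lit 501) (nat_lit 1) (nat_lit 403) (nat_lit 373) (nat_lit 364)) (XT.lf (nat_lit 1900) (nat_lit 802036921) (nat_lit 0) (nat_lit 1601110889) (nat_lit 1824) (nat_lit 802036921) (nat_lit 527) (nat_lit 1) (nat_lit 502) (nat_lit 1) (nat_lit 526) (nat_lit 1) (nat_lit 404) (nat_lit 373) (nat_lit 363))) (XT.nd (nat_lit 78) (nat_lit 0) (nat_lit 76) (XT.lf (nat_lit 1900) (nat_lit 1479018157) (nat_lit 76) (nat_lit 847835124) (nat_lit 0) (nat_lit 847835124) (nat_lit 527) (nat_lit 1) (nat_lit 503) (nat_lit 1) (nat_lit 502) (nat_lit 1) (nat_lit 405) (nat_lit 373) (nat_lit 362)) (XT.lf (nat_lit 1900) (nat_lit 673309861) (nat_lit 0) (nat_lit 1797978268) (nat_lit 1824) (nat_lit 673309861) (nat_lit 528) (nat_lit 1) (nat_lit 503) (nat_lit 1) (nat_lit 527) (nat_lit 1) (nat_lit 406) (nat_lit 373) (nat_lit 361))))))) (XT.nd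 (nat_lit 1170) (nat_lit 1824) (nat_lit 0) (XT.nd (nat_lit 546) (nat_lit 2584) (nat_lit 0) (XT.nd (nat_lit 234) (nat_lit 0) (nat_lit 152) (XT.nd (nat_lit 78) (nat_lit 0) (nat_lit 76) (XT.lf (nat_lit 1900) (nat_lit 1204988529) (nat_lit 76) (nat_lit 954938558) (nat_lit 0) (nat_lit 954938558) (nat_lit 528) (nat_lit 1) (nat_lit 504) (nat_lit 1) (nat_lit 503) (nat_lit 1) (nat_lit 407) (nat_lit 373) (nat_lit 360)) (XT.nd (nat_lit 78) (nat_lit 0) (nat_lit 0) (XT.lf (nat_lit 1900) (nat_lit 529077181) (nat_lit 0) (nat_lit 2027405454) (nat_lit 1824) (nat_lit 529077181) (nat_lit 529) (nat_lit 1) (nat_lit 504) (nat_lit 1) (nat_lit 528) (nat_lit 1) (nat_lit 408) (nat_lit 373) (nat_lit 359)) (XT.lf (nat_lit 1900) (nat_lit 900861103) (nat_lit 76) (nat_lit 1077852987) (nat_lit 0) (nat_lit 1077852987) (nat_lit 529) (nat_lit 1) (nat_lit 505) (nat_lit 1) (nat_lit 504) (nat_lit 1) (nat_lit 409) (nat_lit 373) (nat_lit 358)))) (XT.nd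 (nat_lit 156) (nat_lit 0) (nat_lit 76) (XT.nd (nat_lit 78) (nat_lit 0) (nat_lit 0) (XT.lf (nat_lit 1900) (nat_lit 370343028) (nat_lit 0) (nat_lit 2287339788) (nat_lit 1824) (nat_lit 370343028) (nat_lit 530) (nat_lit 1) (nat_lit 505) (nat_lit 1) (nat_lit 529) (nat_lit 1) (nat_lit 410) (nat_lit 373) (nat_lit 357)) (XT.lf (nat_lit 1900) (nat_lit 568603411) (nat_lit 76) (nat_lit 1215572884) (nat_lit 0) (nat_lit 1215572884) (nat_lit 530) (nat_lit 1) (nat_lit 506) (nat_lit 1) (nat_lit 505) (nat_lit 1) (nat_lit 411) (nat_lit 373) (nat_lit 356))) (XT.nd (nat_lit 78) (nat_lit 0) (nat_lit 0) (XT.lf (nat_lit 1900) (nat_lit 198064674) (nat_lit 0) (nat_lit 2575823775) (nat_lit 1824) (nat_lit 198064674) (nat_lit 531) (nat_lit 1) (nat_lit 506) (nat_lit 1) (nat_lit 530) (nat_lit 1) (nat_lit 412) (nat_lit 373) (nat_lit 355)) (XT.lf (nat_lit 1900) (nat_lit 210090922) (nat_lit 76) (nat_lit 1367139444) (nat_lit 0) (nat_lit 1367139444)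 (nat_lit 531) (nat_lit 1) (nat_lit 507) (nat_lit 1) (nat_lit 506) (nat_lit 1) (nat_lit 413) (nat_lit 373) (nat_lit 354))))) (XT.nd (nat_lit 312) (nat_lit 988) (nat_lit 0) (XT.nd (nat_lit 156) (nat_lit 0) (nat_lit 0) (XT.nd (nat_lit 78) (nat_lit 1900) (nat_lit 0) (XT.lf (nat_lit 1900) (nat_lit 13154488) (nat_lit 0) (nat_lit 2890991088) (nat_lit 1824) (nat_lit 13154488) (nat_lit 532) (nat_lit 1) (nat_lit 507) (nat_lit 1) (nat_lit 531) (nat_lit 1) (nat_lit 414) (nat_lit 373) (nat_lit 353)) (XT.lf (nat_lit 1976) (nat_lit 1359872053) (nat_lit 0) (nat_lit 170621607) (nat_lit 1900) (nat_lit 1359872053) (nat_lit 508) (nat_lit 1) (nat_lit 482) (nat_lit 1) (nat_lit 507) (nat_lit 1) (nat_lit 415) (nat_lit 373) (nat_lit 352))) (XT.nd (nat_lit 78) (nat_lit 0) (nat_lit 76) (XT.lf (nat_lit 1976) (nat_lit 2499309139) (nat_lit 76) (nat_lit 182310808) (nat_lit 0) (nat_lit 182310808) (nat_lit 508) (nat_lit 1) (nat_lit 483) (nat_lit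 1) (nat_lit 482) (nat_lit 1) (nat_lit 416) (nat_lit 373) (nat_lit 351)) (XT.lf (nat_lit 1976) (nat_lit 1133322355) (nat_lit 0) (nat_lit 571044877) (nat_lit 1900) (nat_lit 1133322355) (nat_lit 509) (nat_lit 1) (nat_lit 483) (nat_lit 1) (nat_lit 508) (nat_lit 1) (nat_lit 417) (nat_lit 373) (nat_lit 350)))) (XT.nd (nat_lit 156) (nat_lit 1064) (nat_lit 0) (XT.nd (nat_lit 78) (nat_lit 0) (nat_lit 76) (XT.lf (nat_lit 1976) (nat_lit 2034785454) (nat_lit 76) (nat_lit 388551916) (nat_lit 0) (nat_lit 388551916) (nat_lit 509) (nat_lit 1) (nat_lit 484) (nat_lit 1) (nat_lit 483) (nat_lit 1) (nat_lit 418) (nat_lit 373) (nat_lit 349)) (XT.lf (nat_lit 76) (nat_lit 896998528) (nat_lit 0) (nat_lit 992333593) (nat_lit 1900) (nat_lit 896998528) (nat_lit 485) (nat_lit 1) (nat_lit 484) (nat_lit 1) (nat_lit 509) (nat_lit 1) (nat_lit 419) (nat_lit 373) (nat_lit 348))) (XT.nd (nat_lit 78) (nat_lit 0) (nat_lit 0) (XT.lf (nat_lit 1216) (nat_lit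 1551401492) (nat_lit 0) (nat_lit 604871831) (nat_lit 1140) (nat_lit 604871831) (nat_lit 485) (nat_lit 1) (nat_lit 469) (nat_lit 1) (nat_lit 484) (nat_lit 1) (nat_lit 420) (nat_lit 373) (nat_lit 347)) (XT.lf (nat_lit 76) (nat_lit 651644260) (nat_lit 0) (nat_lit 1432963518) (nat_lit 1216) (nat_lit 651644260) (nat_lit 470) (nat_lit 1) (nat_lit 469) (nat_lit 1) (nat_lit 485) (nat_lit 1) (nat_lit 421) (nat_lit 373) (nat_lit 346)))))) (XT.nd (nat_lit 57330) (nat_lit 0) (nat_lit 4104) (XT.nd (nat_lit 57018) (nat_lit 0) (nat_lit 3952) (XT.nd (nat_lit 156) (nat_lit 912) (nat_lit 0) (XT.nd (nat_lit 78) (nat_lit 0) (nat_lit 0) (XT.lf (nat_lit 988) (nat_lit 1050613116) (nat_lit 0) (nat_lit 830524527) (nat_lit 912) (nat_lit 830524527) (nat_lit 470) (nat_lit 1) (nat_lit 457) (nat_lit 1) (nat_lit 469) (nat_lit 1) (nat_lit 422) (nat_lit 373) (nat_lit 345)) (XT.lf (nat_lit 76) (nat_lit 397967215) (nat_lit 0) (nat_lit 1891483601)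 (nat_lit 988) (nat_lit 397967215) (nat_lit 458) (nat_lit 1) (nat_lit 457) (nat_lit 1) (nat_lit 470) (nat_lit 1) (nat_lit 423) (nat_lit 373) (nat_lit 344))) (XT.nd (nat_lit 78) (nat_lit 0) (nat_lit 0) (XT.lf (nat_lit 988) (nat_lit 533805472) (nat_lit 0) (nat_lit 1064799898) (nat_lit 912) (nat_lit 1064799898) (nat_lit 458) (nat_lit 1) (nat_lit 445) (nat_lit 1) (nat_lit 457) (nat_lit 1) (nat_lit 424) (nat_lit 373) (nat_lit 343)) (XT.lf (nat_lit 76) (nat_lit 136640581) (nat_lit 0) (nat_lit 2366512865) (nat_lit 988) (nat_lit 136640581) (nat_lit 446) (nat_lit 1) (nat_lit 445) (nat_lit 1) (nat_lit 458) (nat_lit 1) (nat_lit 425) (nat_lit 373) (nat_lit 342)))) (XT.nd (nat_lit 156) (nat_lit 0) (nat_lit 76) (XT.nd (nat_lit 78) (nat_lit 0) (nat_lit 0) (XT.lf (nat_lit 1900) (nat_lit 598941388) (nat_lit 0) (nat_lit 603949931) (nat_lit 1900) (nat_lit 598941388) (nat_lit 522) (nat_lit 1) (nat_lit 497) (nat_lit 0) (nat_lit 522)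 (nat_lit 0) (nat_lit 392) (nat_lit 374) (nat_lit 374)) (XT.lf (nat_lit 1900) (nat_lit 2368304300) (nat_lit 76) (nat_lit 599976576) (nat_lit 0) (nat_lit 599976576) (nat_lit 522) (nat_lit 1) (nat_lit 498) (nat_lit 1) (nat_lit 497) (nat_lit 0) (nat_lit 393) (nat_lit 374) (nat_lit 373))) (XT.nd (nat_lit 78) (nat_lit 0) (nat_lit 0) (XT.lf (nat_lit 1900) (nat_lit 1162848684) (nat_lit 0) (nat_lit 1207538863) (nat_lit 1824) (nat_lit 1162848684) (nat_lit 523) (nat_lit 1) (nat_lit 498) (nat_lit 1) (nat_lit 522) (nat_lit 1) (nat_lit 394) (nat_lit 374) (nat_lit 372)) (XT.lf (nat_lit 1900) (nat_lit 2275981533) (nat_lit 76) (nat_lit 611382198) (nat_lit 0) (nat_lit 611382198) (nat_lit 523) (nat_lit 1) (nat_lit 499) (nat_lit 1) (nat_lit 498) (nat_lit 1) (nat_lit 395) (nat_lit 374) (nat_lit 371))))) (XT.nd (nat_lit 312) (nat_lit 0) (nat_lit 152) (XT.nd (nat_lit 156) (nat_lit 0) (nat_lit 76) (XT.nd (nat_lit 78) (nat_lit 0) (nat_lit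 0) (XT.lf (nat_lit 1900) (nat_lit 1106083896) (nat_lit 0) (nat_lit 1252468574) (nat_lit 1824) (nat_lit 1106083896) (nat_lit 524) (nat_lit 1) (nat_lit 499) (nat_lit 1) (nat_lit 523) (nat_lit 1) (nat_lit 396) (nat_lit 374) (nat_lit 370)) (XT.lf (nat_lit 1900) (nat_lit 2141365377) (nat_lit 76) (nat_lit 644834336) (nat_lit 0) (nat_lit 644834336) (nat_lit 524) (nat_lit 1) (nat_lit 500) (nat_lit 1) (nat_lit 499) (nat_lit 1) (nat_lit 397) (nat_lit 374) (nat_lit 369))) (XT.nd (nat_lit 78) (nat_lit 0) (nat_lit 0) (XT.lf (nat_lit 1900) (nat_lit 1028885008) (nat_lit 0) (nat_lit 1340042523) (nat_lit 1824) (nat_lit 1028885008) (nat_lit 525) (nat_lit 1) (nat_lit 500) (nat_lit 1) (nat_lit 524) (nat_lit 1) (nat_lit 398) (nat_lit 374) (nat_lit 368)) (XT.lf (nat_lit 1900) (nat_lit 1966997711) (nat_lit 76) (nat_lit 699035927) (nat_lit 0) (nat_lit 699035927) (nat_lit 525) (nat_lit 1) (nat_lit 501) (nat_lit 1) (nat_lit 500) (nat_lit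 1) (nat_lit 399) (nat_lit 374) (nat_lit 367)))) (XT.nd (nat_lit 156) (nat_lit 0) (nat_lit 76) (XT.nd (nat_lit 78) (nat_lit 0) (nat_lit 0) (XT.lf (nat_lit 1900) (nat_lit 932489390) (nat_lit 0) (nat_lit 1467734412) (nat_lit 1824) (nat_lit 932489390) (nat_lit 526) (nat_lit 1) (nat_lit 501) (nat_lit 1) (nat_lit 525) (nat_lit 1) (nat_lit 400) (nat_lit 374) (nat_lit 366)) (XT.lf (nat_lit 1900) (nat_lit 1755304073) (nat_lit 76) (nat_lit 772748923) (nat_lit 0) (nat_lit 772748923) (nat_lit 526) (nat_lit 1) (nat_lit 502) (nat_lit 1) (nat_lit 501) (nat_lit 1) (nat_lit 401) (nat_lit 374) (nat_lit 365))) (XT.nd (nat_lit 78) (nat_lit 0) (nat_lit 0) (XT.lf (nat_lit 1900) (nat_lit 818077660) (nat_lit 0) (nat_lit 1633133107) (nat_lit 1824) (nat_lit 818077660) (nat_lit 527) (nat_lit 1) (nat_lit 502) (nat_lit 1) (nat_lit 526) (nat_lit 1) (nat_lit 402) (nat_lit 374) (nat_lit 364)) (XT.lf (nat_lit 1900) (nat_lit 1508598521) (nat_lit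 76) (nat_lit 864791826) (nat_lit 0) (nat_lit 864791826) (nat_lit 527) (nat_lit 1) (nat_lit 503) (nat_lit 1) (nat_lit 502) (nat_lit 1) (nat_lit 403) (nat_lit 374) (nat_lit 363))))))))
noncomputable def ec5 : XT := (XT.nd (nat_lit 58968) (nat_lit 836) (nat_lit 0) (XT.nd (nat_lit 1170) (nat_lit 3648) (nat_lit 0) (XT.nd (nat_lit 546) (nat_lit 2584) (nat_lit 0) (XT.nd (nat_lit 234) (nat_lit 0) (nat_lit 76) (XT.nd (nat_lit 78) (nat_lit 0) (nat_lit 0) (XT.lf (nat_lit 1900) (nat_lit 686776058) (nat_lit 0) (nat_lit 1833937834) (nat_lit 1824) (nat_lit 686776058) (nat_lit 528) (nat_lit 1) (nat_lit 503) (nat_lit 1) (nat_lit 527) (nat_lit 1) (nat_lit 404) (nat_lit 374) (nat_lit 362)) (XT.nd (nat_lit 78) (nat_lit 0) (nat_lit 76) (XT.lf (nat_lit 1900) (nat_lit 1229088300) (nat_lit 76) (nat_lit 974037329) (nat_lit 0) (nat_lit 974037329) (nat_lit 528) (nat_lit 1) (nat_lit 504) (nat_lit 1) (nat_lit 503) (nat_lit 1) (nat_lit 405)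 (nat_lit 374) (nat_lit 361)) (XT.lf (nat_lit 1900) (nat_lit 539658724) (nat_lit 0) (nat_lit 2067953563) (nat_lit 1824) (nat_lit 539658724) (nat_lit 529) (nat_lit 1) (nat_lit 504) (nat_lit 1) (nat_lit 528) (nat_lit 1) (nat_lit 406) (nat_lit 374) (nat_lit 360)))) (XT.nd (nat_lit 156) (nat_lit 0) (nat_lit 76) (XT.nd (nat_lit 78) (nat_lit 0) (nat_lit 76) (XT.lf (nat_lit 1900) (nat_lit 918878325) (nat_lit 76) (nat_lit 1099410047) (nat_lit 0) (nat_lit 1099410047) (nat_lit 529) (nat_lit 1) (nat_lit 505) (nat_lit 1) (nat_lit 504) (nat_lit 1) (nat_lit 407) (nat_lit 374) (nat_lit 359)) (XT.lf (nat_lit 1900) (nat_lit 377749889) (nat_lit 0) (nat_lit 2333086584) (nat_lit 1824) (nat_lit 377749889) (nat_lit 530) (nat_lit 1) (nat_lit 505) (nat_lit 1) (nat_lit 529) (nat_lit 1) (nat_lit 408) (nat_lit 374) (nat_lit 358))) (XT.nd (nat_lit 78) (nat_lit 0) (nat_lit 76) (XT.lf (nat_lit 1900) (nat_lit 579975479) (nat_lit 76) (nat_lit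 1239884342) (nat_lit 0) (nat_lit 1239884342) (nat_lit 530) (nat_lit 1) (nat_lit 506) (nat_lit 1) (nat_lit 505) (nat_lit 1) (nat_lit 409) (nat_lit 374) (nat_lit 357)) (XT.lf (nat_lit 1900) (nat_lit 202025968) (nat_lit 0) (nat_lit 2627340251) (nat_lit 1824) (nat_lit 202025968) (nat_lit 531) (nat_lit 1) (nat_lit 506) (nat_lit 1) (nat_lit 530) (nat_lit 1) (nat_lit 410) (nat_lit 374) (nat_lit 356))))) (XT.nd (nat_lit 312) (nat_lit 988) (nat_lit 0) (XT.nd (nat_lit 156) (nat_lit 1824) (nat_lit 0) (XT.nd (nat_lit 78) (nat_lit 0) (nat_lit 76) (XT.lf (nat_lit 1900) (nat_lit 214292740) (nat_lit 76) (nat_lit 1394482233) (nat_lit 0) (nat_lit 1394482233) (nat_lit 531) (nat_lit 1) (nat_lit 507) (nat_lit 1) (nat_lit 506) (nat_lit 1) (nat_lit 411) (nat_lit 374) (nat_lit 355)) (XT.lf (nat_lit 1900) (nat_lit 13417578) (nat_lit 0) (nat_lit 2948810910) (nat_lit 1824) (nat_lit 13417578) (nat_lit 532) (nat_lit 1) (nat_lit 507) (nat_lit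 1) (nat_lit 531) (nat_lit 1) (nat_lit 412) (nat_lit 374) (nat_lit 354))) (XT.nd (nat_lit 78) (nat_lit 0) (nat_lit 0) (XT.lf (nat_lit 1976) (nat_lit 1387069494) (nat_lit 0) (nat_lit 174034039) (nat_lit 1900) (nat_lit 1387069494) (nat_lit 508) (nat_lit 1) (nat_lit 482) (nat_lit 1) (nat_lit 507) (nat_lit 1) (nat_lit 413) (nat_lit 374) (nat_lit 353)) (XT.lf (nat_lit 1976) (nat_lit 2549295322) (nat_lit 76) (nat_lit 185957024) (nat_lit 0) (nat_lit 185957024) (nat_lit 508) (nat_lit 1) (nat_lit 483) (nat_lit 1) (nat_lit 482) (nat_lit 1) (nat_lit 414) (nat_lit 374) (nat_lit 352)))) (XT.nd (nat_lit 156) (nat_lit 1064) (nat_lit 0) (XT.nd (nat_lit 78) (nat_lit 0) (nat_lit 0) (XT.lf (nat_lit 1976) (nat_lit 1155988802) (nat_lit 0) (nat_lit 582465775) (nat_lit 1900) (nat_lit 1155988802) (nat_lit 509) (nat_lit 1) (nat_lit 483) (nat_lit 1) (nat_lit 508) (nat_lit 1) (nat_lit 415) (nat_lit 374) (nat_lit 351)) (XT.lf (nat_lit 1976)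 (nat_lit 2075481163) (nat_lit 76) (nat_lit 396322954) (nat_lit 0) (nat_lit 396322954) (nat_lit 509) (nat_lit 1) (nat_lit 484) (nat_lit 1) (nat_lit 483) (nat_lit 1) (nat_lit 416) (nat_lit 374) (nat_lit 350))) (XT.nd (nat_lit 78) (nat_lit 1140) (nat_lit 0) (XT.lf (nat_lit 76) (nat_lit 914938499) (nat_lit 0) (nat_lit 1012180265) (nat_lit 1900) (nat_lit 914938499) (nat_lit 485) (nat_lit 1) (nat_lit 484) (nat_lit 1) (nat_lit 509) (nat_lit 1) (nat_lit 417) (nat_lit 374) (nat_lit 349)) (XT.lf (nat_lit 1216) (nat_lit 1582429521) (nat_lit 0) (nat_lit 616969268) (nat_lit 1140) (nat_lit 616969268) (nat_lit 485) (nat_lit 1) (nat_lit 469) (nat_lit 1) (nat_lit 484) (nat_lit 1) (nat_lit 418) (nat_lit 374) (nat_lit 348)))))) (XT.nd (nat_lit 57174) (nat_lit 0) (nat_lit 5776) (XT.nd (nat_lit 312) (nat_lit 1824) (nat_lit 0) (XT.nd (nat_lit 156) (nat_lit 912) (nat_lit 0) (XT.nd (nat_lit 78) (nat_lit 912) (nat_lit 0) (XT.lf (nat_lit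 76) (nat_lit 664677145) (nat_lit 0) (nat_lit 1461622788) (nat_lit 1216) (nat_lit 664677145) (nat_lit 470) (nat_lit 1) (nat_lit 469) (nat_lit 1) (nat_lit 485) (nat_lit 1) (nat_lit 419) (nat_lit 374) (nat_lit 347)) (XT.lf (nat_lit 988) (nat_lit 1071625379) (nat_lit 0) (nat_lit 847135017) (nat_lit 912) (nat_lit 847135017) (nat_lit 470) (nat_lit 1) (nat_lit 457) (nat_lit 1) (nat_lit 469) (nat_lit 1) (nat_lit 420) (nat_lit 374) (nat_lit 346))) (XT.nd (nat_lit 78) (nat_lit 912) (nat_lit 0) (XT.lf (nat_lit 76) (nat_lit 405926559) (nat_lit 0) (nat_lit 1929313273) (nat_lit 988) (nat_lit 405926559) (nat_lit 458) (nat_lit 1) (nat_lit 457) (nat_lit 1) (nat_lit 470) (nat_lit 1) (nat_lit 421) (nat_lit 374) (nat_lit 345)) (XT.lf (nat_lit 988) (nat_lit 544481582) (nat_lit 0) (nat_lit 1086095896) (nat_lit 912) (nat_lit 1086095896) (nat_lit 458) (nat_lit 1) (nat_lit 445) (nat_lit 1) (nat_lit 457) (nat_lit 1) (nat_lit 422) (nat_lit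 374) (nat_lit 344)))) (XT.nd (nat_lit 156) (nat_lit 988) (nat_lit 0) (XT.nd (nat_lit 78) (nat_lit 836) (nat_lit 0) (XT.lf (nat_lit 76) (nat_lit 139373393) (nat_lit 0) (nat_lit 2413843122) (nat_lit 988) (nat_lit 139373393) (nat_lit 446) (nat_lit 1) (nat_lit 445) (nat_lit 1) (nat_lit 458) (nat_lit 1) (nat_lit 423) (nat_lit 374) (nat_lit 343)) (XT.lf (nat_lit 912) (nat_lit 2341929) (nat_lit 0) (nat_lit 1333162677) (nat_lit 836) (nat_lit 1333162677) (nat_lit 446) (nat_lit 1) (nat_lit 434) (nat_lit 1) (nat_lit 445) (nat_lit 1) (nat_lit 424) (nat_lit 374) (nat_lit 342))) (XT.nd (nat_lit 56628) (nat_lit 0) (nat_lit 5776) (XT.lf (nat_lit 988) (nat_lit 2378252178) (nat_lit 0) (nat_lit 133445621) (nat_lit 912) (nat_lit 133445621) (nat_lit 434) (nat_lit 1) (nat_lit 421) (nat_lit 1) (nat_lit 433) (nat_lit 1) (nat_lit 425) (nat_lit 374) (nat_lit 341)) (XT.lf (nat_lit 1900) (nat_lit 610920215) (nat_lit 0) (nat_lit 616028929)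 (nat_lit 1900) (nat_lit 610920215) (nat_lit 522) (nat_lit 1) (nat_lit 497) (nat_lit 0) (nat_lit 522) (nat_lit 0) (nat_lit 390) (nat_lit 375) (nat_lit 375))))) (XT.nd (nat_lit 312) (nat_lit 0) (nat_lit 152) (XT.nd (nat_lit 156) (nat_lit 0) (nat_lit 76) (XT.nd (nat_lit 78) (nat_lit 0) (nat_lit 76) (XT.lf (nat_lit 1900) (nat_lit 2415670386) (nat_lit 76) (nat_lit 611976107) (nat_lit 0) (nat_lit 611976107) (nat_lit 522) (nat_lit 1) (nat_lit 498) (nat_lit 1) (nat_lit 497) (nat_lit 0) (nat_lit 391) (nat_lit 375) (nat_lit 374)) (XT.lf (nat_lit 1900) (nat_lit 1186105658) (nat_lit 0) (nat_lit 1231689640) (nat_lit 1824) (nat_lit 1186105658) (nat_lit 523) (nat_lit 1) (nat_lit 498) (nat_lit 1) (nat_lit 522) (nat_lit 1) (nat_lit 392) (nat_lit 375) (nat_lit 373))) (XT.nd (nat_lit 78) (nat_lit 0) (nat_lit 76) (XT.lf (nat_lit 1900) (nat_lit 2321501164) (nat_lit 76) (nat_lit 623609842) (nat_lit 0) (nat_lit 623609842) (nat_lit 523)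 (nat_lit 1) (nat_lit 499) (nat_lit 1) (nat_lit 498) (nat_lit 1) (nat_lit 393) (nat_lit 375) (nat_lit 372)) (XT.lf (nat_lit 1900) (nat_lit 1128205574) (nat_lit 0) (nat_lit 1277517945) (nat_lit 1824) (nat_lit 1128205574) (nat_lit 524) (nat_lit 1) (nat_lit 499) (nat_lit 1) (nat_lit 523) (nat_lit 1) (nat_lit 394) (nat_lit 375) (nat_lit 371)))) (XT.nd (nat_lit 156) (nat_lit 0) (nat_lit 76) (XT.nd (nat_lit 78) (nat_lit 0) (nat_lit 76) (XT.lf (nat_lit 1900) (nat_lit 2184192685) (nat_lit 76) (nat_lit 657731023) (nat_lit 0) (nat_lit 657731023) (nat_lit 524) (nat_lit 1) (nat_lit 500) (nat_lit 1) (nat_lit 499) (nat_lit 1) (nat_lit 395) (nat_lit 375) (nat_lit 370)) (XT.lf (nat_lit 1900) (nat_lit 1049462708) (nat_lit 0) (nat_lit 1366843373) (nat_lit 1824) (nat_lit 1049462708) (nat_lit 525) (nat_lit 1) (nat_lit 500) (nat_lit 1) (nat_lit 524) (nat_lit 1) (nat_lit 396) (nat_lit 375) (nat_lit 369))) (XT.nd (nat_lit 78) (nat_lit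 0) (nat_lit 76) (XT.lf (nat_lit 1900) (nat_lit 2006337666) (nat_lit 76) (nat_lit 713016646) (nat_lit 0) (nat_lit 713016646) (nat_lit 525) (nat_lit 1) (nat_lit 501) (nat_lit 1) (nat_lit 500) (nat_lit 1) (nat_lit 397) (nat_lit 375) (nat_lit 368)) (XT.lf (nat_lit 1900) (nat_lit 951139178) (nat_lit 0) (nat_lit 1497089100) (nat_lit 1824) (nat_lit 951139178) (nat_lit 526) (nat_lit 1) (nat_lit 501) (nat_lit 1) (nat_lit 525) (nat_lit 1) (nat_lit 398) (nat_lit 375) (nat_lit 367))))))) (XT.nd (nat_lit 1170) (nat_lit 5472) (nat_lit 0) (XT.nd (nat_lit 546) (nat_lit 1444) (nat_lit 0) (XT.nd (nat_lit 234) (nat_lit 0) (nat_lit 152) (XT.nd (nat_lit 78) (nat_lit 0) (nat_lit 76) (XT.lf (nat_lit 1900) (nat_lit 1790410155) (nat_lit 76) (nat_lit 788203902) (nat_lit 0) (nat_lit 788203902) (nat_lit 526) (nat_lit 1) (nat_lit 502) (nat_lit 1) (nat_lit 501) (nat_lit 1) (nat_lit 399) (nat_lit 375) (nat_lit 366)) (XT.nd (nat_lit 78) (nat_lit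 0) (nat_lit 0) (XT.lf (nat_lit 1900) (nat_lit 834439213) (nat_lit 0) (nat_lit 1665795769) (nat_lit 1824) (nat_lit 834439213) (nat_lit 527) (nat_lit 1) (nat_lit 502) (nat_lit 1) (nat_lit 526) (nat_lit 1) (nat_lit 400) (nat_lit 375) (nat_lit 365)) (XT.lf (nat_lit 1900) (nat_lit 1538770491) (nat_lit 76) (nat_lit 882087663) (nat_lit 0) (nat_lit 882087663) (nat_lit 527) (nat_lit 1) (nat_lit 503) (nat_lit 1) (nat_lit 502) (nat_lit 1) (nat_lit 401) (nat_lit 375) (nat_lit 364)))) (XT.nd (nat_lit 156) (nat_lit 0) (nat_lit 76) (XT.nd (nat_lit 78) (nat_lit 0) (nat_lit 0) (XT.lf (nat_lit 1900) (nat_lit 700511579) (nat_lit 0) (nat_lit 1870616591) (nat_lit 1824) (nat_lit 700511579) (nat_lit 528) (nat_lit 1) (nat_lit 503) (nat_lit 1) (nat_lit 527) (nat_lit 1) (nat_lit 402) (nat_lit 375) (nat_lit 363)) (XT.lf (nat_lit 1900) (nat_lit 1253670066) (nat_lit 76) (nat_lit 993518076) (nat_lit 0) (nat_lit 993518076) (nat_lit 528) (nat_lit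 1) (nat_lit 504) (nat_lit 1) (nat_lit 503) (nat_lit 1) (nat_lit 403) (nat_lit 375) (nat_lit 362))) (XT.nd (nat_lit 78) (nat_lit 0) (nat_lit 0) (XT.lf (nat_lit 1900) (nat_lit 550451899) (nat_lit 0) (nat_lit 2109312635) (nat_lit 1824) (nat_lit 550451899) (nat_lit 529) (nat_lit 1) (nat_lit 504) (nat_lit 1) (nat_lit 528) (nat_lit 1) (nat_lit 404) (nat_lit 375) (nat_lit 361)) (XT.lf (nat_lit 1900) (nat_lit 937255891) (nat_lit 76) (nat_lit 1121398248) (nat_lit 0) (nat_lit 1121398248) (nat_lit 529) (nat_lit 1) (nat_lit 505) (nat_lit 1) (nat_lit 504) (nat_lit 1) (nat_lit 405) (nat_lit 375) (nat_lit 360))))) (XT.nd (nat_lit 312) (nat_lit 1748) (nat_lit 0) (XT.nd (nat_lit 156) (nat_lit 0) (nat_lit 76) (XT.nd (nat_lit 78) (nat_lit 0) (nat_lit 0) (XT.lf (nat_lit 1900) (nat_lit 385304887) (nat_lit 0) (nat_lit 2379748315) (nat_lit 1824) (nat_lit 385304887) (nat_lit 530) (nat_lit 1) (nat_lit 505) (nat_lit 1) (nat_lit 529) (nat_lit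 1) (nat_lit 406) (nat_lit 375) (nat_lit 359)) (XT.lf (nat_lit 1900) (nat_lit 591574989) (nat_lit 76) (nat_lit 1264682029) (nat_lit 0) (nat_lit 1264682029) (nat_lit 530) (nat_lit 1) (nat_lit 506) (nat_lit 1) (nat_lit 505) (nat_lit 1) (nat_lit 407) (nat_lit 375) (nat_lit 358))) (XT.nd (nat_lit 78) (nat_lit 0) (nat_lit 0) (XT.lf (nat_lit 1900) (nat_lit 206066487) (nat_lit 0) (nat_lit 2679887056) (nat_lit 1824) (nat_lit 206066487) (nat_lit 531) (nat_lit 1) (nat_lit 506) (nat_lit 1) (nat_lit 530) (nat_lit 1) (nat_lit 408) (nat_lit 375) (nat_lit 357)) (XT.lf (nat_lit 1900) (nat_lit 218578595) (nat_lit 76) (nat_lit 1422371877) (nat_lit 0) (nat_lit 1422371877) (nat_lit 531) (nat_lit 1) (nat_lit 507) (nat_lit 1) (nat_lit 506) (nat_lit 1) (nat_lit 409) (nat_lit 375) (nat_lit 356)))) (XT.nd (nat_lit 156) (nat_lit 0) (nat_lit 0) (XT.nd (nat_lit 78) (nat_lit 1900) (nat_lit 0) (XT.lf (nat_lit 1900) (nat_lit 13685929) (nat_lit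 0) (nat_lit 3007787128) (nat_lit 1824) (nat_lit 13685929) (nat_lit 532) (nat_lit 1) (nat_lit 507) (nat_lit 1) (nat_lit 531) (nat_lit 1) (nat_lit 410) (nat_lit 375) (nat_lit 355)) (XT.lf (nat_lit 1976) (nat_lit 1414810884) (nat_lit 0) (nat_lit 177514720) (nat_lit 1900) (nat_lit 1414810884) (nat_lit 508) (nat_lit 1) (nat_lit 482) (nat_lit 1) (nat_lit 507) (nat_lit 1) (nat_lit 411) (nat_lit 375) (nat_lit 354))) (XT.nd (nat_lit 78) (nat_lit 0) (nat_lit 76) (XT.lf (nat_lit 1976) (nat_lit 2600281228) (nat_lit 76) (nat_lit 189676165) (nat_lit 0) (nat_lit 189676165) (nat_lit 508) (nat_lit 1) (nat_lit 483) (nat_lit 1) (nat_lit 482) (nat_lit 1) (nat_lit 412) (nat_lit 375) (nat_lit 353)) (XT.lf (nat_lit 1976) (nat_lit 1179108578) (nat_lit 0) (nat_lit 594115090) (nat_lit 1900) (nat_lit 1179108578) (nat_lit 509) (nat_lit 1) (nat_lit 483) (nat_lit 1) (nat_lit 508) (nat_lit 1) (nat_lit 413) (nat_lit 375) (nat_lit 352)))))) (XT.nd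 (nat_lit 624) (nat_lit 2660) (nat_lit 0) (XT.nd (nat_lit 312) (nat_lit 1824) (nat_lit 0) (XT.nd (nat_lit 156) (nat_lit 1064) (nat_lit 0) (XT.nd (nat_lit 78) (nat_lit 0) (nat_lit 76) (XT.lf (nat_lit 1976) (nat_lit 2116990786) (nat_lit 76) (nat_lit 404249413) (nat_lit 0) (nat_lit 404249413) (nat_lit 509) (nat_lit 1) (nat_lit 484) (nat_lit 1) (nat_lit 483) (nat_lit 1) (nat_lit 414) (nat_lit 375) (nat_lit 351)) (XT.lf (nat_lit 76) (nat_lit 933237269) (nat_lit 0) (nat_lit 1032423870) (nat_lit 1900) (nat_lit 933237269) (nat_lit 485) (nat_lit 1) (nat_lit 484) (nat_lit 1) (nat_lit 509) (nat_lit 1) (nat_lit 415) (nat_lit 375) (nat_lit 350))) (XT.nd (nat_lit 78) (nat_lit 0) (nat_lit 0) (XT.lf (nat_lit 1216) (nat_lit 1614078112) (nat_lit 0) (nat_lit 629308653) (nat_lit 1140) (nat_lit 629308653) (nat_lit 485) (nat_lit 1) (nat_lit 469) (nat_lit 1) (nat_lit 484) (nat_lit 1) (nat_lit 416) (nat_lit 375) (nat_lit 349)) (XT.lf (nat_lit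 76) (nat_lit 677970688) (nat_lit 0) (nat_lit 1490855244) (nat_lit 1216) (nat_lit 677970688) (nat_lit 470) (nat_lit 1) (nat_lit 469) (nat_lit 1) (nat_lit 485) (nat_lit 1) (nat_lit 417) (nat_lit 375) (nat_lit 348)))) (XT.nd (nat_lit 156) (nat_lit 912) (nat_lit 0) (XT.nd (nat_lit 78) (nat_lit 0) (nat_lit 0) (XT.lf (nat_lit 988) (nat_lit 1093057886) (nat_lit 0) (nat_lit 864077717) (nat_lit 912) (nat_lit 864077717) (nat_lit 470) (nat_lit 1) (nat_lit 457) (nat_lit 1) (nat_lit 469) (nat_lit 1) (nat_lit 418) (nat_lit 375) (nat_lit 347)) (XT.lf (nat_lit 76) (nat_lit 414045090) (nat_lit 0) (nat_lit 1967899539) (nat_lit 988) (nat_lit 414045090) (nat_lit 458) (nat_lit 1) (nat_lit 457) (nat_lit 1) (nat_lit 470) (nat_lit 1) (nat_lit 419) (nat_lit 375) (nat_lit 346))) (XT.nd (nat_lit 78) (nat_lit 0) (nat_lit 0) (XT.lf (nat_lit 988) (nat_lit 555371213) (nat_lit 0) (nat_lit 1107817813) (nat_lit 912) (nat_lit 1107817813) (nat_lit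 458) (nat_lit 1) (nat_lit 445) (nat_lit 1) (nat_lit 457) (nat_lit 1) (nat_lit 420) (nat_lit 375) (nat_lit 345)) (XT.lf (nat_lit 76) (nat_lit 142160860) (nat_lit 0) (nat_lit 2462119984) (nat_lit 988) (nat_lit 142160860) (nat_lit 446) (nat_lit 1) (nat_lit 445) (nat_lit 1) (nat_lit 458) (nat_lit 1) (nat_lit 421) (nat_lit 375) (nat_lit 344))))) (XT.nd (nat_lit 56706) (nat_lit 0) (nat_lit 6612) (XT.nd (nat_lit 156) (nat_lit 836) (nat_lit 0) (XT.nd (nat_lit 78) (nat_lit 988) (nat_lit 0) (XT.lf (nat_lit 912) (nat_lit 2388767) (nat_lit 0) (nat_lit 1359825930) (nat_lit 836) (nat_lit 1359825930) (nat_lit 446) (nat_lit 1) (nat_lit 434) (nat_lit 1) (nat_lit 445) (nat_lit 1) (nat_lit 422) (nat_lit 375) (nat_lit 343)) (XT.lf (nat_lit 988) (nat_lit 2425817221) (nat_lit 0) (nat_lit 136114533) (nat_lit 912) (nat_lit 136114533) (nat_lit 434) (nat_lit 1) (nat_lit 421) (nat_lit 1) (nat_lit 433) (nat_lit 1) (nat_lit 423) (nat_lit 375)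 (nat_lit 342))) (XT.nd (nat_lit 78) (nat_lit 836) (nat_lit 0) (XT.lf (nat_lit 76) (nat_lit 1058512791) (nat_lit 0) (nat_lit 557181537) (nat_lit 988) (nat_lit 1058512791) (nat_lit 422) (nat_lit 1) (nat_lit 421) (nat_lit 1) (nat_lit 434) (nat_lit 1) (nat_lit 424) (nat_lit 375) (nat_lit 341)) (XT.lf (nat_lit 912) (nat_lit 1810623013) (nat_lit 0) (nat_lit 420070248) (nat_lit 836) (nat_lit 420070248) (nat_lit 422) (nat_lit 1) (nat_lit 410) (nat_lit 1) (nat_lit 421) (nat_lit 1) (nat_lit 425) (nat_lit 375) (nat_lit 340)))) (XT.nd (nat_lit 156) (nat_lit 0) (nat_lit 76) (XT.nd (nat_lit 78) (nat_lit 0) (nat_lit 0) (XT.lf (nat_lit 1900) (nat_lit 623138620) (nat_lit 0) (nat_lit 628349508) (nat_lit 1900) (nat_lit 623138620) (nat_lit 522) (nat_lit 1) (nat_lit 497) (nat_lit 0) (nat_lit 522) (nat_lit 0) (nat_lit 388) (nat_lit 376) (nat_lit 376)) (XT.lf (nat_lit 1900) (nat_lit 2463983794) (nat_lit 76) (nat_lit 624215630) (nat_lit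 0) (nat_lit 624215630) (nat_lit 522) (nat_lit 1) (nat_lit 498) (nat_lit 1) (nat_lit 497) (nat_lit 0) (nat_lit 389) (nat_lit 376) (nat_lit 375))) (XT.nd (nat_lit 78) (nat_lit 0) (nat_lit 0) (XT.lf (nat_lit 1900) (nat_lit 1209827771) (nat_lit 0) (nat_lit 1256323433) (nat_lit 1824) (nat_lit 1209827771) (nat_lit 523) (nat_lit 1) (nat_lit 498) (nat_lit 1) (nat_lit 522) (nat_lit 1) (nat_lit 390) (nat_lit 376) (nat_lit 374)) (XT.lf (nat_lit 1900) (nat_lit 2367931187) (nat_lit 76) (nat_lit 636082039) (nat_lit 0) (nat_lit 636082039) (nat_lit 523) (nat_lit 1) (nat_lit 499) (nat_lit 1) (nat_lit 498) (nat_lit 1) (nat_lit 391) (nat_lit 376) (nat_lit 373))))))))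
noncomputable def ec6 : XT := (XT.nd (nat_lit 2340) (nat_lit 1672) (nat_lit 0) (XT.nd (nat_lit 1170) (nat_lit 5928) (nat_lit 0) (XT.nd (nat_lit 546) (nat_lit 0) (nat_lit 228) (XT.nd (nat_lit 234) (nat_lit 0) (nat_lit 76) (XT.nd (nat_lit 78) (nat_lit 0) (nat_lit 0) (XT.lf (nat_lit 1900) (nat_lit 1150769686) (nat_lit 0) (nat_lit 1303068304) (nat_lit 1824) (nat_lit 1150769686) (nat_lit 524) (nat_lit 1) (nat_lit 499) (nat_lit 1) (nat_lit 523) (nat_lit 1) (nat_lit 392) (nat_lit 376) (nat_lit 372)) (XT.nd (nat_lit 78) (nat_lit 0) (nat_lit 76) (XT.lf (nat_lit 1900) (nat_lit 2227876538) (nat_lit 76) (nat_lit 670885643) (nat_lit 0) (nat_lit 670885643) (nat_lit 524) (nat_lit 1) (nat_lit 500) (nat_lit 1) (nat_lit 499) (nat_lit 1) (nat_lit 393) (nat_lit 376) (nat_lit 371)) (XT.lf (nat_lit 1900) (nat_lit 1070451962) (nat_lit 0) (nat_lit 1394180241) (nat_lit 1824) (nat_lit 1070451962) (nat_lit 525) (nat_lit 1) (nat_lit 500)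 (nat_lit 1) (nat_lit 524) (nat_lit 1) (nat_lit 394) (nat_lit 376) (nat_lit 370)))) (XT.nd (nat_lit 156) (nat_lit 0) (nat_lit 76) (XT.nd (nat_lit 78) (nat_lit 0) (nat_lit 76) (XT.lf (nat_lit 1900) (nat_lit 2046464419) (nat_lit 76) (nat_lit 727276979) (nat_lit 0) (nat_lit 727276979) (nat_lit 525) (nat_lit 1) (nat_lit 501) (nat_lit 1) (nat_lit 500) (nat_lit 1) (nat_lit 395) (nat_lit 376) (nat_lit 369)) (XT.lf (nat_lit 1900) (nat_lit 970161961) (nat_lit 0) (nat_lit 1527030882) (nat_lit 1824) (nat_lit 970161961) (nat_lit 526) (nat_lit 1) (nat_lit 501) (nat_lit 1) (nat_lit 525) (nat_lit 1) (nat_lit 396) (nat_lit 376) (nat_lit 368))) (XT.nd (nat_lit 78) (nat_lit 0) (nat_lit 76) (XT.lf (nat_lit 1900) (nat_lit 1826218358) (nat_lit 76) (nat_lit 803967980) (nat_lit 0) (nat_lit 803967980) (nat_lit 526) (nat_lit 1) (nat_lit 502) (nat_lit 1) (nat_lit 501) (nat_lit 1) (nat_lit 397) (nat_lit 376) (nat_lit 367)) (XT.lf (nat_lit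 1900) (nat_lit 851127997) (nat_lit 0) (nat_lit 1699111684) (nat_lit 1824) (nat_lit 851127997) (nat_lit 527) (nat_lit 1) (nat_lit 502) (nat_lit 1) (nat_lit 526) (nat_lit 1) (nat_lit 398) (nat_lit 376) (nat_lit 366))))) (XT.nd (nat_lit 312) (nat_lit 0) (nat_lit 152) (XT.nd (nat_lit 156) (nat_lit 0) (nat_lit 76) (XT.nd (nat_lit 78) (nat_lit 0) (nat_lit 76) (XT.lf (nat_lit 1900) (nat_lit 1569545901) (nat_lit 76) (nat_lit 899729416) (nat_lit 0) (nat_lit 899729416) (nat_lit 527) (nat_lit 1) (nat_lit 503) (nat_lit 1) (nat_lit 502) (nat_lit 1) (nat_lit 399) (nat_lit 376) (nat_lit 365)) (XT.lf (nat_lit 1900) (nat_lit 714521810) (nat_lit 0) (nat_lit 1908028922) (nat_lit 1824) (nat_lit 714521810) (nat_lit 528) (nat_lit 1) (nat_lit 503) (nat_lit 1) (nat_lit 527) (nat_lit 1) (nat_lit 400) (nat_lit 376) (nat_lit 364))) (XT.nd (nat_lit 78) (nat_lit 0) (nat_lit 76) (XT.lf (nat_lit 1900) (nat_lit 1278743467) (nat_lit 76) (nat_lit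 1013388437) (nat_lit 0) (nat_lit 1013388437) (nat_lit 528) (nat_lit 1) (nat_lit 504) (nat_lit 1) (nat_lit 503) (nat_lit 1) (nat_lit 401) (nat_lit 376) (nat_lit 363)) (XT.lf (nat_lit 1900) (nat_lit 561460937) (nat_lit 0) (nat_lit 2151498887) (nat_lit 1824) (nat_lit 561460937) (nat_lit 529) (nat_lit 1) (nat_lit 504) (nat_lit 1) (nat_lit 528) (nat_lit 1) (nat_lit 402) (nat_lit 376) (nat_lit 362)))) (XT.nd (nat_lit 156) (nat_lit 0) (nat_lit 76) (XT.nd (nat_lit 78) (nat_lit 0) (nat_lit 76) (XT.lf (nat_lit 1900) (nat_lit 956001009) (nat_lit 76) (nat_lit 1143826213) (nat_lit 0) (nat_lit 1143826213) (nat_lit 529) (nat_lit 1) (nat_lit 505) (nat_lit 1) (nat_lit 504) (nat_lit 1) (nat_lit 403) (nat_lit 376) (nat_lit 361)) (XT.lf (nat_lit 1900) (nat_lit 393010985) (nat_lit 0) (nat_lit 2427343282) (nat_lit 1824) (nat_lit 393010985) (nat_lit 530) (nat_lit 1) (nat_lit 505) (nat_lit 1) (nat_lit 529) (nat_lit 1) (nat_lit 404) (nat_lit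 376) (nat_lit 360))) (XT.nd (nat_lit 78) (nat_lit 0) (nat_lit 76) (XT.lf (nat_lit 1900) (nat_lit 603406489) (nat_lit 76) (nat_lit 1289975669) (nat_lit 0) (nat_lit 1289975669) (nat_lit 530) (nat_lit 1) (nat_lit 506) (nat_lit 1) (nat_lit 505) (nat_lit 1) (nat_lit 405) (nat_lit 376) (nat_lit 359)) (XT.lf (nat_lit 1900) (nat_lit 210187817) (nat_lit 0) (nat_lit 2733484797) (nat_lit 1824) (nat_lit 210187817) (nat_lit 531) (nat_lit 1) (nat_lit 506) (nat_lit 1) (nat_lit 530) (nat_lit 1) (nat_lit 406) (nat_lit 376) (nat_lit 358)))))) (XT.nd (nat_lit 546) (nat_lit 4636) (nat_lit 0) (XT.nd (nat_lit 234) (nat_lit 0) (nat_lit 0) (XT.nd (nat_lit 78) (nat_lit 1824) (nat_lit 0) (XT.lf (nat_lit 1900) (nat_lit 222950167) (nat_lit 76) (nat_lit 1450819315) (nat_lit 0) (nat_lit 1450819315) (nat_lit 531) (nat_lit 1) (nat_lit 507) (nat_lit 1) (nat_lit 506) (nat_lit 1) (nat_lit 407) (nat_lit 376) (nat_lit 357)) (XT.nd (nat_lit 78) (nat_lit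 1900) (nat_lit 0) (XT.lf (nat_lit 1900) (nat_lit 13959648) (nat_lit 0) (nat_lit 3067942870) (nat_lit 1824) (nat_lit 13959648) (nat_lit 532) (nat_lit 1) (nat_lit 507) (nat_lit 1) (nat_lit 531) (nat_lit 1) (nat_lit 408) (nat_lit 376) (nat_lit 356)) (XT.lf (nat_lit 1976) (nat_lit 1443107102) (nat_lit 0) (nat_lit 181065014) (nat_lit 1900) (nat_lit 1443107102) (nat_lit 508) (nat_lit 1) (nat_lit 482) (nat_lit 1) (nat_lit 507) (nat_lit 1) (nat_lit 409) (nat_lit 376) (nat_lit 355)))) (XT.nd (nat_lit 156) (nat_lit 0) (nat_lit 76) (XT.nd (nat_lit 78) (nat_lit 0) (nat_lit 76) (XT.lf (nat_lit 1976) (nat_lit 2652286853) (nat_lit 76) (nat_lit 193469688) (nat_lit 0) (nat_lit 193469688) (nat_lit 508) (nat_lit 1) (nat_lit 483) (nat_lit 1) (nat_lit 482) (nat_lit 1) (nat_lit 410) (nat_lit 376) (nat_lit 354)) (XT.lf (nat_lit 1976) (nat_lit 1202690749) (nat_lit 0) (nat_lit 605997392) (nat_lit 1900) (nat_lit 1202690749) (nat_lit 509)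 (nat_lit 1) (nat_lit 483) (nat_lit 1) (nat_lit 508) (nat_lit 1) (nat_lit 411) (nat_lit 376) (nat_lit 353))) (XT.nd (nat_lit 78) (nat_lit 0) (nat_lit 76) (XT.lf (nat_lit 1976) (nat_lit 2159330602) (nat_lit 76) (nat_lit 412334402) (nat_lit 0) (nat_lit 412334402) (nat_lit 509) (nat_lit 1) (nat_lit 484) (nat_lit 1) (nat_lit 483) (nat_lit 1) (nat_lit 412) (nat_lit 376) (nat_lit 352)) (XT.lf (nat_lit 76) (nat_lit 951902014) (nat_lit 0) (nat_lit 1053072348) (nat_lit 1900) (nat_lit 951902014) (nat_lit 485) (nat_lit 1) (nat_lit 484) (nat_lit 1) (nat_lit 509) (nat_lit 1) (nat_lit 413) (nat_lit 376) (nat_lit 351))))) (XT.nd (nat_lit 312) (nat_lit 2736) (nat_lit 0) (XT.nd (nat_lit 156) (nat_lit 912) (nat_lit 0) (XT.nd (nat_lit 78) (nat_lit 0) (nat_lit 0) (XT.lf (nat_lit 1216) (nat_lit 1646359674) (nat_lit 0) (nat_lit 641894826) (nat_lit 1140) (nat_lit 641894826) (nat_lit 485) (nat_lit 1) (nat_lit 469) (nat_lit 1) (nat_lit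 484) (nat_lit 1) (nat_lit 414) (nat_lit 376) (nat_lit 350)) (XT.lf (nat_lit 76) (nat_lit 691530101) (nat_lit 0) (nat_lit 1520672349) (nat_lit 1216) (nat_lit 691530101) (nat_lit 470) (nat_lit 1) (nat_lit 469) (nat_lit 1) (nat_lit 485) (nat_lit 1) (nat_lit 415) (nat_lit 376) (nat_lit 349))) (XT.nd (nat_lit 78) (nat_lit 0) (nat_lit 0) (XT.lf (nat_lit 988) (nat_lit 1114919044) (nat_lit 0) (nat_lit 881359272) (nat_lit 912) (nat_lit 881359272) (nat_lit 470) (nat_lit 1) (nat_lit 457) (nat_lit 1) (nat_lit 469) (nat_lit 1) (nat_lit 416) (nat_lit 376) (nat_lit 348)) (XT.lf (nat_lit 76) (nat_lit 422325992) (nat_lit 0) (nat_lit 2007257529) (nat_lit 988) (nat_lit 422325992) (nat_lit 458) (nat_lit 1) (nat_lit 457) (nat_lit 1) (nat_lit 470) (nat_lit 1) (nat_lit 417) (nat_lit 376) (nat_lit 347)))) (XT.nd (nat_lit 156) (nat_lit 1824) (nat_lit 0) (XT.nd (nat_lit 78) (nat_lit 0) (nat_lit 0) (XT.lf (nat_lit 988) (nat_lit 566478638)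 (nat_lit 0) (nat_lit 1129974170) (nat_lit 912) (nat_lit 1129974170) (nat_lit 458) (nat_lit 1) (nat_lit 445) (nat_lit 1) (nat_lit 457) (nat_lit 1) (nat_lit 418) (nat_lit 376) (nat_lit 346)) (XT.lf (nat_lit 76) (nat_lit 145004078) (nat_lit 0) (nat_lit 2511362384) (nat_lit 988) (nat_lit 145004078) (nat_lit 446) (nat_lit 1) (nat_lit 445) (nat_lit 1) (nat_lit 458) (nat_lit 1) (nat_lit 419) (nat_lit 376) (nat_lit 345))) (XT.nd (nat_lit 78) (nat_lit 988) (nat_lit 0) (XT.lf (nat_lit 912) (nat_lit 2436543) (nat_lit 0) (nat_lit 1387022449) (nat_lit 836) (nat_lit 1387022449) (nat_lit 446) (nat_lit 1) (nat_lit 434) (nat_lit 1) (nat_lit 445) (nat_lit 1) (nat_lit 420) (nat_lit 376) (nat_lit 344)) (XT.lf (nat_lit 988) (nat_lit 2474333566) (nat_lit 0) (nat_lit 138836824) (nat_lit 912) (nat_lit 138836824) (nat_lit 434) (nat_lit 1) (nat_lit 421) (nat_lit 1) (nat_lit 433) (nat_lit 1) (nat_lit 421) (nat_lit 376) (nat_lit 343)))))))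 (XT.nd (nat_lit 57408) (nat_lit 0) (nat_lit 5320) (XT.nd (nat_lit 56784) (nat_lit 0) (nat_lit 7524) (XT.nd (nat_lit 234) (nat_lit 836) (nat_lit 0) (XT.nd (nat_lit 78) (nat_lit 836) (nat_lit 0) (XT.lf (nat_lit 76) (nat_lit 1079683047) (nat_lit 0) (nat_lit 568325168) (nat_lit 988) (nat_lit 1079683047) (nat_lit 422) (nat_lit 1) (nat_lit 421) (nat_lit 1) (nat_lit 434) (nat_lit 1) (nat_lit 422) (nat_lit 376) (nat_lit 342)) (XT.nd (nat_lit 78) (nat_lit 0) (nat_lit 0) (XT.lf (nat_lit 912) (nat_lit 1846835473) (nat_lit 0) (nat_lit 428471653) (nat_lit 836) (nat_lit 428471653) (nat_lit 422) (nat_lit 1) (nat_lit 410) (nat_lit 1) (nat_lit 421) (nat_lit 1) (nat_lit 423) (nat_lit 376) (nat_lit 341)) (XT.lf (nat_lit 76) (nat_lit 764101102) (nat_lit 0) (nat_lit 1151893148) (nat_lit 912) (nat_lit 764101102) (nat_lit 411) (nat_lit 1) (nat_lit 410) (nat_lit 1) (nat_lit 422) (nat_lit 1) (nat_lit 424) (nat_lit 376) (nat_lit 340))))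 (XT.nd (nat_lit 56394) (nat_lit 0) (nat_lit 7448) (XT.nd (nat_lit 56316) (nat_lit 0) (nat_lit 7448) (XT.lf (nat_lit 912) (nat_lit 1208238404) (nat_lit 0) (nat_lit 724244655) (nat_lit 836) (nat_lit 724244655) (nat_lit 411) (nat_lit 1) (nat_lit 399) (nat_lit 1) (nat_lit 410) (nat_lit 1) (nat_lit 425) (nat_lit 376) (nat_lit 339)) (XT.lf (nat_lit 1900) (nat_lit 635601392) (nat_lit 0) (nat_lit 640916498) (nat_lit 1900) (nat_lit 635601392) (nat_lit 522) (nat_lit 1) (nat_lit 497) (nat_lit 0) (nat_lit 522) (nat_lit 0) (nat_lit 386) (nat_lit 377) (nat_lit 377))) (XT.nd (nat_lit 78) (nat_lit 0) (nat_lit 76) (XT.lf (nat_lit 1900) (nat_lit 2513263469) (nat_lit 76) (nat_lit 636699942) (nat_lit 0) (nat_lit 636699942) (nat_lit 522) (nat_lit 1) (nat_lit 498) (nat_lit 1) (nat_lit 497) (nat_lit 0) (nat_lit 387) (nat_lit 377) (nat_lit 376)) (XT.lf (nat_lit 1900) (nat_lit 1234024327) (nat_lit 0) (nat_lit 1281449902) (nat_lit 1824)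 (nat_lit 1234024327) (nat_lit 523) (nat_lit 1) (nat_lit 498) (nat_lit 1) (nat_lit 522) (nat_lit 1) (nat_lit 388) (nat_lit 377) (nat_lit 375))))) (XT.nd (nat_lit 312) (nat_lit 0) (nat_lit 152) (XT.nd (nat_lit 156) (nat_lit 0) (nat_lit 76) (XT.nd (nat_lit 78) (nat_lit 0) (nat_lit 76) (XT.lf (nat_lit 1900) (nat_lit 2415289811) (nat_lit 76) (nat_lit 648803680) (nat_lit 0) (nat_lit 648803680) (nat_lit 523) (nat_lit 1) (nat_lit 499) (nat_lit 1) (nat_lit 498) (nat_lit 1) (nat_lit 389) (nat_lit 377) (nat_lit 374)) (XT.lf (nat_lit 1900) (nat_lit 1173785079) (nat_lit 0) (nat_lit 1329129670) (nat_lit 1824) (nat_lit 1173785079) (nat_lit 524) (nat_lit 1) (nat_lit 499) (nat_lit 1) (nat_lit 523) (nat_lit 1) (nat_lit 390) (nat_lit 377) (nat_lit 373))) (XT.nd (nat_lit 78) (nat_lit 0) (nat_lit 76) (XT.lf (nat_lit 1900) (nat_lit 2272434069) (nat_lit 76) (nat_lit 684303356) (nat_lit 0) (nat_lit 684303356) (nat_lit 524) (nat_lit 1)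 (nat_lit 500) (nat_lit 1) (nat_lit 499) (nat_lit 1) (nat_lit 391) (nat_lit 377) (nat_lit 372)) (XT.lf (nat_lit 1900) (nat_lit 1091861002) (nat_lit 0) (nat_lit 1422063846) (nat_lit 1824) (nat_lit 1091861002) (nat_lit 525) (nat_lit 1) (nat_lit 500) (nat_lit 1) (nat_lit 524) (nat_lit 1) (nat_lit 392) (nat_lit 377) (nat_lit 371)))) (XT.nd (nat_lit 156) (nat_lit 0) (nat_lit 76) (XT.nd (nat_lit 78) (nat_lit 0) (nat_lit 76) (XT.lf (nat_lit 1900) (nat_lit 2087393707) (nat_lit 76) (nat_lit 741822519) (nat_lit 0) (nat_lit 741822519) (nat_lit 525) (nat_lit 1) (nat_lit 501) (nat_lit 1) (nat_lit 500) (nat_lit 1) (nat_lit 393) (nat_lit 377) (nat_lit 370)) (XT.lf (nat_lit 1900) (nat_lit 989565201) (nat_lit 0) (nat_lit 1557571500) (nat_lit 1824) (nat_lit 989565201) (nat_lit 526) (nat_lit 1) (nat_lit 501) (nat_lit 1) (nat_lit 525) (nat_lit 1) (nat_lit 394) (nat_lit 377) (nat_lit 369))) (XT.nd (nat_lit 78) (nat_lit 0) (nat_lit 76)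 (XT.lf (nat_lit 1900) (nat_lit 1862742725) (nat_lit 76) (nat_lit 820047339) (nat_lit 0) (nat_lit 820047339) (nat_lit 526) (nat_lit 1) (nat_lit 502) (nat_lit 1) (nat_lit 501) (nat_lit 1) (nat_lit 395) (nat_lit 377) (nat_lit 368)) (XT.lf (nat_lit 1900) (nat_lit 868150557) (nat_lit 0) (nat_lit 1733093918) (nat_lit 1824) (nat_lit 868150557) (nat_lit 527) (nat_lit 1) (nat_lit 502) (nat_lit 1) (nat_lit 526) (nat_lit 1) (nat_lit 396) (nat_lit 377) (nat_lit 367)))))) (XT.nd (nat_lit 624) (nat_lit 2508) (nat_lit 0) (XT.nd (nat_lit 312) (nat_lit 0) (nat_lit 152) (XT.nd (nat_lit 156) (nat_lit 0) (nat_lit 76) (XT.nd (nat_lit 78) (nat_lit 0) (nat_lit 76) (XT.lf (nat_lit 1900) (nat_lit 1600936819) (nat_lit 76) (nat_lit 917724004) (nat_lit 0) (nat_lit 917724004) (nat_lit 527) (nat_lit 1) (nat_lit 503) (nat_lit 1) (nat_lit 502) (nat_lit 1) (nat_lit 397) (nat_lit 377) (nat_lit 366)) (XT.lf (nat_lit 1900) (nat_lit 728812247) (nat_lit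 0) (nat_lit 1946189501) (nat_lit 1824) (nat_lit 728812247) (nat_lit 528) (nat_lit 1) (nat_lit 503) (nat_lit 1) (nat_lit 527) (nat_lit 1) (nat_lit 398) (nat_lit 377) (nat_lit 365))) (XT.nd (nat_lit 78) (nat_lit 0) (nat_lit 76) (XT.lf (nat_lit 1900) (nat_lit 1304318336) (nat_lit 76) (nat_lit 1033656206) (nat_lit 0) (nat_lit 1033656206) (nat_lit 528) (nat_lit 1) (nat_lit 504) (nat_lit 1) (nat_lit 503) (nat_lit 1) (nat_lit 399) (nat_lit 377) (nat_lit 364)) (XT.lf (nat_lit 1900) (nat_lit 572690156) (nat_lit 0) (nat_lit 2194528865) (nat_lit 1824) (nat_lit 572690156) (nat_lit 529) (nat_lit 1) (nat_lit 504) (nat_lit 1) (nat_lit 528) (nat_lit 1) (nat_lit 400) (nat_lit 377) (nat_lit 363)))) (XT.nd (nat_lit 156) (nat_lit 0) (nat_lit 76) (XT.nd (nat_lit 78) (nat_lit 0) (nat_lit 76) (XT.lf (nat_lit 1900) (nat_lit 975121029) (nat_lit 76) (nat_lit 1166702737) (nat_lit 0) (nat_lit 1166702737) (nat_lit 529) (nat_lit 1) (nat_lit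 505) (nat_lit 1) (nat_lit 504) (nat_lit 1) (nat_lit 401) (nat_lit 377) (nat_lit 362)) (XT.lf (nat_lit 1900) (nat_lit 400871204) (nat_lit 0) (nat_lit 2475890147) (nat_lit 1824) (nat_lit 400871204) (nat_lit 530) (nat_lit 1) (nat_lit 505) (nat_lit 1) (nat_lit 529) (nat_lit 1) (nat_lit 402) (nat_lit 377) (nat_lit 361))) (XT.nd (nat_lit 78) (nat_lit 0) (nat_lit 76) (XT.lf (nat_lit 1900) (nat_lit 615474618) (nat_lit 76) (nat_lit 1315775183) (nat_lit 0) (nat_lit 1315775183) (nat_lit 530) (nat_lit 1) (nat_lit 506) (nat_lit 1) (nat_lit 505) (nat_lit 1) (nat_lit 403) (nat_lit 377) (nat_lit 360)) (XT.lf (nat_lit 1900) (nat_lit 214391573) (nat_lit 0) (nat_lit 2788154493) (nat_lit 1824) (nat_lit 214391573) (nat_lit 531) (nat_lit 1) (nat_lit 506) (nat_lit 1) (nat_lit 530) (nat_lit 1) (nat_lit 404) (nat_lit 377) (nat_lit 359))))) (XT.nd (nat_lit 312) (nat_lit 988) (nat_lit 0) (XT.nd (nat_lit 156) (nat_lit 1824) (nat_lit 0) (XT.nd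 (nat_lit 78) (nat_lit 0) (nat_lit 76) (XT.lf (nat_lit 1900) (nat_lit 227409170) (nat_lit 76) (nat_lit 1479835701) (nat_lit 0) (nat_lit 1479835701) (nat_lit 531) (nat_lit 1) (nat_lit 507) (nat_lit 1) (nat_lit 506) (nat_lit 1) (nat_lit 405) (nat_lit 377) (nat_lit 358)) (XT.lf (nat_lit 1900) (nat_lit 14238841) (nat_lit 0) (nat_lit 3129301728) (nat_lit 1824) (nat_lit 14238841) (nat_lit 532) (nat_lit 1) (nat_lit 507) (nat_lit 1) (nat_lit 531) (nat_lit 1) (nat_lit 406) (nat_lit 377) (nat_lit 357))) (XT.nd (nat_lit 78) (nat_lit 0) (nat_lit 0) (XT.lf (nat_lit 1976) (nat_lit 1471969244) (nat_lit 0) (nat_lit 184686315) (nat_lit 1900) (nat_lit 1471969244) (nat_lit 508) (nat_lit 1) (nat_lit 482) (nat_lit 1) (nat_lit 507) (nat_lit 1) (nat_lit 407) (nat_lit 377) (nat_lit 356)) (XT.lf (nat_lit 1976) (nat_lit 2705332590) (nat_lit 76) (nat_lit 197339082) (nat_lit 0) (nat_lit 197339082) (nat_lit 508) (nat_lit 1) (nat_lit 483) (nat_lit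 1) (nat_lit 482) (nat_lit 1) (nat_lit 408) (nat_lit 377) (nat_lit 355)))) (XT.nd (nat_lit 156) (nat_lit 1064) (nat_lit 0) (XT.nd (nat_lit 78) (nat_lit 0) (nat_lit 0) (XT.lf (nat_lit 1976) (nat_lit 1226744564) (nat_lit 0) (nat_lit 618117340) (nat_lit 1900) (nat_lit 1226744564) (nat_lit 509) (nat_lit 1) (nat_lit 483) (nat_lit 1) (nat_lit 508) (nat_lit 1) (nat_lit 409) (nat_lit 377) (nat_lit 354)) (XT.lf (nat_lit 1976) (nat_lit 2202517214) (nat_lit 76) (nat_lit 420581090) (nat_lit 0) (nat_lit 420581090) (nat_lit 509) (nat_lit 1) (nat_lit 484) (nat_lit 1) (nat_lit 483) (nat_lit 1) (nat_lit 410) (nat_lit 377) (nat_lit 353))) (XT.nd (nat_lit 78) (nat_lit 1140) (nat_lit 0) (XT.lf (nat_lit 76) (nat_lit 970940055) (nat_lit 0) (nat_lit 1074133795) (nat_lit 1900) (nat_lit 970940055) (nat_lit 485) (nat_lit 1) (nat_lit 484) (nat_lit 1) (nat_lit 509) (nat_lit 1) (nat_lit 411) (nat_lit 377) (nat_lit 352)) (XT.lf (nat_lit 1216)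 (nat_lit 1679286868) (nat_lit 0) (nat_lit 654732723) (nat_lit 1140) (nat_lit 654732723) (nat_lit 485) (nat_lit 1) (nat_lit 469) (nat_lit 1) (nat_lit 484) (nat_lit 1) (nat_lit 412) (nat_lit 377) (nat_lit 351))))))))
noncomputable def ec7 : XT := (XT.nd (nat_lit 58578) (nat_lit 760) (nat_lit 0) (XT.nd (nat_lit 57330) (nat_lit 0) (nat_lit 7524) (XT.nd (nat_lit 546) (nat_lit 1672) (nat_lit 0) (XT.nd (nat_lit 234) (nat_lit 2736) (nat_lit 0) (XT.nd (nat_lit 78) (nat_lit 912) (nat_lit 0) (XT.lf (nat_lit 76) (nat_lit 705360703) (nat_lit 0) (nat_lit 1551085796) (nat_lit 1216) (nat_lit 705360703) (nat_lit 470) (nat_lit 1) (nat_lit 469) (nat_lit 1) (nat_lit 485) (nat_lit 1) (nat_lit 413) (nat_lit 377) (nat_lit 350)) (XT.nd (nat_lit 78) (nat_lit 0) (nat_lit 0) (XT.lf (nat_lit 988) (nat_lit 1137217425) (nat_lit 0) (nat_lit 898986457) (nat_lit 912) (nat_lit 898986457) (nat_lit 470) (nat_lit 1) (nat_lit 457) (nat_lit 1) (nat_lit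 469) (nat_lit 1) (nat_lit 414) (nat_lit 377) (nat_lit 349)) (XT.lf (nat_lit 76) (nat_lit 430772512) (nat_lit 0) (nat_lit 2047402680) (nat_lit 988) (nat_lit 430772512) (nat_lit 458) (nat_lit 1) (nat_lit 457) (nat_lit 1) (nat_lit 470) (nat_lit 1) (nat_lit 415) (nat_lit 377) (nat_lit 348)))) (XT.nd (nat_lit 156) (nat_lit 1824) (nat_lit 0) (XT.nd (nat_lit 78) (nat_lit 0) (nat_lit 0) (XT.lf (nat_lit 988) (nat_lit 577808210) (nat_lit 0) (nat_lit 1152573653) (nat_lit 912) (nat_lit 1152573653) (nat_lit 458) (nat_lit 1) (nat_lit 445) (nat_lit 1) (nat_lit 457) (nat_lit 1) (nat_lit 416) (nat_lit 377) (nat_lit 347)) (XT.lf (nat_lit 76) (nat_lit 147904159) (nat_lit 0) (nat_lit 2561589632) (nat_lit 988) (nat_lit 147904159) (nat_lit 446) (nat_lit 1) (nat_lit 445) (nat_lit 1) (nat_lit 458) (nat_lit 1) (nat_lit 417) (nat_lit 377) (nat_lit 346))) (XT.nd (nat_lit 78) (nat_lit 988) (nat_lit 0) (XT.lf (nat_lit 912) (nat_lit 2485274)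 (nat_lit 0) (nat_lit 1414762898) (nat_lit 836) (nat_lit 1414762898) (nat_lit 446) (nat_lit 1) (nat_lit 434) (nat_lit 1) (nat_lit 445) (nat_lit 1) (nat_lit 418) (nat_lit 377) (nat_lit 345)) (XT.lf (nat_lit 988) (nat_lit 2523820237) (nat_lit 0) (nat_lit 141613560) (nat_lit 912) (nat_lit 141613560) (nat_lit 434) (nat_lit 1) (nat_lit 421) (nat_lit 1) (nat_lit 433) (nat_lit 1) (nat_lit 419) (nat_lit 377) (nat_lit 344))))) (XT.nd (nat_lit 312) (nat_lit 0) (nat_lit 0) (XT.nd (nat_lit 156) (nat_lit 836) (nat_lit 0) (XT.nd (nat_lit 78) (nat_lit 836) (nat_lit 0) (XT.lf (nat_lit 76) (nat_lit 1101276708) (nat_lit 0) (nat_lit 579691672) (nat_lit 988) (nat_lit 1101276708) (nat_lit 422) (nat_lit 1) (nat_lit 421) (nat_lit 1) (nat_lit 434) (nat_lit 1) (nat_lit 420) (nat_lit 377) (nat_lit 343)) (XT.lf (nat_lit 912) (nat_lit 1883772182) (nat_lit 0) (nat_lit 437041086) (nat_lit 836) (nat_lit 437041086) (nat_lit 422) (nat_lit 1) (nat_lit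 410) (nat_lit 1) (nat_lit 421) (nat_lit 1) (nat_lit 421) (nat_lit 377) (nat_lit 342))) (XT.nd (nat_lit 78) (nat_lit 836) (nat_lit 0) (XT.lf (nat_lit 76) (nat_lit 779383124) (nat_lit 0) (nat_lit 1174931011) (nat_lit 912) (nat_lit 779383124) (nat_lit 411) (nat_lit 1) (nat_lit 410) (nat_lit 1) (nat_lit 422) (nat_lit 1) (nat_lit 422) (nat_lit 377) (nat_lit 341)) (XT.lf (nat_lit 912) (nat_lit 1232403172) (nat_lit 0) (nat_lit 738729548) (nat_lit 836) (nat_lit 738729548) (nat_lit 411) (nat_lit 1) (nat_lit 399) (nat_lit 1) (nat_lit 410) (nat_lit 1) (nat_lit 423) (nat_lit 377) (nat_lit 340)))) (XT.nd (nat_lit 56316) (nat_lit 0) (nat_lit 7448) (XT.nd (nat_lit 56238) (nat_lit 0) (nat_lit 7448) (XT.lf (nat_lit 76) (nat_lit 452138880) (nat_lit 0) (nat_lit 1782056837) (nat_lit 912) (nat_lit 452138880) (nat_lit 400) (nat_lit 1) (nat_lit 399) (nat_lit 1) (nat_lit 411) (nat_lit 1) (nat_lit 424) (nat_lit 377) (nat_lit 339)) (XT.lf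 (nat_lit 1900) (nat_lit 648313420) (nat_lit 0) (nat_lit 653734828) (nat_lit 1900) (nat_lit 648313420) (nat_lit 522) (nat_lit 1) (nat_lit 497) (nat_lit 0) (nat_lit 522) (nat_lit 0) (nat_lit 384) (nat_lit 378) (nat_lit 378))) (XT.nd (nat_lit 78) (nat_lit 0) (nat_lit 76) (XT.lf (nat_lit 1900) (nat_lit 2563528739) (nat_lit 76) (nat_lit 649433941) (nat_lit 0) (nat_lit 649433941) (nat_lit 522) (nat_lit 1) (nat_lit 498) (nat_lit 1) (nat_lit 497) (nat_lit 0) (nat_lit 385) (nat_lit 378) (nat_lit 377)) (XT.lf (nat_lit 1900) (nat_lit 1258704813) (nat_lit 0) (nat_lit 1307078900) (nat_lit 1824) (nat_lit 1258704813) (nat_lit 523) (nat_lit 1) (nat_lit 498) (nat_lit 1) (nat_lit 522) (nat_lit 1) (nat_lit 386) (nat_lit 378) (nat_lit 376)))))) (XT.nd (nat_lit 624) (nat_lit 0) (nat_lit 304) (XT.nd (nat_lit 312) (nat_lit 0) (nat_lit 152) (XT.nd (nat_lit 156) (nat_lit 0) (nat_lit 76) (XT.nd (nat_lit 78) (nat_lit 0) (nat_lit 76) (XT.lf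 (nat_lit 1900) (nat_lit 2463595607) (nat_lit 76) (nat_lit 661779754) (nat_lit 0) (nat_lit 661779754) (nat_lit 523) (nat_lit 1) (nat_lit 499) (nat_lit 1) (nat_lit 498) (nat_lit 1) (nat_lit 387) (nat_lit 378) (nat_lit 375)) (XT.lf (nat_lit 1900) (nat_lit 1197260781) (nat_lit 0) (nat_lit 1355712264) (nat_lit 1824) (nat_lit 1197260781) (nat_lit 524) (nat_lit 1) (nat_lit 499) (nat_lit 1) (nat_lit 523) (nat_lit 1) (nat_lit 388) (nat_lit 378) (nat_lit 374))) (XT.nd (nat_lit 78) (nat_lit 0) (nat_lit 76) (XT.lf (nat_lit 1900) (nat_lit 2317882751) (nat_lit 76) (nat_lit 697989423) (nat_lit 0) (nat_lit 697989423) (nat_lit 524) (nat_lit 1) (nat_lit 500) (nat_lit 1) (nat_lit 499) (nat_lit 1) (nat_lit 389) (nat_lit 378) (nat_lit 373)) (XT.lf (nat_lit 1900) (nat_lit 1113698222) (nat_lit 0) (nat_lit 1450505123) (nat_lit 1824) (nat_lit 1113698222) (nat_lit 525) (nat_lit 1) (nat_lit 500) (nat_lit 1) (nat_lit 524) (nat_lit 1) (nat_lit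 390) (nat_lit 378) (nat_lit 372)))) (XT.nd (nat_lit 156) (nat_lit 0) (nat_lit 76) (XT.nd (nat_lit 78) (nat_lit 0) (nat_lit 76) (XT.lf (nat_lit 1900) (nat_lit 2129141582) (nat_lit 76) (nat_lit 756658969) (nat_lit 0) (nat_lit 756658969) (nat_lit 525) (nat_lit 1) (nat_lit 501) (nat_lit 1) (nat_lit 500) (nat_lit 1) (nat_lit 391) (nat_lit 378) (nat_lit 371)) (XT.lf (nat_lit 1900) (nat_lit 1009356505) (nat_lit 0) (nat_lit 1588722930) (nat_lit 1824) (nat_lit 1009356505) (nat_lit 526) (nat_lit 1) (nat_lit 501) (nat_lit 1) (nat_lit 525) (nat_lit 1) (nat_lit 392) (nat_lit 378) (nat_lit 370))) (XT.nd (nat_lit 78) (nat_lit 0) (nat_lit 76) (XT.lf (nat_lit 1900) (nat_lit 1899997580) (nat_lit 76) (nat_lit 836448286) (nat_lit 0) (nat_lit 836448286) (nat_lit 526) (nat_lit 1) (nat_lit 502) (nat_lit 1) (nat_lit 501) (nat_lit 1) (nat_lit 393) (nat_lit 378) (nat_lit 369)) (XT.lf (nat_lit 1900) (nat_lit 885513569) (nat_lit 0) (nat_lit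 1767755796) (nat_lit 1824) (nat_lit 885513569) (nat_lit 527) (nat_lit 1) (nat_lit 502) (nat_lit 1) (nat_lit 526) (nat_lit 1) (nat_lit 394) (nat_lit 378) (nat_lit 368))))) (XT.nd (nat_lit 312) (nat_lit 0) (nat_lit 152) (XT.nd (nat_lit 156) (nat_lit 0) (nat_lit 76) (XT.nd (nat_lit 78) (nat_lit 0) (nat_lit 76) (XT.lf (nat_lit 1900) (nat_lit 1632955555) (nat_lit 76) (nat_lit 936078484) (nat_lit 0) (nat_lit 936078484) (nat_lit 527) (nat_lit 1) (nat_lit 503) (nat_lit 1) (nat_lit 502) (nat_lit 1) (nat_lit 395) (nat_lit 378) (nat_lit 367)) (XT.lf (nat_lit 1900) (nat_lit 743388492) (nat_lit 0) (nat_lit 1985113291) (nat_lit 1824) (nat_lit 743388492) (nat_lit 528) (nat_lit 1) (nat_lit 503) (nat_lit 1) (nat_lit 527) (nat_lit 1) (nat_lit 396) (nat_lit 378) (nat_lit 366))) (XT.nd (nat_lit 78) (nat_lit 0) (nat_lit 76) (XT.lf (nat_lit 1900) (nat_lit 1330404703) (nat_lit 76) (nat_lit 1054329330) (nat_lit 0) (nat_lit 1054329330)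 (nat_lit 528) (nat_lit 1) (nat_lit 504) (nat_lit 1) (nat_lit 503) (nat_lit 1) (nat_lit 397) (nat_lit 378) (nat_lit 365)) (XT.lf (nat_lit 1900) (nat_lit 584143959) (nat_lit 0) (nat_lit 2238419442) (nat_lit 1824) (nat_lit 584143959) (nat_lit 529) (nat_lit 1) (nat_lit 504) (nat_lit 1) (nat_lit 528) (nat_lit 1) (nat_lit 398) (nat_lit 378) (nat_lit 364)))) (XT.nd (nat_lit 156) (nat_lit 0) (nat_lit 76) (XT.nd (nat_lit 78) (nat_lit 0) (nat_lit 76) (XT.lf (nat_lit 1900) (nat_lit 994623450) (nat_lit 76) (nat_lit 1190036792) (nat_lit 0) (nat_lit 1190036792) (nat_lit 529) (nat_lit 1) (nat_lit 505) (nat_lit 1) (nat_lit 504) (nat_lit 1) (nat_lit 399) (nat_lit 378) (nat_lit 363)) (XT.lf (nat_lit 1900) (nat_lit 408888628) (nat_lit 0) (nat_lit 2525407950) (nat_lit 1824) (nat_lit 408888628) (nat_lit 530) (nat_lit 1) (nat_lit 505) (nat_lit 1) (nat_lit 529) (nat_lit 1) (nat_lit 400) (nat_lit 378) (nat_lit 362))) (XT.nd (nat_lit 78)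 (nat_lit 0) (nat_lit 76) (XT.lf (nat_lit 1900) (nat_lit 627784111) (nat_lit 76) (nat_lit 1342090686) (nat_lit 0) (nat_lit 1342090686) (nat_lit 530) (nat_lit 1) (nat_lit 506) (nat_lit 1) (nat_lit 505) (nat_lit 1) (nat_lit 401) (nat_lit 378) (nat_lit 361)) (XT.lf (nat_lit 1900) (nat_lit 218679405) (nat_lit 0) (nat_lit 2843917583) (nat_lit 1824) (nat_lit 218679405) (nat_lit 531) (nat_lit 1) (nat_lit 506) (nat_lit 1) (nat_lit 530) (nat_lit 1) (nat_lit 402) (nat_lit 378) (nat_lit 360))))))) (XT.nd (nat_lit 1170) (nat_lit 2432) (nat_lit 0) (XT.nd (nat_lit 546) (nat_lit 4636) (nat_lit 0) (XT.nd (nat_lit 234) (nat_lit 0) (nat_lit 0) (XT.nd (nat_lit 78) (nat_lit 1824) (nat_lit 0) (XT.lf (nat_lit 1900) (nat_lit 231957354) (nat_lit 76) (nat_lit 1509432415) (nat_lit 0) (nat_lit 1509432415) (nat_lit 531) (nat_lit 1) (nat_lit 507) (nat_lit 1) (nat_lit 506) (nat_lit 1) (nat_lit 403) (nat_lit 378) (nat_lit 359)) (XT.nd (nat_lit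 78) (nat_lit 1900) (nat_lit 0) (XT.lf (nat_lit 1900) (nat_lit 14523618) (nat_lit 0) (nat_lit 3191887762) (nat_lit 1824) (nat_lit 14523618) (nat_lit 532) (nat_lit 1) (nat_lit 507) (nat_lit 1) (nat_lit 531) (nat_lit 1) (nat_lit 404) (nat_lit 378) (nat_lit 358)) (XT.lf (nat_lit 1976) (nat_lit 1501408629) (nat_lit 0) (nat_lit 188380041) (nat_lit 1900) (nat_lit 1501408629) (nat_lit 508) (nat_lit 1) (nat_lit 482) (nat_lit 1) (nat_lit 507) (nat_lit 1) (nat_lit 405) (nat_lit 378) (nat_lit 357)))) (XT.nd (nat_lit 156) (nat_lit 0) (nat_lit 76) (XT.nd (nat_lit 78) (nat_lit 0) (nat_lit 76) (XT.lf (nat_lit 1976) (nat_lit 2759439242) (nat_lit 76) (nat_lit 201285863) (nat_lit 0) (nat_lit 201285863) (nat_lit 508) (nat_lit 1) (nat_lit 483) (nat_lit 1) (nat_lit 482) (nat_lit 1) (nat_lit 406) (nat_lit 378) (nat_lit 356)) (XT.lf (nat_lit 1976) (nat_lit 1251279456) (nat_lit 0) (nat_lit 630479686) (nat_lit 1900) (nat_lit 1251279456)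 (nat_lit 509) (nat_lit 1) (nat_lit 483) (nat_lit 1) (nat_lit 508) (nat_lit 1) (nat_lit 407) (nat_lit 378) (nat_lit 355))) (XT.nd (nat_lit 78) (nat_lit 0) (nat_lit 76) (XT.lf (nat_lit 1976) (nat_lit 2246567558) (nat_lit 76) (nat_lit 428992712) (nat_lit 0) (nat_lit 428992712) (nat_lit 509) (nat_lit 1) (nat_lit 484) (nat_lit 1) (nat_lit 483) (nat_lit 1) (nat_lit 408) (nat_lit 378) (nat_lit 354)) (XT.lf (nat_lit 76) (nat_lit 990358856) (nat_lit 0) (nat_lit 1095616471) (nat_lit 1900) (nat_lit 990358856) (nat_lit 485) (nat_lit 1) (nat_lit 484) (nat_lit 1) (nat_lit 509) (nat_lit 1) (nat_lit 409) (nat_lit 378) (nat_lit 353))))) (XT.nd (nat_lit 312) (nat_lit 2736) (nat_lit 0) (XT.nd (nat_lit 156) (nat_lit 912) (nat_lit 0) (XT.nd (nat_lit 78) (nat_lit 0) (nat_lit 0) (XT.lf (nat_lit 1216) (nat_lit 1712872605) (nat_lit 0) (nat_lit 667827377) (nat_lit 1140) (nat_lit 667827377) (nat_lit 485) (nat_lit 1) (nat_lit 469) (nat_lit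 1) (nat_lit 484) (nat_lit 1) (nat_lit 410) (nat_lit 378) (nat_lit 352)) (XT.lf (nat_lit 76) (nat_lit 719467918) (nat_lit 0) (nat_lit 1582107512) (nat_lit 1216) (nat_lit 719467918) (nat_lit 470) (nat_lit 1) (nat_lit 469) (nat_lit 1) (nat_lit 485) (nat_lit 1) (nat_lit 411) (nat_lit 378) (nat_lit 351))) (XT.nd (nat_lit 78) (nat_lit 0) (nat_lit 0) (XT.lf (nat_lit 988) (nat_lit 1159961773) (nat_lit 0) (nat_lit 916966186) (nat_lit 912) (nat_lit 916966186) (nat_lit 470) (nat_lit 1) (nat_lit 457) (nat_lit 1) (nat_lit 469) (nat_lit 1) (nat_lit 412) (nat_lit 378) (nat_lit 350)) (XT.lf (nat_lit 76) (nat_lit 439387962) (nat_lit 0) (nat_lit 2088350734) (nat_lit 988) (nat_lit 439387962) (nat_lit 458) (nat_lit 1) (nat_lit 457) (nat_lit 1) (nat_lit 470) (nat_lit 1) (nat_lit 413) (nat_lit 378) (nat_lit 349)))) (XT.nd (nat_lit 156) (nat_lit 1824) (nat_lit 0) (XT.nd (nat_lit 78) (nat_lit 0) (nat_lit 0) (XT.lf (nat_lit 988) (nat_lit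 589364374) (nat_lit 0) (nat_lit 1175625126) (nat_lit 912) (nat_lit 1175625126) (nat_lit 458) (nat_lit 1) (nat_lit 445) (nat_lit 1) (nat_lit 457) (nat_lit 1) (nat_lit 414) (nat_lit 378) (nat_lit 348)) (XT.lf (nat_lit 76) (nat_lit 150862242) (nat_lit 0) (nat_lit 2612821424) (nat_lit 988) (nat_lit 150862242) (nat_lit 446) (nat_lit 1) (nat_lit 445) (nat_lit 1) (nat_lit 458) (nat_lit 1) (nat_lit 415) (nat_lit 378) (nat_lit 347))) (XT.nd (nat_lit 78) (nat_lit 988) (nat_lit 0) (XT.lf (nat_lit 912) (nat_lit 2534979) (nat_lit 0) (nat_lit 1443058156) (nat_lit 836) (nat_lit 1443058156) (nat_lit 446) (nat_lit 1) (nat_lit 434) (nat_lit 1) (nat_lit 445) (nat_lit 1) (nat_lit 416) (nat_lit 378) (nat_lit 346)) (XT.lf (nat_lit 988) (nat_lit 2574296642) (nat_lit 0) (nat_lit 144445831) (nat_lit 912) (nat_lit 144445831) (nat_lit 434) (nat_lit 1) (nat_lit 421) (nat_lit 1) (nat_lit 433) (nat_lit 1) (nat_lit 417) (nat_lit 378) (nat_lit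 345)))))) (XT.nd (nat_lit 56628) (nat_lit 0) (nat_lit 8208) (XT.nd (nat_lit 312) (nat_lit 760) (nat_lit 0) (XT.nd (nat_lit 156) (nat_lit 836) (nat_lit 0) (XT.nd (nat_lit 78) (nat_lit 836) (nat_lit 0) (XT.lf (nat_lit 76) (nat_lit 1123302242) (nat_lit 0) (nat_lit 591285505) (nat_lit 988) (nat_lit 1123302242) (nat_lit 422) (nat_lit 1) (nat_lit 421) (nat_lit 1) (nat_lit 434) (nat_lit 1) (nat_lit 418) (nat_lit 378) (nat_lit 344)) (XT.lf (nat_lit 912) (nat_lit 1921447626) (nat_lit 0) (nat_lit 445781908) (nat_lit 836) (nat_lit 445781908) (nat_lit 422) (nat_lit 1) (nat_lit 410) (nat_lit 1) (nat_lit 421) (nat_lit 1) (nat_lit 419) (nat_lit 378) (nat_lit 343))) (XT.nd (nat_lit 78) (nat_lit 836) (nat_lit 0) (XT.lf (nat_lit 76) (nat_lit 794970787) (nat_lit 0) (nat_lit 1198429631) (nat_lit 912) (nat_lit 794970787) (nat_lit 411) (nat_lit 1) (nat_lit 410) (nat_lit 1) (nat_lit 422) (nat_lit 1) (nat_lit 420) (nat_lit 378) (nat_lit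 342)) (XT.lf (nat_lit 912) (nat_lit 1257051236) (nat_lit 0) (nat_lit 753504139) (nat_lit 836) (nat_lit 753504139) (nat_lit 411) (nat_lit 1) (nat_lit 399) (nat_lit 1) (nat_lit 410) (nat_lit 1) (nat_lit 421) (nat_lit 378) (nat_lit 341)))) (XT.nd (nat_lit 156) (nat_lit 0) (nat_lit 0) (XT.nd (nat_lit 78) (nat_lit 760) (nat_lit 0) (XT.lf (nat_lit 76) (nat_lit 461181658) (nat_lit 0) (nat_lit 1817697973) (nat_lit 912) (nat_lit 461181658) (nat_lit 400) (nat_lit 1) (nat_lit 399) (nat_lit 1) (nat_lit 411) (nat_lit 1) (nat_lit 422) (nat_lit 378) (nat_lit 340)) (XT.lf (nat_lit 836) (nat_lit 582279365) (nat_lit 0) (nat_lit 1067009886) (nat_lit 760) (nat_lit 1067009886) (nat_lit 400) (nat_lit 1) (nat_lit 389) (nat_lit 1) (nat_lit 399) (nat_lit 1) (nat_lit 423) (nat_lit 378) (nat_lit 339))) (XT.nd (nat_lit 56082) (nat_lit 0) (nat_lit 8208) (XT.lf (nat_lit 76) (nat_lit 122503786) (nat_lit 0) (nat_lit 2447919727) (nat_lit 836)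 (nat_lit 122503786) (nat_lit 390) (nat_lit 1) (nat_lit 389) (nat_lit 1) (nat_lit 400) (nat_lit 1) (nat_lit 424) (nat_lit 378) (nat_lit 338)) (XT.lf (nat_lit 1900) (nat_lit 661279688) (nat_lit 0) (nat_lit 666809525) (nat_lit 1900) (nat_lit 661279688) (nat_lit 522) (nat_lit 1) (nat_lit 497) (nat_lit 0) (nat_lit 522) (nat_lit 0) (nat_lit 382) (nat_lit 379) (nat_lit 379))))) (XT.nd (nat_lit 312) (nat_lit 0) (nat_lit 152) (XT.nd (nat_lit 156) (nat_lit 0) (nat_lit 76) (XT.nd (nat_lit 78) (nat_lit 0) (nat_lit 76) (XT.lf (nat_lit 1900) (nat_lit 2614799314) (nat_lit 76) (nat_lit 662422620) (nat_lit 0) (nat_lit 662422620) (nat_lit 522) (nat_lit 1) (nat_lit 498) (nat_lit 1) (nat_lit 497) (nat_lit 0) (nat_lit 383) (nat_lit 379) (nat_lit 378)) (XT.lf (nat_lit 1900) (nat_lit 1283878909) (nat_lit 0) (nat_lit 1333220478) (nat_lit 1824) (nat_lit 1283878909) (nat_lit 523) (nat_lit 1) (nat_lit 498) (nat_lit 1) (nat_lit 522) (nat_lit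 1) (nat_lit 384) (nat_lit 379) (nat_lit 377))) (XT.nd (nat_lit 78) (nat_lit 0) (nat_lit 76) (XT.lf (nat_lit 1900) (nat_lit 2512867520) (nat_lit 76) (nat_lit 675015349) (nat_lit 0) (nat_lit 675015349) (nat_lit 523) (nat_lit 1) (nat_lit 499) (nat_lit 1) (nat_lit 498) (nat_lit 1) (nat_lit 385) (nat_lit 379) (nat_lit 376)) (XT.lf (nat_lit 1900) (nat_lit 1221205997) (nat_lit 0) (nat_lit 1382826509) (nat_lit 1824) (nat_lit 1221205997) (nat_lit 524) (nat_lit 1) (nat_lit 499) (nat_lit 1) (nat_lit 523) (nat_lit 1) (nat_lit 386) (nat_lit 379) (nat_lit 375)))) (XT.nd (nat_lit 156) (nat_lit 0) (nat_lit 76) (XT.nd (nat_lit 78) (nat_lit 0) (nat_lit 76) (XT.lf (nat_lit 1900) (nat_lit 2364240406) (nat_lit 76) (nat_lit 711949212) (nat_lit 0) (nat_lit 711949212) (nat_lit 524) (nat_lit 1) (nat_lit 500) (nat_lit 1) (nat_lit 499) (nat_lit 1) (nat_lit 387) (nat_lit 379) (nat_lit 374)) (XT.lf (nat_lit 1900) (nat_lit 1135972186) (nat_lit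 0) (nat_lit 1479515225) (nat_lit 1824) (nat_lit 1135972186) (nat_lit 525) (nat_lit 1) (nat_lit 500) (nat_lit 1) (nat_lit 524) (nat_lit 1) (nat_lit 388) (nat_lit 379) (nat_lit 373))) (XT.nd (nat_lit 78) (nat_lit 0) (nat_lit 76) (XT.lf (nat_lit 1900) (nat_lit 2171724413) (nat_lit 76) (nat_lit 771792148) (nat_lit 0) (nat_lit 771792148) (nat_lit 525) (nat_lit 1) (nat_lit 501) (nat_lit 1) (nat_lit 500) (nat_lit 1) (nat_lit 389) (nat_lit 379) (nat_lit 372)) (XT.lf (nat_lit 1900) (nat_lit 1029543635) (nat_lit 0) (nat_lit 1620497388) (nat_lit 1824) (nat_lit 1029543635) (nat_lit 526) (nat_lit 1) (nat_lit 501) (nat_lit 1) (nat_lit 525) (nat_lit 1) (nat_lit 390) (nat_lit 379) (nat_lit 371))))))))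
noncomputable def ec8 : XT := (XT.nd (nat_lit 2340) (nat_lit 2356) (nat_lit 0) (XT.nd (nat_lit 1170) (nat_lit 6308) (nat_lit 0) (XT.nd (nat_lit 546) (nat_lit 1444) (nat_lit 0) (XT.nd (nat_lit 234) (nat_lit 0) (nat_lit 152) (XT.nd (nat_lit 78) (nat_lit 0) (nat_lit 76) (XT.lf (nat_lit 1900) (nat_lit 1937997531) (nat_lit 76) (nat_lit 853177252) (nat_lit 0) (nat_lit 853177252) (nat_lit 526) (nat_lit 1) (nat_lit 502) (nat_lit 1) (nat_lit 501) (nat_lit 1) (nat_lit 391) (nat_lit 379) (nat_lit 370)) (XT.nd (nat_lit 78) (nat_lit 0) (nat_lit 0) (XT.lf (nat_lit 1900) (nat_lit 903223840) (nat_lit 0) (nat_lit 1803110912) (nat_lit 1824) (nat_lit 903223840) (nat_lit 527) (nat_lit 1) (nat_lit 502) (nat_lit 1) (nat_lit 526) (nat_lit 1) (nat_lit 392) (nat_lit 379) (nat_lit 369)) (XT.lf (nat_lit 1900) (nat_lit 1665614666) (nat_lit 76) (nat_lit 954800054) (nat_lit 0) (nat_lit 954800054) (nat_lit 527) (nat_lit 1) (nat_lit 503) (nat_lit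 1) (nat_lit 502) (nat_lit 1) (nat_lit 393) (nat_lit 379) (nat_lit 368)))) (XT.nd (nat_lit 156) (nat_lit 0) (nat_lit 76) (XT.nd (nat_lit 78) (nat_lit 0) (nat_lit 0) (XT.lf (nat_lit 1900) (nat_lit 758256261) (nat_lit 0) (nat_lit 2024815557) (nat_lit 1824) (nat_lit 758256261) (nat_lit 528) (nat_lit 1) (nat_lit 503) (nat_lit 1) (nat_lit 527) (nat_lit 1) (nat_lit 394) (nat_lit 379) (nat_lit 367)) (XT.lf (nat_lit 1900) (nat_lit 1357012797) (nat_lit 76) (nat_lit 1075415917) (nat_lit 0) (nat_lit 1075415917) (nat_lit 528) (nat_lit 1) (nat_lit 504) (nat_lit 1) (nat_lit 503) (nat_lit 1) (nat_lit 395) (nat_lit 379) (nat_lit 366))) (XT.nd (nat_lit 78) (nat_lit 0) (nat_lit 0) (XT.lf (nat_lit 1900) (nat_lit 595826838) (nat_lit 0) (nat_lit 2283187831) (nat_lit 1824) (nat_lit 595826838) (nat_lit 529) (nat_lit 1) (nat_lit 504) (nat_lit 1) (nat_lit 528) (nat_lit 1) (nat_lit 396) (nat_lit 379) (nat_lit 365)) (XT.lf (nat_lit 1900)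 (nat_lit 1014515919) (nat_lit 76) (nat_lit 1213837528) (nat_lit 0) (nat_lit 1213837528) (nat_lit 529) (nat_lit 1) (nat_lit 505) (nat_lit 1) (nat_lit 504) (nat_lit 1) (nat_lit 397) (nat_lit 379) (nat_lit 364))))) (XT.nd (nat_lit 312) (nat_lit 1748) (nat_lit 0) (XT.nd (nat_lit 156) (nat_lit 0) (nat_lit 76) (XT.nd (nat_lit 78) (nat_lit 0) (nat_lit 0) (XT.lf (nat_lit 1900) (nat_lit 417066401) (nat_lit 0) (nat_lit 2575916109) (nat_lit 1824) (nat_lit 417066401) (nat_lit 530) (nat_lit 1) (nat_lit 505) (nat_lit 1) (nat_lit 529) (nat_lit 1) (nat_lit 398) (nat_lit 379) (nat_lit 363)) (XT.lf (nat_lit 1900) (nat_lit 640339793) (nat_lit 76) (nat_lit 1368932500) (nat_lit 0) (nat_lit 1368932500) (nat_lit 530) (nat_lit 1) (nat_lit 506) (nat_lit 1) (nat_lit 505) (nat_lit 1) (nat_lit 399) (nat_lit 379) (nat_lit 362))) (XT.nd (nat_lit 78) (nat_lit 0) (nat_lit 0) (XT.lf (nat_lit 1900) (nat_lit 223052993) (nat_lit 0) (nat_lit 2900795934)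 (nat_lit 1824) (nat_lit 223052993) (nat_lit 531) (nat_lit 1) (nat_lit 506) (nat_lit 1) (nat_lit 530) (nat_lit 1) (nat_lit 400) (nat_lit 379) (nat_lit 361)) (XT.lf (nat_lit 1900) (nat_lit 236596501) (nat_lit 76) (nat_lit 1539621064) (nat_lit 0) (nat_lit 1539621064) (nat_lit 531) (nat_lit 1) (nat_lit 507) (nat_lit 1) (nat_lit 506) (nat_lit 1) (nat_lit 401) (nat_lit 379) (nat_lit 360)))) (XT.nd (nat_lit 156) (nat_lit 0) (nat_lit 0) (XT.nd (nat_lit 78) (nat_lit 1900) (nat_lit 0) (XT.lf (nat_lit 1900) (nat_lit 14814090) (nat_lit 0) (nat_lit 3255725518) (nat_lit 1824) (nat_lit 14814090) (nat_lit 532) (nat_lit 1) (nat_lit 507) (nat_lit 1) (nat_lit 531) (nat_lit 1) (nat_lit 402) (nat_lit 379) (nat_lit 359)) (XT.lf (nat_lit 1976) (nat_lit 1531436801) (nat_lit 0) (nat_lit 192147642) (nat_lit 1900) (nat_lit 1531436801) (nat_lit 508) (nat_lit 1) (nat_lit 482) (nat_lit 1) (nat_lit 507) (nat_lit 1) (nat_lit 403) (nat_lit 379)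 (nat_lit 358))) (XT.nd (nat_lit 78) (nat_lit 0) (nat_lit 76) (XT.lf (nat_lit 1976) (nat_lit 2814628026) (nat_lit 76) (nat_lit 205311581) (nat_lit 0) (nat_lit 205311581) (nat_lit 508) (nat_lit 1) (nat_lit 483) (nat_lit 1) (nat_lit 482) (nat_lit 1) (nat_lit 404) (nat_lit 379) (nat_lit 357)) (XT.lf (nat_lit 1976) (nat_lit 1276305045) (nat_lit 0) (nat_lit 643089280) (nat_lit 1900) (nat_lit 1276305045) (nat_lit 509) (nat_lit 1) (nat_lit 483) (nat_lit 1) (nat_lit 508) (nat_lit 1) (nat_lit 405) (nat_lit 379) (nat_lit 356)))))) (XT.nd (nat_lit 546) (nat_lit 3496) (nat_lit 0) (XT.nd (nat_lit 234) (nat_lit 1824) (nat_lit 0) (XT.nd (nat_lit 78) (nat_lit 1064) (nat_lit 0) (XT.lf (nat_lit 1976) (nat_lit 2291498909) (nat_lit 76) (nat_lit 437572566) (nat_lit 0) (nat_lit 437572566) (nat_lit 509) (nat_lit 1) (nat_lit 484) (nat_lit 1) (nat_lit 483) (nat_lit 1) (nat_lit 406) (nat_lit 379) (nat_lit 355)) (XT.nd (nat_lit 78) (nat_lit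 1140) (nat_lit 0) (XT.lf (nat_lit 76) (nat_lit 1010166033) (nat_lit 0) (nat_lit 1117528800) (nat_lit 1900) (nat_lit 1010166033) (nat_lit 485) (nat_lit 1) (nat_lit 484) (nat_lit 1) (nat_lit 509) (nat_lit 1) (nat_lit 407) (nat_lit 379) (nat_lit 354)) (XT.lf (nat_lit 1216) (nat_lit 1747130057) (nat_lit 0) (nat_lit 681183925) (nat_lit 1140) (nat_lit 681183925) (nat_lit 485) (nat_lit 1) (nat_lit 469) (nat_lit 1) (nat_lit 484) (nat_lit 1) (nat_lit 408) (nat_lit 379) (nat_lit 353)))) (XT.nd (nat_lit 156) (nat_lit 912) (nat_lit 0) (XT.nd (nat_lit 78) (nat_lit 912) (nat_lit 0) (XT.lf (nat_lit 76) (nat_lit 733857276) (nat_lit 0) (nat_lit 1613749662) (nat_lit 1216) (nat_lit 733857276) (nat_lit 470) (nat_lit 1) (nat_lit 469) (nat_lit 1) (nat_lit 485) (nat_lit 1) (nat_lit 409) (nat_lit 379) (nat_lit 352)) (XT.lf (nat_lit 988) (nat_lit 1183161009) (nat_lit 0) (nat_lit 935305510) (nat_lit 912) (nat_lit 935305510) (nat_lit 470)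 (nat_lit 1) (nat_lit 457) (nat_lit 1) (nat_lit 469) (nat_lit 1) (nat_lit 410) (nat_lit 379) (nat_lit 351))) (XT.nd (nat_lit 78) (nat_lit 912) (nat_lit 0) (XT.lf (nat_lit 76) (nat_lit 448175721) (nat_lit 0) (nat_lit 2130117748) (nat_lit 988) (nat_lit 448175721) (nat_lit 458) (nat_lit 1) (nat_lit 457) (nat_lit 1) (nat_lit 470) (nat_lit 1) (nat_lit 411) (nat_lit 379) (nat_lit 350)) (XT.lf (nat_lit 988) (nat_lit 601151662) (nat_lit 0) (nat_lit 1199137629) (nat_lit 912) (nat_lit 1199137629) (nat_lit 458) (nat_lit 1) (nat_lit 445) (nat_lit 1) (nat_lit 457) (nat_lit 1) (nat_lit 412) (nat_lit 379) (nat_lit 349))))) (XT.nd (nat_lit 312) (nat_lit 1672) (nat_lit 0) (XT.nd (nat_lit 156) (nat_lit 988) (nat_lit 0) (XT.nd (nat_lit 78) (nat_lit 836) (nat_lit 0) (XT.lf (nat_lit 76) (nat_lit 153879487) (nat_lit 0) (nat_lit 2665077853) (nat_lit 988) (nat_lit 153879487) (nat_lit 446) (nat_lit 1) (nat_lit 445) (nat_lit 1) (nat_lit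 458) (nat_lit 1) (nat_lit 413) (nat_lit 379) (nat_lit 348)) (XT.lf (nat_lit 912) (nat_lit 2585679) (nat_lit 0) (nat_lit 1471919319) (nat_lit 836) (nat_lit 1471919319) (nat_lit 446) (nat_lit 1) (nat_lit 434) (nat_lit 1) (nat_lit 445) (nat_lit 1) (nat_lit 414) (nat_lit 379) (nat_lit 347))) (XT.nd (nat_lit 78) (nat_lit 0) (nat_lit 0) (XT.lf (nat_lit 988) (nat_lit 2625782575) (nat_lit 0) (nat_lit 147334748) (nat_lit 912) (nat_lit 147334748) (nat_lit 434) (nat_lit 1) (nat_lit 421) (nat_lit 1) (nat_lit 433) (nat_lit 1) (nat_lit 415) (nat_lit 379) (nat_lit 346)) (XT.lf (nat_lit 76) (nat_lit 1145768287) (nat_lit 0) (nat_lit 603111215) (nat_lit 988) (nat_lit 1145768287) (nat_lit 422) (nat_lit 1) (nat_lit 421) (nat_lit 1) (nat_lit 434) (nat_lit 1) (nat_lit 416) (nat_lit 379) (nat_lit 345)))) (XT.nd (nat_lit 156) (nat_lit 836) (nat_lit 0) (XT.nd (nat_lit 78) (nat_lit 0) (nat_lit 0) (XT.lf (nat_lit 912) (nat_lit 1959876579)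 (nat_lit 0) (nat_lit 454697546) (nat_lit 836) (nat_lit 454697546) (nat_lit 422) (nat_lit 1) (nat_lit 410) (nat_lit 1) (nat_lit 421) (nat_lit 1) (nat_lit 417) (nat_lit 379) (nat_lit 344)) (XT.lf (nat_lit 76) (nat_lit 810870203) (nat_lit 0) (nat_lit 1222398224) (nat_lit 912) (nat_lit 810870203) (nat_lit 411) (nat_lit 1) (nat_lit 410) (nat_lit 1) (nat_lit 422) (nat_lit 1) (nat_lit 418) (nat_lit 379) (nat_lit 343))) (XT.nd (nat_lit 78) (nat_lit 0) (nat_lit 0) (XT.lf (nat_lit 912) (nat_lit 1282192260) (nat_lit 0) (nat_lit 768574222) (nat_lit 836) (nat_lit 768574222) (nat_lit 411) (nat_lit 1) (nat_lit 399) (nat_lit 1) (nat_lit 410) (nat_lit 1) (nat_lit 419) (nat_lit 379) (nat_lit 342)) (XT.lf (nat_lit 76) (nat_lit 470405291) (nat_lit 0) (nat_lit 1854051933) (nat_lit 912) (nat_lit 470405291) (nat_lit 400) (nat_lit 1) (nat_lit 399) (nat_lit 1) (nat_lit 411) (nat_lit 1) (nat_lit 420) (nat_lit 379) (nat_lit 341))))))) (XT.nd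 (nat_lit 57018) (nat_lit 0) (nat_lit 7676) (XT.nd (nat_lit 56394) (nat_lit 0) (nat_lit 9880) (XT.nd (nat_lit 234) (nat_lit 760) (nat_lit 0) (XT.nd (nat_lit 78) (nat_lit 836) (nat_lit 0) (XT.lf (nat_lit 836) (nat_lit 593924953) (nat_lit 0) (nat_lit 1088350084) (nat_lit 760) (nat_lit 1088350084) (nat_lit 400) (nat_lit 1) (nat_lit 389) (nat_lit 1) (nat_lit 399) (nat_lit 1) (nat_lit 421) (nat_lit 379) (nat_lit 340)) (XT.nd (nat_lit 78) (nat_lit 836) (nat_lit 0) (XT.lf (nat_lit 76) (nat_lit 124953862) (nat_lit 0) (nat_lit 2496878121) (nat_lit 836) (nat_lit 124953862) (nat_lit 390) (nat_lit 1) (nat_lit 389) (nat_lit 1) (nat_lit 400) (nat_lit 1) (nat_lit 422) (nat_lit 379) (nat_lit 339)) (XT.lf (nat_lit 76) (nat_lit 1310324387) (nat_lit 0) (nat_lit 102429661) (nat_lit 836) (nat_lit 1310324387) (nat_lit 379) (nat_lit 1) (nat_lit 378) (nat_lit 1) (nat_lit 389) (nat_lit 1) (nat_lit 423) (nat_lit 379) (nat_lit 338)))) (XT.nd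 (nat_lit 56004) (nat_lit 0) (nat_lit 9804) (XT.nd (nat_lit 55926) (nat_lit 0) (nat_lit 9804) (XT.lf (nat_lit 836) (nat_lit 2252851574) (nat_lit 0) (nat_lit 223453622) (nat_lit 760) (nat_lit 223453622) (nat_lit 379) (nat_lit 1) (nat_lit 368) (nat_lit 1) (nat_lit 378) (nat_lit 1) (nat_lit 424) (nat_lit 379) (nat_lit 337)) (XT.lf (nat_lit 1900) (nat_lit 674505282) (nat_lit 0) (nat_lit 680145715) (nat_lit 1900) (nat_lit 674505282) (nat_lit 522) (nat_lit 1) (nat_lit 497) (nat_lit 0) (nat_lit 522) (nat_lit 0) (nat_lit 380) (nat_lit 380) (nat_lit 380))) (XT.nd (nat_lit 78) (nat_lit 0) (nat_lit 76) (XT.lf (nat_lit 1900) (nat_lit 2667095300) (nat_lit 76) (nat_lit 675671072) (nat_lit 0) (nat_lit 675671072) (nat_lit 522) (nat_lit 1) (nat_lit 498) (nat_lit 1) (nat_lit 497) (nat_lit 0) (nat_lit 381) (nat_lit 380) (nat_lit 379)) (XT.lf (nat_lit 1900) (nat_lit 1309556488) (nat_lit 0) (nat_lit 1359884887) (nat_lit 1824) (nat_lit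 1309556488) (nat_lit 523) (nat_lit 1) (nat_lit 498) (nat_lit 1) (nat_lit 522) (nat_lit 1) (nat_lit 382) (nat_lit 380) (nat_lit 378))))) (XT.nd (nat_lit 312) (nat_lit 0) (nat_lit 152) (XT.nd (nat_lit 156) (nat_lit 0) (nat_lit 76) (XT.nd (nat_lit 78) (nat_lit 0) (nat_lit 76) (XT.lf (nat_lit 1900) (nat_lit 2563124870) (nat_lit 76) (nat_lit 688515656) (nat_lit 0) (nat_lit 688515656) (nat_lit 523) (nat_lit 1) (nat_lit 499) (nat_lit 1) (nat_lit 498) (nat_lit 1) (nat_lit 383) (nat_lit 380) (nat_lit 377)) (XT.lf (nat_lit 1900) (nat_lit 1245630116) (nat_lit 0) (nat_lit 1410483039) (nat_lit 1824) (nat_lit 1245630116) (nat_lit 524) (nat_lit 1) (nat_lit 499) (nat_lit 1) (nat_lit 523) (nat_lit 1) (nat_lit 384) (nat_lit 380) (nat_lit 376))) (XT.nd (nat_lit 78) (nat_lit 0) (nat_lit 76) (XT.lf (nat_lit 1900) (nat_lit 2411525214) (nat_lit 76) (nat_lit 726188196) (nat_lit 0) (nat_lit 726188196) (nat_lit 524) (nat_lit 1) (nat_lit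 500) (nat_lit 1) (nat_lit 499) (nat_lit 1) (nat_lit 385) (nat_lit 380) (nat_lit 375)) (XT.lf (nat_lit 1900) (nat_lit 1158691630) (nat_lit 0) (nat_lit 1509105530) (nat_lit 1824) (nat_lit 1158691630) (nat_lit 525) (nat_lit 1) (nat_lit 500) (nat_lit 1) (nat_lit 524) (nat_lit 1) (nat_lit 386) (nat_lit 380) (nat_lit 374)))) (XT.nd (nat_lit 156) (nat_lit 0) (nat_lit 76) (XT.nd (nat_lit 78) (nat_lit 0) (nat_lit 76) (XT.lf (nat_lit 1900) (nat_lit 2215158902) (nat_lit 76) (nat_lit 787227991) (nat_lit 0) (nat_lit 787227991) (nat_lit 525) (nat_lit 1) (nat_lit 501) (nat_lit 1) (nat_lit 500) (nat_lit 1) (nat_lit 387) (nat_lit 380) (nat_lit 373)) (XT.lf (nat_lit 1900) (nat_lit 1050134507) (nat_lit 0) (nat_lit 1652907336) (nat_lit 1824) (nat_lit 1050134507) (nat_lit 526) (nat_lit 1) (nat_lit 501) (nat_lit 1) (nat_lit 525) (nat_lit 1) (nat_lit 388) (nat_lit 380) (nat_lit 372))) (XT.nd (nat_lit 78) (nat_lit 0) (nat_lit 76) (XT.lf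 (nat_lit 1900) (nat_lit 1976757482) (nat_lit 76) (nat_lit 870240797) (nat_lit 0) (nat_lit 870240797) (nat_lit 526) (nat_lit 1) (nat_lit 502) (nat_lit 1) (nat_lit 501) (nat_lit 1) (nat_lit 389) (nat_lit 380) (nat_lit 371)) (XT.lf (nat_lit 1900) (nat_lit 921288317) (nat_lit 0) (nat_lit 1839173131) (nat_lit 1824) (nat_lit 921288317) (nat_lit 527) (nat_lit 1) (nat_lit 502) (nat_lit 1) (nat_lit 526) (nat_lit 1) (nat_lit 390) (nat_lit 380) (nat_lit 370)))))) (XT.nd (nat_lit 624) (nat_lit 2508) (nat_lit 0) (XT.nd (nat_lit 312) (nat_lit 0) (nat_lit 152) (XT.nd (nat_lit 156) (nat_lit 0) (nat_lit 76) (XT.nd (nat_lit 78) (nat_lit 0) (nat_lit 76) (XT.lf (nat_lit 1900) (nat_lit 1698926960) (nat_lit 76) (nat_lit 973896055) (nat_lit 0) (nat_lit 973896055) (nat_lit 527) (nat_lit 1) (nat_lit 503) (nat_lit 1) (nat_lit 502) (nat_lit 1) (nat_lit 391) (nat_lit 380) (nat_lit 369)) (XT.lf (nat_lit 1900) (nat_lit 773421387) (nat_lit 0)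 (nat_lit 2065311868) (nat_lit 1824) (nat_lit 773421387) (nat_lit 528) (nat_lit 1) (nat_lit 503) (nat_lit 1) (nat_lit 527) (nat_lit 1) (nat_lit 392) (nat_lit 380) (nat_lit 368))) (XT.nd (nat_lit 78) (nat_lit 0) (nat_lit 76) (XT.lf (nat_lit 1900) (nat_lit 1384153053) (nat_lit 76) (nat_lit 1096924235) (nat_lit 0) (nat_lit 1096924235) (nat_lit 528) (nat_lit 1) (nat_lit 504) (nat_lit 1) (nat_lit 503) (nat_lit 1) (nat_lit 393) (nat_lit 380) (nat_lit 367)) (XT.lf (nat_lit 1900) (nat_lit 607743375) (nat_lit 0) (nat_lit 2328851588) (nat_lit 1824) (nat_lit 607743375) (nat_lit 529) (nat_lit 1) (nat_lit 504) (nat_lit 1) (nat_lit 528) (nat_lit 1) (nat_lit 394) (nat_lit 380) (nat_lit 366)))) (XT.nd (nat_lit 156) (nat_lit 0) (nat_lit 76) (XT.nd (nat_lit 78) (nat_lit 0) (nat_lit 76) (XT.lf (nat_lit 1900) (nat_lit 1034806237) (nat_lit 76) (nat_lit 1238114279) (nat_lit 0) (nat_lit 1238114279) (nat_lit 529) (nat_lit 1) (nat_lit 505)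 (nat_lit 1) (nat_lit 504) (nat_lit 1) (nat_lit 395) (nat_lit 380) (nat_lit 365)) (XT.lf (nat_lit 1900) (nat_lit 425407729) (nat_lit 0) (nat_lit 2627434431) (nat_lit 1824) (nat_lit 425407729) (nat_lit 530) (nat_lit 1) (nat_lit 505) (nat_lit 1) (nat_lit 529) (nat_lit 1) (nat_lit 396) (nat_lit 380) (nat_lit 364))) (XT.nd (nat_lit 78) (nat_lit 0) (nat_lit 76) (XT.lf (nat_lit 1900) (nat_lit 653146589) (nat_lit 76) (nat_lit 1396311150) (nat_lit 0) (nat_lit 1396311150) (nat_lit 530) (nat_lit 1) (nat_lit 506) (nat_lit 1) (nat_lit 505) (nat_lit 1) (nat_lit 397) (nat_lit 380) (nat_lit 363)) (XT.lf (nat_lit 1900) (nat_lit 227514053) (nat_lit 0) (nat_lit 2958811853) (nat_lit 1824) (nat_lit 227514053) (nat_lit 531) (nat_lit 1) (nat_lit 506) (nat_lit 1) (nat_lit 530) (nat_lit 1) (nat_lit 398) (nat_lit 380) (nat_lit 362))))) (XT.nd (nat_lit 312) (nat_lit 988) (nat_lit 0) (XT.nd (nat_lit 156) (nat_lit 1824) (nat_lit 0) (XT.nd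 (nat_lit 78) (nat_lit 0) (nat_lit 76) (XT.lf (nat_lit 1900) (nat_lit 241328431) (nat_lit 76) (nat_lit 1570413485) (nat_lit 0) (nat_lit 1570413485) (nat_lit 531) (nat_lit 1) (nat_lit 507) (nat_lit 1) (nat_lit 506) (nat_lit 1) (nat_lit 399) (nat_lit 380) (nat_lit 361)) (XT.lf (nat_lit 1900) (nat_lit 15110372) (nat_lit 0) (nat_lit 3320840028) (nat_lit 1824) (nat_lit 15110372) (nat_lit 532) (nat_lit 1) (nat_lit 507) (nat_lit 1) (nat_lit 531) (nat_lit 1) (nat_lit 400) (nat_lit 380) (nat_lit 360))) (XT.nd (nat_lit 78) (nat_lit 0) (nat_lit 0) (XT.lf (nat_lit 1976) (nat_lit 1562065537) (nat_lit 0) (nat_lit 195990595) (nat_lit 1900) (nat_lit 1562065537) (nat_lit 508) (nat_lit 1) (nat_lit 482) (nat_lit 1) (nat_lit 507) (nat_lit 1) (nat_lit 401) (nat_lit 380) (nat_lit 359)) (XT.lf (nat_lit 1976) (nat_lit 2870920587) (nat_lit 76) (nat_lit 209417812) (nat_lit 0) (nat_lit 209417812) (nat_lit 508) (nat_lit 1) (nat_lit 483) (nat_lit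 1) (nat_lit 482) (nat_lit 1) (nat_lit 402) (nat_lit 380) (nat_lit 358)))) (XT.nd (nat_lit 156) (nat_lit 1064) (nat_lit 0) (XT.nd (nat_lit 78) (nat_lit 0) (nat_lit 0) (XT.lf (nat_lit 1976) (nat_lit 1301831146) (nat_lit 0) (nat_lit 655951066) (nat_lit 1900) (nat_lit 1301831146) (nat_lit 509) (nat_lit 1) (nat_lit 483) (nat_lit 1) (nat_lit 508) (nat_lit 1) (nat_lit 403) (nat_lit 380) (nat_lit 357)) (XT.lf (nat_lit 1976) (nat_lit 2337328887) (nat_lit 76) (nat_lit 446324017) (nat_lit 0) (nat_lit 446324017) (nat_lit 509) (nat_lit 1) (nat_lit 484) (nat_lit 1) (nat_lit 483) (nat_lit 1) (nat_lit 404) (nat_lit 380) (nat_lit 356))) (XT.nd (nat_lit 78) (nat_lit 1140) (nat_lit 0) (XT.lf (nat_lit 76) (nat_lit 1030369354) (nat_lit 0) (nat_lit 1139879376) (nat_lit 1900) (nat_lit 1030369354) (nat_lit 485) (nat_lit 1) (nat_lit 484) (nat_lit 1) (nat_lit 509) (nat_lit 1) (nat_lit 405) (nat_lit 380) (nat_lit 355)) (XT.lf (nat_lit 1216)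 (nat_lit 1782072658) (nat_lit 0) (nat_lit 694807603) (nat_lit 1140) (nat_lit 694807603) (nat_lit 485) (nat_lit 1) (nat_lit 469) (nat_lit 1) (nat_lit 484) (nat_lit 1) (nat_lit 406) (nat_lit 380) (nat_lit 354))))))))
noncomputable def ec9 : XT := (XT.nd (nat_lit 58110) (nat_lit 0) (nat_lit 760) (XT.nd (nat_lit 1170) (nat_lit 1520) (nat_lit 0) (XT.nd (nat_lit 546) (nat_lit 3268) (nat_lit 0) (XT.nd (nat_lit 234) (nat_lit 2736) (nat_lit 0) (XT.nd (nat_lit 78) (nat_lit 912) (nat_lit 0) (XT.lf (nat_lit 76) (nat_lit 748534421) (nat_lit 0) (nat_lit 1646024655) (nat_lit 1216) (nat_lit 748534421) (nat_lit 470) (nat_lit 1) (nat_lit 469) (nat_lit 1) (nat_lit 485) (nat_lit 1) (nat_lit 407) (nat_lit 380) (nat_lit 353)) (XT.nd (nat_lit 78) (nat_lit 0) (nat_lit 0) (XT.lf (nat_lit 988) (nat_lit 1206824229) (nat_lit 0) (nat_lit 954011620) (nat_lit 912) (nat_lit 954011620) (nat_lit 470) (nat_lit 1) (nat_lit 457) (nat_lit 1) (nat_lit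 469) (nat_lit 1) (nat_lit 408) (nat_lit 380) (nat_lit 352)) (XT.lf (nat_lit 76) (nat_lit 457139236) (nat_lit 0) (nat_lit 2172720103) (nat_lit 988) (nat_lit 457139236) (nat_lit 458) (nat_lit 1) (nat_lit 457) (nat_lit 1) (nat_lit 470) (nat_lit 1) (nat_lit 409) (nat_lit 380) (nat_lit 351)))) (XT.nd (nat_lit 156) (nat_lit 1824) (nat_lit 0) (XT.nd (nat_lit 78) (nat_lit 0) (nat_lit 0) (XT.lf (nat_lit 988) (nat_lit 613174695) (nat_lit 0) (nat_lit 1223120381) (nat_lit 912) (nat_lit 1223120381) (nat_lit 458) (nat_lit 1) (nat_lit 445) (nat_lit 1) (nat_lit 457) (nat_lit 1) (nat_lit 410) (nat_lit 380) (nat_lit 350)) (XT.lf (nat_lit 76) (nat_lit 156957077) (nat_lit 0) (nat_lit 2718379410) (nat_lit 988) (nat_lit 156957077) (nat_lit 446) (nat_lit 1) (nat_lit 445) (nat_lit 1) (nat_lit 458) (nat_lit 1) (nat_lit 411) (nat_lit 380) (nat_lit 349))) (XT.nd (nat_lit 78) (nat_lit 988) (nat_lit 0) (XT.lf (nat_lit 912) (nat_lit 2637392)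 (nat_lit 0) (nat_lit 1501357706) (nat_lit 836) (nat_lit 1501357706) (nat_lit 446) (nat_lit 1) (nat_lit 434) (nat_lit 1) (nat_lit 445) (nat_lit 1) (nat_lit 412) (nat_lit 380) (nat_lit 348)) (XT.lf (nat_lit 988) (nat_lit 2678298226) (nat_lit 0) (nat_lit 150281443) (nat_lit 912) (nat_lit 150281443) (nat_lit 434) (nat_lit 1) (nat_lit 421) (nat_lit 1) (nat_lit 433) (nat_lit 1) (nat_lit 413) (nat_lit 380) (nat_lit 347))))) (XT.nd (nat_lit 312) (nat_lit 1596) (nat_lit 0) (XT.nd (nat_lit 156) (nat_lit 836) (nat_lit 0) (XT.nd (nat_lit 78) (nat_lit 836) (nat_lit 0) (XT.lf (nat_lit 76) (nat_lit 1168683652) (nat_lit 0) (nat_lit 615173439) (nat_lit 988) (nat_lit 1168683652) (nat_lit 422) (nat_lit 1) (nat_lit 421) (nat_lit 1) (nat_lit 434) (nat_lit 1) (nat_lit 414) (nat_lit 380) (nat_lit 346)) (XT.lf (nat_lit 912) (nat_lit 1999074110) (nat_lit 0) (nat_lit 463791497) (nat_lit 836) (nat_lit 463791497) (nat_lit 422) (nat_lit 1)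 (nat_lit 410) (nat_lit 1) (nat_lit 421) (nat_lit 1) (nat_lit 415) (nat_lit 380) (nat_lit 345))) (XT.nd (nat_lit 78) (nat_lit 836) (nat_lit 0) (XT.lf (nat_lit 76) (nat_lit 827087607) (nat_lit 0) (nat_lit 1246846188) (nat_lit 912) (nat_lit 827087607) (nat_lit 411) (nat_lit 1) (nat_lit 410) (nat_lit 1) (nat_lit 422) (nat_lit 1) (nat_lit 416) (nat_lit 380) (nat_lit 344)) (XT.lf (nat_lit 912) (nat_lit 1307836106) (nat_lit 0) (nat_lit 783945706) (nat_lit 836) (nat_lit 783945706) (nat_lit 411) (nat_lit 1) (nat_lit 399) (nat_lit 1) (nat_lit 410) (nat_lit 1) (nat_lit 417) (nat_lit 380) (nat_lit 343)))) (XT.nd (nat_lit 156) (nat_lit 836) (nat_lit 0) (XT.nd (nat_lit 78) (nat_lit 760) (nat_lit 0) (XT.lf (nat_lit 76) (nat_lit 479813397) (nat_lit 0) (nat_lit 1891132972) (nat_lit 912) (nat_lit 479813397) (nat_lit 400) (nat_lit 1) (nat_lit 399) (nat_lit 1) (nat_lit 411) (nat_lit 1) (nat_lit 418) (nat_lit 380) (nat_lit 342)) (XT.lf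 (nat_lit 836) (nat_lit 605803452) (nat_lit 0) (nat_lit 1110117085) (nat_lit 760) (nat_lit 1110117085) (nat_lit 400) (nat_lit 1) (nat_lit 389) (nat_lit 1) (nat_lit 399) (nat_lit 1) (nat_lit 419) (nat_lit 380) (nat_lit 341))) (XT.nd (nat_lit 78) (nat_lit 836) (nat_lit 0) (XT.lf (nat_lit 76) (nat_lit 127452939) (nat_lit 0) (nat_lit 2546815684) (nat_lit 836) (nat_lit 127452939) (nat_lit 390) (nat_lit 1) (nat_lit 389) (nat_lit 1) (nat_lit 400) (nat_lit 1) (nat_lit 420) (nat_lit 380) (nat_lit 340)) (XT.lf (nat_lit 76) (nat_lit 1336530874) (nat_lit 0) (nat_lit 104478254) (nat_lit 836) (nat_lit 1336530874) (nat_lit 379) (nat_lit 1) (nat_lit 378) (nat_lit 1) (nat_lit 389) (nat_lit 1) (nat_lit 421) (nat_lit 380) (nat_lit 339)))))) (XT.nd (nat_lit 56316) (nat_lit 0) (nat_lit 10716) (XT.nd (nat_lit 56004) (nat_lit 0) (nat_lit 10564) (XT.nd (nat_lit 156) (nat_lit 760) (nat_lit 0) (XT.nd (nat_lit 78) (nat_lit 0) (nat_lit 0)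 (XT.lf (nat_lit 836) (nat_lit 2297908605) (nat_lit 0) (nat_lit 227922695) (nat_lit 760) (nat_lit 227922695) (nat_lit 379) (nat_lit 1) (nat_lit 368) (nat_lit 1) (nat_lit 378) (nat_lit 1) (nat_lit 422) (nat_lit 380) (nat_lit 338)) (XT.lf (nat_lit 76) (nat_lit 957446733) (nat_lit 0) (nat_lit 815242521) (nat_lit 836) (nat_lit 957446733) (nat_lit 369) (nat_lit 1) (nat_lit 368) (nat_lit 1) (nat_lit 379) (nat_lit 1) (nat_lit 423) (nat_lit 380) (nat_lit 337))) (XT.nd (nat_lit 55770) (nat_lit 0) (nat_lit 10564) (XT.lf (nat_lit 836) (nat_lit 1534024992) (nat_lit 0) (nat_lit 586425461) (nat_lit 760) (nat_lit 586425461) (nat_lit 369) (nat_lit 1) (nat_lit 358) (nat_lit 1) (nat_lit 368) (nat_lit 1) (nat_lit 424) (nat_lit 380) (nat_lit 336)) (XT.lf (nat_lit 1900) (nat_lit 687995388) (nat_lit 0) (nat_lit 693748629) (nat_lit 1900) (nat_lit 687995388) (nat_lit 522) (nat_lit 1) (nat_lit 497) (nat_lit 0) (nat_lit 522) (nat_lit 0)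 (nat_lit 378) (nat_lit 381) (nat_lit 381)))) (XT.nd (nat_lit 156) (nat_lit 0) (nat_lit 76) (XT.nd (nat_lit 78) (nat_lit 0) (nat_lit 76) (XT.lf (nat_lit 1900) (nat_lit 2720437206) (nat_lit 76) (nat_lit 689184494) (nat_lit 0) (nat_lit 689184494) (nat_lit 522) (nat_lit 1) (nat_lit 498) (nat_lit 1) (nat_lit 497) (nat_lit 0) (nat_lit 379) (nat_lit 381) (nat_lit 380)) (XT.lf (nat_lit 1900) (nat_lit 1335747617) (nat_lit 0) (nat_lit 1387082585) (nat_lit 1824) (nat_lit 1335747617) (nat_lit 523) (nat_lit 1) (nat_lit 498) (nat_lit 1) (nat_lit 522) (nat_lit 1) (nat_lit 380) (nat_lit 381) (nat_lit 379))) (XT.nd (nat_lit 78) (nat_lit 0) (nat_lit 76) (XT.lf (nat_lit 1900) (nat_lit 2614387367) (nat_lit 76) (nat_lit 702285969) (nat_lit 0) (nat_lit 702285969) (nat_lit 523) (nat_lit 1) (nat_lit 499) (nat_lit 1) (nat_lit 498) (nat_lit 1) (nat_lit 381) (nat_lit 381) (nat_lit 378)) (XT.lf (nat_lit 1900) (nat_lit 1270542719) (nat_lit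 0) (nat_lit 1438692700) (nat_lit 1824) (nat_lit 1270542719) (nat_lit 524) (nat_lit 1) (nat_lit 499) (nat_lit 1) (nat_lit 523) (nat_lit 1) (nat_lit 382) (nat_lit 381) (nat_lit 377))))) (XT.nd (nat_lit 312) (nat_lit 0) (nat_lit 152) (XT.nd (nat_lit 156) (nat_lit 0) (nat_lit 76) (XT.nd (nat_lit 78) (nat_lit 0) (nat_lit 76) (XT.lf (nat_lit 1900) (nat_lit 2459755718) (nat_lit 76) (nat_lit 740711960) (nat_lit 0) (nat_lit 740711960) (nat_lit 524) (nat_lit 1) (nat_lit 500) (nat_lit 1) (nat_lit 499) (nat_lit 1) (nat_lit 383) (nat_lit 381) (nat_lit 376)) (XT.lf (nat_lit 1900) (nat_lit 1181865462) (nat_lit 0) (nat_lit 1539287640) (nat_lit 1824) (nat_lit 1181865462) (nat_lit 525) (nat_lit 1) (nat_lit 500) (nat_lit 1) (nat_lit 524) (nat_lit 1) (nat_lit 384) (nat_lit 381) (nat_lit 375))) (XT.nd (nat_lit 78) (nat_lit 0) (nat_lit 76) (XT.lf (nat_lit 1900) (nat_lit 2259462080) (nat_lit 76) (nat_lit 802972551) (nat_lit 0) (nat_lit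 802972551) (nat_lit 525) (nat_lit 1) (nat_lit 501) (nat_lit 1) (nat_lit 500) (nat_lit 1) (nat_lit 385) (nat_lit 381) (nat_lit 374)) (XT.lf (nat_lit 1900) (nat_lit 1071137198) (nat_lit 0) (nat_lit 1685965483) (nat_lit 1824) (nat_lit 1071137198) (nat_lit 526) (nat_lit 1) (nat_lit 501) (nat_lit 1) (nat_lit 525) (nat_lit 1) (nat_lit 386) (nat_lit 381) (nat_lit 373)))) (XT.nd (nat_lit 156) (nat_lit 0) (nat_lit 76) (XT.nd (nat_lit 78) (nat_lit 0) (nat_lit 76) (XT.lf (nat_lit 1900) (nat_lit 2016292632) (nat_lit 76) (nat_lit 887645613) (nat_lit 0) (nat_lit 887645613) (nat_lit 526) (nat_lit 1) (nat_lit 502) (nat_lit 1) (nat_lit 501) (nat_lit 1) (nat_lit 387) (nat_lit 381) (nat_lit 372)) (XT.lf (nat_lit 1900) (nat_lit 939714083) (nat_lit 0) (nat_lit 1875956593) (nat_lit 1824) (nat_lit 939714083) (nat_lit 527) (nat_lit 1) (nat_lit 502) (nat_lit 1) (nat_lit 526) (nat_lit 1) (nat_lit 388) (nat_lit 381) (nat_lit 371))) (XT.nd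 (nat_lit 78) (nat_lit 0) (nat_lit 76) (XT.lf (nat_lit 1900) (nat_lit 1732905499) (nat_lit 76) (nat_lit 993373976) (nat_lit 0) (nat_lit 993373976) (nat_lit 527) (nat_lit 1) (nat_lit 503) (nat_lit 1) (nat_lit 502) (nat_lit 1) (nat_lit 389) (nat_lit 381) (nat_lit 370)) (XT.lf (nat_lit 1900) (nat_lit 788889814) (nat_lit 0) (nat_lit 2106618105) (nat_lit 1824) (nat_lit 788889814) (nat_lit 528) (nat_lit 1) (nat_lit 503) (nat_lit 1) (nat_lit 527) (nat_lit 1) (nat_lit 390) (nat_lit 381) (nat_lit 369))))))) (XT.nd (nat_lit 1170) (nat_lit 7676) (nat_lit 0) (XT.nd (nat_lit 546) (nat_lit 2584) (nat_lit 0) (XT.nd (nat_lit 234) (nat_lit 0) (nat_lit 152) (XT.nd (nat_lit 78) (nat_lit 0) (nat_lit 76) (XT.lf (nat_lit 1900) (nat_lit 1411836114) (nat_lit 76) (nat_lit 1118862720) (nat_lit 0) (nat_lit 1118862720) (nat_lit 528) (nat_lit 1) (nat_lit 504) (nat_lit 1) (nat_lit 503) (nat_lit 1) (nat_lit 391) (nat_lit 381) (nat_lit 368)) (XT.nd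 (nat_lit 78) (nat_lit 0) (nat_lit 0) (XT.lf (nat_lit 1900) (nat_lit 619898242) (nat_lit 0) (nat_lit 2375428620) (nat_lit 1824) (nat_lit 619898242) (nat_lit 529) (nat_lit 1) (nat_lit 504) (nat_lit 1) (nat_lit 528) (nat_lit 1) (nat_lit 392) (nat_lit 381) (nat_lit 367)) (XT.lf (nat_lit 1900) (nat_lit 1055502362) (nat_lit 76) (nat_lit 1262876564) (nat_lit 0) (nat_lit 1262876564) (nat_lit 529) (nat_lit 1) (nat_lit 505) (nat_lit 1) (nat_lit 504) (nat_lit 1) (nat_lit 393) (nat_lit 381) (nat_lit 366)))) (XT.nd (nat_lit 156) (nat_lit 0) (nat_lit 76) (XT.nd (nat_lit 78) (nat_lit 0) (nat_lit 0) (XT.lf (nat_lit 1900) (nat_lit 433915884) (nat_lit 0) (nat_lit 2679983120) (nat_lit 1824) (nat_lit 433915884) (nat_lit 530) (nat_lit 1) (nat_lit 505) (nat_lit 1) (nat_lit 529) (nat_lit 1) (nat_lit 394) (nat_lit 381) (nat_lit 365)) (XT.lf (nat_lit 1900) (nat_lit 666209521) (nat_lit 76) (nat_lit 1424237373) (nat_lit 0) (nat_lit 1424237373)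 (nat_lit 530) (nat_lit 1) (nat_lit 506) (nat_lit 1) (nat_lit 505) (nat_lit 1) (nat_lit 395) (nat_lit 381) (nat_lit 364))) (XT.nd (nat_lit 78) (nat_lit 0) (nat_lit 0) (XT.lf (nat_lit 1900) (nat_lit 232064334) (nat_lit 0) (nat_lit 3017988090) (nat_lit 1824) (nat_lit 232064334) (nat_lit 531) (nat_lit 1) (nat_lit 506) (nat_lit 1) (nat_lit 530) (nat_lit 1) (nat_lit 396) (nat_lit 381) (nat_lit 363)) (XT.lf (nat_lit 1900) (nat_lit 246155000) (nat_lit 76) (nat_lit 1601821755) (nat_lit 0) (nat_lit 1601821755) (nat_lit 531) (nat_lit 1) (nat_lit 507) (nat_lit 1) (nat_lit 506) (nat_lit 1) (nat_lit 397) (nat_lit 381) (nat_lit 362))))) (XT.nd (nat_lit 312) (nat_lit 988) (nat_lit 0) (XT.nd (nat_lit 156) (nat_lit 0) (nat_lit 0) (XT.nd (nat_lit 78) (nat_lit 1900) (nat_lit 0) (XT.lf (nat_lit 1900) (nat_lit 15412579) (nat_lit 0) (nat_lit 3387256829) (nat_lit 1824) (nat_lit 15412579) (nat_lit 532) (nat_lit 1) (nat_lit 507) (nat_lit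 1) (nat_lit 531) (nat_lit 1) (nat_lit 398) (nat_lit 381) (nat_lit 361)) (XT.lf (nat_lit 1976) (nat_lit 1593306848) (nat_lit 0) (nat_lit 199910406) (nat_lit 1900) (nat_lit 1593306848) (nat_lit 508) (nat_lit 1) (nat_lit 482) (nat_lit 1) (nat_lit 507) (nat_lit 1) (nat_lit 399) (nat_lit 381) (nat_lit 360))) (XT.nd (nat_lit 78) (nat_lit 0) (nat_lit 76) (XT.lf (nat_lit 1976) (nat_lit 2928338999) (nat_lit 76) (nat_lit 213606169) (nat_lit 0) (nat_lit 213606169) (nat_lit 508) (nat_lit 1) (nat_lit 483) (nat_lit 1) (nat_lit 482) (nat_lit 1) (nat_lit 400) (nat_lit 381) (nat_lit 359)) (XT.lf (nat_lit 1976) (nat_lit 1327867768) (nat_lit 0) (nat_lit 669070087) (nat_lit 1900) (nat_lit 1327867768) (nat_lit 509) (nat_lit 1) (nat_lit 483) (nat_lit 1) (nat_lit 508) (nat_lit 1) (nat_lit 401) (nat_lit 381) (nat_lit 358)))) (XT.nd (nat_lit 156) (nat_lit 1064) (nat_lit 0) (XT.nd (nat_lit 78) (nat_lit 0) (nat_lit 76) (XT.lf (nat_lit 1976)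 (nat_lit 2384075465) (nat_lit 76) (nat_lit 455250498) (nat_lit 0) (nat_lit 455250498) (nat_lit 509) (nat_lit 1) (nat_lit 484) (nat_lit 1) (nat_lit 483) (nat_lit 1) (nat_lit 402) (nat_lit 381) (nat_lit 357)) (XT.lf (nat_lit 76) (nat_lit 1050976741) (nat_lit 0) (nat_lit 1162676964) (nat_lit 1900) (nat_lit 1050976741) (nat_lit 485) (nat_lit 1) (nat_lit 484) (nat_lit 1) (nat_lit 509) (nat_lit 1) (nat_lit 403) (nat_lit 381) (nat_lit 356))) (XT.nd (nat_lit 78) (nat_lit 0) (nat_lit 0) (XT.lf (nat_lit 1216) (nat_lit 1817714111) (nat_lit 0) (nat_lit 708703756) (nat_lit 1140) (nat_lit 708703756) (nat_lit 485) (nat_lit 1) (nat_lit 469) (nat_lit 1) (nat_lit 484) (nat_lit 1) (nat_lit 404) (nat_lit 381) (nat_lit 355)) (XT.lf (nat_lit 76) (nat_lit 763505110) (nat_lit 0) (nat_lit 1678945149) (nat_lit 1216) (nat_lit 763505110) (nat_lit 470) (nat_lit 1) (nat_lit 469) (nat_lit 1) (nat_lit 485) (nat_lit 1) (nat_lit 405) (nat_lit 381)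 (nat_lit 354)))))) (XT.nd (nat_lit 624) (nat_lit 3192) (nat_lit 0) (XT.nd (nat_lit 312) (nat_lit 2660) (nat_lit 0) (XT.nd (nat_lit 156) (nat_lit 912) (nat_lit 0) (XT.nd (nat_lit 78) (nat_lit 0) (nat_lit 0) (XT.lf (nat_lit 988) (nat_lit 1230960714) (nat_lit 0) (nat_lit 973091853) (nat_lit 912) (nat_lit 973091853) (nat_lit 470) (nat_lit 1) (nat_lit 457) (nat_lit 1) (nat_lit 469) (nat_lit 1) (nat_lit 406) (nat_lit 381) (nat_lit 353)) (XT.lf (nat_lit 76) (nat_lit 466282021) (nat_lit 0) (nat_lit 2216174505) (nat_lit 988) (nat_lit 466282021) (nat_lit 458) (nat_lit 1) (nat_lit 457) (nat_lit 1) (nat_lit 470) (nat_lit 1) (nat_lit 407) (nat_lit 381) (nat_lit 352))) (XT.nd (nat_lit 78) (nat_lit 0) (nat_lit 0) (XT.lf (nat_lit 988) (nat_lit 625438189) (nat_lit 0) (nat_lit 1247582789) (nat_lit 912) (nat_lit 1247582789) (nat_lit 458) (nat_lit 1) (nat_lit 445) (nat_lit 1) (nat_lit 457) (nat_lit 1) (nat_lit 408) (nat_lit 381) (nat_lit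 351)) (XT.lf (nat_lit 76) (nat_lit 160096219) (nat_lit 0) (nat_lit 2772746998) (nat_lit 988) (nat_lit 160096219) (nat_lit 446) (nat_lit 1) (nat_lit 445) (nat_lit 1) (nat_lit 458) (nat_lit 1) (nat_lit 409) (nat_lit 381) (nat_lit 350)))) (XT.nd (nat_lit 156) (nat_lit 836) (nat_lit 0) (XT.nd (nat_lit 78) (nat_lit 988) (nat_lit 0) (XT.lf (nat_lit 912) (nat_lit 2690140) (nat_lit 0) (nat_lit 1531384860) (nat_lit 836) (nat_lit 1531384860) (nat_lit 446) (nat_lit 1) (nat_lit 434) (nat_lit 1) (nat_lit 445) (nat_lit 1) (nat_lit 410) (nat_lit 381) (nat_lit 349)) (XT.lf (nat_lit 988) (nat_lit 2731864191) (nat_lit 0) (nat_lit 153287072) (nat_lit 912) (nat_lit 153287072) (nat_lit 434) (nat_lit 1) (nat_lit 421) (nat_lit 1) (nat_lit 433) (nat_lit 1) (nat_lit 411) (nat_lit 381) (nat_lit 348))) (XT.nd (nat_lit 78) (nat_lit 836) (nat_lit 0) (XT.lf (nat_lit 76) (nat_lit 1192057325) (nat_lit 0) (nat_lit 627476908) (nat_lit 988) (nat_lit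 1192057325) (nat_lit 422) (nat_lit 1) (nat_lit 421) (nat_lit 1) (nat_lit 434) (nat_lit 1) (nat_lit 412) (nat_lit 381) (nat_lit 347)) (XT.lf (nat_lit 912) (nat_lit 2039055592) (nat_lit 0) (nat_lit 473067327) (nat_lit 836) (nat_lit 473067327) (nat_lit 422) (nat_lit 1) (nat_lit 410) (nat_lit 1) (nat_lit 421) (nat_lit 1) (nat_lit 413) (nat_lit 381) (nat_lit 346))))) (XT.nd (nat_lit 312) (nat_lit 1596) (nat_lit 0) (XT.nd (nat_lit 156) (nat_lit 760) (nat_lit 0) (XT.nd (nat_lit 78) (nat_lit 836) (nat_lit 0) (XT.lf (nat_lit 76) (nat_lit 843629359) (nat_lit 0) (nat_lit 1271783112) (nat_lit 912) (nat_lit 843629359) (nat_lit 411) (nat_lit 1) (nat_lit 410) (nat_lit 1) (nat_lit 422) (nat_lit 1) (nat_lit 414) (nat_lit 381) (nat_lit 345)) (XT.lf (nat_lit 912) (nat_lit 1333992828) (nat_lit 0) (nat_lit 799624620) (nat_lit 836) (nat_lit 799624620) (nat_lit 411) (nat_lit 1) (nat_lit 399) (nat_lit 1) (nat_lit 410) (nat_lit 1) (nat_lit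 415) (nat_lit 381) (nat_lit 344))) (XT.nd (nat_lit 78) (nat_lit 760) (nat_lit 0) (XT.lf (nat_lit 76) (nat_lit 489409665) (nat_lit 0) (nat_lit 1928955631) (nat_lit 912) (nat_lit 489409665) (nat_lit 400) (nat_lit 1) (nat_lit 399) (nat_lit 1) (nat_lit 411) (nat_lit 1) (nat_lit 416) (nat_lit 381) (nat_lit 343)) (XT.lf (nat_lit 836) (nat_lit 617919521) (nat_lit 0) (nat_lit 1132319427) (nat_lit 760) (nat_lit 1132319427) (nat_lit 400) (nat_lit 1) (nat_lit 389) (nat_lit 1) (nat_lit 399) (nat_lit 1) (nat_lit 417) (nat_lit 381) (nat_lit 342)))) (XT.nd (nat_lit 156) (nat_lit 760) (nat_lit 0) (XT.nd (nat_lit 78) (nat_lit 836) (nat_lit 0) (XT.lf (nat_lit 76) (nat_lit 130001998) (nat_lit 0) (nat_lit 2597751998) (nat_lit 836) (nat_lit 130001998) (nat_lit 390) (nat_lit 1) (nat_lit 389) (nat_lit 1) (nat_lit 400) (nat_lit 1) (nat_lit 418) (nat_lit 381) (nat_lit 341)) (XT.lf (nat_lit 76) (nat_lit 1363261492) (nat_lit 0) (nat_lit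 106567819) (nat_lit 836) (nat_lit 1363261492) (nat_lit 379) (nat_lit 1) (nat_lit 378) (nat_lit 1) (nat_lit 389) (nat_lit 1) (nat_lit 419) (nat_lit 381) (nat_lit 340))) (XT.nd (nat_lit 78) (nat_lit 0) (nat_lit 0) (XT.lf (nat_lit 836) (nat_lit 2343866777) (nat_lit 0) (nat_lit 232481149) (nat_lit 760) (nat_lit 232481149) (nat_lit 379) (nat_lit 1) (nat_lit 368) (nat_lit 1) (nat_lit 378) (nat_lit 1) (nat_lit 420) (nat_lit 381) (nat_lit 339)) (XT.lf (nat_lit 76) (nat_lit 976595668) (nat_lit 0) (nat_lit 831547371) (nat_lit 836) (nat_lit 976595668) (nat_lit 369) (nat_lit 1) (nat_lit 368) (nat_lit 1) (nat_lit 379) (nat_lit 1) (nat_lit 421) (nat_lit 381) (nat_lit 338))))))))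
noncomputable def ec10 : XT := (XT.nd (nat_lit 57954) (nat_lit 684) (nat_lit 0) (XT.nd (nat_lit 56784) (nat_lit 0) (nat_lit 8436) (XT.nd (nat_lit 56160) (nat_lit 0) (nat_lit 10716) (XT.nd (nat_lit 55848) (nat_lit 0) (nat_lit 10564) (XT.nd (nat_lit 78) (nat_lit 0) (nat_lit 0) (XT.lf (nat_lit 836) (nat_lit 1564705492) (nat_lit 0) (nat_lit 598153970) (nat_lit 760) (nat_lit 598153970) (nat_lit 369) (nat_lit 1) (nat_lit 358) (nat_lit 1) (nat_lit 368) (nat_lit 1) (nat_lit 422) (nat_lit 381) (nat_lit 337)) (XT.nd (nat_lit 55692) (nat_lit 0) (nat_lit 10564) (XT.lf (nat_lit 76) (nat_lit 586737364) (nat_lit 0) (nat_lit 1564075446) (nat_lit 836) (nat_lit 586737364) (nat_lit 359) (nat_lit 1) (nat_lit 358) (nat_lit 1) (nat_lit 369) (nat_lit 1) (nat_lit 423) (nat_lit 381) (nat_lit 336)) (XT.lf (nat_lit 1900) (nat_lit 701755296) (nat_lit 0) (nat_lit 707623602) (nat_lit 1900) (nat_lit 701755296) (nat_lit 522) (nat_lit 1) (nat_lit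 497) (nat_lit 0) (nat_lit 522) (nat_lit 0) (nat_lit 376) (nat_lit 382) (nat_lit 382)))) (XT.nd (nat_lit 156) (nat_lit 0) (nat_lit 76) (XT.nd (nat_lit 78) (nat_lit 0) (nat_lit 76) (XT.lf (nat_lit 1900) (nat_lit 2774845950) (nat_lit 76) (nat_lit 702968184) (nat_lit 0) (nat_lit 702968184) (nat_lit 522) (nat_lit 1) (nat_lit 498) (nat_lit 1) (nat_lit 497) (nat_lit 0) (nat_lit 377) (nat_lit 382) (nat_lit 381)) (XT.lf (nat_lit 1900) (nat_lit 1362462570) (nat_lit 0) (nat_lit 1414824237) (nat_lit 1824) (nat_lit 1362462570) (nat_lit 523) (nat_lit 1) (nat_lit 498) (nat_lit 1) (nat_lit 522) (nat_lit 1) (nat_lit 378) (nat_lit 382) (nat_lit 380))) (XT.nd (nat_lit 78) (nat_lit 0) (nat_lit 76) (XT.lf (nat_lit 1900) (nat_lit 2666675115) (nat_lit 76) (nat_lit 716331688) (nat_lit 0) (nat_lit 716331688) (nat_lit 523) (nat_lit 1) (nat_lit 499) (nat_lit 1) (nat_lit 498) (nat_lit 1) (nat_lit 379) (nat_lit 382) (nat_lit 379)) (XT.lf (nat_lit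 1900) (nat_lit 1295953573) (nat_lit 0) (nat_lit 1467466554) (nat_lit 1824) (nat_lit 1295953573) (nat_lit 524) (nat_lit 1) (nat_lit 499) (nat_lit 1) (nat_lit 523) (nat_lit 1) (nat_lit 380) (nat_lit 382) (nat_lit 378))))) (XT.nd (nat_lit 312) (nat_lit 0) (nat_lit 152) (XT.nd (nat_lit 156) (nat_lit 0) (nat_lit 76) (XT.nd (nat_lit 78) (nat_lit 0) (nat_lit 76) (XT.lf (nat_lit 1900) (nat_lit 2508950832) (nat_lit 76) (nat_lit 755526199) (nat_lit 0) (nat_lit 755526199) (nat_lit 524) (nat_lit 1) (nat_lit 500) (nat_lit 1) (nat_lit 499) (nat_lit 1) (nat_lit 381) (nat_lit 382) (nat_lit 377)) (XT.lf (nat_lit 1900) (nat_lit 1205502772) (nat_lit 0) (nat_lit 1570073393) (nat_lit 1824) (nat_lit 1205502772) (nat_lit 525) (nat_lit 1) (nat_lit 500) (nat_lit 1) (nat_lit 524) (nat_lit 1) (nat_lit 382) (nat_lit 382) (nat_lit 376))) (XT.nd (nat_lit 78) (nat_lit 0) (nat_lit 76) (XT.lf (nat_lit 1900) (nat_lit 2304651321) (nat_lit 76) (nat_lit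 819032002) (nat_lit 0) (nat_lit 819032002) (nat_lit 525) (nat_lit 1) (nat_lit 501) (nat_lit 1) (nat_lit 500) (nat_lit 1) (nat_lit 383) (nat_lit 382) (nat_lit 375)) (XT.lf (nat_lit 1900) (nat_lit 1092559942) (nat_lit 0) (nat_lit 1719684792) (nat_lit 1824) (nat_lit 1092559942) (nat_lit 526) (nat_lit 1) (nat_lit 501) (nat_lit 1) (nat_lit 525) (nat_lit 1) (nat_lit 384) (nat_lit 382) (nat_lit 374)))) (XT.nd (nat_lit 156) (nat_lit 0) (nat_lit 76) (XT.nd (nat_lit 78) (nat_lit 0) (nat_lit 76) (XT.lf (nat_lit 1900) (nat_lit 2056618484) (nat_lit 76) (nat_lit 905398525) (nat_lit 0) (nat_lit 905398525) (nat_lit 526) (nat_lit 1) (nat_lit 502) (nat_lit 1) (nat_lit 501) (nat_lit 1) (nat_lit 385) (nat_lit 382) (nat_lit 373)) (XT.lf (nat_lit 1900) (nat_lit 958508365) (nat_lit 0) (nat_lit 1913475725) (nat_lit 1824) (nat_lit 958508365) (nat_lit 527) (nat_lit 1) (nat_lit 502) (nat_lit 1) (nat_lit 526) (nat_lit 1) (nat_lit 386) (nat_lit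 382) (nat_lit 372))) (XT.nd (nat_lit 78) (nat_lit 0) (nat_lit 76) (XT.lf (nat_lit 1900) (nat_lit 1767563609) (nat_lit 76) (nat_lit 1013241456) (nat_lit 0) (nat_lit 1013241456) (nat_lit 527) (nat_lit 1) (nat_lit 503) (nat_lit 1) (nat_lit 502) (nat_lit 1) (nat_lit 387) (nat_lit 382) (nat_lit 371)) (XT.lf (nat_lit 1900) (nat_lit 804667611) (nat_lit 0) (nat_lit 2148750467) (nat_lit 1824) (nat_lit 804667611) (nat_lit 528) (nat_lit 1) (nat_lit 503) (nat_lit 1) (nat_lit 527) (nat_lit 1) (nat_lit 388) (nat_lit 382) (nat_lit 370)))))) (XT.nd (nat_lit 546) (nat_lit 2584) (nat_lit 0) (XT.nd (nat_lit 234) (nat_lit 0) (nat_lit 152) (XT.nd (nat_lit 78) (nat_lit 0) (nat_lit 76) (XT.lf (nat_lit 1900) (nat_lit 1440072836) (nat_lit 76) (nat_lit 1141239974) (nat_lit 0) (nat_lit 1141239974) (nat_lit 528) (nat_lit 1) (nat_lit 504) (nat_lit 1) (nat_lit 503) (nat_lit 1) (nat_lit 389) (nat_lit 382) (nat_lit 369)) (XT.nd (nat_lit 78) (nat_lit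 0) (nat_lit 0) (XT.lf (nat_lit 1900) (nat_lit 632296207) (nat_lit 0) (nat_lit 2422937192) (nat_lit 1824) (nat_lit 632296207) (nat_lit 529) (nat_lit 1) (nat_lit 504) (nat_lit 1) (nat_lit 528) (nat_lit 1) (nat_lit 390) (nat_lit 382) (nat_lit 368)) (XT.lf (nat_lit 1900) (nat_lit 1076612409) (nat_lit 76) (nat_lit 1288134095) (nat_lit 0) (nat_lit 1288134095) (nat_lit 529) (nat_lit 1) (nat_lit 505) (nat_lit 1) (nat_lit 504) (nat_lit 1) (nat_lit 391) (nat_lit 382) (nat_lit 367)))) (XT.nd (nat_lit 156) (nat_lit 0) (nat_lit 76) (XT.nd (nat_lit 78) (nat_lit 0) (nat_lit 0) (XT.lf (nat_lit 1900) (nat_lit 442594201) (nat_lit 0) (nat_lit 2733582783) (nat_lit 1824) (nat_lit 442594201) (nat_lit 530) (nat_lit 1) (nat_lit 505) (nat_lit 1) (nat_lit 529) (nat_lit 1) (nat_lit 392) (nat_lit 382) (nat_lit 366)) (XT.lf (nat_lit 1900) (nat_lit 679533711) (nat_lit 76) (nat_lit 1452722121) (nat_lit 0) (nat_lit 1452722121) (nat_lit 530) (nat_lit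 1) (nat_lit 506) (nat_lit 1) (nat_lit 505) (nat_lit 1) (nat_lit 393) (nat_lit 382) (nat_lit 365))) (XT.nd (nat_lit 78) (nat_lit 0) (nat_lit 0) (XT.lf (nat_lit 1900) (nat_lit 236705620) (nat_lit 0) (nat_lit 3078347852) (nat_lit 1824) (nat_lit 236705620) (nat_lit 531) (nat_lit 1) (nat_lit 506) (nat_lit 1) (nat_lit 530) (nat_lit 1) (nat_lit 394) (nat_lit 382) (nat_lit 364)) (XT.lf (nat_lit 1900) (nat_lit 251078100) (nat_lit 76) (nat_lit 1633858190) (nat_lit 0) (nat_lit 1633858190) (nat_lit 531) (nat_lit 1) (nat_lit 507) (nat_lit 1) (nat_lit 506) (nat_lit 1) (nat_lit 395) (nat_lit 382) (nat_lit 363))))) (XT.nd (nat_lit 312) (nat_lit 988) (nat_lit 0) (XT.nd (nat_lit 156) (nat_lit 0) (nat_lit 0) (XT.nd (nat_lit 78) (nat_lit 1900) (nat_lit 0) (XT.lf (nat_lit 1900) (nat_lit 15720831) (nat_lit 0) (nat_lit 3455001965) (nat_lit 1824) (nat_lit 15720831) (nat_lit 532) (nat_lit 1) (nat_lit 507) (nat_lit 1) (nat_lit 531) (nat_lit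 1) (nat_lit 396) (nat_lit 382) (nat_lit 362)) (XT.lf (nat_lit 1976) (nat_lit 1625172985) (nat_lit 0) (nat_lit 203908615) (nat_lit 1900) (nat_lit 1625172985) (nat_lit 508) (nat_lit 1) (nat_lit 482) (nat_lit 1) (nat_lit 507) (nat_lit 1) (nat_lit 397) (nat_lit 382) (nat_lit 361))) (XT.nd (nat_lit 78) (nat_lit 0) (nat_lit 76) (XT.lf (nat_lit 1976) (nat_lit 2986905779) (nat_lit 76) (nat_lit 217878292) (nat_lit 0) (nat_lit 217878292) (nat_lit 508) (nat_lit 1) (nat_lit 483) (nat_lit 1) (nat_lit 482) (nat_lit 1) (nat_lit 398) (nat_lit 382) (nat_lit 360)) (XT.lf (nat_lit 1976) (nat_lit 1354425124) (nat_lit 0) (nat_lit 682451489) (nat_lit 1900) (nat_lit 1354425124) (nat_lit 509) (nat_lit 1) (nat_lit 483) (nat_lit 1) (nat_lit 508) (nat_lit 1) (nat_lit 399) (nat_lit 382) (nat_lit 359)))) (XT.nd (nat_lit 156) (nat_lit 1064) (nat_lit 0) (XT.nd (nat_lit 78) (nat_lit 0) (nat_lit 76) (XT.lf (nat_lit 1976) (nat_lit 2431756975) (nat_lit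 76) (nat_lit 464355507) (nat_lit 0) (nat_lit 464355507) (nat_lit 509) (nat_lit 1) (nat_lit 484) (nat_lit 1) (nat_lit 483) (nat_lit 1) (nat_lit 400) (nat_lit 382) (nat_lit 358)) (XT.lf (nat_lit 76) (nat_lit 1071996275) (nat_lit 0) (nat_lit 1185930503) (nat_lit 1900) (nat_lit 1071996275) (nat_lit 485) (nat_lit 1) (nat_lit 484) (nat_lit 1) (nat_lit 509) (nat_lit 1) (nat_lit 401) (nat_lit 382) (nat_lit 357))) (XT.nd (nat_lit 78) (nat_lit 0) (nat_lit 0) (XT.lf (nat_lit 1216) (nat_lit 1854068394) (nat_lit 0) (nat_lit 722877831) (nat_lit 1140) (nat_lit 722877831) (nat_lit 485) (nat_lit 1) (nat_lit 469) (nat_lit 1) (nat_lit 484) (nat_lit 1) (nat_lit 402) (nat_lit 382) (nat_lit 356)) (XT.lf (nat_lit 76) (nat_lit 778775212) (nat_lit 0) (nat_lit 1712524051) (nat_lit 1216) (nat_lit 778775212) (nat_lit 470) (nat_lit 1) (nat_lit 469) (nat_lit 1) (nat_lit 485) (nat_lit 1) (nat_lit 403) (nat_lit 382) (nat_lit 355))))))) (XT.nd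 (nat_lit 1170) (nat_lit 1444) (nat_lit 0) (XT.nd (nat_lit 546) (nat_lit 4028) (nat_lit 0) (XT.nd (nat_lit 234) (nat_lit 1824) (nat_lit 0) (XT.nd (nat_lit 78) (nat_lit 912) (nat_lit 0) (XT.lf (nat_lit 988) (nat_lit 1255579928) (nat_lit 0) (nat_lit 992553690) (nat_lit 912) (nat_lit 992553690) (nat_lit 470) (nat_lit 1) (nat_lit 457) (nat_lit 1) (nat_lit 469) (nat_lit 1) (nat_lit 404) (nat_lit 382) (nat_lit 354)) (XT.nd (nat_lit 78) (nat_lit 912) (nat_lit 0) (XT.lf (nat_lit 76) (nat_lit 475607661) (nat_lit 0) (nat_lit 2260497995) (nat_lit 988) (nat_lit 475607661) (nat_lit 458) (nat_lit 1) (nat_lit 457) (nat_lit 1) (nat_lit 470) (nat_lit 1) (nat_lit 405) (nat_lit 382) (nat_lit 353)) (XT.lf (nat_lit 988) (nat_lit 637946953) (nat_lit 0) (nat_lit 1272534445) (nat_lit 912) (nat_lit 1272534445) (nat_lit 458) (nat_lit 1) (nat_lit 445) (nat_lit 1) (nat_lit 457) (nat_lit 1) (nat_lit 406) (nat_lit 382) (nat_lit 352)))) (XT.nd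 (nat_lit 156) (nat_lit 988) (nat_lit 0) (XT.nd (nat_lit 78) (nat_lit 836) (nat_lit 0) (XT.lf (nat_lit 76) (nat_lit 163298143) (nat_lit 0) (nat_lit 2828201938) (nat_lit 988) (nat_lit 163298143) (nat_lit 446) (nat_lit 1) (nat_lit 445) (nat_lit 1) (nat_lit 458) (nat_lit 1) (nat_lit 407) (nat_lit 382) (nat_lit 351)) (XT.lf (nat_lit 912) (nat_lit 2743943) (nat_lit 0) (nat_lit 1562012557) (nat_lit 836) (nat_lit 1562012557) (nat_lit 446) (nat_lit 1) (nat_lit 434) (nat_lit 1) (nat_lit 445) (nat_lit 1) (nat_lit 408) (nat_lit 382) (nat_lit 350))) (XT.nd (nat_lit 78) (nat_lit 0) (nat_lit 0) (XT.lf (nat_lit 988) (nat_lit 2786501474) (nat_lit 0) (nat_lit 156352813) (nat_lit 912) (nat_lit 156352813) (nat_lit 434) (nat_lit 1) (nat_lit 421) (nat_lit 1) (nat_lit 433) (nat_lit 1) (nat_lit 409) (nat_lit 382) (nat_lit 349)) (XT.lf (nat_lit 76) (nat_lit 1215898472) (nat_lit 0) (nat_lit 640026446) (nat_lit 988) (nat_lit 1215898472)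 (nat_lit 422) (nat_lit 1) (nat_lit 421) (nat_lit 1) (nat_lit 434) (nat_lit 1) (nat_lit 410) (nat_lit 382) (nat_lit 348))))) (XT.nd (nat_lit 312) (nat_lit 2356) (nat_lit 0) (XT.nd (nat_lit 156) (nat_lit 836) (nat_lit 0) (XT.nd (nat_lit 78) (nat_lit 0) (nat_lit 0) (XT.lf (nat_lit 912) (nat_lit 2079836704) (nat_lit 0) (nat_lit 482528674) (nat_lit 836) (nat_lit 482528674) (nat_lit 422) (nat_lit 1) (nat_lit 410) (nat_lit 1) (nat_lit 421) (nat_lit 1) (nat_lit 411) (nat_lit 382) (nat_lit 347)) (XT.lf (nat_lit 76) (nat_lit 860501946) (nat_lit 0) (nat_lit 1297218774) (nat_lit 912) (nat_lit 860501946) (nat_lit 411) (nat_lit 1) (nat_lit 410) (nat_lit 1) (nat_lit 422) (nat_lit 1) (nat_lit 412) (nat_lit 382) (nat_lit 346))) (XT.nd (nat_lit 78) (nat_lit 0) (nat_lit 0) (XT.lf (nat_lit 912) (nat_lit 1360672684) (nat_lit 0) (nat_lit 815617112) (nat_lit 836) (nat_lit 815617112) (nat_lit 411) (nat_lit 1) (nat_lit 399) (nat_lit 1)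 (nat_lit 410) (nat_lit 1) (nat_lit 413) (nat_lit 382) (nat_lit 345)) (XT.lf (nat_lit 76) (nat_lit 499197858) (nat_lit 0) (nat_lit 1967534744) (nat_lit 912) (nat_lit 499197858) (nat_lit 400) (nat_lit 1) (nat_lit 399) (nat_lit 1) (nat_lit 411) (nat_lit 1) (nat_lit 414) (nat_lit 382) (nat_lit 344)))) (XT.nd (nat_lit 156) (nat_lit 1596) (nat_lit 0) (XT.nd (nat_lit 78) (nat_lit 0) (nat_lit 0) (XT.lf (nat_lit 836) (nat_lit 630277911) (nat_lit 0) (nat_lit 1154965816) (nat_lit 760) (nat_lit 1154965816) (nat_lit 400) (nat_lit 1) (nat_lit 389) (nat_lit 1) (nat_lit 399) (nat_lit 1) (nat_lit 415) (nat_lit 382) (nat_lit 343)) (XT.lf (nat_lit 76) (nat_lit 132602038) (nat_lit 0) (nat_lit 2649707037) (nat_lit 836) (nat_lit 132602038) (nat_lit 390) (nat_lit 1) (nat_lit 389) (nat_lit 1) (nat_lit 400) (nat_lit 1) (nat_lit 416) (nat_lit 382) (nat_lit 342))) (XT.nd (nat_lit 78) (nat_lit 760) (nat_lit 0) (XT.lf (nat_lit 76) (nat_lit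 1390526722) (nat_lit 0) (nat_lit 108699176) (nat_lit 836) (nat_lit 1390526722) (nat_lit 379) (nat_lit 1) (nat_lit 378) (nat_lit 1) (nat_lit 389) (nat_lit 1) (nat_lit 417) (nat_lit 382) (nat_lit 341)) (XT.lf (nat_lit 836) (nat_lit 2390744113) (nat_lit 0) (nat_lit 237130772) (nat_lit 760) (nat_lit 237130772) (nat_lit 379) (nat_lit 1) (nat_lit 368) (nat_lit 1) (nat_lit 378) (nat_lit 1) (nat_lit 418) (nat_lit 382) (nat_lit 340)))))) (XT.nd (nat_lit 56082) (nat_lit 0) (nat_lit 11324) (XT.nd (nat_lit 312) (nat_lit 0) (nat_lit 0) (XT.nd (nat_lit 156) (nat_lit 684) (nat_lit 0) (XT.nd (nat_lit 78) (nat_lit 760) (nat_lit 0) (XT.lf (nat_lit 76) (nat_lit 996127581) (nat_lit 0) (nat_lit 848178319) (nat_lit 836) (nat_lit 996127581) (nat_lit 369) (nat_lit 1) (nat_lit 368) (nat_lit 1) (nat_lit 379) (nat_lit 1) (nat_lit 419) (nat_lit 382) (nat_lit 339)) (XT.lf (nat_lit 836) (nat_lit 1595999602) (nat_lit 0) (nat_lit 610117049) (nat_lit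 760) (nat_lit 610117049) (nat_lit 369) (nat_lit 1) (nat_lit 358) (nat_lit 1) (nat_lit 368) (nat_lit 1) (nat_lit 420) (nat_lit 382) (nat_lit 338))) (XT.nd (nat_lit 78) (nat_lit 684) (nat_lit 0) (XT.lf (nat_lit 76) (nat_lit 598472112) (nat_lit 0) (nat_lit 1595356955) (nat_lit 836) (nat_lit 598472112) (nat_lit 359) (nat_lit 1) (nat_lit 358) (nat_lit 1) (nat_lit 369) (nat_lit 1) (nat_lit 421) (nat_lit 382) (nat_lit 337)) (XT.lf (nat_lit 760) (nat_lit 795217691) (nat_lit 0) (nat_lit 986707216) (nat_lit 684) (nat_lit 986707216) (nat_lit 359) (nat_lit 1) (nat_lit 349) (nat_lit 1) (nat_lit 358) (nat_lit 1) (nat_lit 422) (nat_lit 382) (nat_lit 336)))) (XT.nd (nat_lit 55614) (nat_lit 0) (nat_lit 11248) (XT.nd (nat_lit 55536) (nat_lit 0) (nat_lit 11248) (XT.lf (nat_lit 76) (nat_lit 198050903) (nat_lit 0) (nat_lit 2349222097) (nat_lit 760) (nat_lit 198050903) (nat_lit 350) (nat_lit 1) (nat_lit 349) (nat_lit 1) (nat_lit 359)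 (nat_lit 1) (nat_lit 423) (nat_lit 382) (nat_lit 335)) (XT.lf (nat_lit 1900) (nat_lit 715790402) (nat_lit 0) (nat_lit 721776074) (nat_lit 1900) (nat_lit 715790402) (nat_lit 522) (nat_lit 1) (nat_lit 497) (nat_lit 0) (nat_lit 522) (nat_lit 0) (nat_lit 374) (nat_lit 383) (nat_lit 383))) (XT.nd (nat_lit 78) (nat_lit 0) (nat_lit 76) (XT.lf (nat_lit 1900) (nat_lit 2830342869) (nat_lit 76) (nat_lit 717027547) (nat_lit 0) (nat_lit 717027547) (nat_lit 522) (nat_lit 1) (nat_lit 498) (nat_lit 1) (nat_lit 497) (nat_lit 0) (nat_lit 375) (nat_lit 383) (nat_lit 382)) (XT.lf (nat_lit 1900) (nat_lit 1389711821) (nat_lit 0) (nat_lit 1443120721) (nat_lit 1824) (nat_lit 1389711821) (nat_lit 523) (nat_lit 1) (nat_lit 498) (nat_lit 1) (nat_lit 522) (nat_lit 1) (nat_lit 376) (nat_lit 383) (nat_lit 381))))) (XT.nd (nat_lit 312) (nat_lit 0) (nat_lit 152) (XT.nd (nat_lit 156) (nat_lit 0) (nat_lit 76) (XT.nd (nat_lit 78) (nat_lit 0) (nat_lit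 76) (XT.lf (nat_lit 1900) (nat_lit 2720008617) (nat_lit 76) (nat_lit 730658322) (nat_lit 0) (nat_lit 730658322) (nat_lit 523) (nat_lit 1) (nat_lit 499) (nat_lit 1) (nat_lit 498) (nat_lit 1) (nat_lit 377) (nat_lit 383) (nat_lit 380)) (XT.lf (nat_lit 1900) (nat_lit 1321872645) (nat_lit 0) (nat_lit 1496815885) (nat_lit 1824) (nat_lit 1321872645) (nat_lit 524) (nat_lit 1) (nat_lit 499) (nat_lit 1) (nat_lit 523) (nat_lit 1) (nat_lit 378) (nat_lit 383) (nat_lit 379))) (XT.nd (nat_lit 78) (nat_lit 0) (nat_lit 76) (XT.lf (nat_lit 1900) (nat_lit 2559129849) (nat_lit 76) (nat_lit 770636723) (nat_lit 0) (nat_lit 770636723) (nat_lit 524) (nat_lit 1) (nat_lit 500) (nat_lit 1) (nat_lit 499) (nat_lit 1) (nat_lit 379) (nat_lit 383) (nat_lit 378)) (XT.lf (nat_lit 1900) (nat_lit 1229612827) (nat_lit 0) (nat_lit 1601474861) (nat_lit 1824) (nat_lit 1229612827) (nat_lit 525) (nat_lit 1) (nat_lit 500) (nat_lit 1) (nat_lit 524) (nat_lit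 1) (nat_lit 380) (nat_lit 383) (nat_lit 377)))) (XT.nd (nat_lit 156) (nat_lit 0) (nat_lit 76) (XT.nd (nat_lit 78) (nat_lit 0) (nat_lit 76) (XT.lf (nat_lit 1900) (nat_lit 2350744348) (nat_lit 76) (nat_lit 835412642) (nat_lit 0) (nat_lit 835412642) (nat_lit 525) (nat_lit 1) (nat_lit 501) (nat_lit 1) (nat_lit 500) (nat_lit 1) (nat_lit 381) (nat_lit 383) (nat_lit 376)) (XT.lf (nat_lit 1900) (nat_lit 1114411140) (nat_lit 0) (nat_lit 1754078488) (nat_lit 1824) (nat_lit 1114411140) (nat_lit 526) (nat_lit 1) (nat_lit 501) (nat_lit 1) (nat_lit 525) (nat_lit 1) (nat_lit 382) (nat_lit 383) (nat_lit 375))) (XT.nd (nat_lit 78) (nat_lit 0) (nat_lit 76) (XT.lf (nat_lit 1900) (nat_lit 2097750854) (nat_lit 76) (nat_lit 923506496) (nat_lit 0) (nat_lit 923506496) (nat_lit 526) (nat_lit 1) (nat_lit 502) (nat_lit 1) (nat_lit 501) (nat_lit 1) (nat_lit 383) (nat_lit 383) (nat_lit 374)) (XT.lf (nat_lit 1900) (nat_lit 977678532) (nat_lit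 0) (nat_lit 1951745240) (nat_lit 1824) (nat_lit 977678532) (nat_lit 527) (nat_lit 1) (nat_lit 502) (nat_lit 1) (nat_lit 526) (nat_lit 1) (nat_lit 384) (nat_lit 383) (nat_lit 373))))))))
noncomputable def ec11 : XT := (XT.nd (nat_lit 2418) (nat_lit 3648) (nat_lit 0) (XT.nd (nat_lit 1170) (nat_lit 7904) (nat_lit 0) (XT.nd (nat_lit 546) (nat_lit 1520) (nat_lit 0) (XT.nd (nat_lit 234) (nat_lit 0) (nat_lit 152) (XT.nd (nat_lit 78) (nat_lit 0) (nat_lit 76) (XT.lf (nat_lit 1900) (nat_lit 1802914881) (nat_lit 76) (nat_lit 1033506285) (nat_lit 0) (nat_lit 1033506285) (nat_lit 527) (nat_lit 1) (nat_lit 503) (nat_lit 1) (nat_lit 502) (nat_lit 1) (nat_lit 385) (nat_lit 383) (nat_lit 372)) (XT.nd (nat_lit 78) (nat_lit 0) (nat_lit 0) (XT.lf (nat_lit 1900) (nat_lit 820760963) (nat_lit 0) (nat_lit 2191725477) (nat_lit 1824) (nat_lit 820760963) (nat_lit 528) (nat_lit 1) (nat_lit 503) (nat_lit 1) (nat_lit 527) (nat_lit 1) (nat_lit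 386) (nat_lit 383) (nat_lit 371)) (XT.lf (nat_lit 1900) (nat_lit 1468874293) (nat_lit 76) (nat_lit 1164064774) (nat_lit 0) (nat_lit 1164064774) (nat_lit 528) (nat_lit 1) (nat_lit 504) (nat_lit 1) (nat_lit 503) (nat_lit 1) (nat_lit 387) (nat_lit 383) (nat_lit 370)))) (XT.nd (nat_lit 156) (nat_lit 0) (nat_lit 76) (XT.nd (nat_lit 78) (nat_lit 0) (nat_lit 0) (XT.lf (nat_lit 1900) (nat_lit 644942131) (nat_lit 0) (nat_lit 2471395936) (nat_lit 1824) (nat_lit 644942131) (nat_lit 529) (nat_lit 1) (nat_lit 504) (nat_lit 1) (nat_lit 528) (nat_lit 1) (nat_lit 388) (nat_lit 383) (nat_lit 369)) (XT.lf (nat_lit 1900) (nat_lit 1098144658) (nat_lit 76) (nat_lit 1313896777) (nat_lit 0) (nat_lit 1313896777) (nat_lit 529) (nat_lit 1) (nat_lit 505) (nat_lit 1) (nat_lit 504) (nat_lit 1) (nat_lit 389) (nat_lit 383) (nat_lit 368))) (XT.nd (nat_lit 78) (nat_lit 0) (nat_lit 0) (XT.lf (nat_lit 1900) (nat_lit 451446085) (nat_lit 0) (nat_lit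 2788254438) (nat_lit 1824) (nat_lit 451446085) (nat_lit 530) (nat_lit 1) (nat_lit 505) (nat_lit 1) (nat_lit 529) (nat_lit 1) (nat_lit 390) (nat_lit 383) (nat_lit 367)) (XT.lf (nat_lit 1900) (nat_lit 693124385) (nat_lit 76) (nat_lit 1481776563) (nat_lit 0) (nat_lit 1481776563) (nat_lit 530) (nat_lit 1) (nat_lit 506) (nat_lit 1) (nat_lit 505) (nat_lit 1) (nat_lit 391) (nat_lit 383) (nat_lit 366))))) (XT.nd (nat_lit 312) (nat_lit 0) (nat_lit 0) (XT.nd (nat_lit 156) (nat_lit 1824) (nat_lit 0) (XT.nd (nat_lit 78) (nat_lit 0) (nat_lit 0) (XT.lf (nat_lit 1900) (nat_lit 241439733) (nat_lit 0) (nat_lit 3139914809) (nat_lit 1824) (nat_lit 241439733) (nat_lit 531) (nat_lit 1) (nat_lit 506) (nat_lit 1) (nat_lit 530) (nat_lit 1) (nat_lit 392) (nat_lit 383) (nat_lit 365)) (XT.lf (nat_lit 1900) (nat_lit 256099662) (nat_lit 76) (nat_lit 1666535354) (nat_lit 0) (nat_lit 1666535354) (nat_lit 531) (nat_lit 1) (nat_lit 507) (nat_lit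 1) (nat_lit 506) (nat_lit 1) (nat_lit 393) (nat_lit 383) (nat_lit 364))) (XT.nd (nat_lit 78) (nat_lit 1900) (nat_lit 0) (XT.lf (nat_lit 1900) (nat_lit 16035248) (nat_lit 0) (nat_lit 3524102005) (nat_lit 1824) (nat_lit 16035248) (nat_lit 532) (nat_lit 1) (nat_lit 507) (nat_lit 1) (nat_lit 531) (nat_lit 1) (nat_lit 394) (nat_lit 383) (nat_lit 363)) (XT.lf (nat_lit 1976) (nat_lit 1657676445) (nat_lit 0) (nat_lit 207986787) (nat_lit 1900) (nat_lit 1657676445) (nat_lit 508) (nat_lit 1) (nat_lit 482) (nat_lit 1) (nat_lit 507) (nat_lit 1) (nat_lit 395) (nat_lit 383) (nat_lit 362)))) (XT.nd (nat_lit 156) (nat_lit 0) (nat_lit 76) (XT.nd (nat_lit 78) (nat_lit 0) (nat_lit 76) (XT.lf (nat_lit 1976) (nat_lit 3046643894) (nat_lit 76) (nat_lit 222235858) (nat_lit 0) (nat_lit 222235858) (nat_lit 508) (nat_lit 1) (nat_lit 483) (nat_lit 1) (nat_lit 482) (nat_lit 1) (nat_lit 396) (nat_lit 383) (nat_lit 361)) (XT.lf (nat_lit 1976)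 (nat_lit 1381513626) (nat_lit 0) (nat_lit 696100519) (nat_lit 1900) (nat_lit 1381513626) (nat_lit 509) (nat_lit 1) (nat_lit 483) (nat_lit 1) (nat_lit 508) (nat_lit 1) (nat_lit 397) (nat_lit 383) (nat_lit 360))) (XT.nd (nat_lit 78) (nat_lit 0) (nat_lit 76) (XT.lf (nat_lit 1976) (nat_lit 2480392114) (nat_lit 76) (nat_lit 473642618) (nat_lit 0) (nat_lit 473642618) (nat_lit 509) (nat_lit 1) (nat_lit 484) (nat_lit 1) (nat_lit 483) (nat_lit 1) (nat_lit 398) (nat_lit 383) (nat_lit 359)) (XT.lf (nat_lit 76) (nat_lit 1093436201) (nat_lit 0) (nat_lit 1209649113) (nat_lit 1900) (nat_lit 1093436201) (nat_lit 485) (nat_lit 1) (nat_lit 484) (nat_lit 1) (nat_lit 509) (nat_lit 1) (nat_lit 399) (nat_lit 383) (nat_lit 358)))))) (XT.nd (nat_lit 624) (nat_lit 3268) (nat_lit 0) (XT.nd (nat_lit 312) (nat_lit 2736) (nat_lit 0) (XT.nd (nat_lit 156) (nat_lit 912) (nat_lit 0) (XT.nd (nat_lit 78) (nat_lit 0) (nat_lit 0) (XT.lf (nat_lit 1216)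 (nat_lit 1891149762) (nat_lit 0) (nat_lit 737335387) (nat_lit 1140) (nat_lit 737335387) (nat_lit 485) (nat_lit 1) (nat_lit 469) (nat_lit 1) (nat_lit 484) (nat_lit 1) (nat_lit 400) (nat_lit 383) (nat_lit 357)) (XT.lf (nat_lit 76) (nat_lit 794350716) (nat_lit 0) (nat_lit 1746774533) (nat_lit 1216) (nat_lit 794350716) (nat_lit 470) (nat_lit 1) (nat_lit 469) (nat_lit 1) (nat_lit 485) (nat_lit 1) (nat_lit 401) (nat_lit 383) (nat_lit 356))) (XT.nd (nat_lit 78) (nat_lit 0) (nat_lit 0) (XT.lf (nat_lit 988) (nat_lit 1280691526) (nat_lit 0) (nat_lit 1012404764) (nat_lit 912) (nat_lit 1012404764) (nat_lit 470) (nat_lit 1) (nat_lit 457) (nat_lit 1) (nat_lit 469) (nat_lit 1) (nat_lit 402) (nat_lit 383) (nat_lit 355)) (XT.lf (nat_lit 76) (nat_lit 485119814) (nat_lit 0) (nat_lit 2305707955) (nat_lit 988) (nat_lit 485119814) (nat_lit 458) (nat_lit 1) (nat_lit 457) (nat_lit 1) (nat_lit 470) (nat_lit 1) (nat_lit 403) (nat_lit 383)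 (nat_lit 354)))) (XT.nd (nat_lit 156) (nat_lit 1824) (nat_lit 0) (XT.nd (nat_lit 78) (nat_lit 0) (nat_lit 0) (XT.lf (nat_lit 988) (nat_lit 650705892) (nat_lit 0) (nat_lit 1297985134) (nat_lit 912) (nat_lit 1297985134) (nat_lit 458) (nat_lit 1) (nat_lit 445) (nat_lit 1) (nat_lit 457) (nat_lit 1) (nat_lit 404) (nat_lit 383) (nat_lit 353)) (XT.lf (nat_lit 76) (nat_lit 166564106) (nat_lit 0) (nat_lit 2884765977) (nat_lit 988) (nat_lit 166564106) (nat_lit 446) (nat_lit 1) (nat_lit 445) (nat_lit 1) (nat_lit 458) (nat_lit 1) (nat_lit 405) (nat_lit 383) (nat_lit 352))) (XT.nd (nat_lit 78) (nat_lit 988) (nat_lit 0) (XT.lf (nat_lit 912) (nat_lit 2798822) (nat_lit 0) (nat_lit 1593252808) (nat_lit 836) (nat_lit 1593252808) (nat_lit 446) (nat_lit 1) (nat_lit 434) (nat_lit 1) (nat_lit 445) (nat_lit 1) (nat_lit 406) (nat_lit 383) (nat_lit 351)) (XT.lf (nat_lit 988) (nat_lit 2842231504) (nat_lit 0) (nat_lit 159479870) (nat_lit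 912) (nat_lit 159479870) (nat_lit 434) (nat_lit 1) (nat_lit 421) (nat_lit 1) (nat_lit 433) (nat_lit 1) (nat_lit 407) (nat_lit 383) (nat_lit 350))))) (XT.nd (nat_lit 312) (nat_lit 1596) (nat_lit 0) (XT.nd (nat_lit 156) (nat_lit 836) (nat_lit 0) (XT.nd (nat_lit 78) (nat_lit 836) (nat_lit 0) (XT.lf (nat_lit 76) (nat_lit 1240216441) (nat_lit 0) (nat_lit 652826975) (nat_lit 988) (nat_lit 1240216441) (nat_lit 422) (nat_lit 1) (nat_lit 421) (nat_lit 1) (nat_lit 434) (nat_lit 1) (nat_lit 408) (nat_lit 383) (nat_lit 349)) (XT.lf (nat_lit 912) (nat_lit 2121433438) (nat_lit 0) (nat_lit 492179247) (nat_lit 836) (nat_lit 492179247) (nat_lit 422) (nat_lit 1) (nat_lit 410) (nat_lit 1) (nat_lit 421) (nat_lit 1) (nat_lit 409) (nat_lit 383) (nat_lit 348))) (XT.nd (nat_lit 78) (nat_lit 836) (nat_lit 0) (XT.lf (nat_lit 76) (nat_lit 877711985) (nat_lit 0) (nat_lit 1323163150) (nat_lit 912) (nat_lit 877711985) (nat_lit 411) (nat_lit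 1) (nat_lit 410) (nat_lit 1) (nat_lit 422) (nat_lit 1) (nat_lit 410) (nat_lit 383) (nat_lit 347)) (XT.lf (nat_lit 912) (nat_lit 1387886138) (nat_lit 0) (nat_lit 831929455) (nat_lit 836) (nat_lit 831929455) (nat_lit 411) (nat_lit 1) (nat_lit 399) (nat_lit 1) (nat_lit 410) (nat_lit 1) (nat_lit 411) (nat_lit 383) (nat_lit 346)))) (XT.nd (nat_lit 156) (nat_lit 836) (nat_lit 0) (XT.nd (nat_lit 78) (nat_lit 760) (nat_lit 0) (XT.lf (nat_lit 76) (nat_lit 509181815) (nat_lit 0) (nat_lit 2006885439) (nat_lit 912) (nat_lit 509181815) (nat_lit 400) (nat_lit 1) (nat_lit 399) (nat_lit 1) (nat_lit 411) (nat_lit 1) (nat_lit 412) (nat_lit 383) (nat_lit 345)) (XT.lf (nat_lit 836) (nat_lit 642883469) (nat_lit 0) (nat_lit 1178065132) (nat_lit 760) (nat_lit 1178065132) (nat_lit 400) (nat_lit 1) (nat_lit 389) (nat_lit 1) (nat_lit 399) (nat_lit 1) (nat_lit 413) (nat_lit 383) (nat_lit 344))) (XT.nd (nat_lit 78) (nat_lit 836) (nat_lit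 0) (XT.lf (nat_lit 76) (nat_lit 135254079) (nat_lit 0) (nat_lit 2702701178) (nat_lit 836) (nat_lit 135254079) (nat_lit 390) (nat_lit 1) (nat_lit 389) (nat_lit 1) (nat_lit 400) (nat_lit 1) (nat_lit 414) (nat_lit 383) (nat_lit 343)) (XT.lf (nat_lit 76) (nat_lit 1418337256) (nat_lit 0) (nat_lit 110873159) (nat_lit 836) (nat_lit 1418337256) (nat_lit 379) (nat_lit 1) (nat_lit 378) (nat_lit 1) (nat_lit 389) (nat_lit 1) (nat_lit 415) (nat_lit 383) (nat_lit 342))))))) (XT.nd (nat_lit 56472) (nat_lit 0) (nat_lit 11552) (XT.nd (nat_lit 546) (nat_lit 684) (nat_lit 0) (XT.nd (nat_lit 234) (nat_lit 1444) (nat_lit 0) (XT.nd (nat_lit 78) (nat_lit 760) (nat_lit 0) (XT.lf (nat_lit 836) (nat_lit 2438558995) (nat_lit 0) (nat_lit 241873387) (nat_lit 760) (nat_lit 241873387) (nat_lit 379) (nat_lit 1) (nat_lit 368) (nat_lit 1) (nat_lit 378) (nat_lit 1) (nat_lit 416) (nat_lit 383) (nat_lit 341)) (XT.nd (nat_lit 78) (nat_lit 760) (nat_lit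 0) (XT.lf (nat_lit 76) (nat_lit 1016050133) (nat_lit 0) (nat_lit 865141885) (nat_lit 836) (nat_lit 1016050133) (nat_lit 369) (nat_lit 1) (nat_lit 368) (nat_lit 1) (nat_lit 379) (nat_lit 1) (nat_lit 417) (nat_lit 383) (nat_lit 340)) (XT.lf (nat_lit 836) (nat_lit 1627919594) (nat_lit 0) (nat_lit 622319390) (nat_lit 760) (nat_lit 622319390) (nat_lit 369) (nat_lit 1) (nat_lit 358) (nat_lit 1) (nat_lit 368) (nat_lit 1) (nat_lit 418) (nat_lit 383) (nat_lit 339)))) (XT.nd (nat_lit 156) (nat_lit 760) (nat_lit 0) (XT.nd (nat_lit 78) (nat_lit 684) (nat_lit 0) (XT.lf (nat_lit 76) (nat_lit 610441554) (nat_lit 0) (nat_lit 1627264095) (nat_lit 836) (nat_lit 610441554) (nat_lit 359) (nat_lit 1) (nat_lit 358) (nat_lit 1) (nat_lit 369) (nat_lit 1) (nat_lit 419) (nat_lit 383) (nat_lit 338)) (XT.lf (nat_lit 760) (nat_lit 811122045) (nat_lit 0) (nat_lit 1006441360) (nat_lit 684) (nat_lit 1006441360) (nat_lit 359) (nat_lit 1) (nat_lit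 349) (nat_lit 1) (nat_lit 358) (nat_lit 1) (nat_lit 420) (nat_lit 383) (nat_lit 337))) (XT.nd (nat_lit 78) (nat_lit 760) (nat_lit 0) (XT.lf (nat_lit 76) (nat_lit 202011921) (nat_lit 0) (nat_lit 2396206539) (nat_lit 760) (nat_lit 202011921) (nat_lit 350) (nat_lit 1) (nat_lit 349) (nat_lit 1) (nat_lit 359) (nat_lit 1) (nat_lit 421) (nat_lit 383) (nat_lit 336)) (XT.lf (nat_lit 76) (nat_lit 1382948738) (nat_lit 0) (nat_lit 10714171) (nat_lit 760) (nat_lit 1382948738) (nat_lit 340) (nat_lit 1) (nat_lit 339) (nat_lit 1) (nat_lit 349) (nat_lit 1) (nat_lit 422) (nat_lit 383) (nat_lit 335))))) (XT.nd (nat_lit 55614) (nat_lit 0) (nat_lit 12768) (XT.nd (nat_lit 55458) (nat_lit 0) (nat_lit 12692) (XT.nd (nat_lit 55380) (nat_lit 0) (nat_lit 12692) (XT.lf (nat_lit 760) (nat_lit 2338568185) (nat_lit 0) (nat_lit 207391620) (nat_lit 684) (nat_lit 207391620) (nat_lit 340) (nat_lit 1) (nat_lit 330) (nat_lit 1) (nat_lit 339) (nat_lit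 1) (nat_lit 423) (nat_lit 383) (nat_lit 334)) (XT.lf (nat_lit 1900) (nat_lit 730106210) (nat_lit 0) (nat_lit 736211596) (nat_lit 1900) (nat_lit 730106210) (nat_lit 522) (nat_lit 1) (nat_lit 497) (nat_lit 0) (nat_lit 522) (nat_lit 0) (nat_lit 372) (nat_lit 384) (nat_lit 384))) (XT.nd (nat_lit 78) (nat_lit 0) (nat_lit 76) (XT.lf (nat_lit 1900) (nat_lit 2886949726) (nat_lit 76) (nat_lit 731368098) (nat_lit 0) (nat_lit 731368098) (nat_lit 522) (nat_lit 1) (nat_lit 498) (nat_lit 1) (nat_lit 497) (nat_lit 0) (nat_lit 373) (nat_lit 384) (nat_lit 383)) (XT.lf (nat_lit 1900) (nat_lit 1417506057) (nat_lit 0) (nat_lit 1471983136) (nat_lit 1824) (nat_lit 1417506057) (nat_lit 523) (nat_lit 1) (nat_lit 498) (nat_lit 1) (nat_lit 522) (nat_lit 1) (nat_lit 374) (nat_lit 384) (nat_lit 382)))) (XT.nd (nat_lit 156) (nat_lit 0) (nat_lit 76) (XT.nd (nat_lit 78) (nat_lit 0) (nat_lit 76) (XT.lf (nat_lit 1900) (nat_lit 2774408789) (nat_lit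 76) (nat_lit 745271488) (nat_lit 0) (nat_lit 745271488) (nat_lit 523) (nat_lit 1) (nat_lit 499) (nat_lit 1) (nat_lit 498) (nat_lit 1) (nat_lit 375) (nat_lit 384) (nat_lit 381)) (XT.lf (nat_lit 1900) (nat_lit 1348310098) (nat_lit 0) (nat_lit 1526752203) (nat_lit 1824) (nat_lit 1348310098) (nat_lit 524) (nat_lit 1) (nat_lit 499) (nat_lit 1) (nat_lit 523) (nat_lit 1) (nat_lit 376) (nat_lit 384) (nat_lit 380))) (XT.nd (nat_lit 78) (nat_lit 0) (nat_lit 76) (XT.lf (nat_lit 1900) (nat_lit 2610312446) (nat_lit 76) (nat_lit 786049458) (nat_lit 0) (nat_lit 786049458) (nat_lit 524) (nat_lit 1) (nat_lit 500) (nat_lit 1) (nat_lit 499) (nat_lit 1) (nat_lit 377) (nat_lit 384) (nat_lit 379)) (XT.lf (nat_lit 1900) (nat_lit 1254205084) (nat_lit 0) (nat_lit 1633504358) (nat_lit 1824) (nat_lit 1254205084) (nat_lit 525) (nat_lit 1) (nat_lit 500) (nat_lit 1) (nat_lit 524) (nat_lit 1) (nat_lit 378) (nat_lit 384) (nat_lit 378)))))) (XT.nd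 (nat_lit 624) (nat_lit 1368) (nat_lit 0) (XT.nd (nat_lit 312) (nat_lit 0) (nat_lit 152) (XT.nd (nat_lit 156) (nat_lit 0) (nat_lit 76) (XT.nd (nat_lit 78) (nat_lit 0) (nat_lit 76) (XT.lf (nat_lit 1900) (nat_lit 2397759235) (nat_lit 76) (nat_lit 852120895) (nat_lit 0) (nat_lit 852120895) (nat_lit 525) (nat_lit 1) (nat_lit 501) (nat_lit 1) (nat_lit 500) (nat_lit 1) (nat_lit 379) (nat_lit 384) (nat_lit 377)) (XT.lf (nat_lit 1900) (nat_lit 1136699363) (nat_lit 0) (nat_lit 1789160058) (nat_lit 1824) (nat_lit 1136699363) (nat_lit 526) (nat_lit 1) (nat_lit 501) (nat_lit 1) (nat_lit 525) (nat_lit 1) (nat_lit 380) (nat_lit 384) (nat_lit 376))) (XT.nd (nat_lit 78) (nat_lit 0) (nat_lit 76) (XT.lf (nat_lit 1900) (nat_lit 2139705871) (nat_lit 76) (nat_lit 941976625) (nat_lit 0) (nat_lit 941976625) (nat_lit 526) (nat_lit 1) (nat_lit 502) (nat_lit 1) (nat_lit 501) (nat_lit 1) (nat_lit 381) (nat_lit 384) (nat_lit 375)) (XT.lf (nat_lit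 1900) (nat_lit 997232103) (nat_lit 0) (nat_lit 1990780144) (nat_lit 1824) (nat_lit 997232103) (nat_lit 527) (nat_lit 1) (nat_lit 502) (nat_lit 1) (nat_lit 526) (nat_lit 1) (nat_lit 382) (nat_lit 384) (nat_lit 374)))) (XT.nd (nat_lit 156) (nat_lit 0) (nat_lit 76) (XT.nd (nat_lit 78) (nat_lit 0) (nat_lit 76) (XT.lf (nat_lit 1900) (nat_lit 1838973179) (nat_lit 76) (nat_lit 1054176411) (nat_lit 0) (nat_lit 1054176411) (nat_lit 527) (nat_lit 1) (nat_lit 503) (nat_lit 1) (nat_lit 502) (nat_lit 1) (nat_lit 383) (nat_lit 384) (nat_lit 373)) (XT.lf (nat_lit 1900) (nat_lit 837176182) (nat_lit 0) (nat_lit 2235559986) (nat_lit 1824) (nat_lit 837176182) (nat_lit 528) (nat_lit 1) (nat_lit 503) (nat_lit 1) (nat_lit 527) (nat_lit 1) (nat_lit 384) (nat_lit 384) (nat_lit 372))) (XT.nd (nat_lit 78) (nat_lit 0) (nat_lit 76) (XT.lf (nat_lit 1900) (nat_lit 1498251779) (nat_lit 76) (nat_lit 1187346069) (nat_lit 0) (nat_lit 1187346069)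 (nat_lit 528) (nat_lit 1) (nat_lit 504) (nat_lit 1) (nat_lit 503) (nat_lit 1) (nat_lit 385) (nat_lit 384) (nat_lit 371)) (XT.lf (nat_lit 1900) (nat_lit 657840974) (nat_lit 0) (nat_lit 2520823855) (nat_lit 1824) (nat_lit 657840974) (nat_lit 529) (nat_lit 1) (nat_lit 504) (nat_lit 1) (nat_lit 528) (nat_lit 1) (nat_lit 386) (nat_lit 384) (nat_lit 370))))) (XT.nd (nat_lit 312) (nat_lit 1672) (nat_lit 0) (XT.nd (nat_lit 156) (nat_lit 0) (nat_lit 76) (XT.nd (nat_lit 78) (nat_lit 0) (nat_lit 76) (XT.lf (nat_lit 1900) (nat_lit 1120107551) (nat_lit 76) (nat_lit 1340174713) (nat_lit 0) (nat_lit 1340174713) (nat_lit 529) (nat_lit 1) (nat_lit 505) (nat_lit 1) (nat_lit 504) (nat_lit 1) (nat_lit 387) (nat_lit 384) (nat_lit 369)) (XT.lf (nat_lit 1900) (nat_lit 460475007) (nat_lit 0) (nat_lit 2844019527) (nat_lit 1824) (nat_lit 460475007) (nat_lit 530) (nat_lit 1) (nat_lit 505) (nat_lit 1) (nat_lit 529) (nat_lit 1) (nat_lit 388)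 (nat_lit 384) (nat_lit 368))) (XT.nd (nat_lit 78) (nat_lit 0) (nat_lit 76) (XT.lf (nat_lit 1900) (nat_lit 706986873) (nat_lit 76) (nat_lit 1511412094) (nat_lit 0) (nat_lit 1511412094) (nat_lit 530) (nat_lit 1) (nat_lit 506) (nat_lit 1) (nat_lit 505) (nat_lit 1) (nat_lit 389) (nat_lit 384) (nat_lit 367)) (XT.lf (nat_lit 1900) (nat_lit 246268527) (nat_lit 0) (nat_lit 3202713105) (nat_lit 1824) (nat_lit 246268527) (nat_lit 531) (nat_lit 1) (nat_lit 506) (nat_lit 1) (nat_lit 530) (nat_lit 1) (nat_lit 390) (nat_lit 384) (nat_lit 366)))) (XT.nd (nat_lit 156) (nat_lit 1824) (nat_lit 0) (XT.nd (nat_lit 78) (nat_lit 0) (nat_lit 76) (XT.lf (nat_lit 1900) (nat_lit 261221655) (nat_lit 76) (nat_lit 1699866061) (nat_lit 0) (nat_lit 1699866061) (nat_lit 531) (nat_lit 1) (nat_lit 507) (nat_lit 1) (nat_lit 506) (nat_lit 1) (nat_lit 391) (nat_lit 384) (nat_lit 365)) (XT.lf (nat_lit 1900) (nat_lit 16355953) (nat_lit 0) (nat_lit 3594584045)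 (nat_lit 1824) (nat_lit 16355953) (nat_lit 532) (nat_lit 1) (nat_lit 507) (nat_lit 1) (nat_lit 531) (nat_lit 1) (nat_lit 392) (nat_lit 384) (nat_lit 364))) (XT.nd (nat_lit 78) (nat_lit 0) (nat_lit 0) (XT.lf (nat_lit 1976) (nat_lit 1690829973) (nat_lit 0) (nat_lit 212146523) (nat_lit 1900) (nat_lit 1690829973) (nat_lit 508) (nat_lit 1) (nat_lit 482) (nat_lit 1) (nat_lit 507) (nat_lit 1) (nat_lit 393) (nat_lit 384) (nat_lit 363)) (XT.lf (nat_lit 1976) (nat_lit 3107576772) (nat_lit 76) (nat_lit 226680575) (nat_lit 0) (nat_lit 226680575) (nat_lit 508) (nat_lit 1) (nat_lit 483) (nat_lit 1) (nat_lit 482) (nat_lit 1) (nat_lit 394) (nat_lit 384) (nat_lit 362))))))))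
noncomputable def ec12 : XT := (XT.nd (nat_lit 57564) (nat_lit 0) (nat_lit 7904) (XT.nd (nat_lit 1170) (nat_lit 5244) (nat_lit 0) (XT.nd (nat_lit 546) (nat_lit 4408) (nat_lit 0) (XT.nd (nat_lit 234) (nat_lit 1976) (nat_lit 0) (XT.nd (nat_lit 78) (nat_lit 0) (nat_lit 0) (XT.lf (nat_lit 1976) (nat_lit 1409143899) (nat_lit 0) (nat_lit 710022529) (nat_lit 1900) (nat_lit 1409143899) (nat_lit 509) (nat_lit 1) (nat_lit 483) (nat_lit 1) (nat_lit 508) (nat_lit 1) (nat_lit 395) (nat_lit 384) (nat_lit 361)) (XT.nd (nat_lit 78) (nat_lit 0) (nat_lit 76) (XT.lf (nat_lit 1976) (nat_lit 2529999956) (nat_lit 76) (nat_lit 483115470) (nat_lit 0) (nat_lit 483115470) (nat_lit 509) (nat_lit 1) (nat_lit 484) (nat_lit 1) (nat_lit 483) (nat_lit 1) (nat_lit 396) (nat_lit 384) (nat_lit 360)) (XT.lf (nat_lit 76) (nat_lit 1115304925) (nat_lit 0) (nat_lit 1233842095) (nat_lit 1900) (nat_lit 1115304925) (nat_lit 485) (nat_lit 1) (nat_lit 484)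 (nat_lit 1) (nat_lit 509) (nat_lit 1) (nat_lit 397) (nat_lit 384) (nat_lit 359)))) (XT.nd (nat_lit 156) (nat_lit 912) (nat_lit 0) (XT.nd (nat_lit 78) (nat_lit 0) (nat_lit 0) (XT.lf (nat_lit 1216) (nat_lit 1928972757) (nat_lit 0) (nat_lit 752082095) (nat_lit 1140) (nat_lit 752082095) (nat_lit 485) (nat_lit 1) (nat_lit 469) (nat_lit 1) (nat_lit 484) (nat_lit 1) (nat_lit 398) (nat_lit 384) (nat_lit 358)) (XT.lf (nat_lit 76) (nat_lit 810237731) (nat_lit 0) (nat_lit 1781710023) (nat_lit 1216) (nat_lit 810237731) (nat_lit 470) (nat_lit 1) (nat_lit 469) (nat_lit 1) (nat_lit 485) (nat_lit 1) (nat_lit 399) (nat_lit 384) (nat_lit 357))) (XT.nd (nat_lit 78) (nat_lit 0) (nat_lit 0) (XT.lf (nat_lit 988) (nat_lit 1306305357) (nat_lit 0) (nat_lit 1032652859) (nat_lit 912) (nat_lit 1032652859) (nat_lit 470) (nat_lit 1) (nat_lit 457) (nat_lit 1) (nat_lit 469) (nat_lit 1) (nat_lit 400) (nat_lit 384) (nat_lit 356)) (XT.lf (nat_lit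 76) (nat_lit 494822210) (nat_lit 0) (nat_lit 2351822114) (nat_lit 988) (nat_lit 494822210) (nat_lit 458) (nat_lit 1) (nat_lit 457) (nat_lit 1) (nat_lit 470) (nat_lit 1) (nat_lit 401) (nat_lit 384) (nat_lit 355))))) (XT.nd (nat_lit 312) (nat_lit 1672) (nat_lit 0) (XT.nd (nat_lit 156) (nat_lit 1824) (nat_lit 0) (XT.nd (nat_lit 78) (nat_lit 0) (nat_lit 0) (XT.lf (nat_lit 988) (nat_lit 663720010) (nat_lit 0) (nat_lit 1323944836) (nat_lit 912) (nat_lit 1323944836) (nat_lit 458) (nat_lit 1) (nat_lit 445) (nat_lit 1) (nat_lit 457) (nat_lit 1) (nat_lit 402) (nat_lit 384) (nat_lit 354)) (XT.lf (nat_lit 76) (nat_lit 169895388) (nat_lit 0) (nat_lit 2942461296) (nat_lit 988) (nat_lit 169895388) (nat_lit 446) (nat_lit 1) (nat_lit 445) (nat_lit 1) (nat_lit 458) (nat_lit 1) (nat_lit 403) (nat_lit 384) (nat_lit 353))) (XT.nd (nat_lit 78) (nat_lit 988) (nat_lit 0) (XT.lf (nat_lit 912) (nat_lit 2854798) (nat_lit 0) (nat_lit 1625117864)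 (nat_lit 836) (nat_lit 1625117864) (nat_lit 446) (nat_lit 1) (nat_lit 434) (nat_lit 1) (nat_lit 445) (nat_lit 1) (nat_lit 404) (nat_lit 384) (nat_lit 352)) (XT.lf (nat_lit 988) (nat_lit 2899076134) (nat_lit 0) (nat_lit 162669467) (nat_lit 912) (nat_lit 162669467) (nat_lit 434) (nat_lit 1) (nat_lit 421) (nat_lit 1) (nat_lit 433) (nat_lit 1) (nat_lit 405) (nat_lit 384) (nat_lit 351)))) (XT.nd (nat_lit 156) (nat_lit 836) (nat_lit 0) (XT.nd (nat_lit 78) (nat_lit 836) (nat_lit 0) (XT.lf (nat_lit 76) (nat_lit 1265020770) (nat_lit 0) (nat_lit 665883515) (nat_lit 988) (nat_lit 1265020770) (nat_lit 422) (nat_lit 1) (nat_lit 421) (nat_lit 1) (nat_lit 434) (nat_lit 1) (nat_lit 406) (nat_lit 384) (nat_lit 350)) (XT.lf (nat_lit 912) (nat_lit 2163862107) (nat_lit 0) (nat_lit 502022832) (nat_lit 836) (nat_lit 502022832) (nat_lit 422) (nat_lit 1) (nat_lit 410) (nat_lit 1) (nat_lit 421) (nat_lit 1) (nat_lit 407) (nat_lit 384) (nat_lit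 349))) (XT.nd (nat_lit 78) (nat_lit 836) (nat_lit 0) (XT.lf (nat_lit 76) (nat_lit 895266225) (nat_lit 0) (nat_lit 1349626413) (nat_lit 912) (nat_lit 895266225) (nat_lit 411) (nat_lit 1) (nat_lit 410) (nat_lit 1) (nat_lit 422) (nat_lit 1) (nat_lit 408) (nat_lit 384) (nat_lit 348)) (XT.lf (nat_lit 912) (nat_lit 1415643861) (nat_lit 0) (nat_lit 848568044) (nat_lit 836) (nat_lit 848568044) (nat_lit 411) (nat_lit 1) (nat_lit 399) (nat_lit 1) (nat_lit 410) (nat_lit 1) (nat_lit 409) (nat_lit 384) (nat_lit 347)))))) (XT.nd (nat_lit 546) (nat_lit 2128) (nat_lit 0) (XT.nd (nat_lit 234) (nat_lit 2356) (nat_lit 0) (XT.nd (nat_lit 78) (nat_lit 760) (nat_lit 0) (XT.lf (nat_lit 76) (nat_lit 519365452) (nat_lit 0) (nat_lit 2047023147) (nat_lit 912) (nat_lit 519365452) (nat_lit 400) (nat_lit 1) (nat_lit 399) (nat_lit 1) (nat_lit 411) (nat_lit 1) (nat_lit 410) (nat_lit 384) (nat_lit 346)) (XT.nd (nat_lit 78) (nat_lit 0) (nat_lit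 0) (XT.lf (nat_lit 836) (nat_lit 655741139) (nat_lit 0) (nat_lit 1201626435) (nat_lit 760) (nat_lit 1201626435) (nat_lit 400) (nat_lit 1) (nat_lit 389) (nat_lit 1) (nat_lit 399) (nat_lit 1) (nat_lit 411) (nat_lit 384) (nat_lit 345)) (XT.lf (nat_lit 76) (nat_lit 137959160) (nat_lit 0) (nat_lit 2756755202) (nat_lit 836) (nat_lit 137959160) (nat_lit 390) (nat_lit 1) (nat_lit 389) (nat_lit 1) (nat_lit 400) (nat_lit 1) (nat_lit 412) (nat_lit 384) (nat_lit 344)))) (XT.nd (nat_lit 156) (nat_lit 760) (nat_lit 0) (XT.nd (nat_lit 78) (nat_lit 760) (nat_lit 0) (XT.lf (nat_lit 76) (nat_lit 1446704001) (nat_lit 0) (nat_lit 113090623) (nat_lit 836) (nat_lit 1446704001) (nat_lit 379) (nat_lit 1) (nat_lit 378) (nat_lit 1) (nat_lit 389) (nat_lit 1) (nat_lit 413) (nat_lit 384) (nat_lit 343)) (XT.lf (nat_lit 836) (nat_lit 2487330175) (nat_lit 0) (nat_lit 246710855) (nat_lit 760) (nat_lit 246710855) (nat_lit 379) (nat_lit 1) (nat_lit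 368) (nat_lit 1) (nat_lit 378) (nat_lit 1) (nat_lit 414) (nat_lit 384) (nat_lit 342))) (XT.nd (nat_lit 78) (nat_lit 760) (nat_lit 0) (XT.lf (nat_lit 76) (nat_lit 1036371136) (nat_lit 0) (nat_lit 882444723) (nat_lit 836) (nat_lit 1036371136) (nat_lit 369) (nat_lit 1) (nat_lit 368) (nat_lit 1) (nat_lit 379) (nat_lit 1) (nat_lit 415) (nat_lit 384) (nat_lit 341)) (XT.lf (nat_lit 836) (nat_lit 1660477986) (nat_lit 0) (nat_lit 634765778) (nat_lit 760) (nat_lit 634765778) (nat_lit 369) (nat_lit 1) (nat_lit 358) (nat_lit 1) (nat_lit 368) (nat_lit 1) (nat_lit 416) (nat_lit 384) (nat_lit 340))))) (XT.nd (nat_lit 312) (nat_lit 684) (nat_lit 0) (XT.nd (nat_lit 156) (nat_lit 760) (nat_lit 0) (XT.nd (nat_lit 78) (nat_lit 684) (nat_lit 0) (XT.lf (nat_lit 76) (nat_lit 622650385) (nat_lit 0) (nat_lit 1659809376) (nat_lit 836) (nat_lit 622650385) (nat_lit 359) (nat_lit 1) (nat_lit 358) (nat_lit 1) (nat_lit 369) (nat_lit 1) (nat_lit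 417) (nat_lit 384) (nat_lit 339)) (XT.lf (nat_lit 760) (nat_lit 827344486) (nat_lit 0) (nat_lit 1026570187) (nat_lit 684) (nat_lit 1026570187) (nat_lit 359) (nat_lit 1) (nat_lit 349) (nat_lit 1) (nat_lit 358) (nat_lit 1) (nat_lit 418) (nat_lit 384) (nat_lit 338))) (XT.nd (nat_lit 78) (nat_lit 760) (nat_lit 0) (XT.lf (nat_lit 76) (nat_lit 206052160) (nat_lit 0) (nat_lit 2444130670) (nat_lit 760) (nat_lit 206052160) (nat_lit 350) (nat_lit 1) (nat_lit 349) (nat_lit 1) (nat_lit 359) (nat_lit 1) (nat_lit 419) (nat_lit 384) (nat_lit 337)) (XT.lf (nat_lit 76) (nat_lit 1410607712) (nat_lit 0) (nat_lit 10928454) (nat_lit 760) (nat_lit 1410607712) (nat_lit 340) (nat_lit 1) (nat_lit 339) (nat_lit 1) (nat_lit 349) (nat_lit 1) (nat_lit 420) (nat_lit 384) (nat_lit 336)))) (XT.nd (nat_lit 55380) (nat_lit 0) (nat_lit 12692) (XT.nd (nat_lit 78) (nat_lit 0) (nat_lit 0) (XT.lf (nat_lit 760) (nat_lit 2385339548) (nat_lit 0) (nat_lit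 211539452) (nat_lit 684) (nat_lit 211539452) (nat_lit 340) (nat_lit 1) (nat_lit 330) (nat_lit 1) (nat_lit 339) (nat_lit 1) (nat_lit 421) (nat_lit 384) (nat_lit 335)) (XT.lf (nat_lit 76) (nat_lit 971106653) (nat_lit 0) (nat_lit 842635182) (nat_lit 760) (nat_lit 971106653) (nat_lit 331) (nat_lit 1) (nat_lit 330) (nat_lit 1) (nat_lit 340) (nat_lit 1) (nat_lit 422) (nat_lit 384) (nat_lit 334))) (XT.nd (nat_lit 78) (nat_lit 0) (nat_lit 0) (XT.lf (nat_lit 1900) (nat_lit 744708334) (nat_lit 0) (nat_lit 750935827) (nat_lit 1900) (nat_lit 744708334) (nat_lit 522) (nat_lit 1) (nat_lit 497) (nat_lit 0) (nat_lit 522) (nat_lit 0) (nat_lit 370) (nat_lit 385) (nat_lit 385)) (XT.lf (nat_lit 1900) (nat_lit 2944688721) (nat_lit 76) (nat_lit 745995460) (nat_lit 0) (nat_lit 745995460) (nat_lit 522) (nat_lit 1) (nat_lit 498) (nat_lit 1) (nat_lit 497) (nat_lit 0) (nat_lit 371) (nat_lit 385) (nat_lit 384))))))) (XT.nd (nat_lit 1170)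 (nat_lit 4864) (nat_lit 0) (XT.nd (nat_lit 546) (nat_lit 0) (nat_lit 228) (XT.nd (nat_lit 234) (nat_lit 0) (nat_lit 76) (XT.nd (nat_lit 78) (nat_lit 0) (nat_lit 0) (XT.lf (nat_lit 1900) (nat_lit 1445856179) (nat_lit 0) (nat_lit 1501422798) (nat_lit 1824) (nat_lit 1445856179) (nat_lit 523) (nat_lit 1) (nat_lit 498) (nat_lit 1) (nat_lit 522) (nat_lit 1) (nat_lit 372) (nat_lit 385) (nat_lit 383)) (XT.nd (nat_lit 78) (nat_lit 0) (nat_lit 76) (XT.lf (nat_lit 1900) (nat_lit 2829896965) (nat_lit 76) (nat_lit 760176918) (nat_lit 0) (nat_lit 760176918) (nat_lit 523) (nat_lit 1) (nat_lit 499) (nat_lit 1) (nat_lit 498) (nat_lit 1) (nat_lit 373) (nat_lit 385) (nat_lit 382)) (XT.lf (nat_lit 1900) (nat_lit 1375276300) (nat_lit 0) (nat_lit 1557287247) (nat_lit 1824) (nat_lit 1375276300) (nat_lit 524) (nat_lit 1) (nat_lit 499) (nat_lit 1) (nat_lit 523) (nat_lit 1) (nat_lit 374) (nat_lit 385) (nat_lit 381)))) (XT.nd (nat_lit 156)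 (nat_lit 0) (nat_lit 76) (XT.nd (nat_lit 78) (nat_lit 0) (nat_lit 76) (XT.lf (nat_lit 1900) (nat_lit 2662518695) (nat_lit 76) (nat_lit 801770447) (nat_lit 0) (nat_lit 801770447) (nat_lit 524) (nat_lit 1) (nat_lit 500) (nat_lit 1) (nat_lit 499) (nat_lit 1) (nat_lit 375) (nat_lit 385) (nat_lit 380)) (XT.lf (nat_lit 1900) (nat_lit 1279289185) (nat_lit 0) (nat_lit 1666174445) (nat_lit 1824) (nat_lit 1279289185) (nat_lit 525) (nat_lit 1) (nat_lit 500) (nat_lit 1) (nat_lit 524) (nat_lit 1) (nat_lit 376) (nat_lit 385) (nat_lit 379))) (XT.nd (nat_lit 78) (nat_lit 0) (nat_lit 76) (XT.lf (nat_lit 1900) (nat_lit 2445714419) (nat_lit 76) (nat_lit 869163313) (nat_lit 0) (nat_lit 869163313) (nat_lit 525) (nat_lit 1) (nat_lit 501) (nat_lit 1) (nat_lit 500) (nat_lit 1) (nat_lit 377) (nat_lit 385) (nat_lit 378)) (XT.lf (nat_lit 1900) (nat_lit 1159433351) (nat_lit 0) (nat_lit 1824943259) (nat_lit 1824) (nat_lit 1159433351) (nat_lit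 526) (nat_lit 1) (nat_lit 501) (nat_lit 1) (nat_lit 525) (nat_lit 1) (nat_lit 378) (nat_lit 385) (nat_lit 377))))) (XT.nd (nat_lit 312) (nat_lit 0) (nat_lit 152) (XT.nd (nat_lit 156) (nat_lit 0) (nat_lit 76) (XT.nd (nat_lit 78) (nat_lit 0) (nat_lit 76) (XT.lf (nat_lit 1900) (nat_lit 2182499988) (nat_lit 76) (nat_lit 960816158) (nat_lit 0) (nat_lit 960816158) (nat_lit 526) (nat_lit 1) (nat_lit 502) (nat_lit 1) (nat_lit 501) (nat_lit 1) (nat_lit 379) (nat_lit 385) (nat_lit 376)) (XT.lf (nat_lit 1900) (nat_lit 1017176745) (nat_lit 0) (nat_lit 2030595747) (nat_lit 1824) (nat_lit 1017176745) (nat_lit 527) (nat_lit 1) (nat_lit 502) (nat_lit 1) (nat_lit 526) (nat_lit 1) (nat_lit 380) (nat_lit 385) (nat_lit 375))) (XT.nd (nat_lit 78) (nat_lit 0) (nat_lit 76) (XT.lf (nat_lit 1900) (nat_lit 1875752642) (nat_lit 76) (nat_lit 1075259939) (nat_lit 0) (nat_lit 1075259939) (nat_lit 527) (nat_lit 1) (nat_lit 503) (nat_lit 1) (nat_lit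 502) (nat_lit 1) (nat_lit 381) (nat_lit 385) (nat_lit 374)) (XT.lf (nat_lit 1900) (nat_lit 853919706) (nat_lit 0) (nat_lit 2280271186) (nat_lit 1824) (nat_lit 853919706) (nat_lit 528) (nat_lit 1) (nat_lit 503) (nat_lit 1) (nat_lit 527) (nat_lit 1) (nat_lit 382) (nat_lit 385) (nat_lit 373)))) (XT.nd (nat_lit 156) (nat_lit 0) (nat_lit 76) (XT.nd (nat_lit 78) (nat_lit 0) (nat_lit 76) (XT.lf (nat_lit 1900) (nat_lit 1528216815) (nat_lit 76) (nat_lit 1211092991) (nat_lit 0) (nat_lit 1211092991) (nat_lit 528) (nat_lit 1) (nat_lit 504) (nat_lit 1) (nat_lit 503) (nat_lit 1) (nat_lit 383) (nat_lit 385) (nat_lit 372)) (XT.lf (nat_lit 1900) (nat_lit 670997793) (nat_lit 0) (nat_lit 2571240332) (nat_lit 1824) (nat_lit 670997793) (nat_lit 529) (nat_lit 1) (nat_lit 504) (nat_lit 1) (nat_lit 528) (nat_lit 1) (nat_lit 384) (nat_lit 385) (nat_lit 371))) (XT.nd (nat_lit 78) (nat_lit 0) (nat_lit 76) (XT.lf (nat_lit 1900) (nat_lit 1142509702)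 (nat_lit 76) (nat_lit 1366978207) (nat_lit 0) (nat_lit 1366978207) (nat_lit 529) (nat_lit 1) (nat_lit 505) (nat_lit 1) (nat_lit 504) (nat_lit 1) (nat_lit 385) (nat_lit 385) (nat_lit 370)) (XT.lf (nat_lit 1900) (nat_lit 469684507) (nat_lit 0) (nat_lit 2900899918) (nat_lit 1824) (nat_lit 469684507) (nat_lit 530) (nat_lit 1) (nat_lit 505) (nat_lit 1) (nat_lit 529) (nat_lit 1) (nat_lit 386) (nat_lit 385) (nat_lit 369)))))) (XT.nd (nat_lit 624) (nat_lit 3648) (nat_lit 0) (XT.nd (nat_lit 312) (nat_lit 1748) (nat_lit 0) (XT.nd (nat_lit 156) (nat_lit 0) (nat_lit 76) (XT.nd (nat_lit 78) (nat_lit 0) (nat_lit 76) (XT.lf (nat_lit 1900) (nat_lit 721126611) (nat_lit 76) (nat_lit 1541640336) (nat_lit 0) (nat_lit 1541640336) (nat_lit 530) (nat_lit 1) (nat_lit 506) (nat_lit 1) (nat_lit 505) (nat_lit 1) (nat_lit 387) (nat_lit 385) (nat_lit 368)) (XT.lf (nat_lit 1900) (nat_lit 251193898) (nat_lit 0) (nat_lit 3266767367) (nat_lit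 1824) (nat_lit 251193898) (nat_lit 531) (nat_lit 1) (nat_lit 506) (nat_lit 1) (nat_lit 530) (nat_lit 1) (nat_lit 388) (nat_lit 385) (nat_lit 367))) (XT.nd (nat_lit 78) (nat_lit 0) (nat_lit 76) (XT.lf (nat_lit 1900) (nat_lit 266446088) (nat_lit 76) (nat_lit 1733863382) (nat_lit 0) (nat_lit 1733863382) (nat_lit 531) (nat_lit 1) (nat_lit 507) (nat_lit 1) (nat_lit 506) (nat_lit 1) (nat_lit 389) (nat_lit 385) (nat_lit 366)) (XT.lf (nat_lit 1900) (nat_lit 16683072) (nat_lit 0) (nat_lit 3666475726) (nat_lit 1824) (nat_lit 16683072) (nat_lit 532) (nat_lit 1) (nat_lit 507) (nat_lit 1) (nat_lit 531) (nat_lit 1) (nat_lit 390) (nat_lit 385) (nat_lit 365)))) (XT.nd (nat_lit 156) (nat_lit 0) (nat_lit 76) (XT.nd (nat_lit 78) (nat_lit 0) (nat_lit 0) (XT.lf (nat_lit 1976) (nat_lit 1724646573) (nat_lit 0) (nat_lit 216389453) (nat_lit 1900) (nat_lit 1724646573) (nat_lit 508) (nat_lit 1) (nat_lit 482) (nat_lit 1) (nat_lit 507) (nat_lit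 1) (nat_lit 391) (nat_lit 385) (nat_lit 364)) (XT.lf (nat_lit 1976) (nat_lit 3169728308) (nat_lit 76) (nat_lit 231214186) (nat_lit 0) (nat_lit 231214186) (nat_lit 508) (nat_lit 1) (nat_lit 483) (nat_lit 1) (nat_lit 482) (nat_lit 1) (nat_lit 392) (nat_lit 385) (nat_lit 363))) (XT.nd (nat_lit 78) (nat_lit 0) (nat_lit 0) (XT.lf (nat_lit 1976) (nat_lit 1437326777) (nat_lit 0) (nat_lit 724222980) (nat_lit 1900) (nat_lit 1437326777) (nat_lit 509) (nat_lit 1) (nat_lit 483) (nat_lit 1) (nat_lit 508) (nat_lit 1) (nat_lit 393) (nat_lit 385) (nat_lit 362)) (XT.lf (nat_lit 1976) (nat_lit 2580599955) (nat_lit 76) (nat_lit 492777779) (nat_lit 0) (nat_lit 492777779) (nat_lit 509) (nat_lit 1) (nat_lit 484) (nat_lit 1) (nat_lit 483) (nat_lit 1) (nat_lit 394) (nat_lit 385) (nat_lit 361))))) (XT.nd (nat_lit 312) (nat_lit 1748) (nat_lit 0) (XT.nd (nat_lit 156) (nat_lit 912) (nat_lit 0) (XT.nd (nat_lit 78) (nat_lit 1140) (nat_lit 0)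 (XT.lf (nat_lit 76) (nat_lit 1137611024) (nat_lit 0) (nat_lit 1258518937) (nat_lit 1900) (nat_lit 1137611024) (nat_lit 485) (nat_lit 1) (nat_lit 484) (nat_lit 1) (nat_lit 509) (nat_lit 1) (nat_lit 395) (nat_lit 385) (nat_lit 360)) (XT.lf (nat_lit 1216) (nat_lit 1967552212) (nat_lit 0) (nat_lit 767123737) (nat_lit 1140) (nat_lit 767123737) (nat_lit 485) (nat_lit 1) (nat_lit 469) (nat_lit 1) (nat_lit 484) (nat_lit 1) (nat_lit 396) (nat_lit 385) (nat_lit 359))) (XT.nd (nat_lit 78) (nat_lit 912) (nat_lit 0) (XT.lf (nat_lit 76) (nat_lit 826442485) (nat_lit 0) (nat_lit 1817344224) (nat_lit 1216) (nat_lit 826442485) (nat_lit 470) (nat_lit 1) (nat_lit 469) (nat_lit 1) (nat_lit 485) (nat_lit 1) (nat_lit 397) (nat_lit 385) (nat_lit 358)) (XT.lf (nat_lit 988) (nat_lit 1332431464) (nat_lit 0) (nat_lit 1053305916) (nat_lit 912) (nat_lit 1053305916) (nat_lit 470) (nat_lit 1) (nat_lit 457) (nat_lit 1) (nat_lit 469) (nat_lit 1)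 (nat_lit 398) (nat_lit 385) (nat_lit 357)))) (XT.nd (nat_lit 156) (nat_lit 836) (nat_lit 0) (XT.nd (nat_lit 78) (nat_lit 912) (nat_lit 0) (XT.lf (nat_lit 76) (nat_lit 504718655) (nat_lit 0) (nat_lit 2398858557) (nat_lit 988) (nat_lit 504718655) (nat_lit 458) (nat_lit 1) (nat_lit 457) (nat_lit 1) (nat_lit 470) (nat_lit 1) (nat_lit 399) (nat_lit 385) (nat_lit 356)) (XT.lf (nat_lit 988) (nat_lit 676994410) (nat_lit 0) (nat_lit 1350423733) (nat_lit 912) (nat_lit 1350423733) (nat_lit 458) (nat_lit 1) (nat_lit 445) (nat_lit 1) (nat_lit 457) (nat_lit 1) (nat_lit 400) (nat_lit 385) (nat_lit 355))) (XT.nd (nat_lit 78) (nat_lit 836) (nat_lit 0) (XT.lf (nat_lit 76) (nat_lit 173293296) (nat_lit 0) (nat_lit 3001310522) (nat_lit 988) (nat_lit 173293296) (nat_lit 446) (nat_lit 1) (nat_lit 445) (nat_lit 1) (nat_lit 458) (nat_lit 1) (nat_lit 401) (nat_lit 385) (nat_lit 354)) (XT.lf (nat_lit 912) (nat_lit 2911894) (nat_lit 0) (nat_lit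 1657620221) (nat_lit 836) (nat_lit 1657620221) (nat_lit 446) (nat_lit 1) (nat_lit 434) (nat_lit 1) (nat_lit 445) (nat_lit 1) (nat_lit 402) (nat_lit 385) (nat_lit 353))))))))
noncomputable def ec13 : XT := (XT.nd (nat_lit 57486) (nat_lit 0) (nat_lit 4332) (XT.nd (nat_lit 1170) (nat_lit 2128) (nat_lit 0) (XT.nd (nat_lit 546) (nat_lit 3040) (nat_lit 0) (XT.nd (nat_lit 234) (nat_lit 1596) (nat_lit 0) (XT.nd (nat_lit 78) (nat_lit 836) (nat_lit 0) (XT.lf (nat_lit 988) (nat_lit 2957057657) (nat_lit 0) (nat_lit 165922856) (nat_lit 912) (nat_lit 165922856) (nat_lit 434) (nat_lit 1) (nat_lit 421) (nat_lit 1) (nat_lit 433) (nat_lit 1) (nat_lit 403) (nat_lit 385) (nat_lit 352)) (XT.nd (nat_lit 78) (nat_lit 836) (nat_lit 0) (XT.lf (nat_lit 76) (nat_lit 1290321186) (nat_lit 0) (nat_lit 679201185) (nat_lit 988) (nat_lit 1290321186) (nat_lit 422) (nat_lit 1) (nat_lit 421) (nat_lit 1) (nat_lit 434) (nat_lit 1) (nat_lit 404) (nat_lit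 385) (nat_lit 351)) (XT.lf (nat_lit 912) (nat_lit 2207139349) (nat_lit 0) (nat_lit 512063289) (nat_lit 836) (nat_lit 512063289) (nat_lit 422) (nat_lit 1) (nat_lit 410) (nat_lit 1) (nat_lit 421) (nat_lit 1) (nat_lit 405) (nat_lit 385) (nat_lit 350)))) (XT.nd (nat_lit 156) (nat_lit 760) (nat_lit 0) (XT.nd (nat_lit 78) (nat_lit 836) (nat_lit 0) (XT.lf (nat_lit 76) (nat_lit 913171549) (nat_lit 0) (nat_lit 1376618941) (nat_lit 912) (nat_lit 913171549) (nat_lit 411) (nat_lit 1) (nat_lit 410) (nat_lit 1) (nat_lit 422) (nat_lit 1) (nat_lit 406) (nat_lit 385) (nat_lit 349)) (XT.lf (nat_lit 912) (nat_lit 1443956738) (nat_lit 0) (nat_lit 865539405) (nat_lit 836) (nat_lit 865539405) (nat_lit 411) (nat_lit 1) (nat_lit 399) (nat_lit 1) (nat_lit 410) (nat_lit 1) (nat_lit 407) (nat_lit 385) (nat_lit 348))) (XT.nd (nat_lit 78) (nat_lit 760) (nat_lit 0) (XT.lf (nat_lit 76) (nat_lit 529752761) (nat_lit 0) (nat_lit 2087963610) (nat_lit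 912) (nat_lit 529752761) (nat_lit 400) (nat_lit 1) (nat_lit 399) (nat_lit 1) (nat_lit 411) (nat_lit 1) (nat_lit 408) (nat_lit 385) (nat_lit 347)) (XT.lf (nat_lit 836) (nat_lit 668855962) (nat_lit 0) (nat_lit 1225658963) (nat_lit 760) (nat_lit 1225658963) (nat_lit 400) (nat_lit 1) (nat_lit 389) (nat_lit 1) (nat_lit 399) (nat_lit 1) (nat_lit 409) (nat_lit 385) (nat_lit 346))))) (XT.nd (nat_lit 312) (nat_lit 1444) (nat_lit 0) (XT.nd (nat_lit 156) (nat_lit 760) (nat_lit 0) (XT.nd (nat_lit 78) (nat_lit 836) (nat_lit 0) (XT.lf (nat_lit 76) (nat_lit 140718343) (nat_lit 0) (nat_lit 2811890306) (nat_lit 836) (nat_lit 140718343) (nat_lit 390) (nat_lit 1) (nat_lit 389) (nat_lit 1) (nat_lit 400) (nat_lit 1) (nat_lit 410) (nat_lit 385) (nat_lit 345)) (XT.lf (nat_lit 76) (nat_lit 1475638081) (nat_lit 0) (nat_lit 115352435) (nat_lit 836) (nat_lit 1475638081) (nat_lit 379) (nat_lit 1) (nat_lit 378) (nat_lit 1) (nat_lit 389) (nat_lit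 1) (nat_lit 411) (nat_lit 385) (nat_lit 344))) (XT.nd (nat_lit 78) (nat_lit 0) (nat_lit 0) (XT.lf (nat_lit 836) (nat_lit 2537076779) (nat_lit 0) (nat_lit 251645072) (nat_lit 760) (nat_lit 251645072) (nat_lit 379) (nat_lit 1) (nat_lit 368) (nat_lit 1) (nat_lit 378) (nat_lit 1) (nat_lit 412) (nat_lit 385) (nat_lit 343)) (XT.lf (nat_lit 76) (nat_lit 1057098558) (nat_lit 0) (nat_lit 900093617) (nat_lit 836) (nat_lit 1057098558) (nat_lit 369) (nat_lit 1) (nat_lit 368) (nat_lit 1) (nat_lit 379) (nat_lit 1) (nat_lit 413) (nat_lit 385) (nat_lit 342)))) (XT.nd (nat_lit 156) (nat_lit 684) (nat_lit 0) (XT.nd (nat_lit 78) (nat_lit 0) (nat_lit 0) (XT.lf (nat_lit 836) (nat_lit 1693687546) (nat_lit 0) (nat_lit 647461094) (nat_lit 760) (nat_lit 647461094) (nat_lit 369) (nat_lit 1) (nat_lit 358) (nat_lit 1) (nat_lit 368) (nat_lit 1) (nat_lit 414) (nat_lit 385) (nat_lit 341)) (XT.lf (nat_lit 76) (nat_lit 635103393) (nat_lit 0) (nat_lit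 1693005564) (nat_lit 836) (nat_lit 635103393) (nat_lit 359) (nat_lit 1) (nat_lit 358) (nat_lit 1) (nat_lit 369) (nat_lit 1) (nat_lit 415) (nat_lit 385) (nat_lit 340))) (XT.nd (nat_lit 78) (nat_lit 0) (nat_lit 0) (XT.lf (nat_lit 760) (nat_lit 843891376) (nat_lit 0) (nat_lit 1047101591) (nat_lit 684) (nat_lit 1047101591) (nat_lit 359) (nat_lit 1) (nat_lit 349) (nat_lit 1) (nat_lit 358) (nat_lit 1) (nat_lit 416) (nat_lit 385) (nat_lit 339)) (XT.lf (nat_lit 76) (nat_lit 210173203) (nat_lit 0) (nat_lit 2493013284) (nat_lit 760) (nat_lit 210173203) (nat_lit 350) (nat_lit 1) (nat_lit 349) (nat_lit 1) (nat_lit 359) (nat_lit 1) (nat_lit 417) (nat_lit 385) (nat_lit 338)))))) (XT.nd (nat_lit 55692) (nat_lit 0) (nat_lit 13452) (XT.nd (nat_lit 312) (nat_lit 0) (nat_lit 0) (XT.nd (nat_lit 156) (nat_lit 684) (nat_lit 0) (XT.nd (nat_lit 78) (nat_lit 684) (nat_lit 0) (XT.lf (nat_lit 76) (nat_lit 1438819867) (nat_lit 0) (nat_lit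 11147023) (nat_lit 760) (nat_lit 1438819867) (nat_lit 340) (nat_lit 1) (nat_lit 339) (nat_lit 1) (nat_lit 349) (nat_lit 1) (nat_lit 418) (nat_lit 385) (nat_lit 337)) (XT.lf (nat_lit 760) (nat_lit 2433046339) (nat_lit 0) (nat_lit 215770241) (nat_lit 684) (nat_lit 215770241) (nat_lit 340) (nat_lit 1) (nat_lit 330) (nat_lit 1) (nat_lit 339) (nat_lit 1) (nat_lit 419) (nat_lit 385) (nat_lit 336))) (XT.nd (nat_lit 78) (nat_lit 684) (nat_lit 0) (XT.lf (nat_lit 76) (nat_lit 990528786) (nat_lit 0) (nat_lit 859487885) (nat_lit 760) (nat_lit 990528786) (nat_lit 331) (nat_lit 1) (nat_lit 330) (nat_lit 1) (nat_lit 340) (nat_lit 1) (nat_lit 420) (nat_lit 385) (nat_lit 335)) (XT.lf (nat_lit 760) (nat_lit 1532276805) (nat_lit 0) (nat_lit 642293907) (nat_lit 684) (nat_lit 642293907) (nat_lit 331) (nat_lit 1) (nat_lit 321) (nat_lit 1) (nat_lit 330) (nat_lit 1) (nat_lit 421) (nat_lit 385) (nat_lit 334)))) (XT.nd (nat_lit 55224) (nat_lit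 0) (nat_lit 13376) (XT.nd (nat_lit 55146) (nat_lit 0) (nat_lit 13376) (XT.lf (nat_lit 76) (nat_lit 541074066) (nat_lit 0) (nat_lit 1711301008) (nat_lit 760) (nat_lit 541074066) (nat_lit 322) (nat_lit 1) (nat_lit 321) (nat_lit 1) (nat_lit 331) (nat_lit 1) (nat_lit 422) (nat_lit 385) (nat_lit 333)) (XT.lf (nat_lit 1900) (nat_lit 759602500) (nat_lit 0) (nat_lit 765954544) (nat_lit 1900) (nat_lit 759602500) (nat_lit 522) (nat_lit 1) (nat_lit 497) (nat_lit 0) (nat_lit 522) (nat_lit 0) (nat_lit 368) (nat_lit 386) (nat_lit 386))) (XT.nd (nat_lit 78) (nat_lit 0) (nat_lit 76) (XT.lf (nat_lit 1900) (nat_lit 3003582495) (nat_lit 76) (nat_lit 760915369) (nat_lit 0) (nat_lit 760915369) (nat_lit 522) (nat_lit 1) (nat_lit 498) (nat_lit 1) (nat_lit 497) (nat_lit 0) (nat_lit 369) (nat_lit 386) (nat_lit 385)) (XT.lf (nat_lit 1900) (nat_lit 1474773302) (nat_lit 0) (nat_lit 1531451254) (nat_lit 1824) (nat_lit 1474773302) (nat_lit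 523) (nat_lit 1) (nat_lit 498) (nat_lit 1) (nat_lit 522) (nat_lit 1) (nat_lit 370) (nat_lit 386) (nat_lit 384))))) (XT.nd (nat_lit 312) (nat_lit 0) (nat_lit 152) (XT.nd (nat_lit 156) (nat_lit 0) (nat_lit 76) (XT.nd (nat_lit 78) (nat_lit 0) (nat_lit 76) (XT.lf (nat_lit 1900) (nat_lit 2886494904) (nat_lit 76) (nat_lit 775380457) (nat_lit 0) (nat_lit 775380457) (nat_lit 523) (nat_lit 1) (nat_lit 499) (nat_lit 1) (nat_lit 498) (nat_lit 1) (nat_lit 371) (nat_lit 386) (nat_lit 383)) (XT.lf (nat_lit 1900) (nat_lit 1402781826) (nat_lit 0) (nat_lit 1588432992) (nat_lit 1824) (nat_lit 1402781826) (nat_lit 524) (nat_lit 1) (nat_lit 499) (nat_lit 1) (nat_lit 523) (nat_lit 1) (nat_lit 372) (nat_lit 386) (nat_lit 382))) (XT.nd (nat_lit 78) (nat_lit 0) (nat_lit 76) (XT.lf (nat_lit 1900) (nat_lit 2715769069) (nat_lit 76) (nat_lit 817805856) (nat_lit 0) (nat_lit 817805856) (nat_lit 524) (nat_lit 1) (nat_lit 500) (nat_lit 1) (nat_lit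 499) (nat_lit 1) (nat_lit 373) (nat_lit 386) (nat_lit 381)) (XT.lf (nat_lit 1900) (nat_lit 1304874969) (nat_lit 0) (nat_lit 1699497934) (nat_lit 1824) (nat_lit 1304874969) (nat_lit 525) (nat_lit 1) (nat_lit 500) (nat_lit 1) (nat_lit 524) (nat_lit 1) (nat_lit 374) (nat_lit 386) (nat_lit 380)))) (XT.nd (nat_lit 156) (nat_lit 0) (nat_lit 76) (XT.nd (nat_lit 78) (nat_lit 0) (nat_lit 76) (XT.lf (nat_lit 1900) (nat_lit 2494628708) (nat_lit 76) (nat_lit 886546579) (nat_lit 0) (nat_lit 886546579) (nat_lit 525) (nat_lit 1) (nat_lit 501) (nat_lit 1) (nat_lit 500) (nat_lit 1) (nat_lit 375) (nat_lit 386) (nat_lit 379)) (XT.lf (nat_lit 1900) (nat_lit 1182622018) (nat_lit 0) (nat_lit 1861442124) (nat_lit 1824) (nat_lit 1182622018) (nat_lit 526) (nat_lit 1) (nat_lit 501) (nat_lit 1) (nat_lit 525) (nat_lit 1) (nat_lit 376) (nat_lit 386) (nat_lit 378))) (XT.nd (nat_lit 78) (nat_lit 0) (nat_lit 76) (XT.lf (nat_lit 1900) (nat_lit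 2226149988) (nat_lit 76) (nat_lit 980032481) (nat_lit 0) (nat_lit 980032481) (nat_lit 526) (nat_lit 1) (nat_lit 502) (nat_lit 1) (nat_lit 501) (nat_lit 1) (nat_lit 377) (nat_lit 386) (nat_lit 377)) (XT.lf (nat_lit 1900) (nat_lit 1037520280) (nat_lit 0) (nat_lit 2071207662) (nat_lit 1824) (nat_lit 1037520280) (nat_lit 527) (nat_lit 1) (nat_lit 502) (nat_lit 1) (nat_lit 526) (nat_lit 1) (nat_lit 378) (nat_lit 386) (nat_lit 376))))))) (XT.nd (nat_lit 1170) (nat_lit 7904) (nat_lit 0) (XT.nd (nat_lit 546) (nat_lit 1520) (nat_lit 0) (XT.nd (nat_lit 234) (nat_lit 0) (nat_lit 152) (XT.nd (nat_lit 78) (nat_lit 0) (nat_lit 76) (XT.lf (nat_lit 1900) (nat_lit 1913267695) (nat_lit 76) (nat_lit 1096765138) (nat_lit 0) (nat_lit 1096765138) (nat_lit 527) (nat_lit 1) (nat_lit 503) (nat_lit 1) (nat_lit 502) (nat_lit 1) (nat_lit 379) (nat_lit 386) (nat_lit 375)) (XT.nd (nat_lit 78) (nat_lit 0) (nat_lit 0) (XT.lf (nat_lit 1900) (nat_lit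 870998100) (nat_lit 0) (nat_lit 2325876610) (nat_lit 1824) (nat_lit 870998100) (nat_lit 528) (nat_lit 1) (nat_lit 503) (nat_lit 1) (nat_lit 527) (nat_lit 1) (nat_lit 380) (nat_lit 386) (nat_lit 374)) (XT.lf (nat_lit 1900) (nat_lit 1558781151) (nat_lit 76) (nat_lit 1235314850) (nat_lit 0) (nat_lit 1235314850) (nat_lit 528) (nat_lit 1) (nat_lit 504) (nat_lit 1) (nat_lit 503) (nat_lit 1) (nat_lit 381) (nat_lit 386) (nat_lit 373)))) (XT.nd (nat_lit 156) (nat_lit 0) (nat_lit 76) (XT.nd (nat_lit 78) (nat_lit 0) (nat_lit 0) (XT.lf (nat_lit 1900) (nat_lit 684417749) (nat_lit 0) (nat_lit 2622665138) (nat_lit 1824) (nat_lit 684417749) (nat_lit 529) (nat_lit 1) (nat_lit 504) (nat_lit 1) (nat_lit 528) (nat_lit 1) (nat_lit 382) (nat_lit 386) (nat_lit 372)) (XT.lf (nat_lit 1900) (nat_lit 1165359896) (nat_lit 76) (nat_lit 1394317771) (nat_lit 0) (nat_lit 1394317771) (nat_lit 529) (nat_lit 1) (nat_lit 505) (nat_lit 1) (nat_lit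 504) (nat_lit 1) (nat_lit 383) (nat_lit 386) (nat_lit 371))) (XT.nd (nat_lit 78) (nat_lit 0) (nat_lit 0) (XT.lf (nat_lit 1900) (nat_lit 479078197) (nat_lit 0) (nat_lit 2958917916) (nat_lit 1824) (nat_lit 479078197) (nat_lit 530) (nat_lit 1) (nat_lit 505) (nat_lit 1) (nat_lit 529) (nat_lit 1) (nat_lit 384) (nat_lit 386) (nat_lit 370)) (XT.lf (nat_lit 1900) (nat_lit 735549143) (nat_lit 76) (nat_lit 1572473143) (nat_lit 0) (nat_lit 1572473143) (nat_lit 530) (nat_lit 1) (nat_lit 506) (nat_lit 1) (nat_lit 505) (nat_lit 1) (nat_lit 385) (nat_lit 386) (nat_lit 369))))) (XT.nd (nat_lit 312) (nat_lit 0) (nat_lit 0) (XT.nd (nat_lit 156) (nat_lit 1824) (nat_lit 0) (XT.nd (nat_lit 78) (nat_lit 0) (nat_lit 0) (XT.lf (nat_lit 1900) (nat_lit 256217776) (nat_lit 0) (nat_lit 3332102715) (nat_lit 1824) (nat_lit 256217776) (nat_lit 531) (nat_lit 1) (nat_lit 506) (nat_lit 1) (nat_lit 530) (nat_lit 1) (nat_lit 386) (nat_lit 386) (nat_lit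 368)) (XT.lf (nat_lit 1900) (nat_lit 271775010) (nat_lit 76) (nat_lit 1768540649) (nat_lit 0) (nat_lit 1768540649) (nat_lit 531) (nat_lit 1) (nat_lit 507) (nat_lit 1) (nat_lit 506) (nat_lit 1) (nat_lit 387) (nat_lit 386) (nat_lit 367))) (XT.nd (nat_lit 78) (nat_lit 1900) (nat_lit 0) (XT.lf (nat_lit 1900) (nat_lit 17016733) (nat_lit 0) (nat_lit 3739805240) (nat_lit 1824) (nat_lit 17016733) (nat_lit 532) (nat_lit 1) (nat_lit 507) (nat_lit 1) (nat_lit 531) (nat_lit 1) (nat_lit 388) (nat_lit 386) (nat_lit 366)) (XT.lf (nat_lit 1976) (nat_lit 1759139504) (nat_lit 0) (nat_lit 220717242) (nat_lit 1900) (nat_lit 1759139504) (nat_lit 508) (nat_lit 1) (nat_lit 482) (nat_lit 1) (nat_lit 507) (nat_lit 1) (nat_lit 389) (nat_lit 386) (nat_lit 365)))) (XT.nd (nat_lit 156) (nat_lit 0) (nat_lit 76) (XT.nd (nat_lit 78) (nat_lit 0) (nat_lit 76) (XT.lf (nat_lit 1976) (nat_lit 3233122874) (nat_lit 76) (nat_lit 235838470) (nat_lit 0)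 (nat_lit 235838470) (nat_lit 508) (nat_lit 1) (nat_lit 483) (nat_lit 1) (nat_lit 482) (nat_lit 1) (nat_lit 390) (nat_lit 386) (nat_lit 364)) (XT.lf (nat_lit 1976) (nat_lit 1466073312) (nat_lit 0) (nat_lit 738707439) (nat_lit 1900) (nat_lit 1466073312) (nat_lit 509) (nat_lit 1) (nat_lit 483) (nat_lit 1) (nat_lit 508) (nat_lit 1) (nat_lit 391) (nat_lit 386) (nat_lit 363))) (XT.nd (nat_lit 78) (nat_lit 0) (nat_lit 76) (XT.lf (nat_lit 1976) (nat_lit 2632211955) (nat_lit 76) (nat_lit 502633335) (nat_lit 0) (nat_lit 502633335) (nat_lit 509) (nat_lit 1) (nat_lit 484) (nat_lit 1) (nat_lit 483) (nat_lit 1) (nat_lit 392) (nat_lit 386) (nat_lit 362)) (XT.lf (nat_lit 76) (nat_lit 1160363244) (nat_lit 0) (nat_lit 1283689316) (nat_lit 1900) (nat_lit 1160363244) (nat_lit 485) (nat_lit 1) (nat_lit 484) (nat_lit 1) (nat_lit 509) (nat_lit 1) (nat_lit 393) (nat_lit 386) (nat_lit 361)))))) (XT.nd (nat_lit 624) (nat_lit 3268) (nat_lit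 0) (XT.nd (nat_lit 312) (nat_lit 2736) (nat_lit 0) (XT.nd (nat_lit 156) (nat_lit 912) (nat_lit 0) (XT.nd (nat_lit 78) (nat_lit 0) (nat_lit 0) (XT.lf (nat_lit 1216) (nat_lit 2006903256) (nat_lit 0) (nat_lit 782466212) (nat_lit 1140) (nat_lit 782466212) (nat_lit 485) (nat_lit 1) (nat_lit 469) (nat_lit 1) (nat_lit 484) (nat_lit 1) (nat_lit 394) (nat_lit 386) (nat_lit 360)) (XT.lf (nat_lit 76) (nat_lit 842971335) (nat_lit 0) (nat_lit 1853691108) (nat_lit 1216) (nat_lit 842971335) (nat_lit 470) (nat_lit 1) (nat_lit 469) (nat_lit 1) (nat_lit 485) (nat_lit 1) (nat_lit 395) (nat_lit 386) (nat_lit 359))) (XT.nd (nat_lit 78) (nat_lit 0) (nat_lit 0) (XT.lf (nat_lit 988) (nat_lit 1359080093) (nat_lit 0) (nat_lit 1074372034) (nat_lit 912) (nat_lit 1074372034) (nat_lit 470) (nat_lit 1) (nat_lit 457) (nat_lit 1) (nat_lit 469) (nat_lit 1) (nat_lit 396) (nat_lit 386) (nat_lit 358)) (XT.lf (nat_lit 76) (nat_lit 514813028) (nat_lit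 0) (nat_lit 2446835728) (nat_lit 988) (nat_lit 514813028) (nat_lit 458) (nat_lit 1) (nat_lit 457) (nat_lit 1) (nat_lit 470) (nat_lit 1) (nat_lit 397) (nat_lit 386) (nat_lit 357)))) (XT.nd (nat_lit 156) (nat_lit 1824) (nat_lit 0) (XT.nd (nat_lit 78) (nat_lit 0) (nat_lit 0) (XT.lf (nat_lit 988) (nat_lit 690534298) (nat_lit 0) (nat_lit 1377432208) (nat_lit 912) (nat_lit 1377432208) (nat_lit 458) (nat_lit 1) (nat_lit 445) (nat_lit 1) (nat_lit 457) (nat_lit 1) (nat_lit 398) (nat_lit 386) (nat_lit 356)) (XT.lf (nat_lit 76) (nat_lit 176759162) (nat_lit 0) (nat_lit 3061336733) (nat_lit 988) (nat_lit 176759162) (nat_lit 446) (nat_lit 1) (nat_lit 445) (nat_lit 1) (nat_lit 458) (nat_lit 1) (nat_lit 399) (nat_lit 386) (nat_lit 355))) (XT.nd (nat_lit 78) (nat_lit 988) (nat_lit 0) (XT.lf (nat_lit 912) (nat_lit 2970132) (nat_lit 0) (nat_lit 1690772626) (nat_lit 836) (nat_lit 1690772626) (nat_lit 446) (nat_lit 1) (nat_lit 434)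 (nat_lit 1) (nat_lit 445) (nat_lit 1) (nat_lit 400) (nat_lit 386) (nat_lit 354)) (XT.lf (nat_lit 988) (nat_lit 3016198810) (nat_lit 0) (nat_lit 169241313) (nat_lit 912) (nat_lit 169241313) (nat_lit 434) (nat_lit 1) (nat_lit 421) (nat_lit 1) (nat_lit 433) (nat_lit 1) (nat_lit 401) (nat_lit 386) (nat_lit 353))))) (XT.nd (nat_lit 312) (nat_lit 1596) (nat_lit 0) (XT.nd (nat_lit 156) (nat_lit 836) (nat_lit 0) (XT.nd (nat_lit 78) (nat_lit 836) (nat_lit 0) (XT.lf (nat_lit 76) (nat_lit 1316127609) (nat_lit 0) (nat_lit 692785209) (nat_lit 988) (nat_lit 1316127609) (nat_lit 422) (nat_lit 1) (nat_lit 421) (nat_lit 1) (nat_lit 434) (nat_lit 1) (nat_lit 402) (nat_lit 386) (nat_lit 352)) (XT.lf (nat_lit 912) (nat_lit 2251282136) (nat_lit 0) (nat_lit 522304555) (nat_lit 836) (nat_lit 522304555) (nat_lit 422) (nat_lit 1) (nat_lit 410) (nat_lit 1) (nat_lit 421) (nat_lit 1) (nat_lit 403) (nat_lit 386) (nat_lit 351))) (XT.nd (nat_lit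 78) (nat_lit 836) (nat_lit 0) (XT.lf (nat_lit 76) (nat_lit 931434980) (nat_lit 0) (nat_lit 1404151320) (nat_lit 912) (nat_lit 931434980) (nat_lit 411) (nat_lit 1) (nat_lit 410) (nat_lit 1) (nat_lit 422) (nat_lit 1) (nat_lit 404) (nat_lit 386) (nat_lit 350)) (XT.lf (nat_lit 912) (nat_lit 1472835873) (nat_lit 0) (nat_lit 882850193) (nat_lit 836) (nat_lit 882850193) (nat_lit 411) (nat_lit 1) (nat_lit 399) (nat_lit 1) (nat_lit 410) (nat_lit 1) (nat_lit 405) (nat_lit 386) (nat_lit 349)))) (XT.nd (nat_lit 156) (nat_lit 836) (nat_lit 0) (XT.nd (nat_lit 78) (nat_lit 760) (nat_lit 0) (XT.lf (nat_lit 76) (nat_lit 540347816) (nat_lit 0) (nat_lit 2129722883) (nat_lit 912) (nat_lit 540347816) (nat_lit 400) (nat_lit 1) (nat_lit 399) (nat_lit 1) (nat_lit 411) (nat_lit 1) (nat_lit 406) (nat_lit 386) (nat_lit 348)) (XT.lf (nat_lit 836) (nat_lit 682233081) (nat_lit 0) (nat_lit 1250172143) (nat_lit 760) (nat_lit 1250172143) (nat_lit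 400) (nat_lit 1) (nat_lit 389) (nat_lit 1) (nat_lit 399) (nat_lit 1) (nat_lit 407) (nat_lit 386) (nat_lit 347))) (XT.nd (nat_lit 78) (nat_lit 836) (nat_lit 0) (XT.lf (nat_lit 76) (nat_lit 143532710) (nat_lit 0) (nat_lit 2868128112) (nat_lit 836) (nat_lit 143532710) (nat_lit 390) (nat_lit 1) (nat_lit 389) (nat_lit 1) (nat_lit 400) (nat_lit 1) (nat_lit 408) (nat_lit 386) (nat_lit 346)) (XT.lf (nat_lit 76) (nat_lit 1505150843) (nat_lit 0) (nat_lit 117659484) (nat_lit 836) (nat_lit 1505150843) (nat_lit 379) (nat_lit 1) (nat_lit 378) (nat_lit 1) (nat_lit 389) (nat_lit 1) (nat_lit 409) (nat_lit 386) (nat_lit 345))))))))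
noncomputable def ec14 : XT := (XT.nd (nat_lit 57330) (nat_lit 0) (nat_lit 1976) (XT.nd (nat_lit 56082) (nat_lit 0) (nat_lit 14060) (XT.nd (nat_lit 546) (nat_lit 1976) (nat_lit 0) (XT.nd (nat_lit 234) (nat_lit 1444) (nat_lit 0) (XT.nd (nat_lit 78) (nat_lit 760) (nat_lit 0) (XT.lf (nat_lit 836) (nat_lit 2587818314) (nat_lit 0) (nat_lit 256677973) (nat_lit 760) (nat_lit 256677973) (nat_lit 379) (nat_lit 1) (nat_lit 368) (nat_lit 1) (nat_lit 378) (nat_lit 1) (nat_lit 410) (nat_lit 386) (nat_lit 344)) (XT.nd (nat_lit 78) (nat_lit 760) (nat_lit 0) (XT.lf (nat_lit 76) (nat_lit 1078240530) (nat_lit 0) (nat_lit 918095490) (nat_lit 836) (nat_lit 1078240530) (nat_lit 369) (nat_lit 1) (nat_lit 368) (nat_lit 1) (nat_lit 379) (nat_lit 1) (nat_lit 411) (nat_lit 386) (nat_lit 343)) (XT.lf (nat_lit 836) (nat_lit 1727561296) (nat_lit 0) (nat_lit 660410315) (nat_lit 760) (nat_lit 660410315) (nat_lit 369) (nat_lit 1) (nat_lit 358)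 (nat_lit 1) (nat_lit 368) (nat_lit 1) (nat_lit 412) (nat_lit 386) (nat_lit 342)))) (XT.nd (nat_lit 156) (nat_lit 760) (nat_lit 0) (XT.nd (nat_lit 78) (nat_lit 684) (nat_lit 0) (XT.lf (nat_lit 76) (nat_lit 647805460) (nat_lit 0) (nat_lit 1726865675) (nat_lit 836) (nat_lit 647805460) (nat_lit 359) (nat_lit 1) (nat_lit 358) (nat_lit 1) (nat_lit 369) (nat_lit 1) (nat_lit 413) (nat_lit 386) (nat_lit 341)) (XT.lf (nat_lit 760) (nat_lit 860769203) (nat_lit 0) (nat_lit 1068043623) (nat_lit 684) (nat_lit 1068043623) (nat_lit 359) (nat_lit 1) (nat_lit 349) (nat_lit 1) (nat_lit 358) (nat_lit 1) (nat_lit 414) (nat_lit 386) (nat_lit 340))) (XT.nd (nat_lit 78) (nat_lit 760) (nat_lit 0) (XT.lf (nat_lit 76) (nat_lit 214376667) (nat_lit 0) (nat_lit 2542873549) (nat_lit 760) (nat_lit 214376667) (nat_lit 350) (nat_lit 1) (nat_lit 349) (nat_lit 1) (nat_lit 359) (nat_lit 1) (nat_lit 415) (nat_lit 386) (nat_lit 339)) (XT.lf (nat_lit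 76) (nat_lit 1467596264) (nat_lit 0) (nat_lit 11369964) (nat_lit 760) (nat_lit 1467596264) (nat_lit 340) (nat_lit 1) (nat_lit 339) (nat_lit 1) (nat_lit 349) (nat_lit 1) (nat_lit 416) (nat_lit 386) (nat_lit 338))))) (XT.nd (nat_lit 312) (nat_lit 608) (nat_lit 0) (XT.nd (nat_lit 156) (nat_lit 684) (nat_lit 0) (XT.nd (nat_lit 78) (nat_lit 0) (nat_lit 0) (XT.lf (nat_lit 760) (nat_lit 2481707266) (nat_lit 0) (nat_lit 220085646) (nat_lit 684) (nat_lit 220085646) (nat_lit 340) (nat_lit 1) (nat_lit 330) (nat_lit 1) (nat_lit 339) (nat_lit 1) (nat_lit 417) (nat_lit 386) (nat_lit 337)) (XT.lf (nat_lit 76) (nat_lit 1010339362) (nat_lit 0) (nat_lit 876677643) (nat_lit 760) (nat_lit 1010339362) (nat_lit 331) (nat_lit 1) (nat_lit 330) (nat_lit 1) (nat_lit 340) (nat_lit 1) (nat_lit 418) (nat_lit 386) (nat_lit 336))) (XT.nd (nat_lit 78) (nat_lit 0) (nat_lit 0) (XT.lf (nat_lit 760) (nat_lit 1562922341) (nat_lit 0) (nat_lit 655139785)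 (nat_lit 684) (nat_lit 655139785) (nat_lit 331) (nat_lit 1) (nat_lit 321) (nat_lit 1) (nat_lit 330) (nat_lit 1) (nat_lit 419) (nat_lit 386) (nat_lit 335)) (XT.lf (nat_lit 76) (nat_lit 551895547) (nat_lit 0) (nat_lit 1745527028) (nat_lit 760) (nat_lit 551895547) (nat_lit 322) (nat_lit 1) (nat_lit 321) (nat_lit 1) (nat_lit 331) (nat_lit 1) (nat_lit 420) (nat_lit 386) (nat_lit 334)))) (XT.nd (nat_lit 55068) (nat_lit 0) (nat_lit 13984) (XT.nd (nat_lit 78) (nat_lit 0) (nat_lit 0) (XT.lf (nat_lit 684) (nat_lit 642178691) (nat_lit 0) (nat_lit 1091749390) (nat_lit 608) (nat_lit 1091749390) (nat_lit 322) (nat_lit 1) (nat_lit 313) (nat_lit 1) (nat_lit 321) (nat_lit 1) (nat_lit 421) (nat_lit 386) (nat_lit 333)) (XT.lf (nat_lit 76) (nat_lit 92682336) (nat_lit 0) (nat_lit 2617052302) (nat_lit 684) (nat_lit 92682336) (nat_lit 314) (nat_lit 1) (nat_lit 313) (nat_lit 1) (nat_lit 322) (nat_lit 1) (nat_lit 422) (nat_lit 386) (nat_lit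 332))) (XT.nd (nat_lit 78) (nat_lit 0) (nat_lit 0) (XT.lf (nat_lit 1900) (nat_lit 774794550) (nat_lit 0) (nat_lit 781273635) (nat_lit 1900) (nat_lit 774794550) (nat_lit 522) (nat_lit 1) (nat_lit 497) (nat_lit 0) (nat_lit 522) (nat_lit 0) (nat_lit 366) (nat_lit 387) (nat_lit 387)) (XT.lf (nat_lit 1900) (nat_lit 3063654145) (nat_lit 76) (nat_lit 776133677) (nat_lit 0) (nat_lit 776133677) (nat_lit 522) (nat_lit 1) (nat_lit 498) (nat_lit 1) (nat_lit 497) (nat_lit 0) (nat_lit 367) (nat_lit 387) (nat_lit 386)))))) (XT.nd (nat_lit 624) (nat_lit 0) (nat_lit 304) (XT.nd (nat_lit 312) (nat_lit 0) (nat_lit 152) (XT.nd (nat_lit 156) (nat_lit 0) (nat_lit 76) (XT.nd (nat_lit 78) (nat_lit 0) (nat_lit 0) (XT.lf (nat_lit 1900) (nat_lit 1504268768) (nat_lit 0) (nat_lit 1562080280) (nat_lit 1824) (nat_lit 1504268768) (nat_lit 523) (nat_lit 1) (nat_lit 498) (nat_lit 1) (nat_lit 522) (nat_lit 1) (nat_lit 368) (nat_lit 387) (nat_lit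 385)) (XT.lf (nat_lit 1900) (nat_lit 2944224803) (nat_lit 76) (nat_lit 790888066) (nat_lit 0) (nat_lit 790888066) (nat_lit 523) (nat_lit 1) (nat_lit 499) (nat_lit 1) (nat_lit 498) (nat_lit 1) (nat_lit 369) (nat_lit 387) (nat_lit 384))) (XT.nd (nat_lit 78) (nat_lit 0) (nat_lit 0) (XT.lf (nat_lit 1900) (nat_lit 1430837462) (nat_lit 0) (nat_lit 1620201652) (nat_lit 1824) (nat_lit 1430837462) (nat_lit 524) (nat_lit 1) (nat_lit 499) (nat_lit 1) (nat_lit 523) (nat_lit 1) (nat_lit 370) (nat_lit 387) (nat_lit 383)) (XT.lf (nat_lit 1900) (nat_lit 2770084450) (nat_lit 76) (nat_lit 834161973) (nat_lit 0) (nat_lit 834161973) (nat_lit 524) (nat_lit 1) (nat_lit 500) (nat_lit 1) (nat_lit 499) (nat_lit 1) (nat_lit 371) (nat_lit 387) (nat_lit 382)))) (XT.nd (nat_lit 156) (nat_lit 0) (nat_lit 76) (XT.nd (nat_lit 78) (nat_lit 0) (nat_lit 0) (XT.lf (nat_lit 1900) (nat_lit 1330972469) (nat_lit 0) (nat_lit 1733487893) (nat_lit 1824)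 (nat_lit 1330972469) (nat_lit 525) (nat_lit 1) (nat_lit 500) (nat_lit 1) (nat_lit 524) (nat_lit 1) (nat_lit 372) (nat_lit 387) (nat_lit 381)) (XT.lf (nat_lit 1900) (nat_lit 2544521282) (nat_lit 76) (nat_lit 904277511) (nat_lit 0) (nat_lit 904277511) (nat_lit 525) (nat_lit 1) (nat_lit 501) (nat_lit 1) (nat_lit 500) (nat_lit 1) (nat_lit 373) (nat_lit 387) (nat_lit 380))) (XT.nd (nat_lit 78) (nat_lit 0) (nat_lit 0) (XT.lf (nat_lit 1900) (nat_lit 1206274458) (nat_lit 0) (nat_lit 1898670967) (nat_lit 1824) (nat_lit 1206274458) (nat_lit 526) (nat_lit 1) (nat_lit 501) (nat_lit 1) (nat_lit 525) (nat_lit 1) (nat_lit 374) (nat_lit 387) (nat_lit 379)) (XT.lf (nat_lit 1900) (nat_lit 2270672988) (nat_lit 76) (nat_lit 999633131) (nat_lit 0) (nat_lit 999633131) (nat_lit 526) (nat_lit 1) (nat_lit 502) (nat_lit 1) (nat_lit 501) (nat_lit 1) (nat_lit 375) (nat_lit 387) (nat_lit 378))))) (XT.nd (nat_lit 312) (nat_lit 0) (nat_lit 152)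 (XT.nd (nat_lit 156) (nat_lit 0) (nat_lit 76) (XT.nd (nat_lit 78) (nat_lit 0) (nat_lit 0) (XT.lf (nat_lit 1900) (nat_lit 1058270685) (nat_lit 0) (nat_lit 2112631816) (nat_lit 1824) (nat_lit 1058270685) (nat_lit 527) (nat_lit 1) (nat_lit 502) (nat_lit 1) (nat_lit 526) (nat_lit 1) (nat_lit 376) (nat_lit 387) (nat_lit 377)) (XT.lf (nat_lit 1900) (nat_lit 1951533049) (nat_lit 76) (nat_lit 1118700440) (nat_lit 0) (nat_lit 1118700440) (nat_lit 527) (nat_lit 1) (nat_lit 503) (nat_lit 1) (nat_lit 502) (nat_lit 1) (nat_lit 377) (nat_lit 387) (nat_lit 376))) (XT.nd (nat_lit 78) (nat_lit 0) (nat_lit 0) (XT.lf (nat_lit 1900) (nat_lit 888418062) (nat_lit 0) (nat_lit 2372394142) (nat_lit 1824) (nat_lit 888418062) (nat_lit 528) (nat_lit 1) (nat_lit 503) (nat_lit 1) (nat_lit 527) (nat_lit 1) (nat_lit 378) (nat_lit 387) (nat_lit 375)) (XT.lf (nat_lit 1900) (nat_lit 1589956774) (nat_lit 76) (nat_lit 1260021147) (nat_lit 0) (nat_lit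 1260021147) (nat_lit 528) (nat_lit 1) (nat_lit 504) (nat_lit 1) (nat_lit 503) (nat_lit 1) (nat_lit 379) (nat_lit 387) (nat_lit 374)))) (XT.nd (nat_lit 156) (nat_lit 0) (nat_lit 76) (XT.nd (nat_lit 78) (nat_lit 0) (nat_lit 0) (XT.lf (nat_lit 1900) (nat_lit 698106104) (nat_lit 0) (nat_lit 2675118441) (nat_lit 1824) (nat_lit 698106104) (nat_lit 529) (nat_lit 1) (nat_lit 504) (nat_lit 1) (nat_lit 528) (nat_lit 1) (nat_lit 380) (nat_lit 387) (nat_lit 373)) (XT.lf (nat_lit 1900) (nat_lit 1188667094) (nat_lit 76) (nat_lit 1422204127) (nat_lit 0) (nat_lit 1422204127) (nat_lit 529) (nat_lit 1) (nat_lit 505) (nat_lit 1) (nat_lit 504) (nat_lit 1) (nat_lit 381) (nat_lit 387) (nat_lit 372))) (XT.nd (nat_lit 78) (nat_lit 0) (nat_lit 0) (XT.lf (nat_lit 1900) (nat_lit 488659761) (nat_lit 0) (nat_lit 3018096274) (nat_lit 1824) (nat_lit 488659761) (nat_lit 530) (nat_lit 1) (nat_lit 505) (nat_lit 1) (nat_lit 529) (nat_lit 1) (nat_lit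 382) (nat_lit 387) (nat_lit 371)) (XT.lf (nat_lit 1900) (nat_lit 750260126) (nat_lit 76) (nat_lit 1603922606) (nat_lit 0) (nat_lit 1603922606) (nat_lit 530) (nat_lit 1) (nat_lit 506) (nat_lit 1) (nat_lit 505) (nat_lit 1) (nat_lit 383) (nat_lit 387) (nat_lit 370))))))) (XT.nd (nat_lit 1170) (nat_lit 7220) (nat_lit 0) (XT.nd (nat_lit 546) (nat_lit 3648) (nat_lit 0) (XT.nd (nat_lit 234) (nat_lit 1824) (nat_lit 0) (XT.nd (nat_lit 78) (nat_lit 0) (nat_lit 0) (XT.lf (nat_lit 1900) (nat_lit 261342131) (nat_lit 0) (nat_lit 3398744769) (nat_lit 1824) (nat_lit 261342131) (nat_lit 531) (nat_lit 1) (nat_lit 506) (nat_lit 1) (nat_lit 530) (nat_lit 1) (nat_lit 384) (nat_lit 387) (nat_lit 369)) (XT.nd (nat_lit 78) (nat_lit 0) (nat_lit 76) (XT.lf (nat_lit 1900) (nat_lit 277210510) (nat_lit 76) (nat_lit 1803911462) (nat_lit 0) (nat_lit 1803911462) (nat_lit 531) (nat_lit 1) (nat_lit 507) (nat_lit 1) (nat_lit 506) (nat_lit 1) (nat_lit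 385) (nat_lit 387) (nat_lit 368)) (XT.lf (nat_lit 1900) (nat_lit 17357068) (nat_lit 0) (nat_lit 3814601345) (nat_lit 1824) (nat_lit 17357068) (nat_lit 532) (nat_lit 1) (nat_lit 507) (nat_lit 1) (nat_lit 531) (nat_lit 1) (nat_lit 386) (nat_lit 387) (nat_lit 367)))) (XT.nd (nat_lit 156) (nat_lit 0) (nat_lit 76) (XT.nd (nat_lit 78) (nat_lit 0) (nat_lit 0) (XT.lf (nat_lit 1976) (nat_lit 1794322295) (nat_lit 0) (nat_lit 225131587) (nat_lit 1900) (nat_lit 1794322295) (nat_lit 508) (nat_lit 1) (nat_lit 482) (nat_lit 1) (nat_lit 507) (nat_lit 1) (nat_lit 387) (nat_lit 387) (nat_lit 366)) (XT.lf (nat_lit 1976) (nat_lit 3297785331) (nat_lit 76) (nat_lit 240555240) (nat_lit 0) (nat_lit 240555240) (nat_lit 508) (nat_lit 1) (nat_lit 483) (nat_lit 1) (nat_lit 482) (nat_lit 1) (nat_lit 388) (nat_lit 387) (nat_lit 365))) (XT.nd (nat_lit 78) (nat_lit 0) (nat_lit 0) (XT.lf (nat_lit 1976) (nat_lit 1495394779) (nat_lit 0) (nat_lit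 753481588) (nat_lit 1900) (nat_lit 1495394779) (nat_lit 509) (nat_lit 1) (nat_lit 483) (nat_lit 1) (nat_lit 508) (nat_lit 1) (nat_lit 389) (nat_lit 387) (nat_lit 364)) (XT.lf (nat_lit 1976) (nat_lit 2684856194) (nat_lit 76) (nat_lit 512686002) (nat_lit 0) (nat_lit 512686002) (nat_lit 509) (nat_lit 1) (nat_lit 484) (nat_lit 1) (nat_lit 483) (nat_lit 1) (nat_lit 390) (nat_lit 387) (nat_lit 363))))) (XT.nd (nat_lit 312) (nat_lit 1748) (nat_lit 0) (XT.nd (nat_lit 156) (nat_lit 912) (nat_lit 0) (XT.nd (nat_lit 78) (nat_lit 1140) (nat_lit 0) (XT.lf (nat_lit 76) (nat_lit 1183570509) (nat_lit 0) (nat_lit 1309363102) (nat_lit 1900) (nat_lit 1183570509) (nat_lit 485) (nat_lit 1) (nat_lit 484) (nat_lit 1) (nat_lit 509) (nat_lit 1) (nat_lit 391) (nat_lit 387) (nat_lit 362)) (XT.lf (nat_lit 1216) (nat_lit 2047041321) (nat_lit 0) (nat_lit 798115536) (nat_lit 1140) (nat_lit 798115536) (nat_lit 485) (nat_lit 1) (nat_lit 469) (nat_lit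 1) (nat_lit 484) (nat_lit 1) (nat_lit 392) (nat_lit 387) (nat_lit 361))) (XT.nd (nat_lit 78) (nat_lit 912) (nat_lit 0) (XT.lf (nat_lit 76) (nat_lit 859830762) (nat_lit 0) (nat_lit 1890764930) (nat_lit 1216) (nat_lit 859830762) (nat_lit 470) (nat_lit 1) (nat_lit 469) (nat_lit 1) (nat_lit 485) (nat_lit 1) (nat_lit 393) (nat_lit 387) (nat_lit 360)) (XT.lf (nat_lit 988) (nat_lit 1386261695) (nat_lit 0) (nat_lit 1095859475) (nat_lit 912) (nat_lit 1095859475) (nat_lit 470) (nat_lit 1) (nat_lit 457) (nat_lit 1) (nat_lit 469) (nat_lit 1) (nat_lit 394) (nat_lit 387) (nat_lit 359)))) (XT.nd (nat_lit 156) (nat_lit 836) (nat_lit 0) (XT.nd (nat_lit 78) (nat_lit 912) (nat_lit 0) (XT.lf (nat_lit 76) (nat_lit 525109288) (nat_lit 0) (nat_lit 2495772442) (nat_lit 988) (nat_lit 525109288) (nat_lit 458) (nat_lit 1) (nat_lit 457) (nat_lit 1) (nat_lit 470) (nat_lit 1) (nat_lit 395) (nat_lit 387) (nat_lit 358)) (XT.lf (nat_lit 988) (nat_lit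 704344984) (nat_lit 0) (nat_lit 1404980852) (nat_lit 912) (nat_lit 1404980852) (nat_lit 458) (nat_lit 1) (nat_lit 445) (nat_lit 1) (nat_lit 457) (nat_lit 1) (nat_lit 396) (nat_lit 387) (nat_lit 357))) (XT.nd (nat_lit 78) (nat_lit 836) (nat_lit 0) (XT.lf (nat_lit 76) (nat_lit 180294345) (nat_lit 0) (nat_lit 3122563467) (nat_lit 988) (nat_lit 180294345) (nat_lit 446) (nat_lit 1) (nat_lit 445) (nat_lit 1) (nat_lit 458) (nat_lit 1) (nat_lit 397) (nat_lit 387) (nat_lit 356)) (XT.lf (nat_lit 912) (nat_lit 3029535) (nat_lit 0) (nat_lit 1724588078) (nat_lit 836) (nat_lit 1724588078) (nat_lit 446) (nat_lit 1) (nat_lit 434) (nat_lit 1) (nat_lit 445) (nat_lit 1) (nat_lit 398) (nat_lit 387) (nat_lit 355)))))) (XT.nd (nat_lit 624) (nat_lit 3800) (nat_lit 0) (XT.nd (nat_lit 312) (nat_lit 1596) (nat_lit 0) (XT.nd (nat_lit 156) (nat_lit 836) (nat_lit 0) (XT.nd (nat_lit 78) (nat_lit 0) (nat_lit 0) (XT.lf (nat_lit 988) (nat_lit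 3076522786) (nat_lit 0) (nat_lit 172626140) (nat_lit 912) (nat_lit 172626140) (nat_lit 434) (nat_lit 1) (nat_lit 421) (nat_lit 1) (nat_lit 433) (nat_lit 1) (nat_lit 399) (nat_lit 387) (nat_lit 354)) (XT.lf (nat_lit 76) (nat_lit 1342450161) (nat_lit 0) (nat_lit 706640913) (nat_lit 988) (nat_lit 1342450161) (nat_lit 422) (nat_lit 1) (nat_lit 421) (nat_lit 1) (nat_lit 434) (nat_lit 1) (nat_lit 400) (nat_lit 387) (nat_lit 353))) (XT.nd (nat_lit 78) (nat_lit 0) (nat_lit 0) (XT.lf (nat_lit 912) (nat_lit 2296307779) (nat_lit 0) (nat_lit 532750646) (nat_lit 836) (nat_lit 532750646) (nat_lit 422) (nat_lit 1) (nat_lit 410) (nat_lit 1) (nat_lit 421) (nat_lit 1) (nat_lit 401) (nat_lit 387) (nat_lit 352)) (XT.lf (nat_lit 76) (nat_lit 950063680) (nat_lit 0) (nat_lit 1432234346) (nat_lit 912) (nat_lit 950063680) (nat_lit 411) (nat_lit 1) (nat_lit 410) (nat_lit 1) (nat_lit 422) (nat_lit 1) (nat_lit 402) (nat_lit 387) (nat_lit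 351)))) (XT.nd (nat_lit 156) (nat_lit 760) (nat_lit 0) (XT.nd (nat_lit 78) (nat_lit 0) (nat_lit 0) (XT.lf (nat_lit 912) (nat_lit 1502292590) (nat_lit 0) (nat_lit 900507197) (nat_lit 836) (nat_lit 900507197) (nat_lit 411) (nat_lit 1) (nat_lit 399) (nat_lit 1) (nat_lit 410) (nat_lit 1) (nat_lit 403) (nat_lit 387) (nat_lit 350)) (XT.lf (nat_lit 76) (nat_lit 551154772) (nat_lit 0) (nat_lit 2172317340) (nat_lit 912) (nat_lit 551154772) (nat_lit 400) (nat_lit 1) (nat_lit 399) (nat_lit 1) (nat_lit 411) (nat_lit 1) (nat_lit 404) (nat_lit 387) (nat_lit 349))) (XT.nd (nat_lit 78) (nat_lit 0) (nat_lit 0) (XT.lf (nat_lit 836) (nat_lit 695877743) (nat_lit 0) (nat_lit 1275175585) (nat_lit 760) (nat_lit 1275175585) (nat_lit 400) (nat_lit 1) (nat_lit 389) (nat_lit 1) (nat_lit 399) (nat_lit 1) (nat_lit 405) (nat_lit 387) (nat_lit 348)) (XT.lf (nat_lit 76) (nat_lit 146403364) (nat_lit 0) (nat_lit 2925490674) (nat_lit 836) (nat_lit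 146403364) (nat_lit 390) (nat_lit 1) (nat_lit 389) (nat_lit 1) (nat_lit 400) (nat_lit 1) (nat_lit 406) (nat_lit 387) (nat_lit 347))))) (XT.nd (nat_lit 312) (nat_lit 1444) (nat_lit 0) (XT.nd (nat_lit 156) (nat_lit 760) (nat_lit 0) (XT.nd (nat_lit 78) (nat_lit 760) (nat_lit 0) (XT.lf (nat_lit 76) (nat_lit 1535253860) (nat_lit 0) (nat_lit 120012673) (nat_lit 836) (nat_lit 1535253860) (nat_lit 379) (nat_lit 1) (nat_lit 378) (nat_lit 1) (nat_lit 389) (nat_lit 1) (nat_lit 407) (nat_lit 387) (nat_lit 346)) (XT.lf (nat_lit 836) (nat_lit 2639574680) (nat_lit 0) (nat_lit 261811533) (nat_lit 760) (nat_lit 261811533) (nat_lit 379) (nat_lit 1) (nat_lit 368) (nat_lit 1) (nat_lit 378) (nat_lit 1) (nat_lit 408) (nat_lit 387) (nat_lit 345))) (XT.nd (nat_lit 78) (nat_lit 760) (nat_lit 0) (XT.lf (nat_lit 76) (nat_lit 1099805340) (nat_lit 0) (nat_lit 936457400) (nat_lit 836) (nat_lit 1099805340) (nat_lit 369) (nat_lit 1) (nat_lit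 368) (nat_lit 1) (nat_lit 379) (nat_lit 1) (nat_lit 409) (nat_lit 387) (nat_lit 344)) (XT.lf (nat_lit 836) (nat_lit 1762112522) (nat_lit 0) (nat_lit 673618522) (nat_lit 760) (nat_lit 673618522) (nat_lit 369) (nat_lit 1) (nat_lit 358) (nat_lit 1) (nat_lit 368) (nat_lit 1) (nat_lit 410) (nat_lit 387) (nat_lit 343)))) (XT.nd (nat_lit 156) (nat_lit 760) (nat_lit 0) (XT.nd (nat_lit 78) (nat_lit 684) (nat_lit 0) (XT.lf (nat_lit 76) (nat_lit 660761570) (nat_lit 0) (nat_lit 1761402989) (nat_lit 836) (nat_lit 660761570) (nat_lit 359) (nat_lit 1) (nat_lit 358) (nat_lit 1) (nat_lit 369) (nat_lit 1) (nat_lit 411) (nat_lit 387) (nat_lit 342)) (XT.lf (nat_lit 760) (nat_lit 877984587) (nat_lit 0) (nat_lit 1089404495) (nat_lit 684) (nat_lit 1089404495) (nat_lit 359) (nat_lit 1) (nat_lit 349) (nat_lit 1) (nat_lit 358) (nat_lit 1) (nat_lit 412) (nat_lit 387) (nat_lit 341))) (XT.nd (nat_lit 78) (nat_lit 760) (nat_lit 0) (XT.lf (nat_lit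 76) (nat_lit 218664201) (nat_lit 0) (nat_lit 2593731020) (nat_lit 760) (nat_lit 218664201) (nat_lit 350) (nat_lit 1) (nat_lit 349) (nat_lit 1) (nat_lit 359) (nat_lit 1) (nat_lit 413) (nat_lit 387) (nat_lit 340)) (XT.lf (nat_lit 76) (nat_lit 1496948189) (nat_lit 0) (nat_lit 11597363) (nat_lit 760) (nat_lit 1496948189) (nat_lit 340) (nat_lit 1) (nat_lit 339) (nat_lit 1) (nat_lit 349) (nat_lit 1) (nat_lit 414) (nat_lit 387) (nat_lit 339))))))))
noncomputable def ec15 : XT := (XT.nd (nat_lit 57252) (nat_lit 0) (nat_lit 684) (XT.nd (nat_lit 56004) (nat_lit 0) (nat_lit 13528) (XT.nd (nat_lit 55380) (nat_lit 0) (nat_lit 14668) (XT.nd (nat_lit 234) (nat_lit 1292) (nat_lit 0) (XT.nd (nat_lit 78) (nat_lit 684) (nat_lit 0) (XT.lf (nat_lit 760) (nat_lit 2531341411) (nat_lit 0) (nat_lit 224487359) (nat_lit 684) (nat_lit 224487359) (nat_lit 340) (nat_lit 1) (nat_lit 330) (nat_lit 1) (nat_lit 339) (nat_lit 1) (nat_lit 415) (nat_lit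 387) (nat_lit 338)) (XT.nd (nat_lit 78) (nat_lit 684) (nat_lit 0) (XT.lf (nat_lit 76) (nat_lit 1030546149) (nat_lit 0) (nat_lit 894211196) (nat_lit 760) (nat_lit 1030546149) (nat_lit 331) (nat_lit 1) (nat_lit 330) (nat_lit 1) (nat_lit 340) (nat_lit 1) (nat_lit 416) (nat_lit 387) (nat_lit 337)) (XT.lf (nat_lit 760) (nat_lit 1594180788) (nat_lit 0) (nat_lit 668242581) (nat_lit 684) (nat_lit 668242581) (nat_lit 331) (nat_lit 1) (nat_lit 321) (nat_lit 1) (nat_lit 330) (nat_lit 1) (nat_lit 417) (nat_lit 387) (nat_lit 336)))) (XT.nd (nat_lit 156) (nat_lit 684) (nat_lit 0) (XT.nd (nat_lit 78) (nat_lit 608) (nat_lit 0) (XT.lf (nat_lit 76) (nat_lit 562933458) (nat_lit 0) (nat_lit 1780437569) (nat_lit 760) (nat_lit 562933458) (nat_lit 322) (nat_lit 1) (nat_lit 321) (nat_lit 1) (nat_lit 331) (nat_lit 1) (nat_lit 418) (nat_lit 387) (nat_lit 335)) (XT.lf (nat_lit 684) (nat_lit 655022265) (nat_lit 0) (nat_lit 1113584378) (nat_lit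 608) (nat_lit 1113584378) (nat_lit 322) (nat_lit 1) (nat_lit 313) (nat_lit 1) (nat_lit 321) (nat_lit 1) (nat_lit 419) (nat_lit 387) (nat_lit 334))) (XT.nd (nat_lit 78) (nat_lit 684) (nat_lit 0) (XT.lf (nat_lit 76) (nat_lit 94535983) (nat_lit 0) (nat_lit 2669393348) (nat_lit 684) (nat_lit 94535983) (nat_lit 314) (nat_lit 1) (nat_lit 313) (nat_lit 1) (nat_lit 322) (nat_lit 1) (nat_lit 420) (nat_lit 387) (nat_lit 333)) (XT.lf (nat_lit 76) (nat_lit 1276630690) (nat_lit 0) (nat_lit 281562039) (nat_lit 684) (nat_lit 1276630690) (nat_lit 305) (nat_lit 1) (nat_lit 304) (nat_lit 1) (nat_lit 313) (nat_lit 1) (nat_lit 421) (nat_lit 387) (nat_lit 332))))) (XT.nd (nat_lit 312) (nat_lit 0) (nat_lit 152) (XT.nd (nat_lit 156) (nat_lit 0) (nat_lit 76) (XT.nd (nat_lit 78) (nat_lit 0) (nat_lit 0) (XT.lf (nat_lit 1900) (nat_lit 790290442) (nat_lit 0) (nat_lit 796899108) (nat_lit 1900) (nat_lit 790290442) (nat_lit 522) (nat_lit 1)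 (nat_lit 497) (nat_lit 0) (nat_lit 522) (nat_lit 0) (nat_lit 364) (nat_lit 388) (nat_lit 388)) (XT.lf (nat_lit 1900) (nat_lit 3124927228) (nat_lit 76) (nat_lit 791656350) (nat_lit 0) (nat_lit 791656350) (nat_lit 522) (nat_lit 1) (nat_lit 498) (nat_lit 1) (nat_lit 497) (nat_lit 0) (nat_lit 365) (nat_lit 388) (nat_lit 387))) (XT.nd (nat_lit 78) (nat_lit 0) (nat_lit 0) (XT.lf (nat_lit 1900) (nat_lit 1534354144) (nat_lit 0) (nat_lit 1593321885) (nat_lit 1824) (nat_lit 1534354144) (nat_lit 523) (nat_lit 1) (nat_lit 498) (nat_lit 1) (nat_lit 522) (nat_lit 1) (nat_lit 366) (nat_lit 388) (nat_lit 386)) (XT.lf (nat_lit 1900) (nat_lit 3003109299) (nat_lit 76) (nat_lit 806705827) (nat_lit 0) (nat_lit 806705827) (nat_lit 523) (nat_lit 1) (nat_lit 499) (nat_lit 1) (nat_lit 498) (nat_lit 1) (nat_lit 367) (nat_lit 388) (nat_lit 385)))) (XT.nd (nat_lit 156) (nat_lit 0) (nat_lit 76) (XT.nd (nat_lit 78) (nat_lit 0) (nat_lit 0) (XT.lf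 (nat_lit 1900) (nat_lit 1459454211) (nat_lit 0) (nat_lit 1652605685) (nat_lit 1824) (nat_lit 1459454211) (nat_lit 524) (nat_lit 1) (nat_lit 499) (nat_lit 1) (nat_lit 523) (nat_lit 1) (nat_lit 368) (nat_lit 388) (nat_lit 384)) (XT.lf (nat_lit 1900) (nat_lit 2825486139) (nat_lit 76) (nat_lit 850845213) (nat_lit 0) (nat_lit 850845213) (nat_lit 524) (nat_lit 1) (nat_lit 500) (nat_lit 1) (nat_lit 499) (nat_lit 1) (nat_lit 369) (nat_lit 388) (nat_lit 383))) (XT.nd (nat_lit 78) (nat_lit 0) (nat_lit 0) (XT.lf (nat_lit 1900) (nat_lit 1357591918) (nat_lit 0) (nat_lit 1768157651) (nat_lit 1824) (nat_lit 1357591918) (nat_lit 525) (nat_lit 1) (nat_lit 500) (nat_lit 1) (nat_lit 524) (nat_lit 1) (nat_lit 370) (nat_lit 388) (nat_lit 382)) (XT.lf (nat_lit 1900) (nat_lit 2595411707) (nat_lit 76) (nat_lit 922363061) (nat_lit 0) (nat_lit 922363061) (nat_lit 525) (nat_lit 1) (nat_lit 501) (nat_lit 1) (nat_lit 500) (nat_lit 1) (nat_lit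 371) (nat_lit 388) (nat_lit 381)))))) (XT.nd (nat_lit 624) (nat_lit 1444) (nat_lit 0) (XT.nd (nat_lit 312) (nat_lit 0) (nat_lit 152) (XT.nd (nat_lit 156) (nat_lit 0) (nat_lit 76) (XT.nd (nat_lit 78) (nat_lit 0) (nat_lit 0) (XT.lf (nat_lit 1900) (nat_lit 1230399947) (nat_lit 0) (nat_lit 1936644386) (nat_lit 1824) (nat_lit 1230399947) (nat_lit 526) (nat_lit 1) (nat_lit 501) (nat_lit 1) (nat_lit 525) (nat_lit 1) (nat_lit 372) (nat_lit 388) (nat_lit 380)) (XT.lf (nat_lit 1900) (nat_lit 2316086448) (nat_lit 76) (nat_lit 1019625793) (nat_lit 0) (nat_lit 1019625793) (nat_lit 526) (nat_lit 1) (nat_lit 502) (nat_lit 1) (nat_lit 501) (nat_lit 1) (nat_lit 373) (nat_lit 388) (nat_lit 379))) (XT.nd (nat_lit 78) (nat_lit 0) (nat_lit 0) (XT.lf (nat_lit 1900) (nat_lit 1079436099) (nat_lit 0) (nat_lit 2154884452) (nat_lit 1824) (nat_lit 1079436099) (nat_lit 527) (nat_lit 1) (nat_lit 502) (nat_lit 1) (nat_lit 526) (nat_lit 1) (nat_lit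 374) (nat_lit 388) (nat_lit 378)) (XT.lf (nat_lit 1900) (nat_lit 1990563710) (nat_lit 76) (nat_lit 1141074449) (nat_lit 0) (nat_lit 1141074449) (nat_lit 527) (nat_lit 1) (nat_lit 503) (nat_lit 1) (nat_lit 502) (nat_lit 1) (nat_lit 375) (nat_lit 388) (nat_lit 377)))) (XT.nd (nat_lit 156) (nat_lit 0) (nat_lit 76) (XT.nd (nat_lit 78) (nat_lit 0) (nat_lit 0) (XT.lf (nat_lit 1900) (nat_lit 906186423) (nat_lit 0) (nat_lit 2419842025) (nat_lit 1824) (nat_lit 906186423) (nat_lit 528) (nat_lit 1) (nat_lit 503) (nat_lit 1) (nat_lit 527) (nat_lit 1) (nat_lit 376) (nat_lit 388) (nat_lit 376)) (XT.lf (nat_lit 1900) (nat_lit 1621755909) (nat_lit 76) (nat_lit 1285221570) (nat_lit 0) (nat_lit 1285221570) (nat_lit 528) (nat_lit 1) (nat_lit 504) (nat_lit 1) (nat_lit 503) (nat_lit 1) (nat_lit 377) (nat_lit 388) (nat_lit 375))) (XT.nd (nat_lit 78) (nat_lit 0) (nat_lit 0) (XT.lf (nat_lit 1900) (nat_lit 712068226) (nat_lit 0) (nat_lit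 2728620810) (nat_lit 1824) (nat_lit 712068226) (nat_lit 529) (nat_lit 1) (nat_lit 504) (nat_lit 1) (nat_lit 528) (nat_lit 1) (nat_lit 378) (nat_lit 388) (nat_lit 374)) (XT.lf (nat_lit 1900) (nat_lit 1212440436) (nat_lit 76) (nat_lit 1450648209) (nat_lit 0) (nat_lit 1450648209) (nat_lit 529) (nat_lit 1) (nat_lit 505) (nat_lit 1) (nat_lit 504) (nat_lit 1) (nat_lit 379) (nat_lit 388) (nat_lit 373))))) (XT.nd (nat_lit 312) (nat_lit 1748) (nat_lit 0) (XT.nd (nat_lit 156) (nat_lit 0) (nat_lit 76) (XT.nd (nat_lit 78) (nat_lit 0) (nat_lit 0) (XT.lf (nat_lit 1900) (nat_lit 498432956) (nat_lit 0) (nat_lit 3078458200) (nat_lit 1824) (nat_lit 498432956) (nat_lit 530) (nat_lit 1) (nat_lit 505) (nat_lit 1) (nat_lit 529) (nat_lit 1) (nat_lit 380) (nat_lit 388) (nat_lit 372)) (XT.lf (nat_lit 1900) (nat_lit 765265328) (nat_lit 76) (nat_lit 1636001058) (nat_lit 0) (nat_lit 1636001058) (nat_lit 530) (nat_lit 1) (nat_lit 506) (nat_lit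 1) (nat_lit 505) (nat_lit 1) (nat_lit 381) (nat_lit 388) (nat_lit 371))) (XT.nd (nat_lit 78) (nat_lit 0) (nat_lit 0) (XT.lf (nat_lit 1900) (nat_lit 266568974) (nat_lit 0) (nat_lit 3466719664) (nat_lit 1824) (nat_lit 266568974) (nat_lit 531) (nat_lit 1) (nat_lit 506) (nat_lit 1) (nat_lit 530) (nat_lit 1) (nat_lit 382) (nat_lit 388) (nat_lit 370)) (XT.lf (nat_lit 1900) (nat_lit 282754720) (nat_lit 76) (nat_lit 1839989692) (nat_lit 0) (nat_lit 1839989692) (nat_lit 531) (nat_lit 1) (nat_lit 507) (nat_lit 1) (nat_lit 506) (nat_lit 1) (nat_lit 383) (nat_lit 388) (nat_lit 369)))) (XT.nd (nat_lit 156) (nat_lit 0) (nat_lit 0) (XT.nd (nat_lit 78) (nat_lit 1900) (nat_lit 0) (XT.lf (nat_lit 1900) (nat_lit 17704209) (nat_lit 0) (nat_lit 3890893372) (nat_lit 1824) (nat_lit 17704209) (nat_lit 532) (nat_lit 1) (nat_lit 507) (nat_lit 1) (nat_lit 531) (nat_lit 1) (nat_lit 384) (nat_lit 388) (nat_lit 368)) (XT.lf (nat_lit 1976) (nat_lit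 1830208740) (nat_lit 0) (nat_lit 229634219) (nat_lit 1900) (nat_lit 1830208740) (nat_lit 508) (nat_lit 1) (nat_lit 482) (nat_lit 1) (nat_lit 507) (nat_lit 1) (nat_lit 385) (nat_lit 388) (nat_lit 367))) (XT.nd (nat_lit 78) (nat_lit 0) (nat_lit 76) (XT.lf (nat_lit 1976) (nat_lit 3363741038) (nat_lit 76) (nat_lit 245366344) (nat_lit 0) (nat_lit 245366344) (nat_lit 508) (nat_lit 1) (nat_lit 483) (nat_lit 1) (nat_lit 482) (nat_lit 1) (nat_lit 386) (nat_lit 388) (nat_lit 366)) (XT.lf (nat_lit 1976) (nat_lit 1525302674) (nat_lit 0) (nat_lit 768551220) (nat_lit 1900) (nat_lit 1525302674) (nat_lit 509) (nat_lit 1) (nat_lit 483) (nat_lit 1) (nat_lit 508) (nat_lit 1) (nat_lit 387) (nat_lit 388) (nat_lit 365))))))) (XT.nd (nat_lit 1170) (nat_lit 6536) (nat_lit 0) (XT.nd (nat_lit 546) (nat_lit 3496) (nat_lit 0) (XT.nd (nat_lit 234) (nat_lit 1824) (nat_lit 0) (XT.nd (nat_lit 78) (nat_lit 1064) (nat_lit 0) (XT.lf (nat_lit 1976)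 (nat_lit 2738553318) (nat_lit 76) (nat_lit 522939722) (nat_lit 0) (nat_lit 522939722) (nat_lit 509) (nat_lit 1) (nat_lit 484) (nat_lit 1) (nat_lit 483) (nat_lit 1) (nat_lit 388) (nat_lit 388) (nat_lit 364)) (XT.nd (nat_lit 78) (nat_lit 1140) (nat_lit 0) (XT.lf (nat_lit 76) (nat_lit 1207241919) (nat_lit 0) (nat_lit 1335550364) (nat_lit 1900) (nat_lit 1207241919) (nat_lit 485) (nat_lit 1) (nat_lit 484) (nat_lit 1) (nat_lit 509) (nat_lit 1) (nat_lit 389) (nat_lit 388) (nat_lit 363)) (XT.lf (nat_lit 1216) (nat_lit 2087982148) (nat_lit 0) (nat_lit 814077847) (nat_lit 1140) (nat_lit 814077847) (nat_lit 485) (nat_lit 1) (nat_lit 469) (nat_lit 1) (nat_lit 484) (nat_lit 1) (nat_lit 390) (nat_lit 388) (nat_lit 362)))) (XT.nd (nat_lit 156) (nat_lit 912) (nat_lit 0) (XT.nd (nat_lit 78) (nat_lit 912) (nat_lit 0) (XT.lf (nat_lit 76) (nat_lit 877027377) (nat_lit 0) (nat_lit 1928580229) (nat_lit 1216) (nat_lit 877027377) (nat_lit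 470) (nat_lit 1) (nat_lit 469) (nat_lit 1) (nat_lit 485) (nat_lit 1) (nat_lit 391) (nat_lit 388) (nat_lit 361)) (XT.lf (nat_lit 988) (nat_lit 1413986929) (nat_lit 0) (nat_lit 1117776665) (nat_lit 912) (nat_lit 1117776665) (nat_lit 470) (nat_lit 1) (nat_lit 457) (nat_lit 1) (nat_lit 469) (nat_lit 1) (nat_lit 392) (nat_lit 388) (nat_lit 360))) (XT.nd (nat_lit 78) (nat_lit 912) (nat_lit 0) (XT.lf (nat_lit 76) (nat_lit 535611474) (nat_lit 0) (nat_lit 2545687891) (nat_lit 988) (nat_lit 535611474) (nat_lit 458) (nat_lit 1) (nat_lit 457) (nat_lit 1) (nat_lit 470) (nat_lit 1) (nat_lit 393) (nat_lit 388) (nat_lit 359)) (XT.lf (nat_lit 988) (nat_lit 718431884) (nat_lit 0) (nat_lit 1433080469) (nat_lit 912) (nat_lit 1433080469) (nat_lit 458) (nat_lit 1) (nat_lit 445) (nat_lit 1) (nat_lit 457) (nat_lit 1) (nat_lit 394) (nat_lit 388) (nat_lit 358))))) (XT.nd (nat_lit 312) (nat_lit 1672) (nat_lit 0) (XT.nd (nat_lit 156) (nat_lit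 988) (nat_lit 0) (XT.nd (nat_lit 78) (nat_lit 836) (nat_lit 0) (XT.lf (nat_lit 76) (nat_lit 183900232) (nat_lit 0) (nat_lit 3185014737) (nat_lit 988) (nat_lit 183900232) (nat_lit 446) (nat_lit 1) (nat_lit 445) (nat_lit 1) (nat_lit 458) (nat_lit 1) (nat_lit 395) (nat_lit 388) (nat_lit 357)) (XT.lf (nat_lit 912) (nat_lit 3090126) (nat_lit 0) (nat_lit 1759079840) (nat_lit 836) (nat_lit 1759079840) (nat_lit 446) (nat_lit 1) (nat_lit 434) (nat_lit 1) (nat_lit 445) (nat_lit 1) (nat_lit 396) (nat_lit 388) (nat_lit 356))) (XT.nd (nat_lit 78) (nat_lit 0) (nat_lit 0) (XT.lf (nat_lit 988) (nat_lit 3138053242) (nat_lit 0) (nat_lit 176078662) (nat_lit 912) (nat_lit 176078662) (nat_lit 434) (nat_lit 1) (nat_lit 421) (nat_lit 1) (nat_lit 433) (nat_lit 1) (nat_lit 397) (nat_lit 388) (nat_lit 355)) (XT.lf (nat_lit 76) (nat_lit 1369299165) (nat_lit 0) (nat_lit 720773731) (nat_lit 988) (nat_lit 1369299165) (nat_lit 422) (nat_lit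 1) (nat_lit 421) (nat_lit 1) (nat_lit 434) (nat_lit 1) (nat_lit 398) (nat_lit 388) (nat_lit 354)))) (XT.nd (nat_lit 156) (nat_lit 836) (nat_lit 0) (XT.nd (nat_lit 78) (nat_lit 0) (nat_lit 0) (XT.lf (nat_lit 912) (nat_lit 2342233935) (nat_lit 0) (nat_lit 543405659) (nat_lit 836) (nat_lit 543405659) (nat_lit 422) (nat_lit 1) (nat_lit 410) (nat_lit 1) (nat_lit 421) (nat_lit 1) (nat_lit 399) (nat_lit 388) (nat_lit 353)) (XT.lf (nat_lit 76) (nat_lit 969064953) (nat_lit 0) (nat_lit 1460879033) (nat_lit 912) (nat_lit 969064953) (nat_lit 411) (nat_lit 1) (nat_lit 410) (nat_lit 1) (nat_lit 422) (nat_lit 1) (nat_lit 400) (nat_lit 388) (nat_lit 352))) (XT.nd (nat_lit 78) (nat_lit 0) (nat_lit 0) (XT.lf (nat_lit 912) (nat_lit 1532338442) (nat_lit 0) (nat_lit 918517341) (nat_lit 836) (nat_lit 918517341) (nat_lit 411) (nat_lit 1) (nat_lit 399) (nat_lit 1) (nat_lit 410) (nat_lit 1) (nat_lit 401) (nat_lit 388) (nat_lit 351)) (XT.lf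 (nat_lit 76) (nat_lit 562177868) (nat_lit 0) (nat_lit 2215763687) (nat_lit 912) (nat_lit 562177868) (nat_lit 400) (nat_lit 1) (nat_lit 399) (nat_lit 1) (nat_lit 411) (nat_lit 1) (nat_lit 402) (nat_lit 388) (nat_lit 350)))))) (XT.nd (nat_lit 624) (nat_lit 2736) (nat_lit 0) (XT.nd (nat_lit 312) (nat_lit 1444) (nat_lit 0) (XT.nd (nat_lit 156) (nat_lit 1596) (nat_lit 0) (XT.nd (nat_lit 78) (nat_lit 0) (nat_lit 0) (XT.lf (nat_lit 836) (nat_lit 709795297) (nat_lit 0) (nat_lit 1300679097) (nat_lit 760) (nat_lit 1300679097) (nat_lit 400) (nat_lit 1) (nat_lit 389) (nat_lit 1) (nat_lit 399) (nat_lit 1) (nat_lit 403) (nat_lit 388) (nat_lit 349)) (XT.lf (nat_lit 76) (nat_lit 149331432) (nat_lit 0) (nat_lit 2984000488) (nat_lit 836) (nat_lit 149331432) (nat_lit 390) (nat_lit 1) (nat_lit 389) (nat_lit 1) (nat_lit 400) (nat_lit 1) (nat_lit 404) (nat_lit 388) (nat_lit 348))) (XT.nd (nat_lit 78) (nat_lit 760) (nat_lit 0) (XT.lf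 (nat_lit 76) (nat_lit 1565958937) (nat_lit 0) (nat_lit 122412927) (nat_lit 836) (nat_lit 1565958937) (nat_lit 379) (nat_lit 1) (nat_lit 378) (nat_lit 1) (nat_lit 389) (nat_lit 1) (nat_lit 405) (nat_lit 388) (nat_lit 347)) (XT.lf (nat_lit 836) (nat_lit 2692366174) (nat_lit 0) (nat_lit 267047764) (nat_lit 760) (nat_lit 267047764) (nat_lit 379) (nat_lit 1) (nat_lit 368) (nat_lit 1) (nat_lit 378) (nat_lit 1) (nat_lit 406) (nat_lit 388) (nat_lit 346)))) (XT.nd (nat_lit 156) (nat_lit 684) (nat_lit 0) (XT.nd (nat_lit 78) (nat_lit 760) (nat_lit 0) (XT.lf (nat_lit 76) (nat_lit 1121801447) (nat_lit 0) (nat_lit 955186548) (nat_lit 836) (nat_lit 1121801447) (nat_lit 369) (nat_lit 1) (nat_lit 368) (nat_lit 1) (nat_lit 379) (nat_lit 1) (nat_lit 407) (nat_lit 388) (nat_lit 345)) (XT.lf (nat_lit 836) (nat_lit 1797354773) (nat_lit 0) (nat_lit 687090892) (nat_lit 760) (nat_lit 687090892) (nat_lit 369) (nat_lit 1) (nat_lit 358) (nat_lit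 1) (nat_lit 368) (nat_lit 1) (nat_lit 408) (nat_lit 388) (nat_lit 344))) (XT.nd (nat_lit 78) (nat_lit 684) (nat_lit 0) (XT.lf (nat_lit 76) (nat_lit 673976801) (nat_lit 0) (nat_lit 1796631049) (nat_lit 836) (nat_lit 673976801) (nat_lit 359) (nat_lit 1) (nat_lit 358) (nat_lit 1) (nat_lit 369) (nat_lit 1) (nat_lit 409) (nat_lit 388) (nat_lit 343)) (XT.lf (nat_lit 760) (nat_lit 895544279) (nat_lit 0) (nat_lit 1111192585) (nat_lit 684) (nat_lit 1111192585) (nat_lit 359) (nat_lit 1) (nat_lit 349) (nat_lit 1) (nat_lit 358) (nat_lit 1) (nat_lit 410) (nat_lit 388) (nat_lit 342))))) (XT.nd (nat_lit 312) (nat_lit 1292) (nat_lit 0) (XT.nd (nat_lit 156) (nat_lit 684) (nat_lit 0) (XT.nd (nat_lit 78) (nat_lit 760) (nat_lit 0) (XT.lf (nat_lit 76) (nat_lit 223037485) (nat_lit 0) (nat_lit 2645605641) (nat_lit 760) (nat_lit 223037485) (nat_lit 350) (nat_lit 1) (nat_lit 349) (nat_lit 1) (nat_lit 359) (nat_lit 1) (nat_lit 411) (nat_lit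 388) (nat_lit 341)) (XT.lf (nat_lit 76) (nat_lit 1526887153) (nat_lit 0) (nat_lit 11829310) (nat_lit 760) (nat_lit 1526887153) (nat_lit 340) (nat_lit 1) (nat_lit 339) (nat_lit 1) (nat_lit 349) (nat_lit 1) (nat_lit 412) (nat_lit 388) (nat_lit 340))) (XT.nd (nat_lit 78) (nat_lit 0) (nat_lit 0) (XT.lf (nat_lit 760) (nat_lit 2581968240) (nat_lit 0) (nat_lit 228977106) (nat_lit 684) (nat_lit 228977106) (nat_lit 340) (nat_lit 1) (nat_lit 330) (nat_lit 1) (nat_lit 339) (nat_lit 1) (nat_lit 413) (nat_lit 388) (nat_lit 339)) (XT.lf (nat_lit 76) (nat_lit 1051157072) (nat_lit 0) (nat_lit 912095420) (nat_lit 760) (nat_lit 1051157072) (nat_lit 331) (nat_lit 1) (nat_lit 330) (nat_lit 1) (nat_lit 340) (nat_lit 1) (nat_lit 414) (nat_lit 388) (nat_lit 338)))) (XT.nd (nat_lit 156) (nat_lit 608) (nat_lit 0) (XT.nd (nat_lit 78) (nat_lit 0) (nat_lit 0) (XT.lf (nat_lit 760) (nat_lit 1626064404) (nat_lit 0) (nat_lit 681607432) (nat_lit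 684) (nat_lit 681607432) (nat_lit 331) (nat_lit 1) (nat_lit 321) (nat_lit 1) (nat_lit 330) (nat_lit 1) (nat_lit 415) (nat_lit 388) (nat_lit 337)) (XT.lf (nat_lit 76) (nat_lit 574192127) (nat_lit 0) (nat_lit 1816046320) (nat_lit 760) (nat_lit 574192127) (nat_lit 322) (nat_lit 1) (nat_lit 321) (nat_lit 1) (nat_lit 331) (nat_lit 1) (nat_lit 416) (nat_lit 388) (nat_lit 336))) (XT.nd (nat_lit 78) (nat_lit 0) (nat_lit 0) (XT.lf (nat_lit 684) (nat_lit 668122710) (nat_lit 0) (nat_lit 1135856066) (nat_lit 608) (nat_lit 1135856066) (nat_lit 322) (nat_lit 1) (nat_lit 313) (nat_lit 1) (nat_lit 321) (nat_lit 1) (nat_lit 417) (nat_lit 388) (nat_lit 335)) (XT.lf (nat_lit 76) (nat_lit 96426702) (nat_lit 0) (nat_lit 2722781215) (nat_lit 684) (nat_lit 96426702) (nat_lit 314) (nat_lit 1) (nat_lit 313) (nat_lit 1) (nat_lit 322) (nat_lit 1) (nat_lit 418) (nat_lit 388) (nat_lit 334))))))))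
noncomputable def ec16 : XT := (XT.nd (nat_lit 57018) (nat_lit 0) (nat_lit 0) (XT.nd (nat_lit 55848) (nat_lit 0) (nat_lit 13148) (XT.nd (nat_lit 55224) (nat_lit 0) (nat_lit 15428) (XT.nd (nat_lit 54912) (nat_lit 0) (nat_lit 15276) (XT.nd (nat_lit 78) (nat_lit 608) (nat_lit 0) (XT.lf (nat_lit 76) (nat_lit 1302163304) (nat_lit 0) (nat_lit 287193280) (nat_lit 684) (nat_lit 1302163304) (nat_lit 305) (nat_lit 1) (nat_lit 304) (nat_lit 1) (nat_lit 313) (nat_lit 1) (nat_lit 419) (nat_lit 388) (nat_lit 333)) (XT.nd (nat_lit 78) (nat_lit 0) (nat_lit 0) (XT.lf (nat_lit 684) (nat_lit 2109355905) (nat_lit 0) (nat_lit 379217887) (nat_lit 608) (nat_lit 379217887) (nat_lit 305) (nat_lit 1) (nat_lit 296) (nat_lit 1) (nat_lit 304) (nat_lit 1) (nat_lit 420) (nat_lit 388) (nat_lit 332)) (XT.lf (nat_lit 76) (nat_lit 805060632) (nat_lit 0) (nat_lit 1234133556) (nat_lit 684) (nat_lit 805060632) (nat_lit 297) (nat_lit 1) (nat_lit 296)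 (nat_lit 1) (nat_lit 305) (nat_lit 1) (nat_lit 421) (nat_lit 388) (nat_lit 331)))) (XT.nd (nat_lit 156) (nat_lit 0) (nat_lit 76) (XT.nd (nat_lit 78) (nat_lit 0) (nat_lit 0) (XT.lf (nat_lit 1900) (nat_lit 806096250) (nat_lit 0) (nat_lit 812837090) (nat_lit 1900) (nat_lit 806096250) (nat_lit 522) (nat_lit 1) (nat_lit 497) (nat_lit 0) (nat_lit 522) (nat_lit 0) (nat_lit 362) (nat_lit 389) (nat_lit 389)) (XT.lf (nat_lit 1900) (nat_lit 3187425773) (nat_lit 76) (nat_lit 807489477) (nat_lit 0) (nat_lit 807489477) (nat_lit 522) (nat_lit 1) (nat_lit 498) (nat_lit 1) (nat_lit 497) (nat_lit 0) (nat_lit 363) (nat_lit 389) (nat_lit 388))) (XT.nd (nat_lit 78) (nat_lit 0) (nat_lit 0) (XT.lf (nat_lit 1900) (nat_lit 1565041227) (nat_lit 0) (nat_lit 1625188323) (nat_lit 1824) (nat_lit 1565041227) (nat_lit 523) (nat_lit 1) (nat_lit 498) (nat_lit 1) (nat_lit 522) (nat_lit 1) (nat_lit 364) (nat_lit 389) (nat_lit 387)) (XT.lf (nat_lit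 1900) (nat_lit 3063171485) (nat_lit 76) (nat_lit 822839944) (nat_lit 0) (nat_lit 822839944) (nat_lit 523) (nat_lit 1) (nat_lit 499) (nat_lit 1) (nat_lit 498) (nat_lit 1) (nat_lit 365) (nat_lit 389) (nat_lit 386))))) (XT.nd (nat_lit 312) (nat_lit 0) (nat_lit 152) (XT.nd (nat_lit 156) (nat_lit 0) (nat_lit 76) (XT.nd (nat_lit 78) (nat_lit 0) (nat_lit 0) (XT.lf (nat_lit 1900) (nat_lit 1488643296) (nat_lit 0) (nat_lit 1685657798) (nat_lit 1824) (nat_lit 1488643296) (nat_lit 524) (nat_lit 1) (nat_lit 499) (nat_lit 1) (nat_lit 523) (nat_lit 1) (nat_lit 366) (nat_lit 389) (nat_lit 385)) (XT.lf (nat_lit 1900) (nat_lit 2881995862) (nat_lit 76) (nat_lit 867862117) (nat_lit 0) (nat_lit 867862117) (nat_lit 524) (nat_lit 1) (nat_lit 500) (nat_lit 1) (nat_lit 499) (nat_lit 1) (nat_lit 367) (nat_lit 389) (nat_lit 384))) (XT.nd (nat_lit 78) (nat_lit 0) (nat_lit 0) (XT.lf (nat_lit 1900) (nat_lit 1384743756) (nat_lit 0) (nat_lit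 1803520804) (nat_lit 1824) (nat_lit 1384743756) (nat_lit 525) (nat_lit 1) (nat_lit 500) (nat_lit 1) (nat_lit 524) (nat_lit 1) (nat_lit 368) (nat_lit 389) (nat_lit 383)) (XT.lf (nat_lit 1900) (nat_lit 2647319942) (nat_lit 76) (nat_lit 940810322) (nat_lit 0) (nat_lit 940810322) (nat_lit 525) (nat_lit 1) (nat_lit 501) (nat_lit 1) (nat_lit 500) (nat_lit 1) (nat_lit 369) (nat_lit 389) (nat_lit 382)))) (XT.nd (nat_lit 156) (nat_lit 0) (nat_lit 76) (XT.nd (nat_lit 78) (nat_lit 0) (nat_lit 0) (XT.lf (nat_lit 1900) (nat_lit 1255007946) (nat_lit 0) (nat_lit 1975377274) (nat_lit 1824) (nat_lit 1255007946) (nat_lit 526) (nat_lit 1) (nat_lit 501) (nat_lit 1) (nat_lit 525) (nat_lit 1) (nat_lit 370) (nat_lit 389) (nat_lit 381)) (XT.lf (nat_lit 1900) (nat_lit 2362408177) (nat_lit 76) (nat_lit 1040018309) (nat_lit 0) (nat_lit 1040018309) (nat_lit 526) (nat_lit 1) (nat_lit 502) (nat_lit 1) (nat_lit 501) (nat_lit 1) (nat_lit 371)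 (nat_lit 389) (nat_lit 380))) (XT.nd (nat_lit 78) (nat_lit 0) (nat_lit 0) (XT.lf (nat_lit 1900) (nat_lit 1101024821) (nat_lit 0) (nat_lit 2197982141) (nat_lit 1824) (nat_lit 1101024821) (nat_lit 527) (nat_lit 1) (nat_lit 502) (nat_lit 1) (nat_lit 526) (nat_lit 1) (nat_lit 372) (nat_lit 389) (nat_lit 379)) (XT.lf (nat_lit 1900) (nat_lit 2030374984) (nat_lit 76) (nat_lit 1163895938) (nat_lit 0) (nat_lit 1163895938) (nat_lit 527) (nat_lit 1) (nat_lit 503) (nat_lit 1) (nat_lit 502) (nat_lit 1) (nat_lit 373) (nat_lit 389) (nat_lit 378)))))) (XT.nd (nat_lit 546) (nat_lit 2584) (nat_lit 0) (XT.nd (nat_lit 234) (nat_lit 0) (nat_lit 76) (XT.nd (nat_lit 78) (nat_lit 0) (nat_lit 0) (XT.lf (nat_lit 1900) (nat_lit 924310152) (nat_lit 0) (nat_lit 2468238865) (nat_lit 1824) (nat_lit 924310152) (nat_lit 528) (nat_lit 1) (nat_lit 503) (nat_lit 1) (nat_lit 527) (nat_lit 1) (nat_lit 374) (nat_lit 389) (nat_lit 377)) (XT.nd (nat_lit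 78) (nat_lit 0) (nat_lit 76) (XT.lf (nat_lit 1900) (nat_lit 1654191028) (nat_lit 76) (nat_lit 1310926002) (nat_lit 0) (nat_lit 1310926002) (nat_lit 528) (nat_lit 1) (nat_lit 504) (nat_lit 1) (nat_lit 503) (nat_lit 1) (nat_lit 375) (nat_lit 389) (nat_lit 376)) (XT.lf (nat_lit 1900) (nat_lit 726309591) (nat_lit 0) (nat_lit 2783193226) (nat_lit 1824) (nat_lit 726309591) (nat_lit 529) (nat_lit 1) (nat_lit 504) (nat_lit 1) (nat_lit 528) (nat_lit 1) (nat_lit 376) (nat_lit 389) (nat_lit 375)))) (XT.nd (nat_lit 156) (nat_lit 0) (nat_lit 76) (XT.nd (nat_lit 78) (nat_lit 0) (nat_lit 76) (XT.lf (nat_lit 1900) (nat_lit 1236689244) (nat_lit 76) (nat_lit 1479661174) (nat_lit 0) (nat_lit 1479661174) (nat_lit 529) (nat_lit 1) (nat_lit 505) (nat_lit 1) (nat_lit 504) (nat_lit 1) (nat_lit 377) (nat_lit 389) (nat_lit 374)) (XT.lf (nat_lit 1900) (nat_lit 508401616) (nat_lit 0) (nat_lit 3140027364) (nat_lit 1824) (nat_lit 508401616)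 (nat_lit 530) (nat_lit 1) (nat_lit 505) (nat_lit 1) (nat_lit 529) (nat_lit 1) (nat_lit 378) (nat_lit 389) (nat_lit 373))) (XT.nd (nat_lit 78) (nat_lit 0) (nat_lit 76) (XT.lf (nat_lit 1900) (nat_lit 780570635) (nat_lit 76) (nat_lit 1668721079) (nat_lit 0) (nat_lit 1668721079) (nat_lit 530) (nat_lit 1) (nat_lit 506) (nat_lit 1) (nat_lit 505) (nat_lit 1) (nat_lit 379) (nat_lit 389) (nat_lit 372)) (XT.lf (nat_lit 1900) (nat_lit 271900354) (nat_lit 0) (nat_lit 3536054058) (nat_lit 1824) (nat_lit 271900354) (nat_lit 531) (nat_lit 1) (nat_lit 506) (nat_lit 1) (nat_lit 530) (nat_lit 1) (nat_lit 380) (nat_lit 389) (nat_lit 371))))) (XT.nd (nat_lit 312) (nat_lit 988) (nat_lit 0) (XT.nd (nat_lit 156) (nat_lit 1824) (nat_lit 0) (XT.nd (nat_lit 78) (nat_lit 0) (nat_lit 76) (XT.lf (nat_lit 1900) (nat_lit 288409815) (nat_lit 76) (nat_lit 1876789486) (nat_lit 0) (nat_lit 1876789486) (nat_lit 531) (nat_lit 1) (nat_lit 507) (nat_lit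 1) (nat_lit 506) (nat_lit 1) (nat_lit 381) (nat_lit 389) (nat_lit 370)) (XT.lf (nat_lit 1900) (nat_lit 18058293) (nat_lit 0) (nat_lit 3968711239) (nat_lit 1824) (nat_lit 18058293) (nat_lit 532) (nat_lit 1) (nat_lit 507) (nat_lit 1) (nat_lit 531) (nat_lit 1) (nat_lit 382) (nat_lit 389) (nat_lit 369))) (XT.nd (nat_lit 78) (nat_lit 0) (nat_lit 0) (XT.lf (nat_lit 1976) (nat_lit 1866812915) (nat_lit 0) (nat_lit 234226903) (nat_lit 1900) (nat_lit 1866812915) (nat_lit 508) (nat_lit 1) (nat_lit 482) (nat_lit 1) (nat_lit 507) (nat_lit 1) (nat_lit 383) (nat_lit 389) (nat_lit 368)) (XT.lf (nat_lit 1976) (nat_lit 3431015859) (nat_lit 76) (nat_lit 250273671) (nat_lit 0) (nat_lit 250273671) (nat_lit 508) (nat_lit 1) (nat_lit 483) (nat_lit 1) (nat_lit 482) (nat_lit 1) (nat_lit 384) (nat_lit 389) (nat_lit 367)))) (XT.nd (nat_lit 156) (nat_lit 1064) (nat_lit 0) (XT.nd (nat_lit 78) (nat_lit 0) (nat_lit 0) (XT.lf (nat_lit 1976) (nat_lit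 1555808728) (nat_lit 0) (nat_lit 783922244) (nat_lit 1900) (nat_lit 1555808728) (nat_lit 509) (nat_lit 1) (nat_lit 483) (nat_lit 1) (nat_lit 508) (nat_lit 1) (nat_lit 385) (nat_lit 389) (nat_lit 366)) (XT.lf (nat_lit 1976) (nat_lit 2793324384) (nat_lit 76) (nat_lit 533398516) (nat_lit 0) (nat_lit 533398516) (nat_lit 509) (nat_lit 1) (nat_lit 484) (nat_lit 1) (nat_lit 483) (nat_lit 1) (nat_lit 386) (nat_lit 389) (nat_lit 365))) (XT.nd (nat_lit 78) (nat_lit 1140) (nat_lit 0) (XT.lf (nat_lit 76) (nat_lit 1231386757) (nat_lit 0) (nat_lit 1362261372) (nat_lit 1900) (nat_lit 1231386757) (nat_lit 485) (nat_lit 1) (nat_lit 484) (nat_lit 1) (nat_lit 509) (nat_lit 1) (nat_lit 387) (nat_lit 389) (nat_lit 364)) (XT.lf (nat_lit 1216) (nat_lit 2129741791) (nat_lit 0) (nat_lit 830359404) (nat_lit 1140) (nat_lit 830359404) (nat_lit 485) (nat_lit 1) (nat_lit 469) (nat_lit 1) (nat_lit 484) (nat_lit 1) (nat_lit 388) (nat_lit 389)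 (nat_lit 363))))))) (XT.nd (nat_lit 1170) (nat_lit 6232) (nat_lit 0) (XT.nd (nat_lit 546) (nat_lit 3268) (nat_lit 0) (XT.nd (nat_lit 234) (nat_lit 2736) (nat_lit 0) (XT.nd (nat_lit 78) (nat_lit 912) (nat_lit 0) (XT.lf (nat_lit 76) (nat_lit 894567925) (nat_lit 0) (nat_lit 1967151834) (nat_lit 1216) (nat_lit 894567925) (nat_lit 470) (nat_lit 1) (nat_lit 469) (nat_lit 1) (nat_lit 485) (nat_lit 1) (nat_lit 389) (nat_lit 389) (nat_lit 362)) (XT.nd (nat_lit 78) (nat_lit 0) (nat_lit 0) (XT.lf (nat_lit 988) (nat_lit 1442266668) (nat_lit 0) (nat_lit 1140132198) (nat_lit 912) (nat_lit 1140132198) (nat_lit 470) (nat_lit 1) (nat_lit 457) (nat_lit 1) (nat_lit 469) (nat_lit 1) (nat_lit 390) (nat_lit 389) (nat_lit 361)) (XT.lf (nat_lit 76) (nat_lit 546323704) (nat_lit 0) (nat_lit 2596601649) (nat_lit 988) (nat_lit 546323704) (nat_lit 458) (nat_lit 1) (nat_lit 457) (nat_lit 1) (nat_lit 470) (nat_lit 1) (nat_lit 391) (nat_lit 389)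 (nat_lit 360)))) (XT.nd (nat_lit 156) (nat_lit 1824) (nat_lit 0) (XT.nd (nat_lit 78) (nat_lit 0) (nat_lit 0) (XT.lf (nat_lit 988) (nat_lit 732800522) (nat_lit 0) (nat_lit 1461742078) (nat_lit 912) (nat_lit 1461742078) (nat_lit 458) (nat_lit 1) (nat_lit 445) (nat_lit 1) (nat_lit 457) (nat_lit 1) (nat_lit 392) (nat_lit 389) (nat_lit 359)) (XT.lf (nat_lit 76) (nat_lit 187578236) (nat_lit 0) (nat_lit 3248715032) (nat_lit 988) (nat_lit 187578236) (nat_lit 446) (nat_lit 1) (nat_lit 445) (nat_lit 1) (nat_lit 458) (nat_lit 1) (nat_lit 393) (nat_lit 389) (nat_lit 358))) (XT.nd (nat_lit 78) (nat_lit 988) (nat_lit 0) (XT.lf (nat_lit 912) (nat_lit 3151928) (nat_lit 0) (nat_lit 1794261437) (nat_lit 836) (nat_lit 1794261437) (nat_lit 446) (nat_lit 1) (nat_lit 434) (nat_lit 1) (nat_lit 445) (nat_lit 1) (nat_lit 394) (nat_lit 389) (nat_lit 357)) (XT.lf (nat_lit 988) (nat_lit 3200814307) (nat_lit 0) (nat_lit 179600236) (nat_lit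 912) (nat_lit 179600236) (nat_lit 434) (nat_lit 1) (nat_lit 421) (nat_lit 1) (nat_lit 433) (nat_lit 1) (nat_lit 395) (nat_lit 389) (nat_lit 356))))) (XT.nd (nat_lit 312) (nat_lit 1596) (nat_lit 0) (XT.nd (nat_lit 156) (nat_lit 836) (nat_lit 0) (XT.nd (nat_lit 78) (nat_lit 836) (nat_lit 0) (XT.lf (nat_lit 76) (nat_lit 1396685148) (nat_lit 0) (nat_lit 735189206) (nat_lit 988) (nat_lit 1396685148) (nat_lit 422) (nat_lit 1) (nat_lit 421) (nat_lit 1) (nat_lit 434) (nat_lit 1) (nat_lit 396) (nat_lit 389) (nat_lit 355)) (XT.lf (nat_lit 912) (nat_lit 2389078613) (nat_lit 0) (nat_lit 554273772) (nat_lit 836) (nat_lit 554273772) (nat_lit 422) (nat_lit 1) (nat_lit 410) (nat_lit 1) (nat_lit 421) (nat_lit 1) (nat_lit 397) (nat_lit 389) (nat_lit 354))) (XT.nd (nat_lit 78) (nat_lit 836) (nat_lit 0) (XT.lf (nat_lit 76) (nat_lit 988446253) (nat_lit 0) (nat_lit 1490096614) (nat_lit 912) (nat_lit 988446253) (nat_lit 411) (nat_lit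 1) (nat_lit 410) (nat_lit 1) (nat_lit 422) (nat_lit 1) (nat_lit 398) (nat_lit 389) (nat_lit 353)) (XT.lf (nat_lit 912) (nat_lit 1562985211) (nat_lit 0) (nat_lit 936887687) (nat_lit 836) (nat_lit 936887687) (nat_lit 411) (nat_lit 1) (nat_lit 399) (nat_lit 1) (nat_lit 410) (nat_lit 1) (nat_lit 399) (nat_lit 389) (nat_lit 352)))) (XT.nd (nat_lit 156) (nat_lit 836) (nat_lit 0) (XT.nd (nat_lit 78) (nat_lit 760) (nat_lit 0) (XT.lf (nat_lit 76) (nat_lit 573421425) (nat_lit 0) (nat_lit 2260078961) (nat_lit 912) (nat_lit 573421425) (nat_lit 400) (nat_lit 1) (nat_lit 399) (nat_lit 1) (nat_lit 411) (nat_lit 1) (nat_lit 400) (nat_lit 389) (nat_lit 351)) (XT.lf (nat_lit 836) (nat_lit 723991203) (nat_lit 0) (nat_lit 1326692679) (nat_lit 760) (nat_lit 1326692679) (nat_lit 400) (nat_lit 1) (nat_lit 389) (nat_lit 1) (nat_lit 399) (nat_lit 1) (nat_lit 401) (nat_lit 389) (nat_lit 350))) (XT.nd (nat_lit 78) (nat_lit 836) (nat_lit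 0) (XT.lf (nat_lit 76) (nat_lit 152318060) (nat_lit 0) (nat_lit 3043680497) (nat_lit 836) (nat_lit 152318060) (nat_lit 390) (nat_lit 1) (nat_lit 389) (nat_lit 1) (nat_lit 400) (nat_lit 1) (nat_lit 402) (nat_lit 389) (nat_lit 349)) (XT.lf (nat_lit 76) (nat_lit 1597278116) (nat_lit 0) (nat_lit 124861185) (nat_lit 836) (nat_lit 1597278116) (nat_lit 379) (nat_lit 1) (nat_lit 378) (nat_lit 1) (nat_lit 389) (nat_lit 1) (nat_lit 403) (nat_lit 389) (nat_lit 348)))))) (XT.nd (nat_lit 624) (nat_lit 2584) (nat_lit 0) (XT.nd (nat_lit 312) (nat_lit 2128) (nat_lit 0) (XT.nd (nat_lit 156) (nat_lit 760) (nat_lit 0) (XT.nd (nat_lit 78) (nat_lit 0) (nat_lit 0) (XT.lf (nat_lit 836) (nat_lit 2746213497) (nat_lit 0) (nat_lit 272388719) (nat_lit 760) (nat_lit 272388719) (nat_lit 379) (nat_lit 1) (nat_lit 368) (nat_lit 1) (nat_lit 378) (nat_lit 1) (nat_lit 404) (nat_lit 389) (nat_lit 347)) (XT.lf (nat_lit 76) (nat_lit 1144237476) (nat_lit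 0) (nat_lit 974290279) (nat_lit 836) (nat_lit 1144237476) (nat_lit 369) (nat_lit 1) (nat_lit 368) (nat_lit 1) (nat_lit 379) (nat_lit 1) (nat_lit 405) (nat_lit 389) (nat_lit 346))) (XT.nd (nat_lit 78) (nat_lit 0) (nat_lit 0) (XT.lf (nat_lit 836) (nat_lit 1833301868) (nat_lit 0) (nat_lit 700832710) (nat_lit 760) (nat_lit 700832710) (nat_lit 369) (nat_lit 1) (nat_lit 358) (nat_lit 1) (nat_lit 368) (nat_lit 1) (nat_lit 406) (nat_lit 389) (nat_lit 345)) (XT.lf (nat_lit 76) (nat_lit 687456337) (nat_lit 0) (nat_lit 1832563670) (nat_lit 836) (nat_lit 687456337) (nat_lit 359) (nat_lit 1) (nat_lit 358) (nat_lit 1) (nat_lit 369) (nat_lit 1) (nat_lit 407) (nat_lit 389) (nat_lit 344)))) (XT.nd (nat_lit 156) (nat_lit 1444) (nat_lit 0) (XT.nd (nat_lit 78) (nat_lit 0) (nat_lit 0) (XT.lf (nat_lit 760) (nat_lit 913455165) (nat_lit 0) (nat_lit 1133416437) (nat_lit 684) (nat_lit 1133416437) (nat_lit 359) (nat_lit 1) (nat_lit 349)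 (nat_lit 1) (nat_lit 358) (nat_lit 1) (nat_lit 408) (nat_lit 389) (nat_lit 343)) (XT.lf (nat_lit 76) (nat_lit 227498234) (nat_lit 0) (nat_lit 2698517754) (nat_lit 760) (nat_lit 227498234) (nat_lit 350) (nat_lit 1) (nat_lit 349) (nat_lit 1) (nat_lit 359) (nat_lit 1) (nat_lit 409) (nat_lit 389) (nat_lit 342))) (XT.nd (nat_lit 78) (nat_lit 684) (nat_lit 0) (XT.lf (nat_lit 76) (nat_lit 1557424896) (nat_lit 0) (nat_lit 12065896) (nat_lit 760) (nat_lit 1557424896) (nat_lit 340) (nat_lit 1) (nat_lit 339) (nat_lit 1) (nat_lit 349) (nat_lit 1) (nat_lit 410) (nat_lit 389) (nat_lit 341)) (XT.lf (nat_lit 760) (nat_lit 2633607605) (nat_lit 0) (nat_lit 233556649) (nat_lit 684) (nat_lit 233556649) (nat_lit 340) (nat_lit 1) (nat_lit 330) (nat_lit 1) (nat_lit 339) (nat_lit 1) (nat_lit 411) (nat_lit 389) (nat_lit 340))))) (XT.nd (nat_lit 312) (nat_lit 1292) (nat_lit 0) (XT.nd (nat_lit 156) (nat_lit 608) (nat_lit 0) (XT.nd (nat_lit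 78) (nat_lit 684) (nat_lit 0) (XT.lf (nat_lit 76) (nat_lit 1072180213) (nat_lit 0) (nat_lit 930337328) (nat_lit 760) (nat_lit 1072180213) (nat_lit 331) (nat_lit 1) (nat_lit 330) (nat_lit 1) (nat_lit 340) (nat_lit 1) (nat_lit 412) (nat_lit 389) (nat_lit 339)) (XT.lf (nat_lit 760) (nat_lit 1658585692) (nat_lit 0) (nat_lit 695239581) (nat_lit 684) (nat_lit 695239581) (nat_lit 331) (nat_lit 1) (nat_lit 321) (nat_lit 1) (nat_lit 330) (nat_lit 1) (nat_lit 413) (nat_lit 389) (nat_lit 338))) (XT.nd (nat_lit 78) (nat_lit 608) (nat_lit 0) (XT.lf (nat_lit 76) (nat_lit 585675970) (nat_lit 0) (nat_lit 1852367246) (nat_lit 760) (nat_lit 585675970) (nat_lit 322) (nat_lit 1) (nat_lit 321) (nat_lit 1) (nat_lit 331) (nat_lit 1) (nat_lit 414) (nat_lit 389) (nat_lit 337)) (XT.lf (nat_lit 684) (nat_lit 681485164) (nat_lit 0) (nat_lit 1158573187) (nat_lit 608) (nat_lit 1158573187) (nat_lit 322) (nat_lit 1) (nat_lit 313) (nat_lit 1)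 (nat_lit 321) (nat_lit 1) (nat_lit 415) (nat_lit 389) (nat_lit 336)))) (XT.nd (nat_lit 156) (nat_lit 608) (nat_lit 0) (XT.nd (nat_lit 78) (nat_lit 684) (nat_lit 0) (XT.lf (nat_lit 76) (nat_lit 98355236) (nat_lit 0) (nat_lit 2777236840) (nat_lit 684) (nat_lit 98355236) (nat_lit 314) (nat_lit 1) (nat_lit 313) (nat_lit 1) (nat_lit 322) (nat_lit 1) (nat_lit 416) (nat_lit 389) (nat_lit 335)) (XT.lf (nat_lit 76) (nat_lit 1328206570) (nat_lit 0) (nat_lit 292937146) (nat_lit 684) (nat_lit 1328206570) (nat_lit 305) (nat_lit 1) (nat_lit 304) (nat_lit 1) (nat_lit 313) (nat_lit 1) (nat_lit 417) (nat_lit 389) (nat_lit 334))) (XT.nd (nat_lit 78) (nat_lit 0) (nat_lit 0) (XT.lf (nat_lit 684) (nat_lit 2151543023) (nat_lit 0) (nat_lit 386802244) (nat_lit 608) (nat_lit 386802244) (nat_lit 305) (nat_lit 1) (nat_lit 296) (nat_lit 1) (nat_lit 304) (nat_lit 1) (nat_lit 418) (nat_lit 389) (nat_lit 333)) (XT.lf (nat_lit 76) (nat_lit 821161845)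 (nat_lit 0) (nat_lit 1258816227) (nat_lit 684) (nat_lit 821161845) (nat_lit 297) (nat_lit 1) (nat_lit 296) (nat_lit 1) (nat_lit 305) (nat_lit 1) (nat_lit 419) (nat_lit 389) (nat_lit 332))))))))
noncomputable def ec17 : XT := (XT.nd (nat_lit 56940) (nat_lit 0) (nat_lit 0) (XT.nd (nat_lit 55692) (nat_lit 0) (nat_lit 12844) (XT.nd (nat_lit 55068) (nat_lit 0) (nat_lit 16036) (XT.nd (nat_lit 54756) (nat_lit 0) (nat_lit 15884) (XT.nd (nat_lit 78) (nat_lit 0) (nat_lit 0) (XT.lf (nat_lit 684) (nat_lit 1134807365) (nat_lit 0) (nat_lit 871316654) (nat_lit 608) (nat_lit 871316654) (nat_lit 297) (nat_lit 1) (nat_lit 288) (nat_lit 1) (nat_lit 296) (nat_lit 1) (nat_lit 420) (nat_lit 389) (nat_lit 331)) (XT.nd (nat_lit 54600) (nat_lit 0) (nat_lit 15884) (XT.lf (nat_lit 76) (nat_lit 314863530) (nat_lit 0) (nat_lit 2224331703) (nat_lit 684) (nat_lit 314863530) (nat_lit 289) (nat_lit 1) (nat_lit 288) (nat_lit 1) (nat_lit 297) (nat_lit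 1) (nat_lit 421) (nat_lit 389) (nat_lit 330)) (XT.lf (nat_lit 1900) (nat_lit 822218175) (nat_lit 0) (nat_lit 829093832) (nat_lit 1900) (nat_lit 822218175) (nat_lit 522) (nat_lit 1) (nat_lit 497) (nat_lit 0) (nat_lit 522) (nat_lit 0) (nat_lit 360) (nat_lit 390) (nat_lit 390)))) (XT.nd (nat_lit 156) (nat_lit 0) (nat_lit 76) (XT.nd (nat_lit 78) (nat_lit 0) (nat_lit 76) (XT.lf (nat_lit 1900) (nat_lit 3251174288) (nat_lit 76) (nat_lit 823639267) (nat_lit 0) (nat_lit 823639267) (nat_lit 522) (nat_lit 1) (nat_lit 498) (nat_lit 1) (nat_lit 497) (nat_lit 0) (nat_lit 361) (nat_lit 390) (nat_lit 389)) (XT.lf (nat_lit 1900) (nat_lit 1596342051) (nat_lit 0) (nat_lit 1657692089) (nat_lit 1824) (nat_lit 1596342051) (nat_lit 523) (nat_lit 1) (nat_lit 498) (nat_lit 1) (nat_lit 522) (nat_lit 1) (nat_lit 362) (nat_lit 390) (nat_lit 388))) (XT.nd (nat_lit 78) (nat_lit 0) (nat_lit 76) (XT.lf (nat_lit 1900) (nat_lit 3124434914) (nat_lit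 76) (nat_lit 839296743) (nat_lit 0) (nat_lit 839296743) (nat_lit 523) (nat_lit 1) (nat_lit 499) (nat_lit 1) (nat_lit 498) (nat_lit 1) (nat_lit 363) (nat_lit 390) (nat_lit 387)) (XT.lf (nat_lit 1900) (nat_lit 1518416161) (nat_lit 0) (nat_lit 1719370954) (nat_lit 1824) (nat_lit 1518416161) (nat_lit 524) (nat_lit 1) (nat_lit 499) (nat_lit 1) (nat_lit 523) (nat_lit 1) (nat_lit 364) (nat_lit 390) (nat_lit 386))))) (XT.nd (nat_lit 312) (nat_lit 0) (nat_lit 152) (XT.nd (nat_lit 156) (nat_lit 0) (nat_lit 76) (XT.nd (nat_lit 78) (nat_lit 0) (nat_lit 76) (XT.lf (nat_lit 1900) (nat_lit 2939635779) (nat_lit 76) (nat_lit 885219359) (nat_lit 0) (nat_lit 885219359) (nat_lit 524) (nat_lit 1) (nat_lit 500) (nat_lit 1) (nat_lit 499) (nat_lit 1) (nat_lit 365) (nat_lit 390) (nat_lit 385)) (XT.lf (nat_lit 1900) (nat_lit 1412438631) (nat_lit 0) (nat_lit 1839591220) (nat_lit 1824) (nat_lit 1412438631) (nat_lit 525) (nat_lit 1) (nat_lit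 500) (nat_lit 1) (nat_lit 524) (nat_lit 1) (nat_lit 366) (nat_lit 390) (nat_lit 384))) (XT.nd (nat_lit 78) (nat_lit 0) (nat_lit 76) (XT.lf (nat_lit 1900) (nat_lit 2700266340) (nat_lit 76) (nat_lit 959626529) (nat_lit 0) (nat_lit 959626529) (nat_lit 525) (nat_lit 1) (nat_lit 501) (nat_lit 1) (nat_lit 500) (nat_lit 1) (nat_lit 367) (nat_lit 390) (nat_lit 383)) (XT.lf (nat_lit 1900) (nat_lit 1280108105) (nat_lit 0) (nat_lit 2014884819) (nat_lit 1824) (nat_lit 1280108105) (nat_lit 526) (nat_lit 1) (nat_lit 501) (nat_lit 1) (nat_lit 525) (nat_lit 1) (nat_lit 368) (nat_lit 390) (nat_lit 382)))) (XT.nd (nat_lit 156) (nat_lit 0) (nat_lit 76) (XT.nd (nat_lit 78) (nat_lit 0) (nat_lit 76) (XT.lf (nat_lit 1900) (nat_lit 2409656340) (nat_lit 76) (nat_lit 1060818675) (nat_lit 0) (nat_lit 1060818675) (nat_lit 526) (nat_lit 1) (nat_lit 502) (nat_lit 1) (nat_lit 501) (nat_lit 1) (nat_lit 369) (nat_lit 390) (nat_lit 381)) (XT.lf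 (nat_lit 1900) (nat_lit 1123045317) (nat_lit 0) (nat_lit 2241941784) (nat_lit 1824) (nat_lit 1123045317) (nat_lit 527) (nat_lit 1) (nat_lit 502) (nat_lit 1) (nat_lit 526) (nat_lit 1) (nat_lit 370) (nat_lit 390) (nat_lit 380))) (XT.nd (nat_lit 78) (nat_lit 0) (nat_lit 76) (XT.lf (nat_lit 1900) (nat_lit 2070982484) (nat_lit 76) (nat_lit 1187173857) (nat_lit 0) (nat_lit 1187173857) (nat_lit 527) (nat_lit 1) (nat_lit 503) (nat_lit 1) (nat_lit 502) (nat_lit 1) (nat_lit 371) (nat_lit 390) (nat_lit 379)) (XT.lf (nat_lit 1900) (nat_lit 942796355) (nat_lit 0) (nat_lit 2517603642) (nat_lit 1824) (nat_lit 942796355) (nat_lit 528) (nat_lit 1) (nat_lit 503) (nat_lit 1) (nat_lit 527) (nat_lit 1) (nat_lit 372) (nat_lit 390) (nat_lit 378)))))) (XT.nd (nat_lit 624) (nat_lit 3496) (nat_lit 0) (XT.nd (nat_lit 312) (nat_lit 0) (nat_lit 152) (XT.nd (nat_lit 156) (nat_lit 0) (nat_lit 76) (XT.nd (nat_lit 78) (nat_lit 0) (nat_lit 76)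 (XT.lf (nat_lit 1900) (nat_lit 1687274848) (nat_lit 76) (nat_lit 1337144522) (nat_lit 0) (nat_lit 1337144522) (nat_lit 528) (nat_lit 1) (nat_lit 504) (nat_lit 1) (nat_lit 503) (nat_lit 1) (nat_lit 373) (nat_lit 390) (nat_lit 377)) (XT.lf (nat_lit 1900) (nat_lit 740835783) (nat_lit 0) (nat_lit 2838857091) (nat_lit 1824) (nat_lit 740835783) (nat_lit 529) (nat_lit 1) (nat_lit 504) (nat_lit 1) (nat_lit 528) (nat_lit 1) (nat_lit 374) (nat_lit 390) (nat_lit 376))) (XT.nd (nat_lit 78) (nat_lit 0) (nat_lit 76) (XT.lf (nat_lit 1900) (nat_lit 1261423029) (nat_lit 76) (nat_lit 1509254397) (nat_lit 0) (nat_lit 1509254397) (nat_lit 529) (nat_lit 1) (nat_lit 505) (nat_lit 1) (nat_lit 504) (nat_lit 1) (nat_lit 375) (nat_lit 390) (nat_lit 375)) (XT.lf (nat_lit 1900) (nat_lit 518569648) (nat_lit 0) (nat_lit 3202827911) (nat_lit 1824) (nat_lit 518569648) (nat_lit 530) (nat_lit 1) (nat_lit 505) (nat_lit 1) (nat_lit 529) (nat_lit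 1) (nat_lit 376) (nat_lit 390) (nat_lit 374)))) (XT.nd (nat_lit 156) (nat_lit 0) (nat_lit 76) (XT.nd (nat_lit 78) (nat_lit 0) (nat_lit 76) (XT.lf (nat_lit 1900) (nat_lit 796182048) (nat_lit 76) (nat_lit 1702095501) (nat_lit 0) (nat_lit 1702095501) (nat_lit 530) (nat_lit 1) (nat_lit 506) (nat_lit 1) (nat_lit 505) (nat_lit 1) (nat_lit 377) (nat_lit 390) (nat_lit 373)) (XT.lf (nat_lit 1900) (nat_lit 277338361) (nat_lit 0) (nat_lit 3606775139) (nat_lit 1824) (nat_lit 277338361) (nat_lit 531) (nat_lit 1) (nat_lit 506) (nat_lit 1) (nat_lit 530) (nat_lit 1) (nat_lit 378) (nat_lit 390) (nat_lit 372))) (XT.nd (nat_lit 78) (nat_lit 0) (nat_lit 76) (XT.lf (nat_lit 1900) (nat_lit 294178011) (nat_lit 76) (nat_lit 1914325275) (nat_lit 0) (nat_lit 1914325275) (nat_lit 531) (nat_lit 1) (nat_lit 507) (nat_lit 1) (nat_lit 506) (nat_lit 1) (nat_lit 379) (nat_lit 390) (nat_lit 371)) (XT.lf (nat_lit 1900) (nat_lit 18419459) (nat_lit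 0) (nat_lit 4048085464) (nat_lit 1824) (nat_lit 18419459) (nat_lit 532) (nat_lit 1) (nat_lit 507) (nat_lit 1) (nat_lit 531) (nat_lit 1) (nat_lit 380) (nat_lit 390) (nat_lit 370))))) (XT.nd (nat_lit 312) (nat_lit 1900) (nat_lit 0) (XT.nd (nat_lit 156) (nat_lit 0) (nat_lit 76) (XT.nd (nat_lit 78) (nat_lit 0) (nat_lit 0) (XT.lf (nat_lit 1976) (nat_lit 1904149174) (nat_lit 0) (nat_lit 238911441) (nat_lit 1900) (nat_lit 1904149174) (nat_lit 508) (nat_lit 1) (nat_lit 482) (nat_lit 1) (nat_lit 507) (nat_lit 1) (nat_lit 381) (nat_lit 390) (nat_lit 369)) (XT.lf (nat_lit 1976) (nat_lit 3499636176) (nat_lit 76) (nat_lit 255279145) (nat_lit 0) (nat_lit 255279145) (nat_lit 508) (nat_lit 1) (nat_lit 483) (nat_lit 1) (nat_lit 482) (nat_lit 1) (nat_lit 382) (nat_lit 390) (nat_lit 368))) (XT.nd (nat_lit 78) (nat_lit 0) (nat_lit 0) (XT.lf (nat_lit 1976) (nat_lit 1586924902) (nat_lit 0) (nat_lit 799600689) (nat_lit 1900) (nat_lit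 1586924902) (nat_lit 509) (nat_lit 1) (nat_lit 483) (nat_lit 1) (nat_lit 508) (nat_lit 1) (nat_lit 383) (nat_lit 390) (nat_lit 367)) (XT.lf (nat_lit 1976) (nat_lit 2849190872) (nat_lit 76) (nat_lit 544066487) (nat_lit 0) (nat_lit 544066487) (nat_lit 509) (nat_lit 1) (nat_lit 484) (nat_lit 1) (nat_lit 483) (nat_lit 1) (nat_lit 384) (nat_lit 390) (nat_lit 366)))) (XT.nd (nat_lit 156) (nat_lit 912) (nat_lit 0) (XT.nd (nat_lit 78) (nat_lit 1140) (nat_lit 0) (XT.lf (nat_lit 76) (nat_lit 1256014493) (nat_lit 0) (nat_lit 1389506599) (nat_lit 1900) (nat_lit 1256014493) (nat_lit 485) (nat_lit 1) (nat_lit 484) (nat_lit 1) (nat_lit 509) (nat_lit 1) (nat_lit 385) (nat_lit 390) (nat_lit 365)) (XT.lf (nat_lit 1216) (nat_lit 2172336627) (nat_lit 0) (nat_lit 846966592) (nat_lit 1140) (nat_lit 846966592) (nat_lit 485) (nat_lit 1) (nat_lit 469) (nat_lit 1) (nat_lit 484) (nat_lit 1) (nat_lit 386) (nat_lit 390) (nat_lit 364))) (XT.nd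 (nat_lit 78) (nat_lit 912) (nat_lit 0) (XT.lf (nat_lit 76) (nat_lit 912459283) (nat_lit 0) (nat_lit 2006494870) (nat_lit 1216) (nat_lit 912459283) (nat_lit 470) (nat_lit 1) (nat_lit 469) (nat_lit 1) (nat_lit 485) (nat_lit 1) (nat_lit 387) (nat_lit 390) (nat_lit 363)) (XT.lf (nat_lit 988) (nat_lit 1471112001) (nat_lit 0) (nat_lit 1162934842) (nat_lit 912) (nat_lit 1162934842) (nat_lit 470) (nat_lit 1) (nat_lit 457) (nat_lit 1) (nat_lit 469) (nat_lit 1) (nat_lit 388) (nat_lit 390) (nat_lit 362))))))) (XT.nd (nat_lit 1170) (nat_lit 6080) (nat_lit 0) (XT.nd (nat_lit 546) (nat_lit 3192) (nat_lit 0) (XT.nd (nat_lit 234) (nat_lit 2660) (nat_lit 0) (XT.nd (nat_lit 78) (nat_lit 912) (nat_lit 0) (XT.lf (nat_lit 76) (nat_lit 557250178) (nat_lit 0) (nat_lit 2648533682) (nat_lit 988) (nat_lit 557250178) (nat_lit 458) (nat_lit 1) (nat_lit 457) (nat_lit 1) (nat_lit 470) (nat_lit 1) (nat_lit 389) (nat_lit 390) (nat_lit 361)) (XT.nd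 (nat_lit 78) (nat_lit 0) (nat_lit 0) (XT.lf (nat_lit 988) (nat_lit 747456532) (nat_lit 0) (nat_lit 1490976920) (nat_lit 912) (nat_lit 1490976920) (nat_lit 458) (nat_lit 1) (nat_lit 445) (nat_lit 1) (nat_lit 457) (nat_lit 1) (nat_lit 390) (nat_lit 390) (nat_lit 360)) (XT.lf (nat_lit 76) (nat_lit 191329801) (nat_lit 0) (nat_lit 3313689332) (nat_lit 988) (nat_lit 191329801) (nat_lit 446) (nat_lit 1) (nat_lit 445) (nat_lit 1) (nat_lit 458) (nat_lit 1) (nat_lit 391) (nat_lit 390) (nat_lit 359)))) (XT.nd (nat_lit 156) (nat_lit 836) (nat_lit 0) (XT.nd (nat_lit 78) (nat_lit 988) (nat_lit 0) (XT.lf (nat_lit 912) (nat_lit 3214967) (nat_lit 0) (nat_lit 1830146666) (nat_lit 836) (nat_lit 1830146666) (nat_lit 446) (nat_lit 1) (nat_lit 434) (nat_lit 1) (nat_lit 445) (nat_lit 1) (nat_lit 392) (nat_lit 390) (nat_lit 358)) (XT.lf (nat_lit 988) (nat_lit 3264830593) (nat_lit 0) (nat_lit 183192240) (nat_lit 912) (nat_lit 183192240)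 (nat_lit 434) (nat_lit 1) (nat_lit 421) (nat_lit 1) (nat_lit 433) (nat_lit 1) (nat_lit 393) (nat_lit 390) (nat_lit 357))) (XT.nd (nat_lit 78) (nat_lit 836) (nat_lit 0) (XT.lf (nat_lit 76) (nat_lit 1424618851) (nat_lit 0) (nat_lit 749892990) (nat_lit 988) (nat_lit 1424618851) (nat_lit 422) (nat_lit 1) (nat_lit 421) (nat_lit 1) (nat_lit 434) (nat_lit 1) (nat_lit 394) (nat_lit 390) (nat_lit 356)) (XT.lf (nat_lit 912) (nat_lit 2436860186) (nat_lit 0) (nat_lit 565359247) (nat_lit 836) (nat_lit 565359247) (nat_lit 422) (nat_lit 1) (nat_lit 410) (nat_lit 1) (nat_lit 421) (nat_lit 1) (nat_lit 395) (nat_lit 390) (nat_lit 355))))) (XT.nd (nat_lit 312) (nat_lit 1596) (nat_lit 0) (XT.nd (nat_lit 156) (nat_lit 760) (nat_lit 0) (XT.nd (nat_lit 78) (nat_lit 836) (nat_lit 0) (XT.lf (nat_lit 76) (nat_lit 1008215178) (nat_lit 0) (nat_lit 1519898546) (nat_lit 912) (nat_lit 1008215178) (nat_lit 411) (nat_lit 1) (nat_lit 410) (nat_lit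 1) (nat_lit 422) (nat_lit 1) (nat_lit 396) (nat_lit 390) (nat_lit 354)) (XT.lf (nat_lit 912) (nat_lit 1594244915) (nat_lit 0) (nat_lit 955625441) (nat_lit 836) (nat_lit 955625441) (nat_lit 411) (nat_lit 1) (nat_lit 399) (nat_lit 1) (nat_lit 410) (nat_lit 1) (nat_lit 397) (nat_lit 390) (nat_lit 353))) (XT.nd (nat_lit 78) (nat_lit 760) (nat_lit 0) (XT.lf (nat_lit 76) (nat_lit 584889853) (nat_lit 0) (nat_lit 2305280540) (nat_lit 912) (nat_lit 584889853) (nat_lit 400) (nat_lit 1) (nat_lit 399) (nat_lit 1) (nat_lit 411) (nat_lit 1) (nat_lit 398) (nat_lit 390) (nat_lit 352)) (XT.lf (nat_lit 836) (nat_lit 738471027) (nat_lit 0) (nat_lit 1353226533) (nat_lit 760) (nat_lit 1353226533) (nat_lit 400) (nat_lit 1) (nat_lit 389) (nat_lit 1) (nat_lit 399) (nat_lit 1) (nat_lit 399) (nat_lit 390) (nat_lit 351)))) (XT.nd (nat_lit 156) (nat_lit 760) (nat_lit 0) (XT.nd (nat_lit 78) (nat_lit 836) (nat_lit 0) (XT.lf (nat_lit 76) (nat_lit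 155364422) (nat_lit 0) (nat_lit 3104554107) (nat_lit 836) (nat_lit 155364422) (nat_lit 390) (nat_lit 1) (nat_lit 389) (nat_lit 1) (nat_lit 400) (nat_lit 1) (nat_lit 400) (nat_lit 390) (nat_lit 350)) (XT.lf (nat_lit 76) (nat_lit 1629223678) (nat_lit 0) (nat_lit 127358409) (nat_lit 836) (nat_lit 1629223678) (nat_lit 379) (nat_lit 1) (nat_lit 378) (nat_lit 1) (nat_lit 389) (nat_lit 1) (nat_lit 401) (nat_lit 390) (nat_lit 349))) (XT.nd (nat_lit 78) (nat_lit 0) (nat_lit 0) (XT.lf (nat_lit 836) (nat_lit 2801137767) (nat_lit 0) (nat_lit 277836493) (nat_lit 760) (nat_lit 277836493) (nat_lit 379) (nat_lit 1) (nat_lit 368) (nat_lit 1) (nat_lit 378) (nat_lit 1) (nat_lit 402) (nat_lit 390) (nat_lit 348)) (XT.lf (nat_lit 76) (nat_lit 1167122225) (nat_lit 0) (nat_lit 993776084) (nat_lit 836) (nat_lit 1167122225) (nat_lit 369) (nat_lit 1) (nat_lit 368) (nat_lit 1) (nat_lit 379) (nat_lit 1) (nat_lit 403) (nat_lit 390) (nat_lit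 347)))))) (XT.nd (nat_lit 624) (nat_lit 2508) (nat_lit 0) (XT.nd (nat_lit 312) (nat_lit 2128) (nat_lit 0) (XT.nd (nat_lit 156) (nat_lit 684) (nat_lit 0) (XT.nd (nat_lit 78) (nat_lit 0) (nat_lit 0) (XT.lf (nat_lit 836) (nat_lit 1869967906) (nat_lit 0) (nat_lit 714849364) (nat_lit 760) (nat_lit 714849364) (nat_lit 369) (nat_lit 1) (nat_lit 358) (nat_lit 1) (nat_lit 368) (nat_lit 1) (nat_lit 404) (nat_lit 390) (nat_lit 346)) (XT.lf (nat_lit 76) (nat_lit 701205464) (nat_lit 0) (nat_lit 1869214943) (nat_lit 836) (nat_lit 701205464) (nat_lit 359) (nat_lit 1) (nat_lit 358) (nat_lit 1) (nat_lit 369) (nat_lit 1) (nat_lit 405) (nat_lit 390) (nat_lit 345))) (XT.nd (nat_lit 78) (nat_lit 0) (nat_lit 0) (XT.lf (nat_lit 760) (nat_lit 931724268) (nat_lit 0) (nat_lit 1156084766) (nat_lit 684) (nat_lit 1156084766) (nat_lit 359) (nat_lit 1) (nat_lit 349) (nat_lit 1) (nat_lit 358) (nat_lit 1) (nat_lit 406) (nat_lit 390) (nat_lit 344))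 (XT.lf (nat_lit 76) (nat_lit 232048199) (nat_lit 0) (nat_lit 2752488109) (nat_lit 760) (nat_lit 232048199) (nat_lit 350) (nat_lit 1) (nat_lit 349) (nat_lit 1) (nat_lit 359) (nat_lit 1) (nat_lit 407) (nat_lit 390) (nat_lit 343)))) (XT.nd (nat_lit 156) (nat_lit 684) (nat_lit 0) (XT.nd (nat_lit 78) (nat_lit 684) (nat_lit 0) (XT.lf (nat_lit 76) (nat_lit 1588573394) (nat_lit 0) (nat_lit 12307214) (nat_lit 760) (nat_lit 1588573394) (nat_lit 340) (nat_lit 1) (nat_lit 339) (nat_lit 1) (nat_lit 349) (nat_lit 1) (nat_lit 408) (nat_lit 390) (nat_lit 342)) (XT.lf (nat_lit 760) (nat_lit 2686279757) (nat_lit 0) (nat_lit 238227782) (nat_lit 684) (nat_lit 238227782) (nat_lit 340) (nat_lit 1) (nat_lit 330) (nat_lit 1) (nat_lit 339) (nat_lit 1) (nat_lit 409) (nat_lit 390) (nat_lit 341))) (XT.nd (nat_lit 78) (nat_lit 684) (nat_lit 0) (XT.lf (nat_lit 76) (nat_lit 1093623818) (nat_lit 0) (nat_lit 948944075) (nat_lit 760) (nat_lit 1093623818)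 (nat_lit 331) (nat_lit 1) (nat_lit 330) (nat_lit 1) (nat_lit 340) (nat_lit 1) (nat_lit 410) (nat_lit 390) (nat_lit 340)) (XT.lf (nat_lit 760) (nat_lit 1691757406) (nat_lit 0) (nat_lit 709144373) (nat_lit 684) (nat_lit 709144373) (nat_lit 331) (nat_lit 1) (nat_lit 321) (nat_lit 1) (nat_lit 330) (nat_lit 1) (nat_lit 411) (nat_lit 390) (nat_lit 339))))) (XT.nd (nat_lit 312) (nat_lit 1216) (nat_lit 0) (XT.nd (nat_lit 156) (nat_lit 684) (nat_lit 0) (XT.nd (nat_lit 78) (nat_lit 608) (nat_lit 0) (XT.lf (nat_lit 76) (nat_lit 597389489) (nat_lit 0) (nat_lit 1889414591) (nat_lit 760) (nat_lit 597389489) (nat_lit 322) (nat_lit 1) (nat_lit 321) (nat_lit 1) (nat_lit 331) (nat_lit 1) (nat_lit 412) (nat_lit 390) (nat_lit 338)) (XT.lf (nat_lit 684) (nat_lit 695114868) (nat_lit 0) (nat_lit 1181744651) (nat_lit 608) (nat_lit 1181744651) (nat_lit 322) (nat_lit 1) (nat_lit 313) (nat_lit 1) (nat_lit 321) (nat_lit 1) (nat_lit 413) (nat_lit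 390) (nat_lit 337))) (XT.nd (nat_lit 78) (nat_lit 684) (nat_lit 0) (XT.lf (nat_lit 76) (nat_lit 100322341) (nat_lit 0) (nat_lit 2832781577) (nat_lit 684) (nat_lit 100322341) (nat_lit 314) (nat_lit 1) (nat_lit 313) (nat_lit 1) (nat_lit 322) (nat_lit 1) (nat_lit 414) (nat_lit 390) (nat_lit 336)) (XT.lf (nat_lit 76) (nat_lit 1354770701) (nat_lit 0) (nat_lit 298795889) (nat_lit 684) (nat_lit 1354770701) (nat_lit 305) (nat_lit 1) (nat_lit 304) (nat_lit 1) (nat_lit 313) (nat_lit 1) (nat_lit 415) (nat_lit 390) (nat_lit 335)))) (XT.nd (nat_lit 156) (nat_lit 608) (nat_lit 0) (XT.nd (nat_lit 78) (nat_lit 0) (nat_lit 0) (XT.lf (nat_lit 684) (nat_lit 2194573884) (nat_lit 0) (nat_lit 394538289) (nat_lit 608) (nat_lit 394538289) (nat_lit 305) (nat_lit 1) (nat_lit 296) (nat_lit 1) (nat_lit 304) (nat_lit 1) (nat_lit 416) (nat_lit 390) (nat_lit 334)) (XT.lf (nat_lit 76) (nat_lit 837585082) (nat_lit 0) (nat_lit 1283992551) (nat_lit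 684) (nat_lit 837585082) (nat_lit 297) (nat_lit 1) (nat_lit 296) (nat_lit 1) (nat_lit 305) (nat_lit 1) (nat_lit 417) (nat_lit 390) (nat_lit 333))) (XT.nd (nat_lit 78) (nat_lit 0) (nat_lit 0) (XT.lf (nat_lit 684) (nat_lit 1157503513) (nat_lit 0) (nat_lit 888742987) (nat_lit 608) (nat_lit 888742987) (nat_lit 297) (nat_lit 1) (nat_lit 288) (nat_lit 1) (nat_lit 296) (nat_lit 1) (nat_lit 418) (nat_lit 390) (nat_lit 332)) (XT.lf (nat_lit 76) (nat_lit 321160800) (nat_lit 0) (nat_lit 2268818337) (nat_lit 684) (nat_lit 321160800) (nat_lit 289) (nat_lit 1) (nat_lit 288) (nat_lit 1) (nat_lit 297) (nat_lit 1) (nat_lit 419) (nat_lit 390) (nat_lit 331))))))))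
noncomputable def ec18 : XT := (XT.nd (nat_lit 56784) (nat_lit 0) (nat_lit 532) (XT.nd (nat_lit 55614) (nat_lit 0) (nat_lit 13376) (XT.nd (nat_lit 54990) (nat_lit 0) (nat_lit 16644) (XT.nd (nat_lit 54678) (nat_lit 0) (nat_lit 16492) (XT.nd (nat_lit 54522) (nat_lit 0) (nat_lit 16416) (XT.lf (nat_lit 608) (nat_lit 122314859) (nat_lit 0) (nat_lit 1382575246) (nat_lit 532) (nat_lit 1382575246) (nat_lit 289) (nat_lit 1) (nat_lit 281) (nat_lit 1) (nat_lit 288) (nat_lit 1) (nat_lit 420) (nat_lit 390) (nat_lit 330)) (XT.nd (nat_lit 78) (nat_lit 0) (nat_lit 0) (XT.lf (nat_lit 1900) (nat_lit 838662539) (nat_lit 0) (nat_lit 845675708) (nat_lit 1900) (nat_lit 838662539) (nat_lit 522) (nat_lit 1) (nat_lit 497) (nat_lit 0) (nat_lit 522) (nat_lit 0) (nat_lit 358) (nat_lit 391) (nat_lit 391)) (XT.lf (nat_lit 1900) (nat_lit 3316197774) (nat_lit 76) (nat_lit 840112052) (nat_lit 0) (nat_lit 840112052) (nat_lit 522) (nat_lit 1) (nat_lit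 498) (nat_lit 1) (nat_lit 497) (nat_lit 0) (nat_lit 359) (nat_lit 391) (nat_lit 390)))) (XT.nd (nat_lit 156) (nat_lit 0) (nat_lit 76) (XT.nd (nat_lit 78) (nat_lit 0) (nat_lit 0) (XT.lf (nat_lit 1900) (nat_lit 1628268892) (nat_lit 0) (nat_lit 1690845931) (nat_lit 1824) (nat_lit 1628268892) (nat_lit 523) (nat_lit 1) (nat_lit 498) (nat_lit 1) (nat_lit 522) (nat_lit 1) (nat_lit 360) (nat_lit 391) (nat_lit 389)) (XT.lf (nat_lit 1900) (nat_lit 3186923613) (nat_lit 76) (nat_lit 856082677) (nat_lit 0) (nat_lit 856082677) (nat_lit 523) (nat_lit 1) (nat_lit 499) (nat_lit 1) (nat_lit 498) (nat_lit 1) (nat_lit 361) (nat_lit 391) (nat_lit 388))) (XT.nd (nat_lit 78) (nat_lit 0) (nat_lit 0) (XT.lf (nat_lit 1900) (nat_lit 1548784485) (nat_lit 0) (nat_lit 1753758373) (nat_lit 1824) (nat_lit 1548784485) (nat_lit 524) (nat_lit 1) (nat_lit 499) (nat_lit 1) (nat_lit 523) (nat_lit 1) (nat_lit 362) (nat_lit 391) (nat_lit 387)) (XT.lf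 (nat_lit 1900) (nat_lit 2998428495) (nat_lit 76) (nat_lit 902923746) (nat_lit 0) (nat_lit 902923746) (nat_lit 524) (nat_lit 1) (nat_lit 500) (nat_lit 1) (nat_lit 499) (nat_lit 1) (nat_lit 363) (nat_lit 391) (nat_lit 386))))) (XT.nd (nat_lit 312) (nat_lit 0) (nat_lit 152) (XT.nd (nat_lit 156) (nat_lit 0) (nat_lit 76) (XT.nd (nat_lit 78) (nat_lit 0) (nat_lit 0) (XT.lf (nat_lit 1900) (nat_lit 1440687404) (nat_lit 0) (nat_lit 1876383044) (nat_lit 1824) (nat_lit 1440687404) (nat_lit 525) (nat_lit 1) (nat_lit 500) (nat_lit 1) (nat_lit 524) (nat_lit 1) (nat_lit 364) (nat_lit 391) (nat_lit 385)) (XT.lf (nat_lit 1900) (nat_lit 2754271667) (nat_lit 76) (nat_lit 978819059) (nat_lit 0) (nat_lit 978819059) (nat_lit 525) (nat_lit 1) (nat_lit 501) (nat_lit 1) (nat_lit 500) (nat_lit 1) (nat_lit 365) (nat_lit 391) (nat_lit 384))) (XT.nd (nat_lit 78) (nat_lit 0) (nat_lit 0) (XT.lf (nat_lit 1900) (nat_lit 1305710267) (nat_lit 0)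 (nat_lit 2055182516) (nat_lit 1824) (nat_lit 1305710267) (nat_lit 526) (nat_lit 1) (nat_lit 501) (nat_lit 1) (nat_lit 525) (nat_lit 1) (nat_lit 366) (nat_lit 391) (nat_lit 383)) (XT.lf (nat_lit 1900) (nat_lit 2457849467) (nat_lit 76) (nat_lit 1082035049) (nat_lit 0) (nat_lit 1082035049) (nat_lit 526) (nat_lit 1) (nat_lit 502) (nat_lit 1) (nat_lit 501) (nat_lit 1) (nat_lit 367) (nat_lit 391) (nat_lit 382)))) (XT.nd (nat_lit 156) (nat_lit 0) (nat_lit 76) (XT.nd (nat_lit 78) (nat_lit 0) (nat_lit 0) (XT.lf (nat_lit 1900) (nat_lit 1145506224) (nat_lit 0) (nat_lit 2286780619) (nat_lit 1824) (nat_lit 1145506224) (nat_lit 527) (nat_lit 1) (nat_lit 502) (nat_lit 1) (nat_lit 526) (nat_lit 1) (nat_lit 368) (nat_lit 391) (nat_lit 381)) (XT.lf (nat_lit 1900) (nat_lit 2112402134) (nat_lit 76) (nat_lit 1210917334) (nat_lit 0) (nat_lit 1210917334) (nat_lit 527) (nat_lit 1) (nat_lit 503) (nat_lit 1) (nat_lit 502) (nat_lit 1) (nat_lit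 369) (nat_lit 391) (nat_lit 380))) (XT.nd (nat_lit 78) (nat_lit 0) (nat_lit 0) (XT.lf (nat_lit 1900) (nat_lit 961652282) (nat_lit 0) (nat_lit 2567955715) (nat_lit 1824) (nat_lit 961652282) (nat_lit 528) (nat_lit 1) (nat_lit 503) (nat_lit 1) (nat_lit 527) (nat_lit 1) (nat_lit 370) (nat_lit 391) (nat_lit 379)) (XT.lf (nat_lit 1900) (nat_lit 1721020345) (nat_lit 76) (nat_lit 1363887412) (nat_lit 0) (nat_lit 1363887412) (nat_lit 528) (nat_lit 1) (nat_lit 504) (nat_lit 1) (nat_lit 503) (nat_lit 1) (nat_lit 371) (nat_lit 391) (nat_lit 378)))))) (XT.nd (nat_lit 546) (nat_lit 3572) (nat_lit 0) (XT.nd (nat_lit 234) (nat_lit 0) (nat_lit 76) (XT.nd (nat_lit 78) (nat_lit 0) (nat_lit 0) (XT.lf (nat_lit 1900) (nat_lit 755652498) (nat_lit 0) (nat_lit 2895634233) (nat_lit 1824) (nat_lit 755652498) (nat_lit 529) (nat_lit 1) (nat_lit 504) (nat_lit 1) (nat_lit 528) (nat_lit 1) (nat_lit 372) (nat_lit 391) (nat_lit 377)) (XT.nd (nat_lit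 78) (nat_lit 0) (nat_lit 76) (XT.lf (nat_lit 1900) (nat_lit 1286651490) (nat_lit 76) (nat_lit 1539439485) (nat_lit 0) (nat_lit 1539439485) (nat_lit 529) (nat_lit 1) (nat_lit 505) (nat_lit 1) (nat_lit 504) (nat_lit 1) (nat_lit 373) (nat_lit 391) (nat_lit 376)) (XT.lf (nat_lit 1900) (nat_lit 528941041) (nat_lit 0) (nat_lit 3266884469) (nat_lit 1824) (nat_lit 528941041) (nat_lit 530) (nat_lit 1) (nat_lit 505) (nat_lit 1) (nat_lit 529) (nat_lit 1) (nat_lit 374) (nat_lit 391) (nat_lit 375)))) (XT.nd (nat_lit 156) (nat_lit 0) (nat_lit 76) (XT.nd (nat_lit 78) (nat_lit 0) (nat_lit 76) (XT.lf (nat_lit 1900) (nat_lit 812105688) (nat_lit 76) (nat_lit 1736137411) (nat_lit 0) (nat_lit 1736137411) (nat_lit 530) (nat_lit 1) (nat_lit 506) (nat_lit 1) (nat_lit 505) (nat_lit 1) (nat_lit 375) (nat_lit 391) (nat_lit 374)) (XT.lf (nat_lit 1900) (nat_lit 282885128) (nat_lit 0) (nat_lit 3678910641) (nat_lit 1824) (nat_lit 282885128)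 (nat_lit 531) (nat_lit 1) (nat_lit 506) (nat_lit 1) (nat_lit 530) (nat_lit 1) (nat_lit 376) (nat_lit 391) (nat_lit 373))) (XT.nd (nat_lit 78) (nat_lit 0) (nat_lit 76) (XT.lf (nat_lit 1900) (nat_lit 300061571) (nat_lit 76) (nat_lit 1952611781) (nat_lit 0) (nat_lit 1952611781) (nat_lit 531) (nat_lit 1) (nat_lit 507) (nat_lit 1) (nat_lit 506) (nat_lit 1) (nat_lit 377) (nat_lit 391) (nat_lit 372)) (XT.lf (nat_lit 1900) (nat_lit 18787848) (nat_lit 0) (nat_lit 4129047173) (nat_lit 1824) (nat_lit 18787848) (nat_lit 532) (nat_lit 1) (nat_lit 507) (nat_lit 1) (nat_lit 531) (nat_lit 1) (nat_lit 378) (nat_lit 391) (nat_lit 371))))) (XT.nd (nat_lit 312) (nat_lit 1900) (nat_lit 0) (XT.nd (nat_lit 156) (nat_lit 0) (nat_lit 76) (XT.nd (nat_lit 78) (nat_lit 0) (nat_lit 0) (XT.lf (nat_lit 1976) (nat_lit 1942232157) (nat_lit 0) (nat_lit 243689670) (nat_lit 1900) (nat_lit 1942232157) (nat_lit 508) (nat_lit 1) (nat_lit 482) (nat_lit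 1) (nat_lit 507) (nat_lit 1) (nat_lit 379) (nat_lit 391) (nat_lit 370)) (XT.lf (nat_lit 1976) (nat_lit 3569628899) (nat_lit 76) (nat_lit 260384728) (nat_lit 0) (nat_lit 260384728) (nat_lit 508) (nat_lit 1) (nat_lit 483) (nat_lit 1) (nat_lit 482) (nat_lit 1) (nat_lit 380) (nat_lit 391) (nat_lit 369))) (XT.nd (nat_lit 78) (nat_lit 0) (nat_lit 0) (XT.lf (nat_lit 1976) (nat_lit 1618663400) (nat_lit 0) (nat_lit 815592703) (nat_lit 1900) (nat_lit 1618663400) (nat_lit 509) (nat_lit 1) (nat_lit 483) (nat_lit 1) (nat_lit 508) (nat_lit 1) (nat_lit 381) (nat_lit 391) (nat_lit 368)) (XT.lf (nat_lit 1976) (nat_lit 2906174689) (nat_lit 76) (nat_lit 554947816) (nat_lit 0) (nat_lit 554947816) (nat_lit 509) (nat_lit 1) (nat_lit 484) (nat_lit 1) (nat_lit 483) (nat_lit 1) (nat_lit 382) (nat_lit 391) (nat_lit 367)))) (XT.nd (nat_lit 156) (nat_lit 912) (nat_lit 0) (XT.nd (nat_lit 78) (nat_lit 1140) (nat_lit 0) (XT.lf (nat_lit 76) (nat_lit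 1281134783) (nat_lit 0) (nat_lit 1417296731) (nat_lit 1900) (nat_lit 1281134783) (nat_lit 485) (nat_lit 1) (nat_lit 484) (nat_lit 1) (nat_lit 509) (nat_lit 1) (nat_lit 383) (nat_lit 391) (nat_lit 366)) (XT.lf (nat_lit 1216) (nat_lit 2215783359) (nat_lit 0) (nat_lit 863905924) (nat_lit 1140) (nat_lit 863905924) (nat_lit 485) (nat_lit 1) (nat_lit 469) (nat_lit 1) (nat_lit 484) (nat_lit 1) (nat_lit 384) (nat_lit 391) (nat_lit 365))) (XT.nd (nat_lit 78) (nat_lit 912) (nat_lit 0) (XT.lf (nat_lit 76) (nat_lit 930708469) (nat_lit 0) (nat_lit 2046624768) (nat_lit 1216) (nat_lit 930708469) (nat_lit 470) (nat_lit 1) (nat_lit 469) (nat_lit 1) (nat_lit 485) (nat_lit 1) (nat_lit 385) (nat_lit 391) (nat_lit 364)) (XT.lf (nat_lit 988) (nat_lit 1500534241) (nat_lit 0) (nat_lit 1186193539) (nat_lit 912) (nat_lit 1186193539) (nat_lit 470) (nat_lit 1) (nat_lit 457) (nat_lit 1) (nat_lit 469) (nat_lit 1) (nat_lit 386) (nat_lit 391)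 (nat_lit 363))))))) (XT.nd (nat_lit 1170) (nat_lit 6080) (nat_lit 0) (XT.nd (nat_lit 546) (nat_lit 3192) (nat_lit 0) (XT.nd (nat_lit 234) (nat_lit 2660) (nat_lit 0) (XT.nd (nat_lit 78) (nat_lit 912) (nat_lit 0) (XT.lf (nat_lit 76) (nat_lit 568395181) (nat_lit 0) (nat_lit 2701504356) (nat_lit 988) (nat_lit 568395181) (nat_lit 458) (nat_lit 1) (nat_lit 457) (nat_lit 1) (nat_lit 470) (nat_lit 1) (nat_lit 387) (nat_lit 391) (nat_lit 362)) (XT.nd (nat_lit 78) (nat_lit 0) (nat_lit 0) (XT.lf (nat_lit 988) (nat_lit 762405663) (nat_lit 0) (nat_lit 1520796458) (nat_lit 912) (nat_lit 1520796458) (nat_lit 458) (nat_lit 1) (nat_lit 445) (nat_lit 1) (nat_lit 457) (nat_lit 1) (nat_lit 388) (nat_lit 391) (nat_lit 361)) (XT.lf (nat_lit 76) (nat_lit 195156397) (nat_lit 0) (nat_lit 3379963119) (nat_lit 988) (nat_lit 195156397) (nat_lit 446) (nat_lit 1) (nat_lit 445) (nat_lit 1) (nat_lit 458) (nat_lit 1) (nat_lit 389) (nat_lit 391)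 (nat_lit 360)))) (XT.nd (nat_lit 156) (nat_lit 836) (nat_lit 0) (XT.nd (nat_lit 78) (nat_lit 988) (nat_lit 0) (XT.lf (nat_lit 912) (nat_lit 3279266) (nat_lit 0) (nat_lit 1866749599) (nat_lit 836) (nat_lit 1866749599) (nat_lit 446) (nat_lit 1) (nat_lit 434) (nat_lit 1) (nat_lit 445) (nat_lit 1) (nat_lit 390) (nat_lit 391) (nat_lit 359)) (XT.lf (nat_lit 988) (nat_lit 3330127205) (nat_lit 0) (nat_lit 186856085) (nat_lit 912) (nat_lit 186856085) (nat_lit 434) (nat_lit 1) (nat_lit 421) (nat_lit 1) (nat_lit 433) (nat_lit 1) (nat_lit 391) (nat_lit 391) (nat_lit 358))) (XT.nd (nat_lit 78) (nat_lit 836) (nat_lit 0) (XT.lf (nat_lit 76) (nat_lit 1453111228) (nat_lit 0) (nat_lit 764890850) (nat_lit 988) (nat_lit 1453111228) (nat_lit 422) (nat_lit 1) (nat_lit 421) (nat_lit 1) (nat_lit 434) (nat_lit 1) (nat_lit 392) (nat_lit 391) (nat_lit 357)) (XT.lf (nat_lit 912) (nat_lit 2485597389) (nat_lit 0) (nat_lit 576666432) (nat_lit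 836) (nat_lit 576666432) (nat_lit 422) (nat_lit 1) (nat_lit 410) (nat_lit 1) (nat_lit 421) (nat_lit 1) (nat_lit 393) (nat_lit 391) (nat_lit 356))))) (XT.nd (nat_lit 312) (nat_lit 1596) (nat_lit 0) (XT.nd (nat_lit 156) (nat_lit 760) (nat_lit 0) (XT.nd (nat_lit 78) (nat_lit 836) (nat_lit 0) (XT.lf (nat_lit 76) (nat_lit 1028379481) (nat_lit 0) (nat_lit 1550296517) (nat_lit 912) (nat_lit 1028379481) (nat_lit 411) (nat_lit 1) (nat_lit 410) (nat_lit 1) (nat_lit 422) (nat_lit 1) (nat_lit 394) (nat_lit 391) (nat_lit 355)) (XT.lf (nat_lit 912) (nat_lit 1626129814) (nat_lit 0) (nat_lit 974737950) (nat_lit 836) (nat_lit 974737950) (nat_lit 411) (nat_lit 1) (nat_lit 399) (nat_lit 1) (nat_lit 410) (nat_lit 1) (nat_lit 395) (nat_lit 391) (nat_lit 354))) (XT.nd (nat_lit 78) (nat_lit 760) (nat_lit 0) (XT.lf (nat_lit 76) (nat_lit 596587651) (nat_lit 0) (nat_lit 2351386151) (nat_lit 912) (nat_lit 596587651) (nat_lit 400) (nat_lit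 1) (nat_lit 399) (nat_lit 1) (nat_lit 411) (nat_lit 1) (nat_lit 396) (nat_lit 391) (nat_lit 353)) (XT.lf (nat_lit 836) (nat_lit 753240448) (nat_lit 0) (nat_lit 1380291063) (nat_lit 760) (nat_lit 1380291063) (nat_lit 400) (nat_lit 1) (nat_lit 389) (nat_lit 1) (nat_lit 399) (nat_lit 1) (nat_lit 397) (nat_lit 391) (nat_lit 352)))) (XT.nd (nat_lit 156) (nat_lit 760) (nat_lit 0) (XT.nd (nat_lit 78) (nat_lit 836) (nat_lit 0) (XT.lf (nat_lit 76) (nat_lit 158471710) (nat_lit 0) (nat_lit 3166645190) (nat_lit 836) (nat_lit 158471710) (nat_lit 390) (nat_lit 1) (nat_lit 389) (nat_lit 1) (nat_lit 400) (nat_lit 1) (nat_lit 398) (nat_lit 391) (nat_lit 351)) (XT.lf (nat_lit 76) (nat_lit 1661808152) (nat_lit 0) (nat_lit 129905577) (nat_lit 836) (nat_lit 1661808152) (nat_lit 379) (nat_lit 1) (nat_lit 378) (nat_lit 1) (nat_lit 389) (nat_lit 1) (nat_lit 399) (nat_lit 391) (nat_lit 350))) (XT.nd (nat_lit 78) (nat_lit 0) (nat_lit 0)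 (XT.lf (nat_lit 836) (nat_lit 2857160523) (nat_lit 0) (nat_lit 283393223) (nat_lit 760) (nat_lit 283393223) (nat_lit 379) (nat_lit 1) (nat_lit 368) (nat_lit 1) (nat_lit 378) (nat_lit 1) (nat_lit 400) (nat_lit 391) (nat_lit 349)) (XT.lf (nat_lit 76) (nat_lit 1190464670) (nat_lit 0) (nat_lit 1013651606) (nat_lit 836) (nat_lit 1190464670) (nat_lit 369) (nat_lit 1) (nat_lit 368) (nat_lit 1) (nat_lit 379) (nat_lit 1) (nat_lit 401) (nat_lit 391) (nat_lit 348)))))) (XT.nd (nat_lit 624) (nat_lit 2508) (nat_lit 0) (XT.nd (nat_lit 312) (nat_lit 2128) (nat_lit 0) (XT.nd (nat_lit 156) (nat_lit 684) (nat_lit 0) (XT.nd (nat_lit 78) (nat_lit 0) (nat_lit 0) (XT.lf (nat_lit 836) (nat_lit 1907367264) (nat_lit 0) (nat_lit 729146352) (nat_lit 760) (nat_lit 729146352) (nat_lit 369) (nat_lit 1) (nat_lit 358) (nat_lit 1) (nat_lit 368) (nat_lit 1) (nat_lit 402) (nat_lit 391) (nat_lit 347)) (XT.lf (nat_lit 76) (nat_lit 715229573) (nat_lit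 0) (nat_lit 1906599242) (nat_lit 836) (nat_lit 715229573) (nat_lit 359) (nat_lit 1) (nat_lit 358) (nat_lit 1) (nat_lit 369) (nat_lit 1) (nat_lit 403) (nat_lit 391) (nat_lit 346))) (XT.nd (nat_lit 78) (nat_lit 0) (nat_lit 0) (XT.lf (nat_lit 760) (nat_lit 950358753) (nat_lit 0) (nat_lit 1179206461) (nat_lit 684) (nat_lit 1179206461) (nat_lit 359) (nat_lit 1) (nat_lit 349) (nat_lit 1) (nat_lit 358) (nat_lit 1) (nat_lit 404) (nat_lit 391) (nat_lit 345)) (XT.lf (nat_lit 76) (nat_lit 236689163) (nat_lit 0) (nat_lit 2807537871) (nat_lit 760) (nat_lit 236689163) (nat_lit 350) (nat_lit 1) (nat_lit 349) (nat_lit 1) (nat_lit 359) (nat_lit 1) (nat_lit 405) (nat_lit 391) (nat_lit 344)))) (XT.nd (nat_lit 156) (nat_lit 684) (nat_lit 0) (XT.nd (nat_lit 78) (nat_lit 684) (nat_lit 0) (XT.lf (nat_lit 76) (nat_lit 1620344862) (nat_lit 0) (nat_lit 12553359) (nat_lit 760) (nat_lit 1620344862) (nat_lit 340) (nat_lit 1) (nat_lit 339)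 (nat_lit 1) (nat_lit 349) (nat_lit 1) (nat_lit 406) (nat_lit 391) (nat_lit 343)) (XT.lf (nat_lit 760) (nat_lit 2740005352) (nat_lit 0) (nat_lit 242992337) (nat_lit 684) (nat_lit 242992337) (nat_lit 340) (nat_lit 1) (nat_lit 330) (nat_lit 1) (nat_lit 339) (nat_lit 1) (nat_lit 407) (nat_lit 391) (nat_lit 342))) (XT.nd (nat_lit 78) (nat_lit 684) (nat_lit 0) (XT.lf (nat_lit 76) (nat_lit 1115496294) (nat_lit 0) (nat_lit 967922956) (nat_lit 760) (nat_lit 1115496294) (nat_lit 331) (nat_lit 1) (nat_lit 330) (nat_lit 1) (nat_lit 340) (nat_lit 1) (nat_lit 408) (nat_lit 391) (nat_lit 341)) (XT.lf (nat_lit 760) (nat_lit 1725592554) (nat_lit 0) (nat_lit 723327260) (nat_lit 684) (nat_lit 723327260) (nat_lit 331) (nat_lit 1) (nat_lit 321) (nat_lit 1) (nat_lit 330) (nat_lit 1) (nat_lit 409) (nat_lit 391) (nat_lit 340))))) (XT.nd (nat_lit 312) (nat_lit 1216) (nat_lit 0) (XT.nd (nat_lit 156) (nat_lit 684) (nat_lit 0) (XT.nd (nat_lit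 78) (nat_lit 608) (nat_lit 0) (XT.lf (nat_lit 76) (nat_lit 609337279) (nat_lit 0) (nat_lit 1927202883) (nat_lit 760) (nat_lit 609337279) (nat_lit 322) (nat_lit 1) (nat_lit 321) (nat_lit 1) (nat_lit 331) (nat_lit 1) (nat_lit 410) (nat_lit 391) (nat_lit 339)) (XT.lf (nat_lit 684) (nat_lit 709017165) (nat_lit 0) (nat_lit 1205379544) (nat_lit 608) (nat_lit 1205379544) (nat_lit 322) (nat_lit 1) (nat_lit 313) (nat_lit 1) (nat_lit 321) (nat_lit 1) (nat_lit 411) (nat_lit 391) (nat_lit 338))) (XT.nd (nat_lit 78) (nat_lit 684) (nat_lit 0) (XT.lf (nat_lit 76) (nat_lit 102328788) (nat_lit 0) (nat_lit 2889437208) (nat_lit 684) (nat_lit 102328788) (nat_lit 314) (nat_lit 1) (nat_lit 313) (nat_lit 1) (nat_lit 322) (nat_lit 1) (nat_lit 412) (nat_lit 391) (nat_lit 337)) (XT.lf (nat_lit 76) (nat_lit 1381866115) (nat_lit 0) (nat_lit 304771807) (nat_lit 684) (nat_lit 1381866115) (nat_lit 305) (nat_lit 1) (nat_lit 304) (nat_lit 1) (nat_lit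 313) (nat_lit 1) (nat_lit 413) (nat_lit 391) (nat_lit 336)))) (XT.nd (nat_lit 156) (nat_lit 608) (nat_lit 0) (XT.nd (nat_lit 78) (nat_lit 0) (nat_lit 0) (XT.lf (nat_lit 684) (nat_lit 2238465361) (nat_lit 0) (nat_lit 402429055) (nat_lit 608) (nat_lit 402429055) (nat_lit 305) (nat_lit 1) (nat_lit 296) (nat_lit 1) (nat_lit 304) (nat_lit 1) (nat_lit 414) (nat_lit 391) (nat_lit 335)) (XT.lf (nat_lit 76) (nat_lit 854336784) (nat_lit 0) (nat_lit 1309672402) (nat_lit 684) (nat_lit 854336784) (nat_lit 297) (nat_lit 1) (nat_lit 296) (nat_lit 1) (nat_lit 305) (nat_lit 1) (nat_lit 415) (nat_lit 391) (nat_lit 334))) (XT.nd (nat_lit 78) (nat_lit 0) (nat_lit 0) (XT.lf (nat_lit 684) (nat_lit 1180653583) (nat_lit 0) (nat_lit 906517847) (nat_lit 608) (nat_lit 906517847) (nat_lit 297) (nat_lit 1) (nat_lit 288) (nat_lit 1) (nat_lit 296) (nat_lit 1) (nat_lit 416) (nat_lit 391) (nat_lit 333)) (XT.lf (nat_lit 76) (nat_lit 327584016)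 (nat_lit 0) (nat_lit 2314194704) (nat_lit 684) (nat_lit 327584016) (nat_lit 289) (nat_lit 1) (nat_lit 288) (nat_lit 1) (nat_lit 297) (nat_lit 1) (nat_lit 417) (nat_lit 391) (nat_lit 332))))))))
noncomputable def ec19 : XT := (XT.nd (nat_lit 56706) (nat_lit 0) (nat_lit 1216) (XT.nd (nat_lit 55458) (nat_lit 0) (nat_lit 14972) (XT.nd (nat_lit 54834) (nat_lit 0) (nat_lit 17252) (XT.nd (nat_lit 54522) (nat_lit 0) (nat_lit 17100) (XT.nd (nat_lit 78) (nat_lit 684) (nat_lit 0) (XT.lf (nat_lit 608) (nat_lit 124761157) (nat_lit 0) (nat_lit 1410226751) (nat_lit 532) (nat_lit 1410226751) (nat_lit 289) (nat_lit 1) (nat_lit 281) (nat_lit 1) (nat_lit 288) (nat_lit 1) (nat_lit 418) (nat_lit 391) (nat_lit 331)) (XT.nd (nat_lit 78) (nat_lit 0) (nat_lit 0) (XT.lf (nat_lit 684) (nat_lit 2527954584) (nat_lit 0) (nat_lit 196733040) (nat_lit 608) (nat_lit 196733040) (nat_lit 281) (nat_lit 1) (nat_lit 272) (nat_lit 1) (nat_lit 280) (nat_lit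 1) (nat_lit 419) (nat_lit 391) (nat_lit 330)) (XT.lf (nat_lit 76) (nat_lit 990704047) (nat_lit 0) (nat_lit 916340978) (nat_lit 684) (nat_lit 990704047) (nat_lit 273) (nat_lit 1) (nat_lit 272) (nat_lit 1) (nat_lit 281) (nat_lit 1) (nat_lit 420) (nat_lit 391) (nat_lit 329)))) (XT.nd (nat_lit 156) (nat_lit 0) (nat_lit 76) (XT.nd (nat_lit 78) (nat_lit 0) (nat_lit 0) (XT.lf (nat_lit 1900) (nat_lit 855435790) (nat_lit 0) (nat_lit 862589222) (nat_lit 1900) (nat_lit 855435790) (nat_lit 522) (nat_lit 1) (nat_lit 497) (nat_lit 0) (nat_lit 522) (nat_lit 0) (nat_lit 356) (nat_lit 392) (nat_lit 392)) (XT.lf (nat_lit 1900) (nat_lit 3382521730) (nat_lit 76) (nat_lit 856914293) (nat_lit 0) (nat_lit 856914293) (nat_lit 522) (nat_lit 1) (nat_lit 498) (nat_lit 1) (nat_lit 497) (nat_lit 0) (nat_lit 357) (nat_lit 392) (nat_lit 391))) (XT.nd (nat_lit 78) (nat_lit 0) (nat_lit 0) (XT.lf (nat_lit 1900) (nat_lit 1660834270) (nat_lit 0)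 (nat_lit 1724662850) (nat_lit 1824) (nat_lit 1660834270) (nat_lit 523) (nat_lit 1) (nat_lit 498) (nat_lit 1) (nat_lit 522) (nat_lit 1) (nat_lit 358) (nat_lit 392) (nat_lit 390)) (XT.lf (nat_lit 1900) (nat_lit 3250662085) (nat_lit 76) (nat_lit 873204331) (nat_lit 0) (nat_lit 873204331) (nat_lit 523) (nat_lit 1) (nat_lit 499) (nat_lit 1) (nat_lit 498) (nat_lit 1) (nat_lit 359) (nat_lit 392) (nat_lit 389))))) (XT.nd (nat_lit 312) (nat_lit 0) (nat_lit 152) (XT.nd (nat_lit 156) (nat_lit 0) (nat_lit 76) (XT.nd (nat_lit 78) (nat_lit 0) (nat_lit 0) (XT.lf (nat_lit 1900) (nat_lit 1579760174) (nat_lit 0) (nat_lit 1788833541) (nat_lit 1824) (nat_lit 1579760174) (nat_lit 524) (nat_lit 1) (nat_lit 499) (nat_lit 1) (nat_lit 523) (nat_lit 1) (nat_lit 360) (nat_lit 392) (nat_lit 388)) (XT.lf (nat_lit 1900) (nat_lit 3058397065) (nat_lit 76) (nat_lit 920982221) (nat_lit 0) (nat_lit 920982221) (nat_lit 524) (nat_lit 1) (nat_lit 500)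 (nat_lit 1) (nat_lit 499) (nat_lit 1) (nat_lit 361) (nat_lit 392) (nat_lit 387))) (XT.nd (nat_lit 78) (nat_lit 0) (nat_lit 0) (XT.lf (nat_lit 1900) (nat_lit 1469501152) (nat_lit 0) (nat_lit 1913910705) (nat_lit 1824) (nat_lit 1469501152) (nat_lit 525) (nat_lit 1) (nat_lit 500) (nat_lit 1) (nat_lit 524) (nat_lit 1) (nat_lit 362) (nat_lit 392) (nat_lit 386)) (XT.lf (nat_lit 1900) (nat_lit 2809357101) (nat_lit 76) (nat_lit 998395441) (nat_lit 0) (nat_lit 998395441) (nat_lit 525) (nat_lit 1) (nat_lit 501) (nat_lit 1) (nat_lit 500) (nat_lit 1) (nat_lit 363) (nat_lit 392) (nat_lit 385)))) (XT.nd (nat_lit 156) (nat_lit 0) (nat_lit 76) (XT.nd (nat_lit 78) (nat_lit 0) (nat_lit 0) (XT.lf (nat_lit 1900) (nat_lit 1331824472) (nat_lit 0) (nat_lit 2096286166) (nat_lit 1824) (nat_lit 1331824472) (nat_lit 526) (nat_lit 1) (nat_lit 501) (nat_lit 1) (nat_lit 525) (nat_lit 1) (nat_lit 364) (nat_lit 392) (nat_lit 384)) (XT.lf (nat_lit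 1900) (nat_lit 2507006456) (nat_lit 76) (nat_lit 1103675750) (nat_lit 0) (nat_lit 1103675750) (nat_lit 526) (nat_lit 1) (nat_lit 502) (nat_lit 1) (nat_lit 501) (nat_lit 1) (nat_lit 365) (nat_lit 392) (nat_lit 383))) (XT.nd (nat_lit 78) (nat_lit 0) (nat_lit 0) (XT.lf (nat_lit 1900) (nat_lit 1168416348) (nat_lit 0) (nat_lit 2332516232) (nat_lit 1824) (nat_lit 1168416348) (nat_lit 527) (nat_lit 1) (nat_lit 502) (nat_lit 1) (nat_lit 526) (nat_lit 1) (nat_lit 366) (nat_lit 392) (nat_lit 382)) (XT.lf (nat_lit 1900) (nat_lit 2154650176) (nat_lit 76) (nat_lit 1235135681) (nat_lit 0) (nat_lit 1235135681) (nat_lit 527) (nat_lit 1) (nat_lit 503) (nat_lit 1) (nat_lit 502) (nat_lit 1) (nat_lit 367) (nat_lit 392) (nat_lit 381)))))) (XT.nd (nat_lit 624) (nat_lit 2584) (nat_lit 0) (XT.nd (nat_lit 312) (nat_lit 0) (nat_lit 152) (XT.nd (nat_lit 156) (nat_lit 0) (nat_lit 76) (XT.nd (nat_lit 78) (nat_lit 0) (nat_lit 0) (XT.lf (nat_lit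 1900) (nat_lit 980885328) (nat_lit 0) (nat_lit 2619314830) (nat_lit 1824) (nat_lit 980885328) (nat_lit 528) (nat_lit 1) (nat_lit 503) (nat_lit 1) (nat_lit 527) (nat_lit 1) (nat_lit 368) (nat_lit 392) (nat_lit 380)) (XT.lf (nat_lit 1900) (nat_lit 1755440752) (nat_lit 76) (nat_lit 1391165161) (nat_lit 0) (nat_lit 1391165161) (nat_lit 528) (nat_lit 1) (nat_lit 504) (nat_lit 1) (nat_lit 503) (nat_lit 1) (nat_lit 369) (nat_lit 392) (nat_lit 379))) (XT.nd (nat_lit 78) (nat_lit 0) (nat_lit 0) (XT.lf (nat_lit 1900) (nat_lit 770765548) (nat_lit 0) (nat_lit 2953546917) (nat_lit 1824) (nat_lit 770765548) (nat_lit 529) (nat_lit 1) (nat_lit 504) (nat_lit 1) (nat_lit 528) (nat_lit 1) (nat_lit 370) (nat_lit 392) (nat_lit 378)) (XT.lf (nat_lit 1900) (nat_lit 1312384520) (nat_lit 76) (nat_lit 1570228275) (nat_lit 0) (nat_lit 1570228275) (nat_lit 529) (nat_lit 1) (nat_lit 505) (nat_lit 1) (nat_lit 504) (nat_lit 1) (nat_lit 371)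 (nat_lit 392) (nat_lit 377)))) (XT.nd (nat_lit 156) (nat_lit 0) (nat_lit 76) (XT.nd (nat_lit 78) (nat_lit 0) (nat_lit 0) (XT.lf (nat_lit 1900) (nat_lit 539519862) (nat_lit 0) (nat_lit 3332222159) (nat_lit 1824) (nat_lit 539519862) (nat_lit 530) (nat_lit 1) (nat_lit 505) (nat_lit 1) (nat_lit 529) (nat_lit 1) (nat_lit 372) (nat_lit 392) (nat_lit 376)) (XT.lf (nat_lit 1900) (nat_lit 828347802) (nat_lit 76) (nat_lit 1770860159) (nat_lit 0) (nat_lit 1770860159) (nat_lit 530) (nat_lit 1) (nat_lit 506) (nat_lit 1) (nat_lit 505) (nat_lit 1) (nat_lit 373) (nat_lit 392) (nat_lit 375))) (XT.nd (nat_lit 78) (nat_lit 0) (nat_lit 0) (XT.lf (nat_lit 1900) (nat_lit 288542830) (nat_lit 0) (nat_lit 3752488854) (nat_lit 1824) (nat_lit 288542830) (nat_lit 531) (nat_lit 1) (nat_lit 506) (nat_lit 1) (nat_lit 530) (nat_lit 1) (nat_lit 374) (nat_lit 392) (nat_lit 374)) (XT.lf (nat_lit 1900) (nat_lit 306062803) (nat_lit 76) (nat_lit 1991664016)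 (nat_lit 0) (nat_lit 1991664016) (nat_lit 531) (nat_lit 1) (nat_lit 507) (nat_lit 1) (nat_lit 506) (nat_lit 1) (nat_lit 375) (nat_lit 392) (nat_lit 373))))) (XT.nd (nat_lit 312) (nat_lit 988) (nat_lit 0) (XT.nd (nat_lit 156) (nat_lit 0) (nat_lit 0) (XT.nd (nat_lit 78) (nat_lit 1900) (nat_lit 0) (XT.lf (nat_lit 1900) (nat_lit 19163605) (nat_lit 0) (nat_lit 4211628117) (nat_lit 1824) (nat_lit 19163605) (nat_lit 532) (nat_lit 1) (nat_lit 507) (nat_lit 1) (nat_lit 531) (nat_lit 1) (nat_lit 376) (nat_lit 392) (nat_lit 372)) (XT.lf (nat_lit 1976) (nat_lit 1981076800) (nat_lit 0) (nat_lit 248563463) (nat_lit 1900) (nat_lit 1981076800) (nat_lit 508) (nat_lit 1) (nat_lit 482) (nat_lit 1) (nat_lit 507) (nat_lit 1) (nat_lit 377) (nat_lit 392) (nat_lit 371))) (XT.nd (nat_lit 78) (nat_lit 0) (nat_lit 76) (XT.lf (nat_lit 1976) (nat_lit 3641021477) (nat_lit 76) (nat_lit 265592422) (nat_lit 0) (nat_lit 265592422) (nat_lit 508)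 (nat_lit 1) (nat_lit 483) (nat_lit 1) (nat_lit 482) (nat_lit 1) (nat_lit 378) (nat_lit 392) (nat_lit 370)) (XT.lf (nat_lit 1976) (nat_lit 1651036668) (nat_lit 0) (nat_lit 831904557) (nat_lit 1900) (nat_lit 1651036668) (nat_lit 509) (nat_lit 1) (nat_lit 483) (nat_lit 1) (nat_lit 508) (nat_lit 1) (nat_lit 379) (nat_lit 392) (nat_lit 369)))) (XT.nd (nat_lit 156) (nat_lit 1064) (nat_lit 0) (XT.nd (nat_lit 78) (nat_lit 0) (nat_lit 76) (XT.lf (nat_lit 1976) (nat_lit 2964298183) (nat_lit 76) (nat_lit 566046773) (nat_lit 0) (nat_lit 566046773) (nat_lit 509) (nat_lit 1) (nat_lit 484) (nat_lit 1) (nat_lit 483) (nat_lit 1) (nat_lit 380) (nat_lit 392) (nat_lit 368)) (XT.lf (nat_lit 76) (nat_lit 1306757478) (nat_lit 0) (nat_lit 1445642666) (nat_lit 1900) (nat_lit 1306757478) (nat_lit 485) (nat_lit 1) (nat_lit 484) (nat_lit 1) (nat_lit 509) (nat_lit 1) (nat_lit 381) (nat_lit 392) (nat_lit 367))) (XT.nd (nat_lit 78) (nat_lit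 0) (nat_lit 0) (XT.lf (nat_lit 1216) (nat_lit 2260099026) (nat_lit 0) (nat_lit 881184042) (nat_lit 1140) (nat_lit 881184042) (nat_lit 485) (nat_lit 1) (nat_lit 469) (nat_lit 1) (nat_lit 484) (nat_lit 1) (nat_lit 382) (nat_lit 392) (nat_lit 366)) (XT.lf (nat_lit 76) (nat_lit 949322638) (nat_lit 0) (nat_lit 2087557263) (nat_lit 1216) (nat_lit 949322638) (nat_lit 470) (nat_lit 1) (nat_lit 469) (nat_lit 1) (nat_lit 485) (nat_lit 1) (nat_lit 383) (nat_lit 392) (nat_lit 365))))))) (XT.nd (nat_lit 1170) (nat_lit 6080) (nat_lit 0) (XT.nd (nat_lit 546) (nat_lit 4028) (nat_lit 0) (XT.nd (nat_lit 234) (nat_lit 1824) (nat_lit 0) (XT.nd (nat_lit 78) (nat_lit 912) (nat_lit 0) (XT.lf (nat_lit 988) (nat_lit 1530544926) (nat_lit 0) (nat_lit 1209917410) (nat_lit 912) (nat_lit 1209917410) (nat_lit 470) (nat_lit 1) (nat_lit 457) (nat_lit 1) (nat_lit 469) (nat_lit 1) (nat_lit 384) (nat_lit 392) (nat_lit 364)) (XT.nd (nat_lit 78) (nat_lit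 912) (nat_lit 0) (XT.lf (nat_lit 76) (nat_lit 579763085) (nat_lit 0) (nat_lit 2755534443) (nat_lit 988) (nat_lit 579763085) (nat_lit 458) (nat_lit 1) (nat_lit 457) (nat_lit 1) (nat_lit 470) (nat_lit 1) (nat_lit 385) (nat_lit 392) (nat_lit 363)) (XT.lf (nat_lit 988) (nat_lit 777653776) (nat_lit 0) (nat_lit 1551212388) (nat_lit 912) (nat_lit 1551212388) (nat_lit 458) (nat_lit 1) (nat_lit 445) (nat_lit 1) (nat_lit 457) (nat_lit 1) (nat_lit 386) (nat_lit 392) (nat_lit 362)))) (XT.nd (nat_lit 156) (nat_lit 988) (nat_lit 0) (XT.nd (nat_lit 78) (nat_lit 836) (nat_lit 0) (XT.lf (nat_lit 76) (nat_lit 199059525) (nat_lit 0) (nat_lit 3447562381) (nat_lit 988) (nat_lit 199059525) (nat_lit 446) (nat_lit 1) (nat_lit 445) (nat_lit 1) (nat_lit 458) (nat_lit 1) (nat_lit 387) (nat_lit 392) (nat_lit 361)) (XT.lf (nat_lit 912) (nat_lit 3344851) (nat_lit 0) (nat_lit 1904084591) (nat_lit 836) (nat_lit 1904084591) (nat_lit 446) (nat_lit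 1) (nat_lit 434) (nat_lit 1) (nat_lit 445) (nat_lit 1) (nat_lit 388) (nat_lit 392) (nat_lit 360))) (XT.nd (nat_lit 78) (nat_lit 0) (nat_lit 0) (XT.lf (nat_lit 988) (nat_lit 3396729749) (nat_lit 0) (nat_lit 190593207) (nat_lit 912) (nat_lit 190593207) (nat_lit 434) (nat_lit 1) (nat_lit 421) (nat_lit 1) (nat_lit 433) (nat_lit 1) (nat_lit 389) (nat_lit 392) (nat_lit 359)) (XT.lf (nat_lit 76) (nat_lit 1482173453) (nat_lit 0) (nat_lit 780188667) (nat_lit 988) (nat_lit 1482173453) (nat_lit 422) (nat_lit 1) (nat_lit 421) (nat_lit 1) (nat_lit 434) (nat_lit 1) (nat_lit 390) (nat_lit 392) (nat_lit 358))))) (XT.nd (nat_lit 312) (nat_lit 2356) (nat_lit 0) (XT.nd (nat_lit 156) (nat_lit 836) (nat_lit 0) (XT.nd (nat_lit 78) (nat_lit 0) (nat_lit 0) (XT.lf (nat_lit 912) (nat_lit 2535309337) (nat_lit 0) (nat_lit 588199761) (nat_lit 836) (nat_lit 588199761) (nat_lit 422) (nat_lit 1) (nat_lit 410) (nat_lit 1) (nat_lit 421) (nat_lit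 1) (nat_lit 391) (nat_lit 392) (nat_lit 357)) (XT.lf (nat_lit 76) (nat_lit 1048947071) (nat_lit 0) (nat_lit 1581302447) (nat_lit 912) (nat_lit 1048947071) (nat_lit 411) (nat_lit 1) (nat_lit 410) (nat_lit 1) (nat_lit 422) (nat_lit 1) (nat_lit 392) (nat_lit 392) (nat_lit 356))) (XT.nd (nat_lit 78) (nat_lit 0) (nat_lit 0) (XT.lf (nat_lit 912) (nat_lit 1658652410) (nat_lit 0) (nat_lit 994232709) (nat_lit 836) (nat_lit 994232709) (nat_lit 411) (nat_lit 1) (nat_lit 399) (nat_lit 1) (nat_lit 410) (nat_lit 1) (nat_lit 393) (nat_lit 392) (nat_lit 355)) (XT.lf (nat_lit 76) (nat_lit 608519404) (nat_lit 0) (nat_lit 2398413874) (nat_lit 912) (nat_lit 608519404) (nat_lit 400) (nat_lit 1) (nat_lit 399) (nat_lit 1) (nat_lit 411) (nat_lit 1) (nat_lit 394) (nat_lit 392) (nat_lit 354)))) (XT.nd (nat_lit 156) (nat_lit 1596) (nat_lit 0) (XT.nd (nat_lit 78) (nat_lit 0) (nat_lit 0) (XT.lf (nat_lit 836) (nat_lit 768305257) (nat_lit 0)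 (nat_lit 1407896885) (nat_lit 760) (nat_lit 1407896885) (nat_lit 400) (nat_lit 1) (nat_lit 389) (nat_lit 1) (nat_lit 399) (nat_lit 1) (nat_lit 395) (nat_lit 392) (nat_lit 353)) (XT.lf (nat_lit 76) (nat_lit 161641144) (nat_lit 0) (nat_lit 3229978093) (nat_lit 836) (nat_lit 161641144) (nat_lit 390) (nat_lit 1) (nat_lit 389) (nat_lit 1) (nat_lit 400) (nat_lit 1) (nat_lit 396) (nat_lit 392) (nat_lit 352))) (XT.nd (nat_lit 78) (nat_lit 760) (nat_lit 0) (XT.lf (nat_lit 76) (nat_lit 1695044315) (nat_lit 0) (nat_lit 132503689) (nat_lit 836) (nat_lit 1695044315) (nat_lit 379) (nat_lit 1) (nat_lit 378) (nat_lit 1) (nat_lit 389) (nat_lit 1) (nat_lit 397) (nat_lit 392) (nat_lit 351)) (XT.lf (nat_lit 836) (nat_lit 2914303733) (nat_lit 0) (nat_lit 289061088) (nat_lit 760) (nat_lit 289061088) (nat_lit 379) (nat_lit 1) (nat_lit 368) (nat_lit 1) (nat_lit 378) (nat_lit 1) (nat_lit 398) (nat_lit 392) (nat_lit 350)))))) (XT.nd (nat_lit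 624) (nat_lit 3192) (nat_lit 0) (XT.nd (nat_lit 312) (nat_lit 1444) (nat_lit 0) (XT.nd (nat_lit 156) (nat_lit 684) (nat_lit 0) (XT.nd (nat_lit 78) (nat_lit 760) (nat_lit 0) (XT.lf (nat_lit 76) (nat_lit 1214273963) (nat_lit 0) (nat_lit 1033924638) (nat_lit 836) (nat_lit 1214273963) (nat_lit 369) (nat_lit 1) (nat_lit 368) (nat_lit 1) (nat_lit 379) (nat_lit 1) (nat_lit 399) (nat_lit 392) (nat_lit 349)) (XT.lf (nat_lit 836) (nat_lit 1945514609) (nat_lit 0) (nat_lit 743729279) (nat_lit 760) (nat_lit 743729279) (nat_lit 369) (nat_lit 1) (nat_lit 358) (nat_lit 1) (nat_lit 368) (nat_lit 1) (nat_lit 400) (nat_lit 392) (nat_lit 348))) (XT.nd (nat_lit 78) (nat_lit 684) (nat_lit 0) (XT.lf (nat_lit 76) (nat_lit 729534165) (nat_lit 0) (nat_lit 1944731227) (nat_lit 836) (nat_lit 729534165) (nat_lit 359) (nat_lit 1) (nat_lit 358) (nat_lit 1) (nat_lit 369) (nat_lit 1) (nat_lit 401) (nat_lit 392) (nat_lit 347)) (XT.lf (nat_lit 760)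 (nat_lit 969365928) (nat_lit 0) (nat_lit 1202790590) (nat_lit 684) (nat_lit 1202790590) (nat_lit 359) (nat_lit 1) (nat_lit 349) (nat_lit 1) (nat_lit 358) (nat_lit 1) (nat_lit 402) (nat_lit 392) (nat_lit 346)))) (XT.nd (nat_lit 156) (nat_lit 684) (nat_lit 0) (XT.nd (nat_lit 78) (nat_lit 760) (nat_lit 0) (XT.lf (nat_lit 76) (nat_lit 241422946) (nat_lit 0) (nat_lit 2863688628) (nat_lit 760) (nat_lit 241422946) (nat_lit 350) (nat_lit 1) (nat_lit 349) (nat_lit 1) (nat_lit 359) (nat_lit 1) (nat_lit 403) (nat_lit 392) (nat_lit 345)) (XT.lf (nat_lit 76) (nat_lit 1652751759) (nat_lit 0) (nat_lit 12804426) (nat_lit 760) (nat_lit 1652751759) (nat_lit 340) (nat_lit 1) (nat_lit 339) (nat_lit 1) (nat_lit 349) (nat_lit 1) (nat_lit 404) (nat_lit 392) (nat_lit 344))) (XT.nd (nat_lit 78) (nat_lit 0) (nat_lit 0) (XT.lf (nat_lit 760) (nat_lit 2794805459) (nat_lit 0) (nat_lit 247852184) (nat_lit 684) (nat_lit 247852184) (nat_lit 340)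 (nat_lit 1) (nat_lit 330) (nat_lit 1) (nat_lit 339) (nat_lit 1) (nat_lit 405) (nat_lit 392) (nat_lit 343)) (XT.lf (nat_lit 76) (nat_lit 1137806220) (nat_lit 0) (nat_lit 987281416) (nat_lit 760) (nat_lit 1137806220) (nat_lit 331) (nat_lit 1) (nat_lit 330) (nat_lit 1) (nat_lit 340) (nat_lit 1) (nat_lit 406) (nat_lit 392) (nat_lit 342))))) (XT.nd (nat_lit 312) (nat_lit 1900) (nat_lit 0) (XT.nd (nat_lit 156) (nat_lit 608) (nat_lit 0) (XT.nd (nat_lit 78) (nat_lit 0) (nat_lit 0) (XT.lf (nat_lit 760) (nat_lit 1760104405) (nat_lit 0) (nat_lit 737793805) (nat_lit 684) (nat_lit 737793805) (nat_lit 331) (nat_lit 1) (nat_lit 321) (nat_lit 1) (nat_lit 330) (nat_lit 1) (nat_lit 407) (nat_lit 392) (nat_lit 341)) (XT.lf (nat_lit 76) (nat_lit 621524025) (nat_lit 0) (nat_lit 1965746941) (nat_lit 760) (nat_lit 621524025) (nat_lit 322) (nat_lit 1) (nat_lit 321) (nat_lit 1) (nat_lit 331) (nat_lit 1) (nat_lit 408) (nat_lit 392) (nat_lit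 340))) (XT.nd (nat_lit 78) (nat_lit 0) (nat_lit 0) (XT.lf (nat_lit 684) (nat_lit 723197508) (nat_lit 0) (nat_lit 1229487135) (nat_lit 608) (nat_lit 1229487135) (nat_lit 322) (nat_lit 1) (nat_lit 313) (nat_lit 1) (nat_lit 321) (nat_lit 1) (nat_lit 409) (nat_lit 392) (nat_lit 339)) (XT.lf (nat_lit 76) (nat_lit 104375364) (nat_lit 0) (nat_lit 2947225952) (nat_lit 684) (nat_lit 104375364) (nat_lit 314) (nat_lit 1) (nat_lit 313) (nat_lit 1) (nat_lit 322) (nat_lit 1) (nat_lit 410) (nat_lit 392) (nat_lit 338)))) (XT.nd (nat_lit 156) (nat_lit 608) (nat_lit 0) (XT.nd (nat_lit 78) (nat_lit 608) (nat_lit 0) (XT.lf (nat_lit 76) (nat_lit 1409503438) (nat_lit 0) (nat_lit 310867243) (nat_lit 684) (nat_lit 1409503438) (nat_lit 305) (nat_lit 1) (nat_lit 304) (nat_lit 1) (nat_lit 313) (nat_lit 1) (nat_lit 411) (nat_lit 392) (nat_lit 337)) (XT.lf (nat_lit 684) (nat_lit 2283234668) (nat_lit 0) (nat_lit 410477636) (nat_lit 608) (nat_lit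 410477636) (nat_lit 305) (nat_lit 1) (nat_lit 296) (nat_lit 1) (nat_lit 304) (nat_lit 1) (nat_lit 412) (nat_lit 392) (nat_lit 336))) (XT.nd (nat_lit 78) (nat_lit 608) (nat_lit 0) (XT.lf (nat_lit 76) (nat_lit 871423519) (nat_lit 0) (nat_lit 1335865850) (nat_lit 684) (nat_lit 871423519) (nat_lit 297) (nat_lit 1) (nat_lit 296) (nat_lit 1) (nat_lit 305) (nat_lit 1) (nat_lit 413) (nat_lit 392) (nat_lit 335)) (XT.lf (nat_lit 684) (nat_lit 1204266655) (nat_lit 0) (nat_lit 924648204) (nat_lit 608) (nat_lit 924648204) (nat_lit 297) (nat_lit 1) (nat_lit 288) (nat_lit 1) (nat_lit 296) (nat_lit 1) (nat_lit 414) (nat_lit 392) (nat_lit 334))))))))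
noncomputable def ec20 : XT := (XT.nd (nat_lit 56550) (nat_lit 0) (nat_lit 2964) (XT.nd (nat_lit 55380) (nat_lit 0) (nat_lit 16492) (XT.nd (nat_lit 54756) (nat_lit 0) (nat_lit 17708) (XT.nd (nat_lit 234) (nat_lit 532) (nat_lit 0) (XT.nd (nat_lit 78) (nat_lit 1216) (nat_lit 0) (XT.lf (nat_lit 76) (nat_lit 334135697) (nat_lit 0) (nat_lit 2360478598) (nat_lit 684) (nat_lit 334135697) (nat_lit 289) (nat_lit 1) (nat_lit 288) (nat_lit 1) (nat_lit 297) (nat_lit 1) (nat_lit 415) (nat_lit 392) (nat_lit 333)) (XT.nd (nat_lit 78) (nat_lit 684) (nat_lit 0) (XT.lf (nat_lit 608) (nat_lit 127256380) (nat_lit 0) (nat_lit 1438431286) (nat_lit 532) (nat_lit 1438431286) (nat_lit 289) (nat_lit 1) (nat_lit 281) (nat_lit 1) (nat_lit 288) (nat_lit 1) (nat_lit 416) (nat_lit 392) (nat_lit 332)) (XT.lf (nat_lit 684) (nat_lit 2578513675) (nat_lit 0) (nat_lit 200667701) (nat_lit 608) (nat_lit 200667701) (nat_lit 281) (nat_lit 1) (nat_lit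 272) (nat_lit 1) (nat_lit 280) (nat_lit 1) (nat_lit 417) (nat_lit 392) (nat_lit 331)))) (XT.nd (nat_lit 54366) (nat_lit 0) (nat_lit 17632) (XT.nd (nat_lit 78) (nat_lit 532) (nat_lit 0) (XT.lf (nat_lit 76) (nat_lit 1010518128) (nat_lit 0) (nat_lit 934667798) (nat_lit 684) (nat_lit 1010518128) (nat_lit 273) (nat_lit 1) (nat_lit 272) (nat_lit 1) (nat_lit 281) (nat_lit 1) (nat_lit 418) (nat_lit 392) (nat_lit 330)) (XT.lf (nat_lit 608) (nat_lit 1468340638) (nat_lit 0) (nat_lit 731785627) (nat_lit 532) (nat_lit 731785627) (nat_lit 273) (nat_lit 1) (nat_lit 265) (nat_lit 1) (nat_lit 272) (nat_lit 1) (nat_lit 419) (nat_lit 392) (nat_lit 329))) (XT.nd (nat_lit 78) (nat_lit 0) (nat_lit 0) (XT.lf (nat_lit 1900) (nat_lit 872544505) (nat_lit 0) (nat_lit 879841007) (nat_lit 1900) (nat_lit 872544505) (nat_lit 522) (nat_lit 1) (nat_lit 497) (nat_lit 0) (nat_lit 522) (nat_lit 0) (nat_lit 354) (nat_lit 393) (nat_lit 393)) (XT.lf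 (nat_lit 1900) (nat_lit 3450172164) (nat_lit 76) (nat_lit 874052579) (nat_lit 0) (nat_lit 874052579) (nat_lit 522) (nat_lit 1) (nat_lit 498) (nat_lit 1) (nat_lit 497) (nat_lit 0) (nat_lit 355) (nat_lit 393) (nat_lit 392))))) (XT.nd (nat_lit 312) (nat_lit 0) (nat_lit 152) (XT.nd (nat_lit 156) (nat_lit 0) (nat_lit 76) (XT.nd (nat_lit 78) (nat_lit 0) (nat_lit 0) (XT.lf (nat_lit 1900) (nat_lit 1694050955) (nat_lit 0) (nat_lit 1759156107) (nat_lit 1824) (nat_lit 1694050955) (nat_lit 523) (nat_lit 1) (nat_lit 498) (nat_lit 1) (nat_lit 522) (nat_lit 1) (nat_lit 356) (nat_lit 393) (nat_lit 391)) (XT.lf (nat_lit 1900) (nat_lit 3315675327) (nat_lit 76) (nat_lit 890668418) (nat_lit 0) (nat_lit 890668418) (nat_lit 523) (nat_lit 1) (nat_lit 499) (nat_lit 1) (nat_lit 498) (nat_lit 1) (nat_lit 357) (nat_lit 393) (nat_lit 390))) (XT.nd (nat_lit 78) (nat_lit 0) (nat_lit 0) (XT.lf (nat_lit 1900) (nat_lit 1611355378) (nat_lit 0)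 (nat_lit 1824610212) (nat_lit 1824) (nat_lit 1611355378) (nat_lit 524) (nat_lit 1) (nat_lit 499) (nat_lit 1) (nat_lit 523) (nat_lit 1) (nat_lit 358) (nat_lit 393) (nat_lit 389)) (XT.lf (nat_lit 1900) (nat_lit 3119565006) (nat_lit 76) (nat_lit 939401866) (nat_lit 0) (nat_lit 939401866) (nat_lit 524) (nat_lit 1) (nat_lit 500) (nat_lit 1) (nat_lit 499) (nat_lit 1) (nat_lit 359) (nat_lit 393) (nat_lit 388)))) (XT.nd (nat_lit 156) (nat_lit 0) (nat_lit 76) (XT.nd (nat_lit 78) (nat_lit 0) (nat_lit 0) (XT.lf (nat_lit 1900) (nat_lit 1498891175) (nat_lit 0) (nat_lit 1952188919) (nat_lit 1824) (nat_lit 1498891175) (nat_lit 525) (nat_lit 1) (nat_lit 500) (nat_lit 1) (nat_lit 524) (nat_lit 1) (nat_lit 360) (nat_lit 393) (nat_lit 387)) (XT.lf (nat_lit 1900) (nat_lit 2865544243) (nat_lit 76) (nat_lit 1018363349) (nat_lit 0) (nat_lit 1018363349) (nat_lit 525) (nat_lit 1) (nat_lit 501) (nat_lit 1) (nat_lit 500) (nat_lit 1) (nat_lit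 361) (nat_lit 393) (nat_lit 386))) (XT.nd (nat_lit 78) (nat_lit 0) (nat_lit 0) (XT.lf (nat_lit 1900) (nat_lit 1358460962) (nat_lit 0) (nat_lit 2138211889) (nat_lit 1824) (nat_lit 1358460962) (nat_lit 526) (nat_lit 1) (nat_lit 501) (nat_lit 1) (nat_lit 525) (nat_lit 1) (nat_lit 362) (nat_lit 393) (nat_lit 385)) (XT.lf (nat_lit 1900) (nat_lit 2557146586) (nat_lit 76) (nat_lit 1125749265) (nat_lit 0) (nat_lit 1125749265) (nat_lit 526) (nat_lit 1) (nat_lit 502) (nat_lit 1) (nat_lit 501) (nat_lit 1) (nat_lit 363) (nat_lit 393) (nat_lit 384)))))) (XT.nd (nat_lit 546) (nat_lit 1520) (nat_lit 0) (XT.nd (nat_lit 234) (nat_lit 0) (nat_lit 76) (XT.nd (nat_lit 78) (nat_lit 0) (nat_lit 0) (XT.lf (nat_lit 1900) (nat_lit 1191784675) (nat_lit 0) (nat_lit 2379166556) (nat_lit 1824) (nat_lit 1191784675) (nat_lit 527) (nat_lit 1) (nat_lit 502) (nat_lit 1) (nat_lit 526) (nat_lit 1) (nat_lit 364) (nat_lit 393) (nat_lit 383)) (XT.nd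 (nat_lit 78) (nat_lit 0) (nat_lit 76) (XT.lf (nat_lit 1900) (nat_lit 2197743180) (nat_lit 76) (nat_lit 1259838394) (nat_lit 0) (nat_lit 1259838394) (nat_lit 527) (nat_lit 1) (nat_lit 503) (nat_lit 1) (nat_lit 502) (nat_lit 1) (nat_lit 365) (nat_lit 393) (nat_lit 382)) (XT.lf (nat_lit 1900) (nat_lit 1000503034) (nat_lit 0) (nat_lit 2671701126) (nat_lit 1824) (nat_lit 1000503034) (nat_lit 528) (nat_lit 1) (nat_lit 503) (nat_lit 1) (nat_lit 527) (nat_lit 1) (nat_lit 366) (nat_lit 393) (nat_lit 381)))) (XT.nd (nat_lit 156) (nat_lit 0) (nat_lit 76) (XT.nd (nat_lit 78) (nat_lit 0) (nat_lit 76) (XT.lf (nat_lit 1900) (nat_lit 1790549567) (nat_lit 76) (nat_lit 1418988464) (nat_lit 0) (nat_lit 1418988464) (nat_lit 528) (nat_lit 1) (nat_lit 504) (nat_lit 1) (nat_lit 503) (nat_lit 1) (nat_lit 367) (nat_lit 393) (nat_lit 380)) (XT.lf (nat_lit 1900) (nat_lit 786180859) (nat_lit 0) (nat_lit 3012617856) (nat_lit 1824) (nat_lit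 786180859) (nat_lit 529) (nat_lit 1) (nat_lit 504) (nat_lit 1) (nat_lit 528) (nat_lit 1) (nat_lit 368) (nat_lit 393) (nat_lit 379))) (XT.nd (nat_lit 78) (nat_lit 0) (nat_lit 76) (XT.lf (nat_lit 1900) (nat_lit 1338632210) (nat_lit 76) (nat_lit 1601632840) (nat_lit 0) (nat_lit 1601632840) (nat_lit 529) (nat_lit 1) (nat_lit 505) (nat_lit 1) (nat_lit 504) (nat_lit 1) (nat_lit 369) (nat_lit 393) (nat_lit 378)) (XT.lf (nat_lit 1900) (nat_lit 550310259) (nat_lit 0) (nat_lit 3398866602) (nat_lit 1824) (nat_lit 550310259) (nat_lit 530) (nat_lit 1) (nat_lit 505) (nat_lit 1) (nat_lit 529) (nat_lit 1) (nat_lit 370) (nat_lit 393) (nat_lit 377))))) (XT.nd (nat_lit 312) (nat_lit 1748) (nat_lit 0) (XT.nd (nat_lit 156) (nat_lit 0) (nat_lit 76) (XT.nd (nat_lit 78) (nat_lit 0) (nat_lit 76) (XT.lf (nat_lit 1900) (nat_lit 844914758) (nat_lit 76) (nat_lit 1806277362) (nat_lit 0) (nat_lit 1806277362) (nat_lit 530) (nat_lit 1) (nat_lit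 506) (nat_lit 1) (nat_lit 505) (nat_lit 1) (nat_lit 371) (nat_lit 393) (nat_lit 376)) (XT.lf (nat_lit 1900) (nat_lit 294313687) (nat_lit 0) (nat_lit 3827538631) (nat_lit 1824) (nat_lit 294313687) (nat_lit 531) (nat_lit 1) (nat_lit 506) (nat_lit 1) (nat_lit 530) (nat_lit 1) (nat_lit 372) (nat_lit 393) (nat_lit 375))) (XT.nd (nat_lit 78) (nat_lit 0) (nat_lit 76) (XT.lf (nat_lit 1900) (nat_lit 312184059) (nat_lit 76) (nat_lit 2031497297) (nat_lit 0) (nat_lit 2031497297) (nat_lit 531) (nat_lit 1) (nat_lit 507) (nat_lit 1) (nat_lit 506) (nat_lit 1) (nat_lit 373) (nat_lit 393) (nat_lit 374)) (XT.lf (nat_lit 1900) (nat_lit 19546878) (nat_lit 0) (nat_lit 4295860679) (nat_lit 1824) (nat_lit 19546878) (nat_lit 532) (nat_lit 1) (nat_lit 507) (nat_lit 1) (nat_lit 531) (nat_lit 1) (nat_lit 374) (nat_lit 393) (nat_lit 373)))) (XT.nd (nat_lit 156) (nat_lit 0) (nat_lit 76) (XT.nd (nat_lit 78) (nat_lit 0) (nat_lit 0) (XT.lf (nat_lit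 1976) (nat_lit 2020698336) (nat_lit 0) (nat_lit 253534733) (nat_lit 1900) (nat_lit 2020698336) (nat_lit 508) (nat_lit 1) (nat_lit 482) (nat_lit 1) (nat_lit 507) (nat_lit 1) (nat_lit 375) (nat_lit 393) (nat_lit 372)) (XT.lf (nat_lit 1976) (nat_lit 3713841907) (nat_lit 76) (nat_lit 270904271) (nat_lit 0) (nat_lit 270904271) (nat_lit 508) (nat_lit 1) (nat_lit 483) (nat_lit 1) (nat_lit 482) (nat_lit 1) (nat_lit 376) (nat_lit 393) (nat_lit 371))) (XT.nd (nat_lit 78) (nat_lit 0) (nat_lit 0) (XT.lf (nat_lit 1976) (nat_lit 1684057402) (nat_lit 0) (nat_lit 848542648) (nat_lit 1900) (nat_lit 1684057402) (nat_lit 509) (nat_lit 1) (nat_lit 483) (nat_lit 1) (nat_lit 508) (nat_lit 1) (nat_lit 377) (nat_lit 393) (nat_lit 370)) (XT.lf (nat_lit 1976) (nat_lit 3023584147) (nat_lit 76) (nat_lit 577367708) (nat_lit 0) (nat_lit 577367708) (nat_lit 509) (nat_lit 1) (nat_lit 484) (nat_lit 1) (nat_lit 483) (nat_lit 1) (nat_lit 378) (nat_lit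 393) (nat_lit 369))))))) (XT.nd (nat_lit 1170) (nat_lit 6460) (nat_lit 0) (XT.nd (nat_lit 546) (nat_lit 4256) (nat_lit 0) (XT.nd (nat_lit 234) (nat_lit 1824) (nat_lit 0) (XT.nd (nat_lit 78) (nat_lit 1140) (nat_lit 0) (XT.lf (nat_lit 76) (nat_lit 1332892628) (nat_lit 0) (nat_lit 1474555519) (nat_lit 1900) (nat_lit 1332892628) (nat_lit 485) (nat_lit 1) (nat_lit 484) (nat_lit 1) (nat_lit 509) (nat_lit 1) (nat_lit 379) (nat_lit 393) (nat_lit 368)) (XT.nd (nat_lit 78) (nat_lit 0) (nat_lit 0) (XT.lf (nat_lit 1216) (nat_lit 2305301007) (nat_lit 0) (nat_lit 898807723) (nat_lit 1140) (nat_lit 898807723) (nat_lit 485) (nat_lit 1) (nat_lit 469) (nat_lit 1) (nat_lit 484) (nat_lit 1) (nat_lit 380) (nat_lit 393) (nat_lit 367)) (XT.lf (nat_lit 76) (nat_lit 968309091) (nat_lit 0) (nat_lit 2129308408) (nat_lit 1216) (nat_lit 968309091) (nat_lit 470) (nat_lit 1) (nat_lit 469) (nat_lit 1) (nat_lit 485) (nat_lit 1) (nat_lit 381) (nat_lit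 393) (nat_lit 366)))) (XT.nd (nat_lit 156) (nat_lit 912) (nat_lit 0) (XT.nd (nat_lit 78) (nat_lit 0) (nat_lit 0) (XT.lf (nat_lit 988) (nat_lit 1561155825) (nat_lit 0) (nat_lit 1234115758) (nat_lit 912) (nat_lit 1234115758) (nat_lit 470) (nat_lit 1) (nat_lit 457) (nat_lit 1) (nat_lit 469) (nat_lit 1) (nat_lit 382) (nat_lit 393) (nat_lit 365)) (XT.lf (nat_lit 76) (nat_lit 591358347) (nat_lit 0) (nat_lit 2810645132) (nat_lit 988) (nat_lit 591358347) (nat_lit 458) (nat_lit 1) (nat_lit 457) (nat_lit 1) (nat_lit 470) (nat_lit 1) (nat_lit 383) (nat_lit 393) (nat_lit 364))) (XT.nd (nat_lit 78) (nat_lit 0) (nat_lit 0) (XT.lf (nat_lit 988) (nat_lit 793206852) (nat_lit 0) (nat_lit 1582236635) (nat_lit 912) (nat_lit 1582236635) (nat_lit 458) (nat_lit 1) (nat_lit 445) (nat_lit 1) (nat_lit 457) (nat_lit 1) (nat_lit 384) (nat_lit 393) (nat_lit 363)) (XT.lf (nat_lit 76) (nat_lit 203040716) (nat_lit 0) (nat_lit 3516513629) (nat_lit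 988) (nat_lit 203040716) (nat_lit 446) (nat_lit 1) (nat_lit 445) (nat_lit 1) (nat_lit 458) (nat_lit 1) (nat_lit 385) (nat_lit 393) (nat_lit 362))))) (XT.nd (nat_lit 312) (nat_lit 1596) (nat_lit 0) (XT.nd (nat_lit 156) (nat_lit 836) (nat_lit 0) (XT.nd (nat_lit 78) (nat_lit 988) (nat_lit 0) (XT.lf (nat_lit 912) (nat_lit 3411748) (nat_lit 0) (nat_lit 1942166283) (nat_lit 836) (nat_lit 1942166283) (nat_lit 446) (nat_lit 1) (nat_lit 434) (nat_lit 1) (nat_lit 445) (nat_lit 1) (nat_lit 386) (nat_lit 393) (nat_lit 361)) (XT.lf (nat_lit 988) (nat_lit 3464664344) (nat_lit 0) (nat_lit 194405071) (nat_lit 912) (nat_lit 194405071) (nat_lit 434) (nat_lit 1) (nat_lit 421) (nat_lit 1) (nat_lit 433) (nat_lit 1) (nat_lit 387) (nat_lit 393) (nat_lit 360))) (XT.nd (nat_lit 78) (nat_lit 836) (nat_lit 0) (XT.lf (nat_lit 76) (nat_lit 1511816922) (nat_lit 0) (nat_lit 795792440) (nat_lit 988) (nat_lit 1511816922) (nat_lit 422) (nat_lit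 1) (nat_lit 421) (nat_lit 1) (nat_lit 434) (nat_lit 1) (nat_lit 388) (nat_lit 393) (nat_lit 359)) (XT.lf (nat_lit 912) (nat_lit 2586015524) (nat_lit 0) (nat_lit 599963756) (nat_lit 836) (nat_lit 599963756) (nat_lit 422) (nat_lit 1) (nat_lit 410) (nat_lit 1) (nat_lit 421) (nat_lit 1) (nat_lit 389) (nat_lit 393) (nat_lit 358)))) (XT.nd (nat_lit 156) (nat_lit 760) (nat_lit 0) (XT.nd (nat_lit 78) (nat_lit 836) (nat_lit 0) (XT.lf (nat_lit 76) (nat_lit 1069926012) (nat_lit 0) (nat_lit 1612928496) (nat_lit 912) (nat_lit 1069926012) (nat_lit 411) (nat_lit 1) (nat_lit 410) (nat_lit 1) (nat_lit 422) (nat_lit 1) (nat_lit 390) (nat_lit 393) (nat_lit 357)) (XT.lf (nat_lit 912) (nat_lit 1691825458) (nat_lit 0) (nat_lit 1014117363) (nat_lit 836) (nat_lit 1014117363) (nat_lit 411) (nat_lit 1) (nat_lit 399) (nat_lit 1) (nat_lit 410) (nat_lit 1) (nat_lit 391) (nat_lit 393) (nat_lit 356))) (XT.nd (nat_lit 78) (nat_lit 760) (nat_lit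 0) (XT.lf (nat_lit 76) (nat_lit 620689792) (nat_lit 0) (nat_lit 2446382151) (nat_lit 912) (nat_lit 620689792) (nat_lit 400) (nat_lit 1) (nat_lit 399) (nat_lit 1) (nat_lit 411) (nat_lit 1) (nat_lit 392) (nat_lit 393) (nat_lit 355)) (XT.lf (nat_lit 836) (nat_lit 783671362) (nat_lit 0) (nat_lit 1436054822) (nat_lit 760) (nat_lit 1436054822) (nat_lit 400) (nat_lit 1) (nat_lit 389) (nat_lit 1) (nat_lit 399) (nat_lit 1) (nat_lit 393) (nat_lit 393) (nat_lit 354)))))) (XT.nd (nat_lit 624) (nat_lit 3420) (nat_lit 0) (XT.nd (nat_lit 312) (nat_lit 1444) (nat_lit 0) (XT.nd (nat_lit 156) (nat_lit 760) (nat_lit 0) (XT.nd (nat_lit 78) (nat_lit 836) (nat_lit 0) (XT.lf (nat_lit 76) (nat_lit 164873967) (nat_lit 0) (nat_lit 3294577655) (nat_lit 836) (nat_lit 164873967) (nat_lit 390) (nat_lit 1) (nat_lit 389) (nat_lit 1) (nat_lit 400) (nat_lit 1) (nat_lit 394) (nat_lit 393) (nat_lit 353)) (XT.lf (nat_lit 76) (nat_lit 1728945201) (nat_lit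 0) (nat_lit 135153763) (nat_lit 836) (nat_lit 1728945201) (nat_lit 379) (nat_lit 1) (nat_lit 378) (nat_lit 1) (nat_lit 389) (nat_lit 1) (nat_lit 395) (nat_lit 393) (nat_lit 352))) (XT.nd (nat_lit 78) (nat_lit 0) (nat_lit 0) (XT.lf (nat_lit 836) (nat_lit 2972589808) (nat_lit 0) (nat_lit 294842309) (nat_lit 760) (nat_lit 294842309) (nat_lit 379) (nat_lit 1) (nat_lit 368) (nat_lit 1) (nat_lit 378) (nat_lit 1) (nat_lit 396) (nat_lit 393) (nat_lit 351)) (XT.lf (nat_lit 76) (nat_lit 1238559443) (nat_lit 0) (nat_lit 1054603131) (nat_lit 836) (nat_lit 1238559443) (nat_lit 369) (nat_lit 1) (nat_lit 368) (nat_lit 1) (nat_lit 379) (nat_lit 1) (nat_lit 397) (nat_lit 393) (nat_lit 350)))) (XT.nd (nat_lit 156) (nat_lit 684) (nat_lit 0) (XT.nd (nat_lit 78) (nat_lit 0) (nat_lit 0) (XT.lf (nat_lit 836) (nat_lit 1984424901) (nat_lit 0) (nat_lit 758603864) (nat_lit 760) (nat_lit 758603864) (nat_lit 369) (nat_lit 1) (nat_lit 358)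 (nat_lit 1) (nat_lit 368) (nat_lit 1) (nat_lit 398) (nat_lit 393) (nat_lit 349)) (XT.lf (nat_lit 76) (nat_lit 744124848) (nat_lit 0) (nat_lit 1983625851) (nat_lit 836) (nat_lit 744124848) (nat_lit 359) (nat_lit 1) (nat_lit 358) (nat_lit 1) (nat_lit 369) (nat_lit 1) (nat_lit 399) (nat_lit 393) (nat_lit 348))) (XT.nd (nat_lit 78) (nat_lit 0) (nat_lit 0) (XT.lf (nat_lit 760) (nat_lit 988753247) (nat_lit 0) (nat_lit 1226846402) (nat_lit 684) (nat_lit 1226846402) (nat_lit 359) (nat_lit 1) (nat_lit 349) (nat_lit 1) (nat_lit 358) (nat_lit 1) (nat_lit 400) (nat_lit 393) (nat_lit 347)) (XT.lf (nat_lit 76) (nat_lit 246251405) (nat_lit 0) (nat_lit 2920962401) (nat_lit 760) (nat_lit 246251405) (nat_lit 350) (nat_lit 1) (nat_lit 349) (nat_lit 1) (nat_lit 359) (nat_lit 1) (nat_lit 401) (nat_lit 393) (nat_lit 346))))) (XT.nd (nat_lit 312) (nat_lit 1292) (nat_lit 0) (XT.nd (nat_lit 156) (nat_lit 684) (nat_lit 0) (XT.nd (nat_lit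 78) (nat_lit 684) (nat_lit 0) (XT.lf (nat_lit 76) (nat_lit 1685806795) (nat_lit 0) (nat_lit 13060514) (nat_lit 760) (nat_lit 1685806795) (nat_lit 340) (nat_lit 1) (nat_lit 339) (nat_lit 1) (nat_lit 349) (nat_lit 1) (nat_lit 402) (nat_lit 393) (nat_lit 345)) (XT.lf (nat_lit 760) (nat_lit 2850701568) (nat_lit 0) (nat_lit 252809228) (nat_lit 684) (nat_lit 252809228) (nat_lit 340) (nat_lit 1) (nat_lit 330) (nat_lit 1) (nat_lit 339) (nat_lit 1) (nat_lit 403) (nat_lit 393) (nat_lit 344))) (XT.nd (nat_lit 78) (nat_lit 684) (nat_lit 0) (XT.lf (nat_lit 76) (nat_lit 1160562344) (nat_lit 0) (nat_lit 1007027044) (nat_lit 760) (nat_lit 1160562344) (nat_lit 331) (nat_lit 1) (nat_lit 330) (nat_lit 1) (nat_lit 340) (nat_lit 1) (nat_lit 404) (nat_lit 393) (nat_lit 343)) (XT.lf (nat_lit 760) (nat_lit 1795306493) (nat_lit 0) (nat_lit 752549681) (nat_lit 684) (nat_lit 752549681) (nat_lit 331) (nat_lit 1) (nat_lit 321) (nat_lit 1)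 (nat_lit 330) (nat_lit 1) (nat_lit 405) (nat_lit 393) (nat_lit 342)))) (XT.nd (nat_lit 156) (nat_lit 684) (nat_lit 0) (XT.nd (nat_lit 78) (nat_lit 608) (nat_lit 0) (XT.lf (nat_lit 76) (nat_lit 633954505) (nat_lit 0) (nat_lit 2005061880) (nat_lit 760) (nat_lit 633954505) (nat_lit 322) (nat_lit 1) (nat_lit 321) (nat_lit 1) (nat_lit 331) (nat_lit 1) (nat_lit 406) (nat_lit 393) (nat_lit 341)) (XT.lf (nat_lit 684) (nat_lit 737661459) (nat_lit 0) (nat_lit 1254076877) (nat_lit 608) (nat_lit 1254076877) (nat_lit 322) (nat_lit 1) (nat_lit 313) (nat_lit 1) (nat_lit 321) (nat_lit 1) (nat_lit 407) (nat_lit 393) (nat_lit 340))) (XT.nd (nat_lit 78) (nat_lit 684) (nat_lit 0) (XT.lf (nat_lit 76) (nat_lit 106462871) (nat_lit 0) (nat_lit 3006170471) (nat_lit 684) (nat_lit 106462871) (nat_lit 314) (nat_lit 1) (nat_lit 313) (nat_lit 1) (nat_lit 322) (nat_lit 1) (nat_lit 408) (nat_lit 393) (nat_lit 339)) (XT.lf (nat_lit 76) (nat_lit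 1437693506) (nat_lit 0) (nat_lit 317084588) (nat_lit 684) (nat_lit 1437693506) (nat_lit 305) (nat_lit 1) (nat_lit 304) (nat_lit 1) (nat_lit 313) (nat_lit 1) (nat_lit 409) (nat_lit 393) (nat_lit 338))))))))
noncomputable def ec21 : XT := (XT.nd (nat_lit 56472) (nat_lit 0) (nat_lit 4788) (XT.nd (nat_lit 55224) (nat_lit 0) (nat_lit 18316) (XT.nd (nat_lit 546) (nat_lit 1064) (nat_lit 0) (XT.nd (nat_lit 234) (nat_lit 1216) (nat_lit 0) (XT.nd (nat_lit 78) (nat_lit 608) (nat_lit 0) (XT.lf (nat_lit 684) (nat_lit 2328899362) (nat_lit 0) (nat_lit 418687189) (nat_lit 608) (nat_lit 418687189) (nat_lit 305) (nat_lit 1) (nat_lit 296) (nat_lit 1) (nat_lit 304) (nat_lit 1) (nat_lit 410) (nat_lit 393) (nat_lit 337)) (XT.nd (nat_lit 78) (nat_lit 608) (nat_lit 0) (XT.lf (nat_lit 76) (nat_lit 888851990) (nat_lit 0) (nat_lit 1362583167) (nat_lit 684) (nat_lit 888851990) (nat_lit 297) (nat_lit 1) (nat_lit 296) (nat_lit 1) (nat_lit 305)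 (nat_lit 1) (nat_lit 411) (nat_lit 393) (nat_lit 336)) (XT.lf (nat_lit 684) (nat_lit 1228351988) (nat_lit 0) (nat_lit 943141168) (nat_lit 608) (nat_lit 943141168) (nat_lit 297) (nat_lit 1) (nat_lit 288) (nat_lit 1) (nat_lit 296) (nat_lit 1) (nat_lit 412) (nat_lit 393) (nat_lit 335)))) (XT.nd (nat_lit 156) (nat_lit 684) (nat_lit 0) (XT.nd (nat_lit 78) (nat_lit 532) (nat_lit 0) (XT.lf (nat_lit 76) (nat_lit 340818411) (nat_lit 0) (nat_lit 2407688170) (nat_lit 684) (nat_lit 340818411) (nat_lit 289) (nat_lit 1) (nat_lit 288) (nat_lit 1) (nat_lit 297) (nat_lit 1) (nat_lit 413) (nat_lit 393) (nat_lit 334)) (XT.lf (nat_lit 608) (nat_lit 129801507) (nat_lit 0) (nat_lit 1467199912) (nat_lit 532) (nat_lit 1467199912) (nat_lit 289) (nat_lit 1) (nat_lit 281) (nat_lit 1) (nat_lit 288) (nat_lit 1) (nat_lit 414) (nat_lit 393) (nat_lit 333))) (XT.nd (nat_lit 78) (nat_lit 0) (nat_lit 0) (XT.lf (nat_lit 684) (nat_lit 2630083949)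 (nat_lit 0) (nat_lit 204681055) (nat_lit 608) (nat_lit 204681055) (nat_lit 281) (nat_lit 1) (nat_lit 272) (nat_lit 1) (nat_lit 280) (nat_lit 1) (nat_lit 415) (nat_lit 393) (nat_lit 332)) (XT.lf (nat_lit 76) (nat_lit 1030728491) (nat_lit 0) (nat_lit 953361154) (nat_lit 684) (nat_lit 1030728491) (nat_lit 273) (nat_lit 1) (nat_lit 272) (nat_lit 1) (nat_lit 281) (nat_lit 1) (nat_lit 416) (nat_lit 393) (nat_lit 331))))) (XT.nd (nat_lit 54366) (nat_lit 0) (nat_lit 18164) (XT.nd (nat_lit 156) (nat_lit 532) (nat_lit 0) (XT.nd (nat_lit 78) (nat_lit 0) (nat_lit 0) (XT.lf (nat_lit 608) (nat_lit 1497707451) (nat_lit 0) (nat_lit 746421339) (nat_lit 532) (nat_lit 746421339) (nat_lit 273) (nat_lit 1) (nat_lit 265) (nat_lit 1) (nat_lit 272) (nat_lit 1) (nat_lit 417) (nat_lit 393) (nat_lit 330)) (XT.lf (nat_lit 76) (nat_lit 467546619) (nat_lit 0) (nat_lit 2031470246) (nat_lit 608) (nat_lit 467546619) (nat_lit 266) (nat_lit 1) (nat_lit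 265) (nat_lit 1) (nat_lit 273) (nat_lit 1) (nat_lit 418) (nat_lit 393) (nat_lit 329))) (XT.nd (nat_lit 54132) (nat_lit 0) (nat_lit 18164) (XT.lf (nat_lit 608) (nat_lit 370145743) (nat_lit 0) (nat_lit 1286319683) (nat_lit 532) (nat_lit 1286319683) (nat_lit 266) (nat_lit 1) (nat_lit 258) (nat_lit 1) (nat_lit 265) (nat_lit 1) (nat_lit 419) (nat_lit 393) (nat_lit 328)) (XT.lf (nat_lit 1900) (nat_lit 889995396) (nat_lit 0) (nat_lit 897437827) (nat_lit 1900) (nat_lit 889995396) (nat_lit 522) (nat_lit 1) (nat_lit 497) (nat_lit 0) (nat_lit 522) (nat_lit 0) (nat_lit 352) (nat_lit 394) (nat_lit 394)))) (XT.nd (nat_lit 156) (nat_lit 0) (nat_lit 76) (XT.nd (nat_lit 78) (nat_lit 0) (nat_lit 76) (XT.lf (nat_lit 1900) (nat_lit 3519175607) (nat_lit 76) (nat_lit 891533631) (nat_lit 0) (nat_lit 891533631) (nat_lit 522) (nat_lit 1) (nat_lit 498) (nat_lit 1) (nat_lit 497) (nat_lit 0) (nat_lit 353) (nat_lit 394) (nat_lit 393)) (XT.lf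 (nat_lit 1900) (nat_lit 1727931974) (nat_lit 0) (nat_lit 1794339229) (nat_lit 1824) (nat_lit 1727931974) (nat_lit 523) (nat_lit 1) (nat_lit 498) (nat_lit 1) (nat_lit 522) (nat_lit 1) (nat_lit 354) (nat_lit 394) (nat_lit 392))) (XT.nd (nat_lit 78) (nat_lit 0) (nat_lit 76) (XT.lf (nat_lit 1900) (nat_lit 3381988833) (nat_lit 76) (nat_lit 908481786) (nat_lit 0) (nat_lit 908481786) (nat_lit 523) (nat_lit 1) (nat_lit 499) (nat_lit 1) (nat_lit 498) (nat_lit 1) (nat_lit 355) (nat_lit 394) (nat_lit 391)) (XT.lf (nat_lit 1900) (nat_lit 1643582485) (nat_lit 0) (nat_lit 1861102416) (nat_lit 1824) (nat_lit 1643582485) (nat_lit 524) (nat_lit 1) (nat_lit 499) (nat_lit 1) (nat_lit 523) (nat_lit 1) (nat_lit 356) (nat_lit 394) (nat_lit 390)))))) (XT.nd (nat_lit 624) (nat_lit 0) (nat_lit 304) (XT.nd (nat_lit 312) (nat_lit 0) (nat_lit 152) (XT.nd (nat_lit 156) (nat_lit 0) (nat_lit 76) (XT.nd (nat_lit 78) (nat_lit 0) (nat_lit 76) (XT.lf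 (nat_lit 1900) (nat_lit 3181956306) (nat_lit 76) (nat_lit 958189903) (nat_lit 0) (nat_lit 958189903) (nat_lit 524) (nat_lit 1) (nat_lit 500) (nat_lit 1) (nat_lit 499) (nat_lit 1) (nat_lit 357) (nat_lit 394) (nat_lit 389)) (XT.lf (nat_lit 1900) (nat_lit 1528868999) (nat_lit 0) (nat_lit 1991232698) (nat_lit 1824) (nat_lit 1528868999) (nat_lit 525) (nat_lit 1) (nat_lit 500) (nat_lit 1) (nat_lit 524) (nat_lit 1) (nat_lit 358) (nat_lit 394) (nat_lit 388))) (XT.nd (nat_lit 78) (nat_lit 0) (nat_lit 76) (XT.lf (nat_lit 1900) (nat_lit 2922855128) (nat_lit 76) (nat_lit 1038730616) (nat_lit 0) (nat_lit 1038730616) (nat_lit 525) (nat_lit 1) (nat_lit 501) (nat_lit 1) (nat_lit 500) (nat_lit 1) (nat_lit 359) (nat_lit 394) (nat_lit 387)) (XT.lf (nat_lit 1900) (nat_lit 1385630181) (nat_lit 0) (nat_lit 2180976127) (nat_lit 1824) (nat_lit 1385630181) (nat_lit 526) (nat_lit 1) (nat_lit 501) (nat_lit 1) (nat_lit 525) (nat_lit 1) (nat_lit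 360) (nat_lit 394) (nat_lit 386)))) (XT.nd (nat_lit 156) (nat_lit 0) (nat_lit 76) (XT.nd (nat_lit 78) (nat_lit 0) (nat_lit 76) (XT.lf (nat_lit 1900) (nat_lit 2608289517) (nat_lit 76) (nat_lit 1148264250) (nat_lit 0) (nat_lit 1148264250) (nat_lit 526) (nat_lit 1) (nat_lit 502) (nat_lit 1) (nat_lit 501) (nat_lit 1) (nat_lit 361) (nat_lit 394) (nat_lit 385)) (XT.lf (nat_lit 1900) (nat_lit 1215620369) (nat_lit 0) (nat_lit 2426749888) (nat_lit 1824) (nat_lit 1215620369) (nat_lit 527) (nat_lit 1) (nat_lit 502) (nat_lit 1) (nat_lit 526) (nat_lit 1) (nat_lit 362) (nat_lit 394) (nat_lit 384))) (XT.nd (nat_lit 78) (nat_lit 0) (nat_lit 76) (XT.lf (nat_lit 1900) (nat_lit 2241698044) (nat_lit 76) (nat_lit 1285035162) (nat_lit 0) (nat_lit 1285035162) (nat_lit 527) (nat_lit 1) (nat_lit 503) (nat_lit 1) (nat_lit 502) (nat_lit 1) (nat_lit 363) (nat_lit 394) (nat_lit 383)) (XT.lf (nat_lit 1900) (nat_lit 1020513095) (nat_lit 0) (nat_lit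 2725135149) (nat_lit 1824) (nat_lit 1020513095) (nat_lit 528) (nat_lit 1) (nat_lit 503) (nat_lit 1) (nat_lit 527) (nat_lit 1) (nat_lit 364) (nat_lit 394) (nat_lit 382))))) (XT.nd (nat_lit 312) (nat_lit 0) (nat_lit 152) (XT.nd (nat_lit 156) (nat_lit 0) (nat_lit 76) (XT.nd (nat_lit 78) (nat_lit 0) (nat_lit 76) (XT.lf (nat_lit 1900) (nat_lit 1826360558) (nat_lit 76) (nat_lit 1447368233) (nat_lit 0) (nat_lit 1447368233) (nat_lit 528) (nat_lit 1) (nat_lit 504) (nat_lit 1) (nat_lit 503) (nat_lit 1) (nat_lit 365) (nat_lit 394) (nat_lit 381)) (XT.lf (nat_lit 1900) (nat_lit 801904477) (nat_lit 0) (nat_lit 3072870213) (nat_lit 1824) (nat_lit 801904477) (nat_lit 529) (nat_lit 1) (nat_lit 504) (nat_lit 1) (nat_lit 528) (nat_lit 1) (nat_lit 366) (nat_lit 394) (nat_lit 380))) (XT.nd (nat_lit 78) (nat_lit 0) (nat_lit 76) (XT.lf (nat_lit 1900) (nat_lit 1365404854) (nat_lit 76) (nat_lit 1633665497) (nat_lit 0) (nat_lit 1633665497)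 (nat_lit 529) (nat_lit 1) (nat_lit 505) (nat_lit 1) (nat_lit 504) (nat_lit 1) (nat_lit 367) (nat_lit 394) (nat_lit 379)) (XT.lf (nat_lit 1900) (nat_lit 561316464) (nat_lit 0) (nat_lit 3466843934) (nat_lit 1824) (nat_lit 561316464) (nat_lit 530) (nat_lit 1) (nat_lit 505) (nat_lit 1) (nat_lit 529) (nat_lit 1) (nat_lit 368) (nat_lit 394) (nat_lit 378)))) (XT.nd (nat_lit 156) (nat_lit 0) (nat_lit 76) (XT.nd (nat_lit 78) (nat_lit 0) (nat_lit 76) (XT.lf (nat_lit 1900) (nat_lit 861813053) (nat_lit 76) (nat_lit 1842402909) (nat_lit 0) (nat_lit 1842402909) (nat_lit 530) (nat_lit 1) (nat_lit 506) (nat_lit 1) (nat_lit 505) (nat_lit 1) (nat_lit 369) (nat_lit 394) (nat_lit 377)) (XT.lf (nat_lit 1900) (nat_lit 300199961) (nat_lit 0) (nat_lit 3904089404) (nat_lit 1824) (nat_lit 300199961) (nat_lit 531) (nat_lit 1) (nat_lit 506) (nat_lit 1) (nat_lit 530) (nat_lit 1) (nat_lit 370) (nat_lit 394) (nat_lit 376))) (XT.nd (nat_lit 78)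 (nat_lit 0) (nat_lit 76) (XT.lf (nat_lit 1900) (nat_lit 318427740) (nat_lit 76) (nat_lit 2072127243) (nat_lit 0) (nat_lit 2072127243) (nat_lit 531) (nat_lit 1) (nat_lit 507) (nat_lit 1) (nat_lit 506) (nat_lit 1) (nat_lit 371) (nat_lit 394) (nat_lit 375)) (XT.lf (nat_lit 1900) (nat_lit 19937815) (nat_lit 0) (nat_lit 4381777893) (nat_lit 1824) (nat_lit 19937815) (nat_lit 532) (nat_lit 1) (nat_lit 507) (nat_lit 1) (nat_lit 531) (nat_lit 1) (nat_lit 372) (nat_lit 394) (nat_lit 374))))))) (XT.nd (nat_lit 1170) (nat_lit 6764) (nat_lit 0) (XT.nd (nat_lit 546) (nat_lit 4484) (nat_lit 0) (XT.nd (nat_lit 234) (nat_lit 988) (nat_lit 0) (XT.nd (nat_lit 78) (nat_lit 0) (nat_lit 0) (XT.lf (nat_lit 1976) (nat_lit 2061112303) (nat_lit 0) (nat_lit 258605427) (nat_lit 1900) (nat_lit 2061112303) (nat_lit 508) (nat_lit 1) (nat_lit 482) (nat_lit 1) (nat_lit 507) (nat_lit 1) (nat_lit 373) (nat_lit 394) (nat_lit 373)) (XT.nd (nat_lit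 78) (nat_lit 0) (nat_lit 76) (XT.lf (nat_lit 1976) (nat_lit 3788118745) (nat_lit 76) (nat_lit 276322356) (nat_lit 0) (nat_lit 276322356) (nat_lit 508) (nat_lit 1) (nat_lit 483) (nat_lit 1) (nat_lit 482) (nat_lit 1) (nat_lit 374) (nat_lit 394) (nat_lit 372)) (XT.lf (nat_lit 1976) (nat_lit 1717738550) (nat_lit 0) (nat_lit 865513501) (nat_lit 1900) (nat_lit 1717738550) (nat_lit 509) (nat_lit 1) (nat_lit 483) (nat_lit 1) (nat_lit 508) (nat_lit 1) (nat_lit 375) (nat_lit 394) (nat_lit 371)))) (XT.nd (nat_lit 156) (nat_lit 1064) (nat_lit 0) (XT.nd (nat_lit 78) (nat_lit 0) (nat_lit 76) (XT.lf (nat_lit 1976) (nat_lit 3084055829) (nat_lit 76) (nat_lit 588915062) (nat_lit 0) (nat_lit 588915062) (nat_lit 509) (nat_lit 1) (nat_lit 484) (nat_lit 1) (nat_lit 483) (nat_lit 1) (nat_lit 376) (nat_lit 394) (nat_lit 370)) (XT.lf (nat_lit 76) (nat_lit 1359550480) (nat_lit 0) (nat_lit 1504046630) (nat_lit 1900) (nat_lit 1359550480)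 (nat_lit 485) (nat_lit 1) (nat_lit 484) (nat_lit 1) (nat_lit 509) (nat_lit 1) (nat_lit 377) (nat_lit 394) (nat_lit 369))) (XT.nd (nat_lit 78) (nat_lit 0) (nat_lit 0) (XT.lf (nat_lit 1216) (nat_lit 2351407027) (nat_lit 0) (nat_lit 916783877) (nat_lit 1140) (nat_lit 916783877) (nat_lit 485) (nat_lit 1) (nat_lit 469) (nat_lit 1) (nat_lit 484) (nat_lit 1) (nat_lit 378) (nat_lit 394) (nat_lit 368)) (XT.lf (nat_lit 76) (nat_lit 987675273) (nat_lit 0) (nat_lit 2171894576) (nat_lit 1216) (nat_lit 987675273) (nat_lit 470) (nat_lit 1) (nat_lit 469) (nat_lit 1) (nat_lit 485) (nat_lit 1) (nat_lit 379) (nat_lit 394) (nat_lit 367))))) (XT.nd (nat_lit 312) (nat_lit 2660) (nat_lit 0) (XT.nd (nat_lit 156) (nat_lit 912) (nat_lit 0) (XT.nd (nat_lit 78) (nat_lit 0) (nat_lit 0) (XT.lf (nat_lit 988) (nat_lit 1592378941) (nat_lit 0) (nat_lit 1258798073) (nat_lit 912) (nat_lit 1258798073) (nat_lit 470) (nat_lit 1) (nat_lit 457) (nat_lit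 1) (nat_lit 469) (nat_lit 1) (nat_lit 380) (nat_lit 394) (nat_lit 366)) (XT.lf (nat_lit 76) (nat_lit 603185514) (nat_lit 0) (nat_lit 2866858034) (nat_lit 988) (nat_lit 603185514) (nat_lit 458) (nat_lit 1) (nat_lit 457) (nat_lit 1) (nat_lit 470) (nat_lit 1) (nat_lit 381) (nat_lit 394) (nat_lit 365))) (XT.nd (nat_lit 78) (nat_lit 0) (nat_lit 0) (XT.lf (nat_lit 988) (nat_lit 809070989) (nat_lit 0) (nat_lit 1613881368) (nat_lit 912) (nat_lit 1613881368) (nat_lit 458) (nat_lit 1) (nat_lit 445) (nat_lit 1) (nat_lit 457) (nat_lit 1) (nat_lit 382) (nat_lit 394) (nat_lit 364)) (XT.lf (nat_lit 76) (nat_lit 207101530) (nat_lit 0) (nat_lit 3586843901) (nat_lit 988) (nat_lit 207101530) (nat_lit 446) (nat_lit 1) (nat_lit 445) (nat_lit 1) (nat_lit 458) (nat_lit 1) (nat_lit 383) (nat_lit 394) (nat_lit 363)))) (XT.nd (nat_lit 156) (nat_lit 836) (nat_lit 0) (XT.nd (nat_lit 78) (nat_lit 988) (nat_lit 0) (XT.lf (nat_lit 912) (nat_lit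 3479983) (nat_lit 0) (nat_lit 1981009608) (nat_lit 836) (nat_lit 1981009608) (nat_lit 446) (nat_lit 1) (nat_lit 434) (nat_lit 1) (nat_lit 445) (nat_lit 1) (nat_lit 384) (nat_lit 394) (nat_lit 362)) (XT.lf (nat_lit 988) (nat_lit 3533957631) (nat_lit 0) (nat_lit 198293173) (nat_lit 912) (nat_lit 198293173) (nat_lit 434) (nat_lit 1) (nat_lit 421) (nat_lit 1) (nat_lit 433) (nat_lit 1) (nat_lit 385) (nat_lit 394) (nat_lit 361))) (XT.nd (nat_lit 78) (nat_lit 836) (nat_lit 0) (XT.lf (nat_lit 76) (nat_lit 1542053260) (nat_lit 0) (nat_lit 811708289) (nat_lit 988) (nat_lit 1542053260) (nat_lit 422) (nat_lit 1) (nat_lit 421) (nat_lit 1) (nat_lit 434) (nat_lit 1) (nat_lit 386) (nat_lit 394) (nat_lit 360)) (XT.lf (nat_lit 912) (nat_lit 2637735834) (nat_lit 0) (nat_lit 611963031) (nat_lit 836) (nat_lit 611963031) (nat_lit 422) (nat_lit 1) (nat_lit 410) (nat_lit 1) (nat_lit 421) (nat_lit 1) (nat_lit 387) (nat_lit 394) (nat_lit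 359)))))) (XT.nd (nat_lit 624) (nat_lit 3572) (nat_lit 0) (XT.nd (nat_lit 312) (nat_lit 1596) (nat_lit 0) (XT.nd (nat_lit 156) (nat_lit 760) (nat_lit 0) (XT.nd (nat_lit 78) (nat_lit 836) (nat_lit 0) (XT.lf (nat_lit 76) (nat_lit 1091324532) (nat_lit 0) (nat_lit 1645187066) (nat_lit 912) (nat_lit 1091324532) (nat_lit 411) (nat_lit 1) (nat_lit 410) (nat_lit 1) (nat_lit 422) (nat_lit 1) (nat_lit 388) (nat_lit 394) (nat_lit 358)) (XT.lf (nat_lit 912) (nat_lit 1725661967) (nat_lit 0) (nat_lit 1034399711) (nat_lit 836) (nat_lit 1034399711) (nat_lit 411) (nat_lit 1) (nat_lit 399) (nat_lit 1) (nat_lit 410) (nat_lit 1) (nat_lit 389) (nat_lit 394) (nat_lit 357))) (XT.nd (nat_lit 78) (nat_lit 760) (nat_lit 0) (XT.lf (nat_lit 76) (nat_lit 633103587) (nat_lit 0) (nat_lit 2495309794) (nat_lit 912) (nat_lit 633103587) (nat_lit 400) (nat_lit 1) (nat_lit 399) (nat_lit 1) (nat_lit 411) (nat_lit 1) (nat_lit 390) (nat_lit 394) (nat_lit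 356)) (XT.lf (nat_lit 836) (nat_lit 799344789) (nat_lit 0) (nat_lit 1464775919) (nat_lit 760) (nat_lit 1464775919) (nat_lit 400) (nat_lit 1) (nat_lit 389) (nat_lit 1) (nat_lit 399) (nat_lit 1) (nat_lit 391) (nat_lit 394) (nat_lit 355)))) (XT.nd (nat_lit 156) (nat_lit 760) (nat_lit 0) (XT.nd (nat_lit 78) (nat_lit 836) (nat_lit 0) (XT.lf (nat_lit 76) (nat_lit 168171447) (nat_lit 0) (nat_lit 3360469208) (nat_lit 836) (nat_lit 168171447) (nat_lit 390) (nat_lit 1) (nat_lit 389) (nat_lit 1) (nat_lit 400) (nat_lit 1) (nat_lit 392) (nat_lit 394) (nat_lit 354)) (XT.lf (nat_lit 76) (nat_lit 1763524105) (nat_lit 0) (nat_lit 137856838) (nat_lit 836) (nat_lit 1763524105) (nat_lit 379) (nat_lit 1) (nat_lit 378) (nat_lit 1) (nat_lit 389) (nat_lit 1) (nat_lit 393) (nat_lit 394) (nat_lit 353))) (XT.nd (nat_lit 78) (nat_lit 0) (nat_lit 0) (XT.lf (nat_lit 836) (nat_lit 3032041604) (nat_lit 0) (nat_lit 300739156) (nat_lit 760) (nat_lit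 300739156) (nat_lit 379) (nat_lit 1) (nat_lit 368) (nat_lit 1) (nat_lit 378) (nat_lit 1) (nat_lit 394) (nat_lit 394) (nat_lit 352)) (XT.lf (nat_lit 76) (nat_lit 1263330632) (nat_lit 0) (nat_lit 1075695193) (nat_lit 836) (nat_lit 1263330632) (nat_lit 369) (nat_lit 1) (nat_lit 368) (nat_lit 1) (nat_lit 379) (nat_lit 1) (nat_lit 395) (nat_lit 394) (nat_lit 351))))) (XT.nd (nat_lit 312) (nat_lit 2128) (nat_lit 0) (XT.nd (nat_lit 156) (nat_lit 684) (nat_lit 0) (XT.nd (nat_lit 78) (nat_lit 0) (nat_lit 0) (XT.lf (nat_lit 836) (nat_lit 2024113399) (nat_lit 0) (nat_lit 773775941) (nat_lit 760) (nat_lit 773775941) (nat_lit 369) (nat_lit 1) (nat_lit 358) (nat_lit 1) (nat_lit 368) (nat_lit 1) (nat_lit 396) (nat_lit 394) (nat_lit 350)) (XT.lf (nat_lit 76) (nat_lit 759007345) (nat_lit 0) (nat_lit 2023298368) (nat_lit 836) (nat_lit 759007345) (nat_lit 359) (nat_lit 1) (nat_lit 358) (nat_lit 1) (nat_lit 369) (nat_lit 1) (nat_lit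 397) (nat_lit 394) (nat_lit 349))) (XT.nd (nat_lit 78) (nat_lit 0) (nat_lit 0) (XT.lf (nat_lit 760) (nat_lit 1008528312) (nat_lit 0) (nat_lit 1251383330) (nat_lit 684) (nat_lit 1251383330) (nat_lit 359) (nat_lit 1) (nat_lit 349) (nat_lit 1) (nat_lit 358) (nat_lit 1) (nat_lit 398) (nat_lit 394) (nat_lit 348)) (XT.lf (nat_lit 76) (nat_lit 251176433) (nat_lit 0) (nat_lit 2979381649) (nat_lit 760) (nat_lit 251176433) (nat_lit 350) (nat_lit 1) (nat_lit 349) (nat_lit 1) (nat_lit 359) (nat_lit 1) (nat_lit 399) (nat_lit 394) (nat_lit 347)))) (XT.nd (nat_lit 156) (nat_lit 684) (nat_lit 0) (XT.nd (nat_lit 78) (nat_lit 684) (nat_lit 0) (XT.lf (nat_lit 76) (nat_lit 1719522930) (nat_lit 0) (nat_lit 13321725) (nat_lit 760) (nat_lit 1719522930) (nat_lit 340) (nat_lit 1) (nat_lit 339) (nat_lit 1) (nat_lit 349) (nat_lit 1) (nat_lit 400) (nat_lit 394) (nat_lit 346)) (XT.lf (nat_lit 760) (nat_lit 2907715599) (nat_lit 0) (nat_lit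 257865412) (nat_lit 684) (nat_lit 257865412) (nat_lit 340) (nat_lit 1) (nat_lit 330) (nat_lit 1) (nat_lit 339) (nat_lit 1) (nat_lit 401) (nat_lit 394) (nat_lit 345))) (XT.nd (nat_lit 78) (nat_lit 684) (nat_lit 0) (XT.lf (nat_lit 76) (nat_lit 1183773591) (nat_lit 0) (nat_lit 1027167585) (nat_lit 760) (nat_lit 1183773591) (nat_lit 331) (nat_lit 1) (nat_lit 330) (nat_lit 1) (nat_lit 340) (nat_lit 1) (nat_lit 402) (nat_lit 394) (nat_lit 344)) (XT.lf (nat_lit 760) (nat_lit 1831212623) (nat_lit 0) (nat_lit 767600675) (nat_lit 684) (nat_lit 767600675) (nat_lit 331) (nat_lit 1) (nat_lit 321) (nat_lit 1) (nat_lit 330) (nat_lit 1) (nat_lit 403) (nat_lit 394) (nat_lit 343))))))))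
noncomputable def ec22 : XT := (XT.nd (nat_lit 56316) (nat_lit 0) (nat_lit 8208) (XT.nd (nat_lit 55146) (nat_lit 0) (nat_lit 18772) (XT.nd (nat_lit 546) (nat_lit 2888) (nat_lit 0) (XT.nd (nat_lit 234) (nat_lit 1900) (nat_lit 0) (XT.nd (nat_lit 78) (nat_lit 608) (nat_lit 0) (XT.lf (nat_lit 76) (nat_lit 646633595) (nat_lit 0) (nat_lit 2045163117) (nat_lit 760) (nat_lit 646633595) (nat_lit 322) (nat_lit 1) (nat_lit 321) (nat_lit 1) (nat_lit 331) (nat_lit 1) (nat_lit 404) (nat_lit 394) (nat_lit 342)) (XT.nd (nat_lit 78) (nat_lit 0) (nat_lit 0) (XT.lf (nat_lit 684) (nat_lit 752414688) (nat_lit 0) (nat_lit 1279158415) (nat_lit 608) (nat_lit 1279158415) (nat_lit 322) (nat_lit 1) (nat_lit 313) (nat_lit 1) (nat_lit 321) (nat_lit 1) (nat_lit 405) (nat_lit 394) (nat_lit 341)) (XT.lf (nat_lit 76) (nat_lit 108592128) (nat_lit 0) (nat_lit 3066293881) (nat_lit 684) (nat_lit 108592128) (nat_lit 314) (nat_lit 1) (nat_lit 313) (nat_lit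 1) (nat_lit 322) (nat_lit 1) (nat_lit 406) (nat_lit 394) (nat_lit 340)))) (XT.nd (nat_lit 156) (nat_lit 608) (nat_lit 0) (XT.nd (nat_lit 78) (nat_lit 608) (nat_lit 0) (XT.lf (nat_lit 76) (nat_lit 1466447377) (nat_lit 0) (nat_lit 323426279) (nat_lit 684) (nat_lit 1466447377) (nat_lit 305) (nat_lit 1) (nat_lit 304) (nat_lit 1) (nat_lit 313) (nat_lit 1) (nat_lit 407) (nat_lit 394) (nat_lit 339)) (XT.lf (nat_lit 684) (nat_lit 2375477349) (nat_lit 0) (nat_lit 427060933) (nat_lit 608) (nat_lit 427060933) (nat_lit 305) (nat_lit 1) (nat_lit 296) (nat_lit 1) (nat_lit 304) (nat_lit 1) (nat_lit 408) (nat_lit 394) (nat_lit 338))) (XT.nd (nat_lit 78) (nat_lit 608) (nat_lit 0) (XT.lf (nat_lit 76) (nat_lit 906629030) (nat_lit 0) (nat_lit 1389834831) (nat_lit 684) (nat_lit 906629030) (nat_lit 297) (nat_lit 1) (nat_lit 296) (nat_lit 1) (nat_lit 305) (nat_lit 1) (nat_lit 409) (nat_lit 394) (nat_lit 337)) (XT.lf (nat_lit 684) (nat_lit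 1252919028) (nat_lit 0) (nat_lit 962003991) (nat_lit 608) (nat_lit 962003991) (nat_lit 297) (nat_lit 1) (nat_lit 288) (nat_lit 1) (nat_lit 296) (nat_lit 1) (nat_lit 410) (nat_lit 394) (nat_lit 336))))) (XT.nd (nat_lit 312) (nat_lit 1672) (nat_lit 0) (XT.nd (nat_lit 156) (nat_lit 684) (nat_lit 0) (XT.nd (nat_lit 78) (nat_lit 532) (nat_lit 0) (XT.lf (nat_lit 76) (nat_lit 347634779) (nat_lit 0) (nat_lit 2455841933) (nat_lit 684) (nat_lit 347634779) (nat_lit 289) (nat_lit 1) (nat_lit 288) (nat_lit 1) (nat_lit 297) (nat_lit 1) (nat_lit 411) (nat_lit 394) (nat_lit 335)) (XT.lf (nat_lit 608) (nat_lit 132397538) (nat_lit 0) (nat_lit 1496543910) (nat_lit 532) (nat_lit 1496543910) (nat_lit 289) (nat_lit 1) (nat_lit 281) (nat_lit 1) (nat_lit 288) (nat_lit 1) (nat_lit 412) (nat_lit 394) (nat_lit 334))) (XT.nd (nat_lit 78) (nat_lit 0) (nat_lit 0) (XT.lf (nat_lit 684) (nat_lit 2682685628) (nat_lit 0) (nat_lit 208774676) (nat_lit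 608) (nat_lit 208774676) (nat_lit 281) (nat_lit 1) (nat_lit 272) (nat_lit 1) (nat_lit 280) (nat_lit 1) (nat_lit 413) (nat_lit 394) (nat_lit 333)) (XT.lf (nat_lit 76) (nat_lit 1051343061) (nat_lit 0) (nat_lit 972428377) (nat_lit 684) (nat_lit 1051343061) (nat_lit 273) (nat_lit 1) (nat_lit 272) (nat_lit 1) (nat_lit 281) (nat_lit 1) (nat_lit 414) (nat_lit 394) (nat_lit 332)))) (XT.nd (nat_lit 156) (nat_lit 1140) (nat_lit 0) (XT.nd (nat_lit 78) (nat_lit 0) (nat_lit 0) (XT.lf (nat_lit 608) (nat_lit 1527661600) (nat_lit 0) (nat_lit 761349766) (nat_lit 532) (nat_lit 761349766) (nat_lit 273) (nat_lit 1) (nat_lit 265) (nat_lit 1) (nat_lit 272) (nat_lit 1) (nat_lit 415) (nat_lit 394) (nat_lit 331)) (XT.lf (nat_lit 76) (nat_lit 476897552) (nat_lit 0) (nat_lit 2072099651) (nat_lit 608) (nat_lit 476897552) (nat_lit 266) (nat_lit 1) (nat_lit 265) (nat_lit 1) (nat_lit 273) (nat_lit 1) (nat_lit 416) (nat_lit 394) (nat_lit 330)))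 (XT.nd (nat_lit 78) (nat_lit 608) (nat_lit 0) (XT.lf (nat_lit 608) (nat_lit 377548658) (nat_lit 0) (nat_lit 1312046076) (nat_lit 532) (nat_lit 1312046076) (nat_lit 266) (nat_lit 1) (nat_lit 258) (nat_lit 1) (nat_lit 265) (nat_lit 1) (nat_lit 417) (nat_lit 394) (nat_lit 329)) (XT.lf (nat_lit 608) (nat_lit 2789114103) (nat_lit 0) (nat_lit 94324911) (nat_lit 532) (nat_lit 94324911) (nat_lit 258) (nat_lit 1) (nat_lit 250) (nat_lit 1) (nat_lit 257) (nat_lit 1) (nat_lit 418) (nat_lit 394) (nat_lit 328)))))) (XT.nd (nat_lit 546) (nat_lit 0) (nat_lit 228) (XT.nd (nat_lit 234) (nat_lit 0) (nat_lit 76) (XT.nd (nat_lit 78) (nat_lit 0) (nat_lit 0) (XT.lf (nat_lit 1900) (nat_lit 907795304) (nat_lit 0) (nat_lit 915386584) (nat_lit 1900) (nat_lit 907795304) (nat_lit 522) (nat_lit 1) (nat_lit 497) (nat_lit 0) (nat_lit 522) (nat_lit 0) (nat_lit 350) (nat_lit 395) (nat_lit 395)) (XT.nd (nat_lit 78) (nat_lit 0) (nat_lit 76) (XT.lf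 (nat_lit 1900) (nat_lit 3589559120) (nat_lit 76) (nat_lit 909364303) (nat_lit 0) (nat_lit 909364303) (nat_lit 522) (nat_lit 1) (nat_lit 498) (nat_lit 1) (nat_lit 497) (nat_lit 0) (nat_lit 351) (nat_lit 395) (nat_lit 394)) (XT.lf (nat_lit 1900) (nat_lit 1762490614) (nat_lit 0) (nat_lit 1830226013) (nat_lit 1824) (nat_lit 1762490614) (nat_lit 523) (nat_lit 1) (nat_lit 498) (nat_lit 1) (nat_lit 522) (nat_lit 1) (nat_lit 352) (nat_lit 395) (nat_lit 393)))) (XT.nd (nat_lit 156) (nat_lit 0) (nat_lit 76) (XT.nd (nat_lit 78) (nat_lit 0) (nat_lit 76) (XT.lf (nat_lit 1900) (nat_lit 3449628610) (nat_lit 76) (nat_lit 926651422) (nat_lit 0) (nat_lit 926651422) (nat_lit 523) (nat_lit 1) (nat_lit 499) (nat_lit 1) (nat_lit 498) (nat_lit 1) (nat_lit 353) (nat_lit 395) (nat_lit 392)) (XT.lf (nat_lit 1900) (nat_lit 1676454135) (nat_lit 0) (nat_lit 1898324464) (nat_lit 1824) (nat_lit 1676454135) (nat_lit 524) (nat_lit 1) (nat_lit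 499) (nat_lit 1) (nat_lit 523) (nat_lit 1) (nat_lit 354) (nat_lit 395) (nat_lit 391))) (XT.nd (nat_lit 78) (nat_lit 0) (nat_lit 76) (XT.lf (nat_lit 1900) (nat_lit 3245595432) (nat_lit 76) (nat_lit 977353701) (nat_lit 0) (nat_lit 977353701) (nat_lit 524) (nat_lit 1) (nat_lit 500) (nat_lit 1) (nat_lit 499) (nat_lit 1) (nat_lit 355) (nat_lit 395) (nat_lit 390)) (XT.lf (nat_lit 1900) (nat_lit 1559446379) (nat_lit 0) (nat_lit 2031057352) (nat_lit 1824) (nat_lit 1559446379) (nat_lit 525) (nat_lit 1) (nat_lit 500) (nat_lit 1) (nat_lit 524) (nat_lit 1) (nat_lit 356) (nat_lit 395) (nat_lit 389))))) (XT.nd (nat_lit 312) (nat_lit 0) (nat_lit 152) (XT.nd (nat_lit 156) (nat_lit 0) (nat_lit 76) (XT.nd (nat_lit 78) (nat_lit 0) (nat_lit 76) (XT.lf (nat_lit 1900) (nat_lit 2981312230) (nat_lit 76) (nat_lit 1059505229) (nat_lit 0) (nat_lit 1059505229) (nat_lit 525) (nat_lit 1) (nat_lit 501) (nat_lit 1) (nat_lit 500) (nat_lit 1) (nat_lit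 357) (nat_lit 395) (nat_lit 388)) (XT.lf (nat_lit 1900) (nat_lit 1413342785) (nat_lit 0) (nat_lit 2224595650) (nat_lit 1824) (nat_lit 1413342785) (nat_lit 526) (nat_lit 1) (nat_lit 501) (nat_lit 1) (nat_lit 525) (nat_lit 1) (nat_lit 358) (nat_lit 395) (nat_lit 387))) (XT.nd (nat_lit 78) (nat_lit 0) (nat_lit 76) (XT.lf (nat_lit 1900) (nat_lit 2660455308) (nat_lit 76) (nat_lit 1171229535) (nat_lit 0) (nat_lit 1171229535) (nat_lit 526) (nat_lit 1) (nat_lit 502) (nat_lit 1) (nat_lit 501) (nat_lit 1) (nat_lit 359) (nat_lit 395) (nat_lit 386)) (XT.lf (nat_lit 1900) (nat_lit 1239932776) (nat_lit 0) (nat_lit 2475284885) (nat_lit 1824) (nat_lit 1239932776) (nat_lit 527) (nat_lit 1) (nat_lit 502) (nat_lit 1) (nat_lit 526) (nat_lit 1) (nat_lit 360) (nat_lit 395) (nat_lit 385)))) (XT.nd (nat_lit 156) (nat_lit 0) (nat_lit 76) (XT.nd (nat_lit 78) (nat_lit 0) (nat_lit 76) (XT.lf (nat_lit 1900) (nat_lit 2286532004) (nat_lit 76)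 (nat_lit 1310735866) (nat_lit 0) (nat_lit 1310735866) (nat_lit 527) (nat_lit 1) (nat_lit 503) (nat_lit 1) (nat_lit 502) (nat_lit 1) (nat_lit 361) (nat_lit 395) (nat_lit 384)) (XT.lf (nat_lit 1900) (nat_lit 1040923357) (nat_lit 0) (nat_lit 2779637852) (nat_lit 1824) (nat_lit 1040923357) (nat_lit 528) (nat_lit 1) (nat_lit 503) (nat_lit 1) (nat_lit 527) (nat_lit 1) (nat_lit 362) (nat_lit 395) (nat_lit 383))) (XT.nd (nat_lit 78) (nat_lit 0) (nat_lit 76) (XT.lf (nat_lit 1900) (nat_lit 1862887770) (nat_lit 76) (nat_lit 1476315598) (nat_lit 0) (nat_lit 1476315598) (nat_lit 528) (nat_lit 1) (nat_lit 504) (nat_lit 1) (nat_lit 503) (nat_lit 1) (nat_lit 363) (nat_lit 395) (nat_lit 382)) (XT.lf (nat_lit 1900) (nat_lit 817942566) (nat_lit 0) (nat_lit 3134327617) (nat_lit 1824) (nat_lit 817942566) (nat_lit 529) (nat_lit 1) (nat_lit 504) (nat_lit 1) (nat_lit 528) (nat_lit 1) (nat_lit 364) (nat_lit 395) (nat_lit 381))))))) (XT.nd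 (nat_lit 1170) (nat_lit 7524) (nat_lit 0) (XT.nd (nat_lit 546) (nat_lit 1900) (nat_lit 0) (XT.nd (nat_lit 234) (nat_lit 1672) (nat_lit 0) (XT.nd (nat_lit 78) (nat_lit 0) (nat_lit 76) (XT.lf (nat_lit 1900) (nat_lit 1392712951) (nat_lit 76) (nat_lit 1666338807) (nat_lit 0) (nat_lit 1666338807) (nat_lit 529) (nat_lit 1) (nat_lit 505) (nat_lit 1) (nat_lit 504) (nat_lit 1) (nat_lit 365) (nat_lit 395) (nat_lit 380)) (XT.nd (nat_lit 78) (nat_lit 0) (nat_lit 0) (XT.lf (nat_lit 1900) (nat_lit 572542793) (nat_lit 0) (nat_lit 3536180813) (nat_lit 1824) (nat_lit 572542793) (nat_lit 530) (nat_lit 1) (nat_lit 505) (nat_lit 1) (nat_lit 529) (nat_lit 1) (nat_lit 366) (nat_lit 395) (nat_lit 379)) (XT.lf (nat_lit 1900) (nat_lit 879049315) (nat_lit 76) (nat_lit 1879250968) (nat_lit 0) (nat_lit 1879250968) (nat_lit 530) (nat_lit 1) (nat_lit 506) (nat_lit 1) (nat_lit 505) (nat_lit 1) (nat_lit 367) (nat_lit 395) (nat_lit 378)))) (XT.nd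 (nat_lit 156) (nat_lit 1824) (nat_lit 0) (XT.nd (nat_lit 78) (nat_lit 0) (nat_lit 0) (XT.lf (nat_lit 1900) (nat_lit 306203960) (nat_lit 0) (nat_lit 3982171192) (nat_lit 1824) (nat_lit 306203960) (nat_lit 531) (nat_lit 1) (nat_lit 506) (nat_lit 1) (nat_lit 530) (nat_lit 1) (nat_lit 368) (nat_lit 395) (nat_lit 377)) (XT.lf (nat_lit 1900) (nat_lit 324796295) (nat_lit 76) (nat_lit 2113569788) (nat_lit 0) (nat_lit 2113569788) (nat_lit 531) (nat_lit 1) (nat_lit 507) (nat_lit 1) (nat_lit 506) (nat_lit 1) (nat_lit 369) (nat_lit 395) (nat_lit 376))) (XT.nd (nat_lit 78) (nat_lit 1900) (nat_lit 0) (XT.lf (nat_lit 1900) (nat_lit 20336571) (nat_lit 0) (nat_lit 4469413451) (nat_lit 1824) (nat_lit 20336571) (nat_lit 532) (nat_lit 1) (nat_lit 507) (nat_lit 1) (nat_lit 531) (nat_lit 1) (nat_lit 370) (nat_lit 395) (nat_lit 375)) (XT.lf (nat_lit 1976) (nat_lit 2102334549) (nat_lit 0) (nat_lit 263777536) (nat_lit 1900) (nat_lit 2102334549)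 (nat_lit 508) (nat_lit 1) (nat_lit 482) (nat_lit 1) (nat_lit 507) (nat_lit 1) (nat_lit 371) (nat_lit 395) (nat_lit 374))))) (XT.nd (nat_lit 312) (nat_lit 1900) (nat_lit 0) (XT.nd (nat_lit 156) (nat_lit 0) (nat_lit 76) (XT.nd (nat_lit 78) (nat_lit 0) (nat_lit 76) (XT.lf (nat_lit 1976) (nat_lit 3863881120) (nat_lit 76) (nat_lit 281848803) (nat_lit 0) (nat_lit 281848803) (nat_lit 508) (nat_lit 1) (nat_lit 483) (nat_lit 1) (nat_lit 482) (nat_lit 1) (nat_lit 372) (nat_lit 395) (nat_lit 373)) (XT.lf (nat_lit 1976) (nat_lit 1752093321) (nat_lit 0) (nat_lit 882823771) (nat_lit 1900) (nat_lit 1752093321) (nat_lit 509) (nat_lit 1) (nat_lit 483) (nat_lit 1) (nat_lit 508) (nat_lit 1) (nat_lit 373) (nat_lit 395) (nat_lit 372))) (XT.nd (nat_lit 78) (nat_lit 0) (nat_lit 76) (XT.lf (nat_lit 1976) (nat_lit 3145736946) (nat_lit 76) (nat_lit 600693364) (nat_lit 0) (nat_lit 600693364) (nat_lit 509) (nat_lit 1) (nat_lit 484) (nat_lit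 1) (nat_lit 483) (nat_lit 1) (nat_lit 374) (nat_lit 395) (nat_lit 371)) (XT.lf (nat_lit 76) (nat_lit 1386741490) (nat_lit 0) (nat_lit 1534127562) (nat_lit 1900) (nat_lit 1386741490) (nat_lit 485) (nat_lit 1) (nat_lit 484) (nat_lit 1) (nat_lit 509) (nat_lit 1) (nat_lit 375) (nat_lit 395) (nat_lit 370)))) (XT.nd (nat_lit 156) (nat_lit 912) (nat_lit 0) (XT.nd (nat_lit 78) (nat_lit 0) (nat_lit 0) (XT.lf (nat_lit 1216) (nat_lit 2398435168) (nat_lit 0) (nat_lit 935119555) (nat_lit 1140) (nat_lit 935119555) (nat_lit 485) (nat_lit 1) (nat_lit 469) (nat_lit 1) (nat_lit 484) (nat_lit 1) (nat_lit 376) (nat_lit 395) (nat_lit 369)) (XT.lf (nat_lit 76) (nat_lit 1007428778) (nat_lit 0) (nat_lit 2215332468) (nat_lit 1216) (nat_lit 1007428778) (nat_lit 470) (nat_lit 1) (nat_lit 469) (nat_lit 1) (nat_lit 485) (nat_lit 1) (nat_lit 377) (nat_lit 395) (nat_lit 368))) (XT.nd (nat_lit 78) (nat_lit 0) (nat_lit 0) (XT.lf (nat_lit 988)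 (nat_lit 1624226520) (nat_lit 0) (nat_lit 1283974034) (nat_lit 912) (nat_lit 1283974034) (nat_lit 470) (nat_lit 1) (nat_lit 457) (nat_lit 1) (nat_lit 469) (nat_lit 1) (nat_lit 378) (nat_lit 395) (nat_lit 367)) (XT.lf (nat_lit 76) (nat_lit 615249224) (nat_lit 0) (nat_lit 2924195195) (nat_lit 988) (nat_lit 615249224) (nat_lit 458) (nat_lit 1) (nat_lit 457) (nat_lit 1) (nat_lit 470) (nat_lit 1) (nat_lit 379) (nat_lit 395) (nat_lit 366)))))) (XT.nd (nat_lit 624) (nat_lit 3116) (nat_lit 0) (XT.nd (nat_lit 312) (nat_lit 1672) (nat_lit 0) (XT.nd (nat_lit 156) (nat_lit 1824) (nat_lit 0) (XT.nd (nat_lit 78) (nat_lit 0) (nat_lit 0) (XT.lf (nat_lit 988) (nat_lit 825252408) (nat_lit 0) (nat_lit 1646158995) (nat_lit 912) (nat_lit 1646158995) (nat_lit 458) (nat_lit 1) (nat_lit 445) (nat_lit 1) (nat_lit 457) (nat_lit 1) (nat_lit 380) (nat_lit 395) (nat_lit 365)) (XT.lf (nat_lit 76) (nat_lit 211243561) (nat_lit 0) (nat_lit 3658580779)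 (nat_lit 988) (nat_lit 211243561) (nat_lit 446) (nat_lit 1) (nat_lit 445) (nat_lit 1) (nat_lit 458) (nat_lit 1) (nat_lit 381) (nat_lit 395) (nat_lit 364))) (XT.nd (nat_lit 78) (nat_lit 988) (nat_lit 0) (XT.lf (nat_lit 912) (nat_lit 3549583) (nat_lit 0) (nat_lit 2020629801) (nat_lit 836) (nat_lit 2020629801) (nat_lit 446) (nat_lit 1) (nat_lit 434) (nat_lit 1) (nat_lit 445) (nat_lit 1) (nat_lit 382) (nat_lit 395) (nat_lit 363)) (XT.lf (nat_lit 988) (nat_lit 3604636783) (nat_lit 0) (nat_lit 202259036) (nat_lit 912) (nat_lit 202259036) (nat_lit 434) (nat_lit 1) (nat_lit 421) (nat_lit 1) (nat_lit 433) (nat_lit 1) (nat_lit 383) (nat_lit 395) (nat_lit 362)))) (XT.nd (nat_lit 156) (nat_lit 836) (nat_lit 0) (XT.nd (nat_lit 78) (nat_lit 836) (nat_lit 0) (XT.lf (nat_lit 76) (nat_lit 1572894325) (nat_lit 0) (nat_lit 827942455) (nat_lit 988) (nat_lit 1572894325) (nat_lit 422) (nat_lit 1) (nat_lit 421) (nat_lit 1) (nat_lit 434)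 (nat_lit 1) (nat_lit 384) (nat_lit 395) (nat_lit 361)) (XT.lf (nat_lit 912) (nat_lit 2690490551) (nat_lit 0) (nat_lit 624202292) (nat_lit 836) (nat_lit 624202292) (nat_lit 422) (nat_lit 1) (nat_lit 410) (nat_lit 1) (nat_lit 421) (nat_lit 1) (nat_lit 385) (nat_lit 395) (nat_lit 360))) (XT.nd (nat_lit 78) (nat_lit 836) (nat_lit 0) (XT.lf (nat_lit 76) (nat_lit 1113151023) (nat_lit 0) (nat_lit 1678090808) (nat_lit 912) (nat_lit 1113151023) (nat_lit 411) (nat_lit 1) (nat_lit 410) (nat_lit 1) (nat_lit 422) (nat_lit 1) (nat_lit 386) (nat_lit 395) (nat_lit 359)) (XT.lf (nat_lit 912) (nat_lit 1760175207) (nat_lit 0) (nat_lit 1055087705) (nat_lit 836) (nat_lit 1055087705) (nat_lit 411) (nat_lit 1) (nat_lit 399) (nat_lit 1) (nat_lit 410) (nat_lit 1) (nat_lit 387) (nat_lit 395) (nat_lit 358))))) (XT.nd (nat_lit 312) (nat_lit 1520) (nat_lit 0) (XT.nd (nat_lit 156) (nat_lit 836) (nat_lit 0) (XT.nd (nat_lit 78) (nat_lit 760)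 (nat_lit 0) (XT.lf (nat_lit 76) (nat_lit 645765659) (nat_lit 0) (nat_lit 2545215990) (nat_lit 912) (nat_lit 645765659) (nat_lit 400) (nat_lit 1) (nat_lit 399) (nat_lit 1) (nat_lit 411) (nat_lit 1) (nat_lit 388) (nat_lit 395) (nat_lit 357)) (XT.lf (nat_lit 836) (nat_lit 815331685) (nat_lit 0) (nat_lit 1494071437) (nat_lit 760) (nat_lit 1494071437) (nat_lit 400) (nat_lit 1) (nat_lit 389) (nat_lit 1) (nat_lit 399) (nat_lit 1) (nat_lit 389) (nat_lit 395) (nat_lit 356))) (XT.nd (nat_lit 78) (nat_lit 836) (nat_lit 0) (XT.lf (nat_lit 76) (nat_lit 171534875) (nat_lit 0) (nat_lit 3427678593) (nat_lit 836) (nat_lit 171534875) (nat_lit 390) (nat_lit 1) (nat_lit 389) (nat_lit 1) (nat_lit 400) (nat_lit 1) (nat_lit 390) (nat_lit 395) (nat_lit 355)) (XT.lf (nat_lit 76) (nat_lit 1798794587) (nat_lit 0) (nat_lit 140613975) (nat_lit 836) (nat_lit 1798794587) (nat_lit 379) (nat_lit 1) (nat_lit 378) (nat_lit 1) (nat_lit 389) (nat_lit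 1) (nat_lit 391) (nat_lit 395) (nat_lit 354)))) (XT.nd (nat_lit 156) (nat_lit 760) (nat_lit 0) (XT.nd (nat_lit 78) (nat_lit 0) (nat_lit 0) (XT.lf (nat_lit 836) (nat_lit 3092682436) (nat_lit 0) (nat_lit 306753939) (nat_lit 760) (nat_lit 306753939) (nat_lit 379) (nat_lit 1) (nat_lit 368) (nat_lit 1) (nat_lit 378) (nat_lit 1) (nat_lit 392) (nat_lit 395) (nat_lit 353)) (XT.lf (nat_lit 76) (nat_lit 1288597244) (nat_lit 0) (nat_lit 1097209097) (nat_lit 836) (nat_lit 1288597244) (nat_lit 369) (nat_lit 1) (nat_lit 368) (nat_lit 1) (nat_lit 379) (nat_lit 1) (nat_lit 393) (nat_lit 395) (nat_lit 352))) (XT.nd (nat_lit 78) (nat_lit 0) (nat_lit 0) (XT.lf (nat_lit 836) (nat_lit 2064595667) (nat_lit 0) (nat_lit 789251460) (nat_lit 760) (nat_lit 789251460) (nat_lit 369) (nat_lit 1) (nat_lit 358) (nat_lit 1) (nat_lit 368) (nat_lit 1) (nat_lit 394) (nat_lit 395) (nat_lit 351)) (XT.lf (nat_lit 76) (nat_lit 774187492) (nat_lit 0)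 (nat_lit 2063764336) (nat_lit 836) (nat_lit 774187492) (nat_lit 359) (nat_lit 1) (nat_lit 358) (nat_lit 1) (nat_lit 369) (nat_lit 1) (nat_lit 395) (nat_lit 395) (nat_lit 350))))))))
noncomputable def ec23 : XT := (XT.nd (nat_lit 56238) (nat_lit 0) (nat_lit 11856) (XT.nd (nat_lit 1170) (nat_lit 2888) (nat_lit 0) (XT.nd (nat_lit 546) (nat_lit 3040) (nat_lit 0) (XT.nd (nat_lit 234) (nat_lit 1368) (nat_lit 0) (XT.nd (nat_lit 78) (nat_lit 760) (nat_lit 0) (XT.lf (nat_lit 760) (nat_lit 1028698878) (nat_lit 0) (nat_lit 1276410997) (nat_lit 684) (nat_lit 1276410997) (nat_lit 359) (nat_lit 1) (nat_lit 349) (nat_lit 1) (nat_lit 358) (nat_lit 1) (nat_lit 396) (nat_lit 395) (nat_lit 349)) (XT.nd (nat_lit 78) (nat_lit 760) (nat_lit 0) (XT.lf (nat_lit 76) (nat_lit 256199962) (nat_lit 0) (nat_lit 3038969282) (nat_lit 760) (nat_lit 256199962) (nat_lit 350) (nat_lit 1) (nat_lit 349) (nat_lit 1) (nat_lit 359) (nat_lit 1) (nat_lit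 397) (nat_lit 395) (nat_lit 348)) (XT.lf (nat_lit 76) (nat_lit 1753913389) (nat_lit 0) (nat_lit 13588159) (nat_lit 760) (nat_lit 1753913389) (nat_lit 340) (nat_lit 1) (nat_lit 339) (nat_lit 1) (nat_lit 349) (nat_lit 1) (nat_lit 398) (nat_lit 395) (nat_lit 347)))) (XT.nd (nat_lit 156) (nat_lit 684) (nat_lit 0) (XT.nd (nat_lit 78) (nat_lit 0) (nat_lit 0) (XT.lf (nat_lit 760) (nat_lit 2965869911) (nat_lit 0) (nat_lit 263022720) (nat_lit 684) (nat_lit 263022720) (nat_lit 340) (nat_lit 1) (nat_lit 330) (nat_lit 1) (nat_lit 339) (nat_lit 1) (nat_lit 399) (nat_lit 395) (nat_lit 346)) (XT.lf (nat_lit 76) (nat_lit 1207449063) (nat_lit 0) (nat_lit 1047710936) (nat_lit 760) (nat_lit 1207449063) (nat_lit 331) (nat_lit 1) (nat_lit 330) (nat_lit 1) (nat_lit 340) (nat_lit 1) (nat_lit 400) (nat_lit 395) (nat_lit 345))) (XT.nd (nat_lit 78) (nat_lit 0) (nat_lit 0) (XT.lf (nat_lit 760) (nat_lit 1867836875) (nat_lit 0) (nat_lit 782952689)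 (nat_lit 684) (nat_lit 782952689) (nat_lit 331) (nat_lit 1) (nat_lit 321) (nat_lit 1) (nat_lit 330) (nat_lit 1) (nat_lit 401) (nat_lit 395) (nat_lit 344)) (XT.lf (nat_lit 76) (nat_lit 659566267) (nat_lit 0) (nat_lit 2086066380) (nat_lit 760) (nat_lit 659566267) (nat_lit 322) (nat_lit 1) (nat_lit 321) (nat_lit 1) (nat_lit 331) (nat_lit 1) (nat_lit 402) (nat_lit 395) (nat_lit 343))))) (XT.nd (nat_lit 312) (nat_lit 1140) (nat_lit 0) (XT.nd (nat_lit 156) (nat_lit 1292) (nat_lit 0) (XT.nd (nat_lit 78) (nat_lit 0) (nat_lit 0) (XT.lf (nat_lit 684) (nat_lit 767462982) (nat_lit 0) (nat_lit 1304741583) (nat_lit 608) (nat_lit 1304741583) (nat_lit 322) (nat_lit 1) (nat_lit 313) (nat_lit 1) (nat_lit 321) (nat_lit 1) (nat_lit 403) (nat_lit 395) (nat_lit 342)) (XT.lf (nat_lit 76) (nat_lit 110763971) (nat_lit 0) (nat_lit 3127619758) (nat_lit 684) (nat_lit 110763971) (nat_lit 314) (nat_lit 1) (nat_lit 313) (nat_lit 1) (nat_lit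 322) (nat_lit 1) (nat_lit 404) (nat_lit 395) (nat_lit 341))) (XT.nd (nat_lit 78) (nat_lit 608) (nat_lit 0) (XT.lf (nat_lit 76) (nat_lit 1495776324) (nat_lit 0) (nat_lit 329894805) (nat_lit 684) (nat_lit 1495776324) (nat_lit 305) (nat_lit 1) (nat_lit 304) (nat_lit 1) (nat_lit 313) (nat_lit 1) (nat_lit 405) (nat_lit 395) (nat_lit 340)) (XT.lf (nat_lit 684) (nat_lit 2422986896) (nat_lit 0) (nat_lit 435602151) (nat_lit 608) (nat_lit 435602151) (nat_lit 305) (nat_lit 1) (nat_lit 296) (nat_lit 1) (nat_lit 304) (nat_lit 1) (nat_lit 406) (nat_lit 395) (nat_lit 339)))) (XT.nd (nat_lit 156) (nat_lit 532) (nat_lit 0) (XT.nd (nat_lit 78) (nat_lit 608) (nat_lit 0) (XT.lf (nat_lit 76) (nat_lit 924761610) (nat_lit 0) (nat_lit 1417631527) (nat_lit 684) (nat_lit 924761610) (nat_lit 297) (nat_lit 1) (nat_lit 296) (nat_lit 1) (nat_lit 305) (nat_lit 1) (nat_lit 407) (nat_lit 395) (nat_lit 338)) (XT.lf (nat_lit 684) (nat_lit 1277977408)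 (nat_lit 0) (nat_lit 981244071) (nat_lit 608) (nat_lit 981244071) (nat_lit 297) (nat_lit 1) (nat_lit 288) (nat_lit 1) (nat_lit 296) (nat_lit 1) (nat_lit 408) (nat_lit 395) (nat_lit 337))) (XT.nd (nat_lit 78) (nat_lit 532) (nat_lit 0) (XT.lf (nat_lit 76) (nat_lit 354587474) (nat_lit 0) (nat_lit 2504958772) (nat_lit 684) (nat_lit 354587474) (nat_lit 289) (nat_lit 1) (nat_lit 288) (nat_lit 1) (nat_lit 297) (nat_lit 1) (nat_lit 409) (nat_lit 395) (nat_lit 336)) (XT.lf (nat_lit 608) (nat_lit 135045488) (nat_lit 0) (nat_lit 1526474788) (nat_lit 532) (nat_lit 1526474788) (nat_lit 289) (nat_lit 1) (nat_lit 281) (nat_lit 1) (nat_lit 288) (nat_lit 1) (nat_lit 410) (nat_lit 395) (nat_lit 335)))))) (XT.nd (nat_lit 54444) (nat_lit 0) (nat_lit 19304) (XT.nd (nat_lit 312) (nat_lit 1672) (nat_lit 0) (XT.nd (nat_lit 156) (nat_lit 532) (nat_lit 0) (XT.nd (nat_lit 78) (nat_lit 0) (nat_lit 0) (XT.lf (nat_lit 684) (nat_lit 2736339340)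 (nat_lit 0) (nat_lit 212950170) (nat_lit 608) (nat_lit 212950170) (nat_lit 281) (nat_lit 1) (nat_lit 272) (nat_lit 1) (nat_lit 280) (nat_lit 1) (nat_lit 411) (nat_lit 395) (nat_lit 334)) (XT.lf (nat_lit 76) (nat_lit 1072369922) (nat_lit 0) (nat_lit 991876945) (nat_lit 684) (nat_lit 1072369922) (nat_lit 273) (nat_lit 1) (nat_lit 272) (nat_lit 1) (nat_lit 281) (nat_lit 1) (nat_lit 412) (nat_lit 395) (nat_lit 333))) (XT.nd (nat_lit 78) (nat_lit 0) (nat_lit 0) (XT.lf (nat_lit 608) (nat_lit 1558214832) (nat_lit 0) (nat_lit 776576762) (nat_lit 532) (nat_lit 776576762) (nat_lit 273) (nat_lit 1) (nat_lit 265) (nat_lit 1) (nat_lit 272) (nat_lit 1) (nat_lit 413) (nat_lit 395) (nat_lit 332)) (XT.lf (nat_lit 76) (nat_lit 486435503) (nat_lit 0) (nat_lit 2113541644) (nat_lit 608) (nat_lit 486435503) (nat_lit 266) (nat_lit 1) (nat_lit 265) (nat_lit 1) (nat_lit 273) (nat_lit 1) (nat_lit 414) (nat_lit 395) (nat_lit 331)))) (XT.nd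 (nat_lit 156) (nat_lit 532) (nat_lit 0) (XT.nd (nat_lit 78) (nat_lit 608) (nat_lit 0) (XT.lf (nat_lit 608) (nat_lit 385099631) (nat_lit 0) (nat_lit 1338286998) (nat_lit 532) (nat_lit 1338286998) (nat_lit 266) (nat_lit 1) (nat_lit 258) (nat_lit 1) (nat_lit 265) (nat_lit 1) (nat_lit 415) (nat_lit 395) (nat_lit 330)) (XT.lf (nat_lit 608) (nat_lit 2844896385) (nat_lit 0) (nat_lit 96211409) (nat_lit 532) (nat_lit 96211409) (nat_lit 258) (nat_lit 1) (nat_lit 250) (nat_lit 1) (nat_lit 257) (nat_lit 1) (nat_lit 416) (nat_lit 395) (nat_lit 329))) (XT.nd (nat_lit 78) (nat_lit 532) (nat_lit 0) (XT.lf (nat_lit 76) (nat_lit 1120441618) (nat_lit 0) (nat_lit 772140636) (nat_lit 608) (nat_lit 1120441618) (nat_lit 251) (nat_lit 1) (nat_lit 250) (nat_lit 1) (nat_lit 258) (nat_lit 1) (nat_lit 417) (nat_lit 395) (nat_lit 328)) (XT.lf (nat_lit 608) (nat_lit 1643633612) (nat_lit 0) (nat_lit 672735852) (nat_lit 532) (nat_lit 672735852)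 (nat_lit 251) (nat_lit 1) (nat_lit 243) (nat_lit 1) (nat_lit 250) (nat_lit 1) (nat_lit 418) (nat_lit 395) (nat_lit 327))))) (XT.nd (nat_lit 312) (nat_lit 0) (nat_lit 152) (XT.nd (nat_lit 156) (nat_lit 0) (nat_lit 76) (XT.nd (nat_lit 78) (nat_lit 0) (nat_lit 0) (XT.lf (nat_lit 1900) (nat_lit 925951210) (nat_lit 0) (nat_lit 933694315) (nat_lit 1900) (nat_lit 925951210) (nat_lit 522) (nat_lit 1) (nat_lit 497) (nat_lit 0) (nat_lit 522) (nat_lit 0) (nat_lit 348) (nat_lit 396) (nat_lit 396)) (XT.lf (nat_lit 1900) (nat_lit 3661350302) (nat_lit 76) (nat_lit 927551589) (nat_lit 0) (nat_lit 927551589) (nat_lit 522) (nat_lit 1) (nat_lit 498) (nat_lit 1) (nat_lit 497) (nat_lit 0) (nat_lit 349) (nat_lit 396) (nat_lit 395))) (XT.nd (nat_lit 78) (nat_lit 0) (nat_lit 0) (XT.lf (nat_lit 1900) (nat_lit 1797740426) (nat_lit 0) (nat_lit 1866830534) (nat_lit 1824) (nat_lit 1797740426) (nat_lit 523) (nat_lit 1) (nat_lit 498) (nat_lit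 1) (nat_lit 522) (nat_lit 1) (nat_lit 350) (nat_lit 396) (nat_lit 394)) (XT.lf (nat_lit 1900) (nat_lit 3518621182) (nat_lit 76) (nat_lit 945184450) (nat_lit 0) (nat_lit 945184450) (nat_lit 523) (nat_lit 1) (nat_lit 499) (nat_lit 1) (nat_lit 498) (nat_lit 1) (nat_lit 351) (nat_lit 396) (nat_lit 393)))) (XT.nd (nat_lit 156) (nat_lit 0) (nat_lit 76) (XT.nd (nat_lit 78) (nat_lit 0) (nat_lit 0) (XT.lf (nat_lit 1900) (nat_lit 1709983218) (nat_lit 0) (nat_lit 1936290954) (nat_lit 1824) (nat_lit 1709983218) (nat_lit 524) (nat_lit 1) (nat_lit 499) (nat_lit 1) (nat_lit 523) (nat_lit 1) (nat_lit 352) (nat_lit 396) (nat_lit 392)) (XT.lf (nat_lit 1900) (nat_lit 3310507341) (nat_lit 76) (nat_lit 996900775) (nat_lit 0) (nat_lit 996900775) (nat_lit 524) (nat_lit 1) (nat_lit 500) (nat_lit 1) (nat_lit 499) (nat_lit 1) (nat_lit 353) (nat_lit 396) (nat_lit 391))) (XT.nd (nat_lit 78) (nat_lit 0) (nat_lit 0) (XT.lf (nat_lit 1900) (nat_lit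 1590635306) (nat_lit 0) (nat_lit 2071678499) (nat_lit 1824) (nat_lit 1590635306) (nat_lit 525) (nat_lit 1) (nat_lit 500) (nat_lit 1) (nat_lit 524) (nat_lit 1) (nat_lit 354) (nat_lit 396) (nat_lit 390)) (XT.lf (nat_lit 1900) (nat_lit 3040938475) (nat_lit 76) (nat_lit 1080695333) (nat_lit 0) (nat_lit 1080695333) (nat_lit 525) (nat_lit 1) (nat_lit 501) (nat_lit 1) (nat_lit 500) (nat_lit 1) (nat_lit 355) (nat_lit 396) (nat_lit 389))))))) (XT.nd (nat_lit 1170) (nat_lit 6308) (nat_lit 0) (XT.nd (nat_lit 546) (nat_lit 1444) (nat_lit 0) (XT.nd (nat_lit 234) (nat_lit 0) (nat_lit 76) (XT.nd (nat_lit 78) (nat_lit 0) (nat_lit 0) (XT.lf (nat_lit 1900) (nat_lit 1441609640) (nat_lit 0) (nat_lit 2269087563) (nat_lit 1824) (nat_lit 1441609640) (nat_lit 526) (nat_lit 1) (nat_lit 501) (nat_lit 1) (nat_lit 525) (nat_lit 1) (nat_lit 356) (nat_lit 396) (nat_lit 388)) (XT.nd (nat_lit 78) (nat_lit 0) (nat_lit 76) (XT.lf (nat_lit 1900)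 (nat_lit 2713664414) (nat_lit 76) (nat_lit 1194654126) (nat_lit 0) (nat_lit 1194654126) (nat_lit 526) (nat_lit 1) (nat_lit 502) (nat_lit 1) (nat_lit 501) (nat_lit 1) (nat_lit 357) (nat_lit 396) (nat_lit 387)) (XT.lf (nat_lit 1900) (nat_lit 1264731432) (nat_lit 0) (nat_lit 2524790583) (nat_lit 1824) (nat_lit 1264731432) (nat_lit 527) (nat_lit 1) (nat_lit 502) (nat_lit 1) (nat_lit 526) (nat_lit 1) (nat_lit 358) (nat_lit 396) (nat_lit 386)))) (XT.nd (nat_lit 156) (nat_lit 0) (nat_lit 76) (XT.nd (nat_lit 78) (nat_lit 0) (nat_lit 76) (XT.lf (nat_lit 1900) (nat_lit 2332262645) (nat_lit 76) (nat_lit 1336950583) (nat_lit 0) (nat_lit 1336950583) (nat_lit 527) (nat_lit 1) (nat_lit 503) (nat_lit 1) (nat_lit 502) (nat_lit 1) (nat_lit 359) (nat_lit 396) (nat_lit 385)) (XT.lf (nat_lit 1900) (nat_lit 1061741824) (nat_lit 0) (nat_lit 2835230609) (nat_lit 1824) (nat_lit 1061741824) (nat_lit 528) (nat_lit 1) (nat_lit 503) (nat_lit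 1) (nat_lit 527) (nat_lit 1) (nat_lit 360) (nat_lit 396) (nat_lit 384))) (XT.nd (nat_lit 78) (nat_lit 0) (nat_lit 76) (XT.lf (nat_lit 1900) (nat_lit 1900145525) (nat_lit 76) (nat_lit 1505841910) (nat_lit 0) (nat_lit 1505841910) (nat_lit 528) (nat_lit 1) (nat_lit 504) (nat_lit 1) (nat_lit 503) (nat_lit 1) (nat_lit 361) (nat_lit 396) (nat_lit 383)) (XT.lf (nat_lit 1900) (nat_lit 834301417) (nat_lit 0) (nat_lit 3197014169) (nat_lit 1824) (nat_lit 834301417) (nat_lit 529) (nat_lit 1) (nat_lit 504) (nat_lit 1) (nat_lit 528) (nat_lit 1) (nat_lit 362) (nat_lit 396) (nat_lit 382))))) (XT.nd (nat_lit 312) (nat_lit 1672) (nat_lit 0) (XT.nd (nat_lit 156) (nat_lit 0) (nat_lit 76) (XT.nd (nat_lit 78) (nat_lit 0) (nat_lit 76) (XT.lf (nat_lit 1900) (nat_lit 1420567210) (nat_lit 76) (nat_lit 1699665583) (nat_lit 0) (nat_lit 1699665583) (nat_lit 529) (nat_lit 1) (nat_lit 505) (nat_lit 1) (nat_lit 504) (nat_lit 1) (nat_lit 363)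 (nat_lit 396) (nat_lit 381)) (XT.lf (nat_lit 1900) (nat_lit 583993649) (nat_lit 0) (nat_lit 3606904429) (nat_lit 1824) (nat_lit 583993649) (nat_lit 530) (nat_lit 1) (nat_lit 505) (nat_lit 1) (nat_lit 529) (nat_lit 1) (nat_lit 364) (nat_lit 396) (nat_lit 380))) (XT.nd (nat_lit 78) (nat_lit 0) (nat_lit 76) (XT.lf (nat_lit 1900) (nat_lit 896630301) (nat_lit 76) (nat_lit 1916835987) (nat_lit 0) (nat_lit 1916835987) (nat_lit 530) (nat_lit 1) (nat_lit 506) (nat_lit 1) (nat_lit 505) (nat_lit 1) (nat_lit 365) (nat_lit 396) (nat_lit 379)) (XT.lf (nat_lit 1900) (nat_lit 312328039) (nat_lit 0) (nat_lit 4061814616) (nat_lit 1824) (nat_lit 312328039) (nat_lit 531) (nat_lit 1) (nat_lit 506) (nat_lit 1) (nat_lit 530) (nat_lit 1) (nat_lit 366) (nat_lit 396) (nat_lit 378)))) (XT.nd (nat_lit 156) (nat_lit 1824) (nat_lit 0) (XT.nd (nat_lit 78) (nat_lit 0) (nat_lit 76) (XT.lf (nat_lit 1900) (nat_lit 331292220) (nat_lit 76) (nat_lit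 2155841183) (nat_lit 0) (nat_lit 2155841183) (nat_lit 531) (nat_lit 1) (nat_lit 507) (nat_lit 1) (nat_lit 506) (nat_lit 1) (nat_lit 367) (nat_lit 396) (nat_lit 377)) (XT.lf (nat_lit 1900) (nat_lit 20743303) (nat_lit 0) (nat_lit 4558801720) (nat_lit 1824) (nat_lit 20743303) (nat_lit 532) (nat_lit 1) (nat_lit 507) (nat_lit 1) (nat_lit 531) (nat_lit 1) (nat_lit 368) (nat_lit 396) (nat_lit 376))) (XT.nd (nat_lit 78) (nat_lit 0) (nat_lit 0) (XT.lf (nat_lit 1976) (nat_lit 2144381240) (nat_lit 0) (nat_lit 269053087) (nat_lit 1900) (nat_lit 2144381240) (nat_lit 508) (nat_lit 1) (nat_lit 482) (nat_lit 1) (nat_lit 507) (nat_lit 1) (nat_lit 369) (nat_lit 396) (nat_lit 375)) (XT.lf (nat_lit 1976) (nat_lit 3941158742) (nat_lit 76) (nat_lit 287485779) (nat_lit 0) (nat_lit 287485779) (nat_lit 508) (nat_lit 1) (nat_lit 483) (nat_lit 1) (nat_lit 482) (nat_lit 1) (nat_lit 370) (nat_lit 396) (nat_lit 374)))))) (XT.nd (nat_lit 624)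 (nat_lit 3496) (nat_lit 0) (XT.nd (nat_lit 312) (nat_lit 1824) (nat_lit 0) (XT.nd (nat_lit 156) (nat_lit 1064) (nat_lit 0) (XT.nd (nat_lit 78) (nat_lit 0) (nat_lit 0) (XT.lf (nat_lit 1976) (nat_lit 1787135187) (nat_lit 0) (nat_lit 900480247) (nat_lit 1900) (nat_lit 1787135187) (nat_lit 509) (nat_lit 1) (nat_lit 483) (nat_lit 1) (nat_lit 508) (nat_lit 1) (nat_lit 371) (nat_lit 396) (nat_lit 373)) (XT.lf (nat_lit 1976) (nat_lit 3208651685) (nat_lit 76) (nat_lit 612707231) (nat_lit 0) (nat_lit 612707231) (nat_lit 509) (nat_lit 1) (nat_lit 484) (nat_lit 1) (nat_lit 483) (nat_lit 1) (nat_lit 372) (nat_lit 396) (nat_lit 372))) (XT.nd (nat_lit 78) (nat_lit 1140) (nat_lit 0) (XT.lf (nat_lit 76) (nat_lit 1414476320) (nat_lit 0) (nat_lit 1564810113) (nat_lit 1900) (nat_lit 1414476320) (nat_lit 485) (nat_lit 1) (nat_lit 484) (nat_lit 1) (nat_lit 509) (nat_lit 1) (nat_lit 373) (nat_lit 396) (nat_lit 371)) (XT.lf (nat_lit 1216)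 (nat_lit 2446403871) (nat_lit 0) (nat_lit 953821946) (nat_lit 1140) (nat_lit 953821946) (nat_lit 485) (nat_lit 1) (nat_lit 469) (nat_lit 1) (nat_lit 484) (nat_lit 1) (nat_lit 374) (nat_lit 396) (nat_lit 370)))) (XT.nd (nat_lit 156) (nat_lit 912) (nat_lit 0) (XT.nd (nat_lit 78) (nat_lit 912) (nat_lit 0) (XT.lf (nat_lit 76) (nat_lit 1027577354) (nat_lit 0) (nat_lit 2259639117) (nat_lit 1216) (nat_lit 1027577354) (nat_lit 470) (nat_lit 1) (nat_lit 469) (nat_lit 1) (nat_lit 485) (nat_lit 1) (nat_lit 375) (nat_lit 396) (nat_lit 369)) (XT.lf (nat_lit 988) (nat_lit 1656711050) (nat_lit 0) (nat_lit 1309653515) (nat_lit 912) (nat_lit 1309653515) (nat_lit 470) (nat_lit 1) (nat_lit 457) (nat_lit 1) (nat_lit 469) (nat_lit 1) (nat_lit 376) (nat_lit 396) (nat_lit 368))) (XT.nd (nat_lit 78) (nat_lit 912) (nat_lit 0) (XT.lf (nat_lit 76) (nat_lit 627554208) (nat_lit 0) (nat_lit 2982679099) (nat_lit 988) (nat_lit 627554208) (nat_lit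 458) (nat_lit 1) (nat_lit 457) (nat_lit 1) (nat_lit 470) (nat_lit 1) (nat_lit 377) (nat_lit 396) (nat_lit 367)) (XT.lf (nat_lit 988) (nat_lit 841757457) (nat_lit 0) (nat_lit 1679082175) (nat_lit 912) (nat_lit 1679082175) (nat_lit 458) (nat_lit 1) (nat_lit 445) (nat_lit 1) (nat_lit 457) (nat_lit 1) (nat_lit 378) (nat_lit 396) (nat_lit 366))))) (XT.nd (nat_lit 312) (nat_lit 1672) (nat_lit 0) (XT.nd (nat_lit 156) (nat_lit 988) (nat_lit 0) (XT.nd (nat_lit 78) (nat_lit 836) (nat_lit 0) (XT.lf (nat_lit 76) (nat_lit 215468432) (nat_lit 0) (nat_lit 3731752395) (nat_lit 988) (nat_lit 215468432) (nat_lit 446) (nat_lit 1) (nat_lit 445) (nat_lit 1) (nat_lit 458) (nat_lit 1) (nat_lit 379) (nat_lit 396) (nat_lit 365)) (XT.lf (nat_lit 912) (nat_lit 3620575) (nat_lit 0) (nat_lit 2061042397) (nat_lit 836) (nat_lit 2061042397) (nat_lit 446) (nat_lit 1) (nat_lit 434) (nat_lit 1) (nat_lit 445) (nat_lit 1) (nat_lit 380) (nat_lit 396)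 (nat_lit 364))) (XT.nd (nat_lit 78) (nat_lit 0) (nat_lit 0) (XT.lf (nat_lit 988) (nat_lit 3676729519) (nat_lit 0) (nat_lit 206304217) (nat_lit 912) (nat_lit 206304217) (nat_lit 434) (nat_lit 1) (nat_lit 421) (nat_lit 1) (nat_lit 433) (nat_lit 1) (nat_lit 381) (nat_lit 396) (nat_lit 363)) (XT.lf (nat_lit 76) (nat_lit 1604352212) (nat_lit 0) (nat_lit 844501304) (nat_lit 988) (nat_lit 1604352212) (nat_lit 422) (nat_lit 1) (nat_lit 421) (nat_lit 1) (nat_lit 434) (nat_lit 1) (nat_lit 382) (nat_lit 396) (nat_lit 362)))) (XT.nd (nat_lit 156) (nat_lit 836) (nat_lit 0) (XT.nd (nat_lit 78) (nat_lit 0) (nat_lit 0) (XT.lf (nat_lit 912) (nat_lit 2744300362) (nat_lit 0) (nat_lit 636686338) (nat_lit 836) (nat_lit 636686338) (nat_lit 422) (nat_lit 1) (nat_lit 410) (nat_lit 1) (nat_lit 421) (nat_lit 1) (nat_lit 383) (nat_lit 396) (nat_lit 361)) (XT.lf (nat_lit 76) (nat_lit 1135414044) (nat_lit 0) (nat_lit 1711652624) (nat_lit 912)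 (nat_lit 1135414044) (nat_lit 411) (nat_lit 1) (nat_lit 410) (nat_lit 1) (nat_lit 422) (nat_lit 1) (nat_lit 384) (nat_lit 396) (nat_lit 360))) (XT.nd (nat_lit 78) (nat_lit 0) (nat_lit 0) (XT.lf (nat_lit 912) (nat_lit 1795378711) (nat_lit 0) (nat_lit 1076189459) (nat_lit 836) (nat_lit 1076189459) (nat_lit 411) (nat_lit 1) (nat_lit 399) (nat_lit 1) (nat_lit 410) (nat_lit 1) (nat_lit 385) (nat_lit 396) (nat_lit 359)) (XT.lf (nat_lit 76) (nat_lit 658680972) (nat_lit 0) (nat_lit 2596120310) (nat_lit 912) (nat_lit 658680972) (nat_lit 400) (nat_lit 1) (nat_lit 399) (nat_lit 1) (nat_lit 411) (nat_lit 1) (nat_lit 386) (nat_lit 396) (nat_lit 358))))))))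
noncomputable def ec24 : XT := (XT.nd (nat_lit 2340) (nat_lit 0) (nat_lit 0) (XT.nd (nat_lit 1170) (nat_lit 5320) (nat_lit 0) (XT.nd (nat_lit 546) (nat_lit 3420) (nat_lit 0) (XT.nd (nat_lit 234) (nat_lit 1520) (nat_lit 0) (XT.nd (nat_lit 78) (nat_lit 836) (nat_lit 0) (XT.lf (nat_lit 836) (nat_lit 831638319) (nat_lit 0) (nat_lit 1523952866) (nat_lit 760) (nat_lit 1523952866) (nat_lit 400) (nat_lit 1) (nat_lit 389) (nat_lit 1) (nat_lit 399) (nat_lit 1) (nat_lit 387) (nat_lit 396) (nat_lit 357)) (XT.nd (nat_lit 78) (nat_lit 836) (nat_lit 0) (XT.lf (nat_lit 76) (nat_lit 174965573) (nat_lit 0) (nat_lit 3496232164) (nat_lit 836) (nat_lit 174965573) (nat_lit 390) (nat_lit 1) (nat_lit 389) (nat_lit 1) (nat_lit 400) (nat_lit 1) (nat_lit 388) (nat_lit 396) (nat_lit 356)) (XT.lf (nat_lit 76) (nat_lit 1834770479) (nat_lit 0) (nat_lit 143426254) (nat_lit 836) (nat_lit 1834770479) (nat_lit 379) (nat_lit 1) (nat_lit 378) (nat_lit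 1) (nat_lit 389) (nat_lit 1) (nat_lit 389) (nat_lit 396) (nat_lit 355)))) (XT.nd (nat_lit 156) (nat_lit 760) (nat_lit 0) (XT.nd (nat_lit 78) (nat_lit 0) (nat_lit 0) (XT.lf (nat_lit 836) (nat_lit 3154536085) (nat_lit 0) (nat_lit 312889017) (nat_lit 760) (nat_lit 312889017) (nat_lit 379) (nat_lit 1) (nat_lit 368) (nat_lit 1) (nat_lit 378) (nat_lit 1) (nat_lit 390) (nat_lit 396) (nat_lit 354)) (XT.lf (nat_lit 76) (nat_lit 1314369189) (nat_lit 0) (nat_lit 1119153279) (nat_lit 836) (nat_lit 1314369189) (nat_lit 369) (nat_lit 1) (nat_lit 368) (nat_lit 1) (nat_lit 379) (nat_lit 1) (nat_lit 391) (nat_lit 396) (nat_lit 353))) (XT.nd (nat_lit 78) (nat_lit 0) (nat_lit 0) (XT.lf (nat_lit 836) (nat_lit 2105887581) (nat_lit 0) (nat_lit 805036489) (nat_lit 760) (nat_lit 805036489) (nat_lit 369) (nat_lit 1) (nat_lit 358) (nat_lit 1) (nat_lit 368) (nat_lit 1) (nat_lit 392) (nat_lit 396) (nat_lit 352)) (XT.lf (nat_lit 76) (nat_lit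 789671242) (nat_lit 0) (nat_lit 2105039622) (nat_lit 836) (nat_lit 789671242) (nat_lit 359) (nat_lit 1) (nat_lit 358) (nat_lit 1) (nat_lit 369) (nat_lit 1) (nat_lit 393) (nat_lit 396) (nat_lit 351))))) (XT.nd (nat_lit 312) (nat_lit 1292) (nat_lit 0) (XT.nd (nat_lit 156) (nat_lit 1444) (nat_lit 0) (XT.nd (nat_lit 78) (nat_lit 0) (nat_lit 0) (XT.lf (nat_lit 760) (nat_lit 1049272856) (nat_lit 0) (nat_lit 1301939217) (nat_lit 684) (nat_lit 1301939217) (nat_lit 359) (nat_lit 1) (nat_lit 349) (nat_lit 1) (nat_lit 358) (nat_lit 1) (nat_lit 394) (nat_lit 396) (nat_lit 350)) (XT.lf (nat_lit 76) (nat_lit 261323961) (nat_lit 0) (nat_lit 3099748667) (nat_lit 760) (nat_lit 261323961) (nat_lit 350) (nat_lit 1) (nat_lit 349) (nat_lit 1) (nat_lit 359) (nat_lit 1) (nat_lit 395) (nat_lit 396) (nat_lit 349))) (XT.nd (nat_lit 78) (nat_lit 684) (nat_lit 0) (XT.lf (nat_lit 76) (nat_lit 1788991657) (nat_lit 0) (nat_lit 13859922) (nat_lit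 760) (nat_lit 1788991657) (nat_lit 340) (nat_lit 1) (nat_lit 339) (nat_lit 1) (nat_lit 349) (nat_lit 1) (nat_lit 396) (nat_lit 396) (nat_lit 348)) (XT.lf (nat_lit 760) (nat_lit 3025187310) (nat_lit 0) (nat_lit 268283175) (nat_lit 684) (nat_lit 268283175) (nat_lit 340) (nat_lit 1) (nat_lit 330) (nat_lit 1) (nat_lit 339) (nat_lit 1) (nat_lit 397) (nat_lit 396) (nat_lit 347)))) (XT.nd (nat_lit 156) (nat_lit 608) (nat_lit 0) (XT.nd (nat_lit 78) (nat_lit 684) (nat_lit 0) (XT.lf (nat_lit 76) (nat_lit 1231598044) (nat_lit 0) (nat_lit 1068665155) (nat_lit 760) (nat_lit 1231598044) (nat_lit 331) (nat_lit 1) (nat_lit 330) (nat_lit 1) (nat_lit 340) (nat_lit 1) (nat_lit 398) (nat_lit 396) (nat_lit 346)) (XT.lf (nat_lit 760) (nat_lit 1905193613) (nat_lit 0) (nat_lit 798611742) (nat_lit 684) (nat_lit 798611742) (nat_lit 331) (nat_lit 1) (nat_lit 321) (nat_lit 1) (nat_lit 330) (nat_lit 1) (nat_lit 399) (nat_lit 396) (nat_lit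 345))) (XT.nd (nat_lit 78) (nat_lit 608) (nat_lit 0) (XT.lf (nat_lit 76) (nat_lit 672757592) (nat_lit 0) (nat_lit 2127787707) (nat_lit 760) (nat_lit 672757592) (nat_lit 322) (nat_lit 1) (nat_lit 321) (nat_lit 1) (nat_lit 331) (nat_lit 1) (nat_lit 400) (nat_lit 396) (nat_lit 344)) (XT.lf (nat_lit 684) (nat_lit 782812241) (nat_lit 0) (nat_lit 1330836415) (nat_lit 608) (nat_lit 1330836415) (nat_lit 322) (nat_lit 1) (nat_lit 313) (nat_lit 1) (nat_lit 321) (nat_lit 1) (nat_lit 401) (nat_lit 396) (nat_lit 343)))))) (XT.nd (nat_lit 546) (nat_lit 2888) (nat_lit 0) (XT.nd (nat_lit 234) (nat_lit 1140) (nat_lit 0) (XT.nd (nat_lit 78) (nat_lit 1292) (nat_lit 0) (XT.lf (nat_lit 76) (nat_lit 112979250) (nat_lit 0) (nat_lit 3190172154) (nat_lit 684) (nat_lit 112979250) (nat_lit 314) (nat_lit 1) (nat_lit 313) (nat_lit 1) (nat_lit 322) (nat_lit 1) (nat_lit 402) (nat_lit 396) (nat_lit 342)) (XT.nd (nat_lit 78) (nat_lit 608) (nat_lit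 0) (XT.lf (nat_lit 76) (nat_lit 1525691851) (nat_lit 0) (nat_lit 336492701) (nat_lit 684) (nat_lit 1525691851) (nat_lit 305) (nat_lit 1) (nat_lit 304) (nat_lit 1) (nat_lit 313) (nat_lit 1) (nat_lit 403) (nat_lit 396) (nat_lit 341)) (XT.lf (nat_lit 684) (nat_lit 2471446634) (nat_lit 0) (nat_lit 444314194) (nat_lit 608) (nat_lit 444314194) (nat_lit 305) (nat_lit 1) (nat_lit 296) (nat_lit 1) (nat_lit 304) (nat_lit 1) (nat_lit 404) (nat_lit 396) (nat_lit 340)))) (XT.nd (nat_lit 156) (nat_lit 532) (nat_lit 0) (XT.nd (nat_lit 78) (nat_lit 608) (nat_lit 0) (XT.lf (nat_lit 76) (nat_lit 943256842) (nat_lit 0) (nat_lit 1445984158) (nat_lit 684) (nat_lit 943256842) (nat_lit 297) (nat_lit 1) (nat_lit 296) (nat_lit 1) (nat_lit 305) (nat_lit 1) (nat_lit 405) (nat_lit 396) (nat_lit 339)) (XT.lf (nat_lit 684) (nat_lit 1303536956) (nat_lit 0) (nat_lit 1000868953) (nat_lit 608) (nat_lit 1000868953) (nat_lit 297) (nat_lit 1) (nat_lit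 288) (nat_lit 1) (nat_lit 296) (nat_lit 1) (nat_lit 406) (nat_lit 396) (nat_lit 338))) (XT.nd (nat_lit 78) (nat_lit 532) (nat_lit 0) (XT.lf (nat_lit 76) (nat_lit 361679224) (nat_lit 0) (nat_lit 2555057947) (nat_lit 684) (nat_lit 361679224) (nat_lit 289) (nat_lit 1) (nat_lit 288) (nat_lit 1) (nat_lit 297) (nat_lit 1) (nat_lit 407) (nat_lit 396) (nat_lit 337)) (XT.lf (nat_lit 608) (nat_lit 137746398) (nat_lit 0) (nat_lit 1557004284) (nat_lit 532) (nat_lit 1557004284) (nat_lit 289) (nat_lit 1) (nat_lit 281) (nat_lit 1) (nat_lit 288) (nat_lit 1) (nat_lit 408) (nat_lit 396) (nat_lit 336))))) (XT.nd (nat_lit 312) (nat_lit 1672) (nat_lit 0) (XT.nd (nat_lit 156) (nat_lit 532) (nat_lit 0) (XT.nd (nat_lit 78) (nat_lit 0) (nat_lit 0) (XT.lf (nat_lit 684) (nat_lit 2791066127) (nat_lit 0) (nat_lit 217209173) (nat_lit 608) (nat_lit 217209173) (nat_lit 281) (nat_lit 1) (nat_lit 272) (nat_lit 1) (nat_lit 280) (nat_lit 1) (nat_lit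 409) (nat_lit 396) (nat_lit 335)) (XT.lf (nat_lit 76) (nat_lit 1093817320) (nat_lit 0) (nat_lit 1011714484) (nat_lit 684) (nat_lit 1093817320) (nat_lit 273) (nat_lit 1) (nat_lit 272) (nat_lit 1) (nat_lit 281) (nat_lit 1) (nat_lit 410) (nat_lit 396) (nat_lit 334))) (XT.nd (nat_lit 78) (nat_lit 0) (nat_lit 0) (XT.lf (nat_lit 608) (nat_lit 1589379128) (nat_lit 0) (nat_lit 792108297) (nat_lit 532) (nat_lit 792108297) (nat_lit 273) (nat_lit 1) (nat_lit 265) (nat_lit 1) (nat_lit 272) (nat_lit 1) (nat_lit 411) (nat_lit 396) (nat_lit 333)) (XT.lf (nat_lit 76) (nat_lit 496164213) (nat_lit 0) (nat_lit 2155812477) (nat_lit 608) (nat_lit 496164213) (nat_lit 266) (nat_lit 1) (nat_lit 265) (nat_lit 1) (nat_lit 273) (nat_lit 1) (nat_lit 412) (nat_lit 396) (nat_lit 332)))) (XT.nd (nat_lit 156) (nat_lit 532) (nat_lit 0) (XT.nd (nat_lit 78) (nat_lit 608) (nat_lit 0) (XT.lf (nat_lit 608) (nat_lit 392801624) (nat_lit 0) (nat_lit 1365052738)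 (nat_lit 532) (nat_lit 1365052738) (nat_lit 266) (nat_lit 1) (nat_lit 258) (nat_lit 1) (nat_lit 265) (nat_lit 1) (nat_lit 413) (nat_lit 396) (nat_lit 331)) (XT.lf (nat_lit 608) (nat_lit 2901794313) (nat_lit 0) (nat_lit 98135637) (nat_lit 532) (nat_lit 98135637) (nat_lit 258) (nat_lit 1) (nat_lit 250) (nat_lit 1) (nat_lit 257) (nat_lit 1) (nat_lit 414) (nat_lit 396) (nat_lit 330))) (XT.nd (nat_lit 78) (nat_lit 532) (nat_lit 0) (XT.lf (nat_lit 76) (nat_lit 1142850451) (nat_lit 0) (nat_lit 787583449) (nat_lit 608) (nat_lit 1142850451) (nat_lit 251) (nat_lit 1) (nat_lit 250) (nat_lit 1) (nat_lit 258) (nat_lit 1) (nat_lit 415) (nat_lit 396) (nat_lit 329)) (XT.lf (nat_lit 608) (nat_lit 1676506284) (nat_lit 0) (nat_lit 686190569) (nat_lit 532) (nat_lit 686190569) (nat_lit 251) (nat_lit 1) (nat_lit 243) (nat_lit 1) (nat_lit 250) (nat_lit 1) (nat_lit 416) (nat_lit 396) (nat_lit 328))))))) (XT.nd (nat_lit 54912) (nat_lit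 0) (nat_lit 16264) (XT.nd (nat_lit 54288) (nat_lit 0) (nat_lit 19532) (XT.nd (nat_lit 53976) (nat_lit 0) (nat_lit 19380) (XT.nd (nat_lit 53820) (nat_lit 0) (nat_lit 19304) (XT.lf (nat_lit 76) (nat_lit 534076984) (nat_lit 0) (nat_lit 1956597198) (nat_lit 608) (nat_lit 534076984) (nat_lit 244) (nat_lit 1) (nat_lit 243) (nat_lit 1) (nat_lit 251) (nat_lit 1) (nat_lit 417) (nat_lit 396) (nat_lit 327)) (XT.nd (nat_lit 78) (nat_lit 0) (nat_lit 0) (XT.lf (nat_lit 1900) (nat_lit 944470234) (nat_lit 0) (nat_lit 952368202) (nat_lit 1900) (nat_lit 944470234) (nat_lit 522) (nat_lit 1) (nat_lit 497) (nat_lit 0) (nat_lit 522) (nat_lit 0) (nat_lit 346) (nat_lit 397) (nat_lit 397)) (XT.lf (nat_lit 1900) (nat_lit 3734577308) (nat_lit 76) (nat_lit 946102621) (nat_lit 0) (nat_lit 946102621) (nat_lit 522) (nat_lit 1) (nat_lit 498) (nat_lit 1) (nat_lit 497) (nat_lit 0) (nat_lit 347) (nat_lit 397) (nat_lit 396)))) (XT.nd (nat_lit 156)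 (nat_lit 0) (nat_lit 76) (XT.nd (nat_lit 78) (nat_lit 0) (nat_lit 0) (XT.lf (nat_lit 1900) (nat_lit 1833695235) (nat_lit 0) (nat_lit 1904167144) (nat_lit 1824) (nat_lit 1833695235) (nat_lit 523) (nat_lit 1) (nat_lit 498) (nat_lit 1) (nat_lit 522) (nat_lit 1) (nat_lit 348) (nat_lit 397) (nat_lit 395)) (XT.lf (nat_lit 1900) (nat_lit 3588993606) (nat_lit 76) (nat_lit 964088139) (nat_lit 0) (nat_lit 964088139) (nat_lit 523) (nat_lit 1) (nat_lit 499) (nat_lit 1) (nat_lit 498) (nat_lit 1) (nat_lit 349) (nat_lit 397) (nat_lit 394))) (XT.nd (nat_lit 78) (nat_lit 0) (nat_lit 0) (XT.lf (nat_lit 1900) (nat_lit 1744182882) (nat_lit 0) (nat_lit 1975016773) (nat_lit 1824) (nat_lit 1744182882) (nat_lit 524) (nat_lit 1) (nat_lit 499) (nat_lit 1) (nat_lit 523) (nat_lit 1) (nat_lit 350) (nat_lit 397) (nat_lit 393)) (XT.lf (nat_lit 1900) (nat_lit 3376717488) (nat_lit 76) (nat_lit 1016838791) (nat_lit 0) (nat_lit 1016838791) (nat_lit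 524) (nat_lit 1) (nat_lit 500) (nat_lit 1) (nat_lit 499) (nat_lit 1) (nat_lit 351) (nat_lit 397) (nat_lit 392))))) (XT.nd (nat_lit 312) (nat_lit 0) (nat_lit 152) (XT.nd (nat_lit 156) (nat_lit 0) (nat_lit 76) (XT.nd (nat_lit 78) (nat_lit 0) (nat_lit 0) (XT.lf (nat_lit 1900) (nat_lit 1622448012) (nat_lit 0) (nat_lit 2113112069) (nat_lit 1824) (nat_lit 1622448012) (nat_lit 525) (nat_lit 1) (nat_lit 500) (nat_lit 1) (nat_lit 524) (nat_lit 1) (nat_lit 352) (nat_lit 397) (nat_lit 391)) (XT.lf (nat_lit 1900) (nat_lit 3101757244) (nat_lit 76) (nat_lit 1102309240) (nat_lit 0) (nat_lit 1102309240) (nat_lit 525) (nat_lit 1) (nat_lit 501) (nat_lit 1) (nat_lit 500) (nat_lit 1) (nat_lit 353) (nat_lit 397) (nat_lit 390))) (XT.nd (nat_lit 78) (nat_lit 0) (nat_lit 0) (XT.lf (nat_lit 1900) (nat_lit 1470441833) (nat_lit 0) (nat_lit 2314469314) (nat_lit 1824) (nat_lit 1470441833) (nat_lit 526) (nat_lit 1) (nat_lit 501) (nat_lit 1)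 (nat_lit 525) (nat_lit 1) (nat_lit 354) (nat_lit 397) (nat_lit 389)) (XT.lf (nat_lit 1900) (nat_lit 2767937702) (nat_lit 76) (nat_lit 1218547209) (nat_lit 0) (nat_lit 1218547209) (nat_lit 526) (nat_lit 1) (nat_lit 502) (nat_lit 1) (nat_lit 501) (nat_lit 1) (nat_lit 355) (nat_lit 397) (nat_lit 388)))) (XT.nd (nat_lit 156) (nat_lit 0) (nat_lit 76) (XT.nd (nat_lit 78) (nat_lit 0) (nat_lit 0) (XT.lf (nat_lit 1900) (nat_lit 1290026060) (nat_lit 0) (nat_lit 2575286395) (nat_lit 1824) (nat_lit 1290026060) (nat_lit 527) (nat_lit 1) (nat_lit 502) (nat_lit 1) (nat_lit 526) (nat_lit 1) (nat_lit 356) (nat_lit 397) (nat_lit 387)) (XT.lf (nat_lit 1900) (nat_lit 2378907897) (nat_lit 76) (nat_lit 1363689595) (nat_lit 0) (nat_lit 1363689595) (nat_lit 527) (nat_lit 1) (nat_lit 503) (nat_lit 1) (nat_lit 502) (nat_lit 1) (nat_lit 357) (nat_lit 397) (nat_lit 386))) (XT.nd (nat_lit 78) (nat_lit 0) (nat_lit 0) (XT.lf (nat_lit 1900) (nat_lit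 1082976660) (nat_lit 0) (nat_lit 2891935221) (nat_lit 1824) (nat_lit 1082976660) (nat_lit 528) (nat_lit 1) (nat_lit 503) (nat_lit 1) (nat_lit 527) (nat_lit 1) (nat_lit 358) (nat_lit 397) (nat_lit 385)) (XT.lf (nat_lit 1900) (nat_lit 1938148435) (nat_lit 76) (nat_lit 1535958748) (nat_lit 0) (nat_lit 1535958748) (nat_lit 528) (nat_lit 1) (nat_lit 504) (nat_lit 1) (nat_lit 503) (nat_lit 1) (nat_lit 359) (nat_lit 397) (nat_lit 384)))))) (XT.nd (nat_lit 624) (nat_lit 1900) (nat_lit 0) (XT.nd (nat_lit 312) (nat_lit 1672) (nat_lit 0) (XT.nd (nat_lit 156) (nat_lit 0) (nat_lit 76) (XT.nd (nat_lit 78) (nat_lit 0) (nat_lit 0) (XT.lf (nat_lit 1900) (nat_lit 850987446) (nat_lit 0) (nat_lit 3260954453) (nat_lit 1824) (nat_lit 850987446) (nat_lit 529) (nat_lit 1) (nat_lit 504) (nat_lit 1) (nat_lit 528) (nat_lit 1) (nat_lit 360) (nat_lit 397) (nat_lit 383)) (XT.lf (nat_lit 1900) (nat_lit 1448978555) (nat_lit 76) (nat_lit 1733658895)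 (nat_lit 0) (nat_lit 1733658895) (nat_lit 529) (nat_lit 1) (nat_lit 505) (nat_lit 1) (nat_lit 504) (nat_lit 1) (nat_lit 361) (nat_lit 397) (nat_lit 382))) (XT.nd (nat_lit 78) (nat_lit 0) (nat_lit 0) (XT.lf (nat_lit 1900) (nat_lit 595673522) (nat_lit 0) (nat_lit 3679042517) (nat_lit 1824) (nat_lit 595673522) (nat_lit 530) (nat_lit 1) (nat_lit 505) (nat_lit 1) (nat_lit 529) (nat_lit 1) (nat_lit 362) (nat_lit 397) (nat_lit 381)) (XT.lf (nat_lit 1900) (nat_lit 914562907) (nat_lit 76) (nat_lit 1955172707) (nat_lit 0) (nat_lit 1955172707) (nat_lit 530) (nat_lit 1) (nat_lit 506) (nat_lit 1) (nat_lit 505) (nat_lit 1) (nat_lit 363) (nat_lit 397) (nat_lit 380)))) (XT.nd (nat_lit 156) (nat_lit 1824) (nat_lit 0) (XT.nd (nat_lit 78) (nat_lit 0) (nat_lit 0) (XT.lf (nat_lit 1900) (nat_lit 318574600) (nat_lit 0) (nat_lit 4143050908) (nat_lit 1824) (nat_lit 318574600) (nat_lit 531) (nat_lit 1) (nat_lit 506) (nat_lit 1) (nat_lit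 530) (nat_lit 1) (nat_lit 364) (nat_lit 397) (nat_lit 379)) (XT.lf (nat_lit 1900) (nat_lit 337918065) (nat_lit 76) (nat_lit 2198958007) (nat_lit 0) (nat_lit 2198958007) (nat_lit 531) (nat_lit 1) (nat_lit 507) (nat_lit 1) (nat_lit 506) (nat_lit 1) (nat_lit 365) (nat_lit 397) (nat_lit 378))) (XT.nd (nat_lit 78) (nat_lit 1900) (nat_lit 0) (XT.lf (nat_lit 1900) (nat_lit 21158169) (nat_lit 0) (nat_lit 4649977754) (nat_lit 1824) (nat_lit 21158169) (nat_lit 532) (nat_lit 1) (nat_lit 507) (nat_lit 1) (nat_lit 531) (nat_lit 1) (nat_lit 366) (nat_lit 397) (nat_lit 377)) (XT.lf (nat_lit 1976) (nat_lit 2187268865) (nat_lit 0) (nat_lit 274434148) (nat_lit 1900) (nat_lit 2187268865) (nat_lit 508) (nat_lit 1) (nat_lit 482) (nat_lit 1) (nat_lit 507) (nat_lit 1) (nat_lit 367) (nat_lit 397) (nat_lit 376))))) (XT.nd (nat_lit 312) (nat_lit 1900) (nat_lit 0) (XT.nd (nat_lit 156) (nat_lit 0) (nat_lit 76) (XT.nd (nat_lit 78) (nat_lit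 0) (nat_lit 76) (XT.lf (nat_lit 1976) (nat_lit 4019981917) (nat_lit 76) (nat_lit 293235495) (nat_lit 0) (nat_lit 293235495) (nat_lit 508) (nat_lit 1) (nat_lit 483) (nat_lit 1) (nat_lit 482) (nat_lit 1) (nat_lit 368) (nat_lit 397) (nat_lit 375)) (XT.lf (nat_lit 1976) (nat_lit 1822877891) (nat_lit 0) (nat_lit 918489852) (nat_lit 1900) (nat_lit 1822877891) (nat_lit 509) (nat_lit 1) (nat_lit 483) (nat_lit 1) (nat_lit 508) (nat_lit 1) (nat_lit 369) (nat_lit 397) (nat_lit 374))) (XT.nd (nat_lit 78) (nat_lit 0) (nat_lit 76) (XT.lf (nat_lit 1976) (nat_lit 3272824719) (nat_lit 76) (nat_lit 624961375) (nat_lit 0) (nat_lit 624961375) (nat_lit 509) (nat_lit 1) (nat_lit 484) (nat_lit 1) (nat_lit 483) (nat_lit 1) (nat_lit 370) (nat_lit 397) (nat_lit 373)) (XT.lf (nat_lit 76) (nat_lit 1442765846) (nat_lit 0) (nat_lit 1596106316) (nat_lit 1900) (nat_lit 1442765846) (nat_lit 485) (nat_lit 1) (nat_lit 484) (nat_lit 1) (nat_lit 509)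 (nat_lit 1) (nat_lit 371) (nat_lit 397) (nat_lit 372)))) (XT.nd (nat_lit 156) (nat_lit 912) (nat_lit 0) (XT.nd (nat_lit 78) (nat_lit 0) (nat_lit 0) (XT.lf (nat_lit 1216) (nat_lit 2495331948) (nat_lit 0) (nat_lit 972898385) (nat_lit 1140) (nat_lit 972898385) (nat_lit 485) (nat_lit 1) (nat_lit 469) (nat_lit 1) (nat_lit 484) (nat_lit 1) (nat_lit 372) (nat_lit 397) (nat_lit 371)) (XT.lf (nat_lit 76) (nat_lit 1048128901) (nat_lit 0) (nat_lit 2304831900) (nat_lit 1216) (nat_lit 1048128901) (nat_lit 470) (nat_lit 1) (nat_lit 469) (nat_lit 1) (nat_lit 485) (nat_lit 1) (nat_lit 373) (nat_lit 397) (nat_lit 370))) (XT.nd (nat_lit 78) (nat_lit 0) (nat_lit 0) (XT.lf (nat_lit 988) (nat_lit 1689845271) (nat_lit 0) (nat_lit 1335846585) (nat_lit 912) (nat_lit 1335846585) (nat_lit 470) (nat_lit 1) (nat_lit 457) (nat_lit 1) (nat_lit 469) (nat_lit 1) (nat_lit 374) (nat_lit 397) (nat_lit 369)) (XT.lf (nat_lit 76) (nat_lit 640105292)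 (nat_lit 0) (nat_lit 3042332681) (nat_lit 988) (nat_lit 640105292) (nat_lit 458) (nat_lit 1) (nat_lit 457) (nat_lit 1) (nat_lit 470) (nat_lit 1) (nat_lit 375) (nat_lit 397) (nat_lit 368))))))))
noncomputable def ec25 : XT := (XT.nd (nat_lit 2418) (nat_lit 3952) (nat_lit 0) (XT.nd (nat_lit 1170) (nat_lit 5852) (nat_lit 0) (XT.nd (nat_lit 546) (nat_lit 3952) (nat_lit 0) (XT.nd (nat_lit 234) (nat_lit 1824) (nat_lit 0) (XT.nd (nat_lit 78) (nat_lit 836) (nat_lit 0) (XT.lf (nat_lit 988) (nat_lit 858592606) (nat_lit 0) (nat_lit 1712663819) (nat_lit 912) (nat_lit 1712663819) (nat_lit 458) (nat_lit 1) (nat_lit 445) (nat_lit 1) (nat_lit 457) (nat_lit 1) (nat_lit 376) (nat_lit 397) (nat_lit 367)) (XT.nd (nat_lit 78) (nat_lit 836) (nat_lit 0) (XT.lf (nat_lit 76) (nat_lit 219777800) (nat_lit 0) (nat_lit 3806387443) (nat_lit 988) (nat_lit 219777800) (nat_lit 446) (nat_lit 1) (nat_lit 445) (nat_lit 1) (nat_lit 458) (nat_lit 1)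 (nat_lit 377) (nat_lit 397) (nat_lit 366)) (XT.lf (nat_lit 912) (nat_lit 3692986) (nat_lit 0) (nat_lit 2102263244) (nat_lit 836) (nat_lit 2102263244) (nat_lit 446) (nat_lit 1) (nat_lit 434) (nat_lit 1) (nat_lit 445) (nat_lit 1) (nat_lit 378) (nat_lit 397) (nat_lit 365)))) (XT.nd (nat_lit 156) (nat_lit 836) (nat_lit 0) (XT.nd (nat_lit 78) (nat_lit 0) (nat_lit 0) (XT.lf (nat_lit 988) (nat_lit 3750264109) (nat_lit 0) (nat_lit 210430301) (nat_lit 912) (nat_lit 210430301) (nat_lit 434) (nat_lit 1) (nat_lit 421) (nat_lit 1) (nat_lit 433) (nat_lit 1) (nat_lit 379) (nat_lit 397) (nat_lit 364)) (XT.lf (nat_lit 76) (nat_lit 1636439256) (nat_lit 0) (nat_lit 861391330) (nat_lit 988) (nat_lit 1636439256) (nat_lit 422) (nat_lit 1) (nat_lit 421) (nat_lit 1) (nat_lit 434) (nat_lit 1) (nat_lit 380) (nat_lit 397) (nat_lit 363))) (XT.nd (nat_lit 78) (nat_lit 0) (nat_lit 0) (XT.lf (nat_lit 912) (nat_lit 2799186369) (nat_lit 0) (nat_lit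 649420065) (nat_lit 836) (nat_lit 649420065) (nat_lit 422) (nat_lit 1) (nat_lit 410) (nat_lit 1) (nat_lit 421) (nat_lit 1) (nat_lit 381) (nat_lit 397) (nat_lit 362)) (XT.lf (nat_lit 76) (nat_lit 1158122324) (nat_lit 0) (nat_lit 1745885676) (nat_lit 912) (nat_lit 1158122324) (nat_lit 411) (nat_lit 1) (nat_lit 410) (nat_lit 1) (nat_lit 422) (nat_lit 1) (nat_lit 382) (nat_lit 397) (nat_lit 361))))) (XT.nd (nat_lit 312) (nat_lit 2356) (nat_lit 0) (XT.nd (nat_lit 156) (nat_lit 760) (nat_lit 0) (XT.nd (nat_lit 78) (nat_lit 0) (nat_lit 0) (XT.lf (nat_lit 912) (nat_lit 1831286285) (nat_lit 0) (nat_lit 1097713248) (nat_lit 836) (nat_lit 1097713248) (nat_lit 411) (nat_lit 1) (nat_lit 399) (nat_lit 1) (nat_lit 410) (nat_lit 1) (nat_lit 383) (nat_lit 397) (nat_lit 360)) (XT.lf (nat_lit 76) (nat_lit 671854592) (nat_lit 0) (nat_lit 2648042716) (nat_lit 912) (nat_lit 671854592) (nat_lit 400) (nat_lit 1) (nat_lit 399) (nat_lit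 1) (nat_lit 411) (nat_lit 1) (nat_lit 384) (nat_lit 397) (nat_lit 359))) (XT.nd (nat_lit 78) (nat_lit 0) (nat_lit 0) (XT.lf (nat_lit 836) (nat_lit 848271085) (nat_lit 0) (nat_lit 1554431923) (nat_lit 760) (nat_lit 1554431923) (nat_lit 400) (nat_lit 1) (nat_lit 389) (nat_lit 1) (nat_lit 399) (nat_lit 1) (nat_lit 385) (nat_lit 397) (nat_lit 358)) (XT.lf (nat_lit 76) (nat_lit 178464884) (nat_lit 0) (nat_lit 3566156808) (nat_lit 836) (nat_lit 178464884) (nat_lit 390) (nat_lit 1) (nat_lit 389) (nat_lit 1) (nat_lit 400) (nat_lit 1) (nat_lit 386) (nat_lit 397) (nat_lit 357)))) (XT.nd (nat_lit 156) (nat_lit 760) (nat_lit 0) (XT.nd (nat_lit 78) (nat_lit 760) (nat_lit 0) (XT.lf (nat_lit 76) (nat_lit 1871465889) (nat_lit 0) (nat_lit 146294779) (nat_lit 836) (nat_lit 1871465889) (nat_lit 379) (nat_lit 1) (nat_lit 378) (nat_lit 1) (nat_lit 389) (nat_lit 1) (nat_lit 387) (nat_lit 397) (nat_lit 356)) (XT.lf (nat_lit 836) (nat_lit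 3217626807) (nat_lit 0) (nat_lit 319146798) (nat_lit 760) (nat_lit 319146798) (nat_lit 379) (nat_lit 1) (nat_lit 368) (nat_lit 1) (nat_lit 378) (nat_lit 1) (nat_lit 388) (nat_lit 397) (nat_lit 355))) (XT.nd (nat_lit 78) (nat_lit 760) (nat_lit 0) (XT.lf (nat_lit 76) (nat_lit 1340656573) (nat_lit 0) (nat_lit 1141536345) (nat_lit 836) (nat_lit 1340656573) (nat_lit 369) (nat_lit 1) (nat_lit 368) (nat_lit 1) (nat_lit 379) (nat_lit 1) (nat_lit 389) (nat_lit 397) (nat_lit 354)) (XT.lf (nat_lit 836) (nat_lit 2148005332) (nat_lit 0) (nat_lit 821137219) (nat_lit 760) (nat_lit 821137219) (nat_lit 369) (nat_lit 1) (nat_lit 358) (nat_lit 1) (nat_lit 368) (nat_lit 1) (nat_lit 390) (nat_lit 397) (nat_lit 353)))))) (XT.nd (nat_lit 624) (nat_lit 3040) (nat_lit 0) (XT.nd (nat_lit 312) (nat_lit 1368) (nat_lit 0) (XT.nd (nat_lit 156) (nat_lit 760) (nat_lit 0) (XT.nd (nat_lit 78) (nat_lit 684) (nat_lit 0) (XT.lf (nat_lit 76) (nat_lit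 805464666) (nat_lit 0) (nat_lit 2147140415) (nat_lit 836) (nat_lit 805464666) (nat_lit 359) (nat_lit 1) (nat_lit 358) (nat_lit 1) (nat_lit 369) (nat_lit 1) (nat_lit 391) (nat_lit 397) (nat_lit 352)) (XT.lf (nat_lit 760) (nat_lit 1070258313) (nat_lit 0) (nat_lit 1327978001) (nat_lit 684) (nat_lit 1327978001) (nat_lit 359) (nat_lit 1) (nat_lit 349) (nat_lit 1) (nat_lit 358) (nat_lit 1) (nat_lit 392) (nat_lit 397) (nat_lit 351))) (XT.nd (nat_lit 78) (nat_lit 760) (nat_lit 0) (XT.lf (nat_lit 76) (nat_lit 266550440) (nat_lit 0) (nat_lit 3161743641) (nat_lit 760) (nat_lit 266550440) (nat_lit 350) (nat_lit 1) (nat_lit 349) (nat_lit 1) (nat_lit 359) (nat_lit 1) (nat_lit 393) (nat_lit 397) (nat_lit 350)) (XT.lf (nat_lit 76) (nat_lit 1824771490) (nat_lit 0) (nat_lit 14137121) (nat_lit 760) (nat_lit 1824771490) (nat_lit 340) (nat_lit 1) (nat_lit 339) (nat_lit 1) (nat_lit 349) (nat_lit 1) (nat_lit 394) (nat_lit 397) (nat_lit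 349)))) (XT.nd (nat_lit 156) (nat_lit 684) (nat_lit 0) (XT.nd (nat_lit 78) (nat_lit 0) (nat_lit 0) (XT.lf (nat_lit 760) (nat_lit 3085691056) (nat_lit 0) (nat_lit 273648838) (nat_lit 684) (nat_lit 273648838) (nat_lit 340) (nat_lit 1) (nat_lit 330) (nat_lit 1) (nat_lit 339) (nat_lit 1) (nat_lit 395) (nat_lit 397) (nat_lit 348)) (XT.lf (nat_lit 76) (nat_lit 1256230005) (nat_lit 0) (nat_lit 1090038458) (nat_lit 760) (nat_lit 1256230005) (nat_lit 331) (nat_lit 1) (nat_lit 330) (nat_lit 1) (nat_lit 340) (nat_lit 1) (nat_lit 396) (nat_lit 397) (nat_lit 347))) (XT.nd (nat_lit 78) (nat_lit 0) (nat_lit 0) (XT.lf (nat_lit 760) (nat_lit 1943297485) (nat_lit 0) (nat_lit 814583977) (nat_lit 684) (nat_lit 814583977) (nat_lit 331) (nat_lit 1) (nat_lit 321) (nat_lit 1) (nat_lit 330) (nat_lit 1) (nat_lit 397) (nat_lit 397) (nat_lit 346)) (XT.lf (nat_lit 76) (nat_lit 686212744) (nat_lit 0) (nat_lit 2170343461) (nat_lit 760) (nat_lit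 686212744) (nat_lit 322) (nat_lit 1) (nat_lit 321) (nat_lit 1) (nat_lit 331) (nat_lit 1) (nat_lit 398) (nat_lit 397) (nat_lit 345))))) (XT.nd (nat_lit 312) (nat_lit 1140) (nat_lit 0) (XT.nd (nat_lit 156) (nat_lit 1292) (nat_lit 0) (XT.nd (nat_lit 78) (nat_lit 0) (nat_lit 0) (XT.lf (nat_lit 684) (nat_lit 798468486) (nat_lit 0) (nat_lit 1357453143) (nat_lit 608) (nat_lit 1357453143) (nat_lit 322) (nat_lit 1) (nat_lit 313) (nat_lit 1) (nat_lit 321) (nat_lit 1) (nat_lit 399) (nat_lit 397) (nat_lit 344)) (XT.lf (nat_lit 76) (nat_lit 115238835) (nat_lit 0) (nat_lit 3253975597) (nat_lit 684) (nat_lit 115238835) (nat_lit 314) (nat_lit 1) (nat_lit 313) (nat_lit 1) (nat_lit 322) (nat_lit 1) (nat_lit 400) (nat_lit 397) (nat_lit 343))) (XT.nd (nat_lit 78) (nat_lit 608) (nat_lit 0) (XT.lf (nat_lit 76) (nat_lit 1556205688) (nat_lit 0) (nat_lit 343222555) (nat_lit 684) (nat_lit 1556205688) (nat_lit 305) (nat_lit 1) (nat_lit 304)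 (nat_lit 1) (nat_lit 313) (nat_lit 1) (nat_lit 401) (nat_lit 397) (nat_lit 342)) (XT.lf (nat_lit 684) (nat_lit 2520875567) (nat_lit 0) (nat_lit 453200478) (nat_lit 608) (nat_lit 453200478) (nat_lit 305) (nat_lit 1) (nat_lit 296) (nat_lit 1) (nat_lit 304) (nat_lit 1) (nat_lit 402) (nat_lit 397) (nat_lit 341)))) (XT.nd (nat_lit 156) (nat_lit 532) (nat_lit 0) (XT.nd (nat_lit 78) (nat_lit 608) (nat_lit 0) (XT.lf (nat_lit 76) (nat_lit 962121979) (nat_lit 0) (nat_lit 1474903841) (nat_lit 684) (nat_lit 962121979) (nat_lit 297) (nat_lit 1) (nat_lit 296) (nat_lit 1) (nat_lit 305) (nat_lit 1) (nat_lit 403) (nat_lit 397) (nat_lit 340)) (XT.lf (nat_lit 684) (nat_lit 1329607695) (nat_lit 0) (nat_lit 1020886332) (nat_lit 608) (nat_lit 1020886332) (nat_lit 297) (nat_lit 1) (nat_lit 288) (nat_lit 1) (nat_lit 296) (nat_lit 1) (nat_lit 404) (nat_lit 397) (nat_lit 339))) (XT.nd (nat_lit 78) (nat_lit 532) (nat_lit 0) (XT.lf (nat_lit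 76) (nat_lit 368912808) (nat_lit 0) (nat_lit 2606159106) (nat_lit 684) (nat_lit 368912808) (nat_lit 289) (nat_lit 1) (nat_lit 288) (nat_lit 1) (nat_lit 297) (nat_lit 1) (nat_lit 405) (nat_lit 397) (nat_lit 338)) (XT.lf (nat_lit 608) (nat_lit 140501326) (nat_lit 0) (nat_lit 1588144370) (nat_lit 532) (nat_lit 1588144370) (nat_lit 289) (nat_lit 1) (nat_lit 281) (nat_lit 1) (nat_lit 288) (nat_lit 1) (nat_lit 406) (nat_lit 397) (nat_lit 337))))))) (XT.nd (nat_lit 54756) (nat_lit 0) (nat_lit 20520) (XT.nd (nat_lit 546) (nat_lit 1596) (nat_lit 0) (XT.nd (nat_lit 234) (nat_lit 1140) (nat_lit 0) (XT.nd (nat_lit 78) (nat_lit 532) (nat_lit 0) (XT.lf (nat_lit 684) (nat_lit 2846887450) (nat_lit 0) (nat_lit 221553357) (nat_lit 608) (nat_lit 221553357) (nat_lit 281) (nat_lit 1) (nat_lit 272) (nat_lit 1) (nat_lit 280) (nat_lit 1) (nat_lit 407) (nat_lit 397) (nat_lit 336)) (XT.nd (nat_lit 78) (nat_lit 532) (nat_lit 0) (XT.lf (nat_lit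 76) (nat_lit 1115693667) (nat_lit 0) (nat_lit 1031948773) (nat_lit 684) (nat_lit 1115693667) (nat_lit 273) (nat_lit 1) (nat_lit 272) (nat_lit 1) (nat_lit 281) (nat_lit 1) (nat_lit 408) (nat_lit 397) (nat_lit 335)) (XT.lf (nat_lit 608) (nat_lit 1621166711) (nat_lit 0) (nat_lit 807950463) (nat_lit 532) (nat_lit 807950463) (nat_lit 273) (nat_lit 1) (nat_lit 265) (nat_lit 1) (nat_lit 272) (nat_lit 1) (nat_lit 409) (nat_lit 397) (nat_lit 334)))) (XT.nd (nat_lit 156) (nat_lit 608) (nat_lit 0) (XT.nd (nat_lit 78) (nat_lit 532) (nat_lit 0) (XT.lf (nat_lit 76) (nat_lit 506087497) (nat_lit 0) (nat_lit 2198928726) (nat_lit 608) (nat_lit 506087497) (nat_lit 266) (nat_lit 1) (nat_lit 265) (nat_lit 1) (nat_lit 273) (nat_lit 1) (nat_lit 410) (nat_lit 397) (nat_lit 333)) (XT.lf (nat_lit 608) (nat_lit 400657657) (nat_lit 0) (nat_lit 1392353792) (nat_lit 532) (nat_lit 1392353792) (nat_lit 266) (nat_lit 1) (nat_lit 258) (nat_lit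 1) (nat_lit 265) (nat_lit 1) (nat_lit 411) (nat_lit 397) (nat_lit 332))) (XT.nd (nat_lit 78) (nat_lit 0) (nat_lit 0) (XT.lf (nat_lit 608) (nat_lit 2959830199) (nat_lit 0) (nat_lit 100098350) (nat_lit 532) (nat_lit 100098350) (nat_lit 258) (nat_lit 1) (nat_lit 250) (nat_lit 1) (nat_lit 257) (nat_lit 1) (nat_lit 412) (nat_lit 397) (nat_lit 331)) (XT.lf (nat_lit 76) (nat_lit 1165707460) (nat_lit 0) (nat_lit 803335118) (nat_lit 608) (nat_lit 1165707460) (nat_lit 251) (nat_lit 1) (nat_lit 250) (nat_lit 1) (nat_lit 258) (nat_lit 1) (nat_lit 413) (nat_lit 397) (nat_lit 330))))) (XT.nd (nat_lit 53898) (nat_lit 0) (nat_lit 20368) (XT.nd (nat_lit 156) (nat_lit 1064) (nat_lit 0) (XT.nd (nat_lit 78) (nat_lit 0) (nat_lit 0) (XT.lf (nat_lit 608) (nat_lit 1710036410) (nat_lit 0) (nat_lit 699914381) (nat_lit 532) (nat_lit 699914381) (nat_lit 251) (nat_lit 1) (nat_lit 243) (nat_lit 1) (nat_lit 250) (nat_lit 1) (nat_lit 414) (nat_lit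 397) (nat_lit 329)) (XT.lf (nat_lit 76) (nat_lit 544758523) (nat_lit 0) (nat_lit 1995729142) (nat_lit 608) (nat_lit 544758523) (nat_lit 244) (nat_lit 1) (nat_lit 243) (nat_lit 1) (nat_lit 251) (nat_lit 1) (nat_lit 415) (nat_lit 397) (nat_lit 328))) (XT.nd (nat_lit 78) (nat_lit 608) (nat_lit 0) (XT.lf (nat_lit 532) (nat_lit 468034934) (nat_lit 0) (nat_lit 1296408776) (nat_lit 456) (nat_lit 1296408776) (nat_lit 244) (nat_lit 1) (nat_lit 237) (nat_lit 1) (nat_lit 243) (nat_lit 1) (nat_lit 416) (nat_lit 397) (nat_lit 327)) (XT.lf (nat_lit 608) (nat_lit 2893427616) (nat_lit 0) (nat_lit 71705540) (nat_lit 532) (nat_lit 71705540) (nat_lit 237) (nat_lit 1) (nat_lit 229) (nat_lit 1) (nat_lit 236) (nat_lit 1) (nat_lit 417) (nat_lit 397) (nat_lit 326)))) (XT.nd (nat_lit 156) (nat_lit 0) (nat_lit 76) (XT.nd (nat_lit 78) (nat_lit 0) (nat_lit 0) (XT.lf (nat_lit 1900) (nat_lit 963359638) (nat_lit 0) (nat_lit 971415566) (nat_lit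 1900) (nat_lit 963359638) (nat_lit 522) (nat_lit 1) (nat_lit 497) (nat_lit 0) (nat_lit 522) (nat_lit 0) (nat_lit 344) (nat_lit 398) (nat_lit 398)) (XT.lf (nat_lit 1900) (nat_lit 3809268854) (nat_lit 76) (nat_lit 965024674) (nat_lit 0) (nat_lit 965024674) (nat_lit 522) (nat_lit 1) (nat_lit 498) (nat_lit 1) (nat_lit 497) (nat_lit 0) (nat_lit 345) (nat_lit 398) (nat_lit 397))) (XT.nd (nat_lit 78) (nat_lit 0) (nat_lit 0) (XT.lf (nat_lit 1900) (nat_lit 1870369139) (nat_lit 0) (nat_lit 1942250487) (nat_lit 1824) (nat_lit 1870369139) (nat_lit 523) (nat_lit 1) (nat_lit 498) (nat_lit 1) (nat_lit 522) (nat_lit 1) (nat_lit 346) (nat_lit 398) (nat_lit 396)) (XT.lf (nat_lit 1900) (nat_lit 3660773478) (nat_lit 76) (nat_lit 983369902) (nat_lit 0) (nat_lit 983369902) (nat_lit 523) (nat_lit 1) (nat_lit 499) (nat_lit 1) (nat_lit 498) (nat_lit 1) (nat_lit 347) (nat_lit 398) (nat_lit 395)))))) (XT.nd (nat_lit 624) (nat_lit 0) (nat_lit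 304) (XT.nd (nat_lit 312) (nat_lit 0) (nat_lit 152) (XT.nd (nat_lit 156) (nat_lit 0) (nat_lit 76) (XT.nd (nat_lit 78) (nat_lit 0) (nat_lit 0) (XT.lf (nat_lit 1900) (nat_lit 1779066540) (nat_lit 0) (nat_lit 2014517108) (nat_lit 1824) (nat_lit 1779066540) (nat_lit 524) (nat_lit 1) (nat_lit 499) (nat_lit 1) (nat_lit 523) (nat_lit 1) (nat_lit 348) (nat_lit 398) (nat_lit 394)) (XT.lf (nat_lit 1900) (nat_lit 3444251838) (nat_lit 76) (nat_lit 1037175566) (nat_lit 0) (nat_lit 1037175566) (nat_lit 524) (nat_lit 1) (nat_lit 500) (nat_lit 1) (nat_lit 499) (nat_lit 1) (nat_lit 349) (nat_lit 398) (nat_lit 393))) (XT.nd (nat_lit 78) (nat_lit 0) (nat_lit 0) (XT.lf (nat_lit 1900) (nat_lit 1654896973) (nat_lit 0) (nat_lit 2155374310) (nat_lit 1824) (nat_lit 1654896973) (nat_lit 525) (nat_lit 1) (nat_lit 500) (nat_lit 1) (nat_lit 524) (nat_lit 1) (nat_lit 350) (nat_lit 398) (nat_lit 392)) (XT.lf (nat_lit 1900) (nat_lit 3163792389)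 (nat_lit 76) (nat_lit 1124355425) (nat_lit 0) (nat_lit 1124355425) (nat_lit 525) (nat_lit 1) (nat_lit 501) (nat_lit 1) (nat_lit 500) (nat_lit 1) (nat_lit 351) (nat_lit 398) (nat_lit 391)))) (XT.nd (nat_lit 156) (nat_lit 0) (nat_lit 76) (XT.nd (nat_lit 78) (nat_lit 0) (nat_lit 0) (XT.lf (nat_lit 1900) (nat_lit 1499850670) (nat_lit 0) (nat_lit 2360758700) (nat_lit 1824) (nat_lit 1499850670) (nat_lit 526) (nat_lit 1) (nat_lit 501) (nat_lit 1) (nat_lit 525) (nat_lit 1) (nat_lit 352) (nat_lit 398) (nat_lit 390)) (XT.lf (nat_lit 1900) (nat_lit 2823296456) (nat_lit 76) (nat_lit 1242918153) (nat_lit 0) (nat_lit 1242918153) (nat_lit 526) (nat_lit 1) (nat_lit 502) (nat_lit 1) (nat_lit 501) (nat_lit 1) (nat_lit 353) (nat_lit 398) (nat_lit 389))) (XT.nd (nat_lit 78) (nat_lit 0) (nat_lit 0) (XT.lf (nat_lit 1900) (nat_lit 1315826582) (nat_lit 0) (nat_lit 2626792123) (nat_lit 1824) (nat_lit 1315826582) (nat_lit 527) (nat_lit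 1) (nat_lit 502) (nat_lit 1) (nat_lit 526) (nat_lit 1) (nat_lit 354) (nat_lit 398) (nat_lit 388)) (XT.lf (nat_lit 1900) (nat_lit 2426486055) (nat_lit 76) (nat_lit 1390963387) (nat_lit 0) (nat_lit 1390963387) (nat_lit 527) (nat_lit 1) (nat_lit 503) (nat_lit 1) (nat_lit 502) (nat_lit 1) (nat_lit 355) (nat_lit 398) (nat_lit 387))))) (XT.nd (nat_lit 312) (nat_lit 0) (nat_lit 152) (XT.nd (nat_lit 156) (nat_lit 0) (nat_lit 76) (XT.nd (nat_lit 78) (nat_lit 0) (nat_lit 0) (XT.lf (nat_lit 1900) (nat_lit 1104636194) (nat_lit 0) (nat_lit 2949773925) (nat_lit 1824) (nat_lit 1104636194) (nat_lit 528) (nat_lit 1) (nat_lit 503) (nat_lit 1) (nat_lit 527) (nat_lit 1) (nat_lit 356) (nat_lit 398) (nat_lit 386)) (XT.lf (nat_lit 1900) (nat_lit 1976911404) (nat_lit 76) (nat_lit 1566677923) (nat_lit 0) (nat_lit 1566677923) (nat_lit 528) (nat_lit 1) (nat_lit 504) (nat_lit 1) (nat_lit 503) (nat_lit 1) (nat_lit 357) (nat_lit 398) (nat_lit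 385))) (XT.nd (nat_lit 78) (nat_lit 0) (nat_lit 0) (XT.lf (nat_lit 1900) (nat_lit 868007195) (nat_lit 0) (nat_lit 3326173542) (nat_lit 1824) (nat_lit 868007195) (nat_lit 529) (nat_lit 1) (nat_lit 504) (nat_lit 1) (nat_lit 528) (nat_lit 1) (nat_lit 358) (nat_lit 398) (nat_lit 384)) (XT.lf (nat_lit 1900) (nat_lit 1477958126) (nat_lit 76) (nat_lit 1768332073) (nat_lit 0) (nat_lit 1768332073) (nat_lit 529) (nat_lit 1) (nat_lit 505) (nat_lit 1) (nat_lit 504) (nat_lit 1) (nat_lit 359) (nat_lit 398) (nat_lit 383)))) (XT.nd (nat_lit 156) (nat_lit 0) (nat_lit 76) (XT.nd (nat_lit 78) (nat_lit 0) (nat_lit 0) (XT.lf (nat_lit 1900) (nat_lit 607586993) (nat_lit 0) (nat_lit 3752623368) (nat_lit 1824) (nat_lit 607586993) (nat_lit 530) (nat_lit 1) (nat_lit 505) (nat_lit 1) (nat_lit 529) (nat_lit 1) (nat_lit 360) (nat_lit 398) (nat_lit 382)) (XT.lf (nat_lit 1900) (nat_lit 932854165) (nat_lit 76) (nat_lit 1994276161) (nat_lit 0)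 (nat_lit 1994276161) (nat_lit 530) (nat_lit 1) (nat_lit 506) (nat_lit 1) (nat_lit 505) (nat_lit 1) (nat_lit 361) (nat_lit 398) (nat_lit 381))) (XT.nd (nat_lit 78) (nat_lit 0) (nat_lit 0) (XT.lf (nat_lit 1900) (nat_lit 324946092) (nat_lit 0) (nat_lit 4225911926) (nat_lit 1824) (nat_lit 324946092) (nat_lit 531) (nat_lit 1) (nat_lit 506) (nat_lit 1) (nat_lit 530) (nat_lit 1) (nat_lit 362) (nat_lit 398) (nat_lit 380)) (XT.lf (nat_lit 1900) (nat_lit 344676426) (nat_lit 76) (nat_lit 2242937167) (nat_lit 0) (nat_lit 2242937167) (nat_lit 531) (nat_lit 1) (nat_lit 507) (nat_lit 1) (nat_lit 506) (nat_lit 1) (nat_lit 363) (nat_lit 398) (nat_lit 379))))))))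
noncomputable def ec26 : XT := (XT.nd (nat_lit 2340) (nat_lit 7676) (nat_lit 0) (XT.nd (nat_lit 1170) (nat_lit 6916) (nat_lit 0) (XT.nd (nat_lit 546) (nat_lit 3648) (nat_lit 0) (XT.nd (nat_lit 234) (nat_lit 988) (nat_lit 0) (XT.nd (nat_lit 78) (nat_lit 1900) (nat_lit 0) (XT.lf (nat_lit 1900) (nat_lit 21581332) (nat_lit 0) (nat_lit 4742977309) (nat_lit 1824) (nat_lit 21581332) (nat_lit 532) (nat_lit 1) (nat_lit 507) (nat_lit 1) (nat_lit 531) (nat_lit 1) (nat_lit 364) (nat_lit 398) (nat_lit 378)) (XT.nd (nat_lit 78) (nat_lit 0) (nat_lit 0) (XT.lf (nat_lit 1976) (nat_lit 2231014242) (nat_lit 0) (nat_lit 279922831) (nat_lit 1900) (nat_lit 2231014242) (nat_lit 508) (nat_lit 1) (nat_lit 482) (nat_lit 1) (nat_lit 507) (nat_lit 1) (nat_lit 365) (nat_lit 398) (nat_lit 377)) (XT.lf (nat_lit 1976) (nat_lit 4100381556) (nat_lit 76) (nat_lit 299100205) (nat_lit 0) (nat_lit 299100205) (nat_lit 508) (nat_lit 1) (nat_lit 483)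 (nat_lit 1) (nat_lit 482) (nat_lit 1) (nat_lit 366) (nat_lit 398) (nat_lit 376)))) (XT.nd (nat_lit 156) (nat_lit 1064) (nat_lit 0) (XT.nd (nat_lit 78) (nat_lit 0) (nat_lit 0) (XT.lf (nat_lit 1976) (nat_lit 1859335449) (nat_lit 0) (nat_lit 936859649) (nat_lit 1900) (nat_lit 1859335449) (nat_lit 509) (nat_lit 1) (nat_lit 483) (nat_lit 1) (nat_lit 508) (nat_lit 1) (nat_lit 367) (nat_lit 398) (nat_lit 375)) (XT.lf (nat_lit 1976) (nat_lit 3338281213) (nat_lit 76) (nat_lit 637460603) (nat_lit 0) (nat_lit 637460603) (nat_lit 509) (nat_lit 1) (nat_lit 484) (nat_lit 1) (nat_lit 483) (nat_lit 1) (nat_lit 368) (nat_lit 398) (nat_lit 374))) (XT.nd (nat_lit 78) (nat_lit 1140) (nat_lit 0) (XT.lf (nat_lit 76) (nat_lit 1471621163) (nat_lit 0) (nat_lit 1628028442) (nat_lit 1900) (nat_lit 1471621163) (nat_lit 485) (nat_lit 1) (nat_lit 484) (nat_lit 1) (nat_lit 509) (nat_lit 1) (nat_lit 369) (nat_lit 398) (nat_lit 373)) (XT.lf (nat_lit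 1216) (nat_lit 2545238587) (nat_lit 0) (nat_lit 992356353) (nat_lit 1140) (nat_lit 992356353) (nat_lit 485) (nat_lit 1) (nat_lit 469) (nat_lit 1) (nat_lit 484) (nat_lit 1) (nat_lit 370) (nat_lit 398) (nat_lit 372))))) (XT.nd (nat_lit 312) (nat_lit 1824) (nat_lit 0) (XT.nd (nat_lit 156) (nat_lit 912) (nat_lit 0) (XT.nd (nat_lit 78) (nat_lit 912) (nat_lit 0) (XT.lf (nat_lit 76) (nat_lit 1069091479) (nat_lit 0) (nat_lit 2350928538) (nat_lit 1216) (nat_lit 1069091479) (nat_lit 470) (nat_lit 1) (nat_lit 469) (nat_lit 1) (nat_lit 485) (nat_lit 1) (nat_lit 371) (nat_lit 398) (nat_lit 371)) (XT.lf (nat_lit 988) (nat_lit 1723642177) (nat_lit 0) (nat_lit 1362563517) (nat_lit 912) (nat_lit 1362563517) (nat_lit 470) (nat_lit 1) (nat_lit 457) (nat_lit 1) (nat_lit 469) (nat_lit 1) (nat_lit 372) (nat_lit 398) (nat_lit 370))) (XT.nd (nat_lit 78) (nat_lit 912) (nat_lit 0) (XT.lf (nat_lit 76) (nat_lit 652907398) (nat_lit 0) (nat_lit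 3103179335) (nat_lit 988) (nat_lit 652907398) (nat_lit 458) (nat_lit 1) (nat_lit 457) (nat_lit 1) (nat_lit 470) (nat_lit 1) (nat_lit 373) (nat_lit 398) (nat_lit 369)) (XT.lf (nat_lit 988) (nat_lit 875764458) (nat_lit 0) (nat_lit 1746917095) (nat_lit 912) (nat_lit 1746917095) (nat_lit 458) (nat_lit 1) (nat_lit 445) (nat_lit 1) (nat_lit 457) (nat_lit 1) (nat_lit 374) (nat_lit 398) (nat_lit 368)))) (XT.nd (nat_lit 156) (nat_lit 988) (nat_lit 0) (XT.nd (nat_lit 78) (nat_lit 836) (nat_lit 0) (XT.lf (nat_lit 76) (nat_lit 224173356) (nat_lit 0) (nat_lit 3882515192) (nat_lit 988) (nat_lit 224173356) (nat_lit 446) (nat_lit 1) (nat_lit 445) (nat_lit 1) (nat_lit 458) (nat_lit 1) (nat_lit 375) (nat_lit 398) (nat_lit 367)) (XT.lf (nat_lit 912) (nat_lit 3766846) (nat_lit 0) (nat_lit 2144308509) (nat_lit 836) (nat_lit 2144308509) (nat_lit 446) (nat_lit 1) (nat_lit 434) (nat_lit 1) (nat_lit 445) (nat_lit 1) (nat_lit 376) (nat_lit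 398) (nat_lit 366))) (XT.nd (nat_lit 78) (nat_lit 0) (nat_lit 0) (XT.lf (nat_lit 988) (nat_lit 3825269392) (nat_lit 0) (nat_lit 214638907) (nat_lit 912) (nat_lit 214638907) (nat_lit 434) (nat_lit 1) (nat_lit 421) (nat_lit 1) (nat_lit 433) (nat_lit 1) (nat_lit 377) (nat_lit 398) (nat_lit 365)) (XT.lf (nat_lit 76) (nat_lit 1669168041) (nat_lit 0) (nat_lit 878619157) (nat_lit 988) (nat_lit 1669168041) (nat_lit 422) (nat_lit 1) (nat_lit 421) (nat_lit 1) (nat_lit 434) (nat_lit 1) (nat_lit 378) (nat_lit 398) (nat_lit 364)))))) (XT.nd (nat_lit 546) (nat_lit 3648) (nat_lit 0) (XT.nd (nat_lit 234) (nat_lit 1596) (nat_lit 0) (XT.nd (nat_lit 78) (nat_lit 836) (nat_lit 0) (XT.lf (nat_lit 912) (nat_lit 2855170097) (nat_lit 0) (nat_lit 662408466) (nat_lit 836) (nat_lit 662408466) (nat_lit 422) (nat_lit 1) (nat_lit 410) (nat_lit 1) (nat_lit 421) (nat_lit 1) (nat_lit 379) (nat_lit 398) (nat_lit 363)) (XT.nd (nat_lit 78) (nat_lit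 836) (nat_lit 0) (XT.lf (nat_lit 76) (nat_lit 1181284771) (nat_lit 0) (nat_lit 1780803390) (nat_lit 912) (nat_lit 1181284771) (nat_lit 411) (nat_lit 1) (nat_lit 410) (nat_lit 1) (nat_lit 422) (nat_lit 1) (nat_lit 380) (nat_lit 398) (nat_lit 362)) (XT.lf (nat_lit 912) (nat_lit 1867912011) (nat_lit 0) (nat_lit 1119667513) (nat_lit 836) (nat_lit 1119667513) (nat_lit 411) (nat_lit 1) (nat_lit 399) (nat_lit 1) (nat_lit 410) (nat_lit 1) (nat_lit 381) (nat_lit 398) (nat_lit 361)))) (XT.nd (nat_lit 156) (nat_lit 836) (nat_lit 0) (XT.nd (nat_lit 78) (nat_lit 760) (nat_lit 0) (XT.lf (nat_lit 76) (nat_lit 685291684) (nat_lit 0) (nat_lit 2701003571) (nat_lit 912) (nat_lit 685291684) (nat_lit 400) (nat_lit 1) (nat_lit 399) (nat_lit 1) (nat_lit 411) (nat_lit 1) (nat_lit 382) (nat_lit 398) (nat_lit 360)) (XT.lf (nat_lit 836) (nat_lit 865236507) (nat_lit 0) (nat_lit 1585520562) (nat_lit 760) (nat_lit 1585520562) (nat_lit 400)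 (nat_lit 1) (nat_lit 389) (nat_lit 1) (nat_lit 399) (nat_lit 1) (nat_lit 383) (nat_lit 398) (nat_lit 359))) (XT.nd (nat_lit 78) (nat_lit 836) (nat_lit 0) (XT.lf (nat_lit 76) (nat_lit 182034182) (nat_lit 0) (nat_lit 3637479944) (nat_lit 836) (nat_lit 182034182) (nat_lit 390) (nat_lit 1) (nat_lit 389) (nat_lit 1) (nat_lit 400) (nat_lit 1) (nat_lit 384) (nat_lit 398) (nat_lit 358)) (XT.lf (nat_lit 76) (nat_lit 1908895206) (nat_lit 0) (nat_lit 149220675) (nat_lit 836) (nat_lit 1908895206) (nat_lit 379) (nat_lit 1) (nat_lit 378) (nat_lit 1) (nat_lit 389) (nat_lit 1) (nat_lit 385) (nat_lit 398) (nat_lit 357))))) (XT.nd (nat_lit 312) (nat_lit 2128) (nat_lit 0) (XT.nd (nat_lit 156) (nat_lit 760) (nat_lit 0) (XT.nd (nat_lit 78) (nat_lit 0) (nat_lit 0) (XT.lf (nat_lit 836) (nat_lit 3281979343) (nat_lit 0) (nat_lit 325529734) (nat_lit 760) (nat_lit 325529734) (nat_lit 379) (nat_lit 1) (nat_lit 368) (nat_lit 1) (nat_lit 378)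 (nat_lit 1) (nat_lit 386) (nat_lit 398) (nat_lit 356)) (XT.lf (nat_lit 76) (nat_lit 1367469704) (nat_lit 0) (nat_lit 1164367072) (nat_lit 836) (nat_lit 1367469704) (nat_lit 369) (nat_lit 1) (nat_lit 368) (nat_lit 1) (nat_lit 379) (nat_lit 1) (nat_lit 387) (nat_lit 398) (nat_lit 355))) (XT.nd (nat_lit 78) (nat_lit 0) (nat_lit 0) (XT.lf (nat_lit 836) (nat_lit 2190965439) (nat_lit 0) (nat_lit 837559964) (nat_lit 760) (nat_lit 837559964) (nat_lit 369) (nat_lit 1) (nat_lit 358) (nat_lit 1) (nat_lit 368) (nat_lit 1) (nat_lit 388) (nat_lit 398) (nat_lit 354)) (XT.lf (nat_lit 76) (nat_lit 821573960) (nat_lit 0) (nat_lit 2190083223) (nat_lit 836) (nat_lit 821573960) (nat_lit 359) (nat_lit 1) (nat_lit 358) (nat_lit 1) (nat_lit 369) (nat_lit 1) (nat_lit 389) (nat_lit 398) (nat_lit 353)))) (XT.nd (nat_lit 156) (nat_lit 1444) (nat_lit 0) (XT.nd (nat_lit 78) (nat_lit 0) (nat_lit 0) (XT.lf (nat_lit 760) (nat_lit 1091663479) (nat_lit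 0) (nat_lit 1354537561) (nat_lit 684) (nat_lit 1354537561) (nat_lit 359) (nat_lit 1) (nat_lit 349) (nat_lit 1) (nat_lit 358) (nat_lit 1) (nat_lit 390) (nat_lit 398) (nat_lit 352)) (XT.lf (nat_lit 76) (nat_lit 271881449) (nat_lit 0) (nat_lit 3224978514) (nat_lit 760) (nat_lit 271881449) (nat_lit 350) (nat_lit 1) (nat_lit 349) (nat_lit 1) (nat_lit 359) (nat_lit 1) (nat_lit 391) (nat_lit 398) (nat_lit 351))) (XT.nd (nat_lit 78) (nat_lit 684) (nat_lit 0) (XT.lf (nat_lit 76) (nat_lit 1861266920) (nat_lit 0) (nat_lit 14419863) (nat_lit 760) (nat_lit 1861266920) (nat_lit 340) (nat_lit 1) (nat_lit 339) (nat_lit 1) (nat_lit 349) (nat_lit 1) (nat_lit 392) (nat_lit 398) (nat_lit 350)) (XT.lf (nat_lit 760) (nat_lit 3147404877) (nat_lit 0) (nat_lit 279121815) (nat_lit 684) (nat_lit 279121815) (nat_lit 340) (nat_lit 1) (nat_lit 330) (nat_lit 1) (nat_lit 339) (nat_lit 1) (nat_lit 393) (nat_lit 398) (nat_lit 349))))))) (XT.nd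 (nat_lit 1170) (nat_lit 2736) (nat_lit 0) (XT.nd (nat_lit 546) (nat_lit 2356) (nat_lit 0) (XT.nd (nat_lit 234) (nat_lit 1900) (nat_lit 0) (XT.nd (nat_lit 78) (nat_lit 684) (nat_lit 0) (XT.lf (nat_lit 76) (nat_lit 1281354605) (nat_lit 0) (nat_lit 1111839227) (nat_lit 760) (nat_lit 1281354605) (nat_lit 331) (nat_lit 1) (nat_lit 330) (nat_lit 1) (nat_lit 340) (nat_lit 1) (nat_lit 394) (nat_lit 398) (nat_lit 348)) (XT.nd (nat_lit 78) (nat_lit 0) (nat_lit 0) (XT.lf (nat_lit 760) (nat_lit 1982163435) (nat_lit 0) (nat_lit 830875657) (nat_lit 684) (nat_lit 830875657) (nat_lit 331) (nat_lit 1) (nat_lit 321) (nat_lit 1) (nat_lit 330) (nat_lit 1) (nat_lit 395) (nat_lit 398) (nat_lit 347)) (XT.lf (nat_lit 76) (nat_lit 699936999) (nat_lit 0) (nat_lit 2213750331) (nat_lit 760) (nat_lit 699936999) (nat_lit 322) (nat_lit 1) (nat_lit 321) (nat_lit 1) (nat_lit 331) (nat_lit 1) (nat_lit 396) (nat_lit 398) (nat_lit 346)))) (XT.nd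 (nat_lit 156) (nat_lit 1292) (nat_lit 0) (XT.nd (nat_lit 78) (nat_lit 0) (nat_lit 0) (XT.lf (nat_lit 684) (nat_lit 814437856) (nat_lit 0) (nat_lit 1384602206) (nat_lit 608) (nat_lit 1384602206) (nat_lit 322) (nat_lit 1) (nat_lit 313) (nat_lit 1) (nat_lit 321) (nat_lit 1) (nat_lit 397) (nat_lit 398) (nat_lit 345)) (XT.lf (nat_lit 76) (nat_lit 117543612) (nat_lit 0) (nat_lit 3319055109) (nat_lit 684) (nat_lit 117543612) (nat_lit 314) (nat_lit 1) (nat_lit 313) (nat_lit 1) (nat_lit 322) (nat_lit 1) (nat_lit 398) (nat_lit 398) (nat_lit 344))) (XT.nd (nat_lit 78) (nat_lit 608) (nat_lit 0) (XT.lf (nat_lit 76) (nat_lit 1587329801) (nat_lit 0) (nat_lit 350087006) (nat_lit 684) (nat_lit 1587329801) (nat_lit 305) (nat_lit 1) (nat_lit 304) (nat_lit 1) (nat_lit 313) (nat_lit 1) (nat_lit 399) (nat_lit 398) (nat_lit 343)) (XT.lf (nat_lit 684) (nat_lit 2571293078) (nat_lit 0) (nat_lit 462264488) (nat_lit 608) (nat_lit 462264488)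 (nat_lit 305) (nat_lit 1) (nat_lit 296) (nat_lit 1) (nat_lit 304) (nat_lit 1) (nat_lit 400) (nat_lit 398) (nat_lit 342))))) (XT.nd (nat_lit 312) (nat_lit 1216) (nat_lit 0) (XT.nd (nat_lit 156) (nat_lit 532) (nat_lit 0) (XT.nd (nat_lit 78) (nat_lit 608) (nat_lit 0) (XT.lf (nat_lit 76) (nat_lit 981364419) (nat_lit 0) (nat_lit 1504401918) (nat_lit 684) (nat_lit 981364419) (nat_lit 297) (nat_lit 1) (nat_lit 296) (nat_lit 1) (nat_lit 305) (nat_lit 1) (nat_lit 401) (nat_lit 398) (nat_lit 341)) (XT.lf (nat_lit 684) (nat_lit 1356199849) (nat_lit 0) (nat_lit 1041304058) (nat_lit 608) (nat_lit 1041304058) (nat_lit 297) (nat_lit 1) (nat_lit 288) (nat_lit 1) (nat_lit 296) (nat_lit 1) (nat_lit 402) (nat_lit 398) (nat_lit 340))) (XT.nd (nat_lit 78) (nat_lit 532) (nat_lit 0) (XT.lf (nat_lit 76) (nat_lit 376291065) (nat_lit 0) (nat_lit 2658282289) (nat_lit 684) (nat_lit 376291065) (nat_lit 289) (nat_lit 1) (nat_lit 288) (nat_lit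 1) (nat_lit 297) (nat_lit 1) (nat_lit 403) (nat_lit 398) (nat_lit 339)) (XT.lf (nat_lit 608) (nat_lit 143311353) (nat_lit 0) (nat_lit 1619907257) (nat_lit 532) (nat_lit 1619907257) (nat_lit 289) (nat_lit 1) (nat_lit 281) (nat_lit 1) (nat_lit 288) (nat_lit 1) (nat_lit 404) (nat_lit 398) (nat_lit 338)))) (XT.nd (nat_lit 156) (nat_lit 532) (nat_lit 0) (XT.nd (nat_lit 78) (nat_lit 0) (nat_lit 0) (XT.lf (nat_lit 684) (nat_lit 2903825199) (nat_lit 0) (nat_lit 225984424) (nat_lit 608) (nat_lit 225984424) (nat_lit 281) (nat_lit 1) (nat_lit 272) (nat_lit 1) (nat_lit 280) (nat_lit 1) (nat_lit 405) (nat_lit 398) (nat_lit 337)) (XT.lf (nat_lit 76) (nat_lit 1138007540) (nat_lit 0) (nat_lit 1052587749) (nat_lit 684) (nat_lit 1138007540) (nat_lit 273) (nat_lit 1) (nat_lit 272) (nat_lit 1) (nat_lit 281) (nat_lit 1) (nat_lit 406) (nat_lit 398) (nat_lit 336))) (XT.nd (nat_lit 78) (nat_lit 0) (nat_lit 0) (XT.lf (nat_lit 608) (nat_lit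 1653590045) (nat_lit 0) (nat_lit 824109472) (nat_lit 532) (nat_lit 824109472) (nat_lit 273) (nat_lit 1) (nat_lit 265) (nat_lit 1) (nat_lit 272) (nat_lit 1) (nat_lit 407) (nat_lit 398) (nat_lit 335)) (XT.lf (nat_lit 76) (nat_lit 516209247) (nat_lit 0) (nat_lit 2242907301) (nat_lit 608) (nat_lit 516209247) (nat_lit 266) (nat_lit 1) (nat_lit 265) (nat_lit 1) (nat_lit 273) (nat_lit 1) (nat_lit 408) (nat_lit 398) (nat_lit 334)))))) (XT.nd (nat_lit 54132) (nat_lit 0) (nat_lit 20368) (XT.nd (nat_lit 312) (nat_lit 1064) (nat_lit 0) (XT.nd (nat_lit 156) (nat_lit 532) (nat_lit 0) (XT.nd (nat_lit 78) (nat_lit 608) (nat_lit 0) (XT.lf (nat_lit 608) (nat_lit 408670810) (nat_lit 0) (nat_lit 1420200868) (nat_lit 532) (nat_lit 1420200868) (nat_lit 266) (nat_lit 1) (nat_lit 258) (nat_lit 1) (nat_lit 265) (nat_lit 1) (nat_lit 409) (nat_lit 398) (nat_lit 333)) (XT.lf (nat_lit 608) (nat_lit 3019026803) (nat_lit 0) (nat_lit 102100317)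 (nat_lit 532) (nat_lit 102100317) (nat_lit 258) (nat_lit 1) (nat_lit 250) (nat_lit 1) (nat_lit 257) (nat_lit 1) (nat_lit 410) (nat_lit 398) (nat_lit 332))) (XT.nd (nat_lit 78) (nat_lit 532) (nat_lit 0) (XT.lf (nat_lit 76) (nat_lit 1189021609) (nat_lit 0) (nat_lit 819401820) (nat_lit 608) (nat_lit 1189021609) (nat_lit 251) (nat_lit 1) (nat_lit 250) (nat_lit 1) (nat_lit 258) (nat_lit 1) (nat_lit 411) (nat_lit 398) (nat_lit 331)) (XT.lf (nat_lit 608) (nat_lit 1744237138) (nat_lit 0) (nat_lit 713912668) (nat_lit 532) (nat_lit 713912668) (nat_lit 251) (nat_lit 1) (nat_lit 243) (nat_lit 1) (nat_lit 250) (nat_lit 1) (nat_lit 412) (nat_lit 398) (nat_lit 330)))) (XT.nd (nat_lit 156) (nat_lit 608) (nat_lit 0) (XT.nd (nat_lit 78) (nat_lit 456) (nat_lit 0) (XT.lf (nat_lit 76) (nat_lit 555653694) (nat_lit 0) (nat_lit 2035643725) (nat_lit 608) (nat_lit 555653694) (nat_lit 244) (nat_lit 1) (nat_lit 243) (nat_lit 1) (nat_lit 251)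 (nat_lit 1) (nat_lit 413) (nat_lit 398) (nat_lit 329)) (XT.lf (nat_lit 532) (nat_lit 477395633) (nat_lit 0) (nat_lit 1322336951) (nat_lit 456) (nat_lit 1322336951) (nat_lit 244) (nat_lit 1) (nat_lit 237) (nat_lit 1) (nat_lit 243) (nat_lit 1) (nat_lit 414) (nat_lit 398) (nat_lit 328))) (XT.nd (nat_lit 78) (nat_lit 0) (nat_lit 0) (XT.lf (nat_lit 608) (nat_lit 2951296168) (nat_lit 0) (nat_lit 73139651) (nat_lit 532) (nat_lit 73139651) (nat_lit 237) (nat_lit 1) (nat_lit 229) (nat_lit 1) (nat_lit 236) (nat_lit 1) (nat_lit 415) (nat_lit 398) (nat_lit 327)) (XT.lf (nat_lit 76) (nat_lit 1151184471) (nat_lit 0) (nat_lit 770748729) (nat_lit 608) (nat_lit 1151184471) (nat_lit 230) (nat_lit 1) (nat_lit 229) (nat_lit 1) (nat_lit 237) (nat_lit 1) (nat_lit 416) (nat_lit 398) (nat_lit 326))))) (XT.nd (nat_lit 312) (nat_lit 0) (nat_lit 152) (XT.nd (nat_lit 156) (nat_lit 0) (nat_lit 76) (XT.nd (nat_lit 78) (nat_lit 0) (nat_lit 0)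 (XT.lf (nat_lit 1900) (nat_lit 982626831) (nat_lit 0) (nat_lit 990843877) (nat_lit 1900) (nat_lit 982626831) (nat_lit 522) (nat_lit 1) (nat_lit 497) (nat_lit 0) (nat_lit 522) (nat_lit 0) (nat_lit 342) (nat_lit 399) (nat_lit 399)) (XT.lf (nat_lit 1900) (nat_lit 3885454231) (nat_lit 76) (nat_lit 984325167) (nat_lit 0) (nat_lit 984325167) (nat_lit 522) (nat_lit 1) (nat_lit 498) (nat_lit 1) (nat_lit 497) (nat_lit 0) (nat_lit 343) (nat_lit 399) (nat_lit 398))) (XT.nd (nat_lit 78) (nat_lit 0) (nat_lit 0) (XT.lf (nat_lit 1900) (nat_lit 1907776522) (nat_lit 0) (nat_lit 1981095497) (nat_lit 1824) (nat_lit 1907776522) (nat_lit 523) (nat_lit 1) (nat_lit 498) (nat_lit 1) (nat_lit 522) (nat_lit 1) (nat_lit 344) (nat_lit 399) (nat_lit 397)) (XT.lf (nat_lit 1900) (nat_lit 3733988947) (nat_lit 76) (nat_lit 1003037300) (nat_lit 0) (nat_lit 1003037300) (nat_lit 523) (nat_lit 1) (nat_lit 499) (nat_lit 1) (nat_lit 498) (nat_lit 1)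 (nat_lit 345) (nat_lit 399) (nat_lit 396)))) (XT.nd (nat_lit 156) (nat_lit 0) (nat_lit 76) (XT.nd (nat_lit 78) (nat_lit 0) (nat_lit 0) (XT.lf (nat_lit 1900) (nat_lit 1814647871) (nat_lit 0) (nat_lit 2054807450) (nat_lit 1824) (nat_lit 1814647871) (nat_lit 524) (nat_lit 1) (nat_lit 499) (nat_lit 1) (nat_lit 523) (nat_lit 1) (nat_lit 346) (nat_lit 399) (nat_lit 395)) (XT.lf (nat_lit 1900) (nat_lit 3513136875) (nat_lit 76) (nat_lit 1057919078) (nat_lit 0) (nat_lit 1057919078) (nat_lit 524) (nat_lit 1) (nat_lit 500) (nat_lit 1) (nat_lit 499) (nat_lit 1) (nat_lit 347) (nat_lit 399) (nat_lit 394))) (XT.nd (nat_lit 78) (nat_lit 0) (nat_lit 0) (XT.lf (nat_lit 1900) (nat_lit 1687994912) (nat_lit 0) (nat_lit 2198481796) (nat_lit 1824) (nat_lit 1687994912) (nat_lit 525) (nat_lit 1) (nat_lit 500) (nat_lit 1) (nat_lit 524) (nat_lit 1) (nat_lit 348) (nat_lit 399) (nat_lit 393)) (XT.lf (nat_lit 1900) (nat_lit 3227068237) (nat_lit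 76) (nat_lit 1146842533) (nat_lit 0) (nat_lit 1146842533) (nat_lit 525) (nat_lit 1) (nat_lit 501) (nat_lit 1) (nat_lit 500) (nat_lit 1) (nat_lit 349) (nat_lit 399) (nat_lit 392))))))))
noncomputable def ec27 : XT := (XT.nd (nat_lit 2418) (nat_lit 11856) (nat_lit 0) (XT.nd (nat_lit 1170) (nat_lit 6308) (nat_lit 0) (XT.nd (nat_lit 546) (nat_lit 1444) (nat_lit 0) (XT.nd (nat_lit 234) (nat_lit 0) (nat_lit 76) (XT.nd (nat_lit 78) (nat_lit 0) (nat_lit 0) (XT.lf (nat_lit 1900) (nat_lit 1529847683) (nat_lit 0) (nat_lit 2407973874) (nat_lit 1824) (nat_lit 1529847683) (nat_lit 526) (nat_lit 1) (nat_lit 501) (nat_lit 1) (nat_lit 525) (nat_lit 1) (nat_lit 350) (nat_lit 399) (nat_lit 391)) (XT.nd (nat_lit 78) (nat_lit 0) (nat_lit 76) (XT.lf (nat_lit 1900) (nat_lit 2879762385) (nat_lit 76) (nat_lit 1267776516) (nat_lit 0) (nat_lit 1267776516) (nat_lit 526) (nat_lit 1) (nat_lit 502) (nat_lit 1) (nat_lit 501) (nat_lit 1) (nat_lit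 351) (nat_lit 399) (nat_lit 390)) (XT.lf (nat_lit 1900) (nat_lit 1342143113) (nat_lit 0) (nat_lit 2679327965) (nat_lit 1824) (nat_lit 1342143113) (nat_lit 527) (nat_lit 1) (nat_lit 502) (nat_lit 1) (nat_lit 526) (nat_lit 1) (nat_lit 352) (nat_lit 399) (nat_lit 389)))) (XT.nd (nat_lit 156) (nat_lit 0) (nat_lit 76) (XT.nd (nat_lit 78) (nat_lit 0) (nat_lit 76) (XT.lf (nat_lit 1900) (nat_lit 2475015777) (nat_lit 76) (nat_lit 1418782654) (nat_lit 0) (nat_lit 1418782654) (nat_lit 527) (nat_lit 1) (nat_lit 503) (nat_lit 1) (nat_lit 502) (nat_lit 1) (nat_lit 353) (nat_lit 399) (nat_lit 388)) (XT.lf (nat_lit 1900) (nat_lit 1126728918) (nat_lit 0) (nat_lit 3008769404) (nat_lit 1824) (nat_lit 1126728918) (nat_lit 528) (nat_lit 1) (nat_lit 503) (nat_lit 1) (nat_lit 527) (nat_lit 1) (nat_lit 354) (nat_lit 399) (nat_lit 387))) (XT.nd (nat_lit 78) (nat_lit 0) (nat_lit 76) (XT.lf (nat_lit 1900) (nat_lit 2016449632) (nat_lit 76)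 (nat_lit 1598011481) (nat_lit 0) (nat_lit 1598011481) (nat_lit 528) (nat_lit 1) (nat_lit 504) (nat_lit 1) (nat_lit 503) (nat_lit 1) (nat_lit 355) (nat_lit 399) (nat_lit 386)) (XT.lf (nat_lit 1900) (nat_lit 885367339) (nat_lit 0) (nat_lit 3392697013) (nat_lit 1824) (nat_lit 885367339) (nat_lit 529) (nat_lit 1) (nat_lit 504) (nat_lit 1) (nat_lit 528) (nat_lit 1) (nat_lit 356) (nat_lit 399) (nat_lit 385))))) (XT.nd (nat_lit 312) (nat_lit 1672) (nat_lit 0) (XT.nd (nat_lit 156) (nat_lit 0) (nat_lit 76) (XT.nd (nat_lit 78) (nat_lit 0) (nat_lit 76) (XT.lf (nat_lit 1900) (nat_lit 1507517288) (nat_lit 76) (nat_lit 1803698714) (nat_lit 0) (nat_lit 1803698714) (nat_lit 529) (nat_lit 1) (nat_lit 505) (nat_lit 1) (nat_lit 504) (nat_lit 1) (nat_lit 357) (nat_lit 399) (nat_lit 384)) (XT.lf (nat_lit 1900) (nat_lit 619738733) (nat_lit 0) (nat_lit 3827675835) (nat_lit 1824) (nat_lit 619738733) (nat_lit 530) (nat_lit 1) (nat_lit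 505) (nat_lit 1) (nat_lit 529) (nat_lit 1) (nat_lit 358) (nat_lit 399) (nat_lit 383))) (XT.nd (nat_lit 78) (nat_lit 0) (nat_lit 76) (XT.lf (nat_lit 1900) (nat_lit 951511248) (nat_lit 76) (nat_lit 2034161684) (nat_lit 0) (nat_lit 2034161684) (nat_lit 530) (nat_lit 1) (nat_lit 506) (nat_lit 1) (nat_lit 505) (nat_lit 1) (nat_lit 359) (nat_lit 399) (nat_lit 382)) (XT.lf (nat_lit 1900) (nat_lit 331445014) (nat_lit 0) (nat_lit 4310430165) (nat_lit 1824) (nat_lit 331445014) (nat_lit 531) (nat_lit 1) (nat_lit 506) (nat_lit 1) (nat_lit 530) (nat_lit 1) (nat_lit 360) (nat_lit 399) (nat_lit 381)))) (XT.nd (nat_lit 156) (nat_lit 1824) (nat_lit 0) (XT.nd (nat_lit 78) (nat_lit 0) (nat_lit 76) (XT.lf (nat_lit 1900) (nat_lit 351569955) (nat_lit 76) (nat_lit 2287795911) (nat_lit 0) (nat_lit 2287795911) (nat_lit 531) (nat_lit 1) (nat_lit 507) (nat_lit 1) (nat_lit 506) (nat_lit 1) (nat_lit 361) (nat_lit 399) (nat_lit 380)) (XT.lf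 (nat_lit 1900) (nat_lit 22012959) (nat_lit 0) (nat_lit 4837836855) (nat_lit 1824) (nat_lit 22012959) (nat_lit 532) (nat_lit 1) (nat_lit 507) (nat_lit 1) (nat_lit 531) (nat_lit 1) (nat_lit 362) (nat_lit 399) (nat_lit 379))) (XT.nd (nat_lit 78) (nat_lit 0) (nat_lit 0) (XT.lf (nat_lit 1976) (nat_lit 2275634527) (nat_lit 0) (nat_lit 285521288) (nat_lit 1900) (nat_lit 2275634527) (nat_lit 508) (nat_lit 1) (nat_lit 482) (nat_lit 1) (nat_lit 507) (nat_lit 1) (nat_lit 363) (nat_lit 399) (nat_lit 378)) (XT.lf (nat_lit 1976) (nat_lit 4182389187) (nat_lit 76) (nat_lit 305082209) (nat_lit 0) (nat_lit 305082209) (nat_lit 508) (nat_lit 1) (nat_lit 483) (nat_lit 1) (nat_lit 482) (nat_lit 1) (nat_lit 364) (nat_lit 399) (nat_lit 377)))))) (XT.nd (nat_lit 624) (nat_lit 3496) (nat_lit 0) (XT.nd (nat_lit 312) (nat_lit 1824) (nat_lit 0) (XT.nd (nat_lit 156) (nat_lit 1064) (nat_lit 0) (XT.nd (nat_lit 78) (nat_lit 0) (nat_lit 0) (XT.lf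 (nat_lit 1976) (nat_lit 1896522158) (nat_lit 0) (nat_lit 955596842) (nat_lit 1900) (nat_lit 1896522158) (nat_lit 509) (nat_lit 1) (nat_lit 483) (nat_lit 1) (nat_lit 508) (nat_lit 1) (nat_lit 365) (nat_lit 399) (nat_lit 376)) (XT.lf (nat_lit 1976) (nat_lit 3405046837) (nat_lit 76) (nat_lit 650209815) (nat_lit 0) (nat_lit 650209815) (nat_lit 509) (nat_lit 1) (nat_lit 484) (nat_lit 1) (nat_lit 483) (nat_lit 1) (nat_lit 366) (nat_lit 399) (nat_lit 375))) (XT.nd (nat_lit 78) (nat_lit 1140) (nat_lit 0) (XT.lf (nat_lit 76) (nat_lit 1501053586) (nat_lit 0) (nat_lit 1660589011) (nat_lit 1900) (nat_lit 1501053586) (nat_lit 485) (nat_lit 1) (nat_lit 484) (nat_lit 1) (nat_lit 509) (nat_lit 1) (nat_lit 367) (nat_lit 399) (nat_lit 374)) (XT.lf (nat_lit 1216) (nat_lit 2596143359) (nat_lit 0) (nat_lit 1012203480) (nat_lit 1140) (nat_lit 1012203480) (nat_lit 485) (nat_lit 1) (nat_lit 469) (nat_lit 1) (nat_lit 484) (nat_lit 1) (nat_lit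 368) (nat_lit 399) (nat_lit 373)))) (XT.nd (nat_lit 156) (nat_lit 912) (nat_lit 0) (XT.nd (nat_lit 78) (nat_lit 912) (nat_lit 0) (XT.lf (nat_lit 76) (nat_lit 1090473308) (nat_lit 0) (nat_lit 2397947108) (nat_lit 1216) (nat_lit 1090473308) (nat_lit 470) (nat_lit 1) (nat_lit 469) (nat_lit 1) (nat_lit 485) (nat_lit 1) (nat_lit 369) (nat_lit 399) (nat_lit 372)) (XT.lf (nat_lit 988) (nat_lit 1758115020) (nat_lit 0) (nat_lit 1389814787) (nat_lit 912) (nat_lit 1389814787) (nat_lit 470) (nat_lit 1) (nat_lit 457) (nat_lit 1) (nat_lit 469) (nat_lit 1) (nat_lit 370) (nat_lit 399) (nat_lit 371))) (XT.nd (nat_lit 78) (nat_lit 912) (nat_lit 0) (XT.lf (nat_lit 76) (nat_lit 665965546) (nat_lit 0) (nat_lit 3165242921) (nat_lit 988) (nat_lit 665965546) (nat_lit 458) (nat_lit 1) (nat_lit 457) (nat_lit 1) (nat_lit 470) (nat_lit 1) (nat_lit 371) (nat_lit 399) (nat_lit 370)) (XT.lf (nat_lit 988) (nat_lit 893279747) (nat_lit 0) (nat_lit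 1781855437) (nat_lit 912) (nat_lit 1781855437) (nat_lit 458) (nat_lit 1) (nat_lit 445) (nat_lit 1) (nat_lit 457) (nat_lit 1) (nat_lit 372) (nat_lit 399) (nat_lit 369))))) (XT.nd (nat_lit 312) (nat_lit 1672) (nat_lit 0) (XT.nd (nat_lit 156) (nat_lit 988) (nat_lit 0) (XT.nd (nat_lit 78) (nat_lit 836) (nat_lit 0) (XT.lf (nat_lit 76) (nat_lit 228656824) (nat_lit 0) (nat_lit 3960165496) (nat_lit 988) (nat_lit 228656824) (nat_lit 446) (nat_lit 1) (nat_lit 445) (nat_lit 1) (nat_lit 458) (nat_lit 1) (nat_lit 373) (nat_lit 399) (nat_lit 368)) (XT.lf (nat_lit 912) (nat_lit 3842183) (nat_lit 0) (nat_lit 2187194680) (nat_lit 836) (nat_lit 2187194680) (nat_lit 446) (nat_lit 1) (nat_lit 434) (nat_lit 1) (nat_lit 445) (nat_lit 1) (nat_lit 374) (nat_lit 399) (nat_lit 367))) (XT.nd (nat_lit 78) (nat_lit 0) (nat_lit 0) (XT.lf (nat_lit 988) (nat_lit 3901774779) (nat_lit 0) (nat_lit 218931685) (nat_lit 912) (nat_lit 218931685) (nat_lit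 434) (nat_lit 1) (nat_lit 421) (nat_lit 1) (nat_lit 433) (nat_lit 1) (nat_lit 375) (nat_lit 399) (nat_lit 366)) (XT.lf (nat_lit 76) (nat_lit 1702551402) (nat_lit 0) (nat_lit 896191540) (nat_lit 988) (nat_lit 1702551402) (nat_lit 422) (nat_lit 1) (nat_lit 421) (nat_lit 1) (nat_lit 434) (nat_lit 1) (nat_lit 376) (nat_lit 399) (nat_lit 365)))) (XT.nd (nat_lit 156) (nat_lit 836) (nat_lit 0) (XT.nd (nat_lit 78) (nat_lit 0) (nat_lit 0) (XT.lf (nat_lit 912) (nat_lit 2912273499) (nat_lit 0) (nat_lit 675656635) (nat_lit 836) (nat_lit 675656635) (nat_lit 422) (nat_lit 1) (nat_lit 410) (nat_lit 1) (nat_lit 421) (nat_lit 1) (nat_lit 377) (nat_lit 399) (nat_lit 364)) (XT.lf (nat_lit 76) (nat_lit 1204910466) (nat_lit 0) (nat_lit 1816419458) (nat_lit 912) (nat_lit 1204910466) (nat_lit 411) (nat_lit 1) (nat_lit 410) (nat_lit 1) (nat_lit 422) (nat_lit 1) (nat_lit 378) (nat_lit 399) (nat_lit 363))) (XT.nd (nat_lit 78) (nat_lit 0)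 (nat_lit 0) (XT.lf (nat_lit 912) (nat_lit 1905270251) (nat_lit 0) (nat_lit 1142060863) (nat_lit 836) (nat_lit 1142060863) (nat_lit 411) (nat_lit 1) (nat_lit 399) (nat_lit 1) (nat_lit 410) (nat_lit 1) (nat_lit 379) (nat_lit 399) (nat_lit 362)) (XT.lf (nat_lit 76) (nat_lit 698997517) (nat_lit 0) (nat_lit 2755023642) (nat_lit 912) (nat_lit 698997517) (nat_lit 400) (nat_lit 1) (nat_lit 399) (nat_lit 1) (nat_lit 411) (nat_lit 1) (nat_lit 380) (nat_lit 399) (nat_lit 361))))))) (XT.nd (nat_lit 1170) (nat_lit 5320) (nat_lit 0) (XT.nd (nat_lit 546) (nat_lit 3420) (nat_lit 0) (XT.nd (nat_lit 234) (nat_lit 1520) (nat_lit 0) (XT.nd (nat_lit 78) (nat_lit 836) (nat_lit 0) (XT.lf (nat_lit 836) (nat_lit 882541237) (nat_lit 0) (nat_lit 1617230973) (nat_lit 760) (nat_lit 1617230973) (nat_lit 400) (nat_lit 1) (nat_lit 389) (nat_lit 1) (nat_lit 399) (nat_lit 1) (nat_lit 381) (nat_lit 399) (nat_lit 360)) (XT.nd (nat_lit 78) (nat_lit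 836) (nat_lit 0) (XT.lf (nat_lit 76) (nat_lit 185674866) (nat_lit 0) (nat_lit 3710229543) (nat_lit 836) (nat_lit 185674866) (nat_lit 390) (nat_lit 1) (nat_lit 389) (nat_lit 1) (nat_lit 400) (nat_lit 1) (nat_lit 382) (nat_lit 399) (nat_lit 359)) (XT.lf (nat_lit 76) (nat_lit 1947073111) (nat_lit 0) (nat_lit 152205088) (nat_lit 836) (nat_lit 1947073111) (nat_lit 379) (nat_lit 1) (nat_lit 378) (nat_lit 1) (nat_lit 389) (nat_lit 1) (nat_lit 383) (nat_lit 399) (nat_lit 358)))) (XT.nd (nat_lit 156) (nat_lit 760) (nat_lit 0) (XT.nd (nat_lit 78) (nat_lit 0) (nat_lit 0) (XT.lf (nat_lit 836) (nat_lit 3347618930) (nat_lit 0) (nat_lit 332040328) (nat_lit 760) (nat_lit 332040328) (nat_lit 379) (nat_lit 1) (nat_lit 368) (nat_lit 1) (nat_lit 378) (nat_lit 1) (nat_lit 384) (nat_lit 399) (nat_lit 357)) (XT.lf (nat_lit 76) (nat_lit 1394819098) (nat_lit 0) (nat_lit 1187654413) (nat_lit 836) (nat_lit 1394819098) (nat_lit 369) (nat_lit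 1) (nat_lit 368) (nat_lit 1) (nat_lit 379) (nat_lit 1) (nat_lit 385) (nat_lit 399) (nat_lit 356))) (XT.nd (nat_lit 78) (nat_lit 0) (nat_lit 0) (XT.lf (nat_lit 836) (nat_lit 2234784748) (nat_lit 0) (nat_lit 854311163) (nat_lit 760) (nat_lit 854311163) (nat_lit 369) (nat_lit 1) (nat_lit 358) (nat_lit 1) (nat_lit 368) (nat_lit 1) (nat_lit 386) (nat_lit 399) (nat_lit 355)) (XT.lf (nat_lit 76) (nat_lit 838005439) (nat_lit 0) (nat_lit 2233884888) (nat_lit 836) (nat_lit 838005439) (nat_lit 359) (nat_lit 1) (nat_lit 358) (nat_lit 1) (nat_lit 369) (nat_lit 1) (nat_lit 387) (nat_lit 399) (nat_lit 354))))) (XT.nd (nat_lit 312) (nat_lit 1292) (nat_lit 0) (XT.nd (nat_lit 156) (nat_lit 1444) (nat_lit 0) (XT.nd (nat_lit 78) (nat_lit 0) (nat_lit 0) (XT.lf (nat_lit 760) (nat_lit 1113496749) (nat_lit 0) (nat_lit 1381628312) (nat_lit 684) (nat_lit 1381628312) (nat_lit 359) (nat_lit 1) (nat_lit 349) (nat_lit 1) (nat_lit 358) (nat_lit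 1) (nat_lit 388) (nat_lit 399) (nat_lit 353)) (XT.lf (nat_lit 76) (nat_lit 277319078) (nat_lit 0) (nat_lit 3289478084) (nat_lit 760) (nat_lit 277319078) (nat_lit 350) (nat_lit 1) (nat_lit 349) (nat_lit 1) (nat_lit 359) (nat_lit 1) (nat_lit 389) (nat_lit 399) (nat_lit 352))) (XT.nd (nat_lit 78) (nat_lit 684) (nat_lit 0) (XT.lf (nat_lit 76) (nat_lit 1898492258) (nat_lit 0) (nat_lit 14708260) (nat_lit 760) (nat_lit 1898492258) (nat_lit 340) (nat_lit 1) (nat_lit 339) (nat_lit 1) (nat_lit 349) (nat_lit 1) (nat_lit 390) (nat_lit 399) (nat_lit 351)) (XT.lf (nat_lit 760) (nat_lit 3210352974) (nat_lit 0) (nat_lit 284704251) (nat_lit 684) (nat_lit 284704251) (nat_lit 340) (nat_lit 1) (nat_lit 330) (nat_lit 1) (nat_lit 339) (nat_lit 1) (nat_lit 391) (nat_lit 399) (nat_lit 350)))) (XT.nd (nat_lit 156) (nat_lit 608) (nat_lit 0) (XT.nd (nat_lit 78) (nat_lit 684) (nat_lit 0) (XT.lf (nat_lit 76) (nat_lit 1306981698) (nat_lit 0)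 (nat_lit 1134076012) (nat_lit 760) (nat_lit 1306981698) (nat_lit 331) (nat_lit 1) (nat_lit 330) (nat_lit 1) (nat_lit 340) (nat_lit 1) (nat_lit 392) (nat_lit 399) (nat_lit 349)) (XT.lf (nat_lit 760) (nat_lit 2021806704) (nat_lit 0) (nat_lit 847493170) (nat_lit 684) (nat_lit 847493170) (nat_lit 331) (nat_lit 1) (nat_lit 321) (nat_lit 1) (nat_lit 330) (nat_lit 1) (nat_lit 393) (nat_lit 399) (nat_lit 348))) (XT.nd (nat_lit 78) (nat_lit 608) (nat_lit 0) (XT.lf (nat_lit 76) (nat_lit 713935739) (nat_lit 0) (nat_lit 2258025337) (nat_lit 760) (nat_lit 713935739) (nat_lit 322) (nat_lit 1) (nat_lit 321) (nat_lit 1) (nat_lit 331) (nat_lit 1) (nat_lit 394) (nat_lit 399) (nat_lit 347)) (XT.lf (nat_lit 684) (nat_lit 830726613) (nat_lit 0) (nat_lit 1412294250) (nat_lit 608) (nat_lit 1412294250) (nat_lit 322) (nat_lit 1) (nat_lit 313) (nat_lit 1) (nat_lit 321) (nat_lit 1) (nat_lit 395) (nat_lit 399) (nat_lit 346)))))) (XT.nd (nat_lit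 624) (nat_lit 2204) (nat_lit 0) (XT.nd (nat_lit 312) (nat_lit 1824) (nat_lit 0) (XT.nd (nat_lit 156) (nat_lit 608) (nat_lit 0) (XT.nd (nat_lit 78) (nat_lit 684) (nat_lit 0) (XT.lf (nat_lit 76) (nat_lit 119894484) (nat_lit 0) (nat_lit 3385436211) (nat_lit 684) (nat_lit 119894484) (nat_lit 314) (nat_lit 1) (nat_lit 313) (nat_lit 1) (nat_lit 322) (nat_lit 1) (nat_lit 396) (nat_lit 399) (nat_lit 345)) (XT.lf (nat_lit 76) (nat_lit 1619076397) (nat_lit 0) (nat_lit 357088746) (nat_lit 684) (nat_lit 1619076397) (nat_lit 305) (nat_lit 1) (nat_lit 304) (nat_lit 1) (nat_lit 313) (nat_lit 1) (nat_lit 397) (nat_lit 399) (nat_lit 344))) (XT.nd (nat_lit 78) (nat_lit 0) (nat_lit 0) (XT.lf (nat_lit 684) (nat_lit 2622718940) (nat_lit 0) (nat_lit 471509778) (nat_lit 608) (nat_lit 471509778) (nat_lit 305) (nat_lit 1) (nat_lit 296) (nat_lit 1) (nat_lit 304) (nat_lit 1) (nat_lit 398) (nat_lit 399) (nat_lit 343)) (XT.lf (nat_lit 76)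 (nat_lit 1000991707) (nat_lit 0) (nat_lit 1534489956) (nat_lit 684) (nat_lit 1000991707) (nat_lit 297) (nat_lit 1) (nat_lit 296) (nat_lit 1) (nat_lit 305) (nat_lit 1) (nat_lit 399) (nat_lit 399) (nat_lit 342)))) (XT.nd (nat_lit 156) (nat_lit 1216) (nat_lit 0) (XT.nd (nat_lit 78) (nat_lit 0) (nat_lit 0) (XT.lf (nat_lit 684) (nat_lit 1383323846) (nat_lit 0) (nat_lit 1062130139) (nat_lit 608) (nat_lit 1062130139) (nat_lit 297) (nat_lit 1) (nat_lit 288) (nat_lit 1) (nat_lit 296) (nat_lit 1) (nat_lit 400) (nat_lit 399) (nat_lit 341)) (XT.lf (nat_lit 76) (nat_lit 383816886) (nat_lit 0) (nat_lit 2711447934) (nat_lit 684) (nat_lit 383816886) (nat_lit 289) (nat_lit 1) (nat_lit 288) (nat_lit 1) (nat_lit 297) (nat_lit 1) (nat_lit 401) (nat_lit 399) (nat_lit 340))) (XT.nd (nat_lit 78) (nat_lit 684) (nat_lit 0) (XT.lf (nat_lit 608) (nat_lit 146177580) (nat_lit 0) (nat_lit 1652305402) (nat_lit 532) (nat_lit 1652305402) (nat_lit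 289) (nat_lit 1) (nat_lit 281) (nat_lit 1) (nat_lit 288) (nat_lit 1) (nat_lit 402) (nat_lit 399) (nat_lit 339)) (XT.lf (nat_lit 684) (nat_lit 2961901703) (nat_lit 0) (nat_lit 230504112) (nat_lit 608) (nat_lit 230504112) (nat_lit 281) (nat_lit 1) (nat_lit 272) (nat_lit 1) (nat_lit 280) (nat_lit 1) (nat_lit 403) (nat_lit 399) (nat_lit 338))))) (XT.nd (nat_lit 312) (nat_lit 1140) (nat_lit 0) (XT.nd (nat_lit 156) (nat_lit 532) (nat_lit 0) (XT.nd (nat_lit 78) (nat_lit 532) (nat_lit 0) (XT.lf (nat_lit 76) (nat_lit 1160767691) (nat_lit 0) (nat_lit 1073639504) (nat_lit 684) (nat_lit 1160767691) (nat_lit 273) (nat_lit 1) (nat_lit 272) (nat_lit 1) (nat_lit 281) (nat_lit 1) (nat_lit 404) (nat_lit 399) (nat_lit 337)) (XT.lf (nat_lit 608) (nat_lit 1686661846) (nat_lit 0) (nat_lit 840591661) (nat_lit 532) (nat_lit 840591661) (nat_lit 273) (nat_lit 1) (nat_lit 265) (nat_lit 1) (nat_lit 272) (nat_lit 1) (nat_lit 405) (nat_lit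 399) (nat_lit 336))) (XT.nd (nat_lit 78) (nat_lit 532) (nat_lit 0) (XT.lf (nat_lit 76) (nat_lit 526533432) (nat_lit 0) (nat_lit 2287765447) (nat_lit 608) (nat_lit 526533432) (nat_lit 266) (nat_lit 1) (nat_lit 265) (nat_lit 1) (nat_lit 273) (nat_lit 1) (nat_lit 406) (nat_lit 399) (nat_lit 335)) (XT.lf (nat_lit 608) (nat_lit 416844226) (nat_lit 0) (nat_lit 1448604886) (nat_lit 532) (nat_lit 1448604886) (nat_lit 266) (nat_lit 1) (nat_lit 258) (nat_lit 1) (nat_lit 265) (nat_lit 1) (nat_lit 407) (nat_lit 399) (nat_lit 334)))) (XT.nd (nat_lit 156) (nat_lit 532) (nat_lit 0) (XT.nd (nat_lit 78) (nat_lit 0) (nat_lit 0) (XT.lf (nat_lit 608) (nat_lit 3079407339) (nat_lit 0) (nat_lit 104142323) (nat_lit 532) (nat_lit 104142323) (nat_lit 258) (nat_lit 1) (nat_lit 250) (nat_lit 1) (nat_lit 257) (nat_lit 1) (nat_lit 408) (nat_lit 399) (nat_lit 333)) (XT.lf (nat_lit 76) (nat_lit 1212802041) (nat_lit 0) (nat_lit 835789857) (nat_lit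 608) (nat_lit 1212802041) (nat_lit 251) (nat_lit 1) (nat_lit 250) (nat_lit 1) (nat_lit 258) (nat_lit 1) (nat_lit 409) (nat_lit 399) (nat_lit 332))) (XT.nd (nat_lit 78) (nat_lit 0) (nat_lit 0) (XT.lf (nat_lit 608) (nat_lit 1779121881) (nat_lit 0) (nat_lit 728190922) (nat_lit 532) (nat_lit 728190922) (nat_lit 251) (nat_lit 1) (nat_lit 243) (nat_lit 1) (nat_lit 250) (nat_lit 1) (nat_lit 410) (nat_lit 399) (nat_lit 331)) (XT.lf (nat_lit 76) (nat_lit 566766768) (nat_lit 0) (nat_lit 2076356600) (nat_lit 608) (nat_lit 566766768) (nat_lit 244) (nat_lit 1) (nat_lit 243) (nat_lit 1) (nat_lit 251) (nat_lit 1) (nat_lit 411) (nat_lit 399) (nat_lit 330))))))))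
noncomputable def ec28 : XT := (XT.nd (nat_lit 55536) (nat_lit 0) (nat_lit 7828) (XT.nd (nat_lit 54366) (nat_lit 0) (nat_lit 20672) (XT.nd (nat_lit 53742) (nat_lit 0) (nat_lit 21812) (XT.nd (nat_lit 234) (nat_lit 1444) (nat_lit 0) (XT.nd (nat_lit 78) (nat_lit 608) (nat_lit 0) (XT.lf (nat_lit 532) (nat_lit 486943545) (nat_lit 0) (nat_lit 1348783690) (nat_lit 456) (nat_lit 1348783690) (nat_lit 244) (nat_lit 1) (nat_lit 237) (nat_lit 1) (nat_lit 243) (nat_lit 1) (nat_lit 412) (nat_lit 399) (nat_lit 329)) (XT.nd (nat_lit 78) (nat_lit 0) (nat_lit 0) (XT.lf (nat_lit 608) (nat_lit 3010322091) (nat_lit 0) (nat_lit 74602444) (nat_lit 532) (nat_lit 74602444) (nat_lit 237) (nat_lit 1) (nat_lit 229) (nat_lit 1) (nat_lit 236) (nat_lit 1) (nat_lit 413) (nat_lit 399) (nat_lit 328)) (XT.lf (nat_lit 76) (nat_lit 1174208160) (nat_lit 0) (nat_lit 786163704) (nat_lit 608) (nat_lit 1174208160) (nat_lit 230) (nat_lit 1) (nat_lit 229)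 (nat_lit 1) (nat_lit 237) (nat_lit 1) (nat_lit 414) (nat_lit 399) (nat_lit 327)))) (XT.nd (nat_lit 156) (nat_lit 988) (nat_lit 0) (XT.nd (nat_lit 78) (nat_lit 0) (nat_lit 0) (XT.lf (nat_lit 532) (nat_lit 1694316964) (nat_lit 0) (nat_lit 707851922) (nat_lit 456) (nat_lit 707851922) (nat_lit 230) (nat_lit 1) (nat_lit 223) (nat_lit 1) (nat_lit 229) (nat_lit 1) (nat_lit 415) (nat_lit 399) (nat_lit 326)) (XT.lf (nat_lit 76) (nat_lit 520911222) (nat_lit 0) (nat_lit 2043900692) (nat_lit 532) (nat_lit 520911222) (nat_lit 224) (nat_lit 1) (nat_lit 223) (nat_lit 1) (nat_lit 230) (nat_lit 1) (nat_lit 416) (nat_lit 399) (nat_lit 325))) (XT.nd (nat_lit 78) (nat_lit 532) (nat_lit 0) (XT.lf (nat_lit 532) (nat_lit 388675218) (nat_lit 0) (nat_lit 1336481503) (nat_lit 456) (nat_lit 1336481503) (nat_lit 224) (nat_lit 1) (nat_lit 217) (nat_lit 1) (nat_lit 223) (nat_lit 1) (nat_lit 417) (nat_lit 399) (nat_lit 324)) (XT.lf (nat_lit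 532) (nat_lit 2785342269) (nat_lit 0) (nat_lit 126283290) (nat_lit 456) (nat_lit 126283290) (nat_lit 217) (nat_lit 1) (nat_lit 210) (nat_lit 1) (nat_lit 216) (nat_lit 1) (nat_lit 418) (nat_lit 399) (nat_lit 323))))) (XT.nd (nat_lit 312) (nat_lit 0) (nat_lit 152) (XT.nd (nat_lit 156) (nat_lit 0) (nat_lit 76) (XT.nd (nat_lit 78) (nat_lit 0) (nat_lit 0) (XT.lf (nat_lit 1900) (nat_lit 1002279368) (nat_lit 0) (nat_lit 1010660754) (nat_lit 1900) (nat_lit 1002279368) (nat_lit 522) (nat_lit 1) (nat_lit 497) (nat_lit 0) (nat_lit 522) (nat_lit 0) (nat_lit 340) (nat_lit 400) (nat_lit 400)) (XT.lf (nat_lit 1900) (nat_lit 3963163316) (nat_lit 76) (nat_lit 1004011671) (nat_lit 0) (nat_lit 1004011671) (nat_lit 522) (nat_lit 1) (nat_lit 498) (nat_lit 1) (nat_lit 497) (nat_lit 0) (nat_lit 341) (nat_lit 400) (nat_lit 399))) (XT.nd (nat_lit 78) (nat_lit 0) (nat_lit 0) (XT.lf (nat_lit 1900) (nat_lit 1945932053) (nat_lit 0) (nat_lit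 2020717407) (nat_lit 1824) (nat_lit 1945932053) (nat_lit 523) (nat_lit 1) (nat_lit 498) (nat_lit 1) (nat_lit 522) (nat_lit 1) (nat_lit 342) (nat_lit 400) (nat_lit 398)) (XT.lf (nat_lit 1900) (nat_lit 3808668726) (nat_lit 76) (nat_lit 1023098046) (nat_lit 0) (nat_lit 1023098046) (nat_lit 523) (nat_lit 1) (nat_lit 499) (nat_lit 1) (nat_lit 498) (nat_lit 1) (nat_lit 343) (nat_lit 400) (nat_lit 397)))) (XT.nd (nat_lit 156) (nat_lit 0) (nat_lit 76) (XT.nd (nat_lit 78) (nat_lit 0) (nat_lit 0) (XT.lf (nat_lit 1900) (nat_lit 1850940828) (nat_lit 0) (nat_lit 2095903599) (nat_lit 1824) (nat_lit 1850940828) (nat_lit 524) (nat_lit 1) (nat_lit 499) (nat_lit 1) (nat_lit 523) (nat_lit 1) (nat_lit 344) (nat_lit 400) (nat_lit 396)) (XT.lf (nat_lit 1900) (nat_lit 3583399612) (nat_lit 76) (nat_lit 1079077459) (nat_lit 0) (nat_lit 1079077459) (nat_lit 524) (nat_lit 1) (nat_lit 500) (nat_lit 1) (nat_lit 499) (nat_lit 1) (nat_lit 345)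 (nat_lit 400) (nat_lit 395))) (XT.nd (nat_lit 78) (nat_lit 0) (nat_lit 0) (XT.lf (nat_lit 1900) (nat_lit 1721754810) (nat_lit 0) (nat_lit 2242451432) (nat_lit 1824) (nat_lit 1721754810) (nat_lit 525) (nat_lit 1) (nat_lit 500) (nat_lit 1) (nat_lit 524) (nat_lit 1) (nat_lit 346) (nat_lit 400) (nat_lit 394)) (XT.lf (nat_lit 1900) (nat_lit 3291609602) (nat_lit 76) (nat_lit 1169779384) (nat_lit 0) (nat_lit 1169779384) (nat_lit 525) (nat_lit 1) (nat_lit 501) (nat_lit 1) (nat_lit 500) (nat_lit 1) (nat_lit 347) (nat_lit 400) (nat_lit 393)))))) (XT.nd (nat_lit 546) (nat_lit 1444) (nat_lit 0) (XT.nd (nat_lit 234) (nat_lit 0) (nat_lit 76) (XT.nd (nat_lit 78) (nat_lit 0) (nat_lit 0) (XT.lf (nat_lit 1900) (nat_lit 1560444637) (nat_lit 0) (nat_lit 2456133352) (nat_lit 1824) (nat_lit 1560444637) (nat_lit 526) (nat_lit 1) (nat_lit 501) (nat_lit 1) (nat_lit 525) (nat_lit 1) (nat_lit 348) (nat_lit 400) (nat_lit 392)) (XT.nd (nat_lit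 78) (nat_lit 0) (nat_lit 76) (XT.lf (nat_lit 1900) (nat_lit 2937357633) (nat_lit 76) (nat_lit 1293132046) (nat_lit 0) (nat_lit 1293132046) (nat_lit 526) (nat_lit 1) (nat_lit 502) (nat_lit 1) (nat_lit 501) (nat_lit 1) (nat_lit 349) (nat_lit 400) (nat_lit 391)) (XT.lf (nat_lit 1900) (nat_lit 1368985975) (nat_lit 0) (nat_lit 2732914524) (nat_lit 1824) (nat_lit 1368985975) (nat_lit 527) (nat_lit 1) (nat_lit 502) (nat_lit 1) (nat_lit 526) (nat_lit 1) (nat_lit 350) (nat_lit 400) (nat_lit 390)))) (XT.nd (nat_lit 156) (nat_lit 0) (nat_lit 76) (XT.nd (nat_lit 78) (nat_lit 0) (nat_lit 76) (XT.lf (nat_lit 1900) (nat_lit 2524516092) (nat_lit 76) (nat_lit 1447158307) (nat_lit 0) (nat_lit 1447158307) (nat_lit 527) (nat_lit 1) (nat_lit 503) (nat_lit 1) (nat_lit 502) (nat_lit 1) (nat_lit 351) (nat_lit 400) (nat_lit 389)) (XT.lf (nat_lit 1900) (nat_lit 1149263496) (nat_lit 0) (nat_lit 3068944792) (nat_lit 1824) (nat_lit 1149263496)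 (nat_lit 528) (nat_lit 1) (nat_lit 503) (nat_lit 1) (nat_lit 527) (nat_lit 1) (nat_lit 352) (nat_lit 400) (nat_lit 388))) (XT.nd (nat_lit 78) (nat_lit 0) (nat_lit 76) (XT.lf (nat_lit 1900) (nat_lit 2056778625) (nat_lit 76) (nat_lit 1629971711) (nat_lit 0) (nat_lit 1629971711) (nat_lit 528) (nat_lit 1) (nat_lit 504) (nat_lit 1) (nat_lit 503) (nat_lit 1) (nat_lit 353) (nat_lit 400) (nat_lit 387)) (XT.lf (nat_lit 1900) (nat_lit 903074685) (nat_lit 0) (nat_lit 3460550953) (nat_lit 1824) (nat_lit 903074685) (nat_lit 529) (nat_lit 1) (nat_lit 504) (nat_lit 1) (nat_lit 528) (nat_lit 1) (nat_lit 354) (nat_lit 400) (nat_lit 386))))) (XT.nd (nat_lit 312) (nat_lit 1672) (nat_lit 0) (XT.nd (nat_lit 156) (nat_lit 0) (nat_lit 76) (XT.nd (nat_lit 78) (nat_lit 0) (nat_lit 76) (XT.lf (nat_lit 1900) (nat_lit 1537667634) (nat_lit 76) (nat_lit 1839772688) (nat_lit 0) (nat_lit 1839772688) (nat_lit 529) (nat_lit 1) (nat_lit 505) (nat_lit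 1) (nat_lit 504) (nat_lit 1) (nat_lit 355) (nat_lit 400) (nat_lit 385)) (XT.lf (nat_lit 1900) (nat_lit 632133507) (nat_lit 0) (nat_lit 3904229352) (nat_lit 1824) (nat_lit 632133507) (nat_lit 530) (nat_lit 1) (nat_lit 505) (nat_lit 1) (nat_lit 529) (nat_lit 1) (nat_lit 356) (nat_lit 400) (nat_lit 384))) (XT.nd (nat_lit 78) (nat_lit 0) (nat_lit 76) (XT.lf (nat_lit 1900) (nat_lit 970541473) (nat_lit 76) (nat_lit 2074844918) (nat_lit 0) (nat_lit 2074844918) (nat_lit 530) (nat_lit 1) (nat_lit 506) (nat_lit 1) (nat_lit 505) (nat_lit 1) (nat_lit 357) (nat_lit 400) (nat_lit 383)) (XT.lf (nat_lit 1900) (nat_lit 338073914) (nat_lit 0) (nat_lit 4396638768) (nat_lit 1824) (nat_lit 338073914) (nat_lit 531) (nat_lit 1) (nat_lit 506) (nat_lit 1) (nat_lit 530) (nat_lit 1) (nat_lit 358) (nat_lit 400) (nat_lit 382)))) (XT.nd (nat_lit 156) (nat_lit 1824) (nat_lit 0) (XT.nd (nat_lit 78) (nat_lit 0) (nat_lit 76) (XT.lf (nat_lit 1900)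 (nat_lit 358601354) (nat_lit 76) (nat_lit 2333551829) (nat_lit 0) (nat_lit 2333551829) (nat_lit 531) (nat_lit 1) (nat_lit 507) (nat_lit 1) (nat_lit 506) (nat_lit 1) (nat_lit 359) (nat_lit 400) (nat_lit 381)) (XT.lf (nat_lit 1900) (nat_lit 22453218) (nat_lit 0) (nat_lit 4934593592) (nat_lit 1824) (nat_lit 22453218) (nat_lit 532) (nat_lit 1) (nat_lit 507) (nat_lit 1) (nat_lit 531) (nat_lit 1) (nat_lit 360) (nat_lit 400) (nat_lit 380))) (XT.nd (nat_lit 78) (nat_lit 0) (nat_lit 0) (XT.lf (nat_lit 1976) (nat_lit 2321147217) (nat_lit 0) (nat_lit 291231714) (nat_lit 1900) (nat_lit 2321147217) (nat_lit 508) (nat_lit 1) (nat_lit 482) (nat_lit 1) (nat_lit 507) (nat_lit 1) (nat_lit 361) (nat_lit 400) (nat_lit 379)) (XT.lf (nat_lit 1976) (nat_lit 4266036971) (nat_lit 76) (nat_lit 311183853) (nat_lit 0) (nat_lit 311183853) (nat_lit 508) (nat_lit 1) (nat_lit 483) (nat_lit 1) (nat_lit 482) (nat_lit 1) (nat_lit 362) (nat_lit 400)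 (nat_lit 378))))))) (XT.nd (nat_lit 1170) (nat_lit 6536) (nat_lit 0) (XT.nd (nat_lit 546) (nat_lit 4408) (nat_lit 0) (XT.nd (nat_lit 234) (nat_lit 1976) (nat_lit 0) (XT.nd (nat_lit 78) (nat_lit 0) (nat_lit 0) (XT.lf (nat_lit 1976) (nat_lit 1934452601) (nat_lit 0) (nat_lit 974708778) (nat_lit 1900) (nat_lit 1934452601) (nat_lit 509) (nat_lit 1) (nat_lit 483) (nat_lit 1) (nat_lit 508) (nat_lit 1) (nat_lit 363) (nat_lit 400) (nat_lit 377)) (XT.nd (nat_lit 78) (nat_lit 0) (nat_lit 76) (XT.lf (nat_lit 1976) (nat_lit 3473147774) (nat_lit 76) (nat_lit 663214011) (nat_lit 0) (nat_lit 663214011) (nat_lit 509) (nat_lit 1) (nat_lit 484) (nat_lit 1) (nat_lit 483) (nat_lit 1) (nat_lit 364) (nat_lit 400) (nat_lit 376)) (XT.lf (nat_lit 76) (nat_lit 1531074658) (nat_lit 0) (nat_lit 1693800791) (nat_lit 1900) (nat_lit 1531074658) (nat_lit 485) (nat_lit 1) (nat_lit 484) (nat_lit 1) (nat_lit 509) (nat_lit 1) (nat_lit 365) (nat_lit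 400) (nat_lit 375)))) (XT.nd (nat_lit 156) (nat_lit 912) (nat_lit 0) (XT.nd (nat_lit 78) (nat_lit 0) (nat_lit 0) (XT.lf (nat_lit 1216) (nat_lit 2648066226) (nat_lit 0) (nat_lit 1032447549) (nat_lit 1140) (nat_lit 1032447549) (nat_lit 485) (nat_lit 1) (nat_lit 469) (nat_lit 1) (nat_lit 484) (nat_lit 1) (nat_lit 366) (nat_lit 400) (nat_lit 374)) (XT.lf (nat_lit 76) (nat_lit 1112282775) (nat_lit 0) (nat_lit 2445906051) (nat_lit 1216) (nat_lit 1112282775) (nat_lit 470) (nat_lit 1) (nat_lit 469) (nat_lit 1) (nat_lit 485) (nat_lit 1) (nat_lit 367) (nat_lit 400) (nat_lit 373))) (XT.nd (nat_lit 78) (nat_lit 0) (nat_lit 0) (XT.lf (nat_lit 988) (nat_lit 1793277321) (nat_lit 0) (nat_lit 1417611083) (nat_lit 912) (nat_lit 1417611083) (nat_lit 470) (nat_lit 1) (nat_lit 457) (nat_lit 1) (nat_lit 469) (nat_lit 1) (nat_lit 368) (nat_lit 400) (nat_lit 372)) (XT.lf (nat_lit 76) (nat_lit 679284857) (nat_lit 0) (nat_lit 3228547780)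 (nat_lit 988) (nat_lit 679284857) (nat_lit 458) (nat_lit 1) (nat_lit 457) (nat_lit 1) (nat_lit 470) (nat_lit 1) (nat_lit 369) (nat_lit 400) (nat_lit 371))))) (XT.nd (nat_lit 312) (nat_lit 1672) (nat_lit 0) (XT.nd (nat_lit 156) (nat_lit 1824) (nat_lit 0) (XT.nd (nat_lit 78) (nat_lit 0) (nat_lit 0) (XT.lf (nat_lit 988) (nat_lit 911145342) (nat_lit 0) (nat_lit 1817492546) (nat_lit 912) (nat_lit 1817492546) (nat_lit 458) (nat_lit 1) (nat_lit 445) (nat_lit 1) (nat_lit 457) (nat_lit 1) (nat_lit 370) (nat_lit 400) (nat_lit 370)) (XT.lf (nat_lit 76) (nat_lit 233229960) (nat_lit 0) (nat_lit 4039368806) (nat_lit 988) (nat_lit 233229960) (nat_lit 446) (nat_lit 1) (nat_lit 445) (nat_lit 1) (nat_lit 458) (nat_lit 1) (nat_lit 371) (nat_lit 400) (nat_lit 369))) (XT.nd (nat_lit 78) (nat_lit 988) (nat_lit 0) (XT.lf (nat_lit 912) (nat_lit 3919027) (nat_lit 0) (nat_lit 2230938573) (nat_lit 836) (nat_lit 2230938573) (nat_lit 446)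 (nat_lit 1) (nat_lit 434) (nat_lit 1) (nat_lit 445) (nat_lit 1) (nat_lit 372) (nat_lit 400) (nat_lit 368)) (XT.lf (nat_lit 988) (nat_lit 3979810275) (nat_lit 0) (nat_lit 223310319) (nat_lit 912) (nat_lit 223310319) (nat_lit 434) (nat_lit 1) (nat_lit 421) (nat_lit 1) (nat_lit 433) (nat_lit 1) (nat_lit 373) (nat_lit 400) (nat_lit 367)))) (XT.nd (nat_lit 156) (nat_lit 836) (nat_lit 0) (XT.nd (nat_lit 78) (nat_lit 836) (nat_lit 0) (XT.lf (nat_lit 76) (nat_lit 1736602430) (nat_lit 0) (nat_lit 914115371) (nat_lit 988) (nat_lit 1736602430) (nat_lit 422) (nat_lit 1) (nat_lit 421) (nat_lit 1) (nat_lit 434) (nat_lit 1) (nat_lit 374) (nat_lit 400) (nat_lit 366)) (XT.lf (nat_lit 912) (nat_lit 2970518969) (nat_lit 0) (nat_lit 689169768) (nat_lit 836) (nat_lit 689169768) (nat_lit 422) (nat_lit 1) (nat_lit 410) (nat_lit 1) (nat_lit 421) (nat_lit 1) (nat_lit 375) (nat_lit 400) (nat_lit 365))) (XT.nd (nat_lit 78) (nat_lit 836)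 (nat_lit 0) (XT.lf (nat_lit 76) (nat_lit 1229008676) (nat_lit 0) (nat_lit 1852747847) (nat_lit 912) (nat_lit 1229008676) (nat_lit 411) (nat_lit 1) (nat_lit 410) (nat_lit 1) (nat_lit 422) (nat_lit 1) (nat_lit 376) (nat_lit 400) (nat_lit 364)) (XT.lf (nat_lit 912) (nat_lit 1943375656) (nat_lit 0) (nat_lit 1164902081) (nat_lit 836) (nat_lit 1164902081) (nat_lit 411) (nat_lit 1) (nat_lit 399) (nat_lit 1) (nat_lit 410) (nat_lit 1) (nat_lit 377) (nat_lit 400) (nat_lit 363)))))) (XT.nd (nat_lit 624) (nat_lit 3420) (nat_lit 0) (XT.nd (nat_lit 312) (nat_lit 1520) (nat_lit 0) (XT.nd (nat_lit 156) (nat_lit 836) (nat_lit 0) (XT.nd (nat_lit 78) (nat_lit 760) (nat_lit 0) (XT.lf (nat_lit 76) (nat_lit 712977468) (nat_lit 0) (nat_lit 2810124115) (nat_lit 912) (nat_lit 712977468) (nat_lit 400) (nat_lit 1) (nat_lit 399) (nat_lit 1) (nat_lit 411) (nat_lit 1) (nat_lit 378) (nat_lit 400) (nat_lit 362)) (XT.lf (nat_lit 836) (nat_lit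 900192062) (nat_lit 0) (nat_lit 1649575592) (nat_lit 760) (nat_lit 1649575592) (nat_lit 400) (nat_lit 1) (nat_lit 389) (nat_lit 1) (nat_lit 399) (nat_lit 1) (nat_lit 379) (nat_lit 400) (nat_lit 361))) (XT.nd (nat_lit 78) (nat_lit 836) (nat_lit 0) (XT.lf (nat_lit 76) (nat_lit 189388363) (nat_lit 0) (nat_lit 3784434134) (nat_lit 836) (nat_lit 189388363) (nat_lit 390) (nat_lit 1) (nat_lit 389) (nat_lit 1) (nat_lit 400) (nat_lit 1) (nat_lit 380) (nat_lit 400) (nat_lit 360)) (XT.lf (nat_lit 76) (nat_lit 1986014573) (nat_lit 0) (nat_lit 155249190) (nat_lit 836) (nat_lit 1986014573) (nat_lit 379) (nat_lit 1) (nat_lit 378) (nat_lit 1) (nat_lit 389) (nat_lit 1) (nat_lit 381) (nat_lit 400) (nat_lit 359)))) (XT.nd (nat_lit 156) (nat_lit 760) (nat_lit 0) (XT.nd (nat_lit 78) (nat_lit 0) (nat_lit 0) (XT.lf (nat_lit 836) (nat_lit 3414571308) (nat_lit 0) (nat_lit 338681135) (nat_lit 760) (nat_lit 338681135) (nat_lit 379) (nat_lit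 1) (nat_lit 368) (nat_lit 1) (nat_lit 378) (nat_lit 1) (nat_lit 382) (nat_lit 400) (nat_lit 358)) (XT.lf (nat_lit 76) (nat_lit 1422715480) (nat_lit 0) (nat_lit 1211407501) (nat_lit 836) (nat_lit 1422715480) (nat_lit 369) (nat_lit 1) (nat_lit 368) (nat_lit 1) (nat_lit 379) (nat_lit 1) (nat_lit 383) (nat_lit 400) (nat_lit 357))) (XT.nd (nat_lit 78) (nat_lit 0) (nat_lit 0) (XT.lf (nat_lit 836) (nat_lit 2279480443) (nat_lit 0) (nat_lit 871397386) (nat_lit 760) (nat_lit 871397386) (nat_lit 369) (nat_lit 1) (nat_lit 358) (nat_lit 1) (nat_lit 368) (nat_lit 1) (nat_lit 384) (nat_lit 400) (nat_lit 356)) (XT.lf (nat_lit 76) (nat_lit 854765548) (nat_lit 0) (nat_lit 2278562585) (nat_lit 836) (nat_lit 854765548) (nat_lit 359) (nat_lit 1) (nat_lit 358) (nat_lit 1) (nat_lit 369) (nat_lit 1) (nat_lit 385) (nat_lit 400) (nat_lit 355))))) (XT.nd (nat_lit 312) (nat_lit 1292) (nat_lit 0) (XT.nd (nat_lit 156) (nat_lit 1444) (nat_lit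 0) (XT.nd (nat_lit 78) (nat_lit 0) (nat_lit 0) (XT.lf (nat_lit 760) (nat_lit 1135766684) (nat_lit 0) (nat_lit 1409260879) (nat_lit 684) (nat_lit 1409260879) (nat_lit 359) (nat_lit 1) (nat_lit 349) (nat_lit 1) (nat_lit 358) (nat_lit 1) (nat_lit 386) (nat_lit 400) (nat_lit 354)) (XT.lf (nat_lit 76) (nat_lit 282865460) (nat_lit 0) (nat_lit 3355267646) (nat_lit 760) (nat_lit 282865460) (nat_lit 350) (nat_lit 1) (nat_lit 349) (nat_lit 1) (nat_lit 359) (nat_lit 1) (nat_lit 387) (nat_lit 400) (nat_lit 353))) (XT.nd (nat_lit 78) (nat_lit 684) (nat_lit 0) (XT.lf (nat_lit 76) (nat_lit 1936462103) (nat_lit 0) (nat_lit 15002426) (nat_lit 760) (nat_lit 1936462103) (nat_lit 340) (nat_lit 1) (nat_lit 339) (nat_lit 1) (nat_lit 349) (nat_lit 1) (nat_lit 388) (nat_lit 400) (nat_lit 352)) (XT.lf (nat_lit 760) (nat_lit 3274560034) (nat_lit 0) (nat_lit 290398336) (nat_lit 684) (nat_lit 290398336) (nat_lit 340) (nat_lit 1) (nat_lit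 330) (nat_lit 1) (nat_lit 339) (nat_lit 1) (nat_lit 389) (nat_lit 400) (nat_lit 351)))) (XT.nd (nat_lit 156) (nat_lit 608) (nat_lit 0) (XT.nd (nat_lit 78) (nat_lit 684) (nat_lit 0) (XT.lf (nat_lit 76) (nat_lit 1333121332) (nat_lit 0) (nat_lit 1156757532) (nat_lit 760) (nat_lit 1333121332) (nat_lit 331) (nat_lit 1) (nat_lit 330) (nat_lit 1) (nat_lit 340) (nat_lit 1) (nat_lit 390) (nat_lit 400) (nat_lit 350)) (XT.lf (nat_lit 760) (nat_lit 2062242838) (nat_lit 0) (nat_lit 864443033) (nat_lit 684) (nat_lit 864443033) (nat_lit 331) (nat_lit 1) (nat_lit 321) (nat_lit 1) (nat_lit 330) (nat_lit 1) (nat_lit 391) (nat_lit 400) (nat_lit 349))) (XT.nd (nat_lit 78) (nat_lit 608) (nat_lit 0) (XT.lf (nat_lit 76) (nat_lit 728214454) (nat_lit 0) (nat_lit 2303185844) (nat_lit 760) (nat_lit 728214454) (nat_lit 322) (nat_lit 1) (nat_lit 321) (nat_lit 1) (nat_lit 331) (nat_lit 1) (nat_lit 392) (nat_lit 400) (nat_lit 348)) (XT.lf (nat_lit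 684) (nat_lit 847341145) (nat_lit 0) (nat_lit 1440540135) (nat_lit 608) (nat_lit 1440540135) (nat_lit 322) (nat_lit 1) (nat_lit 313) (nat_lit 1) (nat_lit 321) (nat_lit 1) (nat_lit 393) (nat_lit 400) (nat_lit 347))))))))
noncomputable def ec29 : XT := (XT.nd (nat_lit 55536) (nat_lit 0) (nat_lit 14364) (XT.nd (nat_lit 1170) (nat_lit 2508) (nat_lit 0) (XT.nd (nat_lit 546) (nat_lit 2888) (nat_lit 0) (XT.nd (nat_lit 234) (nat_lit 1140) (nat_lit 0) (XT.nd (nat_lit 78) (nat_lit 1292) (nat_lit 0) (XT.lf (nat_lit 76) (nat_lit 122292374) (nat_lit 0) (nat_lit 3453144935) (nat_lit 684) (nat_lit 122292374) (nat_lit 314) (nat_lit 1) (nat_lit 313) (nat_lit 1) (nat_lit 322) (nat_lit 1) (nat_lit 394) (nat_lit 400) (nat_lit 346)) (XT.nd (nat_lit 78) (nat_lit 608) (nat_lit 0) (XT.lf (nat_lit 76) (nat_lit 1651457925) (nat_lit 0) (nat_lit 364230521) (nat_lit 684) (nat_lit 1651457925) (nat_lit 305) (nat_lit 1) (nat_lit 304) (nat_lit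 1) (nat_lit 313) (nat_lit 1) (nat_lit 395) (nat_lit 400) (nat_lit 345)) (XT.lf (nat_lit 684) (nat_lit 2675173318) (nat_lit 0) (nat_lit 480939973) (nat_lit 608) (nat_lit 480939973) (nat_lit 305) (nat_lit 1) (nat_lit 296) (nat_lit 1) (nat_lit 304) (nat_lit 1) (nat_lit 396) (nat_lit 400) (nat_lit 344)))) (XT.nd (nat_lit 156) (nat_lit 532) (nat_lit 0) (XT.nd (nat_lit 78) (nat_lit 608) (nat_lit 0) (XT.lf (nat_lit 76) (nat_lit 1021011541) (nat_lit 0) (nat_lit 1565179755) (nat_lit 684) (nat_lit 1021011541) (nat_lit 297) (nat_lit 1) (nat_lit 296) (nat_lit 1) (nat_lit 305) (nat_lit 1) (nat_lit 397) (nat_lit 400) (nat_lit 343)) (XT.lf (nat_lit 684) (nat_lit 1410990323) (nat_lit 0) (nat_lit 1083372742) (nat_lit 608) (nat_lit 1083372742) (nat_lit 297) (nat_lit 1) (nat_lit 288) (nat_lit 1) (nat_lit 296) (nat_lit 1) (nat_lit 398) (nat_lit 400) (nat_lit 342))) (XT.nd (nat_lit 78) (nat_lit 532) (nat_lit 0) (XT.lf (nat_lit 76)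 (nat_lit 391493224) (nat_lit 0) (nat_lit 2765676893) (nat_lit 684) (nat_lit 391493224) (nat_lit 289) (nat_lit 1) (nat_lit 288) (nat_lit 1) (nat_lit 297) (nat_lit 1) (nat_lit 399) (nat_lit 400) (nat_lit 341)) (XT.lf (nat_lit 608) (nat_lit 149101131) (nat_lit 0) (nat_lit 1685351510) (nat_lit 532) (nat_lit 1685351510) (nat_lit 289) (nat_lit 1) (nat_lit 281) (nat_lit 1) (nat_lit 288) (nat_lit 1) (nat_lit 400) (nat_lit 400) (nat_lit 340))))) (XT.nd (nat_lit 312) (nat_lit 1672) (nat_lit 0) (XT.nd (nat_lit 156) (nat_lit 532) (nat_lit 0) (XT.nd (nat_lit 78) (nat_lit 0) (nat_lit 0) (XT.lf (nat_lit 684) (nat_lit 3021139737) (nat_lit 0) (nat_lit 235114195) (nat_lit 608) (nat_lit 235114195) (nat_lit 281) (nat_lit 1) (nat_lit 272) (nat_lit 1) (nat_lit 280) (nat_lit 1) (nat_lit 401) (nat_lit 400) (nat_lit 339)) (XT.lf (nat_lit 76) (nat_lit 1183983045) (nat_lit 0) (nat_lit 1095112294) (nat_lit 684) (nat_lit 1183983045) (nat_lit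 273) (nat_lit 1) (nat_lit 272) (nat_lit 1) (nat_lit 281) (nat_lit 1) (nat_lit 402) (nat_lit 400) (nat_lit 338))) (XT.nd (nat_lit 78) (nat_lit 0) (nat_lit 0) (XT.lf (nat_lit 608) (nat_lit 1720395083) (nat_lit 0) (nat_lit 857403495) (nat_lit 532) (nat_lit 857403495) (nat_lit 273) (nat_lit 1) (nat_lit 265) (nat_lit 1) (nat_lit 272) (nat_lit 1) (nat_lit 403) (nat_lit 400) (nat_lit 337)) (XT.lf (nat_lit 76) (nat_lit 537064101) (nat_lit 0) (nat_lit 2333520756) (nat_lit 608) (nat_lit 537064101) (nat_lit 266) (nat_lit 1) (nat_lit 265) (nat_lit 1) (nat_lit 273) (nat_lit 1) (nat_lit 404) (nat_lit 400) (nat_lit 336)))) (XT.nd (nat_lit 156) (nat_lit 532) (nat_lit 0) (XT.nd (nat_lit 78) (nat_lit 608) (nat_lit 0) (XT.lf (nat_lit 608) (nat_lit 425181110) (nat_lit 0) (nat_lit 1477576983) (nat_lit 532) (nat_lit 1477576983) (nat_lit 266) (nat_lit 1) (nat_lit 258) (nat_lit 1) (nat_lit 265) (nat_lit 1) (nat_lit 405) (nat_lit 400)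 (nat_lit 335)) (XT.lf (nat_lit 608) (nat_lit 3140995486) (nat_lit 0) (nat_lit 106225170) (nat_lit 532) (nat_lit 106225170) (nat_lit 258) (nat_lit 1) (nat_lit 250) (nat_lit 1) (nat_lit 257) (nat_lit 1) (nat_lit 406) (nat_lit 400) (nat_lit 334))) (XT.nd (nat_lit 78) (nat_lit 532) (nat_lit 0) (XT.lf (nat_lit 76) (nat_lit 1237058082) (nat_lit 0) (nat_lit 852505654) (nat_lit 608) (nat_lit 1237058082) (nat_lit 251) (nat_lit 1) (nat_lit 250) (nat_lit 1) (nat_lit 258) (nat_lit 1) (nat_lit 407) (nat_lit 400) (nat_lit 333)) (XT.lf (nat_lit 608) (nat_lit 1814704318) (nat_lit 0) (nat_lit 742754740) (nat_lit 532) (nat_lit 742754740) (nat_lit 251) (nat_lit 1) (nat_lit 243) (nat_lit 1) (nat_lit 250) (nat_lit 1) (nat_lit 408) (nat_lit 400) (nat_lit 332)))))) (XT.nd (nat_lit 624) (nat_lit 0) (nat_lit 0) (XT.nd (nat_lit 312) (nat_lit 1444) (nat_lit 0) (XT.nd (nat_lit 156) (nat_lit 608) (nat_lit 0) (XT.nd (nat_lit 78) (nat_lit 456)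 (nat_lit 0) (XT.lf (nat_lit 76) (nat_lit 578102103) (nat_lit 0) (nat_lit 2117883732) (nat_lit 608) (nat_lit 578102103) (nat_lit 244) (nat_lit 1) (nat_lit 243) (nat_lit 1) (nat_lit 251) (nat_lit 1) (nat_lit 409) (nat_lit 400) (nat_lit 331)) (XT.lf (nat_lit 532) (nat_lit 496682416) (nat_lit 0) (nat_lit 1375759364) (nat_lit 456) (nat_lit 1375759364) (nat_lit 244) (nat_lit 1) (nat_lit 237) (nat_lit 1) (nat_lit 243) (nat_lit 1) (nat_lit 410) (nat_lit 400) (nat_lit 330))) (XT.nd (nat_lit 78) (nat_lit 0) (nat_lit 0) (XT.lf (nat_lit 608) (nat_lit 3070528533) (nat_lit 0) (nat_lit 76094493) (nat_lit 532) (nat_lit 76094493) (nat_lit 237) (nat_lit 1) (nat_lit 229) (nat_lit 1) (nat_lit 236) (nat_lit 1) (nat_lit 411) (nat_lit 400) (nat_lit 329)) (XT.lf (nat_lit 76) (nat_lit 1197692323) (nat_lit 0) (nat_lit 801886978) (nat_lit 608) (nat_lit 1197692323) (nat_lit 230) (nat_lit 1) (nat_lit 229) (nat_lit 1) (nat_lit 237) (nat_lit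 1) (nat_lit 412) (nat_lit 400) (nat_lit 328)))) (XT.nd (nat_lit 156) (nat_lit 988) (nat_lit 0) (XT.nd (nat_lit 78) (nat_lit 0) (nat_lit 0) (XT.lf (nat_lit 532) (nat_lit 1728203304) (nat_lit 0) (nat_lit 722008961) (nat_lit 456) (nat_lit 722008961) (nat_lit 230) (nat_lit 1) (nat_lit 223) (nat_lit 1) (nat_lit 229) (nat_lit 1) (nat_lit 413) (nat_lit 400) (nat_lit 327)) (XT.lf (nat_lit 76) (nat_lit 531329446) (nat_lit 0) (nat_lit 2084778706) (nat_lit 532) (nat_lit 531329446) (nat_lit 224) (nat_lit 1) (nat_lit 223) (nat_lit 1) (nat_lit 230) (nat_lit 1) (nat_lit 414) (nat_lit 400) (nat_lit 326))) (XT.nd (nat_lit 78) (nat_lit 532) (nat_lit 0) (XT.lf (nat_lit 532) (nat_lit 396448723) (nat_lit 0) (nat_lit 1363211133) (nat_lit 456) (nat_lit 1363211133) (nat_lit 224) (nat_lit 1) (nat_lit 217) (nat_lit 1) (nat_lit 223) (nat_lit 1) (nat_lit 415) (nat_lit 400) (nat_lit 325)) (XT.lf (nat_lit 532) (nat_lit 2841049115) (nat_lit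 0) (nat_lit 128808955) (nat_lit 456) (nat_lit 128808955) (nat_lit 217) (nat_lit 1) (nat_lit 210) (nat_lit 1) (nat_lit 216) (nat_lit 1) (nat_lit 416) (nat_lit 400) (nat_lit 324))))) (XT.nd (nat_lit 53430) (nat_lit 0) (nat_lit 21888) (XT.nd (nat_lit 53274) (nat_lit 0) (nat_lit 21812) (XT.nd (nat_lit 53196) (nat_lit 0) (nat_lit 21812) (XT.lf (nat_lit 76) (nat_lit 1081155059) (nat_lit 0) (nat_lit 912208140) (nat_lit 532) (nat_lit 1081155059) (nat_lit 211) (nat_lit 1) (nat_lit 210) (nat_lit 1) (nat_lit 217) (nat_lit 1) (nat_lit 417) (nat_lit 400) (nat_lit 323)) (XT.lf (nat_lit 1900) (nat_lit 1022324955) (nat_lit 0) (nat_lit 1030873970) (nat_lit 1900) (nat_lit 1022324955) (nat_lit 522) (nat_lit 1) (nat_lit 497) (nat_lit 0) (nat_lit 522) (nat_lit 0) (nat_lit 338) (nat_lit 401) (nat_lit 401))) (XT.nd (nat_lit 78) (nat_lit 0) (nat_lit 76) (XT.lf (nat_lit 1900) (nat_lit 4042426582) (nat_lit 76) (nat_lit 1024091904) (nat_lit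 0) (nat_lit 1024091904) (nat_lit 522) (nat_lit 1) (nat_lit 498) (nat_lit 1) (nat_lit 497) (nat_lit 0) (nat_lit 339) (nat_lit 401) (nat_lit 400)) (XT.lf (nat_lit 1900) (nat_lit 1984850694) (nat_lit 0) (nat_lit 2061131755) (nat_lit 1824) (nat_lit 1984850694) (nat_lit 523) (nat_lit 1) (nat_lit 498) (nat_lit 1) (nat_lit 522) (nat_lit 1) (nat_lit 340) (nat_lit 401) (nat_lit 399)))) (XT.nd (nat_lit 156) (nat_lit 0) (nat_lit 76) (XT.nd (nat_lit 78) (nat_lit 0) (nat_lit 76) (XT.lf (nat_lit 1900) (nat_lit 3884842101) (nat_lit 76) (nat_lit 1043560007) (nat_lit 0) (nat_lit 1043560007) (nat_lit 523) (nat_lit 1) (nat_lit 499) (nat_lit 1) (nat_lit 498) (nat_lit 1) (nat_lit 341) (nat_lit 401) (nat_lit 398)) (XT.lf (nat_lit 1900) (nat_lit 1887959645) (nat_lit 0) (nat_lit 2137821671) (nat_lit 1824) (nat_lit 1887959645) (nat_lit 524) (nat_lit 1) (nat_lit 499) (nat_lit 1) (nat_lit 523) (nat_lit 1) (nat_lit 342) (nat_lit 401) (nat_lit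 397))) (XT.nd (nat_lit 78) (nat_lit 0) (nat_lit 76) (XT.lf (nat_lit 1900) (nat_lit 3655067604) (nat_lit 76) (nat_lit 1100659009) (nat_lit 0) (nat_lit 1100659009) (nat_lit 524) (nat_lit 1) (nat_lit 500) (nat_lit 1) (nat_lit 499) (nat_lit 1) (nat_lit 343) (nat_lit 401) (nat_lit 396)) (XT.lf (nat_lit 1900) (nat_lit 1756189907) (nat_lit 0) (nat_lit 2287300461) (nat_lit 1824) (nat_lit 1756189907) (nat_lit 525) (nat_lit 1) (nat_lit 500) (nat_lit 1) (nat_lit 524) (nat_lit 1) (nat_lit 344) (nat_lit 401) (nat_lit 395))))))) (XT.nd (nat_lit 1170) (nat_lit 6308) (nat_lit 0) (XT.nd (nat_lit 546) (nat_lit 1368) (nat_lit 0) (XT.nd (nat_lit 234) (nat_lit 0) (nat_lit 152) (XT.nd (nat_lit 78) (nat_lit 0) (nat_lit 76) (XT.lf (nat_lit 1900) (nat_lit 3357441794) (nat_lit 76) (nat_lit 1193174972) (nat_lit 0) (nat_lit 1193174972) (nat_lit 525) (nat_lit 1) (nat_lit 501) (nat_lit 1) (nat_lit 500) (nat_lit 1) (nat_lit 345) (nat_lit 401)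 (nat_lit 394)) (XT.nd (nat_lit 78) (nat_lit 0) (nat_lit 0) (XT.lf (nat_lit 1900) (nat_lit 1591653530) (nat_lit 0) (nat_lit 2505256019) (nat_lit 1824) (nat_lit 1591653530) (nat_lit 526) (nat_lit 1) (nat_lit 501) (nat_lit 1) (nat_lit 525) (nat_lit 1) (nat_lit 346) (nat_lit 401) (nat_lit 393)) (XT.lf (nat_lit 1900) (nat_lit 2996104786) (nat_lit 76) (nat_lit 1318994687) (nat_lit 0) (nat_lit 1318994687) (nat_lit 526) (nat_lit 1) (nat_lit 502) (nat_lit 1) (nat_lit 501) (nat_lit 1) (nat_lit 347) (nat_lit 401) (nat_lit 392)))) (XT.nd (nat_lit 156) (nat_lit 0) (nat_lit 76) (XT.nd (nat_lit 78) (nat_lit 0) (nat_lit 0) (XT.lf (nat_lit 1900) (nat_lit 1396365695) (nat_lit 0) (nat_lit 2787572815) (nat_lit 1824) (nat_lit 1396365695) (nat_lit 527) (nat_lit 1) (nat_lit 502) (nat_lit 1) (nat_lit 526) (nat_lit 1) (nat_lit 348) (nat_lit 401) (nat_lit 391)) (XT.lf (nat_lit 1900) (nat_lit 2575006414) (nat_lit 76) (nat_lit 1476101474)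 (nat_lit 0) (nat_lit 1476101474) (nat_lit 527) (nat_lit 1) (nat_lit 503) (nat_lit 1) (nat_lit 502) (nat_lit 1) (nat_lit 349) (nat_lit 401) (nat_lit 390))) (XT.nd (nat_lit 78) (nat_lit 0) (nat_lit 0) (XT.lf (nat_lit 1900) (nat_lit 1172248766) (nat_lit 0) (nat_lit 3130323688) (nat_lit 1824) (nat_lit 1172248766) (nat_lit 528) (nat_lit 1) (nat_lit 503) (nat_lit 1) (nat_lit 527) (nat_lit 1) (nat_lit 350) (nat_lit 401) (nat_lit 389)) (XT.lf (nat_lit 1900) (nat_lit 2097914197) (nat_lit 76) (nat_lit 1662571145) (nat_lit 0) (nat_lit 1662571145) (nat_lit 528) (nat_lit 1) (nat_lit 504) (nat_lit 1) (nat_lit 503) (nat_lit 1) (nat_lit 351) (nat_lit 401) (nat_lit 388))))) (XT.nd (nat_lit 312) (nat_lit 1672) (nat_lit 0) (XT.nd (nat_lit 156) (nat_lit 0) (nat_lit 76) (XT.nd (nat_lit 78) (nat_lit 0) (nat_lit 0) (XT.lf (nat_lit 1900) (nat_lit 921136179) (nat_lit 0) (nat_lit 3529761972) (nat_lit 1824) (nat_lit 921136179) (nat_lit 529)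 (nat_lit 1) (nat_lit 504) (nat_lit 1) (nat_lit 528) (nat_lit 1) (nat_lit 352) (nat_lit 401) (nat_lit 387)) (XT.lf (nat_lit 1900) (nat_lit 1568420987) (nat_lit 76) (nat_lit 1876568142) (nat_lit 0) (nat_lit 1876568142) (nat_lit 529) (nat_lit 1) (nat_lit 505) (nat_lit 1) (nat_lit 504) (nat_lit 1) (nat_lit 353) (nat_lit 401) (nat_lit 386))) (XT.nd (nat_lit 78) (nat_lit 0) (nat_lit 0) (XT.lf (nat_lit 1900) (nat_lit 644776177) (nat_lit 0) (nat_lit 3982313939) (nat_lit 1824) (nat_lit 644776177) (nat_lit 530) (nat_lit 1) (nat_lit 505) (nat_lit 1) (nat_lit 529) (nat_lit 1) (nat_lit 354) (nat_lit 401) (nat_lit 385)) (XT.lf (nat_lit 1900) (nat_lit 989952303) (nat_lit 76) (nat_lit 2116341816) (nat_lit 0) (nat_lit 2116341816) (nat_lit 530) (nat_lit 1) (nat_lit 506) (nat_lit 1) (nat_lit 505) (nat_lit 1) (nat_lit 355) (nat_lit 401) (nat_lit 384)))) (XT.nd (nat_lit 156) (nat_lit 1824) (nat_lit 0) (XT.nd (nat_lit 78) (nat_lit 0)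 (nat_lit 0) (XT.lf (nat_lit 1900) (nat_lit 344835392) (nat_lit 0) (nat_lit 4484571544) (nat_lit 1824) (nat_lit 344835392) (nat_lit 531) (nat_lit 1) (nat_lit 506) (nat_lit 1) (nat_lit 530) (nat_lit 1) (nat_lit 356) (nat_lit 401) (nat_lit 383)) (XT.lf (nat_lit 1900) (nat_lit 365773381) (nat_lit 76) (nat_lit 2380222865) (nat_lit 0) (nat_lit 2380222865) (nat_lit 531) (nat_lit 1) (nat_lit 507) (nat_lit 1) (nat_lit 506) (nat_lit 1) (nat_lit 357) (nat_lit 401) (nat_lit 382))) (XT.nd (nat_lit 78) (nat_lit 1900) (nat_lit 0) (XT.lf (nat_lit 1900) (nat_lit 22902283) (nat_lit 0) (nat_lit 5033285464) (nat_lit 1824) (nat_lit 22902283) (nat_lit 532) (nat_lit 1) (nat_lit 507) (nat_lit 1) (nat_lit 531) (nat_lit 1) (nat_lit 358) (nat_lit 401) (nat_lit 381)) (XT.lf (nat_lit 1976) (nat_lit 2367570162) (nat_lit 0) (nat_lit 297056348) (nat_lit 1900) (nat_lit 2367570162) (nat_lit 508) (nat_lit 1) (nat_lit 482) (nat_lit 1) (nat_lit 507)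 (nat_lit 1) (nat_lit 359) (nat_lit 401) (nat_lit 380)))))) (XT.nd (nat_lit 624) (nat_lit 4408) (nat_lit 0) (XT.nd (nat_lit 312) (nat_lit 1900) (nat_lit 0) (XT.nd (nat_lit 156) (nat_lit 0) (nat_lit 76) (XT.nd (nat_lit 78) (nat_lit 0) (nat_lit 76) (XT.lf (nat_lit 1976) (nat_lit 4351357710) (nat_lit 76) (nat_lit 317407530) (nat_lit 0) (nat_lit 317407530) (nat_lit 508) (nat_lit 1) (nat_lit 483) (nat_lit 1) (nat_lit 482) (nat_lit 1) (nat_lit 360) (nat_lit 401) (nat_lit 379)) (XT.lf (nat_lit 1976) (nat_lit 1973141653) (nat_lit 0) (nat_lit 994202954) (nat_lit 1900) (nat_lit 1973141653) (nat_lit 509) (nat_lit 1) (nat_lit 483) (nat_lit 1) (nat_lit 508) (nat_lit 1) (nat_lit 361) (nat_lit 401) (nat_lit 378))) (XT.nd (nat_lit 78) (nat_lit 0) (nat_lit 76) (XT.lf (nat_lit 1976) (nat_lit 3542610730) (nat_lit 76) (nat_lit 676478292) (nat_lit 0) (nat_lit 676478292) (nat_lit 509) (nat_lit 1) (nat_lit 484) (nat_lit 1) (nat_lit 483)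 (nat_lit 1) (nat_lit 362) (nat_lit 401) (nat_lit 377)) (XT.lf (nat_lit 76) (nat_lit 1561696151) (nat_lit 0) (nat_lit 1727676807) (nat_lit 1900) (nat_lit 1561696151) (nat_lit 485) (nat_lit 1) (nat_lit 484) (nat_lit 1) (nat_lit 509) (nat_lit 1) (nat_lit 363) (nat_lit 401) (nat_lit 376)))) (XT.nd (nat_lit 156) (nat_lit 912) (nat_lit 0) (XT.nd (nat_lit 78) (nat_lit 0) (nat_lit 0) (XT.lf (nat_lit 1216) (nat_lit 2701027551) (nat_lit 0) (nat_lit 1053096500) (nat_lit 1140) (nat_lit 1053096500) (nat_lit 485) (nat_lit 1) (nat_lit 469) (nat_lit 1) (nat_lit 484) (nat_lit 1) (nat_lit 364) (nat_lit 401) (nat_lit 375)) (XT.lf (nat_lit 76) (nat_lit 1134528430) (nat_lit 0) (nat_lit 2494824172) (nat_lit 1216) (nat_lit 1134528430) (nat_lit 470) (nat_lit 1) (nat_lit 469) (nat_lit 1) (nat_lit 485) (nat_lit 1) (nat_lit 365) (nat_lit 401) (nat_lit 374))) (XT.nd (nat_lit 78) (nat_lit 0) (nat_lit 0) (XT.lf (nat_lit 988) (nat_lit 1829142867)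 (nat_lit 0) (nat_lit 1445963305) (nat_lit 912) (nat_lit 1445963305) (nat_lit 470) (nat_lit 1) (nat_lit 457) (nat_lit 1) (nat_lit 469) (nat_lit 1) (nat_lit 366) (nat_lit 401) (nat_lit 373)) (XT.lf (nat_lit 76) (nat_lit 692870554) (nat_lit 0) (nat_lit 3293118735) (nat_lit 988) (nat_lit 692870554) (nat_lit 458) (nat_lit 1) (nat_lit 457) (nat_lit 1) (nat_lit 470) (nat_lit 1) (nat_lit 367) (nat_lit 401) (nat_lit 372))))) (XT.nd (nat_lit 312) (nat_lit 1672) (nat_lit 0) (XT.nd (nat_lit 156) (nat_lit 1824) (nat_lit 0) (XT.nd (nat_lit 78) (nat_lit 0) (nat_lit 0) (XT.lf (nat_lit 988) (nat_lit 929368249) (nat_lit 0) (nat_lit 1853842397) (nat_lit 912) (nat_lit 1853842397) (nat_lit 458) (nat_lit 1) (nat_lit 445) (nat_lit 1) (nat_lit 457) (nat_lit 1) (nat_lit 368) (nat_lit 401) (nat_lit 371)) (XT.lf (nat_lit 76) (nat_lit 237894559) (nat_lit 0) (nat_lit 4120156182) (nat_lit 988) (nat_lit 237894559) (nat_lit 446) (nat_lit 1) (nat_lit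 445) (nat_lit 1) (nat_lit 458) (nat_lit 1) (nat_lit 369) (nat_lit 401) (nat_lit 370))) (XT.nd (nat_lit 78) (nat_lit 988) (nat_lit 0) (XT.lf (nat_lit 912) (nat_lit 3997407) (nat_lit 0) (nat_lit 2275557345) (nat_lit 836) (nat_lit 2275557345) (nat_lit 446) (nat_lit 1) (nat_lit 434) (nat_lit 1) (nat_lit 445) (nat_lit 1) (nat_lit 370) (nat_lit 401) (nat_lit 369)) (XT.lf (nat_lit 988) (nat_lit 4059406480) (nat_lit 0) (nat_lit 227776525) (nat_lit 912) (nat_lit 227776525) (nat_lit 434) (nat_lit 1) (nat_lit 421) (nat_lit 1) (nat_lit 433) (nat_lit 1) (nat_lit 371) (nat_lit 401) (nat_lit 368)))) (XT.nd (nat_lit 156) (nat_lit 836) (nat_lit 0) (XT.nd (nat_lit 78) (nat_lit 836) (nat_lit 0) (XT.lf (nat_lit 76) (nat_lit 1771334479) (nat_lit 0) (nat_lit 932397678) (nat_lit 988) (nat_lit 1771334479) (nat_lit 422) (nat_lit 1) (nat_lit 421) (nat_lit 1) (nat_lit 434) (nat_lit 1) (nat_lit 372) (nat_lit 401) (nat_lit 367)) (XT.lf (nat_lit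 912) (nat_lit 3029929348) (nat_lit 0) (nat_lit 702953163) (nat_lit 836) (nat_lit 702953163) (nat_lit 422) (nat_lit 1) (nat_lit 410) (nat_lit 1) (nat_lit 421) (nat_lit 1) (nat_lit 373) (nat_lit 401) (nat_lit 366))) (XT.nd (nat_lit 78) (nat_lit 836) (nat_lit 0) (XT.lf (nat_lit 76) (nat_lit 1253588849) (nat_lit 0) (nat_lit 1889802804) (nat_lit 912) (nat_lit 1253588849) (nat_lit 411) (nat_lit 1) (nat_lit 410) (nat_lit 1) (nat_lit 422) (nat_lit 1) (nat_lit 374) (nat_lit 401) (nat_lit 365)) (XT.lf (nat_lit 912) (nat_lit 1982243169) (nat_lit 0) (nat_lit 1188200122) (nat_lit 836) (nat_lit 1188200122) (nat_lit 411) (nat_lit 1) (nat_lit 399) (nat_lit 1) (nat_lit 410) (nat_lit 1) (nat_lit 375) (nat_lit 401) (nat_lit 364))))))))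
noncomputable def ec30 : XT := (XT.nd (nat_lit 2418) (nat_lit 2964) (nat_lit 0) (XT.nd (nat_lit 1170) (nat_lit 5928) (nat_lit 0) (XT.nd (nat_lit 546) (nat_lit 2812) (nat_lit 0) (XT.nd (nat_lit 234) (nat_lit 2356) (nat_lit 0) (XT.nd (nat_lit 78) (nat_lit 760) (nat_lit 0) (XT.lf (nat_lit 76) (nat_lit 727237017) (nat_lit 0) (nat_lit 2866326597) (nat_lit 912) (nat_lit 727237017) (nat_lit 400) (nat_lit 1) (nat_lit 399) (nat_lit 1) (nat_lit 411) (nat_lit 1) (nat_lit 376) (nat_lit 401) (nat_lit 363)) (XT.nd (nat_lit 78) (nat_lit 0) (nat_lit 0) (XT.lf (nat_lit 836) (nat_lit 918195903) (nat_lit 0) (nat_lit 1682567104) (nat_lit 760) (nat_lit 1682567104) (nat_lit 400) (nat_lit 1) (nat_lit 389) (nat_lit 1) (nat_lit 399) (nat_lit 1) (nat_lit 377) (nat_lit 401) (nat_lit 362)) (XT.lf (nat_lit 76) (nat_lit 193176130) (nat_lit 0) (nat_lit 3860122816) (nat_lit 836) (nat_lit 193176130) (nat_lit 390) (nat_lit 1) (nat_lit 389) (nat_lit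 1) (nat_lit 400) (nat_lit 1) (nat_lit 378) (nat_lit 401) (nat_lit 361)))) (XT.nd (nat_lit 156) (nat_lit 760) (nat_lit 0) (XT.nd (nat_lit 78) (nat_lit 760) (nat_lit 0) (XT.lf (nat_lit 76) (nat_lit 2025734864) (nat_lit 0) (nat_lit 158354174) (nat_lit 836) (nat_lit 2025734864) (nat_lit 379) (nat_lit 1) (nat_lit 378) (nat_lit 1) (nat_lit 389) (nat_lit 1) (nat_lit 379) (nat_lit 401) (nat_lit 360)) (XT.lf (nat_lit 836) (nat_lit 3482862734) (nat_lit 0) (nat_lit 345454758) (nat_lit 760) (nat_lit 345454758) (nat_lit 379) (nat_lit 1) (nat_lit 368) (nat_lit 1) (nat_lit 378) (nat_lit 1) (nat_lit 380) (nat_lit 401) (nat_lit 359))) (XT.nd (nat_lit 78) (nat_lit 760) (nat_lit 0) (XT.lf (nat_lit 76) (nat_lit 1451169790) (nat_lit 0) (nat_lit 1235635651) (nat_lit 836) (nat_lit 1451169790) (nat_lit 369) (nat_lit 1) (nat_lit 368) (nat_lit 1) (nat_lit 379) (nat_lit 1) (nat_lit 381) (nat_lit 401) (nat_lit 358)) (XT.lf (nat_lit 836) (nat_lit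 2325070052) (nat_lit 0) (nat_lit 888825334) (nat_lit 760) (nat_lit 888825334) (nat_lit 369) (nat_lit 1) (nat_lit 358) (nat_lit 1) (nat_lit 368) (nat_lit 1) (nat_lit 382) (nat_lit 401) (nat_lit 357))))) (XT.nd (nat_lit 312) (nat_lit 1368) (nat_lit 0) (XT.nd (nat_lit 156) (nat_lit 760) (nat_lit 0) (XT.nd (nat_lit 78) (nat_lit 684) (nat_lit 0) (XT.lf (nat_lit 76) (nat_lit 871860859) (nat_lit 0) (nat_lit 2324133837) (nat_lit 836) (nat_lit 871860859) (nat_lit 359) (nat_lit 1) (nat_lit 358) (nat_lit 1) (nat_lit 369) (nat_lit 1) (nat_lit 383) (nat_lit 401) (nat_lit 356)) (XT.lf (nat_lit 760) (nat_lit 1158482017) (nat_lit 0) (nat_lit 1437446096) (nat_lit 684) (nat_lit 1437446096) (nat_lit 359) (nat_lit 1) (nat_lit 349) (nat_lit 1) (nat_lit 358) (nat_lit 1) (nat_lit 384) (nat_lit 401) (nat_lit 355))) (XT.nd (nat_lit 78) (nat_lit 760) (nat_lit 0) (XT.lf (nat_lit 76) (nat_lit 288522769) (nat_lit 0) (nat_lit 3422372999) (nat_lit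 760) (nat_lit 288522769) (nat_lit 350) (nat_lit 1) (nat_lit 349) (nat_lit 1) (nat_lit 359) (nat_lit 1) (nat_lit 385) (nat_lit 401) (nat_lit 354)) (XT.lf (nat_lit 76) (nat_lit 1975191345) (nat_lit 0) (nat_lit 15302474) (nat_lit 760) (nat_lit 1975191345) (nat_lit 340) (nat_lit 1) (nat_lit 339) (nat_lit 1) (nat_lit 349) (nat_lit 1) (nat_lit 386) (nat_lit 401) (nat_lit 353)))) (XT.nd (nat_lit 156) (nat_lit 684) (nat_lit 0) (XT.nd (nat_lit 78) (nat_lit 0) (nat_lit 0) (XT.lf (nat_lit 760) (nat_lit 3340051235) (nat_lit 0) (nat_lit 296206303) (nat_lit 684) (nat_lit 296206303) (nat_lit 340) (nat_lit 1) (nat_lit 330) (nat_lit 1) (nat_lit 339) (nat_lit 1) (nat_lit 387) (nat_lit 401) (nat_lit 352)) (XT.lf (nat_lit 76) (nat_lit 1359783758) (nat_lit 0) (nat_lit 1179892683) (nat_lit 760) (nat_lit 1359783758) (nat_lit 331) (nat_lit 1) (nat_lit 330) (nat_lit 1) (nat_lit 340) (nat_lit 1) (nat_lit 388) (nat_lit 401) (nat_lit 351)))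 (XT.nd (nat_lit 78) (nat_lit 0) (nat_lit 0) (XT.lf (nat_lit 760) (nat_lit 2103487694) (nat_lit 0) (nat_lit 881731894) (nat_lit 684) (nat_lit 881731894) (nat_lit 331) (nat_lit 1) (nat_lit 321) (nat_lit 1) (nat_lit 330) (nat_lit 1) (nat_lit 389) (nat_lit 401) (nat_lit 350)) (XT.lf (nat_lit 76) (nat_lit 742778743) (nat_lit 0) (nat_lit 2349249561) (nat_lit 760) (nat_lit 742778743) (nat_lit 322) (nat_lit 1) (nat_lit 321) (nat_lit 1) (nat_lit 331) (nat_lit 1) (nat_lit 390) (nat_lit 401) (nat_lit 349)))))) (XT.nd (nat_lit 624) (nat_lit 2888) (nat_lit 0) (XT.nd (nat_lit 312) (nat_lit 1140) (nat_lit 0) (XT.nd (nat_lit 156) (nat_lit 1292) (nat_lit 0) (XT.nd (nat_lit 78) (nat_lit 0) (nat_lit 0) (XT.lf (nat_lit 684) (nat_lit 864287968) (nat_lit 0) (nat_lit 1469350938) (nat_lit 608) (nat_lit 1469350938) (nat_lit 322) (nat_lit 1) (nat_lit 313) (nat_lit 1) (nat_lit 321) (nat_lit 1) (nat_lit 391) (nat_lit 401) (nat_lit 348)) (XT.lf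 (nat_lit 76) (nat_lit 124738221) (nat_lit 0) (nat_lit 3522207834) (nat_lit 684) (nat_lit 124738221) (nat_lit 314) (nat_lit 1) (nat_lit 313) (nat_lit 1) (nat_lit 322) (nat_lit 1) (nat_lit 392) (nat_lit 401) (nat_lit 347))) (XT.nd (nat_lit 78) (nat_lit 608) (nat_lit 0) (XT.lf (nat_lit 76) (nat_lit 1684487084) (nat_lit 0) (nat_lit 371515132) (nat_lit 684) (nat_lit 1684487084) (nat_lit 305) (nat_lit 1) (nat_lit 304) (nat_lit 1) (nat_lit 313) (nat_lit 1) (nat_lit 393) (nat_lit 401) (nat_lit 346)) (XT.lf (nat_lit 684) (nat_lit 2728676785) (nat_lit 0) (nat_lit 490558773) (nat_lit 608) (nat_lit 490558773) (nat_lit 305) (nat_lit 1) (nat_lit 296) (nat_lit 1) (nat_lit 304) (nat_lit 1) (nat_lit 394) (nat_lit 401) (nat_lit 345)))) (XT.nd (nat_lit 156) (nat_lit 532) (nat_lit 0) (XT.nd (nat_lit 78) (nat_lit 608) (nat_lit 0) (XT.lf (nat_lit 76) (nat_lit 1041431772) (nat_lit 0) (nat_lit 1596483351) (nat_lit 684) (nat_lit 1041431772)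 (nat_lit 297) (nat_lit 1) (nat_lit 296) (nat_lit 1) (nat_lit 305) (nat_lit 1) (nat_lit 395) (nat_lit 401) (nat_lit 344)) (XT.lf (nat_lit 684) (nat_lit 1439210130) (nat_lit 0) (nat_lit 1105040197) (nat_lit 608) (nat_lit 1105040197) (nat_lit 297) (nat_lit 1) (nat_lit 288) (nat_lit 1) (nat_lit 296) (nat_lit 1) (nat_lit 396) (nat_lit 401) (nat_lit 343))) (XT.nd (nat_lit 78) (nat_lit 532) (nat_lit 0) (XT.lf (nat_lit 76) (nat_lit 399323088) (nat_lit 0) (nat_lit 2820990431) (nat_lit 684) (nat_lit 399323088) (nat_lit 289) (nat_lit 1) (nat_lit 288) (nat_lit 1) (nat_lit 297) (nat_lit 1) (nat_lit 397) (nat_lit 401) (nat_lit 342)) (XT.lf (nat_lit 608) (nat_lit 152083154) (nat_lit 0) (nat_lit 1719058541) (nat_lit 532) (nat_lit 1719058541) (nat_lit 289) (nat_lit 1) (nat_lit 281) (nat_lit 1) (nat_lit 288) (nat_lit 1) (nat_lit 398) (nat_lit 401) (nat_lit 341))))) (XT.nd (nat_lit 312) (nat_lit 1672) (nat_lit 0) (XT.nd (nat_lit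 156) (nat_lit 532) (nat_lit 0) (XT.nd (nat_lit 78) (nat_lit 0) (nat_lit 0) (XT.lf (nat_lit 684) (nat_lit 3081562532) (nat_lit 0) (nat_lit 239816479) (nat_lit 608) (nat_lit 239816479) (nat_lit 281) (nat_lit 1) (nat_lit 272) (nat_lit 1) (nat_lit 280) (nat_lit 1) (nat_lit 399) (nat_lit 401) (nat_lit 340)) (XT.lf (nat_lit 76) (nat_lit 1207662706) (nat_lit 0) (nat_lit 1117014540) (nat_lit 684) (nat_lit 1207662706) (nat_lit 273) (nat_lit 1) (nat_lit 272) (nat_lit 1) (nat_lit 281) (nat_lit 1) (nat_lit 400) (nat_lit 401) (nat_lit 339))) (XT.nd (nat_lit 78) (nat_lit 0) (nat_lit 0) (XT.lf (nat_lit 608) (nat_lit 1754802985) (nat_lit 0) (nat_lit 874551565) (nat_lit 532) (nat_lit 874551565) (nat_lit 273) (nat_lit 1) (nat_lit 265) (nat_lit 1) (nat_lit 272) (nat_lit 1) (nat_lit 401) (nat_lit 401) (nat_lit 338)) (XT.lf (nat_lit 76) (nat_lit 547805383) (nat_lit 0) (nat_lit 2380191171) (nat_lit 608) (nat_lit 547805383) (nat_lit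 266) (nat_lit 1) (nat_lit 265) (nat_lit 1) (nat_lit 273) (nat_lit 1) (nat_lit 402) (nat_lit 401) (nat_lit 337)))) (XT.nd (nat_lit 156) (nat_lit 532) (nat_lit 0) (XT.nd (nat_lit 78) (nat_lit 608) (nat_lit 0) (XT.lf (nat_lit 608) (nat_lit 433684733) (nat_lit 0) (nat_lit 1507128523) (nat_lit 532) (nat_lit 1507128523) (nat_lit 266) (nat_lit 1) (nat_lit 258) (nat_lit 1) (nat_lit 265) (nat_lit 1) (nat_lit 403) (nat_lit 401) (nat_lit 336)) (XT.lf (nat_lit 608) (nat_lit 3203815396) (nat_lit 0) (nat_lit 108349673) (nat_lit 532) (nat_lit 108349673) (nat_lit 258) (nat_lit 1) (nat_lit 250) (nat_lit 1) (nat_lit 257) (nat_lit 1) (nat_lit 404) (nat_lit 401) (nat_lit 335))) (XT.nd (nat_lit 78) (nat_lit 532) (nat_lit 0) (XT.lf (nat_lit 76) (nat_lit 1261799244) (nat_lit 0) (nat_lit 869555767) (nat_lit 608) (nat_lit 1261799244) (nat_lit 251) (nat_lit 1) (nat_lit 250) (nat_lit 1) (nat_lit 258) (nat_lit 1) (nat_lit 405) (nat_lit 401)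 (nat_lit 334)) (XT.lf (nat_lit 608) (nat_lit 1850998405) (nat_lit 0) (nat_lit 757609835) (nat_lit 532) (nat_lit 757609835) (nat_lit 251) (nat_lit 1) (nat_lit 243) (nat_lit 1) (nat_lit 250) (nat_lit 1) (nat_lit 406) (nat_lit 401) (nat_lit 333))))))) (XT.nd (nat_lit 54132) (nat_lit 0) (nat_lit 22420) (XT.nd (nat_lit 546) (nat_lit 988) (nat_lit 0) (XT.nd (nat_lit 234) (nat_lit 912) (nat_lit 0) (XT.nd (nat_lit 78) (nat_lit 1064) (nat_lit 0) (XT.lf (nat_lit 76) (nat_lit 589664145) (nat_lit 0) (nat_lit 2160241406) (nat_lit 608) (nat_lit 589664145) (nat_lit 244) (nat_lit 1) (nat_lit 243) (nat_lit 1) (nat_lit 251) (nat_lit 1) (nat_lit 407) (nat_lit 401) (nat_lit 332)) (XT.nd (nat_lit 78) (nat_lit 608) (nat_lit 0) (XT.lf (nat_lit 532) (nat_lit 506616065) (nat_lit 0) (nat_lit 1403274551) (nat_lit 456) (nat_lit 1403274551) (nat_lit 244) (nat_lit 1) (nat_lit 237) (nat_lit 1) (nat_lit 243) (nat_lit 1) (nat_lit 408) (nat_lit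 401) (nat_lit 331)) (XT.lf (nat_lit 608) (nat_lit 3131939104) (nat_lit 0) (nat_lit 77616383) (nat_lit 532) (nat_lit 77616383) (nat_lit 237) (nat_lit 1) (nat_lit 229) (nat_lit 1) (nat_lit 236) (nat_lit 1) (nat_lit 409) (nat_lit 401) (nat_lit 330)))) (XT.nd (nat_lit 156) (nat_lit 456) (nat_lit 0) (XT.nd (nat_lit 78) (nat_lit 456) (nat_lit 0) (XT.lf (nat_lit 76) (nat_lit 1221646170) (nat_lit 0) (nat_lit 817924717) (nat_lit 608) (nat_lit 1221646170) (nat_lit 230) (nat_lit 1) (nat_lit 229) (nat_lit 1) (nat_lit 237) (nat_lit 1) (nat_lit 410) (nat_lit 401) (nat_lit 329)) (XT.lf (nat_lit 532) (nat_lit 1762767370) (nat_lit 0) (nat_lit 736449140) (nat_lit 456) (nat_lit 736449140) (nat_lit 230) (nat_lit 1) (nat_lit 223) (nat_lit 1) (nat_lit 229) (nat_lit 1) (nat_lit 411) (nat_lit 401) (nat_lit 328))) (XT.nd (nat_lit 78) (nat_lit 456) (nat_lit 0) (XT.lf (nat_lit 76) (nat_lit 541956035) (nat_lit 0) (nat_lit 2126474280) (nat_lit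 532) (nat_lit 541956035) (nat_lit 224) (nat_lit 1) (nat_lit 223) (nat_lit 1) (nat_lit 230) (nat_lit 1) (nat_lit 412) (nat_lit 401) (nat_lit 327)) (XT.lf (nat_lit 532) (nat_lit 404377697) (nat_lit 0) (nat_lit 1390475356) (nat_lit 456) (nat_lit 1390475356) (nat_lit 224) (nat_lit 1) (nat_lit 217) (nat_lit 1) (nat_lit 223) (nat_lit 1) (nat_lit 413) (nat_lit 401) (nat_lit 326))))) (XT.nd (nat_lit 53274) (nat_lit 0) (nat_lit 22268) (XT.nd (nat_lit 156) (nat_lit 456) (nat_lit 0) (XT.nd (nat_lit 78) (nat_lit 0) (nat_lit 0) (XT.lf (nat_lit 532) (nat_lit 2897870097) (nat_lit 0) (nat_lit 131385134) (nat_lit 456) (nat_lit 131385134) (nat_lit 217) (nat_lit 1) (nat_lit 210) (nat_lit 1) (nat_lit 216) (nat_lit 1) (nat_lit 414) (nat_lit 401) (nat_lit 325)) (XT.lf (nat_lit 76) (nat_lit 1102778160) (nat_lit 0) (nat_lit 930452303) (nat_lit 532) (nat_lit 1102778160) (nat_lit 211) (nat_lit 1) (nat_lit 210) (nat_lit 1) (nat_lit 217)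 (nat_lit 1) (nat_lit 415) (nat_lit 401) (nat_lit 324))) (XT.nd (nat_lit 78) (nat_lit 0) (nat_lit 0) (XT.lf (nat_lit 532) (nat_lit 1520695929) (nat_lit 0) (nat_lit 795521950) (nat_lit 456) (nat_lit 795521950) (nat_lit 211) (nat_lit 1) (nat_lit 204) (nat_lit 1) (nat_lit 210) (nat_lit 1) (nat_lit 416) (nat_lit 401) (nat_lit 323)) (XT.lf (nat_lit 76) (nat_lit 419596668) (nat_lit 0) (nat_lit 2248556089) (nat_lit 532) (nat_lit 419596668) (nat_lit 205) (nat_lit 1) (nat_lit 204) (nat_lit 1) (nat_lit 211) (nat_lit 1) (nat_lit 417) (nat_lit 401) (nat_lit 322)))) (XT.nd (nat_lit 156) (nat_lit 0) (nat_lit 76) (XT.nd (nat_lit 78) (nat_lit 0) (nat_lit 0) (XT.lf (nat_lit 1900) (nat_lit 1042771454) (nat_lit 0) (nat_lit 1051491449) (nat_lit 1900) (nat_lit 1042771454) (nat_lit 522) (nat_lit 1) (nat_lit 497) (nat_lit 0) (nat_lit 522) (nat_lit 0) (nat_lit 336) (nat_lit 402) (nat_lit 402)) (XT.lf (nat_lit 1900) (nat_lit 4123275114)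 (nat_lit 76) (nat_lit 1044573742) (nat_lit 0) (nat_lit 1044573742) (nat_lit 522) (nat_lit 1) (nat_lit 498) (nat_lit 1) (nat_lit 497) (nat_lit 0) (nat_lit 337) (nat_lit 402) (nat_lit 401))) (XT.nd (nat_lit 78) (nat_lit 0) (nat_lit 0) (XT.lf (nat_lit 1900) (nat_lit 2024547708) (nat_lit 0) (nat_lit 2102354390) (nat_lit 1824) (nat_lit 2024547708) (nat_lit 523) (nat_lit 1) (nat_lit 498) (nat_lit 1) (nat_lit 522) (nat_lit 1) (nat_lit 338) (nat_lit 402) (nat_lit 400)) (XT.lf (nat_lit 1900) (nat_lit 3962538943) (nat_lit 76) (nat_lit 1064431207) (nat_lit 0) (nat_lit 1064431207) (nat_lit 523) (nat_lit 1) (nat_lit 499) (nat_lit 1) (nat_lit 498) (nat_lit 1) (nat_lit 339) (nat_lit 402) (nat_lit 399)))))) (XT.nd (nat_lit 624) (nat_lit 0) (nat_lit 304) (XT.nd (nat_lit 312) (nat_lit 0) (nat_lit 152) (XT.nd (nat_lit 156) (nat_lit 0) (nat_lit 76) (XT.nd (nat_lit 78) (nat_lit 0) (nat_lit 0) (XT.lf (nat_lit 1900) (nat_lit 1925718838)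 (nat_lit 0) (nat_lit 2180578105) (nat_lit 1824) (nat_lit 1925718838) (nat_lit 524) (nat_lit 1) (nat_lit 499) (nat_lit 1) (nat_lit 523) (nat_lit 1) (nat_lit 340) (nat_lit 402) (nat_lit 398)) (XT.lf (nat_lit 1900) (nat_lit 3728168956) (nat_lit 76) (nat_lit 1122672189) (nat_lit 0) (nat_lit 1122672189) (nat_lit 524) (nat_lit 1) (nat_lit 500) (nat_lit 1) (nat_lit 499) (nat_lit 1) (nat_lit 341) (nat_lit 402) (nat_lit 397))) (XT.nd (nat_lit 78) (nat_lit 0) (nat_lit 0) (XT.lf (nat_lit 1900) (nat_lit 1791313705) (nat_lit 0) (nat_lit 2333046470) (nat_lit 1824) (nat_lit 1791313705) (nat_lit 525) (nat_lit 1) (nat_lit 500) (nat_lit 1) (nat_lit 524) (nat_lit 1) (nat_lit 342) (nat_lit 402) (nat_lit 396)) (XT.lf (nat_lit 1900) (nat_lit 3424590630) (nat_lit 76) (nat_lit 1217038471) (nat_lit 0) (nat_lit 1217038471) (nat_lit 525) (nat_lit 1) (nat_lit 501) (nat_lit 1) (nat_lit 500) (nat_lit 1) (nat_lit 343) (nat_lit 402) (nat_lit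 395)))) (XT.nd (nat_lit 156) (nat_lit 0) (nat_lit 76) (XT.nd (nat_lit 78) (nat_lit 0) (nat_lit 0) (XT.lf (nat_lit 1900) (nat_lit 1623486600) (nat_lit 0) (nat_lit 2555361139) (nat_lit 1824) (nat_lit 1623486600) (nat_lit 526) (nat_lit 1) (nat_lit 501) (nat_lit 1) (nat_lit 525) (nat_lit 1) (nat_lit 344) (nat_lit 402) (nat_lit 394)) (XT.lf (nat_lit 1900) (nat_lit 3056026881) (nat_lit 76) (nat_lit 1345374581) (nat_lit 0) (nat_lit 1345374581) (nat_lit 526) (nat_lit 1) (nat_lit 502) (nat_lit 1) (nat_lit 501) (nat_lit 1) (nat_lit 345) (nat_lit 402) (nat_lit 393))) (XT.nd (nat_lit 78) (nat_lit 0) (nat_lit 0) (XT.lf (nat_lit 1900) (nat_lit 1424293009) (nat_lit 0) (nat_lit 2843324271) (nat_lit 1824) (nat_lit 1424293009) (nat_lit 527) (nat_lit 1) (nat_lit 502) (nat_lit 1) (nat_lit 526) (nat_lit 1) (nat_lit 346) (nat_lit 402) (nat_lit 392)) (XT.lf (nat_lit 1900) (nat_lit 2626506542) (nat_lit 76) (nat_lit 1505623503) (nat_lit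 0) (nat_lit 1505623503) (nat_lit 527) (nat_lit 1) (nat_lit 503) (nat_lit 1) (nat_lit 502) (nat_lit 1) (nat_lit 347) (nat_lit 402) (nat_lit 391))))) (XT.nd (nat_lit 312) (nat_lit 0) (nat_lit 152) (XT.nd (nat_lit 156) (nat_lit 0) (nat_lit 76) (XT.nd (nat_lit 78) (nat_lit 0) (nat_lit 0) (XT.lf (nat_lit 1900) (nat_lit 1195693741) (nat_lit 0) (nat_lit 3192930162) (nat_lit 1824) (nat_lit 1195693741) (nat_lit 528) (nat_lit 1) (nat_lit 503) (nat_lit 1) (nat_lit 527) (nat_lit 1) (nat_lit 348) (nat_lit 402) (nat_lit 390)) (XT.lf (nat_lit 1900) (nat_lit 2139872481) (nat_lit 76) (nat_lit 1695822568) (nat_lit 0) (nat_lit 1695822568) (nat_lit 528) (nat_lit 1) (nat_lit 504) (nat_lit 1) (nat_lit 503) (nat_lit 1) (nat_lit 349) (nat_lit 402) (nat_lit 389))) (XT.nd (nat_lit 78) (nat_lit 0) (nat_lit 0) (XT.lf (nat_lit 1900) (nat_lit 939558903) (nat_lit 0) (nat_lit 3600357211) (nat_lit 1824) (nat_lit 939558903) (nat_lit 529) (nat_lit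 1) (nat_lit 504) (nat_lit 1) (nat_lit 528) (nat_lit 1) (nat_lit 350) (nat_lit 402) (nat_lit 388)) (XT.lf (nat_lit 1900) (nat_lit 1599789406) (nat_lit 76) (nat_lit 1914099505) (nat_lit 0) (nat_lit 1914099505) (nat_lit 529) (nat_lit 1) (nat_lit 505) (nat_lit 1) (nat_lit 504) (nat_lit 1) (nat_lit 351) (nat_lit 402) (nat_lit 387)))) (XT.nd (nat_lit 156) (nat_lit 0) (nat_lit 76) (XT.nd (nat_lit 78) (nat_lit 0) (nat_lit 0) (XT.lf (nat_lit 1900) (nat_lit 657671701) (nat_lit 0) (nat_lit 4061960218) (nat_lit 1824) (nat_lit 657671701) (nat_lit 530) (nat_lit 1) (nat_lit 505) (nat_lit 1) (nat_lit 529) (nat_lit 1) (nat_lit 352) (nat_lit 402) (nat_lit 386)) (XT.lf (nat_lit 1900) (nat_lit 1009751349) (nat_lit 76) (nat_lit 2158668652) (nat_lit 0) (nat_lit 2158668652) (nat_lit 530) (nat_lit 1) (nat_lit 506) (nat_lit 1) (nat_lit 505) (nat_lit 1) (nat_lit 353) (nat_lit 402) (nat_lit 385))) (XT.nd (nat_lit 78) (nat_lit 0) (nat_lit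 0) (XT.lf (nat_lit 1900) (nat_lit 351732100) (nat_lit 0) (nat_lit 4574262975) (nat_lit 1824) (nat_lit 351732100) (nat_lit 531) (nat_lit 1) (nat_lit 506) (nat_lit 1) (nat_lit 530) (nat_lit 1) (nat_lit 354) (nat_lit 402) (nat_lit 384)) (XT.lf (nat_lit 1900) (nat_lit 373088849) (nat_lit 76) (nat_lit 2427827323) (nat_lit 0) (nat_lit 2427827323) (nat_lit 531) (nat_lit 1) (nat_lit 507) (nat_lit 1) (nat_lit 506) (nat_lit 1) (nat_lit 355) (nat_lit 402) (nat_lit 383))))))))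
noncomputable def ec31 : XT := (XT.nd (nat_lit 2418) (nat_lit 9956) (nat_lit 0) (XT.nd (nat_lit 1170) (nat_lit 6916) (nat_lit 0) (XT.nd (nat_lit 546) (nat_lit 3648) (nat_lit 0) (XT.nd (nat_lit 234) (nat_lit 988) (nat_lit 0) (XT.nd (nat_lit 78) (nat_lit 1900) (nat_lit 0) (XT.lf (nat_lit 1900) (nat_lit 23360328) (nat_lit 0) (nat_lit 5133951174) (nat_lit 1824) (nat_lit 23360328) (nat_lit 532) (nat_lit 1) (nat_lit 507) (nat_lit 1) (nat_lit 531) (nat_lit 1) (nat_lit 356) (nat_lit 402) (nat_lit 382)) (XT.nd (nat_lit 78) (nat_lit 0) (nat_lit 0) (XT.lf (nat_lit 1976) (nat_lit 2414921565) (nat_lit 0) (nat_lit 302997475) (nat_lit 1900) (nat_lit 2414921565) (nat_lit 508) (nat_lit 1) (nat_lit 482) (nat_lit 1) (nat_lit 507) (nat_lit 1) (nat_lit 357) (nat_lit 402) (nat_lit 381)) (XT.lf (nat_lit 1976) (nat_lit 4438384864) (nat_lit 76) (nat_lit 323755681) (nat_lit 0) (nat_lit 323755681) (nat_lit 508) (nat_lit 1) (nat_lit 483)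 (nat_lit 1) (nat_lit 482) (nat_lit 1) (nat_lit 358) (nat_lit 402) (nat_lit 380)))) (XT.nd (nat_lit 156) (nat_lit 1064) (nat_lit 0) (XT.nd (nat_lit 78) (nat_lit 0) (nat_lit 0) (XT.lf (nat_lit 1976) (nat_lit 2012604486) (nat_lit 0) (nat_lit 1014087013) (nat_lit 1900) (nat_lit 2012604486) (nat_lit 509) (nat_lit 1) (nat_lit 483) (nat_lit 1) (nat_lit 508) (nat_lit 1) (nat_lit 359) (nat_lit 402) (nat_lit 379)) (XT.lf (nat_lit 1976) (nat_lit 3613462944) (nat_lit 76) (nat_lit 690007857) (nat_lit 0) (nat_lit 690007857) (nat_lit 509) (nat_lit 1) (nat_lit 484) (nat_lit 1) (nat_lit 483) (nat_lit 1) (nat_lit 360) (nat_lit 402) (nat_lit 378))) (XT.nd (nat_lit 78) (nat_lit 1140) (nat_lit 0) (XT.lf (nat_lit 76) (nat_lit 1592930074) (nat_lit 0) (nat_lit 1762230343) (nat_lit 1900) (nat_lit 1592930074) (nat_lit 485) (nat_lit 1) (nat_lit 484) (nat_lit 1) (nat_lit 509) (nat_lit 1) (nat_lit 361) (nat_lit 402) (nat_lit 377)) (XT.lf (nat_lit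 1216) (nat_lit 2755048102) (nat_lit 0) (nat_lit 1074158430) (nat_lit 1140) (nat_lit 1074158430) (nat_lit 485) (nat_lit 1) (nat_lit 469) (nat_lit 1) (nat_lit 484) (nat_lit 1) (nat_lit 362) (nat_lit 402) (nat_lit 376))))) (XT.nd (nat_lit 312) (nat_lit 1824) (nat_lit 0) (XT.nd (nat_lit 156) (nat_lit 912) (nat_lit 0) (XT.nd (nat_lit 78) (nat_lit 912) (nat_lit 0) (XT.lf (nat_lit 76) (nat_lit 1157218999) (nat_lit 0) (nat_lit 2544720655) (nat_lit 1216) (nat_lit 1157218999) (nat_lit 470) (nat_lit 1) (nat_lit 469) (nat_lit 1) (nat_lit 485) (nat_lit 1) (nat_lit 363) (nat_lit 402) (nat_lit 375)) (XT.lf (nat_lit 988) (nat_lit 1865725725) (nat_lit 0) (nat_lit 1474882571) (nat_lit 912) (nat_lit 1474882571) (nat_lit 470) (nat_lit 1) (nat_lit 457) (nat_lit 1) (nat_lit 469) (nat_lit 1) (nat_lit 364) (nat_lit 402) (nat_lit 374))) (XT.nd (nat_lit 78) (nat_lit 912) (nat_lit 0) (XT.lf (nat_lit 76) (nat_lit 706727966) (nat_lit 0) (nat_lit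 3358981110) (nat_lit 988) (nat_lit 706727966) (nat_lit 458) (nat_lit 1) (nat_lit 457) (nat_lit 1) (nat_lit 470) (nat_lit 1) (nat_lit 365) (nat_lit 402) (nat_lit 373)) (XT.lf (nat_lit 988) (nat_lit 947955614) (nat_lit 0) (nat_lit 1890919245) (nat_lit 912) (nat_lit 1890919245) (nat_lit 458) (nat_lit 1) (nat_lit 445) (nat_lit 1) (nat_lit 457) (nat_lit 1) (nat_lit 366) (nat_lit 402) (nat_lit 372)))) (XT.nd (nat_lit 156) (nat_lit 988) (nat_lit 0) (XT.nd (nat_lit 78) (nat_lit 836) (nat_lit 0) (XT.lf (nat_lit 76) (nat_lit 242652450) (nat_lit 0) (nat_lit 4202559305) (nat_lit 988) (nat_lit 242652450) (nat_lit 446) (nat_lit 1) (nat_lit 445) (nat_lit 1) (nat_lit 458) (nat_lit 1) (nat_lit 367) (nat_lit 402) (nat_lit 371)) (XT.lf (nat_lit 912) (nat_lit 4077355) (nat_lit 0) (nat_lit 2321068492) (nat_lit 836) (nat_lit 2321068492) (nat_lit 446) (nat_lit 1) (nat_lit 434) (nat_lit 1) (nat_lit 445) (nat_lit 1) (nat_lit 368) (nat_lit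 402) (nat_lit 370))) (XT.nd (nat_lit 78) (nat_lit 0) (nat_lit 0) (XT.lf (nat_lit 988) (nat_lit 4140594610) (nat_lit 0) (nat_lit 232332056) (nat_lit 912) (nat_lit 232332056) (nat_lit 434) (nat_lit 1) (nat_lit 421) (nat_lit 1) (nat_lit 433) (nat_lit 1) (nat_lit 369) (nat_lit 402) (nat_lit 369)) (XT.lf (nat_lit 76) (nat_lit 1806761168) (nat_lit 0) (nat_lit 951045632) (nat_lit 988) (nat_lit 1806761168) (nat_lit 422) (nat_lit 1) (nat_lit 421) (nat_lit 1) (nat_lit 434) (nat_lit 1) (nat_lit 370) (nat_lit 402) (nat_lit 368)))))) (XT.nd (nat_lit 624) (nat_lit 2888) (nat_lit 0) (XT.nd (nat_lit 312) (nat_lit 2356) (nat_lit 0) (XT.nd (nat_lit 156) (nat_lit 836) (nat_lit 0) (XT.nd (nat_lit 78) (nat_lit 0) (nat_lit 0) (XT.lf (nat_lit 912) (nat_lit 3090527935) (nat_lit 0) (nat_lit 717012227) (nat_lit 836) (nat_lit 717012227) (nat_lit 422) (nat_lit 1) (nat_lit 410) (nat_lit 1) (nat_lit 421) (nat_lit 1) (nat_lit 371) (nat_lit 402)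 (nat_lit 367)) (XT.lf (nat_lit 76) (nat_lit 1278660626) (nat_lit 0) (nat_lit 1927598860) (nat_lit 912) (nat_lit 1278660626) (nat_lit 411) (nat_lit 1) (nat_lit 410) (nat_lit 1) (nat_lit 422) (nat_lit 1) (nat_lit 372) (nat_lit 402) (nat_lit 366))) (XT.nd (nat_lit 78) (nat_lit 0) (nat_lit 0) (XT.lf (nat_lit 912) (nat_lit 2021888032) (nat_lit 0) (nat_lit 1211964125) (nat_lit 836) (nat_lit 1211964125) (nat_lit 411) (nat_lit 1) (nat_lit 399) (nat_lit 1) (nat_lit 410) (nat_lit 1) (nat_lit 373) (nat_lit 402) (nat_lit 365)) (XT.lf (nat_lit 76) (nat_lit 741781757) (nat_lit 0) (nat_lit 2923653129) (nat_lit 912) (nat_lit 741781757) (nat_lit 400) (nat_lit 1) (nat_lit 399) (nat_lit 1) (nat_lit 411) (nat_lit 1) (nat_lit 374) (nat_lit 402) (nat_lit 364)))) (XT.nd (nat_lit 156) (nat_lit 1596) (nat_lit 0) (XT.nd (nat_lit 78) (nat_lit 0) (nat_lit 0) (XT.lf (nat_lit 836) (nat_lit 936559821) (nat_lit 0) (nat_lit 1716218446) (nat_lit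 760) (nat_lit 1716218446) (nat_lit 400) (nat_lit 1) (nat_lit 389) (nat_lit 1) (nat_lit 399) (nat_lit 1) (nat_lit 375) (nat_lit 402) (nat_lit 363)) (XT.lf (nat_lit 76) (nat_lit 197039653) (nat_lit 0) (nat_lit 3937325273) (nat_lit 836) (nat_lit 197039653) (nat_lit 390) (nat_lit 1) (nat_lit 389) (nat_lit 1) (nat_lit 400) (nat_lit 1) (nat_lit 376) (nat_lit 402) (nat_lit 362))) (XT.nd (nat_lit 78) (nat_lit 760) (nat_lit 0) (XT.lf (nat_lit 76) (nat_lit 2066249562) (nat_lit 0) (nat_lit 161521257) (nat_lit 836) (nat_lit 2066249562) (nat_lit 379) (nat_lit 1) (nat_lit 378) (nat_lit 1) (nat_lit 389) (nat_lit 1) (nat_lit 377) (nat_lit 402) (nat_lit 361)) (XT.lf (nat_lit 836) (nat_lit 3552519989) (nat_lit 0) (nat_lit 352363853) (nat_lit 760) (nat_lit 352363853) (nat_lit 379) (nat_lit 1) (nat_lit 368) (nat_lit 1) (nat_lit 378) (nat_lit 1) (nat_lit 378) (nat_lit 402) (nat_lit 360))))) (XT.nd (nat_lit 312) (nat_lit 1444) (nat_lit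 0) (XT.nd (nat_lit 156) (nat_lit 684) (nat_lit 0) (XT.nd (nat_lit 78) (nat_lit 760) (nat_lit 0) (XT.lf (nat_lit 76) (nat_lit 1480193186) (nat_lit 0) (nat_lit 1260348364) (nat_lit 836) (nat_lit 1480193186) (nat_lit 369) (nat_lit 1) (nat_lit 368) (nat_lit 1) (nat_lit 379) (nat_lit 1) (nat_lit 379) (nat_lit 402) (nat_lit 359)) (XT.lf (nat_lit 836) (nat_lit 2371571453) (nat_lit 0) (nat_lit 906601841) (nat_lit 760) (nat_lit 906601841) (nat_lit 369) (nat_lit 1) (nat_lit 358) (nat_lit 1) (nat_lit 368) (nat_lit 1) (nat_lit 380) (nat_lit 402) (nat_lit 358))) (XT.nd (nat_lit 78) (nat_lit 684) (nat_lit 0) (XT.lf (nat_lit 76) (nat_lit 889298076) (nat_lit 0) (nat_lit 2370616514) (nat_lit 836) (nat_lit 889298076) (nat_lit 359) (nat_lit 1) (nat_lit 358) (nat_lit 1) (nat_lit 369) (nat_lit 1) (nat_lit 381) (nat_lit 402) (nat_lit 357)) (XT.lf (nat_lit 760) (nat_lit 1181651658) (nat_lit 0) (nat_lit 1466195018) (nat_lit 684) (nat_lit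 1466195018) (nat_lit 359) (nat_lit 1) (nat_lit 349) (nat_lit 1) (nat_lit 358) (nat_lit 1) (nat_lit 382) (nat_lit 402) (nat_lit 356)))) (XT.nd (nat_lit 156) (nat_lit 684) (nat_lit 0) (XT.nd (nat_lit 78) (nat_lit 760) (nat_lit 0) (XT.lf (nat_lit 76) (nat_lit 294293224) (nat_lit 0) (nat_lit 3490820459) (nat_lit 760) (nat_lit 294293224) (nat_lit 350) (nat_lit 1) (nat_lit 349) (nat_lit 1) (nat_lit 359) (nat_lit 1) (nat_lit 383) (nat_lit 402) (nat_lit 355)) (XT.lf (nat_lit 76) (nat_lit 2014695172) (nat_lit 0) (nat_lit 15608524) (nat_lit 760) (nat_lit 2014695172) (nat_lit 340) (nat_lit 1) (nat_lit 339) (nat_lit 1) (nat_lit 349) (nat_lit 1) (nat_lit 384) (nat_lit 402) (nat_lit 354))) (XT.nd (nat_lit 78) (nat_lit 0) (nat_lit 0) (XT.lf (nat_lit 760) (nat_lit 3406852259) (nat_lit 0) (nat_lit 302130429) (nat_lit 684) (nat_lit 302130429) (nat_lit 340) (nat_lit 1) (nat_lit 330) (nat_lit 1) (nat_lit 339) (nat_lit 1) (nat_lit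 385) (nat_lit 402) (nat_lit 353)) (XT.lf (nat_lit 76) (nat_lit 1386979433) (nat_lit 0) (nat_lit 1203490537) (nat_lit 760) (nat_lit 1386979433) (nat_lit 331) (nat_lit 1) (nat_lit 330) (nat_lit 1) (nat_lit 340) (nat_lit 1) (nat_lit 386) (nat_lit 402) (nat_lit 352))))))) (XT.nd (nat_lit 1170) (nat_lit 4484) (nat_lit 0) (XT.nd (nat_lit 546) (nat_lit 2888) (nat_lit 0) (XT.nd (nat_lit 234) (nat_lit 1292) (nat_lit 0) (XT.nd (nat_lit 78) (nat_lit 608) (nat_lit 0) (XT.lf (nat_lit 760) (nat_lit 2145557448) (nat_lit 0) (nat_lit 899366532) (nat_lit 684) (nat_lit 899366532) (nat_lit 331) (nat_lit 1) (nat_lit 321) (nat_lit 1) (nat_lit 330) (nat_lit 1) (nat_lit 387) (nat_lit 402) (nat_lit 351)) (XT.nd (nat_lit 78) (nat_lit 608) (nat_lit 0) (XT.lf (nat_lit 76) (nat_lit 757634318) (nat_lit 0) (nat_lit 2396234552) (nat_lit 760) (nat_lit 757634318) (nat_lit 322) (nat_lit 1) (nat_lit 321) (nat_lit 1) (nat_lit 331) (nat_lit 1) (nat_lit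 388) (nat_lit 402) (nat_lit 350)) (XT.lf (nat_lit 684) (nat_lit 881573727) (nat_lit 0) (nat_lit 1498737957) (nat_lit 608) (nat_lit 1498737957) (nat_lit 322) (nat_lit 1) (nat_lit 313) (nat_lit 1) (nat_lit 321) (nat_lit 1) (nat_lit 389) (nat_lit 402) (nat_lit 349)))) (XT.nd (nat_lit 156) (nat_lit 608) (nat_lit 0) (XT.nd (nat_lit 78) (nat_lit 684) (nat_lit 0) (XT.lf (nat_lit 76) (nat_lit 127232986) (nat_lit 0) (nat_lit 3592651990) (nat_lit 684) (nat_lit 127232986) (nat_lit 314) (nat_lit 1) (nat_lit 313) (nat_lit 1) (nat_lit 322) (nat_lit 1) (nat_lit 390) (nat_lit 402) (nat_lit 348)) (XT.lf (nat_lit 76) (nat_lit 1718176826) (nat_lit 0) (nat_lit 378945434) (nat_lit 684) (nat_lit 1718176826) (nat_lit 305) (nat_lit 1) (nat_lit 304) (nat_lit 1) (nat_lit 313) (nat_lit 1) (nat_lit 391) (nat_lit 402) (nat_lit 347))) (XT.nd (nat_lit 78) (nat_lit 0) (nat_lit 0) (XT.lf (nat_lit 684) (nat_lit 2783250321) (nat_lit 0) (nat_lit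 500369948) (nat_lit 608) (nat_lit 500369948) (nat_lit 305) (nat_lit 1) (nat_lit 296) (nat_lit 1) (nat_lit 304) (nat_lit 1) (nat_lit 392) (nat_lit 402) (nat_lit 346)) (XT.lf (nat_lit 76) (nat_lit 1062260408) (nat_lit 0) (nat_lit 1628413018) (nat_lit 684) (nat_lit 1062260408) (nat_lit 297) (nat_lit 1) (nat_lit 296) (nat_lit 1) (nat_lit 305) (nat_lit 1) (nat_lit 393) (nat_lit 402) (nat_lit 345))))) (XT.nd (nat_lit 312) (nat_lit 1064) (nat_lit 0) (XT.nd (nat_lit 156) (nat_lit 1216) (nat_lit 0) (XT.nd (nat_lit 78) (nat_lit 0) (nat_lit 0) (XT.lf (nat_lit 684) (nat_lit 1467994332) (nat_lit 0) (nat_lit 1127141001) (nat_lit 608) (nat_lit 1127141001) (nat_lit 297) (nat_lit 1) (nat_lit 288) (nat_lit 1) (nat_lit 296) (nat_lit 1) (nat_lit 394) (nat_lit 402) (nat_lit 344)) (XT.lf (nat_lit 76) (nat_lit 407309550) (nat_lit 0) (nat_lit 2877410240) (nat_lit 684) (nat_lit 407309550) (nat_lit 289) (nat_lit 1) (nat_lit 288) (nat_lit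 1) (nat_lit 297) (nat_lit 1) (nat_lit 395) (nat_lit 402) (nat_lit 343))) (XT.nd (nat_lit 78) (nat_lit 684) (nat_lit 0) (XT.lf (nat_lit 608) (nat_lit 155124817) (nat_lit 0) (nat_lit 1753439711) (nat_lit 532) (nat_lit 1753439711) (nat_lit 289) (nat_lit 1) (nat_lit 281) (nat_lit 1) (nat_lit 288) (nat_lit 1) (nat_lit 396) (nat_lit 402) (nat_lit 342)) (XT.lf (nat_lit 684) (nat_lit 3143193782) (nat_lit 0) (nat_lit 244612808) (nat_lit 608) (nat_lit 244612808) (nat_lit 281) (nat_lit 1) (nat_lit 272) (nat_lit 1) (nat_lit 280) (nat_lit 1) (nat_lit 397) (nat_lit 402) (nat_lit 341)))) (XT.nd (nat_lit 156) (nat_lit 532) (nat_lit 0) (XT.nd (nat_lit 78) (nat_lit 532) (nat_lit 0) (XT.lf (nat_lit 76) (nat_lit 1231815960) (nat_lit 0) (nat_lit 1139354830) (nat_lit 684) (nat_lit 1231815960) (nat_lit 273) (nat_lit 1) (nat_lit 272) (nat_lit 1) (nat_lit 281) (nat_lit 1) (nat_lit 398) (nat_lit 402) (nat_lit 340)) (XT.lf (nat_lit 608)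 (nat_lit 1789899044) (nat_lit 0) (nat_lit 892042596) (nat_lit 532) (nat_lit 892042596) (nat_lit 273) (nat_lit 1) (nat_lit 265) (nat_lit 1) (nat_lit 272) (nat_lit 1) (nat_lit 399) (nat_lit 402) (nat_lit 339))) (XT.nd (nat_lit 78) (nat_lit 532) (nat_lit 0) (XT.lf (nat_lit 76) (nat_lit 558761490) (nat_lit 0) (nat_lit 2427794994) (nat_lit 608) (nat_lit 558761490) (nat_lit 266) (nat_lit 1) (nat_lit 265) (nat_lit 1) (nat_lit 273) (nat_lit 1) (nat_lit 400) (nat_lit 402) (nat_lit 338)) (XT.lf (nat_lit 608) (nat_lit 442358427) (nat_lit 0) (nat_lit 1537271094) (nat_lit 532) (nat_lit 1537271094) (nat_lit 266) (nat_lit 1) (nat_lit 258) (nat_lit 1) (nat_lit 265) (nat_lit 1) (nat_lit 401) (nat_lit 402) (nat_lit 337)))))) (XT.nd (nat_lit 624) (nat_lit 1824) (nat_lit 0) (XT.nd (nat_lit 312) (nat_lit 1520) (nat_lit 0) (XT.nd (nat_lit 156) (nat_lit 532) (nat_lit 0) (XT.nd (nat_lit 78) (nat_lit 0) (nat_lit 0) (XT.lf (nat_lit 608)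 (nat_lit 3267891704) (nat_lit 0) (nat_lit 110516667) (nat_lit 532) (nat_lit 110516667) (nat_lit 258) (nat_lit 1) (nat_lit 250) (nat_lit 1) (nat_lit 257) (nat_lit 1) (nat_lit 402) (nat_lit 402) (nat_lit 336)) (XT.lf (nat_lit 76) (nat_lit 1287035229) (nat_lit 0) (nat_lit 886946882) (nat_lit 608) (nat_lit 1287035229) (nat_lit 251) (nat_lit 1) (nat_lit 250) (nat_lit 1) (nat_lit 258) (nat_lit 1) (nat_lit 403) (nat_lit 402) (nat_lit 335))) (XT.nd (nat_lit 78) (nat_lit 0) (nat_lit 0) (XT.lf (nat_lit 608) (nat_lit 1888018373) (nat_lit 0) (nat_lit 772762032) (nat_lit 532) (nat_lit 772762032) (nat_lit 251) (nat_lit 1) (nat_lit 243) (nat_lit 1) (nat_lit 250) (nat_lit 1) (nat_lit 404) (nat_lit 402) (nat_lit 334)) (XT.lf (nat_lit 76) (nat_lit 601457428) (nat_lit 0) (nat_lit 2203446235) (nat_lit 608) (nat_lit 601457428) (nat_lit 244) (nat_lit 1) (nat_lit 243) (nat_lit 1) (nat_lit 251) (nat_lit 1) (nat_lit 405) (nat_lit 402)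 (nat_lit 333)))) (XT.nd (nat_lit 156) (nat_lit 456) (nat_lit 0) (XT.nd (nat_lit 78) (nat_lit 608) (nat_lit 0) (XT.lf (nat_lit 532) (nat_lit 516748386) (nat_lit 0) (nat_lit 1431340042) (nat_lit 456) (nat_lit 1431340042) (nat_lit 244) (nat_lit 1) (nat_lit 237) (nat_lit 1) (nat_lit 243) (nat_lit 1) (nat_lit 406) (nat_lit 402) (nat_lit 332)) (XT.lf (nat_lit 608) (nat_lit 3194577886) (nat_lit 0) (nat_lit 79168711) (nat_lit 532) (nat_lit 79168711) (nat_lit 237) (nat_lit 1) (nat_lit 229) (nat_lit 1) (nat_lit 236) (nat_lit 1) (nat_lit 407) (nat_lit 402) (nat_lit 331))) (XT.nd (nat_lit 78) (nat_lit 456) (nat_lit 0) (XT.lf (nat_lit 76) (nat_lit 1246079093) (nat_lit 0) (nat_lit 834283212) (nat_lit 608) (nat_lit 1246079093) (nat_lit 230) (nat_lit 1) (nat_lit 229) (nat_lit 1) (nat_lit 237) (nat_lit 1) (nat_lit 408) (nat_lit 402) (nat_lit 330)) (XT.lf (nat_lit 532) (nat_lit 1798022717) (nat_lit 0) (nat_lit 751178123) (nat_lit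 456) (nat_lit 751178123) (nat_lit 230) (nat_lit 1) (nat_lit 223) (nat_lit 1) (nat_lit 229) (nat_lit 1) (nat_lit 409) (nat_lit 402) (nat_lit 329))))) (XT.nd (nat_lit 312) (nat_lit 836) (nat_lit 0) (XT.nd (nat_lit 156) (nat_lit 532) (nat_lit 0) (XT.nd (nat_lit 78) (nat_lit 456) (nat_lit 0) (XT.lf (nat_lit 76) (nat_lit 552795156) (nat_lit 0) (nat_lit 2169003765) (nat_lit 532) (nat_lit 552795156) (nat_lit 224) (nat_lit 1) (nat_lit 223) (nat_lit 1) (nat_lit 230) (nat_lit 1) (nat_lit 410) (nat_lit 402) (nat_lit 328)) (XT.lf (nat_lit 532) (nat_lit 412465251) (nat_lit 0) (nat_lit 1418284863) (nat_lit 456) (nat_lit 1418284863) (nat_lit 224) (nat_lit 1) (nat_lit 217) (nat_lit 1) (nat_lit 223) (nat_lit 1) (nat_lit 411) (nat_lit 402) (nat_lit 327))) (XT.nd (nat_lit 78) (nat_lit 0) (nat_lit 0) (XT.lf (nat_lit 532) (nat_lit 2955827499) (nat_lit 0) (nat_lit 134012837) (nat_lit 456) (nat_lit 134012837) (nat_lit 217) (nat_lit 1)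 (nat_lit 210) (nat_lit 1) (nat_lit 216) (nat_lit 1) (nat_lit 412) (nat_lit 402) (nat_lit 326)) (XT.lf (nat_lit 76) (nat_lit 1124833724) (nat_lit 0) (nat_lit 949061349) (nat_lit 532) (nat_lit 1124833724) (nat_lit 211) (nat_lit 1) (nat_lit 210) (nat_lit 1) (nat_lit 217) (nat_lit 1) (nat_lit 413) (nat_lit 402) (nat_lit 325)))) (XT.nd (nat_lit 156) (nat_lit 380) (nat_lit 0) (XT.nd (nat_lit 78) (nat_lit 0) (nat_lit 0) (XT.lf (nat_lit 532) (nat_lit 1551109847) (nat_lit 0) (nat_lit 811432389) (nat_lit 456) (nat_lit 811432389) (nat_lit 211) (nat_lit 1) (nat_lit 204) (nat_lit 1) (nat_lit 210) (nat_lit 1) (nat_lit 414) (nat_lit 402) (nat_lit 324)) (XT.lf (nat_lit 76) (nat_lit 427988602) (nat_lit 0) (nat_lit 2293527211) (nat_lit 532) (nat_lit 427988602) (nat_lit 205) (nat_lit 1) (nat_lit 204) (nat_lit 1) (nat_lit 211) (nat_lit 1) (nat_lit 415) (nat_lit 402) (nat_lit 323))) (XT.nd (nat_lit 52962) (nat_lit 0) (nat_lit 22648)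 (XT.lf (nat_lit 456) (nat_lit 159385618) (nat_lit 0) (nat_lit 1482916266) (nat_lit 380) (nat_lit 1482916266) (nat_lit 205) (nat_lit 1) (nat_lit 199) (nat_lit 1) (nat_lit 204) (nat_lit 1) (nat_lit 416) (nat_lit 402) (nat_lit 322)) (XT.lf (nat_lit 1900) (nat_lit 1063626883) (nat_lit 0) (nat_lit 1072521278) (nat_lit 1900) (nat_lit 1063626883) (nat_lit 522) (nat_lit 1) (nat_lit 497) (nat_lit 0) (nat_lit 522) (nat_lit 0) (nat_lit 334) (nat_lit 403) (nat_lit 403))))))))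
noncomputable def ec32 : XT := (XT.nd (nat_lit 2340) (nat_lit 13148) (nat_lit 0) (XT.nd (nat_lit 1170) (nat_lit 3952) (nat_lit 0) (XT.nd (nat_lit 546) (nat_lit 0) (nat_lit 304) (XT.nd (nat_lit 234) (nat_lit 0) (nat_lit 152) (XT.nd (nat_lit 78) (nat_lit 0) (nat_lit 76) (XT.lf (nat_lit 1900) (nat_lit 4205740616) (nat_lit 76) (nat_lit 1065465217) (nat_lit 0) (nat_lit 1065465217) (nat_lit 522) (nat_lit 1) (nat_lit 498) (nat_lit 1) (nat_lit 497) (nat_lit 0) (nat_lit 335) (nat_lit 403) (nat_lit 402)) (XT.nd (nat_lit 78) (nat_lit 0) (nat_lit 0) (XT.lf (nat_lit 1900) (nat_lit 2065038662) (nat_lit 0) (nat_lit 2144401478) (nat_lit 1824) (nat_lit 2065038662) (nat_lit 523) (nat_lit 1) (nat_lit 498) (nat_lit 1) (nat_lit 522) (nat_lit 1) (nat_lit 336) (nat_lit 403) (nat_lit 401)) (XT.lf (nat_lit 1900) (nat_lit 4041789722) (nat_lit 76) (nat_lit 1085719831) (nat_lit 0) (nat_lit 1085719831) (nat_lit 523) (nat_lit 1) (nat_lit 499)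 (nat_lit 1) (nat_lit 498) (nat_lit 1) (nat_lit 337) (nat_lit 403) (nat_lit 400)))) (XT.nd (nat_lit 156) (nat_lit 0) (nat_lit 76) (XT.nd (nat_lit 78) (nat_lit 0) (nat_lit 0) (XT.lf (nat_lit 1900) (nat_lit 1964233214) (nat_lit 0) (nat_lit 2224189667) (nat_lit 1824) (nat_lit 1964233214) (nat_lit 524) (nat_lit 1) (nat_lit 499) (nat_lit 1) (nat_lit 523) (nat_lit 1) (nat_lit 338) (nat_lit 403) (nat_lit 399)) (XT.lf (nat_lit 1900) (nat_lit 3802732336) (nat_lit 76) (nat_lit 1145125633) (nat_lit 0) (nat_lit 1145125633) (nat_lit 524) (nat_lit 1) (nat_lit 500) (nat_lit 1) (nat_lit 499) (nat_lit 1) (nat_lit 339) (nat_lit 403) (nat_lit 398))) (XT.nd (nat_lit 78) (nat_lit 0) (nat_lit 0) (XT.lf (nat_lit 1900) (nat_lit 1827139979) (nat_lit 0) (nat_lit 2379707399) (nat_lit 1824) (nat_lit 1827139979) (nat_lit 525) (nat_lit 1) (nat_lit 500) (nat_lit 1) (nat_lit 524) (nat_lit 1) (nat_lit 340) (nat_lit 403) (nat_lit 397)) (XT.lf (nat_lit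 1900) (nat_lit 3493082442) (nat_lit 76) (nat_lit 1241379240) (nat_lit 0) (nat_lit 1241379240) (nat_lit 525) (nat_lit 1) (nat_lit 501) (nat_lit 1) (nat_lit 500) (nat_lit 1) (nat_lit 341) (nat_lit 403) (nat_lit 396))))) (XT.nd (nat_lit 312) (nat_lit 0) (nat_lit 152) (XT.nd (nat_lit 156) (nat_lit 0) (nat_lit 76) (XT.nd (nat_lit 78) (nat_lit 0) (nat_lit 0) (XT.lf (nat_lit 1900) (nat_lit 1655956332) (nat_lit 0) (nat_lit 2606468362) (nat_lit 1824) (nat_lit 1655956332) (nat_lit 526) (nat_lit 1) (nat_lit 501) (nat_lit 1) (nat_lit 525) (nat_lit 1) (nat_lit 342) (nat_lit 403) (nat_lit 395)) (XT.lf (nat_lit 1900) (nat_lit 3117147419) (nat_lit 76) (nat_lit 1372282072) (nat_lit 0) (nat_lit 1372282072) (nat_lit 526) (nat_lit 1) (nat_lit 502) (nat_lit 1) (nat_lit 501) (nat_lit 1) (nat_lit 343) (nat_lit 403) (nat_lit 394))) (XT.nd (nat_lit 78) (nat_lit 0) (nat_lit 0) (XT.lf (nat_lit 1900) (nat_lit 1452778869) (nat_lit 0) (nat_lit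 2900190757) (nat_lit 1824) (nat_lit 1452778869) (nat_lit 527) (nat_lit 1) (nat_lit 502) (nat_lit 1) (nat_lit 526) (nat_lit 1) (nat_lit 344) (nat_lit 403) (nat_lit 393)) (XT.lf (nat_lit 1900) (nat_lit 2679036673) (nat_lit 76) (nat_lit 1535735973) (nat_lit 0) (nat_lit 1535735973) (nat_lit 527) (nat_lit 1) (nat_lit 503) (nat_lit 1) (nat_lit 502) (nat_lit 1) (nat_lit 345) (nat_lit 403) (nat_lit 392)))) (XT.nd (nat_lit 156) (nat_lit 0) (nat_lit 76) (XT.nd (nat_lit 78) (nat_lit 0) (nat_lit 0) (XT.lf (nat_lit 1900) (nat_lit 1219607616) (nat_lit 0) (nat_lit 3256788765) (nat_lit 1824) (nat_lit 1219607616) (nat_lit 528) (nat_lit 1) (nat_lit 503) (nat_lit 1) (nat_lit 527) (nat_lit 1) (nat_lit 346) (nat_lit 403) (nat_lit 391)) (XT.lf (nat_lit 1900) (nat_lit 2182669931) (nat_lit 76) (nat_lit 1729739020) (nat_lit 0) (nat_lit 1729739020) (nat_lit 528) (nat_lit 1) (nat_lit 504) (nat_lit 1) (nat_lit 503) (nat_lit 1) (nat_lit 347)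 (nat_lit 403) (nat_lit 390))) (XT.nd (nat_lit 78) (nat_lit 0) (nat_lit 0) (XT.lf (nat_lit 1900) (nat_lit 958350081) (nat_lit 0) (nat_lit 3672364356) (nat_lit 1824) (nat_lit 958350081) (nat_lit 529) (nat_lit 1) (nat_lit 504) (nat_lit 1) (nat_lit 528) (nat_lit 1) (nat_lit 348) (nat_lit 403) (nat_lit 389)) (XT.lf (nat_lit 1900) (nat_lit 1631785195) (nat_lit 76) (nat_lit 1952381495) (nat_lit 0) (nat_lit 1952381495) (nat_lit 529) (nat_lit 1) (nat_lit 505) (nat_lit 1) (nat_lit 504) (nat_lit 1) (nat_lit 349) (nat_lit 403) (nat_lit 388)))))) (XT.nd (nat_lit 546) (nat_lit 2812) (nat_lit 0) (XT.nd (nat_lit 234) (nat_lit 1748) (nat_lit 0) (XT.nd (nat_lit 78) (nat_lit 0) (nat_lit 0) (XT.lf (nat_lit 1900) (nat_lit 670825135) (nat_lit 0) (nat_lit 4143199422) (nat_lit 1824) (nat_lit 670825135) (nat_lit 530) (nat_lit 1) (nat_lit 505) (nat_lit 1) (nat_lit 529) (nat_lit 1) (nat_lit 350) (nat_lit 403) (nat_lit 387)) (XT.nd (nat_lit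 78) (nat_lit 0) (nat_lit 76) (XT.lf (nat_lit 1900) (nat_lit 1029946376) (nat_lit 76) (nat_lit 2201842025) (nat_lit 0) (nat_lit 2201842025) (nat_lit 530) (nat_lit 1) (nat_lit 506) (nat_lit 1) (nat_lit 505) (nat_lit 1) (nat_lit 351) (nat_lit 403) (nat_lit 386)) (XT.lf (nat_lit 1900) (nat_lit 358766742) (nat_lit 0) (nat_lit 4665748234) (nat_lit 1824) (nat_lit 358766742) (nat_lit 531) (nat_lit 1) (nat_lit 506) (nat_lit 1) (nat_lit 530) (nat_lit 1) (nat_lit 352) (nat_lit 403) (nat_lit 385)))) (XT.nd (nat_lit 156) (nat_lit 1824) (nat_lit 0) (XT.nd (nat_lit 78) (nat_lit 0) (nat_lit 76) (XT.lf (nat_lit 1900) (nat_lit 380550626) (nat_lit 76) (nat_lit 2476383869) (nat_lit 0) (nat_lit 2476383869) (nat_lit 531) (nat_lit 1) (nat_lit 507) (nat_lit 1) (nat_lit 506) (nat_lit 1) (nat_lit 353) (nat_lit 403) (nat_lit 384)) (XT.lf (nat_lit 1900) (nat_lit 23827535) (nat_lit 0) (nat_lit 5236630197) (nat_lit 1824) (nat_lit 23827535)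 (nat_lit 532) (nat_lit 1) (nat_lit 507) (nat_lit 1) (nat_lit 531) (nat_lit 1) (nat_lit 354) (nat_lit 403) (nat_lit 383))) (XT.nd (nat_lit 78) (nat_lit 0) (nat_lit 0) (XT.lf (nat_lit 1976) (nat_lit 2463219996) (nat_lit 0) (nat_lit 309057425) (nat_lit 1900) (nat_lit 2463219996) (nat_lit 508) (nat_lit 1) (nat_lit 482) (nat_lit 1) (nat_lit 507) (nat_lit 1) (nat_lit 355) (nat_lit 403) (nat_lit 382)) (XT.lf (nat_lit 1976) (nat_lit 4527152561) (nat_lit 76) (nat_lit 330230794) (nat_lit 0) (nat_lit 330230794) (nat_lit 508) (nat_lit 1) (nat_lit 483) (nat_lit 1) (nat_lit 482) (nat_lit 1) (nat_lit 356) (nat_lit 403) (nat_lit 381))))) (XT.nd (nat_lit 312) (nat_lit 1824) (nat_lit 0) (XT.nd (nat_lit 156) (nat_lit 1064) (nat_lit 0) (XT.nd (nat_lit 78) (nat_lit 0) (nat_lit 0) (XT.lf (nat_lit 1976) (nat_lit 2052856576) (nat_lit 0) (nat_lit 1034368753) (nat_lit 1900) (nat_lit 2052856576) (nat_lit 509) (nat_lit 1) (nat_lit 483) (nat_lit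 1) (nat_lit 508) (nat_lit 1) (nat_lit 357) (nat_lit 403) (nat_lit 380)) (XT.lf (nat_lit 1976) (nat_lit 3685732203) (nat_lit 76) (nat_lit 703808015) (nat_lit 0) (nat_lit 703808015) (nat_lit 509) (nat_lit 1) (nat_lit 484) (nat_lit 1) (nat_lit 483) (nat_lit 1) (nat_lit 358) (nat_lit 403) (nat_lit 379))) (XT.nd (nat_lit 78) (nat_lit 1140) (nat_lit 0) (XT.lf (nat_lit 76) (nat_lit 1624788676) (nat_lit 0) (nat_lit 1797474950) (nat_lit 1900) (nat_lit 1624788676) (nat_lit 485) (nat_lit 1) (nat_lit 484) (nat_lit 1) (nat_lit 509) (nat_lit 1) (nat_lit 359) (nat_lit 403) (nat_lit 378)) (XT.lf (nat_lit 1216) (nat_lit 2810149064) (nat_lit 0) (nat_lit 1095641599) (nat_lit 1140) (nat_lit 1095641599) (nat_lit 485) (nat_lit 1) (nat_lit 469) (nat_lit 1) (nat_lit 484) (nat_lit 1) (nat_lit 360) (nat_lit 403) (nat_lit 377)))) (XT.nd (nat_lit 156) (nat_lit 912) (nat_lit 0) (XT.nd (nat_lit 78) (nat_lit 912) (nat_lit 0) (XT.lf (nat_lit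 76) (nat_lit 1180363379) (nat_lit 0) (nat_lit 2595615068) (nat_lit 1216) (nat_lit 1180363379) (nat_lit 470) (nat_lit 1) (nat_lit 469) (nat_lit 1) (nat_lit 485) (nat_lit 1) (nat_lit 361) (nat_lit 403) (nat_lit 376)) (XT.lf (nat_lit 988) (nat_lit 1903040239) (nat_lit 0) (nat_lit 1504380222) (nat_lit 912) (nat_lit 1504380222) (nat_lit 470) (nat_lit 1) (nat_lit 457) (nat_lit 1) (nat_lit 469) (nat_lit 1) (nat_lit 362) (nat_lit 403) (nat_lit 375))) (XT.nd (nat_lit 78) (nat_lit 912) (nat_lit 0) (XT.lf (nat_lit 76) (nat_lit 720862525) (nat_lit 0) (nat_lit 3426160732) (nat_lit 988) (nat_lit 720862525) (nat_lit 458) (nat_lit 1) (nat_lit 457) (nat_lit 1) (nat_lit 470) (nat_lit 1) (nat_lit 363) (nat_lit 403) (nat_lit 374)) (XT.lf (nat_lit 988) (nat_lit 966914726) (nat_lit 0) (nat_lit 1928737630) (nat_lit 912) (nat_lit 1928737630) (nat_lit 458) (nat_lit 1) (nat_lit 445) (nat_lit 1) (nat_lit 457) (nat_lit 1) (nat_lit 364) (nat_lit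 403) (nat_lit 373))))))) (XT.nd (nat_lit 1170) (nat_lit 6536) (nat_lit 0) (XT.nd (nat_lit 546) (nat_lit 3116) (nat_lit 0) (XT.nd (nat_lit 234) (nat_lit 1672) (nat_lit 0) (XT.nd (nat_lit 78) (nat_lit 1824) (nat_lit 0) (XT.lf (nat_lit 76) (nat_lit 247505499) (nat_lit 0) (nat_lit 4286610491) (nat_lit 988) (nat_lit 247505499) (nat_lit 446) (nat_lit 1) (nat_lit 445) (nat_lit 1) (nat_lit 458) (nat_lit 1) (nat_lit 365) (nat_lit 403) (nat_lit 372)) (XT.nd (nat_lit 78) (nat_lit 988) (nat_lit 0) (XT.lf (nat_lit 912) (nat_lit 4158902) (nat_lit 0) (nat_lit 2367489861) (nat_lit 836) (nat_lit 2367489861) (nat_lit 446) (nat_lit 1) (nat_lit 434) (nat_lit 1) (nat_lit 445) (nat_lit 1) (nat_lit 366) (nat_lit 403) (nat_lit 371)) (XT.lf (nat_lit 988) (nat_lit 4223406502) (nat_lit 0) (nat_lit 236978697) (nat_lit 912) (nat_lit 236978697) (nat_lit 434) (nat_lit 1) (nat_lit 421) (nat_lit 1) (nat_lit 433) (nat_lit 1) (nat_lit 367) (nat_lit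 403) (nat_lit 370)))) (XT.nd (nat_lit 156) (nat_lit 836) (nat_lit 0) (XT.nd (nat_lit 78) (nat_lit 836) (nat_lit 0) (XT.lf (nat_lit 76) (nat_lit 1842896392) (nat_lit 0) (nat_lit 970066544) (nat_lit 988) (nat_lit 1842896392) (nat_lit 422) (nat_lit 1) (nat_lit 421) (nat_lit 1) (nat_lit 434) (nat_lit 1) (nat_lit 368) (nat_lit 403) (nat_lit 369)) (XT.lf (nat_lit 912) (nat_lit 3152338494) (nat_lit 0) (nat_lit 731352471) (nat_lit 836) (nat_lit 731352471) (nat_lit 422) (nat_lit 1) (nat_lit 410) (nat_lit 1) (nat_lit 421) (nat_lit 1) (nat_lit 369) (nat_lit 403) (nat_lit 368))) (XT.nd (nat_lit 78) (nat_lit 836) (nat_lit 0) (XT.lf (nat_lit 76) (nat_lit 1304233839) (nat_lit 0) (nat_lit 1966150837) (nat_lit 912) (nat_lit 1304233839) (nat_lit 411) (nat_lit 1) (nat_lit 410) (nat_lit 1) (nat_lit 422) (nat_lit 1) (nat_lit 370) (nat_lit 403) (nat_lit 367)) (XT.lf (nat_lit 912) (nat_lit 2062325793) (nat_lit 0) (nat_lit 1236203407)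 (nat_lit 836) (nat_lit 1236203407) (nat_lit 411) (nat_lit 1) (nat_lit 399) (nat_lit 1) (nat_lit 410) (nat_lit 1) (nat_lit 371) (nat_lit 403) (nat_lit 366))))) (XT.nd (nat_lit 312) (nat_lit 1520) (nat_lit 0) (XT.nd (nat_lit 156) (nat_lit 836) (nat_lit 0) (XT.nd (nat_lit 78) (nat_lit 760) (nat_lit 0) (XT.lf (nat_lit 76) (nat_lit 756617393) (nat_lit 0) (nat_lit 2982126192) (nat_lit 912) (nat_lit 756617393) (nat_lit 400) (nat_lit 1) (nat_lit 399) (nat_lit 1) (nat_lit 411) (nat_lit 1) (nat_lit 372) (nat_lit 403) (nat_lit 365)) (XT.lf (nat_lit 836) (nat_lit 955291018) (nat_lit 0) (nat_lit 1750542815) (nat_lit 760) (nat_lit 1750542815) (nat_lit 400) (nat_lit 1) (nat_lit 389) (nat_lit 1) (nat_lit 399) (nat_lit 1) (nat_lit 373) (nat_lit 403) (nat_lit 364))) (XT.nd (nat_lit 78) (nat_lit 836) (nat_lit 0) (XT.lf (nat_lit 76) (nat_lit 200980446) (nat_lit 0) (nat_lit 4016071778) (nat_lit 836) (nat_lit 200980446) (nat_lit 390)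 (nat_lit 1) (nat_lit 389) (nat_lit 1) (nat_lit 400) (nat_lit 1) (nat_lit 374) (nat_lit 403) (nat_lit 363)) (XT.lf (nat_lit 76) (nat_lit 2107574553) (nat_lit 0) (nat_lit 164751683) (nat_lit 836) (nat_lit 2107574553) (nat_lit 379) (nat_lit 1) (nat_lit 378) (nat_lit 1) (nat_lit 389) (nat_lit 1) (nat_lit 375) (nat_lit 403) (nat_lit 362)))) (XT.nd (nat_lit 156) (nat_lit 760) (nat_lit 0) (XT.nd (nat_lit 78) (nat_lit 0) (nat_lit 0) (XT.lf (nat_lit 836) (nat_lit 3623570389) (nat_lit 0) (nat_lit 359411130) (nat_lit 760) (nat_lit 359411130) (nat_lit 379) (nat_lit 1) (nat_lit 368) (nat_lit 1) (nat_lit 378) (nat_lit 1) (nat_lit 376) (nat_lit 403) (nat_lit 361)) (XT.lf (nat_lit 76) (nat_lit 1509797050) (nat_lit 0) (nat_lit 1285555332) (nat_lit 836) (nat_lit 1509797050) (nat_lit 369) (nat_lit 1) (nat_lit 368) (nat_lit 1) (nat_lit 379) (nat_lit 1) (nat_lit 377) (nat_lit 403) (nat_lit 360))) (XT.nd (nat_lit 78) (nat_lit 0) (nat_lit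 0) (XT.lf (nat_lit 836) (nat_lit 2419002882) (nat_lit 0) (nat_lit 924733877) (nat_lit 760) (nat_lit 924733877) (nat_lit 369) (nat_lit 1) (nat_lit 358) (nat_lit 1) (nat_lit 368) (nat_lit 1) (nat_lit 378) (nat_lit 403) (nat_lit 359)) (XT.lf (nat_lit 76) (nat_lit 907084037) (nat_lit 0) (nat_lit 2418028844) (nat_lit 836) (nat_lit 907084037) (nat_lit 359) (nat_lit 1) (nat_lit 358) (nat_lit 1) (nat_lit 369) (nat_lit 1) (nat_lit 379) (nat_lit 403) (nat_lit 358)))))) (XT.nd (nat_lit 624) (nat_lit 3116) (nat_lit 0) (XT.nd (nat_lit 312) (nat_lit 1292) (nat_lit 0) (XT.nd (nat_lit 156) (nat_lit 1444) (nat_lit 0) (XT.nd (nat_lit 78) (nat_lit 0) (nat_lit 0) (XT.lf (nat_lit 760) (nat_lit 1205284691) (nat_lit 0) (nat_lit 1495518918) (nat_lit 684) (nat_lit 1495518918) (nat_lit 359) (nat_lit 1) (nat_lit 349) (nat_lit 1) (nat_lit 358) (nat_lit 1) (nat_lit 380) (nat_lit 403) (nat_lit 357)) (XT.lf (nat_lit 76) (nat_lit 300179089) (nat_lit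 0) (nat_lit 3560636868) (nat_lit 760) (nat_lit 300179089) (nat_lit 350) (nat_lit 1) (nat_lit 349) (nat_lit 1) (nat_lit 359) (nat_lit 1) (nat_lit 381) (nat_lit 403) (nat_lit 356))) (XT.nd (nat_lit 78) (nat_lit 684) (nat_lit 0) (XT.lf (nat_lit 76) (nat_lit 2054989076) (nat_lit 0) (nat_lit 15920694) (nat_lit 760) (nat_lit 2054989076) (nat_lit 340) (nat_lit 1) (nat_lit 339) (nat_lit 1) (nat_lit 349) (nat_lit 1) (nat_lit 382) (nat_lit 403) (nat_lit 355)) (XT.lf (nat_lit 760) (nat_lit 3474989305) (nat_lit 0) (nat_lit 308173038) (nat_lit 684) (nat_lit 308173038) (nat_lit 340) (nat_lit 1) (nat_lit 330) (nat_lit 1) (nat_lit 339) (nat_lit 1) (nat_lit 383) (nat_lit 403) (nat_lit 354)))) (XT.nd (nat_lit 156) (nat_lit 608) (nat_lit 0) (XT.nd (nat_lit 78) (nat_lit 684) (nat_lit 0) (XT.lf (nat_lit 76) (nat_lit 1414719022) (nat_lit 0) (nat_lit 1227560347) (nat_lit 760) (nat_lit 1414719022) (nat_lit 331) (nat_lit 1) (nat_lit 330)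 (nat_lit 1) (nat_lit 340) (nat_lit 1) (nat_lit 384) (nat_lit 403) (nat_lit 353)) (XT.lf (nat_lit 760) (nat_lit 2188468597) (nat_lit 0) (nat_lit 917353863) (nat_lit 684) (nat_lit 917353863) (nat_lit 331) (nat_lit 1) (nat_lit 321) (nat_lit 1) (nat_lit 330) (nat_lit 1) (nat_lit 385) (nat_lit 403) (nat_lit 352))) (XT.nd (nat_lit 78) (nat_lit 608) (nat_lit 0) (XT.lf (nat_lit 76) (nat_lit 772787004) (nat_lit 0) (nat_lit 2444159243) (nat_lit 760) (nat_lit 772787004) (nat_lit 322) (nat_lit 1) (nat_lit 321) (nat_lit 1) (nat_lit 331) (nat_lit 1) (nat_lit 386) (nat_lit 403) (nat_lit 351)) (XT.lf (nat_lit 684) (nat_lit 899205202) (nat_lit 0) (nat_lit 1528712716) (nat_lit 608) (nat_lit 1528712716) (nat_lit 322) (nat_lit 1) (nat_lit 313) (nat_lit 1) (nat_lit 321) (nat_lit 1) (nat_lit 387) (nat_lit 403) (nat_lit 350))))) (XT.nd (nat_lit 312) (nat_lit 1824) (nat_lit 0) (XT.nd (nat_lit 156) (nat_lit 608) (nat_lit 0) (XT.nd (nat_lit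 78) (nat_lit 684) (nat_lit 0) (XT.lf (nat_lit 76) (nat_lit 129777646) (nat_lit 0) (nat_lit 3664505030) (nat_lit 684) (nat_lit 129777646) (nat_lit 314) (nat_lit 1) (nat_lit 313) (nat_lit 1) (nat_lit 322) (nat_lit 1) (nat_lit 388) (nat_lit 403) (nat_lit 349)) (XT.lf (nat_lit 76) (nat_lit 1752540362) (nat_lit 0) (nat_lit 386524343) (nat_lit 684) (nat_lit 1752540362) (nat_lit 305) (nat_lit 1) (nat_lit 304) (nat_lit 1) (nat_lit 313) (nat_lit 1) (nat_lit 389) (nat_lit 403) (nat_lit 348))) (XT.nd (nat_lit 78) (nat_lit 0) (nat_lit 0) (XT.lf (nat_lit 684) (nat_lit 2838915327) (nat_lit 0) (nat_lit 510377347) (nat_lit 608) (nat_lit 510377347) (nat_lit 305) (nat_lit 1) (nat_lit 296) (nat_lit 1) (nat_lit 304) (nat_lit 1) (nat_lit 390) (nat_lit 403) (nat_lit 347)) (XT.lf (nat_lit 76) (nat_lit 1083505616) (nat_lit 0) (nat_lit 1660981278) (nat_lit 684) (nat_lit 1083505616) (nat_lit 297) (nat_lit 1) (nat_lit 296) (nat_lit 1) (nat_lit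 305) (nat_lit 1) (nat_lit 391) (nat_lit 403) (nat_lit 346)))) (XT.nd (nat_lit 156) (nat_lit 1216) (nat_lit 0) (XT.nd (nat_lit 78) (nat_lit 0) (nat_lit 0) (XT.lf (nat_lit 684) (nat_lit 1497354219) (nat_lit 0) (nat_lit 1149683821) (nat_lit 608) (nat_lit 1149683821) (nat_lit 297) (nat_lit 1) (nat_lit 288) (nat_lit 1) (nat_lit 296) (nat_lit 1) (nat_lit 392) (nat_lit 403) (nat_lit 345)) (XT.lf (nat_lit 76) (nat_lit 415455741) (nat_lit 0) (nat_lit 2934958444) (nat_lit 684) (nat_lit 415455741) (nat_lit 289) (nat_lit 1) (nat_lit 288) (nat_lit 1) (nat_lit 297) (nat_lit 1) (nat_lit 393) (nat_lit 403) (nat_lit 344))) (XT.nd (nat_lit 78) (nat_lit 684) (nat_lit 0) (XT.lf (nat_lit 608) (nat_lit 158227313) (nat_lit 0) (nat_lit 1788508506) (nat_lit 532) (nat_lit 1788508506) (nat_lit 289) (nat_lit 1) (nat_lit 281) (nat_lit 1) (nat_lit 288) (nat_lit 1) (nat_lit 394) (nat_lit 403) (nat_lit 343)) (XT.lf (nat_lit 684) (nat_lit 3206057658)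 (nat_lit 0) (nat_lit 249505064) (nat_lit 608) (nat_lit 249505064) (nat_lit 281) (nat_lit 1) (nat_lit 272) (nat_lit 1) (nat_lit 280) (nat_lit 1) (nat_lit 395) (nat_lit 403) (nat_lit 342))))))))
noncomputable def ec33 : XT := (XT.nd (nat_lit 55146) (nat_lit 0) (nat_lit 14972) (XT.nd (nat_lit 1170) (nat_lit 1368) (nat_lit 0) (XT.nd (nat_lit 546) (nat_lit 2508) (nat_lit 0) (XT.nd (nat_lit 234) (nat_lit 1672) (nat_lit 0) (XT.nd (nat_lit 78) (nat_lit 532) (nat_lit 0) (XT.lf (nat_lit 76) (nat_lit 1256452279) (nat_lit 0) (nat_lit 1162141927) (nat_lit 684) (nat_lit 1256452279) (nat_lit 273) (nat_lit 1) (nat_lit 272) (nat_lit 1) (nat_lit 281) (nat_lit 1) (nat_lit 396) (nat_lit 403) (nat_lit 341)) (XT.nd (nat_lit 78) (nat_lit 0) (nat_lit 0) (XT.lf (nat_lit 608) (nat_lit 1825697025) (nat_lit 0) (nat_lit 909883448) (nat_lit 532) (nat_lit 909883448) (nat_lit 273) (nat_lit 1) (nat_lit 265) (nat_lit 1) (nat_lit 272) (nat_lit 1)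 (nat_lit 397) (nat_lit 403) (nat_lit 340)) (XT.lf (nat_lit 76) (nat_lit 569936720) (nat_lit 0) (nat_lit 2476350894) (nat_lit 608) (nat_lit 569936720) (nat_lit 266) (nat_lit 1) (nat_lit 265) (nat_lit 1) (nat_lit 273) (nat_lit 1) (nat_lit 398) (nat_lit 403) (nat_lit 339)))) (XT.nd (nat_lit 156) (nat_lit 532) (nat_lit 0) (XT.nd (nat_lit 78) (nat_lit 608) (nat_lit 0) (XT.lf (nat_lit 608) (nat_lit 451205596) (nat_lit 0) (nat_lit 1568016515) (nat_lit 532) (nat_lit 1568016515) (nat_lit 266) (nat_lit 1) (nat_lit 258) (nat_lit 1) (nat_lit 265) (nat_lit 1) (nat_lit 399) (nat_lit 403) (nat_lit 338)) (XT.lf (nat_lit 608) (nat_lit 3333249538) (nat_lit 0) (nat_lit 112727000) (nat_lit 532) (nat_lit 112727000) (nat_lit 258) (nat_lit 1) (nat_lit 250) (nat_lit 1) (nat_lit 257) (nat_lit 1) (nat_lit 400) (nat_lit 403) (nat_lit 337))) (XT.nd (nat_lit 78) (nat_lit 532) (nat_lit 0) (XT.lf (nat_lit 76) (nat_lit 1312775933) (nat_lit 0)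 (nat_lit 904685820) (nat_lit 608) (nat_lit 1312775933) (nat_lit 251) (nat_lit 1) (nat_lit 250) (nat_lit 1) (nat_lit 258) (nat_lit 1) (nat_lit 401) (nat_lit 403) (nat_lit 336)) (XT.lf (nat_lit 608) (nat_lit 1925778740) (nat_lit 0) (nat_lit 788217272) (nat_lit 532) (nat_lit 788217272) (nat_lit 251) (nat_lit 1) (nat_lit 243) (nat_lit 1) (nat_lit 250) (nat_lit 1) (nat_lit 402) (nat_lit 403) (nat_lit 335))))) (XT.nd (nat_lit 312) (nat_lit 1444) (nat_lit 0) (XT.nd (nat_lit 156) (nat_lit 608) (nat_lit 0) (XT.nd (nat_lit 78) (nat_lit 456) (nat_lit 0) (XT.lf (nat_lit 76) (nat_lit 613486577) (nat_lit 0) (nat_lit 2247515159) (nat_lit 608) (nat_lit 613486577) (nat_lit 244) (nat_lit 1) (nat_lit 243) (nat_lit 1) (nat_lit 251) (nat_lit 1) (nat_lit 403) (nat_lit 403) (nat_lit 334)) (XT.lf (nat_lit 532) (nat_lit 527083354) (nat_lit 0) (nat_lit 1459966843) (nat_lit 456) (nat_lit 1459966843) (nat_lit 244) (nat_lit 1) (nat_lit 237)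 (nat_lit 1) (nat_lit 243) (nat_lit 1) (nat_lit 404) (nat_lit 403) (nat_lit 333))) (XT.nd (nat_lit 78) (nat_lit 0) (nat_lit 0) (XT.lf (nat_lit 608) (nat_lit 3258469444) (nat_lit 0) (nat_lit 80752085) (nat_lit 532) (nat_lit 80752085) (nat_lit 237) (nat_lit 1) (nat_lit 229) (nat_lit 1) (nat_lit 236) (nat_lit 1) (nat_lit 405) (nat_lit 403) (nat_lit 332)) (XT.lf (nat_lit 76) (nat_lit 1271000675) (nat_lit 0) (nat_lit 850968876) (nat_lit 608) (nat_lit 1271000675) (nat_lit 230) (nat_lit 1) (nat_lit 229) (nat_lit 1) (nat_lit 237) (nat_lit 1) (nat_lit 406) (nat_lit 403) (nat_lit 331)))) (XT.nd (nat_lit 156) (nat_lit 988) (nat_lit 0) (XT.nd (nat_lit 78) (nat_lit 0) (nat_lit 0) (XT.lf (nat_lit 532) (nat_lit 1833983171) (nat_lit 0) (nat_lit 766201685) (nat_lit 456) (nat_lit 766201685) (nat_lit 230) (nat_lit 1) (nat_lit 223) (nat_lit 1) (nat_lit 229) (nat_lit 1) (nat_lit 407) (nat_lit 403) (nat_lit 330)) (XT.lf (nat_lit 76)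 (nat_lit 563851059) (nat_lit 0) (nat_lit 2212383841) (nat_lit 532) (nat_lit 563851059) (nat_lit 224) (nat_lit 1) (nat_lit 223) (nat_lit 1) (nat_lit 230) (nat_lit 1) (nat_lit 408) (nat_lit 403) (nat_lit 329))) (XT.nd (nat_lit 78) (nat_lit 532) (nat_lit 0) (XT.lf (nat_lit 532) (nat_lit 420714556) (nat_lit 0) (nat_lit 1446650561) (nat_lit 456) (nat_lit 1446650561) (nat_lit 224) (nat_lit 1) (nat_lit 217) (nat_lit 1) (nat_lit 223) (nat_lit 1) (nat_lit 409) (nat_lit 403) (nat_lit 328)) (XT.lf (nat_lit 532) (nat_lit 3014944049) (nat_lit 0) (nat_lit 136693094) (nat_lit 456) (nat_lit 136693094) (nat_lit 217) (nat_lit 1) (nat_lit 210) (nat_lit 1) (nat_lit 216) (nat_lit 1) (nat_lit 410) (nat_lit 403) (nat_lit 327)))))) (XT.nd (nat_lit 53352) (nat_lit 0) (nat_lit 23256) (XT.nd (nat_lit 312) (nat_lit 532) (nat_lit 0) (XT.nd (nat_lit 156) (nat_lit 380) (nat_lit 0) (XT.nd (nat_lit 78) (nat_lit 456) (nat_lit 0) (XT.lf (nat_lit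 76) (nat_lit 1147330398) (nat_lit 0) (nat_lit 968042576) (nat_lit 532) (nat_lit 1147330398) (nat_lit 211) (nat_lit 1) (nat_lit 210) (nat_lit 1) (nat_lit 217) (nat_lit 1) (nat_lit 411) (nat_lit 403) (nat_lit 326)) (XT.lf (nat_lit 532) (nat_lit 1582132044) (nat_lit 0) (nat_lit 827661037) (nat_lit 456) (nat_lit 827661037) (nat_lit 211) (nat_lit 1) (nat_lit 204) (nat_lit 1) (nat_lit 210) (nat_lit 1) (nat_lit 412) (nat_lit 403) (nat_lit 325))) (XT.nd (nat_lit 78) (nat_lit 380) (nat_lit 0) (XT.lf (nat_lit 76) (nat_lit 436548374) (nat_lit 0) (nat_lit 2339397755) (nat_lit 532) (nat_lit 436548374) (nat_lit 205) (nat_lit 1) (nat_lit 204) (nat_lit 1) (nat_lit 211) (nat_lit 1) (nat_lit 413) (nat_lit 403) (nat_lit 324)) (XT.lf (nat_lit 456) (nat_lit 162573330) (nat_lit 0) (nat_lit 1512574591) (nat_lit 380) (nat_lit 1512574591) (nat_lit 205) (nat_lit 1) (nat_lit 199) (nat_lit 1) (nat_lit 204) (nat_lit 1) (nat_lit 414) (nat_lit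 403) (nat_lit 323)))) (XT.nd (nat_lit 52884) (nat_lit 0) (nat_lit 23180) (XT.nd (nat_lit 78) (nat_lit 0) (nat_lit 0) (XT.lf (nat_lit 532) (nat_lit 2631701164) (nat_lit 0) (nat_lit 265787269) (nat_lit 456) (nat_lit 265787269) (nat_lit 199) (nat_lit 1) (nat_lit 192) (nat_lit 1) (nat_lit 198) (nat_lit 1) (nat_lit 415) (nat_lit 403) (nat_lit 322)) (XT.lf (nat_lit 76) (nat_lit 955918883) (nat_lit 0) (nat_lit 1227108044) (nat_lit 532) (nat_lit 955918883) (nat_lit 193) (nat_lit 1) (nat_lit 192) (nat_lit 1) (nat_lit 199) (nat_lit 1) (nat_lit 416) (nat_lit 403) (nat_lit 321))) (XT.nd (nat_lit 78) (nat_lit 0) (nat_lit 0) (XT.lf (nat_lit 1900) (nat_lit 1084899421) (nat_lit 0) (nat_lit 1093971703) (nat_lit 1900) (nat_lit 1084899421) (nat_lit 522) (nat_lit 1) (nat_lit 497) (nat_lit 0) (nat_lit 522) (nat_lit 0) (nat_lit 332) (nat_lit 404) (nat_lit 404)) (XT.lf (nat_lit 1900) (nat_lit 4289855429) (nat_lit 76) (nat_lit 1086774521)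 (nat_lit 0) (nat_lit 1086774521) (nat_lit 522) (nat_lit 1) (nat_lit 498) (nat_lit 1) (nat_lit 497) (nat_lit 0) (nat_lit 333) (nat_lit 404) (nat_lit 403))))) (XT.nd (nat_lit 312) (nat_lit 0) (nat_lit 152) (XT.nd (nat_lit 156) (nat_lit 0) (nat_lit 76) (XT.nd (nat_lit 78) (nat_lit 0) (nat_lit 0) (XT.lf (nat_lit 1900) (nat_lit 2106339435) (nat_lit 0) (nat_lit 2187289508) (nat_lit 1824) (nat_lit 2106339435) (nat_lit 523) (nat_lit 1) (nat_lit 498) (nat_lit 1) (nat_lit 522) (nat_lit 1) (nat_lit 334) (nat_lit 404) (nat_lit 402)) (XT.lf (nat_lit 1900) (nat_lit 4122625516) (nat_lit 76) (nat_lit 1107434228) (nat_lit 0) (nat_lit 1107434228) (nat_lit 523) (nat_lit 1) (nat_lit 499) (nat_lit 1) (nat_lit 498) (nat_lit 1) (nat_lit 335) (nat_lit 404) (nat_lit 401))) (XT.nd (nat_lit 78) (nat_lit 0) (nat_lit 0) (XT.lf (nat_lit 1900) (nat_lit 2003517879) (nat_lit 0) (nat_lit 2268673460) (nat_lit 1824) (nat_lit 2003517879) (nat_lit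 524) (nat_lit 1) (nat_lit 499) (nat_lit 1) (nat_lit 523) (nat_lit 1) (nat_lit 336) (nat_lit 404) (nat_lit 400)) (XT.lf (nat_lit 1900) (nat_lit 3878786982) (nat_lit 76) (nat_lit 1168028145) (nat_lit 0) (nat_lit 1168028145) (nat_lit 524) (nat_lit 1) (nat_lit 500) (nat_lit 1) (nat_lit 499) (nat_lit 1) (nat_lit 337) (nat_lit 404) (nat_lit 399)))) (XT.nd (nat_lit 156) (nat_lit 0) (nat_lit 76) (XT.nd (nat_lit 78) (nat_lit 0) (nat_lit 0) (XT.lf (nat_lit 1900) (nat_lit 1863682778) (nat_lit 0) (nat_lit 2427301547) (nat_lit 1824) (nat_lit 1863682778) (nat_lit 525) (nat_lit 1) (nat_lit 500) (nat_lit 1) (nat_lit 524) (nat_lit 1) (nat_lit 338) (nat_lit 404) (nat_lit 398)) (XT.lf (nat_lit 1900) (nat_lit 3562944091) (nat_lit 76) (nat_lit 1266206825) (nat_lit 0) (nat_lit 1266206825) (nat_lit 525) (nat_lit 1) (nat_lit 501) (nat_lit 1) (nat_lit 500) (nat_lit 1) (nat_lit 339) (nat_lit 404) (nat_lit 397))) (XT.nd (nat_lit 78) (nat_lit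 0) (nat_lit 0) (XT.lf (nat_lit 1900) (nat_lit 1689075459) (nat_lit 0) (nat_lit 2658597729) (nat_lit 1824) (nat_lit 1689075459) (nat_lit 526) (nat_lit 1) (nat_lit 501) (nat_lit 1) (nat_lit 525) (nat_lit 1) (nat_lit 340) (nat_lit 404) (nat_lit 396)) (XT.lf (nat_lit 1900) (nat_lit 3179490367) (nat_lit 76) (nat_lit 1399727714) (nat_lit 0) (nat_lit 1399727714) (nat_lit 526) (nat_lit 1) (nat_lit 502) (nat_lit 1) (nat_lit 501) (nat_lit 1) (nat_lit 341) (nat_lit 404) (nat_lit 395))))))) (XT.nd (nat_lit 1170) (nat_lit 7068) (nat_lit 0) (XT.nd (nat_lit 546) (nat_lit 1520) (nat_lit 0) (XT.nd (nat_lit 234) (nat_lit 0) (nat_lit 76) (XT.nd (nat_lit 78) (nat_lit 0) (nat_lit 0) (XT.lf (nat_lit 1900) (nat_lit 1481834446) (nat_lit 0) (nat_lit 2958194572) (nat_lit 1824) (nat_lit 1481834446) (nat_lit 527) (nat_lit 1) (nat_lit 502) (nat_lit 1) (nat_lit 526) (nat_lit 1) (nat_lit 342) (nat_lit 404) (nat_lit 394)) (XT.nd (nat_lit 78)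 (nat_lit 0) (nat_lit 76) (XT.lf (nat_lit 1900) (nat_lit 2732617407) (nat_lit 76) (nat_lit 1566450693) (nat_lit 0) (nat_lit 1566450693) (nat_lit 527) (nat_lit 1) (nat_lit 503) (nat_lit 1) (nat_lit 502) (nat_lit 1) (nat_lit 343) (nat_lit 404) (nat_lit 393)) (XT.lf (nat_lit 1900) (nat_lit 1243999768) (nat_lit 0) (nat_lit 3321924540) (nat_lit 1824) (nat_lit 1243999768) (nat_lit 528) (nat_lit 1) (nat_lit 503) (nat_lit 1) (nat_lit 527) (nat_lit 1) (nat_lit 344) (nat_lit 404) (nat_lit 392)))) (XT.nd (nat_lit 156) (nat_lit 0) (nat_lit 76) (XT.nd (nat_lit 78) (nat_lit 0) (nat_lit 76) (XT.lf (nat_lit 1900) (nat_lit 2226323330) (nat_lit 76) (nat_lit 1764333800) (nat_lit 0) (nat_lit 1764333800) (nat_lit 528) (nat_lit 1) (nat_lit 504) (nat_lit 1) (nat_lit 503) (nat_lit 1) (nat_lit 345) (nat_lit 404) (nat_lit 391)) (XT.lf (nat_lit 1900) (nat_lit 977517082) (nat_lit 0) (nat_lit 3745811643) (nat_lit 1824) (nat_lit 977517082) (nat_lit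 529) (nat_lit 1) (nat_lit 504) (nat_lit 1) (nat_lit 528) (nat_lit 1) (nat_lit 346) (nat_lit 404) (nat_lit 390))) (XT.nd (nat_lit 78) (nat_lit 0) (nat_lit 76) (XT.lf (nat_lit 1900) (nat_lit 1664420898) (nat_lit 76) (nat_lit 1991429125) (nat_lit 0) (nat_lit 1991429125) (nat_lit 529) (nat_lit 1) (nat_lit 505) (nat_lit 1) (nat_lit 504) (nat_lit 1) (nat_lit 347) (nat_lit 404) (nat_lit 389)) (XT.lf (nat_lit 1900) (nat_lit 684241638) (nat_lit 0) (nat_lit 4226063410) (nat_lit 1824) (nat_lit 684241638) (nat_lit 530) (nat_lit 1) (nat_lit 505) (nat_lit 1) (nat_lit 529) (nat_lit 1) (nat_lit 348) (nat_lit 404) (nat_lit 388))))) (XT.nd (nat_lit 312) (nat_lit 1748) (nat_lit 0) (XT.nd (nat_lit 156) (nat_lit 0) (nat_lit 76) (XT.nd (nat_lit 78) (nat_lit 0) (nat_lit 76) (XT.lf (nat_lit 1900) (nat_lit 1050545303) (nat_lit 76) (nat_lit 2245878866) (nat_lit 0) (nat_lit 2245878866) (nat_lit 530) (nat_lit 1) (nat_lit 506) (nat_lit 1)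 (nat_lit 505) (nat_lit 1) (nat_lit 349) (nat_lit 404) (nat_lit 387)) (XT.lf (nat_lit 1900) (nat_lit 365942077) (nat_lit 0) (nat_lit 4759063199) (nat_lit 1824) (nat_lit 365942077) (nat_lit 531) (nat_lit 1) (nat_lit 506) (nat_lit 1) (nat_lit 530) (nat_lit 1) (nat_lit 350) (nat_lit 404) (nat_lit 386))) (XT.nd (nat_lit 78) (nat_lit 0) (nat_lit 76) (XT.lf (nat_lit 1900) (nat_lit 388161638) (nat_lit 76) (nat_lit 2525911547) (nat_lit 0) (nat_lit 2525911547) (nat_lit 531) (nat_lit 1) (nat_lit 507) (nat_lit 1) (nat_lit 506) (nat_lit 1) (nat_lit 351) (nat_lit 404) (nat_lit 385)) (XT.lf (nat_lit 1900) (nat_lit 24304085) (nat_lit 0) (nat_lit 5341362801) (nat_lit 1824) (nat_lit 24304085) (nat_lit 532) (nat_lit 1) (nat_lit 507) (nat_lit 1) (nat_lit 531) (nat_lit 1) (nat_lit 352) (nat_lit 404) (nat_lit 384)))) (XT.nd (nat_lit 156) (nat_lit 0) (nat_lit 76) (XT.nd (nat_lit 78) (nat_lit 0) (nat_lit 0) (XT.lf (nat_lit 1976) (nat_lit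 2512484396) (nat_lit 0) (nat_lit 315238573) (nat_lit 1900) (nat_lit 2512484396) (nat_lit 508) (nat_lit 1) (nat_lit 482) (nat_lit 1) (nat_lit 507) (nat_lit 1) (nat_lit 353) (nat_lit 404) (nat_lit 383)) (XT.lf (nat_lit 1976) (nat_lit 4617695613) (nat_lit 76) (nat_lit 336835410) (nat_lit 0) (nat_lit 336835410) (nat_lit 508) (nat_lit 1) (nat_lit 483) (nat_lit 1) (nat_lit 482) (nat_lit 1) (nat_lit 354) (nat_lit 404) (nat_lit 382))) (XT.nd (nat_lit 78) (nat_lit 0) (nat_lit 0) (XT.lf (nat_lit 1976) (nat_lit 2093913707) (nat_lit 0) (nat_lit 1055056128) (nat_lit 1900) (nat_lit 2093913707) (nat_lit 509) (nat_lit 1) (nat_lit 483) (nat_lit 1) (nat_lit 508) (nat_lit 1) (nat_lit 355) (nat_lit 404) (nat_lit 381)) (XT.lf (nat_lit 1976) (nat_lit 3759446847) (nat_lit 76) (nat_lit 717884175) (nat_lit 0) (nat_lit 717884175) (nat_lit 509) (nat_lit 1) (nat_lit 484) (nat_lit 1) (nat_lit 483) (nat_lit 1) (nat_lit 356) (nat_lit 404) (nat_lit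 380)))))) (XT.nd (nat_lit 624) (nat_lit 3420) (nat_lit 0) (XT.nd (nat_lit 312) (nat_lit 1748) (nat_lit 0) (XT.nd (nat_lit 156) (nat_lit 912) (nat_lit 0) (XT.nd (nat_lit 78) (nat_lit 1140) (nat_lit 0) (XT.lf (nat_lit 76) (nat_lit 1657284449) (nat_lit 0) (nat_lit 1833424449) (nat_lit 1900) (nat_lit 1657284449) (nat_lit 485) (nat_lit 1) (nat_lit 484) (nat_lit 1) (nat_lit 509) (nat_lit 1) (nat_lit 357) (nat_lit 404) (nat_lit 379)) (XT.lf (nat_lit 1216) (nat_lit 2866352045) (nat_lit 0) (nat_lit 1117554431) (nat_lit 1140) (nat_lit 1117554431) (nat_lit 485) (nat_lit 1) (nat_lit 469) (nat_lit 1) (nat_lit 484) (nat_lit 1) (nat_lit 358) (nat_lit 404) (nat_lit 378))) (XT.nd (nat_lit 78) (nat_lit 912) (nat_lit 0) (XT.lf (nat_lit 76) (nat_lit 1203970646) (nat_lit 0) (nat_lit 2647527370) (nat_lit 1216) (nat_lit 1203970646) (nat_lit 470) (nat_lit 1) (nat_lit 469) (nat_lit 1) (nat_lit 485) (nat_lit 1) (nat_lit 359) (nat_lit 404)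 (nat_lit 377)) (XT.lf (nat_lit 988) (nat_lit 1941101044) (nat_lit 0) (nat_lit 1534467827) (nat_lit 912) (nat_lit 1534467827) (nat_lit 470) (nat_lit 1) (nat_lit 457) (nat_lit 1) (nat_lit 469) (nat_lit 1) (nat_lit 360) (nat_lit 404) (nat_lit 376)))) (XT.nd (nat_lit 156) (nat_lit 836) (nat_lit 0) (XT.nd (nat_lit 78) (nat_lit 912) (nat_lit 0) (XT.lf (nat_lit 76) (nat_lit 735279775) (nat_lit 0) (nat_lit 3494683947) (nat_lit 988) (nat_lit 735279775) (nat_lit 458) (nat_lit 1) (nat_lit 457) (nat_lit 1) (nat_lit 470) (nat_lit 1) (nat_lit 361) (nat_lit 404) (nat_lit 375)) (XT.lf (nat_lit 988) (nat_lit 986253021) (nat_lit 0) (nat_lit 1967312382) (nat_lit 912) (nat_lit 1967312382) (nat_lit 458) (nat_lit 1) (nat_lit 445) (nat_lit 1) (nat_lit 457) (nat_lit 1) (nat_lit 362) (nat_lit 404) (nat_lit 374))) (XT.nd (nat_lit 78) (nat_lit 836) (nat_lit 0) (XT.lf (nat_lit 76) (nat_lit 252455609) (nat_lit 0) (nat_lit 4372342701) (nat_lit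 988) (nat_lit 252455609) (nat_lit 446) (nat_lit 1) (nat_lit 445) (nat_lit 1) (nat_lit 458) (nat_lit 1) (nat_lit 363) (nat_lit 404) (nat_lit 373)) (XT.lf (nat_lit 912) (nat_lit 4242080) (nat_lit 0) (nat_lit 2414839659) (nat_lit 836) (nat_lit 2414839659) (nat_lit 446) (nat_lit 1) (nat_lit 434) (nat_lit 1) (nat_lit 445) (nat_lit 1) (nat_lit 364) (nat_lit 404) (nat_lit 372))))) (XT.nd (nat_lit 312) (nat_lit 1596) (nat_lit 0) (XT.nd (nat_lit 156) (nat_lit 836) (nat_lit 0) (XT.nd (nat_lit 78) (nat_lit 0) (nat_lit 0) (XT.lf (nat_lit 988) (nat_lit 4307874632) (nat_lit 0) (nat_lit 241718271) (nat_lit 912) (nat_lit 241718271) (nat_lit 434) (nat_lit 1) (nat_lit 421) (nat_lit 1) (nat_lit 433) (nat_lit 1) (nat_lit 365) (nat_lit 404) (nat_lit 371)) (XT.lf (nat_lit 76) (nat_lit 1879754319) (nat_lit 0) (nat_lit 989467875) (nat_lit 988) (nat_lit 1879754319) (nat_lit 422) (nat_lit 1) (nat_lit 421) (nat_lit 1) (nat_lit 434) (nat_lit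 1) (nat_lit 366) (nat_lit 404) (nat_lit 370))) (XT.nd (nat_lit 78) (nat_lit 0) (nat_lit 0) (XT.lf (nat_lit 912) (nat_lit 3215385264) (nat_lit 0) (nat_lit 745979521) (nat_lit 836) (nat_lit 745979521) (nat_lit 422) (nat_lit 1) (nat_lit 410) (nat_lit 1) (nat_lit 421) (nat_lit 1) (nat_lit 367) (nat_lit 404) (nat_lit 369)) (XT.lf (nat_lit 76) (nat_lit 1330318516) (nat_lit 0) (nat_lit 2005473854) (nat_lit 912) (nat_lit 1330318516) (nat_lit 411) (nat_lit 1) (nat_lit 410) (nat_lit 1) (nat_lit 422) (nat_lit 1) (nat_lit 368) (nat_lit 404) (nat_lit 368)))) (XT.nd (nat_lit 156) (nat_lit 760) (nat_lit 0) (XT.nd (nat_lit 78) (nat_lit 0) (nat_lit 0) (XT.lf (nat_lit 912) (nat_lit 2103572309) (nat_lit 0) (nat_lit 1260927475) (nat_lit 836) (nat_lit 1260927475) (nat_lit 411) (nat_lit 1) (nat_lit 399) (nat_lit 1) (nat_lit 410) (nat_lit 1) (nat_lit 369) (nat_lit 404) (nat_lit 367)) (XT.lf (nat_lit 76) (nat_lit 771749741) (nat_lit 0)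 (nat_lit 3041768716) (nat_lit 912) (nat_lit 771749741) (nat_lit 400) (nat_lit 1) (nat_lit 399) (nat_lit 1) (nat_lit 411) (nat_lit 1) (nat_lit 370) (nat_lit 404) (nat_lit 366))) (XT.nd (nat_lit 78) (nat_lit 0) (nat_lit 0) (XT.lf (nat_lit 836) (nat_lit 974396838) (nat_lit 0) (nat_lit 1785553672) (nat_lit 760) (nat_lit 1785553672) (nat_lit 400) (nat_lit 1) (nat_lit 389) (nat_lit 1) (nat_lit 399) (nat_lit 1) (nat_lit 371) (nat_lit 404) (nat_lit 365)) (XT.lf (nat_lit 76) (nat_lit 205000055) (nat_lit 0) (nat_lit 4096393214) (nat_lit 836) (nat_lit 205000055) (nat_lit 390) (nat_lit 1) (nat_lit 389) (nat_lit 1) (nat_lit 400) (nat_lit 1) (nat_lit 372) (nat_lit 404) (nat_lit 364))))))))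
noncomputable def ec34 : XT := (XT.nd (nat_lit 2340) (nat_lit 3800) (nat_lit 0) (XT.nd (nat_lit 1170) (nat_lit 5092) (nat_lit 0) (XT.nd (nat_lit 546) (nat_lit 3420) (nat_lit 0) (XT.nd (nat_lit 234) (nat_lit 1444) (nat_lit 0) (XT.nd (nat_lit 78) (nat_lit 760) (nat_lit 0) (XT.lf (nat_lit 76) (nat_lit 2149726044) (nat_lit 0) (nat_lit 168046716) (nat_lit 836) (nat_lit 2149726044) (nat_lit 379) (nat_lit 1) (nat_lit 378) (nat_lit 1) (nat_lit 389) (nat_lit 1) (nat_lit 373) (nat_lit 404) (nat_lit 363)) (XT.nd (nat_lit 78) (nat_lit 0) (nat_lit 0) (XT.lf (nat_lit 836) (nat_lit 3696041797) (nat_lit 0) (nat_lit 366599353) (nat_lit 760) (nat_lit 366599353) (nat_lit 379) (nat_lit 1) (nat_lit 368) (nat_lit 1) (nat_lit 378) (nat_lit 1) (nat_lit 374) (nat_lit 404) (nat_lit 362)) (XT.lf (nat_lit 76) (nat_lit 1539992991) (nat_lit 0) (nat_lit 1311266438) (nat_lit 836) (nat_lit 1539992991) (nat_lit 369) (nat_lit 1) (nat_lit 368) (nat_lit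 1) (nat_lit 379) (nat_lit 1) (nat_lit 375) (nat_lit 404) (nat_lit 361)))) (XT.nd (nat_lit 156) (nat_lit 684) (nat_lit 0) (XT.nd (nat_lit 78) (nat_lit 0) (nat_lit 0) (XT.lf (nat_lit 836) (nat_lit 2467382939) (nat_lit 0) (nat_lit 943228555) (nat_lit 760) (nat_lit 943228555) (nat_lit 369) (nat_lit 1) (nat_lit 358) (nat_lit 1) (nat_lit 368) (nat_lit 1) (nat_lit 376) (nat_lit 404) (nat_lit 360)) (XT.lf (nat_lit 76) (nat_lit 925225718) (nat_lit 0) (nat_lit 2466389421) (nat_lit 836) (nat_lit 925225718) (nat_lit 359) (nat_lit 1) (nat_lit 358) (nat_lit 1) (nat_lit 369) (nat_lit 1) (nat_lit 377) (nat_lit 404) (nat_lit 359))) (XT.nd (nat_lit 78) (nat_lit 0) (nat_lit 0) (XT.lf (nat_lit 760) (nat_lit 1229390385) (nat_lit 0) (nat_lit 1525429297) (nat_lit 684) (nat_lit 1525429297) (nat_lit 359) (nat_lit 1) (nat_lit 349) (nat_lit 1) (nat_lit 358) (nat_lit 1) (nat_lit 378) (nat_lit 404) (nat_lit 358)) (XT.lf (nat_lit 76) (nat_lit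 306182671) (nat_lit 0) (nat_lit 3631849605) (nat_lit 760) (nat_lit 306182671) (nat_lit 350) (nat_lit 1) (nat_lit 349) (nat_lit 1) (nat_lit 359) (nat_lit 1) (nat_lit 379) (nat_lit 404) (nat_lit 357))))) (XT.nd (nat_lit 312) (nat_lit 1292) (nat_lit 0) (XT.nd (nat_lit 156) (nat_lit 684) (nat_lit 0) (XT.nd (nat_lit 78) (nat_lit 684) (nat_lit 0) (XT.lf (nat_lit 76) (nat_lit 2096088857) (nat_lit 0) (nat_lit 16239108) (nat_lit 760) (nat_lit 2096088857) (nat_lit 340) (nat_lit 1) (nat_lit 339) (nat_lit 1) (nat_lit 349) (nat_lit 1) (nat_lit 380) (nat_lit 404) (nat_lit 356)) (XT.lf (nat_lit 760) (nat_lit 3544489091) (nat_lit 0) (nat_lit 314336499) (nat_lit 684) (nat_lit 314336499) (nat_lit 340) (nat_lit 1) (nat_lit 330) (nat_lit 1) (nat_lit 339) (nat_lit 1) (nat_lit 381) (nat_lit 404) (nat_lit 355))) (XT.nd (nat_lit 78) (nat_lit 684) (nat_lit 0) (XT.lf (nat_lit 76) (nat_lit 1443013402) (nat_lit 0) (nat_lit 1252111554) (nat_lit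 760) (nat_lit 1443013402) (nat_lit 331) (nat_lit 1) (nat_lit 330) (nat_lit 1) (nat_lit 340) (nat_lit 1) (nat_lit 382) (nat_lit 404) (nat_lit 354)) (XT.lf (nat_lit 760) (nat_lit 2232237969) (nat_lit 0) (nat_lit 935700940) (nat_lit 684) (nat_lit 935700940) (nat_lit 331) (nat_lit 1) (nat_lit 321) (nat_lit 1) (nat_lit 330) (nat_lit 1) (nat_lit 383) (nat_lit 404) (nat_lit 353)))) (XT.nd (nat_lit 156) (nat_lit 684) (nat_lit 0) (XT.nd (nat_lit 78) (nat_lit 608) (nat_lit 0) (XT.lf (nat_lit 76) (nat_lit 788242744) (nat_lit 0) (nat_lit 2493042428) (nat_lit 760) (nat_lit 788242744) (nat_lit 322) (nat_lit 1) (nat_lit 321) (nat_lit 1) (nat_lit 331) (nat_lit 1) (nat_lit 384) (nat_lit 404) (nat_lit 352)) (XT.lf (nat_lit 684) (nat_lit 917189306) (nat_lit 0) (nat_lit 1559286970) (nat_lit 608) (nat_lit 1559286970) (nat_lit 322) (nat_lit 1) (nat_lit 313) (nat_lit 1) (nat_lit 321) (nat_lit 1) (nat_lit 385) (nat_lit 404) (nat_lit 351)))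 (XT.nd (nat_lit 78) (nat_lit 684) (nat_lit 0) (XT.lf (nat_lit 76) (nat_lit 132373199) (nat_lit 0) (nat_lit 3737795131) (nat_lit 684) (nat_lit 132373199) (nat_lit 314) (nat_lit 1) (nat_lit 313) (nat_lit 1) (nat_lit 322) (nat_lit 1) (nat_lit 386) (nat_lit 404) (nat_lit 350)) (XT.lf (nat_lit 76) (nat_lit 1787591169) (nat_lit 0) (nat_lit 394254830) (nat_lit 684) (nat_lit 1787591169) (nat_lit 305) (nat_lit 1) (nat_lit 304) (nat_lit 1) (nat_lit 313) (nat_lit 1) (nat_lit 387) (nat_lit 404) (nat_lit 349)))))) (XT.nd (nat_lit 546) (nat_lit 2660) (nat_lit 0) (XT.nd (nat_lit 234) (nat_lit 1216) (nat_lit 0) (XT.nd (nat_lit 78) (nat_lit 608) (nat_lit 0) (XT.lf (nat_lit 684) (nat_lit 2895693633) (nat_lit 0) (nat_lit 520584894) (nat_lit 608) (nat_lit 520584894) (nat_lit 305) (nat_lit 1) (nat_lit 296) (nat_lit 1) (nat_lit 304) (nat_lit 1) (nat_lit 388) (nat_lit 404) (nat_lit 348)) (XT.nd (nat_lit 78) (nat_lit 608) (nat_lit 0)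 (XT.lf (nat_lit 76) (nat_lit 1105175728) (nat_lit 0) (nat_lit 1694200904) (nat_lit 684) (nat_lit 1105175728) (nat_lit 297) (nat_lit 1) (nat_lit 296) (nat_lit 1) (nat_lit 305) (nat_lit 1) (nat_lit 389) (nat_lit 404) (nat_lit 347)) (XT.lf (nat_lit 684) (nat_lit 1527301303) (nat_lit 0) (nat_lit 1172677497) (nat_lit 608) (nat_lit 1172677497) (nat_lit 297) (nat_lit 1) (nat_lit 288) (nat_lit 1) (nat_lit 296) (nat_lit 1) (nat_lit 390) (nat_lit 404) (nat_lit 346)))) (XT.nd (nat_lit 156) (nat_lit 684) (nat_lit 0) (XT.nd (nat_lit 78) (nat_lit 532) (nat_lit 0) (XT.lf (nat_lit 76) (nat_lit 423764856) (nat_lit 0) (nat_lit 2993657613) (nat_lit 684) (nat_lit 423764856) (nat_lit 289) (nat_lit 1) (nat_lit 288) (nat_lit 1) (nat_lit 297) (nat_lit 1) (nat_lit 391) (nat_lit 404) (nat_lit 345)) (XT.lf (nat_lit 608) (nat_lit 161391860) (nat_lit 0) (nat_lit 1824278676) (nat_lit 532) (nat_lit 1824278676) (nat_lit 289) (nat_lit 1) (nat_lit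 281) (nat_lit 1) (nat_lit 288) (nat_lit 1) (nat_lit 392) (nat_lit 404) (nat_lit 344))) (XT.nd (nat_lit 78) (nat_lit 0) (nat_lit 0) (XT.lf (nat_lit 684) (nat_lit 3270178811) (nat_lit 0) (nat_lit 254495166) (nat_lit 608) (nat_lit 254495166) (nat_lit 281) (nat_lit 1) (nat_lit 272) (nat_lit 1) (nat_lit 280) (nat_lit 1) (nat_lit 393) (nat_lit 404) (nat_lit 343)) (XT.lf (nat_lit 76) (nat_lit 1281581324) (nat_lit 0) (nat_lit 1185384766) (nat_lit 684) (nat_lit 1281581324) (nat_lit 273) (nat_lit 1) (nat_lit 272) (nat_lit 1) (nat_lit 281) (nat_lit 1) (nat_lit 394) (nat_lit 404) (nat_lit 342))))) (XT.nd (nat_lit 312) (nat_lit 988) (nat_lit 0) (XT.nd (nat_lit 156) (nat_lit 1140) (nat_lit 0) (XT.nd (nat_lit 78) (nat_lit 0) (nat_lit 0) (XT.lf (nat_lit 608) (nat_lit 1862210966) (nat_lit 0) (nat_lit 928081117) (nat_lit 532) (nat_lit 928081117) (nat_lit 273) (nat_lit 1) (nat_lit 265) (nat_lit 1) (nat_lit 272) (nat_lit 1) (nat_lit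 395) (nat_lit 404) (nat_lit 341)) (XT.lf (nat_lit 76) (nat_lit 581335455) (nat_lit 0) (nat_lit 2525877912) (nat_lit 608) (nat_lit 581335455) (nat_lit 266) (nat_lit 1) (nat_lit 265) (nat_lit 1) (nat_lit 273) (nat_lit 1) (nat_lit 396) (nat_lit 404) (nat_lit 340))) (XT.nd (nat_lit 78) (nat_lit 608) (nat_lit 0) (XT.lf (nat_lit 608) (nat_lit 460229708) (nat_lit 0) (nat_lit 1599376846) (nat_lit 532) (nat_lit 1599376846) (nat_lit 266) (nat_lit 1) (nat_lit 258) (nat_lit 1) (nat_lit 265) (nat_lit 1) (nat_lit 397) (nat_lit 404) (nat_lit 339)) (XT.lf (nat_lit 608) (nat_lit 3399914529) (nat_lit 0) (nat_lit 114981540) (nat_lit 532) (nat_lit 114981540) (nat_lit 258) (nat_lit 1) (nat_lit 250) (nat_lit 1) (nat_lit 257) (nat_lit 1) (nat_lit 398) (nat_lit 404) (nat_lit 338)))) (XT.nd (nat_lit 156) (nat_lit 456) (nat_lit 0) (XT.nd (nat_lit 78) (nat_lit 532) (nat_lit 0) (XT.lf (nat_lit 76) (nat_lit 1339031452) (nat_lit 0) (nat_lit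 922779536) (nat_lit 608) (nat_lit 1339031452) (nat_lit 251) (nat_lit 1) (nat_lit 250) (nat_lit 1) (nat_lit 258) (nat_lit 1) (nat_lit 399) (nat_lit 404) (nat_lit 337)) (XT.lf (nat_lit 608) (nat_lit 1964294315) (nat_lit 0) (nat_lit 803981618) (nat_lit 532) (nat_lit 803981618) (nat_lit 251) (nat_lit 1) (nat_lit 243) (nat_lit 1) (nat_lit 250) (nat_lit 1) (nat_lit 400) (nat_lit 404) (nat_lit 336))) (XT.nd (nat_lit 78) (nat_lit 456) (nat_lit 0) (XT.lf (nat_lit 76) (nat_lit 625756308) (nat_lit 0) (nat_lit 2292465462) (nat_lit 608) (nat_lit 625756308) (nat_lit 244) (nat_lit 1) (nat_lit 243) (nat_lit 1) (nat_lit 251) (nat_lit 1) (nat_lit 401) (nat_lit 404) (nat_lit 335)) (XT.lf (nat_lit 532) (nat_lit 537625021) (nat_lit 0) (nat_lit 1489166180) (nat_lit 456) (nat_lit 1489166180) (nat_lit 244) (nat_lit 1) (nat_lit 237) (nat_lit 1) (nat_lit 243) (nat_lit 1) (nat_lit 402) (nat_lit 404) (nat_lit 334))))))) (XT.nd (nat_lit 53820)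 (nat_lit 0) (nat_lit 23636) (XT.nd (nat_lit 546) (nat_lit 1748) (nat_lit 0) (XT.nd (nat_lit 234) (nat_lit 988) (nat_lit 0) (XT.nd (nat_lit 78) (nat_lit 456) (nat_lit 0) (XT.lf (nat_lit 608) (nat_lit 3323638833) (nat_lit 0) (nat_lit 82367127) (nat_lit 532) (nat_lit 82367127) (nat_lit 237) (nat_lit 1) (nat_lit 229) (nat_lit 1) (nat_lit 236) (nat_lit 1) (nat_lit 403) (nat_lit 404) (nat_lit 333)) (XT.nd (nat_lit 78) (nat_lit 456) (nat_lit 0) (XT.lf (nat_lit 76) (nat_lit 1296420688) (nat_lit 0) (nat_lit 867988253) (nat_lit 608) (nat_lit 1296420688) (nat_lit 230) (nat_lit 1) (nat_lit 229) (nat_lit 1) (nat_lit 237) (nat_lit 1) (nat_lit 404) (nat_lit 404) (nat_lit 332)) (XT.lf (nat_lit 532) (nat_lit 1870662835) (nat_lit 0) (nat_lit 781525719) (nat_lit 456) (nat_lit 781525719) (nat_lit 230) (nat_lit 1) (nat_lit 223) (nat_lit 1) (nat_lit 229) (nat_lit 1) (nat_lit 405) (nat_lit 404) (nat_lit 331)))) (XT.nd (nat_lit 156) (nat_lit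 532) (nat_lit 0) (XT.nd (nat_lit 78) (nat_lit 456) (nat_lit 0) (XT.lf (nat_lit 76) (nat_lit 575128080) (nat_lit 0) (nat_lit 2256631518) (nat_lit 532) (nat_lit 575128080) (nat_lit 224) (nat_lit 1) (nat_lit 223) (nat_lit 1) (nat_lit 230) (nat_lit 1) (nat_lit 406) (nat_lit 404) (nat_lit 330)) (XT.lf (nat_lit 532) (nat_lit 429128847) (nat_lit 0) (nat_lit 1475583572) (nat_lit 456) (nat_lit 1475583572) (nat_lit 224) (nat_lit 1) (nat_lit 217) (nat_lit 1) (nat_lit 223) (nat_lit 1) (nat_lit 407) (nat_lit 404) (nat_lit 329))) (XT.nd (nat_lit 78) (nat_lit 0) (nat_lit 0) (XT.lf (nat_lit 532) (nat_lit 3075242930) (nat_lit 0) (nat_lit 139426956) (nat_lit 456) (nat_lit 139426956) (nat_lit 217) (nat_lit 1) (nat_lit 210) (nat_lit 1) (nat_lit 216) (nat_lit 1) (nat_lit 408) (nat_lit 404) (nat_lit 328)) (XT.lf (nat_lit 76) (nat_lit 1170277006) (nat_lit 0) (nat_lit 987403427) (nat_lit 532) (nat_lit 1170277006) (nat_lit 211) (nat_lit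 1) (nat_lit 210) (nat_lit 1) (nat_lit 217) (nat_lit 1) (nat_lit 409) (nat_lit 404) (nat_lit 327))))) (XT.nd (nat_lit 312) (nat_lit 380) (nat_lit 0) (XT.nd (nat_lit 156) (nat_lit 912) (nat_lit 0) (XT.nd (nat_lit 78) (nat_lit 0) (nat_lit 0) (XT.lf (nat_lit 532) (nat_lit 1613774685) (nat_lit 0) (nat_lit 844214258) (nat_lit 456) (nat_lit 844214258) (nat_lit 211) (nat_lit 1) (nat_lit 204) (nat_lit 1) (nat_lit 210) (nat_lit 1) (nat_lit 410) (nat_lit 404) (nat_lit 326)) (XT.lf (nat_lit 76) (nat_lit 445279341) (nat_lit 0) (nat_lit 2386185710) (nat_lit 532) (nat_lit 445279341) (nat_lit 205) (nat_lit 1) (nat_lit 204) (nat_lit 1) (nat_lit 211) (nat_lit 1) (nat_lit 411) (nat_lit 404) (nat_lit 325))) (XT.nd (nat_lit 78) (nat_lit 532) (nat_lit 0) (XT.lf (nat_lit 456) (nat_lit 165824797) (nat_lit 0) (nat_lit 1542826083) (nat_lit 380) (nat_lit 1542826083) (nat_lit 205) (nat_lit 1) (nat_lit 199) (nat_lit 1) (nat_lit 204) (nat_lit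 1) (nat_lit 412) (nat_lit 404) (nat_lit 324)) (XT.lf (nat_lit 532) (nat_lit 2684335187) (nat_lit 0) (nat_lit 271103014) (nat_lit 456) (nat_lit 271103014) (nat_lit 199) (nat_lit 1) (nat_lit 192) (nat_lit 1) (nat_lit 198) (nat_lit 1) (nat_lit 413) (nat_lit 404) (nat_lit 323)))) (XT.nd (nat_lit 52806) (nat_lit 0) (nat_lit 23560) (XT.nd (nat_lit 78) (nat_lit 380) (nat_lit 0) (XT.lf (nat_lit 76) (nat_lit 975037260) (nat_lit 0) (nat_lit 1251650205) (nat_lit 532) (nat_lit 975037260) (nat_lit 193) (nat_lit 1) (nat_lit 192) (nat_lit 1) (nat_lit 199) (nat_lit 1) (nat_lit 414) (nat_lit 404) (nat_lit 322)) (XT.lf (nat_lit 456) (nat_lit 1221976582) (nat_lit 0) (nat_lit 977628394) (nat_lit 380) (nat_lit 977628394) (nat_lit 193) (nat_lit 1) (nat_lit 187) (nat_lit 1) (nat_lit 192) (nat_lit 1) (nat_lit 415) (nat_lit 404) (nat_lit 321))) (XT.nd (nat_lit 78) (nat_lit 0) (nat_lit 0) (XT.lf (nat_lit 1900) (nat_lit 1106597410) (nat_lit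 0) (nat_lit 1115851138) (nat_lit 1900) (nat_lit 1106597410) (nat_lit 522) (nat_lit 1) (nat_lit 497) (nat_lit 0) (nat_lit 522) (nat_lit 0) (nat_lit 330) (nat_lit 405) (nat_lit 405)) (XT.lf (nat_lit 1900) (nat_lit 4375652537) (nat_lit 76) (nat_lit 1108510012) (nat_lit 0) (nat_lit 1108510012) (nat_lit 522) (nat_lit 1) (nat_lit 498) (nat_lit 1) (nat_lit 497) (nat_lit 0) (nat_lit 331) (nat_lit 405) (nat_lit 404)))))) (XT.nd (nat_lit 624) (nat_lit 0) (nat_lit 304) (XT.nd (nat_lit 312) (nat_lit 0) (nat_lit 152) (XT.nd (nat_lit 156) (nat_lit 0) (nat_lit 76) (XT.nd (nat_lit 78) (nat_lit 0) (nat_lit 0) (XT.lf (nat_lit 1900) (nat_lit 2148466224) (nat_lit 0) (nat_lit 2231035298) (nat_lit 1824) (nat_lit 2148466224) (nat_lit 523) (nat_lit 1) (nat_lit 498) (nat_lit 1) (nat_lit 522) (nat_lit 1) (nat_lit 332) (nat_lit 405) (nat_lit 403)) (XT.lf (nat_lit 1900) (nat_lit 4205078026) (nat_lit 76) (nat_lit 1129582912) (nat_lit 0) (nat_lit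 1129582912) (nat_lit 523) (nat_lit 1) (nat_lit 499) (nat_lit 1) (nat_lit 498) (nat_lit 1) (nat_lit 333) (nat_lit 405) (nat_lit 402))) (XT.nd (nat_lit 78) (nat_lit 0) (nat_lit 0) (XT.lf (nat_lit 1900) (nat_lit 2043588236) (nat_lit 0) (nat_lit 2314046929) (nat_lit 1824) (nat_lit 2043588236) (nat_lit 524) (nat_lit 1) (nat_lit 499) (nat_lit 1) (nat_lit 523) (nat_lit 1) (nat_lit 334) (nat_lit 405) (nat_lit 401)) (XT.lf (nat_lit 1900) (nat_lit 3956362722) (nat_lit 76) (nat_lit 1191388708) (nat_lit 0) (nat_lit 1191388708) (nat_lit 524) (nat_lit 1) (nat_lit 500) (nat_lit 1) (nat_lit 499) (nat_lit 1) (nat_lit 335) (nat_lit 405) (nat_lit 400)))) (XT.nd (nat_lit 156) (nat_lit 0) (nat_lit 76) (XT.nd (nat_lit 78) (nat_lit 0) (nat_lit 0) (XT.lf (nat_lit 1900) (nat_lit 1900956434) (nat_lit 0) (nat_lit 2475847578) (nat_lit 1824) (nat_lit 1900956434) (nat_lit 525) (nat_lit 1) (nat_lit 500) (nat_lit 1) (nat_lit 524) (nat_lit 1)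 (nat_lit 336) (nat_lit 405) (nat_lit 399)) (XT.lf (nat_lit 1900) (nat_lit 3634202973) (nat_lit 76) (nat_lit 1291530962) (nat_lit 0) (nat_lit 1291530962) (nat_lit 525) (nat_lit 1) (nat_lit 501) (nat_lit 1) (nat_lit 500) (nat_lit 1) (nat_lit 337) (nat_lit 405) (nat_lit 398))) (XT.nd (nat_lit 78) (nat_lit 0) (nat_lit 0) (XT.lf (nat_lit 1900) (nat_lit 1722856968) (nat_lit 0) (nat_lit 2711769684) (nat_lit 1824) (nat_lit 1722856968) (nat_lit 526) (nat_lit 1) (nat_lit 501) (nat_lit 1) (nat_lit 525) (nat_lit 1) (nat_lit 338) (nat_lit 405) (nat_lit 397)) (XT.lf (nat_lit 1900) (nat_lit 3243080175) (nat_lit 76) (nat_lit 1427722268) (nat_lit 0) (nat_lit 1427722268) (nat_lit 526) (nat_lit 1) (nat_lit 502) (nat_lit 1) (nat_lit 501) (nat_lit 1) (nat_lit 339) (nat_lit 405) (nat_lit 396))))) (XT.nd (nat_lit 312) (nat_lit 0) (nat_lit 152) (XT.nd (nat_lit 156) (nat_lit 0) (nat_lit 76) (XT.nd (nat_lit 78) (nat_lit 0) (nat_lit 0) (XT.lf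 (nat_lit 1900) (nat_lit 1511471135) (nat_lit 0) (nat_lit 3017358463) (nat_lit 1824) (nat_lit 1511471135) (nat_lit 527) (nat_lit 1) (nat_lit 502) (nat_lit 1) (nat_lit 526) (nat_lit 1) (nat_lit 340) (nat_lit 405) (nat_lit 395)) (XT.lf (nat_lit 1900) (nat_lit 2787269755) (nat_lit 76) (nat_lit 1597779706) (nat_lit 0) (nat_lit 1597779706) (nat_lit 527) (nat_lit 1) (nat_lit 503) (nat_lit 1) (nat_lit 502) (nat_lit 1) (nat_lit 341) (nat_lit 405) (nat_lit 394))) (XT.nd (nat_lit 78) (nat_lit 0) (nat_lit 0) (XT.lf (nat_lit 1900) (nat_lit 1268879764) (nat_lit 0) (nat_lit 3388363031) (nat_lit 1824) (nat_lit 1268879764) (nat_lit 528) (nat_lit 1) (nat_lit 503) (nat_lit 1) (nat_lit 527) (nat_lit 1) (nat_lit 342) (nat_lit 405) (nat_lit 393)) (XT.lf (nat_lit 1900) (nat_lit 2270849796) (nat_lit 76) (nat_lit 1799620476) (nat_lit 0) (nat_lit 1799620476) (nat_lit 528) (nat_lit 1) (nat_lit 504) (nat_lit 1) (nat_lit 503) (nat_lit 1) (nat_lit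 343) (nat_lit 405) (nat_lit 392)))) (XT.nd (nat_lit 156) (nat_lit 0) (nat_lit 76) (XT.nd (nat_lit 78) (nat_lit 0) (nat_lit 0) (XT.lf (nat_lit 1900) (nat_lit 997067424) (nat_lit 0) (nat_lit 3820727876) (nat_lit 1824) (nat_lit 997067424) (nat_lit 529) (nat_lit 1) (nat_lit 504) (nat_lit 1) (nat_lit 528) (nat_lit 1) (nat_lit 344) (nat_lit 405) (nat_lit 391)) (XT.lf (nat_lit 1900) (nat_lit 1697709316) (nat_lit 76) (nat_lit 2031257708) (nat_lit 0) (nat_lit 2031257708) (nat_lit 529) (nat_lit 1) (nat_lit 505) (nat_lit 1) (nat_lit 504) (nat_lit 1) (nat_lit 345) (nat_lit 405) (nat_lit 390))) (XT.nd (nat_lit 78) (nat_lit 0) (nat_lit 0) (XT.lf (nat_lit 1900) (nat_lit 697926471) (nat_lit 0) (nat_lit 4310584679) (nat_lit 1824) (nat_lit 697926471) (nat_lit 530) (nat_lit 1) (nat_lit 505) (nat_lit 1) (nat_lit 529) (nat_lit 1) (nat_lit 346) (nat_lit 405) (nat_lit 389)) (XT.lf (nat_lit 1900) (nat_lit 1071556209) (nat_lit 76) (nat_lit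 2290796443) (nat_lit 0) (nat_lit 2290796443) (nat_lit 530) (nat_lit 1) (nat_lit 506) (nat_lit 1) (nat_lit 505) (nat_lit 1) (nat_lit 347) (nat_lit 405) (nat_lit 388))))))))
noncomputable def ec35 : XT := (XT.nd (nat_lit 2418) (nat_lit 10260) (nat_lit 0) (XT.nd (nat_lit 1170) (nat_lit 7220) (nat_lit 0) (XT.nd (nat_lit 546) (nat_lit 3648) (nat_lit 0) (XT.nd (nat_lit 234) (nat_lit 1824) (nat_lit 0) (XT.nd (nat_lit 78) (nat_lit 0) (nat_lit 0) (XT.lf (nat_lit 1900) (nat_lit 373260919) (nat_lit 0) (nat_lit 4854244463) (nat_lit 1824) (nat_lit 373260919) (nat_lit 531) (nat_lit 1) (nat_lit 506) (nat_lit 1) (nat_lit 530) (nat_lit 1) (nat_lit 348) (nat_lit 405) (nat_lit 387)) (XT.nd (nat_lit 78) (nat_lit 0) (nat_lit 76) (XT.lf (nat_lit 1900) (nat_lit 395924871) (nat_lit 76) (nat_lit 2576429777) (nat_lit 0) (nat_lit 2576429777) (nat_lit 531) (nat_lit 1) (nat_lit 507) (nat_lit 1) (nat_lit 506) (nat_lit 1) (nat_lit 349) (nat_lit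 405) (nat_lit 386)) (XT.lf (nat_lit 1900) (nat_lit 24790167) (nat_lit 0) (nat_lit 5448190057) (nat_lit 1824) (nat_lit 24790167) (nat_lit 532) (nat_lit 1) (nat_lit 507) (nat_lit 1) (nat_lit 531) (nat_lit 1) (nat_lit 350) (nat_lit 405) (nat_lit 385)))) (XT.nd (nat_lit 156) (nat_lit 0) (nat_lit 76) (XT.nd (nat_lit 78) (nat_lit 0) (nat_lit 0) (XT.lf (nat_lit 1976) (nat_lit 2562734084) (nat_lit 0) (nat_lit 321543345) (nat_lit 1900) (nat_lit 2562734084) (nat_lit 508) (nat_lit 1) (nat_lit 482) (nat_lit 1) (nat_lit 507) (nat_lit 1) (nat_lit 351) (nat_lit 405) (nat_lit 384)) (XT.lf (nat_lit 1976) (nat_lit 4710049525) (nat_lit 76) (nat_lit 343572118) (nat_lit 0) (nat_lit 343572118) (nat_lit 508) (nat_lit 1) (nat_lit 483) (nat_lit 1) (nat_lit 482) (nat_lit 1) (nat_lit 352) (nat_lit 405) (nat_lit 383))) (XT.nd (nat_lit 78) (nat_lit 0) (nat_lit 0) (XT.lf (nat_lit 1976) (nat_lit 2135791982) (nat_lit 0) (nat_lit 1076157251) (nat_lit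 1900) (nat_lit 2135791982) (nat_lit 509) (nat_lit 1) (nat_lit 483) (nat_lit 1) (nat_lit 508) (nat_lit 1) (nat_lit 353) (nat_lit 405) (nat_lit 382)) (XT.lf (nat_lit 1976) (nat_lit 3834635784) (nat_lit 76) (nat_lit 732241858) (nat_lit 0) (nat_lit 732241858) (nat_lit 509) (nat_lit 1) (nat_lit 484) (nat_lit 1) (nat_lit 483) (nat_lit 1) (nat_lit 354) (nat_lit 405) (nat_lit 381))))) (XT.nd (nat_lit 312) (nat_lit 1748) (nat_lit 0) (XT.nd (nat_lit 156) (nat_lit 912) (nat_lit 0) (XT.nd (nat_lit 78) (nat_lit 1140) (nat_lit 0) (XT.lf (nat_lit 76) (nat_lit 1690430138) (nat_lit 0) (nat_lit 1870092938) (nat_lit 1900) (nat_lit 1690430138) (nat_lit 485) (nat_lit 1) (nat_lit 484) (nat_lit 1) (nat_lit 509) (nat_lit 1) (nat_lit 355) (nat_lit 405) (nat_lit 380)) (XT.lf (nat_lit 1216) (nat_lit 2923679086) (nat_lit 0) (nat_lit 1139905520) (nat_lit 1140) (nat_lit 1139905520) (nat_lit 485) (nat_lit 1) (nat_lit 469) (nat_lit 1) (nat_lit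 484) (nat_lit 1) (nat_lit 356) (nat_lit 405) (nat_lit 379))) (XT.nd (nat_lit 78) (nat_lit 912) (nat_lit 0) (XT.lf (nat_lit 76) (nat_lit 1228050059) (nat_lit 0) (nat_lit 2700477917) (nat_lit 1216) (nat_lit 1228050059) (nat_lit 470) (nat_lit 1) (nat_lit 469) (nat_lit 1) (nat_lit 485) (nat_lit 1) (nat_lit 357) (nat_lit 405) (nat_lit 378)) (XT.lf (nat_lit 988) (nat_lit 1979923065) (nat_lit 0) (nat_lit 1565157183) (nat_lit 912) (nat_lit 1565157183) (nat_lit 470) (nat_lit 1) (nat_lit 457) (nat_lit 1) (nat_lit 469) (nat_lit 1) (nat_lit 358) (nat_lit 405) (nat_lit 377)))) (XT.nd (nat_lit 156) (nat_lit 836) (nat_lit 0) (XT.nd (nat_lit 78) (nat_lit 912) (nat_lit 0) (XT.lf (nat_lit 76) (nat_lit 749985371) (nat_lit 0) (nat_lit 3564577626) (nat_lit 988) (nat_lit 749985371) (nat_lit 458) (nat_lit 1) (nat_lit 457) (nat_lit 1) (nat_lit 470) (nat_lit 1) (nat_lit 359) (nat_lit 405) (nat_lit 376)) (XT.lf (nat_lit 988) (nat_lit 1005978081)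 (nat_lit 0) (nat_lit 2006658630) (nat_lit 912) (nat_lit 2006658630) (nat_lit 458) (nat_lit 1) (nat_lit 445) (nat_lit 1) (nat_lit 457) (nat_lit 1) (nat_lit 360) (nat_lit 405) (nat_lit 375))) (XT.nd (nat_lit 78) (nat_lit 836) (nat_lit 0) (XT.lf (nat_lit 76) (nat_lit 257504722) (nat_lit 0) (nat_lit 4459789555) (nat_lit 988) (nat_lit 257504722) (nat_lit 446) (nat_lit 1) (nat_lit 445) (nat_lit 1) (nat_lit 458) (nat_lit 1) (nat_lit 361) (nat_lit 405) (nat_lit 374)) (XT.lf (nat_lit 912) (nat_lit 4326922) (nat_lit 0) (nat_lit 2463136452) (nat_lit 836) (nat_lit 2463136452) (nat_lit 446) (nat_lit 1) (nat_lit 434) (nat_lit 1) (nat_lit 445) (nat_lit 1) (nat_lit 362) (nat_lit 405) (nat_lit 373)))))) (XT.nd (nat_lit 624) (nat_lit 3800) (nat_lit 0) (XT.nd (nat_lit 312) (nat_lit 1596) (nat_lit 0) (XT.nd (nat_lit 156) (nat_lit 836) (nat_lit 0) (XT.nd (nat_lit 78) (nat_lit 0) (nat_lit 0) (XT.lf (nat_lit 988) (nat_lit 4394032125)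 (nat_lit 0) (nat_lit 246552636) (nat_lit 912) (nat_lit 246552636) (nat_lit 434) (nat_lit 1) (nat_lit 421) (nat_lit 1) (nat_lit 433) (nat_lit 1) (nat_lit 363) (nat_lit 405) (nat_lit 372)) (XT.lf (nat_lit 76) (nat_lit 1917349406) (nat_lit 0) (nat_lit 1009257233) (nat_lit 988) (nat_lit 1917349406) (nat_lit 422) (nat_lit 1) (nat_lit 421) (nat_lit 1) (nat_lit 434) (nat_lit 1) (nat_lit 364) (nat_lit 405) (nat_lit 371))) (XT.nd (nat_lit 78) (nat_lit 0) (nat_lit 0) (XT.lf (nat_lit 912) (nat_lit 3279692969) (nat_lit 0) (nat_lit 760899111) (nat_lit 836) (nat_lit 760899111) (nat_lit 422) (nat_lit 1) (nat_lit 410) (nat_lit 1) (nat_lit 421) (nat_lit 1) (nat_lit 365) (nat_lit 405) (nat_lit 370)) (XT.lf (nat_lit 76) (nat_lit 1356924886) (nat_lit 0) (nat_lit 2045583331) (nat_lit 912) (nat_lit 1356924886) (nat_lit 411) (nat_lit 1) (nat_lit 410) (nat_lit 1) (nat_lit 422) (nat_lit 1) (nat_lit 366) (nat_lit 405) (nat_lit 369)))) (XT.nd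 (nat_lit 156) (nat_lit 760) (nat_lit 0) (XT.nd (nat_lit 78) (nat_lit 0) (nat_lit 0) (XT.lf (nat_lit 912) (nat_lit 2145643755) (nat_lit 0) (nat_lit 1286146025) (nat_lit 836) (nat_lit 1286146025) (nat_lit 411) (nat_lit 1) (nat_lit 399) (nat_lit 1) (nat_lit 410) (nat_lit 1) (nat_lit 367) (nat_lit 405) (nat_lit 368)) (XT.lf (nat_lit 76) (nat_lit 787184735) (nat_lit 0) (nat_lit 3102604090) (nat_lit 912) (nat_lit 787184735) (nat_lit 400) (nat_lit 1) (nat_lit 399) (nat_lit 1) (nat_lit 411) (nat_lit 1) (nat_lit 368) (nat_lit 405) (nat_lit 367))) (XT.nd (nat_lit 78) (nat_lit 0) (nat_lit 0) (XT.lf (nat_lit 836) (nat_lit 993884775) (nat_lit 0) (nat_lit 1821264745) (nat_lit 760) (nat_lit 1821264745) (nat_lit 400) (nat_lit 1) (nat_lit 389) (nat_lit 1) (nat_lit 399) (nat_lit 1) (nat_lit 369) (nat_lit 405) (nat_lit 366)) (XT.lf (nat_lit 76) (nat_lit 209100056) (nat_lit 0) (nat_lit 4178321078) (nat_lit 836) (nat_lit 209100056)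 (nat_lit 390) (nat_lit 1) (nat_lit 389) (nat_lit 1) (nat_lit 400) (nat_lit 1) (nat_lit 370) (nat_lit 405) (nat_lit 365))))) (XT.nd (nat_lit 312) (nat_lit 1444) (nat_lit 0) (XT.nd (nat_lit 156) (nat_lit 760) (nat_lit 0) (XT.nd (nat_lit 78) (nat_lit 760) (nat_lit 0) (XT.lf (nat_lit 76) (nat_lit 2192720565) (nat_lit 0) (nat_lit 171407651) (nat_lit 836) (nat_lit 2192720565) (nat_lit 379) (nat_lit 1) (nat_lit 378) (nat_lit 1) (nat_lit 389) (nat_lit 1) (nat_lit 371) (nat_lit 405) (nat_lit 364)) (XT.lf (nat_lit 836) (nat_lit 3769962633) (nat_lit 0) (nat_lit 373931340) (nat_lit 760) (nat_lit 373931340) (nat_lit 379) (nat_lit 1) (nat_lit 368) (nat_lit 1) (nat_lit 378) (nat_lit 1) (nat_lit 372) (nat_lit 405) (nat_lit 363))) (XT.nd (nat_lit 78) (nat_lit 760) (nat_lit 0) (XT.lf (nat_lit 76) (nat_lit 1570792850) (nat_lit 0) (nat_lit 1337491767) (nat_lit 836) (nat_lit 1570792850) (nat_lit 369) (nat_lit 1) (nat_lit 368) (nat_lit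 1) (nat_lit 379) (nat_lit 1) (nat_lit 373) (nat_lit 405) (nat_lit 362)) (XT.lf (nat_lit 836) (nat_lit 2516730598) (nat_lit 0) (nat_lit 962093126) (nat_lit 760) (nat_lit 962093126) (nat_lit 369) (nat_lit 1) (nat_lit 358) (nat_lit 1) (nat_lit 368) (nat_lit 1) (nat_lit 374) (nat_lit 405) (nat_lit 361)))) (XT.nd (nat_lit 156) (nat_lit 760) (nat_lit 0) (XT.nd (nat_lit 78) (nat_lit 684) (nat_lit 0) (XT.lf (nat_lit 76) (nat_lit 943730233) (nat_lit 0) (nat_lit 2515717209) (nat_lit 836) (nat_lit 943730233) (nat_lit 359) (nat_lit 1) (nat_lit 358) (nat_lit 1) (nat_lit 369) (nat_lit 1) (nat_lit 375) (nat_lit 405) (nat_lit 360)) (XT.lf (nat_lit 760) (nat_lit 1253978192) (nat_lit 0) (nat_lit 1555937883) (nat_lit 684) (nat_lit 1555937883) (nat_lit 359) (nat_lit 1) (nat_lit 349) (nat_lit 1) (nat_lit 358) (nat_lit 1) (nat_lit 376) (nat_lit 405) (nat_lit 359))) (XT.nd (nat_lit 78) (nat_lit 760) (nat_lit 0) (XT.lf (nat_lit 76) (nat_lit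 312306324) (nat_lit 0) (nat_lit 3704486597) (nat_lit 760) (nat_lit 312306324) (nat_lit 350) (nat_lit 1) (nat_lit 349) (nat_lit 1) (nat_lit 359) (nat_lit 1) (nat_lit 377) (nat_lit 405) (nat_lit 358)) (XT.lf (nat_lit 76) (nat_lit 2138010634) (nat_lit 0) (nat_lit 16563890) (nat_lit 760) (nat_lit 2138010634) (nat_lit 340) (nat_lit 1) (nat_lit 339) (nat_lit 1) (nat_lit 349) (nat_lit 1) (nat_lit 378) (nat_lit 405) (nat_lit 357))))))) (XT.nd (nat_lit 1170) (nat_lit 4636) (nat_lit 0) (XT.nd (nat_lit 546) (nat_lit 2964) (nat_lit 0) (XT.nd (nat_lit 234) (nat_lit 1292) (nat_lit 0) (XT.nd (nat_lit 78) (nat_lit 684) (nat_lit 0) (XT.lf (nat_lit 760) (nat_lit 3615378872) (nat_lit 0) (nat_lit 320623229) (nat_lit 684) (nat_lit 320623229) (nat_lit 340) (nat_lit 1) (nat_lit 330) (nat_lit 1) (nat_lit 339) (nat_lit 1) (nat_lit 379) (nat_lit 405) (nat_lit 356)) (XT.nd (nat_lit 78) (nat_lit 684) (nat_lit 0) (XT.lf (nat_lit 76) (nat_lit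 1471873671) (nat_lit 0) (nat_lit 1277153785) (nat_lit 760) (nat_lit 1471873671) (nat_lit 331) (nat_lit 1) (nat_lit 330) (nat_lit 1) (nat_lit 340) (nat_lit 1) (nat_lit 380) (nat_lit 405) (nat_lit 355)) (XT.lf (nat_lit 760) (nat_lit 2276882729) (nat_lit 0) (nat_lit 954414959) (nat_lit 684) (nat_lit 954414959) (nat_lit 331) (nat_lit 1) (nat_lit 321) (nat_lit 1) (nat_lit 330) (nat_lit 1) (nat_lit 381) (nat_lit 405) (nat_lit 354)))) (XT.nd (nat_lit 156) (nat_lit 684) (nat_lit 0) (XT.nd (nat_lit 78) (nat_lit 608) (nat_lit 0) (XT.lf (nat_lit 76) (nat_lit 804007599) (nat_lit 0) (nat_lit 2542903277) (nat_lit 760) (nat_lit 804007599) (nat_lit 322) (nat_lit 1) (nat_lit 321) (nat_lit 1) (nat_lit 331) (nat_lit 1) (nat_lit 382) (nat_lit 405) (nat_lit 353)) (XT.lf (nat_lit 684) (nat_lit 935533092) (nat_lit 0) (nat_lit 1590472709) (nat_lit 608) (nat_lit 1590472709) (nat_lit 322) (nat_lit 1) (nat_lit 313) (nat_lit 1) (nat_lit 321)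 (nat_lit 1) (nat_lit 383) (nat_lit 405) (nat_lit 352))) (XT.nd (nat_lit 78) (nat_lit 684) (nat_lit 0) (XT.lf (nat_lit 76) (nat_lit 135020663) (nat_lit 0) (nat_lit 3812551033) (nat_lit 684) (nat_lit 135020663) (nat_lit 314) (nat_lit 1) (nat_lit 313) (nat_lit 1) (nat_lit 322) (nat_lit 1) (nat_lit 384) (nat_lit 405) (nat_lit 351)) (XT.lf (nat_lit 76) (nat_lit 1823342993) (nat_lit 0) (nat_lit 402139926) (nat_lit 684) (nat_lit 1823342993) (nat_lit 305) (nat_lit 1) (nat_lit 304) (nat_lit 1) (nat_lit 313) (nat_lit 1) (nat_lit 385) (nat_lit 405) (nat_lit 350))))) (XT.nd (nat_lit 312) (nat_lit 1748) (nat_lit 0) (XT.nd (nat_lit 156) (nat_lit 608) (nat_lit 0) (XT.nd (nat_lit 78) (nat_lit 0) (nat_lit 0) (XT.lf (nat_lit 684) (nat_lit 2953607506) (nat_lit 0) (nat_lit 530996592) (nat_lit 608) (nat_lit 530996592) (nat_lit 305) (nat_lit 1) (nat_lit 296) (nat_lit 1) (nat_lit 304) (nat_lit 1) (nat_lit 386) (nat_lit 405) (nat_lit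 349)) (XT.lf (nat_lit 76) (nat_lit 1127279243) (nat_lit 0) (nat_lit 1728084922) (nat_lit 684) (nat_lit 1127279243) (nat_lit 297) (nat_lit 1) (nat_lit 296) (nat_lit 1) (nat_lit 305) (nat_lit 1) (nat_lit 387) (nat_lit 405) (nat_lit 348))) (XT.nd (nat_lit 78) (nat_lit 0) (nat_lit 0) (XT.lf (nat_lit 684) (nat_lit 1557847329) (nat_lit 0) (nat_lit 1196131047) (nat_lit 608) (nat_lit 1196131047) (nat_lit 297) (nat_lit 1) (nat_lit 288) (nat_lit 1) (nat_lit 296) (nat_lit 1) (nat_lit 388) (nat_lit 405) (nat_lit 347)) (XT.lf (nat_lit 76) (nat_lit 432240153) (nat_lit 0) (nat_lit 3053530765) (nat_lit 684) (nat_lit 432240153) (nat_lit 289) (nat_lit 1) (nat_lit 288) (nat_lit 1) (nat_lit 297) (nat_lit 1) (nat_lit 389) (nat_lit 405) (nat_lit 346)))) (XT.nd (nat_lit 156) (nat_lit 532) (nat_lit 0) (XT.nd (nat_lit 78) (nat_lit 684) (nat_lit 0) (XT.lf (nat_lit 608) (nat_lit 164619697) (nat_lit 0) (nat_lit 1860764249) (nat_lit 532) (nat_lit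 1860764249) (nat_lit 289) (nat_lit 1) (nat_lit 281) (nat_lit 1) (nat_lit 288) (nat_lit 1) (nat_lit 390) (nat_lit 405) (nat_lit 345)) (XT.lf (nat_lit 684) (nat_lit 3335582387) (nat_lit 0) (nat_lit 259585069) (nat_lit 608) (nat_lit 259585069) (nat_lit 281) (nat_lit 1) (nat_lit 272) (nat_lit 1) (nat_lit 280) (nat_lit 1) (nat_lit 391) (nat_lit 405) (nat_lit 344))) (XT.nd (nat_lit 78) (nat_lit 532) (nat_lit 0) (XT.lf (nat_lit 76) (nat_lit 1307212951) (nat_lit 0) (nat_lit 1209092461) (nat_lit 684) (nat_lit 1307212951) (nat_lit 273) (nat_lit 1) (nat_lit 272) (nat_lit 1) (nat_lit 281) (nat_lit 1) (nat_lit 392) (nat_lit 405) (nat_lit 343)) (XT.lf (nat_lit 608) (nat_lit 1899455185) (nat_lit 0) (nat_lit 946642739) (nat_lit 532) (nat_lit 946642739) (nat_lit 273) (nat_lit 1) (nat_lit 265) (nat_lit 1) (nat_lit 272) (nat_lit 1) (nat_lit 393) (nat_lit 405) (nat_lit 342)))))) (XT.nd (nat_lit 624) (nat_lit 1900) (nat_lit 0) (XT.nd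 (nat_lit 312) (nat_lit 1596) (nat_lit 0) (XT.nd (nat_lit 156) (nat_lit 608) (nat_lit 0) (XT.nd (nat_lit 78) (nat_lit 532) (nat_lit 0) (XT.lf (nat_lit 76) (nat_lit 592962164) (nat_lit 0) (nat_lit 2576395470) (nat_lit 608) (nat_lit 592962164) (nat_lit 266) (nat_lit 1) (nat_lit 265) (nat_lit 1) (nat_lit 273) (nat_lit 1) (nat_lit 394) (nat_lit 405) (nat_lit 341)) (XT.lf (nat_lit 608) (nat_lit 469434302) (nat_lit 0) (nat_lit 1631364383) (nat_lit 532) (nat_lit 1631364383) (nat_lit 266) (nat_lit 1) (nat_lit 258) (nat_lit 1) (nat_lit 265) (nat_lit 1) (nat_lit 395) (nat_lit 405) (nat_lit 340))) (XT.nd (nat_lit 78) (nat_lit 0) (nat_lit 0) (XT.lf (nat_lit 608) (nat_lit 3467912819) (nat_lit 0) (nat_lit 117281171) (nat_lit 532) (nat_lit 117281171) (nat_lit 258) (nat_lit 1) (nat_lit 250) (nat_lit 1) (nat_lit 257) (nat_lit 1) (nat_lit 396) (nat_lit 405) (nat_lit 339)) (XT.lf (nat_lit 76) (nat_lit 1365812081) (nat_lit 0) (nat_lit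 941235127) (nat_lit 608) (nat_lit 1365812081) (nat_lit 251) (nat_lit 1) (nat_lit 250) (nat_lit 1) (nat_lit 258) (nat_lit 1) (nat_lit 397) (nat_lit 405) (nat_lit 338)))) (XT.nd (nat_lit 156) (nat_lit 1064) (nat_lit 0) (XT.nd (nat_lit 78) (nat_lit 0) (nat_lit 0) (XT.lf (nat_lit 608) (nat_lit 2003580201) (nat_lit 0) (nat_lit 820061250) (nat_lit 532) (nat_lit 820061250) (nat_lit 251) (nat_lit 1) (nat_lit 243) (nat_lit 1) (nat_lit 250) (nat_lit 1) (nat_lit 398) (nat_lit 405) (nat_lit 337)) (XT.lf (nat_lit 76) (nat_lit 638271434) (nat_lit 0) (nat_lit 2338314772) (nat_lit 608) (nat_lit 638271434) (nat_lit 244) (nat_lit 1) (nat_lit 243) (nat_lit 1) (nat_lit 251) (nat_lit 1) (nat_lit 399) (nat_lit 405) (nat_lit 336))) (XT.nd (nat_lit 78) (nat_lit 608) (nat_lit 0) (XT.lf (nat_lit 532) (nat_lit 548377521) (nat_lit 0) (nat_lit 1518949504) (nat_lit 456) (nat_lit 1518949504) (nat_lit 244) (nat_lit 1) (nat_lit 237) (nat_lit 1)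 (nat_lit 243) (nat_lit 1) (nat_lit 400) (nat_lit 405) (nat_lit 335)) (XT.lf (nat_lit 608) (nat_lit 3390111609) (nat_lit 0) (nat_lit 84014469) (nat_lit 532) (nat_lit 84014469) (nat_lit 237) (nat_lit 1) (nat_lit 229) (nat_lit 1) (nat_lit 236) (nat_lit 1) (nat_lit 401) (nat_lit 405) (nat_lit 334))))) (XT.nd (nat_lit 312) (nat_lit 988) (nat_lit 0) (XT.nd (nat_lit 156) (nat_lit 456) (nat_lit 0) (XT.nd (nat_lit 78) (nat_lit 456) (nat_lit 0) (XT.lf (nat_lit 76) (nat_lit 1322349102) (nat_lit 0) (nat_lit 885348018) (nat_lit 608) (nat_lit 1322349102) (nat_lit 230) (nat_lit 1) (nat_lit 229) (nat_lit 1) (nat_lit 237) (nat_lit 1) (nat_lit 402) (nat_lit 405) (nat_lit 333)) (XT.lf (nat_lit 532) (nat_lit 1908076092) (nat_lit 0) (nat_lit 797156233) (nat_lit 456) (nat_lit 797156233) (nat_lit 230) (nat_lit 1) (nat_lit 223) (nat_lit 1) (nat_lit 229) (nat_lit 1) (nat_lit 403) (nat_lit 405) (nat_lit 332))) (XT.nd (nat_lit 78) (nat_lit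 456) (nat_lit 0) (XT.lf (nat_lit 76) (nat_lit 586630642) (nat_lit 0) (nat_lit 2301764148) (nat_lit 532) (nat_lit 586630642) (nat_lit 224) (nat_lit 1) (nat_lit 223) (nat_lit 1) (nat_lit 230) (nat_lit 1) (nat_lit 404) (nat_lit 405) (nat_lit 331)) (XT.lf (nat_lit 532) (nat_lit 437711424) (nat_lit 0) (nat_lit 1505095243) (nat_lit 456) (nat_lit 1505095243) (nat_lit 224) (nat_lit 1) (nat_lit 217) (nat_lit 1) (nat_lit 223) (nat_lit 1) (nat_lit 405) (nat_lit 405) (nat_lit 330)))) (XT.nd (nat_lit 156) (nat_lit 456) (nat_lit 0) (XT.nd (nat_lit 78) (nat_lit 0) (nat_lit 0) (XT.lf (nat_lit 532) (nat_lit 3136747788) (nat_lit 0) (nat_lit 142215495) (nat_lit 456) (nat_lit 142215495) (nat_lit 217) (nat_lit 1) (nat_lit 210) (nat_lit 1) (nat_lit 216) (nat_lit 1) (nat_lit 406) (nat_lit 405) (nat_lit 329)) (XT.lf (nat_lit 76) (nat_lit 1193682546) (nat_lit 0) (nat_lit 1007151496) (nat_lit 532) (nat_lit 1193682546) (nat_lit 211) (nat_lit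 1) (nat_lit 210) (nat_lit 1) (nat_lit 217) (nat_lit 1) (nat_lit 407) (nat_lit 405) (nat_lit 328))) (XT.nd (nat_lit 78) (nat_lit 0) (nat_lit 0) (XT.lf (nat_lit 532) (nat_lit 1646050179) (nat_lit 0) (nat_lit 861098543) (nat_lit 456) (nat_lit 861098543) (nat_lit 211) (nat_lit 1) (nat_lit 204) (nat_lit 1) (nat_lit 210) (nat_lit 1) (nat_lit 408) (nat_lit 405) (nat_lit 327)) (XT.lf (nat_lit 76) (nat_lit 454184928) (nat_lit 0) (nat_lit 2433909425) (nat_lit 532) (nat_lit 454184928) (nat_lit 205) (nat_lit 1) (nat_lit 204) (nat_lit 1) (nat_lit 211) (nat_lit 1) (nat_lit 409) (nat_lit 405) (nat_lit 326))))))))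
noncomputable def ec36 : XT := (XT.nd (nat_lit 54912) (nat_lit 0) (nat_lit 8892) (XT.nd (nat_lit 53742) (nat_lit 0) (nat_lit 22420) (XT.nd (nat_lit 53118) (nat_lit 0) (nat_lit 23636) (XT.nd (nat_lit 234) (nat_lit 380) (nat_lit 0) (XT.nd (nat_lit 78) (nat_lit 532) (nat_lit 0) (XT.lf (nat_lit 456) (nat_lit 169141293) (nat_lit 0) (nat_lit 1573682604) (nat_lit 380) (nat_lit 1573682604) (nat_lit 205) (nat_lit 1) (nat_lit 199) (nat_lit 1) (nat_lit 204) (nat_lit 1) (nat_lit 410) (nat_lit 405) (nat_lit 325)) (XT.nd (nat_lit 78) (nat_lit 0) (nat_lit 0) (XT.lf (nat_lit 532) (nat_lit 2738021891) (nat_lit 0) (nat_lit 276525075) (nat_lit 456) (nat_lit 276525075) (nat_lit 199) (nat_lit 1) (nat_lit 192) (nat_lit 1) (nat_lit 198) (nat_lit 1) (nat_lit 411) (nat_lit 405) (nat_lit 324)) (XT.lf (nat_lit 76) (nat_lit 994538006) (nat_lit 0) (nat_lit 1276683209) (nat_lit 532) (nat_lit 994538006) (nat_lit 193) (nat_lit 1) (nat_lit 192)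 (nat_lit 1) (nat_lit 199) (nat_lit 1) (nat_lit 412) (nat_lit 405) (nat_lit 323)))) (XT.nd (nat_lit 52728) (nat_lit 0) (nat_lit 23560) (XT.nd (nat_lit 78) (nat_lit 0) (nat_lit 0) (XT.lf (nat_lit 456) (nat_lit 1246416114) (nat_lit 0) (nat_lit 997180962) (nat_lit 380) (nat_lit 997180962) (nat_lit 193) (nat_lit 1) (nat_lit 187) (nat_lit 1) (nat_lit 192) (nat_lit 1) (nat_lit 413) (nat_lit 405) (nat_lit 322)) (XT.lf (nat_lit 76) (nat_lit 255031881) (nat_lit 0) (nat_lit 2706061070) (nat_lit 456) (nat_lit 255031881) (nat_lit 188) (nat_lit 1) (nat_lit 187) (nat_lit 1) (nat_lit 193) (nat_lit 1) (nat_lit 414) (nat_lit 405) (nat_lit 321))) (XT.nd (nat_lit 78) (nat_lit 0) (nat_lit 0) (XT.lf (nat_lit 1900) (nat_lit 1128729358) (nat_lit 0) (nat_lit 1138168160) (nat_lit 1900) (nat_lit 1128729358) (nat_lit 522) (nat_lit 1) (nat_lit 497) (nat_lit 0) (nat_lit 522) (nat_lit 0) (nat_lit 328) (nat_lit 406) (nat_lit 406)) (XT.lf (nat_lit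 1900) (nat_lit 4463165588) (nat_lit 76) (nat_lit 1130680212) (nat_lit 0) (nat_lit 1130680212) (nat_lit 522) (nat_lit 1) (nat_lit 498) (nat_lit 1) (nat_lit 497) (nat_lit 0) (nat_lit 329) (nat_lit 406) (nat_lit 405))))) (XT.nd (nat_lit 312) (nat_lit 0) (nat_lit 152) (XT.nd (nat_lit 156) (nat_lit 0) (nat_lit 76) (XT.nd (nat_lit 78) (nat_lit 0) (nat_lit 0) (XT.lf (nat_lit 1900) (nat_lit 2191435548) (nat_lit 0) (nat_lit 2275656004) (nat_lit 1824) (nat_lit 2191435548) (nat_lit 523) (nat_lit 1) (nat_lit 498) (nat_lit 1) (nat_lit 522) (nat_lit 1) (nat_lit 330) (nat_lit 406) (nat_lit 404)) (XT.lf (nat_lit 1900) (nat_lit 4289179587) (nat_lit 76) (nat_lit 1152174571) (nat_lit 0) (nat_lit 1152174571) (nat_lit 523) (nat_lit 1) (nat_lit 499) (nat_lit 1) (nat_lit 498) (nat_lit 1) (nat_lit 331) (nat_lit 406) (nat_lit 403))) (XT.nd (nat_lit 78) (nat_lit 0) (nat_lit 0) (XT.lf (nat_lit 1900) (nat_lit 2084460001) (nat_lit 0) (nat_lit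 2360327868) (nat_lit 1824) (nat_lit 2084460001) (nat_lit 524) (nat_lit 1) (nat_lit 499) (nat_lit 1) (nat_lit 523) (nat_lit 1) (nat_lit 332) (nat_lit 406) (nat_lit 402)) (XT.lf (nat_lit 1900) (nat_lit 4035489976) (nat_lit 76) (nat_lit 1215216482) (nat_lit 0) (nat_lit 1215216482) (nat_lit 524) (nat_lit 1) (nat_lit 500) (nat_lit 1) (nat_lit 499) (nat_lit 1) (nat_lit 333) (nat_lit 406) (nat_lit 401)))) (XT.nd (nat_lit 156) (nat_lit 0) (nat_lit 76) (XT.nd (nat_lit 78) (nat_lit 0) (nat_lit 0) (XT.lf (nat_lit 1900) (nat_lit 1938975563) (nat_lit 0) (nat_lit 2525364530) (nat_lit 1824) (nat_lit 1938975563) (nat_lit 525) (nat_lit 1) (nat_lit 500) (nat_lit 1) (nat_lit 524) (nat_lit 1) (nat_lit 334) (nat_lit 406) (nat_lit 400)) (XT.lf (nat_lit 1900) (nat_lit 3706887032) (nat_lit 76) (nat_lit 1317361581) (nat_lit 0) (nat_lit 1317361581) (nat_lit 525) (nat_lit 1) (nat_lit 501) (nat_lit 1) (nat_lit 500) (nat_lit 1) (nat_lit 335)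 (nat_lit 406) (nat_lit 399))) (XT.nd (nat_lit 78) (nat_lit 0) (nat_lit 0) (XT.lf (nat_lit 1900) (nat_lit 1757314108) (nat_lit 0) (nat_lit 2766005078) (nat_lit 1824) (nat_lit 1757314108) (nat_lit 526) (nat_lit 1) (nat_lit 501) (nat_lit 1) (nat_lit 525) (nat_lit 1) (nat_lit 336) (nat_lit 406) (nat_lit 398)) (XT.lf (nat_lit 1900) (nat_lit 3307941778) (nat_lit 76) (nat_lit 1456276714) (nat_lit 0) (nat_lit 1456276714) (nat_lit 526) (nat_lit 1) (nat_lit 502) (nat_lit 1) (nat_lit 501) (nat_lit 1) (nat_lit 337) (nat_lit 406) (nat_lit 397)))))) (XT.nd (nat_lit 546) (nat_lit 1520) (nat_lit 0) (XT.nd (nat_lit 234) (nat_lit 0) (nat_lit 76) (XT.nd (nat_lit 78) (nat_lit 0) (nat_lit 0) (XT.lf (nat_lit 1900) (nat_lit 1541700558) (nat_lit 0) (nat_lit 3077705633) (nat_lit 1824) (nat_lit 1541700558) (nat_lit 527) (nat_lit 1) (nat_lit 502) (nat_lit 1) (nat_lit 526) (nat_lit 1) (nat_lit 338) (nat_lit 406) (nat_lit 396)) (XT.nd (nat_lit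 78) (nat_lit 0) (nat_lit 76) (XT.lf (nat_lit 1900) (nat_lit 2843015150) (nat_lit 76) (nat_lit 1629735301) (nat_lit 0) (nat_lit 1629735301) (nat_lit 527) (nat_lit 1) (nat_lit 503) (nat_lit 1) (nat_lit 502) (nat_lit 1) (nat_lit 339) (nat_lit 406) (nat_lit 395)) (XT.lf (nat_lit 1900) (nat_lit 1294257359) (nat_lit 0) (nat_lit 3456130292) (nat_lit 1824) (nat_lit 1294257359) (nat_lit 528) (nat_lit 1) (nat_lit 503) (nat_lit 1) (nat_lit 527) (nat_lit 1) (nat_lit 340) (nat_lit 406) (nat_lit 394)))) (XT.nd (nat_lit 156) (nat_lit 0) (nat_lit 76) (XT.nd (nat_lit 78) (nat_lit 0) (nat_lit 76) (XT.lf (nat_lit 1900) (nat_lit 2316266792) (nat_lit 76) (nat_lit 1835612885) (nat_lit 0) (nat_lit 1835612885) (nat_lit 528) (nat_lit 1) (nat_lit 504) (nat_lit 1) (nat_lit 503) (nat_lit 1) (nat_lit 341) (nat_lit 406) (nat_lit 393)) (XT.lf (nat_lit 1900) (nat_lit 1017008772) (nat_lit 0) (nat_lit 3897142433) (nat_lit 1824) (nat_lit 1017008772)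 (nat_lit 529) (nat_lit 1) (nat_lit 504) (nat_lit 1) (nat_lit 528) (nat_lit 1) (nat_lit 342) (nat_lit 406) (nat_lit 392))) (XT.nd (nat_lit 78) (nat_lit 0) (nat_lit 76) (XT.lf (nat_lit 1900) (nat_lit 1731663503) (nat_lit 76) (nat_lit 2071882862) (nat_lit 0) (nat_lit 2071882862) (nat_lit 529) (nat_lit 1) (nat_lit 505) (nat_lit 1) (nat_lit 504) (nat_lit 1) (nat_lit 343) (nat_lit 406) (nat_lit 391)) (XT.lf (nat_lit 1900) (nat_lit 711885000) (nat_lit 0) (nat_lit 4396796372) (nat_lit 1824) (nat_lit 711885000) (nat_lit 530) (nat_lit 1) (nat_lit 505) (nat_lit 1) (nat_lit 529) (nat_lit 1) (nat_lit 344) (nat_lit 406) (nat_lit 390))))) (XT.nd (nat_lit 312) (nat_lit 1748) (nat_lit 0) (XT.nd (nat_lit 156) (nat_lit 0) (nat_lit 76) (XT.nd (nat_lit 78) (nat_lit 0) (nat_lit 76) (XT.lf (nat_lit 1900) (nat_lit 1092987334) (nat_lit 76) (nat_lit 2336612372) (nat_lit 0) (nat_lit 2336612372) (nat_lit 530) (nat_lit 1) (nat_lit 506) (nat_lit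 1) (nat_lit 505) (nat_lit 1) (nat_lit 345) (nat_lit 406) (nat_lit 389)) (XT.lf (nat_lit 1900) (nat_lit 380726137) (nat_lit 0) (nat_lit 4951329352) (nat_lit 1824) (nat_lit 380726137) (nat_lit 531) (nat_lit 1) (nat_lit 506) (nat_lit 1) (nat_lit 530) (nat_lit 1) (nat_lit 346) (nat_lit 406) (nat_lit 388))) (XT.nd (nat_lit 78) (nat_lit 0) (nat_lit 76) (XT.lf (nat_lit 1900) (nat_lit 403843368) (nat_lit 76) (nat_lit 2627958373) (nat_lit 0) (nat_lit 2627958373) (nat_lit 531) (nat_lit 1) (nat_lit 507) (nat_lit 1) (nat_lit 506) (nat_lit 1) (nat_lit 347) (nat_lit 406) (nat_lit 387)) (XT.lf (nat_lit 1900) (nat_lit 25285971) (nat_lit 0) (nat_lit 5557153858) (nat_lit 1824) (nat_lit 25285971) (nat_lit 532) (nat_lit 1) (nat_lit 507) (nat_lit 1) (nat_lit 531) (nat_lit 1) (nat_lit 348) (nat_lit 406) (nat_lit 386)))) (XT.nd (nat_lit 156) (nat_lit 0) (nat_lit 76) (XT.nd (nat_lit 78) (nat_lit 0) (nat_lit 0) (XT.lf (nat_lit 1976) (nat_lit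 2613988766) (nat_lit 0) (nat_lit 327974211) (nat_lit 1900) (nat_lit 2613988766) (nat_lit 508) (nat_lit 1) (nat_lit 482) (nat_lit 1) (nat_lit 507) (nat_lit 1) (nat_lit 349) (nat_lit 406) (nat_lit 385)) (XT.lf (nat_lit 1976) (nat_lit 4804250515) (nat_lit 76) (nat_lit 350443561) (nat_lit 0) (nat_lit 350443561) (nat_lit 508) (nat_lit 1) (nat_lit 483) (nat_lit 1) (nat_lit 482) (nat_lit 1) (nat_lit 350) (nat_lit 406) (nat_lit 384))) (XT.nd (nat_lit 78) (nat_lit 0) (nat_lit 0) (XT.lf (nat_lit 1976) (nat_lit 2178507821) (nat_lit 0) (nat_lit 1097680396) (nat_lit 1900) (nat_lit 2178507821) (nat_lit 509) (nat_lit 1) (nat_lit 483) (nat_lit 1) (nat_lit 508) (nat_lit 1) (nat_lit 351) (nat_lit 406) (nat_lit 383)) (XT.lf (nat_lit 1976) (nat_lit 3911328500) (nat_lit 76) (nat_lit 746886696) (nat_lit 0) (nat_lit 746886696) (nat_lit 509) (nat_lit 1) (nat_lit 484) (nat_lit 1) (nat_lit 483) (nat_lit 1) (nat_lit 352) (nat_lit 406) (nat_lit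 382))))))) (XT.nd (nat_lit 1170) (nat_lit 6460) (nat_lit 0) (XT.nd (nat_lit 546) (nat_lit 4256) (nat_lit 0) (XT.nd (nat_lit 234) (nat_lit 1824) (nat_lit 0) (XT.nd (nat_lit 78) (nat_lit 1140) (nat_lit 0) (XT.lf (nat_lit 76) (nat_lit 1724238741) (nat_lit 0) (nat_lit 1907494797) (nat_lit 1900) (nat_lit 1724238741) (nat_lit 485) (nat_lit 1) (nat_lit 484) (nat_lit 1) (nat_lit 509) (nat_lit 1) (nat_lit 353) (nat_lit 406) (nat_lit 381)) (XT.nd (nat_lit 78) (nat_lit 0) (nat_lit 0) (XT.lf (nat_lit 1216) (nat_lit 2982152668) (nat_lit 0) (nat_lit 1162703630) (nat_lit 1140) (nat_lit 1162703630) (nat_lit 485) (nat_lit 1) (nat_lit 469) (nat_lit 1) (nat_lit 484) (nat_lit 1) (nat_lit 354) (nat_lit 406) (nat_lit 380)) (XT.lf (nat_lit 76) (nat_lit 1252611060) (nat_lit 0) (nat_lit 2754487475) (nat_lit 1216) (nat_lit 1252611060) (nat_lit 470) (nat_lit 1) (nat_lit 469) (nat_lit 1) (nat_lit 485) (nat_lit 1) (nat_lit 355) (nat_lit 406)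 (nat_lit 379)))) (XT.nd (nat_lit 156) (nat_lit 912) (nat_lit 0) (XT.nd (nat_lit 78) (nat_lit 0) (nat_lit 0) (XT.lf (nat_lit 988) (nat_lit 2019521526) (nat_lit 0) (nat_lit 1596460327) (nat_lit 912) (nat_lit 1596460327) (nat_lit 470) (nat_lit 1) (nat_lit 457) (nat_lit 1) (nat_lit 469) (nat_lit 1) (nat_lit 356) (nat_lit 406) (nat_lit 378)) (XT.lf (nat_lit 76) (nat_lit 764985078) (nat_lit 0) (nat_lit 3635869178) (nat_lit 988) (nat_lit 764985078) (nat_lit 458) (nat_lit 1) (nat_lit 457) (nat_lit 1) (nat_lit 470) (nat_lit 1) (nat_lit 357) (nat_lit 406) (nat_lit 377))) (XT.nd (nat_lit 78) (nat_lit 0) (nat_lit 0) (XT.lf (nat_lit 988) (nat_lit 1026097643) (nat_lit 0) (nat_lit 2046791803) (nat_lit 912) (nat_lit 2046791803) (nat_lit 458) (nat_lit 1) (nat_lit 445) (nat_lit 1) (nat_lit 457) (nat_lit 1) (nat_lit 358) (nat_lit 406) (nat_lit 376)) (XT.lf (nat_lit 76) (nat_lit 262654816) (nat_lit 0) (nat_lit 4548985346) (nat_lit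 988) (nat_lit 262654816) (nat_lit 446) (nat_lit 1) (nat_lit 445) (nat_lit 1) (nat_lit 458) (nat_lit 1) (nat_lit 359) (nat_lit 406) (nat_lit 375))))) (XT.nd (nat_lit 312) (nat_lit 1596) (nat_lit 0) (XT.nd (nat_lit 156) (nat_lit 836) (nat_lit 0) (XT.nd (nat_lit 78) (nat_lit 988) (nat_lit 0) (XT.lf (nat_lit 912) (nat_lit 4413460) (nat_lit 0) (nat_lit 2512399181) (nat_lit 836) (nat_lit 2512399181) (nat_lit 446) (nat_lit 1) (nat_lit 434) (nat_lit 1) (nat_lit 445) (nat_lit 1) (nat_lit 360) (nat_lit 406) (nat_lit 374)) (XT.lf (nat_lit 988) (nat_lit 4481912768) (nat_lit 0) (nat_lit 251483689) (nat_lit 912) (nat_lit 251483689) (nat_lit 434) (nat_lit 1) (nat_lit 421) (nat_lit 1) (nat_lit 433) (nat_lit 1) (nat_lit 361) (nat_lit 406) (nat_lit 373))) (XT.nd (nat_lit 78) (nat_lit 836) (nat_lit 0) (XT.lf (nat_lit 76) (nat_lit 1955696394) (nat_lit 0) (nat_lit 1029442377) (nat_lit 988) (nat_lit 1955696394) (nat_lit 422) (nat_lit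 1) (nat_lit 421) (nat_lit 1) (nat_lit 434) (nat_lit 1) (nat_lit 362) (nat_lit 406) (nat_lit 372)) (XT.lf (nat_lit 912) (nat_lit 3345286828) (nat_lit 0) (nat_lit 776117093) (nat_lit 836) (nat_lit 776117093) (nat_lit 422) (nat_lit 1) (nat_lit 410) (nat_lit 1) (nat_lit 421) (nat_lit 1) (nat_lit 363) (nat_lit 406) (nat_lit 371)))) (XT.nd (nat_lit 156) (nat_lit 760) (nat_lit 0) (XT.nd (nat_lit 78) (nat_lit 836) (nat_lit 0) (XT.lf (nat_lit 76) (nat_lit 1384063384) (nat_lit 0) (nat_lit 2086494998) (nat_lit 912) (nat_lit 1384063384) (nat_lit 411) (nat_lit 1) (nat_lit 410) (nat_lit 1) (nat_lit 422) (nat_lit 1) (nat_lit 364) (nat_lit 406) (nat_lit 370)) (XT.lf (nat_lit 912) (nat_lit 2188556630) (nat_lit 0) (nat_lit 1311868945) (nat_lit 836) (nat_lit 1311868945) (nat_lit 411) (nat_lit 1) (nat_lit 399) (nat_lit 1) (nat_lit 410) (nat_lit 1) (nat_lit 365) (nat_lit 406) (nat_lit 369))) (XT.nd (nat_lit 78) (nat_lit 760) (nat_lit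 0) (XT.lf (nat_lit 76) (nat_lit 802928430) (nat_lit 0) (nat_lit 3164656172) (nat_lit 912) (nat_lit 802928430) (nat_lit 400) (nat_lit 1) (nat_lit 399) (nat_lit 1) (nat_lit 411) (nat_lit 1) (nat_lit 366) (nat_lit 406) (nat_lit 368)) (XT.lf (nat_lit 836) (nat_lit 1013762470) (nat_lit 0) (nat_lit 1857690040) (nat_lit 760) (nat_lit 1857690040) (nat_lit 400) (nat_lit 1) (nat_lit 389) (nat_lit 1) (nat_lit 399) (nat_lit 1) (nat_lit 367) (nat_lit 406) (nat_lit 367)))))) (XT.nd (nat_lit 624) (nat_lit 3420) (nat_lit 0) (XT.nd (nat_lit 312) (nat_lit 1444) (nat_lit 0) (XT.nd (nat_lit 156) (nat_lit 760) (nat_lit 0) (XT.nd (nat_lit 78) (nat_lit 836) (nat_lit 0) (XT.lf (nat_lit 76) (nat_lit 213282057) (nat_lit 0) (nat_lit 4261887500) (nat_lit 836) (nat_lit 213282057) (nat_lit 390) (nat_lit 1) (nat_lit 389) (nat_lit 1) (nat_lit 400) (nat_lit 1) (nat_lit 368) (nat_lit 406) (nat_lit 366)) (XT.lf (nat_lit 76) (nat_lit 2236574976)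 (nat_lit 0) (nat_lit 174835804) (nat_lit 836) (nat_lit 2236574976) (nat_lit 379) (nat_lit 1) (nat_lit 378) (nat_lit 1) (nat_lit 389) (nat_lit 1) (nat_lit 369) (nat_lit 406) (nat_lit 365))) (XT.nd (nat_lit 78) (nat_lit 0) (nat_lit 0) (XT.lf (nat_lit 836) (nat_lit 3845361885) (nat_lit 0) (nat_lit 381409966) (nat_lit 760) (nat_lit 381409966) (nat_lit 379) (nat_lit 1) (nat_lit 368) (nat_lit 1) (nat_lit 378) (nat_lit 1) (nat_lit 370) (nat_lit 406) (nat_lit 364)) (XT.lf (nat_lit 76) (nat_lit 1602208707) (nat_lit 0) (nat_lit 1364241603) (nat_lit 836) (nat_lit 1602208707) (nat_lit 369) (nat_lit 1) (nat_lit 368) (nat_lit 1) (nat_lit 379) (nat_lit 1) (nat_lit 371) (nat_lit 406) (nat_lit 363)))) (XT.nd (nat_lit 156) (nat_lit 684) (nat_lit 0) (XT.nd (nat_lit 78) (nat_lit 0) (nat_lit 0) (XT.lf (nat_lit 836) (nat_lit 2567065210) (nat_lit 0) (nat_lit 981334989) (nat_lit 760) (nat_lit 981334989) (nat_lit 369) (nat_lit 1) (nat_lit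 358) (nat_lit 1) (nat_lit 368) (nat_lit 1) (nat_lit 372) (nat_lit 406) (nat_lit 362)) (XT.lf (nat_lit 76) (nat_lit 962604837) (nat_lit 0) (nat_lit 2566031554) (nat_lit 836) (nat_lit 962604837) (nat_lit 359) (nat_lit 1) (nat_lit 358) (nat_lit 1) (nat_lit 369) (nat_lit 1) (nat_lit 373) (nat_lit 406) (nat_lit 361))) (XT.nd (nat_lit 78) (nat_lit 0) (nat_lit 0) (XT.lf (nat_lit 760) (nat_lit 1279057756) (nat_lit 0) (nat_lit 1587056640) (nat_lit 684) (nat_lit 1587056640) (nat_lit 359) (nat_lit 1) (nat_lit 349) (nat_lit 1) (nat_lit 358) (nat_lit 1) (nat_lit 374) (nat_lit 406) (nat_lit 360)) (XT.lf (nat_lit 76) (nat_lit 318552451) (nat_lit 0) (nat_lit 3778576329) (nat_lit 760) (nat_lit 318552451) (nat_lit 350) (nat_lit 1) (nat_lit 349) (nat_lit 1) (nat_lit 359) (nat_lit 1) (nat_lit 375) (nat_lit 406) (nat_lit 359))))) (XT.nd (nat_lit 312) (nat_lit 1292) (nat_lit 0) (XT.nd (nat_lit 156) (nat_lit 684) (nat_lit 0) (XT.nd (nat_lit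 78) (nat_lit 684) (nat_lit 0) (XT.lf (nat_lit 76) (nat_lit 2180770847) (nat_lit 0) (nat_lit 16895168) (nat_lit 760) (nat_lit 2180770847) (nat_lit 340) (nat_lit 1) (nat_lit 339) (nat_lit 1) (nat_lit 349) (nat_lit 1) (nat_lit 376) (nat_lit 406) (nat_lit 358)) (XT.lf (nat_lit 760) (nat_lit 3687686450) (nat_lit 0) (nat_lit 327035693) (nat_lit 684) (nat_lit 327035693) (nat_lit 340) (nat_lit 1) (nat_lit 330) (nat_lit 1) (nat_lit 339) (nat_lit 1) (nat_lit 377) (nat_lit 406) (nat_lit 357))) (XT.nd (nat_lit 78) (nat_lit 684) (nat_lit 0) (XT.lf (nat_lit 76) (nat_lit 1501311144) (nat_lit 0) (nat_lit 1302696861) (nat_lit 760) (nat_lit 1501311144) (nat_lit 331) (nat_lit 1) (nat_lit 330) (nat_lit 1) (nat_lit 340) (nat_lit 1) (nat_lit 378) (nat_lit 406) (nat_lit 356)) (XT.lf (nat_lit 760) (nat_lit 2322420383) (nat_lit 0) (nat_lit 973503258) (nat_lit 684) (nat_lit 973503258) (nat_lit 331) (nat_lit 1) (nat_lit 321) (nat_lit 1)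 (nat_lit 330) (nat_lit 1) (nat_lit 379) (nat_lit 406) (nat_lit 355)))) (XT.nd (nat_lit 156) (nat_lit 684) (nat_lit 0) (XT.nd (nat_lit 78) (nat_lit 608) (nat_lit 0) (XT.lf (nat_lit 76) (nat_lit 820087751) (nat_lit 0) (nat_lit 2593761342) (nat_lit 760) (nat_lit 820087751) (nat_lit 322) (nat_lit 1) (nat_lit 321) (nat_lit 1) (nat_lit 331) (nat_lit 1) (nat_lit 380) (nat_lit 406) (nat_lit 354)) (XT.lf (nat_lit 684) (nat_lit 954243754) (nat_lit 0) (nat_lit 1622282164) (nat_lit 608) (nat_lit 1622282164) (nat_lit 322) (nat_lit 1) (nat_lit 313) (nat_lit 1) (nat_lit 321) (nat_lit 1) (nat_lit 381) (nat_lit 406) (nat_lit 353))) (XT.nd (nat_lit 78) (nat_lit 684) (nat_lit 0) (XT.lf (nat_lit 76) (nat_lit 137721076) (nat_lit 0) (nat_lit 3888802054) (nat_lit 684) (nat_lit 137721076) (nat_lit 314) (nat_lit 1) (nat_lit 313) (nat_lit 1) (nat_lit 322) (nat_lit 1) (nat_lit 382) (nat_lit 406) (nat_lit 352)) (XT.lf (nat_lit 76) (nat_lit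 1859809853) (nat_lit 0) (nat_lit 410182725) (nat_lit 684) (nat_lit 1859809853) (nat_lit 305) (nat_lit 1) (nat_lit 304) (nat_lit 1) (nat_lit 313) (nat_lit 1) (nat_lit 383) (nat_lit 406) (nat_lit 351))))))))
noncomputable def ec37 : XT := (XT.nd (nat_lit 54912) (nat_lit 0) (nat_lit 20064) (XT.nd (nat_lit 1170) (nat_lit 4256) (nat_lit 0) (XT.nd (nat_lit 546) (nat_lit 2660) (nat_lit 0) (XT.nd (nat_lit 234) (nat_lit 1216) (nat_lit 0) (XT.nd (nat_lit 78) (nat_lit 608) (nat_lit 0) (XT.lf (nat_lit 684) (nat_lit 3012679656) (nat_lit 0) (nat_lit 541616524) (nat_lit 608) (nat_lit 541616524) (nat_lit 305) (nat_lit 1) (nat_lit 296) (nat_lit 1) (nat_lit 304) (nat_lit 1) (nat_lit 384) (nat_lit 406) (nat_lit 350)) (XT.nd (nat_lit 78) (nat_lit 608) (nat_lit 0) (XT.lf (nat_lit 76) (nat_lit 1149824828) (nat_lit 0) (nat_lit 1762646620) (nat_lit 684) (nat_lit 1149824828) (nat_lit 297) (nat_lit 1) (nat_lit 296) (nat_lit 1) (nat_lit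 305) (nat_lit 1) (nat_lit 385) (nat_lit 406) (nat_lit 349)) (XT.lf (nat_lit 684) (nat_lit 1589004276) (nat_lit 0) (nat_lit 1220053668) (nat_lit 608) (nat_lit 1220053668) (nat_lit 297) (nat_lit 1) (nat_lit 288) (nat_lit 1) (nat_lit 296) (nat_lit 1) (nat_lit 386) (nat_lit 406) (nat_lit 348)))) (XT.nd (nat_lit 156) (nat_lit 684) (nat_lit 0) (XT.nd (nat_lit 78) (nat_lit 532) (nat_lit 0) (XT.lf (nat_lit 76) (nat_lit 440884956) (nat_lit 0) (nat_lit 3114601381) (nat_lit 684) (nat_lit 440884956) (nat_lit 289) (nat_lit 1) (nat_lit 288) (nat_lit 1) (nat_lit 297) (nat_lit 1) (nat_lit 387) (nat_lit 406) (nat_lit 347)) (XT.lf (nat_lit 608) (nat_lit 167912091) (nat_lit 0) (nat_lit 1897979534) (nat_lit 532) (nat_lit 1897979534) (nat_lit 289) (nat_lit 1) (nat_lit 281) (nat_lit 1) (nat_lit 288) (nat_lit 1) (nat_lit 388) (nat_lit 406) (nat_lit 346))) (XT.nd (nat_lit 78) (nat_lit 0) (nat_lit 0) (XT.lf (nat_lit 684) (nat_lit 3402294035)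 (nat_lit 0) (nat_lit 264776770) (nat_lit 608) (nat_lit 264776770) (nat_lit 281) (nat_lit 1) (nat_lit 272) (nat_lit 1) (nat_lit 280) (nat_lit 1) (nat_lit 389) (nat_lit 406) (nat_lit 345)) (XT.lf (nat_lit 76) (nat_lit 1333357210) (nat_lit 0) (nat_lit 1233274310) (nat_lit 684) (nat_lit 1333357210) (nat_lit 273) (nat_lit 1) (nat_lit 272) (nat_lit 1) (nat_lit 281) (nat_lit 1) (nat_lit 390) (nat_lit 406) (nat_lit 344))))) (XT.nd (nat_lit 312) (nat_lit 988) (nat_lit 0) (XT.nd (nat_lit 156) (nat_lit 1140) (nat_lit 0) (XT.nd (nat_lit 78) (nat_lit 0) (nat_lit 0) (XT.lf (nat_lit 608) (nat_lit 1937444289) (nat_lit 0) (nat_lit 965575594) (nat_lit 532) (nat_lit 965575594) (nat_lit 273) (nat_lit 1) (nat_lit 265) (nat_lit 1) (nat_lit 272) (nat_lit 1) (nat_lit 391) (nat_lit 406) (nat_lit 343)) (XT.lf (nat_lit 76) (nat_lit 604821407) (nat_lit 0) (nat_lit 2627923380) (nat_lit 608) (nat_lit 604821407) (nat_lit 266) (nat_lit 1) (nat_lit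 265) (nat_lit 1) (nat_lit 273) (nat_lit 1) (nat_lit 392) (nat_lit 406) (nat_lit 342))) (XT.nd (nat_lit 78) (nat_lit 608) (nat_lit 0) (XT.lf (nat_lit 608) (nat_lit 478822988) (nat_lit 0) (nat_lit 1663991670) (nat_lit 532) (nat_lit 1663991670) (nat_lit 266) (nat_lit 1) (nat_lit 258) (nat_lit 1) (nat_lit 265) (nat_lit 1) (nat_lit 393) (nat_lit 406) (nat_lit 341)) (XT.lf (nat_lit 608) (nat_lit 3537271076) (nat_lit 0) (nat_lit 119626794) (nat_lit 532) (nat_lit 119626794) (nat_lit 258) (nat_lit 1) (nat_lit 250) (nat_lit 1) (nat_lit 257) (nat_lit 1) (nat_lit 394) (nat_lit 406) (nat_lit 340)))) (XT.nd (nat_lit 156) (nat_lit 456) (nat_lit 0) (XT.nd (nat_lit 78) (nat_lit 532) (nat_lit 0) (XT.lf (nat_lit 76) (nat_lit 1393128322) (nat_lit 0) (nat_lit 960059830) (nat_lit 608) (nat_lit 1393128322) (nat_lit 251) (nat_lit 1) (nat_lit 250) (nat_lit 1) (nat_lit 258) (nat_lit 1) (nat_lit 395) (nat_lit 406) (nat_lit 339)) (XT.lf (nat_lit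 608) (nat_lit 2043651805) (nat_lit 0) (nat_lit 836462475) (nat_lit 532) (nat_lit 836462475) (nat_lit 251) (nat_lit 1) (nat_lit 243) (nat_lit 1) (nat_lit 250) (nat_lit 1) (nat_lit 396) (nat_lit 406) (nat_lit 338))) (XT.nd (nat_lit 78) (nat_lit 456) (nat_lit 0) (XT.lf (nat_lit 76) (nat_lit 651036863) (nat_lit 0) (nat_lit 2385081067) (nat_lit 608) (nat_lit 651036863) (nat_lit 244) (nat_lit 1) (nat_lit 243) (nat_lit 1) (nat_lit 251) (nat_lit 1) (nat_lit 397) (nat_lit 406) (nat_lit 337)) (XT.lf (nat_lit 532) (nat_lit 559345072) (nat_lit 0) (nat_lit 1549328494) (nat_lit 456) (nat_lit 1549328494) (nat_lit 244) (nat_lit 1) (nat_lit 237) (nat_lit 1) (nat_lit 243) (nat_lit 1) (nat_lit 398) (nat_lit 406) (nat_lit 336)))))) (XT.nd (nat_lit 624) (nat_lit 1748) (nat_lit 0) (XT.nd (nat_lit 312) (nat_lit 1444) (nat_lit 0) (XT.nd (nat_lit 156) (nat_lit 456) (nat_lit 0) (XT.nd (nat_lit 78) (nat_lit 0) (nat_lit 0) (XT.lf (nat_lit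 608) (nat_lit 3457913841) (nat_lit 0) (nat_lit 85694759) (nat_lit 532) (nat_lit 85694759) (nat_lit 237) (nat_lit 1) (nat_lit 229) (nat_lit 1) (nat_lit 236) (nat_lit 1) (nat_lit 399) (nat_lit 406) (nat_lit 335)) (XT.lf (nat_lit 76) (nat_lit 1348796084) (nat_lit 0) (nat_lit 903054979) (nat_lit 608) (nat_lit 1348796084) (nat_lit 230) (nat_lit 1) (nat_lit 229) (nat_lit 1) (nat_lit 237) (nat_lit 1) (nat_lit 400) (nat_lit 406) (nat_lit 334))) (XT.nd (nat_lit 78) (nat_lit 0) (nat_lit 0) (XT.lf (nat_lit 532) (nat_lit 1946237613) (nat_lit 0) (nat_lit 813099358) (nat_lit 456) (nat_lit 813099358) (nat_lit 230) (nat_lit 1) (nat_lit 223) (nat_lit 1) (nat_lit 229) (nat_lit 1) (nat_lit 401) (nat_lit 406) (nat_lit 333)) (XT.lf (nat_lit 76) (nat_lit 598363254) (nat_lit 0) (nat_lit 2347799431) (nat_lit 532) (nat_lit 598363254) (nat_lit 224) (nat_lit 1) (nat_lit 223) (nat_lit 1) (nat_lit 230) (nat_lit 1) (nat_lit 402) (nat_lit 406)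 (nat_lit 332)))) (XT.nd (nat_lit 156) (nat_lit 456) (nat_lit 0) (XT.nd (nat_lit 78) (nat_lit 532) (nat_lit 0) (XT.lf (nat_lit 532) (nat_lit 446465653) (nat_lit 0) (nat_lit 1535197148) (nat_lit 456) (nat_lit 1535197148) (nat_lit 224) (nat_lit 1) (nat_lit 217) (nat_lit 1) (nat_lit 223) (nat_lit 1) (nat_lit 403) (nat_lit 406) (nat_lit 331)) (XT.lf (nat_lit 532) (nat_lit 3199482744) (nat_lit 0) (nat_lit 145059805) (nat_lit 456) (nat_lit 145059805) (nat_lit 217) (nat_lit 1) (nat_lit 210) (nat_lit 1) (nat_lit 216) (nat_lit 1) (nat_lit 404) (nat_lit 406) (nat_lit 330))) (XT.nd (nat_lit 78) (nat_lit 456) (nat_lit 0) (XT.lf (nat_lit 76) (nat_lit 1217556197) (nat_lit 0) (nat_lit 1027294526) (nat_lit 532) (nat_lit 1217556197) (nat_lit 211) (nat_lit 1) (nat_lit 210) (nat_lit 1) (nat_lit 217) (nat_lit 1) (nat_lit 405) (nat_lit 406) (nat_lit 329)) (XT.lf (nat_lit 532) (nat_lit 1678971182) (nat_lit 0) (nat_lit 878320514) (nat_lit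 456) (nat_lit 878320514) (nat_lit 211) (nat_lit 1) (nat_lit 204) (nat_lit 1) (nat_lit 210) (nat_lit 1) (nat_lit 406) (nat_lit 406) (nat_lit 328))))) (XT.nd (nat_lit 312) (nat_lit 836) (nat_lit 0) (XT.nd (nat_lit 156) (nat_lit 532) (nat_lit 0) (XT.nd (nat_lit 78) (nat_lit 380) (nat_lit 0) (XT.lf (nat_lit 76) (nat_lit 463268627) (nat_lit 0) (nat_lit 2482587613) (nat_lit 532) (nat_lit 463268627) (nat_lit 205) (nat_lit 1) (nat_lit 204) (nat_lit 1) (nat_lit 211) (nat_lit 1) (nat_lit 407) (nat_lit 406) (nat_lit 327)) (XT.lf (nat_lit 456) (nat_lit 172524119) (nat_lit 0) (nat_lit 1605156256) (nat_lit 380) (nat_lit 1605156256) (nat_lit 205) (nat_lit 1) (nat_lit 199) (nat_lit 1) (nat_lit 204) (nat_lit 1) (nat_lit 408) (nat_lit 406) (nat_lit 326))) (XT.nd (nat_lit 78) (nat_lit 0) (nat_lit 0) (XT.lf (nat_lit 532) (nat_lit 2792782329) (nat_lit 0) (nat_lit 282055576) (nat_lit 456) (nat_lit 282055576) (nat_lit 199) (nat_lit 1)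 (nat_lit 192) (nat_lit 1) (nat_lit 198) (nat_lit 1) (nat_lit 409) (nat_lit 406) (nat_lit 325)) (XT.lf (nat_lit 76) (nat_lit 1014428766) (nat_lit 0) (nat_lit 1302216873) (nat_lit 532) (nat_lit 1014428766) (nat_lit 193) (nat_lit 1) (nat_lit 192) (nat_lit 1) (nat_lit 199) (nat_lit 1) (nat_lit 410) (nat_lit 406) (nat_lit 324)))) (XT.nd (nat_lit 156) (nat_lit 456) (nat_lit 0) (XT.nd (nat_lit 78) (nat_lit 0) (nat_lit 0) (XT.lf (nat_lit 456) (nat_lit 1271344436) (nat_lit 0) (nat_lit 1017124582) (nat_lit 380) (nat_lit 1017124582) (nat_lit 193) (nat_lit 1) (nat_lit 187) (nat_lit 1) (nat_lit 192) (nat_lit 1) (nat_lit 411) (nat_lit 406) (nat_lit 323)) (XT.lf (nat_lit 76) (nat_lit 260132519) (nat_lit 0) (nat_lit 2760182291) (nat_lit 456) (nat_lit 260132519) (nat_lit 188) (nat_lit 1) (nat_lit 187) (nat_lit 1) (nat_lit 193) (nat_lit 1) (nat_lit 412) (nat_lit 406) (nat_lit 322))) (XT.nd (nat_lit 52572) (nat_lit 0) (nat_lit 24016)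 (XT.lf (nat_lit 76) (nat_lit 1512116712) (nat_lit 0) (nat_lit 231174221) (nat_lit 456) (nat_lit 1512116712) (nat_lit 182) (nat_lit 1) (nat_lit 181) (nat_lit 1) (nat_lit 187) (nat_lit 1) (nat_lit 413) (nat_lit 406) (nat_lit 321)) (XT.lf (nat_lit 1900) (nat_lit 1151303945) (nat_lit 0) (nat_lit 1160931524) (nat_lit 1900) (nat_lit 1151303945) (nat_lit 522) (nat_lit 1) (nat_lit 497) (nat_lit 0) (nat_lit 522) (nat_lit 0) (nat_lit 326) (nat_lit 407) (nat_lit 407))))))) (XT.nd (nat_lit 1170) (nat_lit 3952) (nat_lit 0) (XT.nd (nat_lit 546) (nat_lit 0) (nat_lit 304) (XT.nd (nat_lit 234) (nat_lit 0) (nat_lit 152) (XT.nd (nat_lit 78) (nat_lit 0) (nat_lit 76) (XT.lf (nat_lit 1900) (nat_lit 4552428900) (nat_lit 76) (nat_lit 1153293816) (nat_lit 0) (nat_lit 1153293816) (nat_lit 522) (nat_lit 1) (nat_lit 498) (nat_lit 1) (nat_lit 497) (nat_lit 0) (nat_lit 327) (nat_lit 407) (nat_lit 406)) (XT.nd (nat_lit 78) (nat_lit 0) (nat_lit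 0) (XT.lf (nat_lit 1900) (nat_lit 2235264259) (nat_lit 0) (nat_lit 2321169124) (nat_lit 1824) (nat_lit 2235264259) (nat_lit 523) (nat_lit 1) (nat_lit 498) (nat_lit 1) (nat_lit 522) (nat_lit 1) (nat_lit 328) (nat_lit 407) (nat_lit 405)) (XT.lf (nat_lit 1900) (nat_lit 4374963179) (nat_lit 76) (nat_lit 1175218062) (nat_lit 0) (nat_lit 1175218062) (nat_lit 523) (nat_lit 1) (nat_lit 499) (nat_lit 1) (nat_lit 498) (nat_lit 1) (nat_lit 329) (nat_lit 407) (nat_lit 404)))) (XT.nd (nat_lit 156) (nat_lit 0) (nat_lit 76) (XT.nd (nat_lit 78) (nat_lit 0) (nat_lit 0) (XT.lf (nat_lit 1900) (nat_lit 2126149201) (nat_lit 0) (nat_lit 2407534425) (nat_lit 1824) (nat_lit 2126149201) (nat_lit 524) (nat_lit 1) (nat_lit 499) (nat_lit 1) (nat_lit 523) (nat_lit 1) (nat_lit 330) (nat_lit 407) (nat_lit 403)) (XT.lf (nat_lit 1900) (nat_lit 4116199776) (nat_lit 76) (nat_lit 1239520812) (nat_lit 0) (nat_lit 1239520812) (nat_lit 524) (nat_lit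 1) (nat_lit 500) (nat_lit 1) (nat_lit 499) (nat_lit 1) (nat_lit 331) (nat_lit 407) (nat_lit 402))) (XT.nd (nat_lit 78) (nat_lit 0) (nat_lit 0) (XT.lf (nat_lit 1900) (nat_lit 1977755074) (nat_lit 0) (nat_lit 2575871821) (nat_lit 1824) (nat_lit 1977755074) (nat_lit 525) (nat_lit 1) (nat_lit 500) (nat_lit 1) (nat_lit 524) (nat_lit 1) (nat_lit 332) (nat_lit 407) (nat_lit 401)) (XT.lf (nat_lit 1900) (nat_lit 3781024773) (nat_lit 76) (nat_lit 1343708813) (nat_lit 0) (nat_lit 1343708813) (nat_lit 525) (nat_lit 1) (nat_lit 501) (nat_lit 1) (nat_lit 500) (nat_lit 1) (nat_lit 333) (nat_lit 407) (nat_lit 400))))) (XT.nd (nat_lit 312) (nat_lit 0) (nat_lit 152) (XT.nd (nat_lit 156) (nat_lit 0) (nat_lit 76) (XT.nd (nat_lit 78) (nat_lit 0) (nat_lit 0) (XT.lf (nat_lit 1900) (nat_lit 1792460390) (nat_lit 0) (nat_lit 2821325179) (nat_lit 1824) (nat_lit 1792460390) (nat_lit 526) (nat_lit 1) (nat_lit 501) (nat_lit 1) (nat_lit 525)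 (nat_lit 1) (nat_lit 334) (nat_lit 407) (nat_lit 399)) (XT.lf (nat_lit 1900) (nat_lit 3374100614) (nat_lit 76) (nat_lit 1485402248) (nat_lit 0) (nat_lit 1485402248) (nat_lit 526) (nat_lit 1) (nat_lit 502) (nat_lit 1) (nat_lit 501) (nat_lit 1) (nat_lit 335) (nat_lit 407) (nat_lit 398))) (XT.nd (nat_lit 78) (nat_lit 0) (nat_lit 0) (XT.lf (nat_lit 1900) (nat_lit 1572534569) (nat_lit 0) (nat_lit 3139259745) (nat_lit 1824) (nat_lit 1572534569) (nat_lit 527) (nat_lit 1) (nat_lit 502) (nat_lit 1) (nat_lit 526) (nat_lit 1) (nat_lit 336) (nat_lit 407) (nat_lit 397)) (XT.lf (nat_lit 1900) (nat_lit 2899875453) (nat_lit 76) (nat_lit 1662330007) (nat_lit 0) (nat_lit 1662330007) (nat_lit 527) (nat_lit 1) (nat_lit 503) (nat_lit 1) (nat_lit 502) (nat_lit 1) (nat_lit 337) (nat_lit 407) (nat_lit 396)))) (XT.nd (nat_lit 156) (nat_lit 0) (nat_lit 76) (XT.nd (nat_lit 78) (nat_lit 0) (nat_lit 0) (XT.lf (nat_lit 1900) (nat_lit 1320142506)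 (nat_lit 0) (nat_lit 3525252898) (nat_lit 1824) (nat_lit 1320142506) (nat_lit 528) (nat_lit 1) (nat_lit 503) (nat_lit 1) (nat_lit 527) (nat_lit 1) (nat_lit 338) (nat_lit 407) (nat_lit 395)) (XT.lf (nat_lit 1900) (nat_lit 2362592128) (nat_lit 76) (nat_lit 1872325143) (nat_lit 0) (nat_lit 1872325143) (nat_lit 528) (nat_lit 1) (nat_lit 504) (nat_lit 1) (nat_lit 503) (nat_lit 1) (nat_lit 339) (nat_lit 407) (nat_lit 394))) (XT.nd (nat_lit 78) (nat_lit 0) (nat_lit 0) (XT.lf (nat_lit 1900) (nat_lit 1037348948) (nat_lit 0) (nat_lit 3975085282) (nat_lit 1824) (nat_lit 1037348948) (nat_lit 529) (nat_lit 1) (nat_lit 504) (nat_lit 1) (nat_lit 528) (nat_lit 1) (nat_lit 340) (nat_lit 407) (nat_lit 393)) (XT.lf (nat_lit 1900) (nat_lit 1766296773) (nat_lit 76) (nat_lit 2113320519) (nat_lit 0) (nat_lit 2113320519) (nat_lit 529) (nat_lit 1) (nat_lit 505) (nat_lit 1) (nat_lit 504) (nat_lit 1) (nat_lit 341) (nat_lit 407) (nat_lit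 392)))))) (XT.nd (nat_lit 624) (nat_lit 2812) (nat_lit 0) (XT.nd (nat_lit 312) (nat_lit 1748) (nat_lit 0) (XT.nd (nat_lit 156) (nat_lit 0) (nat_lit 76) (XT.nd (nat_lit 78) (nat_lit 0) (nat_lit 0) (XT.lf (nat_lit 1900) (nat_lit 726122700) (nat_lit 0) (nat_lit 4484732300) (nat_lit 1824) (nat_lit 726122700) (nat_lit 530) (nat_lit 1) (nat_lit 505) (nat_lit 1) (nat_lit 529) (nat_lit 1) (nat_lit 342) (nat_lit 407) (nat_lit 391)) (XT.lf (nat_lit 1900) (nat_lit 1114847080) (nat_lit 76) (nat_lit 2383344620) (nat_lit 0) (nat_lit 2383344620) (nat_lit 530) (nat_lit 1) (nat_lit 506) (nat_lit 1) (nat_lit 505) (nat_lit 1) (nat_lit 343) (nat_lit 407) (nat_lit 390))) (XT.nd (nat_lit 78) (nat_lit 0) (nat_lit 0) (XT.lf (nat_lit 1900) (nat_lit 388340660) (nat_lit 0) (nat_lit 5050355939) (nat_lit 1824) (nat_lit 388340660) (nat_lit 531) (nat_lit 1) (nat_lit 506) (nat_lit 1) (nat_lit 530) (nat_lit 1) (nat_lit 344) (nat_lit 407) (nat_lit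 389)) (XT.lf (nat_lit 1900) (nat_lit 411920236) (nat_lit 76) (nat_lit 2680517541) (nat_lit 0) (nat_lit 2680517541) (nat_lit 531) (nat_lit 1) (nat_lit 507) (nat_lit 1) (nat_lit 506) (nat_lit 1) (nat_lit 345) (nat_lit 407) (nat_lit 388)))) (XT.nd (nat_lit 156) (nat_lit 0) (nat_lit 0) (XT.nd (nat_lit 78) (nat_lit 1900) (nat_lit 0) (XT.lf (nat_lit 1900) (nat_lit 25791690) (nat_lit 0) (nat_lit 5668296935) (nat_lit 1824) (nat_lit 25791690) (nat_lit 532) (nat_lit 1) (nat_lit 507) (nat_lit 1) (nat_lit 531) (nat_lit 1) (nat_lit 346) (nat_lit 407) (nat_lit 387)) (XT.lf (nat_lit 1976) (nat_lit 2666268541) (nat_lit 0) (nat_lit 334533696) (nat_lit 1900) (nat_lit 2666268541) (nat_lit 508) (nat_lit 1) (nat_lit 482) (nat_lit 1) (nat_lit 507) (nat_lit 1) (nat_lit 347) (nat_lit 407) (nat_lit 386))) (XT.nd (nat_lit 78) (nat_lit 0) (nat_lit 76) (XT.lf (nat_lit 1976) (nat_lit 4900335526) (nat_lit 76) (nat_lit 357452432) (nat_lit 0)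 (nat_lit 357452432) (nat_lit 508) (nat_lit 1) (nat_lit 483) (nat_lit 1) (nat_lit 482) (nat_lit 1) (nat_lit 348) (nat_lit 407) (nat_lit 385)) (XT.lf (nat_lit 1976) (nat_lit 2222077978) (nat_lit 0) (nat_lit 1119634004) (nat_lit 1900) (nat_lit 2222077978) (nat_lit 509) (nat_lit 1) (nat_lit 483) (nat_lit 1) (nat_lit 508) (nat_lit 1) (nat_lit 349) (nat_lit 407) (nat_lit 384))))) (XT.nd (nat_lit 312) (nat_lit 1824) (nat_lit 0) (XT.nd (nat_lit 156) (nat_lit 1064) (nat_lit 0) (XT.nd (nat_lit 78) (nat_lit 0) (nat_lit 76) (XT.lf (nat_lit 1976) (nat_lit 3989555070) (nat_lit 76) (nat_lit 761824429) (nat_lit 0) (nat_lit 761824429) (nat_lit 509) (nat_lit 1) (nat_lit 484) (nat_lit 1) (nat_lit 483) (nat_lit 1) (nat_lit 350) (nat_lit 407) (nat_lit 383)) (XT.lf (nat_lit 76) (nat_lit 1758723516) (nat_lit 0) (nat_lit 1945644693) (nat_lit 1900) (nat_lit 1758723516) (nat_lit 485) (nat_lit 1) (nat_lit 484) (nat_lit 1) (nat_lit 509) (nat_lit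 1) (nat_lit 351) (nat_lit 407) (nat_lit 382))) (XT.nd (nat_lit 78) (nat_lit 0) (nat_lit 0) (XT.lf (nat_lit 1216) (nat_lit 3041795721) (nat_lit 0) (nat_lit 1185957703) (nat_lit 1140) (nat_lit 1185957703) (nat_lit 485) (nat_lit 1) (nat_lit 469) (nat_lit 1) (nat_lit 484) (nat_lit 1) (nat_lit 352) (nat_lit 407) (nat_lit 381)) (XT.lf (nat_lit 76) (nat_lit 1277663282) (nat_lit 0) (nat_lit 2809577225) (nat_lit 1216) (nat_lit 1277663282) (nat_lit 470) (nat_lit 1) (nat_lit 469) (nat_lit 1) (nat_lit 485) (nat_lit 1) (nat_lit 353) (nat_lit 407) (nat_lit 380)))) (XT.nd (nat_lit 156) (nat_lit 912) (nat_lit 0) (XT.nd (nat_lit 78) (nat_lit 0) (nat_lit 0) (XT.lf (nat_lit 988) (nat_lit 2059911957) (nat_lit 0) (nat_lit 1628389534) (nat_lit 912) (nat_lit 1628389534) (nat_lit 470) (nat_lit 1) (nat_lit 457) (nat_lit 1) (nat_lit 469) (nat_lit 1) (nat_lit 354) (nat_lit 407) (nat_lit 379)) (XT.lf (nat_lit 76) (nat_lit 780284780) (nat_lit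 0) (nat_lit 3708586562) (nat_lit 988) (nat_lit 780284780) (nat_lit 458) (nat_lit 1) (nat_lit 457) (nat_lit 1) (nat_lit 470) (nat_lit 1) (nat_lit 355) (nat_lit 407) (nat_lit 378))) (XT.nd (nat_lit 78) (nat_lit 0) (nat_lit 0) (XT.lf (nat_lit 988) (nat_lit 1046619595) (nat_lit 0) (nat_lit 2087727639) (nat_lit 912) (nat_lit 2087727639) (nat_lit 458) (nat_lit 1) (nat_lit 445) (nat_lit 1) (nat_lit 457) (nat_lit 1) (nat_lit 356) (nat_lit 407) (nat_lit 377)) (XT.lf (nat_lit 76) (nat_lit 267907912) (nat_lit 0) (nat_lit 4639965053) (nat_lit 988) (nat_lit 267907912) (nat_lit 446) (nat_lit 1) (nat_lit 445) (nat_lit 1) (nat_lit 458) (nat_lit 1) (nat_lit 357) (nat_lit 407) (nat_lit 376))))))))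
noncomputable def ec38 : XT := (XT.nd (nat_lit 2340) (nat_lit 7296) (nat_lit 0) (XT.nd (nat_lit 1170) (nat_lit 5852) (nat_lit 0) (XT.nd (nat_lit 546) (nat_lit 3800) (nat_lit 0) (XT.nd (nat_lit 234) (nat_lit 1672) (nat_lit 0) (XT.nd (nat_lit 78) (nat_lit 988) (nat_lit 0) (XT.lf (nat_lit 912) (nat_lit 4501730) (nat_lit 0) (nat_lit 2562647165) (nat_lit 836) (nat_lit 2562647165) (nat_lit 446) (nat_lit 1) (nat_lit 434) (nat_lit 1) (nat_lit 445) (nat_lit 1) (nat_lit 358) (nat_lit 407) (nat_lit 375)) (XT.nd (nat_lit 78) (nat_lit 0) (nat_lit 0) (XT.lf (nat_lit 988) (nat_lit 4571551023) (nat_lit 0) (nat_lit 256513363) (nat_lit 912) (nat_lit 256513363) (nat_lit 434) (nat_lit 1) (nat_lit 421) (nat_lit 1) (nat_lit 433) (nat_lit 1) (nat_lit 359) (nat_lit 407) (nat_lit 374)) (XT.lf (nat_lit 76) (nat_lit 1994810322) (nat_lit 0) (nat_lit 1050031225) (nat_lit 988) (nat_lit 1994810322) (nat_lit 422) (nat_lit 1) (nat_lit 421) (nat_lit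 1) (nat_lit 434) (nat_lit 1) (nat_lit 360) (nat_lit 407) (nat_lit 373)))) (XT.nd (nat_lit 156) (nat_lit 836) (nat_lit 0) (XT.nd (nat_lit 78) (nat_lit 0) (nat_lit 0) (XT.lf (nat_lit 912) (nat_lit 3412192565) (nat_lit 0) (nat_lit 791639435) (nat_lit 836) (nat_lit 791639435) (nat_lit 422) (nat_lit 1) (nat_lit 410) (nat_lit 1) (nat_lit 421) (nat_lit 1) (nat_lit 361) (nat_lit 407) (nat_lit 372)) (XT.lf (nat_lit 76) (nat_lit 1411744651) (nat_lit 0) (nat_lit 2128224898) (nat_lit 912) (nat_lit 1411744651) (nat_lit 411) (nat_lit 1) (nat_lit 410) (nat_lit 1) (nat_lit 422) (nat_lit 1) (nat_lit 362) (nat_lit 407) (nat_lit 371))) (XT.nd (nat_lit 78) (nat_lit 0) (nat_lit 0) (XT.lf (nat_lit 912) (nat_lit 2232327763) (nat_lit 0) (nat_lit 1338106324) (nat_lit 836) (nat_lit 1338106324) (nat_lit 411) (nat_lit 1) (nat_lit 399) (nat_lit 1) (nat_lit 410) (nat_lit 1) (nat_lit 363) (nat_lit 407) (nat_lit 370)) (XT.lf (nat_lit 76) (nat_lit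 818986999) (nat_lit 0) (nat_lit 3227949295) (nat_lit 912) (nat_lit 818986999) (nat_lit 400) (nat_lit 1) (nat_lit 399) (nat_lit 1) (nat_lit 411) (nat_lit 1) (nat_lit 364) (nat_lit 407) (nat_lit 369))))) (XT.nd (nat_lit 312) (nat_lit 1444) (nat_lit 0) (XT.nd (nat_lit 156) (nat_lit 1596) (nat_lit 0) (XT.nd (nat_lit 78) (nat_lit 0) (nat_lit 0) (XT.lf (nat_lit 836) (nat_lit 1034037720) (nat_lit 0) (nat_lit 1894843841) (nat_lit 760) (nat_lit 1894843841) (nat_lit 400) (nat_lit 1) (nat_lit 389) (nat_lit 1) (nat_lit 399) (nat_lit 1) (nat_lit 365) (nat_lit 407) (nat_lit 368)) (XT.lf (nat_lit 76) (nat_lit 217547698) (nat_lit 0) (nat_lit 4347125250) (nat_lit 836) (nat_lit 217547698) (nat_lit 390) (nat_lit 1) (nat_lit 389) (nat_lit 1) (nat_lit 400) (nat_lit 1) (nat_lit 366) (nat_lit 407) (nat_lit 367))) (XT.nd (nat_lit 78) (nat_lit 760) (nat_lit 0) (XT.lf (nat_lit 76) (nat_lit 2281306476) (nat_lit 0) (nat_lit 178332520) (nat_lit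 836) (nat_lit 2281306476) (nat_lit 379) (nat_lit 1) (nat_lit 378) (nat_lit 1) (nat_lit 389) (nat_lit 1) (nat_lit 367) (nat_lit 407) (nat_lit 366)) (XT.lf (nat_lit 836) (nat_lit 3922269123) (nat_lit 0) (nat_lit 389038166) (nat_lit 760) (nat_lit 389038166) (nat_lit 379) (nat_lit 1) (nat_lit 368) (nat_lit 1) (nat_lit 378) (nat_lit 1) (nat_lit 368) (nat_lit 407) (nat_lit 365)))) (XT.nd (nat_lit 156) (nat_lit 684) (nat_lit 0) (XT.nd (nat_lit 78) (nat_lit 760) (nat_lit 0) (XT.lf (nat_lit 76) (nat_lit 1634252882) (nat_lit 0) (nat_lit 1391526435) (nat_lit 836) (nat_lit 1634252882) (nat_lit 369) (nat_lit 1) (nat_lit 368) (nat_lit 1) (nat_lit 379) (nat_lit 1) (nat_lit 369) (nat_lit 407) (nat_lit 364)) (XT.lf (nat_lit 836) (nat_lit 2618406514) (nat_lit 0) (nat_lit 1000961688) (nat_lit 760) (nat_lit 1000961688) (nat_lit 369) (nat_lit 1) (nat_lit 358) (nat_lit 1) (nat_lit 368) (nat_lit 1) (nat_lit 370) (nat_lit 407) (nat_lit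 363))) (XT.nd (nat_lit 78) (nat_lit 684) (nat_lit 0) (XT.lf (nat_lit 76) (nat_lit 981856934) (nat_lit 0) (nat_lit 2617352185) (nat_lit 836) (nat_lit 981856934) (nat_lit 359) (nat_lit 1) (nat_lit 358) (nat_lit 1) (nat_lit 369) (nat_lit 1) (nat_lit 371) (nat_lit 407) (nat_lit 362)) (XT.lf (nat_lit 760) (nat_lit 1304638911) (nat_lit 0) (nat_lit 1618797773) (nat_lit 684) (nat_lit 1618797773) (nat_lit 359) (nat_lit 1) (nat_lit 349) (nat_lit 1) (nat_lit 358) (nat_lit 1) (nat_lit 372) (nat_lit 407) (nat_lit 361)))))) (XT.nd (nat_lit 546) (nat_lit 3116) (nat_lit 0) (XT.nd (nat_lit 234) (nat_lit 1292) (nat_lit 0) (XT.nd (nat_lit 78) (nat_lit 1444) (nat_lit 0) (XT.lf (nat_lit 76) (nat_lit 324923500) (nat_lit 0) (nat_lit 3854147856) (nat_lit 760) (nat_lit 324923500) (nat_lit 350) (nat_lit 1) (nat_lit 349) (nat_lit 1) (nat_lit 359) (nat_lit 1) (nat_lit 373) (nat_lit 407) (nat_lit 360)) (XT.nd (nat_lit 78) (nat_lit 684) (nat_lit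 0) (XT.lf (nat_lit 76) (nat_lit 2224386264) (nat_lit 0) (nat_lit 17233071) (nat_lit 760) (nat_lit 2224386264) (nat_lit 340) (nat_lit 1) (nat_lit 339) (nat_lit 1) (nat_lit 349) (nat_lit 1) (nat_lit 374) (nat_lit 407) (nat_lit 359)) (XT.lf (nat_lit 760) (nat_lit 3761440179) (nat_lit 0) (nat_lit 333576407) (nat_lit 684) (nat_lit 333576407) (nat_lit 340) (nat_lit 1) (nat_lit 330) (nat_lit 1) (nat_lit 339) (nat_lit 1) (nat_lit 375) (nat_lit 407) (nat_lit 358)))) (XT.nd (nat_lit 156) (nat_lit 608) (nat_lit 0) (XT.nd (nat_lit 78) (nat_lit 684) (nat_lit 0) (XT.lf (nat_lit 76) (nat_lit 1531337367) (nat_lit 0) (nat_lit 1328750798) (nat_lit 760) (nat_lit 1531337367) (nat_lit 331) (nat_lit 1) (nat_lit 330) (nat_lit 1) (nat_lit 340) (nat_lit 1) (nat_lit 376) (nat_lit 407) (nat_lit 357)) (XT.lf (nat_lit 760) (nat_lit 2368868791) (nat_lit 0) (nat_lit 992973323) (nat_lit 684) (nat_lit 992973323) (nat_lit 331) (nat_lit 1) (nat_lit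 321) (nat_lit 1) (nat_lit 330) (nat_lit 1) (nat_lit 377) (nat_lit 407) (nat_lit 356))) (XT.nd (nat_lit 78) (nat_lit 608) (nat_lit 0) (XT.lf (nat_lit 76) (nat_lit 836489506) (nat_lit 0) (nat_lit 2645636569) (nat_lit 760) (nat_lit 836489506) (nat_lit 322) (nat_lit 1) (nat_lit 321) (nat_lit 1) (nat_lit 331) (nat_lit 1) (nat_lit 378) (nat_lit 407) (nat_lit 355)) (XT.lf (nat_lit 684) (nat_lit 973328629) (nat_lit 0) (nat_lit 1654727807) (nat_lit 608) (nat_lit 1654727807) (nat_lit 322) (nat_lit 1) (nat_lit 313) (nat_lit 1) (nat_lit 321) (nat_lit 1) (nat_lit 379) (nat_lit 407) (nat_lit 354))))) (XT.nd (nat_lit 312) (nat_lit 1824) (nat_lit 0) (XT.nd (nat_lit 156) (nat_lit 608) (nat_lit 0) (XT.nd (nat_lit 78) (nat_lit 684) (nat_lit 0) (XT.lf (nat_lit 76) (nat_lit 140475497) (nat_lit 0) (nat_lit 3966578095) (nat_lit 684) (nat_lit 140475497) (nat_lit 314) (nat_lit 1) (nat_lit 313) (nat_lit 1) (nat_lit 322) (nat_lit 1) (nat_lit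 380) (nat_lit 407) (nat_lit 353)) (XT.lf (nat_lit 76) (nat_lit 1897006050) (nat_lit 0) (nat_lit 418386380) (nat_lit 684) (nat_lit 1897006050) (nat_lit 305) (nat_lit 1) (nat_lit 304) (nat_lit 1) (nat_lit 313) (nat_lit 1) (nat_lit 381) (nat_lit 407) (nat_lit 352))) (XT.nd (nat_lit 78) (nat_lit 0) (nat_lit 0) (XT.lf (nat_lit 684) (nat_lit 3072933249) (nat_lit 0) (nat_lit 552448854) (nat_lit 608) (nat_lit 552448854) (nat_lit 305) (nat_lit 1) (nat_lit 296) (nat_lit 1) (nat_lit 304) (nat_lit 1) (nat_lit 382) (nat_lit 407) (nat_lit 351)) (XT.lf (nat_lit 76) (nat_lit 1172821324) (nat_lit 0) (nat_lit 1797899552) (nat_lit 684) (nat_lit 1172821324) (nat_lit 297) (nat_lit 1) (nat_lit 296) (nat_lit 1) (nat_lit 305) (nat_lit 1) (nat_lit 383) (nat_lit 407) (nat_lit 350)))) (XT.nd (nat_lit 156) (nat_lit 1216) (nat_lit 0) (XT.nd (nat_lit 78) (nat_lit 0) (nat_lit 0) (XT.lf (nat_lit 684) (nat_lit 1620784362) (nat_lit 0) (nat_lit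 1244454742) (nat_lit 608) (nat_lit 1244454742) (nat_lit 297) (nat_lit 1) (nat_lit 288) (nat_lit 1) (nat_lit 296) (nat_lit 1) (nat_lit 384) (nat_lit 407) (nat_lit 349)) (XT.lf (nat_lit 76) (nat_lit 449702655) (nat_lit 0) (nat_lit 3176893408) (nat_lit 684) (nat_lit 449702655) (nat_lit 289) (nat_lit 1) (nat_lit 288) (nat_lit 1) (nat_lit 297) (nat_lit 1) (nat_lit 385) (nat_lit 407) (nat_lit 348))) (XT.nd (nat_lit 78) (nat_lit 684) (nat_lit 0) (XT.lf (nat_lit 608) (nat_lit 171270333) (nat_lit 0) (nat_lit 1935939125) (nat_lit 532) (nat_lit 1935939125) (nat_lit 289) (nat_lit 1) (nat_lit 281) (nat_lit 1) (nat_lit 288) (nat_lit 1) (nat_lit 386) (nat_lit 407) (nat_lit 347)) (XT.lf (nat_lit 684) (nat_lit 3470339916) (nat_lit 0) (nat_lit 270072306) (nat_lit 608) (nat_lit 270072306) (nat_lit 281) (nat_lit 1) (nat_lit 272) (nat_lit 1) (nat_lit 280) (nat_lit 1) (nat_lit 387) (nat_lit 407) (nat_lit 346))))))) (XT.nd (nat_lit 1170)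 (nat_lit 2584) (nat_lit 0) (XT.nd (nat_lit 546) (nat_lit 2508) (nat_lit 0) (XT.nd (nat_lit 234) (nat_lit 1672) (nat_lit 0) (XT.nd (nat_lit 78) (nat_lit 532) (nat_lit 0) (XT.lf (nat_lit 76) (nat_lit 1360024354) (nat_lit 0) (nat_lit 1257939796) (nat_lit 684) (nat_lit 1360024354) (nat_lit 273) (nat_lit 1) (nat_lit 272) (nat_lit 1) (nat_lit 281) (nat_lit 1) (nat_lit 388) (nat_lit 407) (nat_lit 345)) (XT.nd (nat_lit 78) (nat_lit 0) (nat_lit 0) (XT.lf (nat_lit 608) (nat_lit 1976193175) (nat_lit 0) (nat_lit 984887106) (nat_lit 532) (nat_lit 984887106) (nat_lit 273) (nat_lit 1) (nat_lit 265) (nat_lit 1) (nat_lit 272) (nat_lit 1) (nat_lit 389) (nat_lit 407) (nat_lit 344)) (XT.lf (nat_lit 76) (nat_lit 616917835) (nat_lit 0) (nat_lit 2680481847) (nat_lit 608) (nat_lit 616917835) (nat_lit 266) (nat_lit 1) (nat_lit 265) (nat_lit 1) (nat_lit 273) (nat_lit 1) (nat_lit 390) (nat_lit 407) (nat_lit 343)))) (XT.nd (nat_lit 156) (nat_lit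 532) (nat_lit 0) (XT.nd (nat_lit 78) (nat_lit 608) (nat_lit 0) (XT.lf (nat_lit 608) (nat_lit 488399448) (nat_lit 0) (nat_lit 1697271504) (nat_lit 532) (nat_lit 1697271504) (nat_lit 266) (nat_lit 1) (nat_lit 258) (nat_lit 1) (nat_lit 265) (nat_lit 1) (nat_lit 391) (nat_lit 407) (nat_lit 342)) (XT.lf (nat_lit 608) (nat_lit 3608016497) (nat_lit 0) (nat_lit 122019330) (nat_lit 532) (nat_lit 122019330) (nat_lit 258) (nat_lit 1) (nat_lit 250) (nat_lit 1) (nat_lit 257) (nat_lit 1) (nat_lit 392) (nat_lit 407) (nat_lit 341))) (XT.nd (nat_lit 78) (nat_lit 532) (nat_lit 0) (XT.lf (nat_lit 76) (nat_lit 1420990889) (nat_lit 0) (nat_lit 979261026) (nat_lit 608) (nat_lit 1420990889) (nat_lit 251) (nat_lit 1) (nat_lit 250) (nat_lit 1) (nat_lit 258) (nat_lit 1) (nat_lit 393) (nat_lit 407) (nat_lit 340)) (XT.lf (nat_lit 608) (nat_lit 2084524841) (nat_lit 0) (nat_lit 853191725) (nat_lit 532) (nat_lit 853191725) (nat_lit 251) (nat_lit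 1) (nat_lit 243) (nat_lit 1) (nat_lit 250) (nat_lit 1) (nat_lit 394) (nat_lit 407) (nat_lit 339))))) (XT.nd (nat_lit 312) (nat_lit 1444) (nat_lit 0) (XT.nd (nat_lit 156) (nat_lit 608) (nat_lit 0) (XT.nd (nat_lit 78) (nat_lit 456) (nat_lit 0) (XT.lf (nat_lit 76) (nat_lit 664057600) (nat_lit 0) (nat_lit 2432782688) (nat_lit 608) (nat_lit 664057600) (nat_lit 244) (nat_lit 1) (nat_lit 243) (nat_lit 1) (nat_lit 251) (nat_lit 1) (nat_lit 395) (nat_lit 407) (nat_lit 338)) (XT.lf (nat_lit 532) (nat_lit 570531973) (nat_lit 0) (nat_lit 1580315064) (nat_lit 456) (nat_lit 1580315064) (nat_lit 244) (nat_lit 1) (nat_lit 237) (nat_lit 1) (nat_lit 243) (nat_lit 1) (nat_lit 396) (nat_lit 407) (nat_lit 337))) (XT.nd (nat_lit 78) (nat_lit 0) (nat_lit 0) (XT.lf (nat_lit 608) (nat_lit 3527072118) (nat_lit 0) (nat_lit 87408654) (nat_lit 532) (nat_lit 87408654) (nat_lit 237) (nat_lit 1) (nat_lit 229) (nat_lit 1) (nat_lit 236) (nat_lit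 1) (nat_lit 397) (nat_lit 407) (nat_lit 336)) (XT.lf (nat_lit 76) (nat_lit 1375772006) (nat_lit 0) (nat_lit 921116078) (nat_lit 608) (nat_lit 1375772006) (nat_lit 230) (nat_lit 1) (nat_lit 229) (nat_lit 1) (nat_lit 237) (nat_lit 1) (nat_lit 398) (nat_lit 407) (nat_lit 335)))) (XT.nd (nat_lit 156) (nat_lit 988) (nat_lit 0) (XT.nd (nat_lit 78) (nat_lit 0) (nat_lit 0) (XT.lf (nat_lit 532) (nat_lit 1985162366) (nat_lit 0) (nat_lit 829361345) (nat_lit 456) (nat_lit 829361345) (nat_lit 230) (nat_lit 1) (nat_lit 223) (nat_lit 1) (nat_lit 229) (nat_lit 1) (nat_lit 399) (nat_lit 407) (nat_lit 334)) (XT.lf (nat_lit 76) (nat_lit 610330520) (nat_lit 0) (nat_lit 2394755420) (nat_lit 532) (nat_lit 610330520) (nat_lit 224) (nat_lit 1) (nat_lit 223) (nat_lit 1) (nat_lit 230) (nat_lit 1) (nat_lit 400) (nat_lit 407) (nat_lit 333))) (XT.nd (nat_lit 78) (nat_lit 532) (nat_lit 0) (XT.lf (nat_lit 532) (nat_lit 455394966) (nat_lit 0)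 (nat_lit 1565901091) (nat_lit 456) (nat_lit 1565901091) (nat_lit 224) (nat_lit 1) (nat_lit 217) (nat_lit 1) (nat_lit 223) (nat_lit 1) (nat_lit 401) (nat_lit 407) (nat_lit 332)) (XT.lf (nat_lit 532) (nat_lit 3263472399) (nat_lit 0) (nat_lit 147961001) (nat_lit 456) (nat_lit 147961001) (nat_lit 217) (nat_lit 1) (nat_lit 210) (nat_lit 1) (nat_lit 216) (nat_lit 1) (nat_lit 402) (nat_lit 407) (nat_lit 331)))))) (XT.nd (nat_lit 624) (nat_lit 836) (nat_lit 0) (XT.nd (nat_lit 312) (nat_lit 912) (nat_lit 0) (XT.nd (nat_lit 156) (nat_lit 380) (nat_lit 0) (XT.nd (nat_lit 78) (nat_lit 456) (nat_lit 0) (XT.lf (nat_lit 76) (nat_lit 1241907321) (nat_lit 0) (nat_lit 1047840416) (nat_lit 532) (nat_lit 1241907321) (nat_lit 211) (nat_lit 1) (nat_lit 210) (nat_lit 1) (nat_lit 217) (nat_lit 1) (nat_lit 403) (nat_lit 407) (nat_lit 330)) (XT.lf (nat_lit 532) (nat_lit 1712550606) (nat_lit 0) (nat_lit 895886924) (nat_lit 456) (nat_lit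 895886924) (nat_lit 211) (nat_lit 1) (nat_lit 204) (nat_lit 1) (nat_lit 210) (nat_lit 1) (nat_lit 404) (nat_lit 407) (nat_lit 329))) (XT.nd (nat_lit 78) (nat_lit 380) (nat_lit 0) (XT.lf (nat_lit 76) (nat_lit 472533999) (nat_lit 0) (nat_lit 2532239365) (nat_lit 532) (nat_lit 472533999) (nat_lit 205) (nat_lit 1) (nat_lit 204) (nat_lit 1) (nat_lit 211) (nat_lit 1) (nat_lit 405) (nat_lit 407) (nat_lit 328)) (XT.lf (nat_lit 456) (nat_lit 175974601) (nat_lit 0) (nat_lit 1637259382) (nat_lit 380) (nat_lit 1637259382) (nat_lit 205) (nat_lit 1) (nat_lit 199) (nat_lit 1) (nat_lit 204) (nat_lit 1) (nat_lit 406) (nat_lit 407) (nat_lit 327)))) (XT.nd (nat_lit 156) (nat_lit 380) (nat_lit 0) (XT.nd (nat_lit 78) (nat_lit 0) (nat_lit 0) (XT.lf (nat_lit 532) (nat_lit 2848637976) (nat_lit 0) (nat_lit 287696688) (nat_lit 456) (nat_lit 287696688) (nat_lit 199) (nat_lit 1) (nat_lit 192) (nat_lit 1) (nat_lit 198) (nat_lit 1) (nat_lit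 407) (nat_lit 407) (nat_lit 326)) (XT.lf (nat_lit 76) (nat_lit 1034717341) (nat_lit 0) (nat_lit 1328261210) (nat_lit 532) (nat_lit 1034717341) (nat_lit 193) (nat_lit 1) (nat_lit 192) (nat_lit 1) (nat_lit 199) (nat_lit 1) (nat_lit 408) (nat_lit 407) (nat_lit 325))) (XT.nd (nat_lit 78) (nat_lit 0) (nat_lit 0) (XT.lf (nat_lit 456) (nat_lit 1296771325) (nat_lit 0) (nat_lit 1037467073) (nat_lit 380) (nat_lit 1037467073) (nat_lit 193) (nat_lit 1) (nat_lit 187) (nat_lit 1) (nat_lit 192) (nat_lit 1) (nat_lit 409) (nat_lit 407) (nat_lit 324)) (XT.lf (nat_lit 76) (nat_lit 265335170) (nat_lit 0) (nat_lit 2815385937) (nat_lit 456) (nat_lit 265335170) (nat_lit 188) (nat_lit 1) (nat_lit 187) (nat_lit 1) (nat_lit 193) (nat_lit 1) (nat_lit 410) (nat_lit 407) (nat_lit 323))))) (XT.nd (nat_lit 52650) (nat_lit 0) (nat_lit 24396) (XT.nd (nat_lit 156) (nat_lit 0) (nat_lit 0) (XT.nd (nat_lit 78) (nat_lit 380) (nat_lit 0) (XT.lf (nat_lit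 76) (nat_lit 1542359047) (nat_lit 0) (nat_lit 235797705) (nat_lit 456) (nat_lit 1542359047) (nat_lit 182) (nat_lit 1) (nat_lit 181) (nat_lit 1) (nat_lit 187) (nat_lit 1) (nat_lit 411) (nat_lit 407) (nat_lit 322)) (XT.lf (nat_lit 456) (nat_lit 2309975075) (nat_lit 0) (nat_lit 492667526) (nat_lit 380) (nat_lit 492667526) (nat_lit 182) (nat_lit 1) (nat_lit 176) (nat_lit 1) (nat_lit 181) (nat_lit 1) (nat_lit 412) (nat_lit 407) (nat_lit 321))) (XT.nd (nat_lit 52416) (nat_lit 0) (nat_lit 24396) (XT.lf (nat_lit 76) (nat_lit 767562624) (nat_lit 0) (nat_lit 1735173480) (nat_lit 456) (nat_lit 767562624) (nat_lit 177) (nat_lit 1) (nat_lit 176) (nat_lit 1) (nat_lit 182) (nat_lit 1) (nat_lit 413) (nat_lit 407) (nat_lit 320)) (XT.lf (nat_lit 1900) (nat_lit 1174330024) (nat_lit 0) (nat_lit 1184150154) (nat_lit 1900) (nat_lit 1174330024) (nat_lit 522) (nat_lit 1) (nat_lit 497) (nat_lit 0) (nat_lit 522) (nat_lit 0) (nat_lit 324)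 (nat_lit 408) (nat_lit 408)))) (XT.nd (nat_lit 156) (nat_lit 0) (nat_lit 76) (XT.nd (nat_lit 78) (nat_lit 0) (nat_lit 76) (XT.lf (nat_lit 1900) (nat_lit 4643477478) (nat_lit 76) (nat_lit 1176359692) (nat_lit 0) (nat_lit 1176359692) (nat_lit 522) (nat_lit 1) (nat_lit 498) (nat_lit 1) (nat_lit 497) (nat_lit 0) (nat_lit 325) (nat_lit 408) (nat_lit 407)) (XT.lf (nat_lit 1900) (nat_lit 2279969544) (nat_lit 0) (nat_lit 2367592506) (nat_lit 1824) (nat_lit 2279969544) (nat_lit 523) (nat_lit 1) (nat_lit 498) (nat_lit 1) (nat_lit 522) (nat_lit 1) (nat_lit 326) (nat_lit 408) (nat_lit 406))) (XT.nd (nat_lit 78) (nat_lit 0) (nat_lit 76) (XT.lf (nat_lit 1900) (nat_lit 4462462442) (nat_lit 76) (nat_lit 1198722423) (nat_lit 0) (nat_lit 1198722423) (nat_lit 523) (nat_lit 1) (nat_lit 499) (nat_lit 1) (nat_lit 498) (nat_lit 1) (nat_lit 327) (nat_lit 408) (nat_lit 405)) (XT.lf (nat_lit 1900) (nat_lit 2168672185) (nat_lit 0) (nat_lit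 2455685114) (nat_lit 1824) (nat_lit 2168672185) (nat_lit 524) (nat_lit 1) (nat_lit 499) (nat_lit 1) (nat_lit 523) (nat_lit 1) (nat_lit 328) (nat_lit 408) (nat_lit 404))))))))
noncomputable def ec39 : XT := (XT.nd (nat_lit 2418) (nat_lit 12160) (nat_lit 0) (XT.nd (nat_lit 1170) (nat_lit 6764) (nat_lit 0) (XT.nd (nat_lit 546) (nat_lit 0) (nat_lit 304) (XT.nd (nat_lit 234) (nat_lit 0) (nat_lit 152) (XT.nd (nat_lit 78) (nat_lit 0) (nat_lit 76) (XT.lf (nat_lit 1900) (nat_lit 4198523771) (nat_lit 76) (nat_lit 1264311228) (nat_lit 0) (nat_lit 1264311228) (nat_lit 524) (nat_lit 1) (nat_lit 500) (nat_lit 1) (nat_lit 499) (nat_lit 1) (nat_lit 329) (nat_lit 408) (nat_lit 403)) (XT.nd (nat_lit 78) (nat_lit 0) (nat_lit 0) (XT.lf (nat_lit 1900) (nat_lit 2017310175) (nat_lit 0) (nat_lit 2627389257) (nat_lit 1824) (nat_lit 2017310175) (nat_lit 525) (nat_lit 1) (nat_lit 500) (nat_lit 1) (nat_lit 524) (nat_lit 1) (nat_lit 330) (nat_lit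 408) (nat_lit 402)) (XT.lf (nat_lit 1900) (nat_lit 3856645268) (nat_lit 76) (nat_lit 1370582989) (nat_lit 0) (nat_lit 1370582989) (nat_lit 525) (nat_lit 1) (nat_lit 501) (nat_lit 1) (nat_lit 500) (nat_lit 1) (nat_lit 331) (nat_lit 408) (nat_lit 401)))) (XT.nd (nat_lit 156) (nat_lit 0) (nat_lit 76) (XT.nd (nat_lit 78) (nat_lit 0) (nat_lit 0) (XT.lf (nat_lit 1900) (nat_lit 1828309598) (nat_lit 0) (nat_lit 2877751683) (nat_lit 1824) (nat_lit 1828309598) (nat_lit 526) (nat_lit 1) (nat_lit 501) (nat_lit 1) (nat_lit 525) (nat_lit 1) (nat_lit 332) (nat_lit 408) (nat_lit 400)) (XT.lf (nat_lit 1900) (nat_lit 3441582626) (nat_lit 76) (nat_lit 1515110293) (nat_lit 0) (nat_lit 1515110293) (nat_lit 526) (nat_lit 1) (nat_lit 502) (nat_lit 1) (nat_lit 501) (nat_lit 1) (nat_lit 333) (nat_lit 408) (nat_lit 399))) (XT.nd (nat_lit 78) (nat_lit 0) (nat_lit 0) (XT.lf (nat_lit 1900) (nat_lit 1603985261) (nat_lit 0) (nat_lit 3202044940)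 (nat_lit 1824) (nat_lit 1603985261) (nat_lit 527) (nat_lit 1) (nat_lit 502) (nat_lit 1) (nat_lit 526) (nat_lit 1) (nat_lit 334) (nat_lit 408) (nat_lit 398)) (XT.lf (nat_lit 1900) (nat_lit 2957872962) (nat_lit 76) (nat_lit 1695576607) (nat_lit 0) (nat_lit 1695576607) (nat_lit 527) (nat_lit 1) (nat_lit 503) (nat_lit 1) (nat_lit 502) (nat_lit 1) (nat_lit 335) (nat_lit 408) (nat_lit 397))))) (XT.nd (nat_lit 312) (nat_lit 0) (nat_lit 152) (XT.nd (nat_lit 156) (nat_lit 0) (nat_lit 76) (XT.nd (nat_lit 78) (nat_lit 0) (nat_lit 0) (XT.lf (nat_lit 1900) (nat_lit 1346545356) (nat_lit 0) (nat_lit 3595757955) (nat_lit 1824) (nat_lit 1346545356) (nat_lit 528) (nat_lit 1) (nat_lit 503) (nat_lit 1) (nat_lit 527) (nat_lit 1) (nat_lit 336) (nat_lit 408) (nat_lit 396)) (XT.lf (nat_lit 1900) (nat_lit 2409843971) (nat_lit 76) (nat_lit 1909771646) (nat_lit 0) (nat_lit 1909771646) (nat_lit 528) (nat_lit 1) (nat_lit 504) (nat_lit 1) (nat_lit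 503) (nat_lit 1) (nat_lit 337) (nat_lit 408) (nat_lit 395))) (XT.nd (nat_lit 78) (nat_lit 0) (nat_lit 0) (XT.lf (nat_lit 1900) (nat_lit 1058095927) (nat_lit 0) (nat_lit 4054586988) (nat_lit 1824) (nat_lit 1058095927) (nat_lit 529) (nat_lit 1) (nat_lit 504) (nat_lit 1) (nat_lit 528) (nat_lit 1) (nat_lit 338) (nat_lit 408) (nat_lit 394)) (XT.lf (nat_lit 1900) (nat_lit 1801622708) (nat_lit 76) (nat_lit 2155586929) (nat_lit 0) (nat_lit 2155586929) (nat_lit 529) (nat_lit 1) (nat_lit 505) (nat_lit 1) (nat_lit 504) (nat_lit 1) (nat_lit 339) (nat_lit 408) (nat_lit 393)))) (XT.nd (nat_lit 156) (nat_lit 0) (nat_lit 76) (XT.nd (nat_lit 78) (nat_lit 0) (nat_lit 0) (XT.lf (nat_lit 1900) (nat_lit 740645154) (nat_lit 0) (nat_lit 4574426946) (nat_lit 1824) (nat_lit 740645154) (nat_lit 530) (nat_lit 1) (nat_lit 505) (nat_lit 1) (nat_lit 529) (nat_lit 1) (nat_lit 340) (nat_lit 408) (nat_lit 392)) (XT.lf (nat_lit 1900) (nat_lit 1137144022)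 (nat_lit 76) (nat_lit 2431011512) (nat_lit 0) (nat_lit 2431011512) (nat_lit 530) (nat_lit 1) (nat_lit 506) (nat_lit 1) (nat_lit 505) (nat_lit 1) (nat_lit 341) (nat_lit 408) (nat_lit 391))) (XT.nd (nat_lit 78) (nat_lit 0) (nat_lit 0) (XT.lf (nat_lit 1900) (nat_lit 396107473) (nat_lit 0) (nat_lit 5151363058) (nat_lit 1824) (nat_lit 396107473) (nat_lit 531) (nat_lit 1) (nat_lit 506) (nat_lit 1) (nat_lit 530) (nat_lit 1) (nat_lit 342) (nat_lit 408) (nat_lit 390)) (XT.lf (nat_lit 1900) (nat_lit 420158640) (nat_lit 76) (nat_lit 2734127891) (nat_lit 0) (nat_lit 2734127891) (nat_lit 531) (nat_lit 1) (nat_lit 507) (nat_lit 1) (nat_lit 506) (nat_lit 1) (nat_lit 343) (nat_lit 408) (nat_lit 389)))))) (XT.nd (nat_lit 624) (nat_lit 4484) (nat_lit 0) (XT.nd (nat_lit 312) (nat_lit 988) (nat_lit 0) (XT.nd (nat_lit 156) (nat_lit 0) (nat_lit 0) (XT.nd (nat_lit 78) (nat_lit 1900) (nat_lit 0) (XT.lf (nat_lit 1900) (nat_lit 26307524)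 (nat_lit 0) (nat_lit 5781662874) (nat_lit 1824) (nat_lit 26307524) (nat_lit 532) (nat_lit 1) (nat_lit 507) (nat_lit 1) (nat_lit 531) (nat_lit 1) (nat_lit 344) (nat_lit 408) (nat_lit 388)) (XT.lf (nat_lit 1976) (nat_lit 2719593912) (nat_lit 0) (nat_lit 341224370) (nat_lit 1900) (nat_lit 2719593912) (nat_lit 508) (nat_lit 1) (nat_lit 482) (nat_lit 1) (nat_lit 507) (nat_lit 1) (nat_lit 345) (nat_lit 408) (nat_lit 387))) (XT.nd (nat_lit 78) (nat_lit 0) (nat_lit 76) (XT.lf (nat_lit 1976) (nat_lit 4998342236) (nat_lit 76) (nat_lit 364601481) (nat_lit 0) (nat_lit 364601481) (nat_lit 508) (nat_lit 1) (nat_lit 483) (nat_lit 1) (nat_lit 482) (nat_lit 1) (nat_lit 346) (nat_lit 408) (nat_lit 386)) (XT.lf (nat_lit 1976) (nat_lit 2266519537) (nat_lit 0) (nat_lit 1142026684) (nat_lit 1900) (nat_lit 2266519537) (nat_lit 509) (nat_lit 1) (nat_lit 483) (nat_lit 1) (nat_lit 508) (nat_lit 1) (nat_lit 347) (nat_lit 408) (nat_lit 385))))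 (XT.nd (nat_lit 156) (nat_lit 1064) (nat_lit 0) (XT.nd (nat_lit 78) (nat_lit 0) (nat_lit 76) (XT.lf (nat_lit 1976) (nat_lit 4069346171) (nat_lit 76) (nat_lit 777060918) (nat_lit 0) (nat_lit 777060918) (nat_lit 509) (nat_lit 1) (nat_lit 484) (nat_lit 1) (nat_lit 483) (nat_lit 1) (nat_lit 348) (nat_lit 408) (nat_lit 384)) (XT.lf (nat_lit 76) (nat_lit 1793897986) (nat_lit 0) (nat_lit 1984557587) (nat_lit 1900) (nat_lit 1793897986) (nat_lit 485) (nat_lit 1) (nat_lit 484) (nat_lit 1) (nat_lit 509) (nat_lit 1) (nat_lit 349) (nat_lit 408) (nat_lit 383))) (XT.nd (nat_lit 78) (nat_lit 0) (nat_lit 0) (XT.lf (nat_lit 1216) (nat_lit 3102631636) (nat_lit 0) (nat_lit 1209676857) (nat_lit 1140) (nat_lit 1209676857) (nat_lit 485) (nat_lit 1) (nat_lit 469) (nat_lit 1) (nat_lit 484) (nat_lit 1) (nat_lit 350) (nat_lit 408) (nat_lit 382)) (XT.lf (nat_lit 76) (nat_lit 1303216547) (nat_lit 0) (nat_lit 2865768769) (nat_lit 1216) (nat_lit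 1303216547) (nat_lit 470) (nat_lit 1) (nat_lit 469) (nat_lit 1) (nat_lit 485) (nat_lit 1) (nat_lit 351) (nat_lit 408) (nat_lit 381))))) (XT.nd (nat_lit 312) (nat_lit 2660) (nat_lit 0) (XT.nd (nat_lit 156) (nat_lit 912) (nat_lit 0) (XT.nd (nat_lit 78) (nat_lit 0) (nat_lit 0) (XT.lf (nat_lit 988) (nat_lit 2101110196) (nat_lit 0) (nat_lit 1660957324) (nat_lit 912) (nat_lit 1660957324) (nat_lit 470) (nat_lit 1) (nat_lit 457) (nat_lit 1) (nat_lit 469) (nat_lit 1) (nat_lit 352) (nat_lit 408) (nat_lit 380)) (XT.lf (nat_lit 76) (nat_lit 795890475) (nat_lit 0) (nat_lit 3782758293) (nat_lit 988) (nat_lit 795890475) (nat_lit 458) (nat_lit 1) (nat_lit 457) (nat_lit 1) (nat_lit 470) (nat_lit 1) (nat_lit 353) (nat_lit 408) (nat_lit 379))) (XT.nd (nat_lit 78) (nat_lit 0) (nat_lit 0) (XT.lf (nat_lit 988) (nat_lit 1067551987) (nat_lit 0) (nat_lit 2129482191) (nat_lit 912) (nat_lit 2129482191) (nat_lit 458) (nat_lit 1) (nat_lit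 445) (nat_lit 1) (nat_lit 457) (nat_lit 1) (nat_lit 354) (nat_lit 408) (nat_lit 378)) (XT.lf (nat_lit 76) (nat_lit 273266071) (nat_lit 0) (nat_lit 4732764354) (nat_lit 988) (nat_lit 273266071) (nat_lit 446) (nat_lit 1) (nat_lit 445) (nat_lit 1) (nat_lit 458) (nat_lit 1) (nat_lit 355) (nat_lit 408) (nat_lit 377)))) (XT.nd (nat_lit 156) (nat_lit 836) (nat_lit 0) (XT.nd (nat_lit 78) (nat_lit 988) (nat_lit 0) (XT.lf (nat_lit 912) (nat_lit 4591764) (nat_lit 0) (nat_lit 2613900108) (nat_lit 836) (nat_lit 2613900108) (nat_lit 446) (nat_lit 1) (nat_lit 434) (nat_lit 1) (nat_lit 445) (nat_lit 1) (nat_lit 356) (nat_lit 408) (nat_lit 376)) (XT.lf (nat_lit 988) (nat_lit 4662982043) (nat_lit 0) (nat_lit 261643630) (nat_lit 912) (nat_lit 261643630) (nat_lit 434) (nat_lit 1) (nat_lit 421) (nat_lit 1) (nat_lit 433) (nat_lit 1) (nat_lit 357) (nat_lit 408) (nat_lit 375))) (XT.nd (nat_lit 78) (nat_lit 836) (nat_lit 0) (XT.lf (nat_lit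 76) (nat_lit 2034706528) (nat_lit 0) (nat_lit 1071031849) (nat_lit 988) (nat_lit 2034706528) (nat_lit 422) (nat_lit 1) (nat_lit 421) (nat_lit 1) (nat_lit 434) (nat_lit 1) (nat_lit 358) (nat_lit 408) (nat_lit 374)) (XT.lf (nat_lit 912) (nat_lit 3480436416) (nat_lit 0) (nat_lit 807472224) (nat_lit 836) (nat_lit 807472224) (nat_lit 422) (nat_lit 1) (nat_lit 410) (nat_lit 1) (nat_lit 421) (nat_lit 1) (nat_lit 359) (nat_lit 408) (nat_lit 373))))))) (XT.nd (nat_lit 1170) (nat_lit 6080) (nat_lit 0) (XT.nd (nat_lit 546) (nat_lit 2888) (nat_lit 0) (XT.nd (nat_lit 234) (nat_lit 2356) (nat_lit 0) (XT.nd (nat_lit 78) (nat_lit 836) (nat_lit 0) (XT.lf (nat_lit 76) (nat_lit 1439979544) (nat_lit 0) (nat_lit 2170789395) (nat_lit 912) (nat_lit 1439979544) (nat_lit 411) (nat_lit 1) (nat_lit 410) (nat_lit 1) (nat_lit 422) (nat_lit 1) (nat_lit 360) (nat_lit 408) (nat_lit 372)) (XT.nd (nat_lit 78) (nat_lit 0) (nat_lit 0) (XT.lf (nat_lit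 912) (nat_lit 2276974318) (nat_lit 0) (nat_lit 1364868451) (nat_lit 836) (nat_lit 1364868451) (nat_lit 411) (nat_lit 1) (nat_lit 399) (nat_lit 1) (nat_lit 410) (nat_lit 1) (nat_lit 361) (nat_lit 408) (nat_lit 371)) (XT.lf (nat_lit 76) (nat_lit 835366739) (nat_lit 0) (nat_lit 3292508281) (nat_lit 912) (nat_lit 835366739) (nat_lit 400) (nat_lit 1) (nat_lit 399) (nat_lit 1) (nat_lit 411) (nat_lit 1) (nat_lit 362) (nat_lit 408) (nat_lit 370)))) (XT.nd (nat_lit 156) (nat_lit 1596) (nat_lit 0) (XT.nd (nat_lit 78) (nat_lit 0) (nat_lit 0) (XT.lf (nat_lit 836) (nat_lit 1054718474) (nat_lit 0) (nat_lit 1932740718) (nat_lit 760) (nat_lit 1932740718) (nat_lit 400) (nat_lit 1) (nat_lit 389) (nat_lit 1) (nat_lit 399) (nat_lit 1) (nat_lit 363) (nat_lit 408) (nat_lit 369)) (XT.lf (nat_lit 76) (nat_lit 221898652) (nat_lit 0) (nat_lit 4434067755) (nat_lit 836) (nat_lit 221898652) (nat_lit 390) (nat_lit 1) (nat_lit 389) (nat_lit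 1) (nat_lit 400) (nat_lit 1) (nat_lit 364) (nat_lit 408) (nat_lit 368))) (XT.nd (nat_lit 78) (nat_lit 760) (nat_lit 0) (XT.lf (nat_lit 76) (nat_lit 2326932605) (nat_lit 0) (nat_lit 181899170) (nat_lit 836) (nat_lit 2326932605) (nat_lit 379) (nat_lit 1) (nat_lit 378) (nat_lit 1) (nat_lit 389) (nat_lit 1) (nat_lit 365) (nat_lit 408) (nat_lit 367)) (XT.lf (nat_lit 836) (nat_lit 4000714506) (nat_lit 0) (nat_lit 396818929) (nat_lit 760) (nat_lit 396818929) (nat_lit 379) (nat_lit 1) (nat_lit 368) (nat_lit 1) (nat_lit 378) (nat_lit 1) (nat_lit 366) (nat_lit 408) (nat_lit 366))))) (XT.nd (nat_lit 312) (nat_lit 1444) (nat_lit 0) (XT.nd (nat_lit 156) (nat_lit 684) (nat_lit 0) (XT.nd (nat_lit 78) (nat_lit 760) (nat_lit 0) (XT.lf (nat_lit 76) (nat_lit 1666937939) (nat_lit 0) (nat_lit 1419356963) (nat_lit 836) (nat_lit 1666937939) (nat_lit 369) (nat_lit 1) (nat_lit 368) (nat_lit 1) (nat_lit 379) (nat_lit 1) (nat_lit 367) (nat_lit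 408) (nat_lit 365)) (XT.lf (nat_lit 836) (nat_lit 2670774645) (nat_lit 0) (nat_lit 1020980922) (nat_lit 760) (nat_lit 1020980922) (nat_lit 369) (nat_lit 1) (nat_lit 358) (nat_lit 1) (nat_lit 368) (nat_lit 1) (nat_lit 368) (nat_lit 408) (nat_lit 364))) (XT.nd (nat_lit 78) (nat_lit 684) (nat_lit 0) (XT.lf (nat_lit 76) (nat_lit 1001494073) (nat_lit 0) (nat_lit 2669699228) (nat_lit 836) (nat_lit 1001494073) (nat_lit 359) (nat_lit 1) (nat_lit 358) (nat_lit 1) (nat_lit 369) (nat_lit 1) (nat_lit 369) (nat_lit 408) (nat_lit 363)) (XT.lf (nat_lit 760) (nat_lit 1330731690) (nat_lit 0) (nat_lit 1651173729) (nat_lit 684) (nat_lit 1651173729) (nat_lit 359) (nat_lit 1) (nat_lit 349) (nat_lit 1) (nat_lit 358) (nat_lit 1) (nat_lit 370) (nat_lit 408) (nat_lit 362)))) (XT.nd (nat_lit 156) (nat_lit 684) (nat_lit 0) (XT.nd (nat_lit 78) (nat_lit 760) (nat_lit 0) (XT.lf (nat_lit 76) (nat_lit 331421970) (nat_lit 0) (nat_lit 3931230813)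 (nat_lit 760) (nat_lit 331421970) (nat_lit 350) (nat_lit 1) (nat_lit 349) (nat_lit 1) (nat_lit 359) (nat_lit 1) (nat_lit 371) (nat_lit 408) (nat_lit 361)) (XT.lf (nat_lit 76) (nat_lit 2268873989) (nat_lit 0) (nat_lit 17577733) (nat_lit 760) (nat_lit 2268873989) (nat_lit 340) (nat_lit 1) (nat_lit 339) (nat_lit 1) (nat_lit 349) (nat_lit 1) (nat_lit 372) (nat_lit 408) (nat_lit 360))) (XT.nd (nat_lit 78) (nat_lit 0) (nat_lit 0) (XT.lf (nat_lit 760) (nat_lit 3836668983) (nat_lit 0) (nat_lit 340247935) (nat_lit 684) (nat_lit 340247935) (nat_lit 340) (nat_lit 1) (nat_lit 330) (nat_lit 1) (nat_lit 339) (nat_lit 1) (nat_lit 373) (nat_lit 408) (nat_lit 359)) (XT.lf (nat_lit 76) (nat_lit 1561964114) (nat_lit 0) (nat_lit 1355325814) (nat_lit 760) (nat_lit 1561964114) (nat_lit 331) (nat_lit 1) (nat_lit 330) (nat_lit 1) (nat_lit 340) (nat_lit 1) (nat_lit 374) (nat_lit 408) (nat_lit 358)))))) (XT.nd (nat_lit 624) (nat_lit 2888)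 (nat_lit 0) (XT.nd (nat_lit 312) (nat_lit 1900) (nat_lit 0) (XT.nd (nat_lit 156) (nat_lit 608) (nat_lit 0) (XT.nd (nat_lit 78) (nat_lit 0) (nat_lit 0) (XT.lf (nat_lit 760) (nat_lit 2416246167) (nat_lit 0) (nat_lit 1012832789) (nat_lit 684) (nat_lit 1012832789) (nat_lit 331) (nat_lit 1) (nat_lit 321) (nat_lit 1) (nat_lit 330) (nat_lit 1) (nat_lit 375) (nat_lit 408) (nat_lit 357)) (XT.lf (nat_lit 76) (nat_lit 853219296) (nat_lit 0) (nat_lit 2698549300) (nat_lit 760) (nat_lit 853219296) (nat_lit 322) (nat_lit 1) (nat_lit 321) (nat_lit 1) (nat_lit 331) (nat_lit 1) (nat_lit 376) (nat_lit 408) (nat_lit 356))) (XT.nd (nat_lit 78) (nat_lit 0) (nat_lit 0) (XT.lf (nat_lit 684) (nat_lit 992795202) (nat_lit 0) (nat_lit 1687822363) (nat_lit 608) (nat_lit 1687822363) (nat_lit 322) (nat_lit 1) (nat_lit 313) (nat_lit 1) (nat_lit 321) (nat_lit 1) (nat_lit 377) (nat_lit 408) (nat_lit 355)) (XT.lf (nat_lit 76) (nat_lit 143285007)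 (nat_lit 0) (nat_lit 4045909657) (nat_lit 684) (nat_lit 143285007) (nat_lit 314) (nat_lit 1) (nat_lit 313) (nat_lit 1) (nat_lit 322) (nat_lit 1) (nat_lit 378) (nat_lit 408) (nat_lit 354)))) (XT.nd (nat_lit 156) (nat_lit 608) (nat_lit 0) (XT.nd (nat_lit 78) (nat_lit 608) (nat_lit 0) (XT.lf (nat_lit 76) (nat_lit 1934946171) (nat_lit 0) (nat_lit 426754107) (nat_lit 684) (nat_lit 1934946171) (nat_lit 305) (nat_lit 1) (nat_lit 304) (nat_lit 1) (nat_lit 313) (nat_lit 1) (nat_lit 379) (nat_lit 408) (nat_lit 353)) (XT.lf (nat_lit 684) (nat_lit 3134391914) (nat_lit 0) (nat_lit 563497831) (nat_lit 608) (nat_lit 563497831) (nat_lit 305) (nat_lit 1) (nat_lit 296) (nat_lit 1) (nat_lit 304) (nat_lit 1) (nat_lit 380) (nat_lit 408) (nat_lit 352))) (XT.nd (nat_lit 78) (nat_lit 608) (nat_lit 0) (XT.lf (nat_lit 76) (nat_lit 1196277751) (nat_lit 0) (nat_lit 1833857544) (nat_lit 684) (nat_lit 1196277751) (nat_lit 297) (nat_lit 1) (nat_lit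 296) (nat_lit 1) (nat_lit 305) (nat_lit 1) (nat_lit 381) (nat_lit 408) (nat_lit 351)) (XT.lf (nat_lit 684) (nat_lit 1653200049) (nat_lit 0) (nat_lit 1269343837) (nat_lit 608) (nat_lit 1269343837) (nat_lit 297) (nat_lit 1) (nat_lit 288) (nat_lit 1) (nat_lit 296) (nat_lit 1) (nat_lit 382) (nat_lit 408) (nat_lit 350))))) (XT.nd (nat_lit 312) (nat_lit 1672) (nat_lit 0) (XT.nd (nat_lit 156) (nat_lit 684) (nat_lit 0) (XT.nd (nat_lit 78) (nat_lit 532) (nat_lit 0) (XT.lf (nat_lit 76) (nat_lit 458696708) (nat_lit 0) (nat_lit 3240431277) (nat_lit 684) (nat_lit 458696708) (nat_lit 289) (nat_lit 1) (nat_lit 288) (nat_lit 1) (nat_lit 297) (nat_lit 1) (nat_lit 383) (nat_lit 408) (nat_lit 349)) (XT.lf (nat_lit 608) (nat_lit 174695739) (nat_lit 0) (nat_lit 1974657908) (nat_lit 532) (nat_lit 1974657908) (nat_lit 289) (nat_lit 1) (nat_lit 281) (nat_lit 1) (nat_lit 288) (nat_lit 1) (nat_lit 384) (nat_lit 408) (nat_lit 348))) (XT.nd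 (nat_lit 78) (nat_lit 0) (nat_lit 0) (XT.lf (nat_lit 684) (nat_lit 3539746714) (nat_lit 0) (nat_lit 275473752) (nat_lit 608) (nat_lit 275473752) (nat_lit 281) (nat_lit 1) (nat_lit 272) (nat_lit 1) (nat_lit 280) (nat_lit 1) (nat_lit 385) (nat_lit 408) (nat_lit 347)) (XT.lf (nat_lit 76) (nat_lit 1387224841) (nat_lit 0) (nat_lit 1283098592) (nat_lit 684) (nat_lit 1387224841) (nat_lit 273) (nat_lit 1) (nat_lit 272) (nat_lit 1) (nat_lit 281) (nat_lit 1) (nat_lit 386) (nat_lit 408) (nat_lit 346)))) (XT.nd (nat_lit 156) (nat_lit 1140) (nat_lit 0) (XT.nd (nat_lit 78) (nat_lit 0) (nat_lit 0) (XT.lf (nat_lit 608) (nat_lit 2015717038) (nat_lit 0) (nat_lit 1004584848) (nat_lit 532) (nat_lit 1004584848) (nat_lit 273) (nat_lit 1) (nat_lit 265) (nat_lit 1) (nat_lit 272) (nat_lit 1) (nat_lit 387) (nat_lit 408) (nat_lit 345)) (XT.lf (nat_lit 76) (nat_lit 629256192) (nat_lit 0) (nat_lit 2734091484) (nat_lit 608) (nat_lit 629256192)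 (nat_lit 266) (nat_lit 1) (nat_lit 265) (nat_lit 1) (nat_lit 273) (nat_lit 1) (nat_lit 388) (nat_lit 408) (nat_lit 344))) (XT.nd (nat_lit 78) (nat_lit 608) (nat_lit 0) (XT.lf (nat_lit 608) (nat_lit 498167437) (nat_lit 0) (nat_lit 1731216934) (nat_lit 532) (nat_lit 1731216934) (nat_lit 266) (nat_lit 1) (nat_lit 258) (nat_lit 1) (nat_lit 265) (nat_lit 1) (nat_lit 389) (nat_lit 408) (nat_lit 343)) (XT.lf (nat_lit 608) (nat_lit 3680176827) (nat_lit 0) (nat_lit 124459717) (nat_lit 532) (nat_lit 124459717) (nat_lit 258) (nat_lit 1) (nat_lit 250) (nat_lit 1) (nat_lit 257) (nat_lit 1) (nat_lit 390) (nat_lit 408) (nat_lit 342))))))))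
noncomputable def ec40 : XT := (XT.nd (nat_lit 54678) (nat_lit 0) (nat_lit 16568) (XT.nd (nat_lit 1170) (nat_lit 1596) (nat_lit 0) (XT.nd (nat_lit 546) (nat_lit 2356) (nat_lit 0) (XT.nd (nat_lit 234) (nat_lit 1520) (nat_lit 0) (XT.nd (nat_lit 78) (nat_lit 532) (nat_lit 0) (XT.lf (nat_lit 76) (nat_lit 1449410707) (nat_lit 0) (nat_lit 998846247) (nat_lit 608) (nat_lit 1449410707) (nat_lit 251) (nat_lit 1) (nat_lit 250) (nat_lit 1) (nat_lit 258) (nat_lit 1) (nat_lit 391) (nat_lit 408) (nat_lit 341)) (XT.nd (nat_lit 78) (nat_lit 0) (nat_lit 0) (XT.lf (nat_lit 608) (nat_lit 2126215338) (nat_lit 0) (nat_lit 870255559) (nat_lit 532) (nat_lit 870255559) (nat_lit 251) (nat_lit 1) (nat_lit 243) (nat_lit 1) (nat_lit 250) (nat_lit 1) (nat_lit 392) (nat_lit 408) (nat_lit 340)) (XT.lf (nat_lit 76) (nat_lit 677338752) (nat_lit 0) (nat_lit 2481438342) (nat_lit 608) (nat_lit 677338752) (nat_lit 244) (nat_lit 1) (nat_lit 243) (nat_lit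 1) (nat_lit 251) (nat_lit 1) (nat_lit 393) (nat_lit 408) (nat_lit 339)))) (XT.nd (nat_lit 156) (nat_lit 456) (nat_lit 0) (XT.nd (nat_lit 78) (nat_lit 608) (nat_lit 0) (XT.lf (nat_lit 532) (nat_lit 581942612) (nat_lit 0) (nat_lit 1611921365) (nat_lit 456) (nat_lit 1611921365) (nat_lit 244) (nat_lit 1) (nat_lit 237) (nat_lit 1) (nat_lit 243) (nat_lit 1) (nat_lit 394) (nat_lit 408) (nat_lit 338)) (XT.lf (nat_lit 608) (nat_lit 3597613561) (nat_lit 0) (nat_lit 89156827) (nat_lit 532) (nat_lit 89156827) (nat_lit 237) (nat_lit 1) (nat_lit 229) (nat_lit 1) (nat_lit 236) (nat_lit 1) (nat_lit 395) (nat_lit 408) (nat_lit 337))) (XT.nd (nat_lit 78) (nat_lit 456) (nat_lit 0) (XT.lf (nat_lit 76) (nat_lit 1403287446) (nat_lit 0) (nat_lit 939538400) (nat_lit 608) (nat_lit 1403287446) (nat_lit 230) (nat_lit 1) (nat_lit 229) (nat_lit 1) (nat_lit 237) (nat_lit 1) (nat_lit 396) (nat_lit 408) (nat_lit 336)) (XT.lf (nat_lit 532) (nat_lit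 2024865613) (nat_lit 0) (nat_lit 845948572) (nat_lit 456) (nat_lit 845948572) (nat_lit 230) (nat_lit 1) (nat_lit 223) (nat_lit 1) (nat_lit 229) (nat_lit 1) (nat_lit 397) (nat_lit 408) (nat_lit 335))))) (XT.nd (nat_lit 312) (nat_lit 1368) (nat_lit 0) (XT.nd (nat_lit 156) (nat_lit 532) (nat_lit 0) (XT.nd (nat_lit 78) (nat_lit 456) (nat_lit 0) (XT.lf (nat_lit 76) (nat_lit 622537130) (nat_lit 0) (nat_lit 2442650528) (nat_lit 532) (nat_lit 622537130) (nat_lit 224) (nat_lit 1) (nat_lit 223) (nat_lit 1) (nat_lit 230) (nat_lit 1) (nat_lit 398) (nat_lit 408) (nat_lit 334)) (XT.lf (nat_lit 532) (nat_lit 464502865) (nat_lit 0) (nat_lit 1597219113) (nat_lit 456) (nat_lit 1597219113) (nat_lit 224) (nat_lit 1) (nat_lit 217) (nat_lit 1) (nat_lit 223) (nat_lit 1) (nat_lit 399) (nat_lit 408) (nat_lit 333))) (XT.nd (nat_lit 78) (nat_lit 0) (nat_lit 0) (XT.lf (nat_lit 532) (nat_lit 3328741847) (nat_lit 0) (nat_lit 150920221) (nat_lit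 456) (nat_lit 150920221) (nat_lit 217) (nat_lit 1) (nat_lit 210) (nat_lit 1) (nat_lit 216) (nat_lit 1) (nat_lit 400) (nat_lit 408) (nat_lit 332)) (XT.lf (nat_lit 76) (nat_lit 1266745467) (nat_lit 0) (nat_lit 1068797225) (nat_lit 532) (nat_lit 1266745467) (nat_lit 211) (nat_lit 1) (nat_lit 210) (nat_lit 1) (nat_lit 217) (nat_lit 1) (nat_lit 401) (nat_lit 408) (nat_lit 331)))) (XT.nd (nat_lit 156) (nat_lit 912) (nat_lit 0) (XT.nd (nat_lit 78) (nat_lit 0) (nat_lit 0) (XT.lf (nat_lit 532) (nat_lit 1746801618) (nat_lit 0) (nat_lit 913804663) (nat_lit 456) (nat_lit 913804663) (nat_lit 211) (nat_lit 1) (nat_lit 204) (nat_lit 1) (nat_lit 210) (nat_lit 1) (nat_lit 402) (nat_lit 408) (nat_lit 330)) (XT.lf (nat_lit 76) (nat_lit 481984679) (nat_lit 0) (nat_lit 2582884153) (nat_lit 532) (nat_lit 481984679) (nat_lit 205) (nat_lit 1) (nat_lit 204) (nat_lit 1) (nat_lit 211) (nat_lit 1) (nat_lit 403) (nat_lit 408) (nat_lit 329)))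 (XT.nd (nat_lit 78) (nat_lit 532) (nat_lit 0) (XT.lf (nat_lit 456) (nat_lit 179494093) (nat_lit 0) (nat_lit 1670004569) (nat_lit 380) (nat_lit 1670004569) (nat_lit 205) (nat_lit 1) (nat_lit 199) (nat_lit 1) (nat_lit 204) (nat_lit 1) (nat_lit 404) (nat_lit 408) (nat_lit 328)) (XT.lf (nat_lit 532) (nat_lit 2905610735) (nat_lit 0) (nat_lit 293450621) (nat_lit 456) (nat_lit 293450621) (nat_lit 199) (nat_lit 1) (nat_lit 192) (nat_lit 1) (nat_lit 198) (nat_lit 1) (nat_lit 405) (nat_lit 408) (nat_lit 327)))))) (XT.nd (nat_lit 52884) (nat_lit 0) (nat_lit 24776) (XT.nd (nat_lit 234) (nat_lit 1216) (nat_lit 0) (XT.nd (nat_lit 78) (nat_lit 380) (nat_lit 0) (XT.lf (nat_lit 76) (nat_lit 1055411688) (nat_lit 0) (nat_lit 1354826434) (nat_lit 532) (nat_lit 1055411688) (nat_lit 193) (nat_lit 1) (nat_lit 192) (nat_lit 1) (nat_lit 199) (nat_lit 1) (nat_lit 406) (nat_lit 408) (nat_lit 326)) (XT.nd (nat_lit 78) (nat_lit 0) (nat_lit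 0) (XT.lf (nat_lit 456) (nat_lit 1322706751) (nat_lit 0) (nat_lit 1058216415) (nat_lit 380) (nat_lit 1058216415) (nat_lit 193) (nat_lit 1) (nat_lit 187) (nat_lit 1) (nat_lit 192) (nat_lit 1) (nat_lit 407) (nat_lit 408) (nat_lit 325)) (XT.lf (nat_lit 76) (nat_lit 270641873) (nat_lit 0) (nat_lit 2871693656) (nat_lit 456) (nat_lit 270641873) (nat_lit 188) (nat_lit 1) (nat_lit 187) (nat_lit 1) (nat_lit 193) (nat_lit 1) (nat_lit 408) (nat_lit 408) (nat_lit 324)))) (XT.nd (nat_lit 156) (nat_lit 380) (nat_lit 0) (XT.nd (nat_lit 78) (nat_lit 380) (nat_lit 0) (XT.lf (nat_lit 76) (nat_lit 1573206228) (nat_lit 0) (nat_lit 240513660) (nat_lit 456) (nat_lit 1573206228) (nat_lit 182) (nat_lit 1) (nat_lit 181) (nat_lit 1) (nat_lit 187) (nat_lit 1) (nat_lit 409) (nat_lit 408) (nat_lit 323)) (XT.lf (nat_lit 456) (nat_lit 2356174577) (nat_lit 0) (nat_lit 502520877) (nat_lit 380) (nat_lit 502520877) (nat_lit 182) (nat_lit 1) (nat_lit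 176) (nat_lit 1) (nat_lit 181) (nat_lit 1) (nat_lit 410) (nat_lit 408) (nat_lit 322))) (XT.nd (nat_lit 78) (nat_lit 380) (nat_lit 0) (XT.lf (nat_lit 76) (nat_lit 782913876) (nat_lit 0) (nat_lit 1769876949) (nat_lit 456) (nat_lit 782913876) (nat_lit 177) (nat_lit 1) (nat_lit 176) (nat_lit 1) (nat_lit 182) (nat_lit 1) (nat_lit 411) (nat_lit 408) (nat_lit 321)) (XT.lf (nat_lit 456) (nat_lit 779333999) (nat_lit 0) (nat_lit 1265565496) (nat_lit 380) (nat_lit 1265565496) (nat_lit 177) (nat_lit 1) (nat_lit 171) (nat_lit 1) (nat_lit 176) (nat_lit 1) (nat_lit 412) (nat_lit 408) (nat_lit 320))))) (XT.nd (nat_lit 312) (nat_lit 0) (nat_lit 152) (XT.nd (nat_lit 156) (nat_lit 0) (nat_lit 76) (XT.nd (nat_lit 78) (nat_lit 0) (nat_lit 76) (XT.lf (nat_lit 1900) (nat_lit 4736347027) (nat_lit 76) (nat_lit 1199886886) (nat_lit 0) (nat_lit 1199886886) (nat_lit 522) (nat_lit 1) (nat_lit 498) (nat_lit 1) (nat_lit 497) (nat_lit 0) (nat_lit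 323) (nat_lit 409) (nat_lit 408)) (XT.lf (nat_lit 1900) (nat_lit 2325568935) (nat_lit 0) (nat_lit 2414944357) (nat_lit 1824) (nat_lit 2325568935) (nat_lit 523) (nat_lit 1) (nat_lit 498) (nat_lit 1) (nat_lit 522) (nat_lit 1) (nat_lit 324) (nat_lit 409) (nat_lit 407))) (XT.nd (nat_lit 78) (nat_lit 0) (nat_lit 76) (XT.lf (nat_lit 1900) (nat_lit 4551711691) (nat_lit 76) (nat_lit 1222696872) (nat_lit 0) (nat_lit 1222696872) (nat_lit 523) (nat_lit 1) (nat_lit 499) (nat_lit 1) (nat_lit 498) (nat_lit 1) (nat_lit 325) (nat_lit 409) (nat_lit 406)) (XT.lf (nat_lit 1900) (nat_lit 2212045629) (nat_lit 0) (nat_lit 2504798816) (nat_lit 1824) (nat_lit 2212045629) (nat_lit 524) (nat_lit 1) (nat_lit 499) (nat_lit 1) (nat_lit 523) (nat_lit 1) (nat_lit 326) (nat_lit 409) (nat_lit 405)))) (XT.nd (nat_lit 156) (nat_lit 0) (nat_lit 76) (XT.nd (nat_lit 78) (nat_lit 0) (nat_lit 76) (XT.lf (nat_lit 1900) (nat_lit 4282494247) (nat_lit 76)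 (nat_lit 1289597453) (nat_lit 0) (nat_lit 1289597453) (nat_lit 524) (nat_lit 1) (nat_lit 500) (nat_lit 1) (nat_lit 499) (nat_lit 1) (nat_lit 327) (nat_lit 409) (nat_lit 404)) (XT.lf (nat_lit 1900) (nat_lit 2057656379) (nat_lit 0) (nat_lit 2679937042) (nat_lit 1824) (nat_lit 2057656379) (nat_lit 525) (nat_lit 1) (nat_lit 500) (nat_lit 1) (nat_lit 524) (nat_lit 1) (nat_lit 328) (nat_lit 409) (nat_lit 403))) (XT.nd (nat_lit 78) (nat_lit 0) (nat_lit 76) (XT.lf (nat_lit 1900) (nat_lit 3933778174) (nat_lit 76) (nat_lit 1397994649) (nat_lit 0) (nat_lit 1397994649) (nat_lit 525) (nat_lit 1) (nat_lit 501) (nat_lit 1) (nat_lit 500) (nat_lit 1) (nat_lit 329) (nat_lit 409) (nat_lit 402)) (XT.lf (nat_lit 1900) (nat_lit 1864875790) (nat_lit 0) (nat_lit 2935306716) (nat_lit 1824) (nat_lit 1864875790) (nat_lit 526) (nat_lit 1) (nat_lit 501) (nat_lit 1) (nat_lit 525) (nat_lit 1) (nat_lit 330) (nat_lit 409) (nat_lit 401))))))) (XT.nd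 (nat_lit 1170) (nat_lit 7068) (nat_lit 0) (XT.nd (nat_lit 546) (nat_lit 1444) (nat_lit 0) (XT.nd (nat_lit 234) (nat_lit 0) (nat_lit 152) (XT.nd (nat_lit 78) (nat_lit 0) (nat_lit 76) (XT.lf (nat_lit 1900) (nat_lit 3510414279) (nat_lit 76) (nat_lit 1545412499) (nat_lit 0) (nat_lit 1545412499) (nat_lit 526) (nat_lit 1) (nat_lit 502) (nat_lit 1) (nat_lit 501) (nat_lit 1) (nat_lit 331) (nat_lit 409) (nat_lit 400)) (XT.nd (nat_lit 78) (nat_lit 0) (nat_lit 0) (XT.lf (nat_lit 1900) (nat_lit 1636064966) (nat_lit 0) (nat_lit 3266085839) (nat_lit 1824) (nat_lit 1636064966) (nat_lit 527) (nat_lit 1) (nat_lit 502) (nat_lit 1) (nat_lit 526) (nat_lit 1) (nat_lit 332) (nat_lit 409) (nat_lit 399)) (XT.lf (nat_lit 1900) (nat_lit 3017030421) (nat_lit 76) (nat_lit 1729488139) (nat_lit 0) (nat_lit 1729488139) (nat_lit 527) (nat_lit 1) (nat_lit 503) (nat_lit 1) (nat_lit 502) (nat_lit 1) (nat_lit 333) (nat_lit 409) (nat_lit 398)))) (XT.nd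 (nat_lit 156) (nat_lit 0) (nat_lit 76) (XT.nd (nat_lit 78) (nat_lit 0) (nat_lit 0) (XT.lf (nat_lit 1900) (nat_lit 1373476263) (nat_lit 0) (nat_lit 3667673115) (nat_lit 1824) (nat_lit 1373476263) (nat_lit 528) (nat_lit 1) (nat_lit 503) (nat_lit 1) (nat_lit 527) (nat_lit 1) (nat_lit 334) (nat_lit 409) (nat_lit 397)) (XT.lf (nat_lit 1900) (nat_lit 2458040850) (nat_lit 76) (nat_lit 1947967079) (nat_lit 0) (nat_lit 1947967079) (nat_lit 528) (nat_lit 1) (nat_lit 504) (nat_lit 1) (nat_lit 503) (nat_lit 1) (nat_lit 335) (nat_lit 409) (nat_lit 396))) (XT.nd (nat_lit 78) (nat_lit 0) (nat_lit 0) (XT.lf (nat_lit 1900) (nat_lit 1079257845) (nat_lit 0) (nat_lit 4135678727) (nat_lit 1824) (nat_lit 1079257845) (nat_lit 529) (nat_lit 1) (nat_lit 504) (nat_lit 1) (nat_lit 528) (nat_lit 1) (nat_lit 336) (nat_lit 409) (nat_lit 395)) (XT.lf (nat_lit 1900) (nat_lit 1837655162) (nat_lit 76) (nat_lit 2198698668) (nat_lit 0) (nat_lit 2198698668)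 (nat_lit 529) (nat_lit 1) (nat_lit 505) (nat_lit 1) (nat_lit 504) (nat_lit 1) (nat_lit 337) (nat_lit 409) (nat_lit 394))))) (XT.nd (nat_lit 312) (nat_lit 1748) (nat_lit 0) (XT.nd (nat_lit 156) (nat_lit 0) (nat_lit 76) (XT.nd (nat_lit 78) (nat_lit 0) (nat_lit 0) (XT.lf (nat_lit 1900) (nat_lit 755458057) (nat_lit 0) (nat_lit 4665915485) (nat_lit 1824) (nat_lit 755458057) (nat_lit 530) (nat_lit 1) (nat_lit 505) (nat_lit 1) (nat_lit 529) (nat_lit 1) (nat_lit 338) (nat_lit 409) (nat_lit 393)) (XT.lf (nat_lit 1900) (nat_lit 1159886902) (nat_lit 76) (nat_lit 2479631742) (nat_lit 0) (nat_lit 2479631742) (nat_lit 530) (nat_lit 1) (nat_lit 506) (nat_lit 1) (nat_lit 505) (nat_lit 1) (nat_lit 339) (nat_lit 409) (nat_lit 392))) (XT.nd (nat_lit 78) (nat_lit 0) (nat_lit 0) (XT.lf (nat_lit 1900) (nat_lit 404029623) (nat_lit 0) (nat_lit 5254390319) (nat_lit 1824) (nat_lit 404029623) (nat_lit 531) (nat_lit 1) (nat_lit 506) (nat_lit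 1) (nat_lit 530) (nat_lit 1) (nat_lit 340) (nat_lit 409) (nat_lit 391)) (XT.lf (nat_lit 1900) (nat_lit 428561813) (nat_lit 76) (nat_lit 2788810449) (nat_lit 0) (nat_lit 2788810449) (nat_lit 531) (nat_lit 1) (nat_lit 507) (nat_lit 1) (nat_lit 506) (nat_lit 1) (nat_lit 341) (nat_lit 409) (nat_lit 390)))) (XT.nd (nat_lit 156) (nat_lit 0) (nat_lit 0) (XT.nd (nat_lit 78) (nat_lit 1900) (nat_lit 0) (XT.lf (nat_lit 1900) (nat_lit 26833674) (nat_lit 0) (nat_lit 5897296132) (nat_lit 1824) (nat_lit 26833674) (nat_lit 532) (nat_lit 1) (nat_lit 507) (nat_lit 1) (nat_lit 531) (nat_lit 1) (nat_lit 342) (nat_lit 409) (nat_lit 389)) (XT.lf (nat_lit 1976) (nat_lit 2773985790) (nat_lit 0) (nat_lit 348048857) (nat_lit 1900) (nat_lit 2773985790) (nat_lit 508) (nat_lit 1) (nat_lit 482) (nat_lit 1) (nat_lit 507) (nat_lit 1) (nat_lit 343) (nat_lit 409) (nat_lit 388))) (XT.nd (nat_lit 78) (nat_lit 0) (nat_lit 76) (XT.lf (nat_lit 1976)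 (nat_lit 5098309081) (nat_lit 76) (nat_lit 371893510) (nat_lit 0) (nat_lit 371893510) (nat_lit 508) (nat_lit 1) (nat_lit 483) (nat_lit 1) (nat_lit 482) (nat_lit 1) (nat_lit 344) (nat_lit 409) (nat_lit 387)) (XT.lf (nat_lit 1976) (nat_lit 2311849928) (nat_lit 0) (nat_lit 1164867218) (nat_lit 1900) (nat_lit 2311849928) (nat_lit 509) (nat_lit 1) (nat_lit 483) (nat_lit 1) (nat_lit 508) (nat_lit 1) (nat_lit 345) (nat_lit 409) (nat_lit 386)))))) (XT.nd (nat_lit 624) (nat_lit 4256) (nat_lit 0) (XT.nd (nat_lit 312) (nat_lit 1824) (nat_lit 0) (XT.nd (nat_lit 156) (nat_lit 1064) (nat_lit 0) (XT.nd (nat_lit 78) (nat_lit 0) (nat_lit 76) (XT.lf (nat_lit 1976) (nat_lit 4150733095) (nat_lit 76) (nat_lit 792602136) (nat_lit 0) (nat_lit 792602136) (nat_lit 509) (nat_lit 1) (nat_lit 484) (nat_lit 1) (nat_lit 483) (nat_lit 1) (nat_lit 346) (nat_lit 409) (nat_lit 385)) (XT.lf (nat_lit 76) (nat_lit 1829775946) (nat_lit 0) (nat_lit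 2024248738) (nat_lit 1900) (nat_lit 1829775946) (nat_lit 485) (nat_lit 1) (nat_lit 484) (nat_lit 1) (nat_lit 509) (nat_lit 1) (nat_lit 347) (nat_lit 409) (nat_lit 384))) (XT.nd (nat_lit 78) (nat_lit 0) (nat_lit 0) (XT.lf (nat_lit 1216) (nat_lit 3164684268) (nat_lit 0) (nat_lit 1233870394) (nat_lit 1140) (nat_lit 1233870394) (nat_lit 485) (nat_lit 1) (nat_lit 469) (nat_lit 1) (nat_lit 484) (nat_lit 1) (nat_lit 348) (nat_lit 409) (nat_lit 383)) (XT.lf (nat_lit 76) (nat_lit 1329280878) (nat_lit 0) (nat_lit 2923084145) (nat_lit 1216) (nat_lit 1329280878) (nat_lit 470) (nat_lit 1) (nat_lit 469) (nat_lit 1) (nat_lit 485) (nat_lit 1) (nat_lit 349) (nat_lit 409) (nat_lit 382)))) (XT.nd (nat_lit 156) (nat_lit 912) (nat_lit 0) (XT.nd (nat_lit 78) (nat_lit 0) (nat_lit 0) (XT.lf (nat_lit 988) (nat_lit 2143132400) (nat_lit 0) (nat_lit 1694176471) (nat_lit 912) (nat_lit 1694176471) (nat_lit 470) (nat_lit 1) (nat_lit 457) (nat_lit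 1) (nat_lit 469) (nat_lit 1) (nat_lit 350) (nat_lit 409) (nat_lit 381)) (XT.lf (nat_lit 76) (nat_lit 811808285) (nat_lit 0) (nat_lit 3858413459) (nat_lit 988) (nat_lit 811808285) (nat_lit 458) (nat_lit 1) (nat_lit 457) (nat_lit 1) (nat_lit 470) (nat_lit 1) (nat_lit 351) (nat_lit 409) (nat_lit 380))) (XT.nd (nat_lit 78) (nat_lit 0) (nat_lit 0) (XT.lf (nat_lit 988) (nat_lit 1088903027) (nat_lit 0) (nat_lit 2172071835) (nat_lit 912) (nat_lit 2172071835) (nat_lit 458) (nat_lit 1) (nat_lit 445) (nat_lit 1) (nat_lit 457) (nat_lit 1) (nat_lit 352) (nat_lit 409) (nat_lit 379)) (XT.lf (nat_lit 76) (nat_lit 278731392) (nat_lit 0) (nat_lit 4827419642) (nat_lit 988) (nat_lit 278731392) (nat_lit 446) (nat_lit 1) (nat_lit 445) (nat_lit 1) (nat_lit 458) (nat_lit 1) (nat_lit 353) (nat_lit 409) (nat_lit 378))))) (XT.nd (nat_lit 312) (nat_lit 1596) (nat_lit 0) (XT.nd (nat_lit 156) (nat_lit 836) (nat_lit 0) (XT.nd (nat_lit 78) (nat_lit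 988) (nat_lit 0) (XT.lf (nat_lit 912) (nat_lit 4683600) (nat_lit 0) (nat_lit 2666178110) (nat_lit 836) (nat_lit 2666178110) (nat_lit 446) (nat_lit 1) (nat_lit 434) (nat_lit 1) (nat_lit 445) (nat_lit 1) (nat_lit 354) (nat_lit 409) (nat_lit 377)) (XT.lf (nat_lit 988) (nat_lit 4756241684) (nat_lit 0) (nat_lit 266876503) (nat_lit 912) (nat_lit 266876503) (nat_lit 434) (nat_lit 1) (nat_lit 421) (nat_lit 1) (nat_lit 433) (nat_lit 1) (nat_lit 355) (nat_lit 409) (nat_lit 376))) (XT.nd (nat_lit 78) (nat_lit 836) (nat_lit 0) (XT.lf (nat_lit 76) (nat_lit 2075400659) (nat_lit 0) (nat_lit 1092452486) (nat_lit 988) (nat_lit 2075400659) (nat_lit 422) (nat_lit 1) (nat_lit 421) (nat_lit 1) (nat_lit 434) (nat_lit 1) (nat_lit 356) (nat_lit 409) (nat_lit 375)) (XT.lf (nat_lit 912) (nat_lit 3550045145) (nat_lit 0) (nat_lit 823621668) (nat_lit 836) (nat_lit 823621668) (nat_lit 422) (nat_lit 1) (nat_lit 410) (nat_lit 1) (nat_lit 421)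 (nat_lit 1) (nat_lit 357) (nat_lit 409) (nat_lit 374)))) (XT.nd (nat_lit 156) (nat_lit 760) (nat_lit 0) (XT.nd (nat_lit 78) (nat_lit 836) (nat_lit 0) (XT.lf (nat_lit 76) (nat_lit 1468779135) (nat_lit 0) (nat_lit 2214205183) (nat_lit 912) (nat_lit 1468779135) (nat_lit 411) (nat_lit 1) (nat_lit 410) (nat_lit 1) (nat_lit 422) (nat_lit 1) (nat_lit 358) (nat_lit 409) (nat_lit 373)) (XT.lf (nat_lit 912) (nat_lit 2322513805) (nat_lit 0) (nat_lit 1392165820) (nat_lit 836) (nat_lit 1392165820) (nat_lit 411) (nat_lit 1) (nat_lit 399) (nat_lit 1) (nat_lit 410) (nat_lit 1) (nat_lit 359) (nat_lit 409) (nat_lit 372))) (XT.nd (nat_lit 78) (nat_lit 760) (nat_lit 0) (XT.lf (nat_lit 76) (nat_lit 852074073) (nat_lit 0) (nat_lit 3358358447) (nat_lit 912) (nat_lit 852074073) (nat_lit 400) (nat_lit 1) (nat_lit 399) (nat_lit 1) (nat_lit 411) (nat_lit 1) (nat_lit 360) (nat_lit 409) (nat_lit 371)) (XT.lf (nat_lit 836) (nat_lit 1075812844)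 (nat_lit 0) (nat_lit 1971395532) (nat_lit 760) (nat_lit 1971395532) (nat_lit 400) (nat_lit 1) (nat_lit 389) (nat_lit 1) (nat_lit 399) (nat_lit 1) (nat_lit 361) (nat_lit 409) (nat_lit 370))))))))
noncomputable def ec41 : XT := (XT.nd (nat_lit 2418) (nat_lit 5016) (nat_lit 0) (XT.nd (nat_lit 1170) (nat_lit 5776) (nat_lit 0) (XT.nd (nat_lit 546) (nat_lit 2736) (nat_lit 0) (XT.nd (nat_lit 234) (nat_lit 1444) (nat_lit 0) (XT.nd (nat_lit 78) (nat_lit 1596) (nat_lit 0) (XT.lf (nat_lit 76) (nat_lit 226336625) (nat_lit 0) (nat_lit 4522749110) (nat_lit 836) (nat_lit 226336625) (nat_lit 390) (nat_lit 1) (nat_lit 389) (nat_lit 1) (nat_lit 400) (nat_lit 1) (nat_lit 362) (nat_lit 409) (nat_lit 369)) (XT.nd (nat_lit 78) (nat_lit 760) (nat_lit 0) (XT.lf (nat_lit 76) (nat_lit 2373471257) (nat_lit 0) (nat_lit 185537154) (nat_lit 836) (nat_lit 2373471257) (nat_lit 379) (nat_lit 1) (nat_lit 378) (nat_lit 1) (nat_lit 389) (nat_lit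 1) (nat_lit 363) (nat_lit 409) (nat_lit 368)) (XT.lf (nat_lit 836) (nat_lit 4080728796) (nat_lit 0) (nat_lit 404755308) (nat_lit 760) (nat_lit 404755308) (nat_lit 379) (nat_lit 1) (nat_lit 368) (nat_lit 1) (nat_lit 378) (nat_lit 1) (nat_lit 364) (nat_lit 409) (nat_lit 367)))) (XT.nd (nat_lit 156) (nat_lit 684) (nat_lit 0) (XT.nd (nat_lit 78) (nat_lit 760) (nat_lit 0) (XT.lf (nat_lit 76) (nat_lit 1700276698) (nat_lit 0) (nat_lit 1447744103) (nat_lit 836) (nat_lit 1700276698) (nat_lit 369) (nat_lit 1) (nat_lit 368) (nat_lit 1) (nat_lit 379) (nat_lit 1) (nat_lit 365) (nat_lit 409) (nat_lit 366)) (XT.lf (nat_lit 836) (nat_lit 2724190137) (nat_lit 0) (nat_lit 1041400541) (nat_lit 760) (nat_lit 1041400541) (nat_lit 369) (nat_lit 1) (nat_lit 358) (nat_lit 1) (nat_lit 368) (nat_lit 1) (nat_lit 366) (nat_lit 409) (nat_lit 365))) (XT.nd (nat_lit 78) (nat_lit 684) (nat_lit 0) (XT.lf (nat_lit 76) (nat_lit 1021523954) (nat_lit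 0) (nat_lit 2723093213) (nat_lit 836) (nat_lit 1021523954) (nat_lit 359) (nat_lit 1) (nat_lit 358) (nat_lit 1) (nat_lit 369) (nat_lit 1) (nat_lit 367) (nat_lit 409) (nat_lit 364)) (XT.lf (nat_lit 760) (nat_lit 1357346323) (nat_lit 0) (nat_lit 1684197203) (nat_lit 684) (nat_lit 1684197203) (nat_lit 359) (nat_lit 1) (nat_lit 349) (nat_lit 1) (nat_lit 358) (nat_lit 1) (nat_lit 368) (nat_lit 409) (nat_lit 363))))) (XT.nd (nat_lit 312) (nat_lit 1292) (nat_lit 0) (XT.nd (nat_lit 156) (nat_lit 684) (nat_lit 0) (XT.nd (nat_lit 78) (nat_lit 760) (nat_lit 0) (XT.lf (nat_lit 76) (nat_lit 338050409) (nat_lit 0) (nat_lit 4009855429) (nat_lit 760) (nat_lit 338050409) (nat_lit 350) (nat_lit 1) (nat_lit 349) (nat_lit 1) (nat_lit 359) (nat_lit 1) (nat_lit 369) (nat_lit 409) (nat_lit 362)) (XT.lf (nat_lit 76) (nat_lit 2314251469) (nat_lit 0) (nat_lit 17929287) (nat_lit 760) (nat_lit 2314251469) (nat_lit 340) (nat_lit 1) (nat_lit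 339) (nat_lit 1) (nat_lit 349) (nat_lit 1) (nat_lit 370) (nat_lit 409) (nat_lit 361))) (XT.nd (nat_lit 78) (nat_lit 0) (nat_lit 0) (XT.lf (nat_lit 760) (nat_lit 3913402362) (nat_lit 0) (nat_lit 347052894) (nat_lit 684) (nat_lit 347052894) (nat_lit 340) (nat_lit 1) (nat_lit 330) (nat_lit 1) (nat_lit 339) (nat_lit 1) (nat_lit 371) (nat_lit 409) (nat_lit 360)) (XT.lf (nat_lit 76) (nat_lit 1593203396) (nat_lit 0) (nat_lit 1382432331) (nat_lit 760) (nat_lit 1593203396) (nat_lit 331) (nat_lit 1) (nat_lit 330) (nat_lit 1) (nat_lit 340) (nat_lit 1) (nat_lit 372) (nat_lit 409) (nat_lit 359)))) (XT.nd (nat_lit 156) (nat_lit 608) (nat_lit 0) (XT.nd (nat_lit 78) (nat_lit 0) (nat_lit 0) (XT.lf (nat_lit 760) (nat_lit 2464571090) (nat_lit 0) (nat_lit 1033089445) (nat_lit 684) (nat_lit 1033089445) (nat_lit 331) (nat_lit 1) (nat_lit 321) (nat_lit 1) (nat_lit 330) (nat_lit 1) (nat_lit 373) (nat_lit 409) (nat_lit 358)) (XT.lf (nat_lit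 76) (nat_lit 870283682) (nat_lit 0) (nat_lit 2752520286) (nat_lit 760) (nat_lit 870283682) (nat_lit 322) (nat_lit 1) (nat_lit 321) (nat_lit 1) (nat_lit 331) (nat_lit 1) (nat_lit 374) (nat_lit 409) (nat_lit 357))) (XT.nd (nat_lit 78) (nat_lit 0) (nat_lit 0) (XT.lf (nat_lit 684) (nat_lit 1012651106) (nat_lit 0) (nat_lit 1721578810) (nat_lit 608) (nat_lit 1721578810) (nat_lit 322) (nat_lit 1) (nat_lit 313) (nat_lit 1) (nat_lit 321) (nat_lit 1) (nat_lit 375) (nat_lit 409) (nat_lit 356)) (XT.lf (nat_lit 76) (nat_lit 146150707) (nat_lit 0) (nat_lit 4126827850) (nat_lit 684) (nat_lit 146150707) (nat_lit 314) (nat_lit 1) (nat_lit 313) (nat_lit 1) (nat_lit 322) (nat_lit 1) (nat_lit 376) (nat_lit 409) (nat_lit 355)))))) (XT.nd (nat_lit 624) (nat_lit 2660) (nat_lit 0) (XT.nd (nat_lit 312) (nat_lit 1216) (nat_lit 0) (XT.nd (nat_lit 156) (nat_lit 608) (nat_lit 0) (XT.nd (nat_lit 78) (nat_lit 608) (nat_lit 0) (XT.lf (nat_lit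 76) (nat_lit 1973645094) (nat_lit 0) (nat_lit 435289189) (nat_lit 684) (nat_lit 1973645094) (nat_lit 305) (nat_lit 1) (nat_lit 304) (nat_lit 1) (nat_lit 313) (nat_lit 1) (nat_lit 377) (nat_lit 409) (nat_lit 354)) (XT.lf (nat_lit 684) (nat_lit 3197079753) (nat_lit 0) (nat_lit 574767788) (nat_lit 608) (nat_lit 574767788) (nat_lit 305) (nat_lit 1) (nat_lit 296) (nat_lit 1) (nat_lit 304) (nat_lit 1) (nat_lit 378) (nat_lit 409) (nat_lit 353))) (XT.nd (nat_lit 78) (nat_lit 608) (nat_lit 0) (XT.lf (nat_lit 76) (nat_lit 1220203306) (nat_lit 0) (nat_lit 1870534694) (nat_lit 684) (nat_lit 1220203306) (nat_lit 297) (nat_lit 1) (nat_lit 296) (nat_lit 1) (nat_lit 305) (nat_lit 1) (nat_lit 379) (nat_lit 409) (nat_lit 352)) (XT.lf (nat_lit 684) (nat_lit 1686264050) (nat_lit 0) (nat_lit 1294730713) (nat_lit 608) (nat_lit 1294730713) (nat_lit 297) (nat_lit 1) (nat_lit 288) (nat_lit 1) (nat_lit 296) (nat_lit 1) (nat_lit 380) (nat_lit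 409) (nat_lit 351)))) (XT.nd (nat_lit 156) (nat_lit 684) (nat_lit 0) (XT.nd (nat_lit 78) (nat_lit 532) (nat_lit 0) (XT.lf (nat_lit 76) (nat_lit 467870642) (nat_lit 0) (nat_lit 3305239902) (nat_lit 684) (nat_lit 467870642) (nat_lit 289) (nat_lit 1) (nat_lit 288) (nat_lit 1) (nat_lit 297) (nat_lit 1) (nat_lit 381) (nat_lit 409) (nat_lit 350)) (XT.lf (nat_lit 608) (nat_lit 178189654) (nat_lit 0) (nat_lit 2014151066) (nat_lit 532) (nat_lit 2014151066) (nat_lit 289) (nat_lit 1) (nat_lit 281) (nat_lit 1) (nat_lit 288) (nat_lit 1) (nat_lit 382) (nat_lit 409) (nat_lit 349))) (XT.nd (nat_lit 78) (nat_lit 0) (nat_lit 0) (XT.lf (nat_lit 684) (nat_lit 3610541648) (nat_lit 0) (nat_lit 280983227) (nat_lit 608) (nat_lit 280983227) (nat_lit 281) (nat_lit 1) (nat_lit 272) (nat_lit 1) (nat_lit 280) (nat_lit 1) (nat_lit 383) (nat_lit 409) (nat_lit 348)) (XT.lf (nat_lit 76) (nat_lit 1414969338) (nat_lit 0) (nat_lit 1308760564) (nat_lit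 684) (nat_lit 1414969338) (nat_lit 273) (nat_lit 1) (nat_lit 272) (nat_lit 1) (nat_lit 281) (nat_lit 1) (nat_lit 384) (nat_lit 409) (nat_lit 347))))) (XT.nd (nat_lit 312) (nat_lit 988) (nat_lit 0) (XT.nd (nat_lit 156) (nat_lit 1140) (nat_lit 0) (XT.nd (nat_lit 78) (nat_lit 0) (nat_lit 0) (XT.lf (nat_lit 608) (nat_lit 2056031379) (nat_lit 0) (nat_lit 1024676545) (nat_lit 532) (nat_lit 1024676545) (nat_lit 273) (nat_lit 1) (nat_lit 265) (nat_lit 1) (nat_lit 272) (nat_lit 1) (nat_lit 385) (nat_lit 409) (nat_lit 346)) (XT.lf (nat_lit 76) (nat_lit 641841316) (nat_lit 0) (nat_lit 2788773314) (nat_lit 608) (nat_lit 641841316) (nat_lit 266) (nat_lit 1) (nat_lit 265) (nat_lit 1) (nat_lit 273) (nat_lit 1) (nat_lit 386) (nat_lit 409) (nat_lit 345))) (XT.nd (nat_lit 78) (nat_lit 608) (nat_lit 0) (XT.lf (nat_lit 608) (nat_lit 508130786) (nat_lit 0) (nat_lit 1765841273) (nat_lit 532) (nat_lit 1765841273) (nat_lit 266) (nat_lit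 1) (nat_lit 258) (nat_lit 1) (nat_lit 265) (nat_lit 1) (nat_lit 387) (nat_lit 409) (nat_lit 344)) (XT.lf (nat_lit 608) (nat_lit 3753780364) (nat_lit 0) (nat_lit 126948911) (nat_lit 532) (nat_lit 126948911) (nat_lit 258) (nat_lit 1) (nat_lit 250) (nat_lit 1) (nat_lit 257) (nat_lit 1) (nat_lit 388) (nat_lit 409) (nat_lit 343)))) (XT.nd (nat_lit 156) (nat_lit 456) (nat_lit 0) (XT.nd (nat_lit 78) (nat_lit 532) (nat_lit 0) (XT.lf (nat_lit 76) (nat_lit 1478398921) (nat_lit 0) (nat_lit 1018823172) (nat_lit 608) (nat_lit 1478398921) (nat_lit 251) (nat_lit 1) (nat_lit 250) (nat_lit 1) (nat_lit 258) (nat_lit 1) (nat_lit 389) (nat_lit 409) (nat_lit 342)) (XT.lf (nat_lit 608) (nat_lit 2168739645) (nat_lit 0) (nat_lit 887660670) (nat_lit 532) (nat_lit 887660670) (nat_lit 251) (nat_lit 1) (nat_lit 243) (nat_lit 1) (nat_lit 250) (nat_lit 1) (nat_lit 390) (nat_lit 409) (nat_lit 341))) (XT.nd (nat_lit 78) (nat_lit 456) (nat_lit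 0) (XT.lf (nat_lit 76) (nat_lit 690885527) (nat_lit 0) (nat_lit 2531067109) (nat_lit 608) (nat_lit 690885527) (nat_lit 244) (nat_lit 1) (nat_lit 243) (nat_lit 1) (nat_lit 251) (nat_lit 1) (nat_lit 391) (nat_lit 409) (nat_lit 340)) (XT.lf (nat_lit 532) (nat_lit 593581465) (nat_lit 0) (nat_lit 1644159792) (nat_lit 456) (nat_lit 1644159792) (nat_lit 244) (nat_lit 1) (nat_lit 237) (nat_lit 1) (nat_lit 243) (nat_lit 1) (nat_lit 392) (nat_lit 409) (nat_lit 339))))))) (XT.nd (nat_lit 1170) (nat_lit 760) (nat_lit 0) (XT.nd (nat_lit 546) (nat_lit 2204) (nat_lit 0) (XT.nd (nat_lit 234) (nat_lit 988) (nat_lit 0) (XT.nd (nat_lit 78) (nat_lit 456) (nat_lit 0) (XT.lf (nat_lit 608) (nat_lit 3669565832) (nat_lit 0) (nat_lit 90939963) (nat_lit 532) (nat_lit 90939963) (nat_lit 237) (nat_lit 1) (nat_lit 229) (nat_lit 1) (nat_lit 236) (nat_lit 1) (nat_lit 393) (nat_lit 409) (nat_lit 338)) (XT.nd (nat_lit 78) (nat_lit 456) (nat_lit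 0) (XT.lf (nat_lit 76) (nat_lit 1431353195) (nat_lit 0) (nat_lit 958329168) (nat_lit 608) (nat_lit 1431353195) (nat_lit 230) (nat_lit 1) (nat_lit 229) (nat_lit 1) (nat_lit 237) (nat_lit 1) (nat_lit 394) (nat_lit 409) (nat_lit 337)) (XT.lf (nat_lit 532) (nat_lit 2065362925) (nat_lit 0) (nat_lit 862867544) (nat_lit 456) (nat_lit 862867544) (nat_lit 230) (nat_lit 1) (nat_lit 223) (nat_lit 1) (nat_lit 229) (nat_lit 1) (nat_lit 395) (nat_lit 409) (nat_lit 336)))) (XT.nd (nat_lit 156) (nat_lit 532) (nat_lit 0) (XT.nd (nat_lit 78) (nat_lit 456) (nat_lit 0) (XT.lf (nat_lit 76) (nat_lit 634987873) (nat_lit 0) (nat_lit 2491503538) (nat_lit 532) (nat_lit 634987873) (nat_lit 224) (nat_lit 1) (nat_lit 223) (nat_lit 1) (nat_lit 230) (nat_lit 1) (nat_lit 396) (nat_lit 409) (nat_lit 335)) (XT.lf (nat_lit 532) (nat_lit 473792922) (nat_lit 0) (nat_lit 1629163495) (nat_lit 456) (nat_lit 1629163495) (nat_lit 224) (nat_lit 1) (nat_lit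 217) (nat_lit 1) (nat_lit 223) (nat_lit 1) (nat_lit 397) (nat_lit 409) (nat_lit 334))) (XT.nd (nat_lit 78) (nat_lit 0) (nat_lit 0) (XT.lf (nat_lit 532) (nat_lit 3395316684) (nat_lit 0) (nat_lit 153938625) (nat_lit 456) (nat_lit 153938625) (nat_lit 217) (nat_lit 1) (nat_lit 210) (nat_lit 1) (nat_lit 216) (nat_lit 1) (nat_lit 398) (nat_lit 409) (nat_lit 333)) (XT.lf (nat_lit 76) (nat_lit 1292080377) (nat_lit 0) (nat_lit 1090173169) (nat_lit 532) (nat_lit 1292080377) (nat_lit 211) (nat_lit 1) (nat_lit 210) (nat_lit 1) (nat_lit 217) (nat_lit 1) (nat_lit 399) (nat_lit 409) (nat_lit 332))))) (XT.nd (nat_lit 312) (nat_lit 836) (nat_lit 0) (XT.nd (nat_lit 156) (nat_lit 912) (nat_lit 0) (XT.nd (nat_lit 78) (nat_lit 0) (nat_lit 0) (XT.lf (nat_lit 532) (nat_lit 1781737651) (nat_lit 0) (nat_lit 932080756) (nat_lit 456) (nat_lit 932080756) (nat_lit 211) (nat_lit 1) (nat_lit 204) (nat_lit 1) (nat_lit 210) (nat_lit 1) (nat_lit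 400) (nat_lit 409) (nat_lit 331)) (XT.lf (nat_lit 76) (nat_lit 491624373) (nat_lit 0) (nat_lit 2634541836) (nat_lit 532) (nat_lit 491624373) (nat_lit 205) (nat_lit 1) (nat_lit 204) (nat_lit 1) (nat_lit 211) (nat_lit 1) (nat_lit 401) (nat_lit 409) (nat_lit 330))) (XT.nd (nat_lit 78) (nat_lit 532) (nat_lit 0) (XT.lf (nat_lit 456) (nat_lit 183083975) (nat_lit 0) (nat_lit 1703404661) (nat_lit 380) (nat_lit 1703404661) (nat_lit 205) (nat_lit 1) (nat_lit 199) (nat_lit 1) (nat_lit 204) (nat_lit 1) (nat_lit 402) (nat_lit 409) (nat_lit 329)) (XT.lf (nat_lit 532) (nat_lit 2963722950) (nat_lit 0) (nat_lit 299319634) (nat_lit 456) (nat_lit 299319634) (nat_lit 199) (nat_lit 1) (nat_lit 192) (nat_lit 1) (nat_lit 198) (nat_lit 1) (nat_lit 403) (nat_lit 409) (nat_lit 328)))) (XT.nd (nat_lit 156) (nat_lit 456) (nat_lit 0) (XT.nd (nat_lit 78) (nat_lit 380) (nat_lit 0) (XT.lf (nat_lit 76) (nat_lit 1076519922) (nat_lit 0) (nat_lit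 1381922963) (nat_lit 532) (nat_lit 1076519922) (nat_lit 193) (nat_lit 1) (nat_lit 192) (nat_lit 1) (nat_lit 199) (nat_lit 1) (nat_lit 404) (nat_lit 409) (nat_lit 327)) (XT.lf (nat_lit 456) (nat_lit 1349160886) (nat_lit 0) (nat_lit 1079380743) (nat_lit 380) (nat_lit 1079380743) (nat_lit 193) (nat_lit 1) (nat_lit 187) (nat_lit 1) (nat_lit 192) (nat_lit 1) (nat_lit 405) (nat_lit 409) (nat_lit 326))) (XT.nd (nat_lit 78) (nat_lit 456) (nat_lit 0) (XT.lf (nat_lit 76) (nat_lit 276054710) (nat_lit 0) (nat_lit 2929127529) (nat_lit 456) (nat_lit 276054710) (nat_lit 188) (nat_lit 1) (nat_lit 187) (nat_lit 1) (nat_lit 193) (nat_lit 1) (nat_lit 406) (nat_lit 409) (nat_lit 325)) (XT.lf (nat_lit 76) (nat_lit 1604670352) (nat_lit 0) (nat_lit 245323933) (nat_lit 456) (nat_lit 1604670352) (nat_lit 182) (nat_lit 1) (nat_lit 181) (nat_lit 1) (nat_lit 187) (nat_lit 1) (nat_lit 407) (nat_lit 409) (nat_lit 324)))))) (XT.nd (nat_lit 52806)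 (nat_lit 0) (nat_lit 24928) (XT.nd (nat_lit 52494) (nat_lit 0) (nat_lit 24776) (XT.nd (nat_lit 156) (nat_lit 380) (nat_lit 0) (XT.nd (nat_lit 78) (nat_lit 0) (nat_lit 0) (XT.lf (nat_lit 456) (nat_lit 2403298068) (nat_lit 0) (nat_lit 512571294) (nat_lit 380) (nat_lit 512571294) (nat_lit 182) (nat_lit 1) (nat_lit 176) (nat_lit 1) (nat_lit 181) (nat_lit 1) (nat_lit 408) (nat_lit 409) (nat_lit 323)) (XT.lf (nat_lit 76) (nat_lit 798572154) (nat_lit 0) (nat_lit 1805274488) (nat_lit 456) (nat_lit 798572154) (nat_lit 177) (nat_lit 1) (nat_lit 176) (nat_lit 1) (nat_lit 182) (nat_lit 1) (nat_lit 409) (nat_lit 409) (nat_lit 322))) (XT.nd (nat_lit 78) (nat_lit 0) (nat_lit 0) (XT.lf (nat_lit 456) (nat_lit 794920679) (nat_lit 0) (nat_lit 1290876805) (nat_lit 380) (nat_lit 1290876805) (nat_lit 177) (nat_lit 1) (nat_lit 171) (nat_lit 1) (nat_lit 176) (nat_lit 1) (nat_lit 410) (nat_lit 409) (nat_lit 321)) (XT.lf (nat_lit 76) (nat_lit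 1581274) (nat_lit 0) (nat_lit 3348168806) (nat_lit 456) (nat_lit 1581274) (nat_lit 172) (nat_lit 1) (nat_lit 171) (nat_lit 1) (nat_lit 177) (nat_lit 1) (nat_lit 411) (nat_lit 409) (nat_lit 320)))) (XT.nd (nat_lit 156) (nat_lit 0) (nat_lit 76) (XT.nd (nat_lit 78) (nat_lit 0) (nat_lit 0) (XT.lf (nat_lit 1900) (nat_lit 1221772957) (nat_lit 0) (nat_lit 1231989820) (nat_lit 1900) (nat_lit 1221772957) (nat_lit 522) (nat_lit 1) (nat_lit 497) (nat_lit 0) (nat_lit 522) (nat_lit 0) (nat_lit 320) (nat_lit 410) (nat_lit 410)) (XT.lf (nat_lit 1900) (nat_lit 4831073968) (nat_lit 76) (nat_lit 1223884624) (nat_lit 0) (nat_lit 1223884624) (nat_lit 522) (nat_lit 1) (nat_lit 498) (nat_lit 1) (nat_lit 497) (nat_lit 0) (nat_lit 321) (nat_lit 410) (nat_lit 409))) (XT.nd (nat_lit 78) (nat_lit 0) (nat_lit 0) (XT.lf (nat_lit 1900) (nat_lit 2372080314) (nat_lit 0) (nat_lit 2463243244) (nat_lit 1824) (nat_lit 2372080314) (nat_lit 523) (nat_lit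 1) (nat_lit 498) (nat_lit 1) (nat_lit 522) (nat_lit 1) (nat_lit 322) (nat_lit 410) (nat_lit 408)) (XT.lf (nat_lit 1900) (nat_lit 4642745925) (nat_lit 76) (nat_lit 1247150809) (nat_lit 0) (nat_lit 1247150809) (nat_lit 523) (nat_lit 1) (nat_lit 499) (nat_lit 1) (nat_lit 498) (nat_lit 1) (nat_lit 323) (nat_lit 410) (nat_lit 407))))) (XT.nd (nat_lit 312) (nat_lit 0) (nat_lit 152) (XT.nd (nat_lit 156) (nat_lit 0) (nat_lit 76) (XT.nd (nat_lit 78) (nat_lit 0) (nat_lit 0) (XT.lf (nat_lit 1900) (nat_lit 2256286541) (nat_lit 0) (nat_lit 2554894792) (nat_lit 1824) (nat_lit 2256286541) (nat_lit 524) (nat_lit 1) (nat_lit 499) (nat_lit 1) (nat_lit 523) (nat_lit 1) (nat_lit 324) (nat_lit 410) (nat_lit 406)) (XT.lf (nat_lit 1900) (nat_lit 4368144132) (nat_lit 76) (nat_lit 1315389402) (nat_lit 0) (nat_lit 1315389402) (nat_lit 524) (nat_lit 1) (nat_lit 500) (nat_lit 1) (nat_lit 499) (nat_lit 1) (nat_lit 325) (nat_lit 410) (nat_lit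 405))) (XT.nd (nat_lit 78) (nat_lit 0) (nat_lit 0) (XT.lf (nat_lit 1900) (nat_lit 2098809507) (nat_lit 0) (nat_lit 2733535783) (nat_lit 1824) (nat_lit 2098809507) (nat_lit 525) (nat_lit 1) (nat_lit 500) (nat_lit 1) (nat_lit 524) (nat_lit 1) (nat_lit 326) (nat_lit 410) (nat_lit 404)) (XT.lf (nat_lit 1900) (nat_lit 4012453737) (nat_lit 76) (nat_lit 1425954542) (nat_lit 0) (nat_lit 1425954542) (nat_lit 525) (nat_lit 1) (nat_lit 501) (nat_lit 1) (nat_lit 500) (nat_lit 1) (nat_lit 327) (nat_lit 410) (nat_lit 403)))) (XT.nd (nat_lit 156) (nat_lit 0) (nat_lit 76) (XT.nd (nat_lit 78) (nat_lit 0) (nat_lit 0) (XT.lf (nat_lit 1900) (nat_lit 1902173305) (nat_lit 0) (nat_lit 2994012851) (nat_lit 1824) (nat_lit 1902173305) (nat_lit 526) (nat_lit 1) (nat_lit 501) (nat_lit 1) (nat_lit 525) (nat_lit 1) (nat_lit 328) (nat_lit 410) (nat_lit 402)) (XT.lf (nat_lit 1900) (nat_lit 3580622564) (nat_lit 76) (nat_lit 1576320749) (nat_lit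 0) (nat_lit 1576320749) (nat_lit 526) (nat_lit 1) (nat_lit 502) (nat_lit 1) (nat_lit 501) (nat_lit 1) (nat_lit 329) (nat_lit 410) (nat_lit 401))) (XT.nd (nat_lit 78) (nat_lit 0) (nat_lit 0) (XT.lf (nat_lit 1900) (nat_lit 1668786265) (nat_lit 0) (nat_lit 3331407556) (nat_lit 1824) (nat_lit 1668786265) (nat_lit 527) (nat_lit 1) (nat_lit 502) (nat_lit 1) (nat_lit 526) (nat_lit 1) (nat_lit 330) (nat_lit 410) (nat_lit 400)) (XT.lf (nat_lit 1900) (nat_lit 3077371030) (nat_lit 76) (nat_lit 1764077902) (nat_lit 0) (nat_lit 1764077902) (nat_lit 527) (nat_lit 1) (nat_lit 503) (nat_lit 1) (nat_lit 502) (nat_lit 1) (nat_lit 331) (nat_lit 410) (nat_lit 399))))))))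
noncomputable def ec42 : XT := (XT.nd (nat_lit 2340) (nat_lit 11324) (nat_lit 0) (XT.nd (nat_lit 1170) (nat_lit 6916) (nat_lit 0) (XT.nd (nat_lit 546) (nat_lit 2584) (nat_lit 0) (XT.nd (nat_lit 234) (nat_lit 0) (nat_lit 76) (XT.nd (nat_lit 78) (nat_lit 0) (nat_lit 0) (XT.lf (nat_lit 1900) (nat_lit 1400945789) (nat_lit 0) (nat_lit 3741026577) (nat_lit 1824) (nat_lit 1400945789) (nat_lit 528) (nat_lit 1) (nat_lit 503) (nat_lit 1) (nat_lit 527) (nat_lit 1) (nat_lit 332) (nat_lit 410) (nat_lit 398)) (XT.nd (nat_lit 78) (nat_lit 0) (nat_lit 76) (XT.lf (nat_lit 1900) (nat_lit 2507201667) (nat_lit 76) (nat_lit 1986926421) (nat_lit 0) (nat_lit 1986926421) (nat_lit 528) (nat_lit 1) (nat_lit 504) (nat_lit 1) (nat_lit 503) (nat_lit 1) (nat_lit 333) (nat_lit 410) (nat_lit 397)) (XT.lf (nat_lit 1900) (nat_lit 1100843002) (nat_lit 0) (nat_lit 4218392302) (nat_lit 1824) (nat_lit 1100843002) (nat_lit 529) (nat_lit 1) (nat_lit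 504) (nat_lit 1) (nat_lit 528) (nat_lit 1) (nat_lit 334) (nat_lit 410) (nat_lit 396)))) (XT.nd (nat_lit 156) (nat_lit 0) (nat_lit 76) (XT.nd (nat_lit 78) (nat_lit 0) (nat_lit 76) (XT.lf (nat_lit 1900) (nat_lit 1874408266) (nat_lit 76) (nat_lit 2242672641) (nat_lit 0) (nat_lit 2242672641) (nat_lit 529) (nat_lit 1) (nat_lit 505) (nat_lit 1) (nat_lit 504) (nat_lit 1) (nat_lit 335) (nat_lit 410) (nat_lit 395)) (XT.lf (nat_lit 1900) (nat_lit 770567218) (nat_lit 0) (nat_lit 4759233794) (nat_lit 1824) (nat_lit 770567218) (nat_lit 530) (nat_lit 1) (nat_lit 505) (nat_lit 1) (nat_lit 529) (nat_lit 1) (nat_lit 336) (nat_lit 410) (nat_lit 394))) (XT.nd (nat_lit 78) (nat_lit 0) (nat_lit 76) (XT.lf (nat_lit 1900) (nat_lit 1183084640) (nat_lit 76) (nat_lit 2529224377) (nat_lit 0) (nat_lit 2529224377) (nat_lit 530) (nat_lit 1) (nat_lit 506) (nat_lit 1) (nat_lit 505) (nat_lit 1) (nat_lit 337) (nat_lit 410) (nat_lit 393)) (XT.lf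 (nat_lit 1900) (nat_lit 412110215) (nat_lit 0) (nat_lit 5359478125) (nat_lit 1824) (nat_lit 412110215) (nat_lit 531) (nat_lit 1) (nat_lit 506) (nat_lit 1) (nat_lit 530) (nat_lit 1) (nat_lit 338) (nat_lit 410) (nat_lit 392))))) (XT.nd (nat_lit 312) (nat_lit 988) (nat_lit 0) (XT.nd (nat_lit 156) (nat_lit 1824) (nat_lit 0) (XT.nd (nat_lit 78) (nat_lit 0) (nat_lit 76) (XT.lf (nat_lit 1900) (nat_lit 437133049) (nat_lit 76) (nat_lit 2844586658) (nat_lit 0) (nat_lit 2844586658) (nat_lit 531) (nat_lit 1) (nat_lit 507) (nat_lit 1) (nat_lit 506) (nat_lit 1) (nat_lit 339) (nat_lit 410) (nat_lit 391)) (XT.lf (nat_lit 1900) (nat_lit 27370348) (nat_lit 0) (nat_lit 6015242054) (nat_lit 1824) (nat_lit 27370348) (nat_lit 532) (nat_lit 1) (nat_lit 507) (nat_lit 1) (nat_lit 531) (nat_lit 1) (nat_lit 340) (nat_lit 410) (nat_lit 390))) (XT.nd (nat_lit 78) (nat_lit 0) (nat_lit 0) (XT.lf (nat_lit 1976) (nat_lit 2829465506) (nat_lit 0)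 (nat_lit 355009834) (nat_lit 1900) (nat_lit 2829465506) (nat_lit 508) (nat_lit 1) (nat_lit 482) (nat_lit 1) (nat_lit 507) (nat_lit 1) (nat_lit 341) (nat_lit 410) (nat_lit 389)) (XT.lf (nat_lit 1976) (nat_lit 5200275263) (nat_lit 76) (nat_lit 379331381) (nat_lit 0) (nat_lit 379331381) (nat_lit 508) (nat_lit 1) (nat_lit 483) (nat_lit 1) (nat_lit 482) (nat_lit 1) (nat_lit 342) (nat_lit 410) (nat_lit 388)))) (XT.nd (nat_lit 156) (nat_lit 1064) (nat_lit 0) (XT.nd (nat_lit 78) (nat_lit 0) (nat_lit 0) (XT.lf (nat_lit 1976) (nat_lit 2358086926) (nat_lit 0) (nat_lit 1188164562) (nat_lit 1900) (nat_lit 2358086926) (nat_lit 509) (nat_lit 1) (nat_lit 483) (nat_lit 1) (nat_lit 508) (nat_lit 1) (nat_lit 343) (nat_lit 410) (nat_lit 387)) (XT.lf (nat_lit 1976) (nat_lit 4233747757) (nat_lit 76) (nat_lit 808454179) (nat_lit 0) (nat_lit 808454179) (nat_lit 509) (nat_lit 1) (nat_lit 484) (nat_lit 1) (nat_lit 483) (nat_lit 1) (nat_lit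 344) (nat_lit 410) (nat_lit 386))) (XT.nd (nat_lit 78) (nat_lit 1140) (nat_lit 0) (XT.lf (nat_lit 76) (nat_lit 1866371465) (nat_lit 0) (nat_lit 2064733713) (nat_lit 1900) (nat_lit 1866371465) (nat_lit 485) (nat_lit 1) (nat_lit 484) (nat_lit 1) (nat_lit 509) (nat_lit 1) (nat_lit 345) (nat_lit 410) (nat_lit 385)) (XT.lf (nat_lit 1216) (nat_lit 3227977954) (nat_lit 0) (nat_lit 1258547802) (nat_lit 1140) (nat_lit 1258547802) (nat_lit 485) (nat_lit 1) (nat_lit 469) (nat_lit 1) (nat_lit 484) (nat_lit 1) (nat_lit 346) (nat_lit 410) (nat_lit 384)))))) (XT.nd (nat_lit 546) (nat_lit 3268) (nat_lit 0) (XT.nd (nat_lit 234) (nat_lit 2736) (nat_lit 0) (XT.nd (nat_lit 78) (nat_lit 912) (nat_lit 0) (XT.lf (nat_lit 76) (nat_lit 1355866496) (nat_lit 0) (nat_lit 2981545828) (nat_lit 1216) (nat_lit 1355866496) (nat_lit 470) (nat_lit 1) (nat_lit 469) (nat_lit 1) (nat_lit 485) (nat_lit 1) (nat_lit 347) (nat_lit 410) (nat_lit 383)) (XT.nd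 (nat_lit 78) (nat_lit 0) (nat_lit 0) (XT.lf (nat_lit 988) (nat_lit 2185995048) (nat_lit 0) (nat_lit 1728060000) (nat_lit 912) (nat_lit 1728060000) (nat_lit 470) (nat_lit 1) (nat_lit 457) (nat_lit 1) (nat_lit 469) (nat_lit 1) (nat_lit 348) (nat_lit 410) (nat_lit 382)) (XT.lf (nat_lit 76) (nat_lit 828044451) (nat_lit 0) (nat_lit 3935581728) (nat_lit 988) (nat_lit 828044451) (nat_lit 458) (nat_lit 1) (nat_lit 457) (nat_lit 1) (nat_lit 470) (nat_lit 1) (nat_lit 349) (nat_lit 410) (nat_lit 381)))) (XT.nd (nat_lit 156) (nat_lit 1824) (nat_lit 0) (XT.nd (nat_lit 78) (nat_lit 0) (nat_lit 0) (XT.lf (nat_lit 988) (nat_lit 1110681088) (nat_lit 0) (nat_lit 2215513272) (nat_lit 912) (nat_lit 2215513272) (nat_lit 458) (nat_lit 1) (nat_lit 445) (nat_lit 1) (nat_lit 457) (nat_lit 1) (nat_lit 350) (nat_lit 410) (nat_lit 380)) (XT.lf (nat_lit 76) (nat_lit 284306020) (nat_lit 0) (nat_lit 4923968034) (nat_lit 988) (nat_lit 284306020)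 (nat_lit 446) (nat_lit 1) (nat_lit 445) (nat_lit 1) (nat_lit 458) (nat_lit 1) (nat_lit 351) (nat_lit 410) (nat_lit 379))) (XT.nd (nat_lit 78) (nat_lit 988) (nat_lit 0) (XT.lf (nat_lit 912) (nat_lit 4777272) (nat_lit 0) (nat_lit 2719501672) (nat_lit 836) (nat_lit 2719501672) (nat_lit 446) (nat_lit 1) (nat_lit 434) (nat_lit 1) (nat_lit 445) (nat_lit 1) (nat_lit 352) (nat_lit 410) (nat_lit 378)) (XT.lf (nat_lit 988) (nat_lit 4851366518) (nat_lit 0) (nat_lit 272214033) (nat_lit 912) (nat_lit 272214033) (nat_lit 434) (nat_lit 1) (nat_lit 421) (nat_lit 1) (nat_lit 433) (nat_lit 1) (nat_lit 353) (nat_lit 410) (nat_lit 377))))) (XT.nd (nat_lit 312) (nat_lit 1596) (nat_lit 0) (XT.nd (nat_lit 156) (nat_lit 836) (nat_lit 0) (XT.nd (nat_lit 78) (nat_lit 836) (nat_lit 0) (XT.lf (nat_lit 76) (nat_lit 2116908672) (nat_lit 0) (nat_lit 1114301536) (nat_lit 988) (nat_lit 2116908672) (nat_lit 422) (nat_lit 1) (nat_lit 421) (nat_lit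 1) (nat_lit 434) (nat_lit 1) (nat_lit 354) (nat_lit 410) (nat_lit 376)) (XT.lf (nat_lit 912) (nat_lit 3621046047) (nat_lit 0) (nat_lit 840094102) (nat_lit 836) (nat_lit 840094102) (nat_lit 422) (nat_lit 1) (nat_lit 410) (nat_lit 1) (nat_lit 421) (nat_lit 1) (nat_lit 355) (nat_lit 410) (nat_lit 375))) (XT.nd (nat_lit 78) (nat_lit 836) (nat_lit 0) (XT.lf (nat_lit 76) (nat_lit 1498154718) (nat_lit 0) (nat_lit 2258489287) (nat_lit 912) (nat_lit 1498154718) (nat_lit 411) (nat_lit 1) (nat_lit 410) (nat_lit 1) (nat_lit 422) (nat_lit 1) (nat_lit 356) (nat_lit 410) (nat_lit 374)) (XT.lf (nat_lit 912) (nat_lit 2368964081) (nat_lit 0) (nat_lit 1420009136) (nat_lit 836) (nat_lit 1420009136) (nat_lit 411) (nat_lit 1) (nat_lit 399) (nat_lit 1) (nat_lit 410) (nat_lit 1) (nat_lit 357) (nat_lit 410) (nat_lit 373)))) (XT.nd (nat_lit 156) (nat_lit 836) (nat_lit 0) (XT.nd (nat_lit 78) (nat_lit 760) (nat_lit 0) (XT.lf (nat_lit 76)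 (nat_lit 869115555) (nat_lit 0) (nat_lit 3425525616) (nat_lit 912) (nat_lit 869115555) (nat_lit 400) (nat_lit 1) (nat_lit 399) (nat_lit 1) (nat_lit 411) (nat_lit 1) (nat_lit 358) (nat_lit 410) (nat_lit 372)) (XT.lf (nat_lit 836) (nat_lit 1097329100) (nat_lit 0) (nat_lit 2010823443) (nat_lit 760) (nat_lit 2010823443) (nat_lit 400) (nat_lit 1) (nat_lit 389) (nat_lit 1) (nat_lit 399) (nat_lit 1) (nat_lit 359) (nat_lit 410) (nat_lit 371))) (XT.nd (nat_lit 78) (nat_lit 836) (nat_lit 0) (XT.lf (nat_lit 76) (nat_lit 230863358) (nat_lit 0) (nat_lit 4613204092) (nat_lit 836) (nat_lit 230863358) (nat_lit 390) (nat_lit 1) (nat_lit 389) (nat_lit 1) (nat_lit 400) (nat_lit 1) (nat_lit 360) (nat_lit 410) (nat_lit 370)) (XT.lf (nat_lit 76) (nat_lit 2420940682) (nat_lit 0) (nat_lit 189247897) (nat_lit 836) (nat_lit 2420940682) (nat_lit 379) (nat_lit 1) (nat_lit 378) (nat_lit 1) (nat_lit 389) (nat_lit 1) (nat_lit 361) (nat_lit 410)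 (nat_lit 369))))))) (XT.nd (nat_lit 1170) (nat_lit 5092) (nat_lit 0) (XT.nd (nat_lit 546) (nat_lit 3268) (nat_lit 0) (XT.nd (nat_lit 234) (nat_lit 1444) (nat_lit 0) (XT.nd (nat_lit 78) (nat_lit 760) (nat_lit 0) (XT.lf (nat_lit 836) (nat_lit 4162343372) (nat_lit 0) (nat_lit 412850414) (nat_lit 760) (nat_lit 412850414) (nat_lit 379) (nat_lit 1) (nat_lit 368) (nat_lit 1) (nat_lit 378) (nat_lit 1) (nat_lit 362) (nat_lit 410) (nat_lit 368)) (XT.nd (nat_lit 78) (nat_lit 760) (nat_lit 0) (XT.lf (nat_lit 76) (nat_lit 1734282232) (nat_lit 0) (nat_lit 1476698985) (nat_lit 836) (nat_lit 1734282232) (nat_lit 369) (nat_lit 1) (nat_lit 368) (nat_lit 1) (nat_lit 379) (nat_lit 1) (nat_lit 363) (nat_lit 410) (nat_lit 367)) (XT.lf (nat_lit 836) (nat_lit 2778673940) (nat_lit 0) (nat_lit 1062228552) (nat_lit 760) (nat_lit 1062228552) (nat_lit 369) (nat_lit 1) (nat_lit 358) (nat_lit 1) (nat_lit 368) (nat_lit 1) (nat_lit 364) (nat_lit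 410) (nat_lit 366)))) (XT.nd (nat_lit 156) (nat_lit 760) (nat_lit 0) (XT.nd (nat_lit 78) (nat_lit 684) (nat_lit 0) (XT.lf (nat_lit 76) (nat_lit 1041954433) (nat_lit 0) (nat_lit 2777555077) (nat_lit 836) (nat_lit 1041954433) (nat_lit 359) (nat_lit 1) (nat_lit 358) (nat_lit 1) (nat_lit 369) (nat_lit 1) (nat_lit 365) (nat_lit 410) (nat_lit 365)) (XT.lf (nat_lit 760) (nat_lit 1384493250) (nat_lit 0) (nat_lit 1717881147) (nat_lit 684) (nat_lit 1717881147) (nat_lit 359) (nat_lit 1) (nat_lit 349) (nat_lit 1) (nat_lit 358) (nat_lit 1) (nat_lit 366) (nat_lit 410) (nat_lit 364))) (XT.nd (nat_lit 78) (nat_lit 760) (nat_lit 0) (XT.lf (nat_lit 76) (nat_lit 344811417) (nat_lit 0) (nat_lit 4090052538) (nat_lit 760) (nat_lit 344811417) (nat_lit 350) (nat_lit 1) (nat_lit 349) (nat_lit 1) (nat_lit 359) (nat_lit 1) (nat_lit 367) (nat_lit 410) (nat_lit 363)) (XT.lf (nat_lit 76) (nat_lit 2360536499) (nat_lit 0) (nat_lit 18287873) (nat_lit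 760) (nat_lit 2360536499) (nat_lit 340) (nat_lit 1) (nat_lit 339) (nat_lit 1) (nat_lit 349) (nat_lit 1) (nat_lit 368) (nat_lit 410) (nat_lit 362))))) (XT.nd (nat_lit 312) (nat_lit 1900) (nat_lit 0) (XT.nd (nat_lit 156) (nat_lit 684) (nat_lit 0) (XT.nd (nat_lit 78) (nat_lit 0) (nat_lit 0) (XT.lf (nat_lit 760) (nat_lit 3991670409) (nat_lit 0) (nat_lit 353993952) (nat_lit 684) (nat_lit 353993952) (nat_lit 340) (nat_lit 1) (nat_lit 330) (nat_lit 1) (nat_lit 339) (nat_lit 1) (nat_lit 369) (nat_lit 410) (nat_lit 361)) (XT.lf (nat_lit 76) (nat_lit 1625067464) (nat_lit 0) (nat_lit 1410080977) (nat_lit 760) (nat_lit 1625067464) (nat_lit 331) (nat_lit 1) (nat_lit 330) (nat_lit 1) (nat_lit 340) (nat_lit 1) (nat_lit 370) (nat_lit 410) (nat_lit 360))) (XT.nd (nat_lit 78) (nat_lit 0) (nat_lit 0) (XT.lf (nat_lit 760) (nat_lit 2513862512) (nat_lit 0) (nat_lit 1053751234) (nat_lit 684) (nat_lit 1053751234) (nat_lit 331) (nat_lit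 1) (nat_lit 321) (nat_lit 1) (nat_lit 330) (nat_lit 1) (nat_lit 371) (nat_lit 410) (nat_lit 359)) (XT.lf (nat_lit 76) (nat_lit 887689356) (nat_lit 0) (nat_lit 2807570692) (nat_lit 760) (nat_lit 887689356) (nat_lit 322) (nat_lit 1) (nat_lit 321) (nat_lit 1) (nat_lit 331) (nat_lit 1) (nat_lit 372) (nat_lit 410) (nat_lit 358)))) (XT.nd (nat_lit 156) (nat_lit 1292) (nat_lit 0) (XT.nd (nat_lit 78) (nat_lit 0) (nat_lit 0) (XT.lf (nat_lit 684) (nat_lit 1032904128) (nat_lit 0) (nat_lit 1756010387) (nat_lit 608) (nat_lit 1756010387) (nat_lit 322) (nat_lit 1) (nat_lit 313) (nat_lit 1) (nat_lit 321) (nat_lit 1) (nat_lit 373) (nat_lit 410) (nat_lit 357)) (XT.lf (nat_lit 76) (nat_lit 149073722) (nat_lit 0) (nat_lit 4209364407) (nat_lit 684) (nat_lit 149073722) (nat_lit 314) (nat_lit 1) (nat_lit 313) (nat_lit 1) (nat_lit 322) (nat_lit 1) (nat_lit 374) (nat_lit 410) (nat_lit 356))) (XT.nd (nat_lit 78) (nat_lit 608) (nat_lit 0)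 (XT.lf (nat_lit 76) (nat_lit 2013117996) (nat_lit 0) (nat_lit 443994973) (nat_lit 684) (nat_lit 2013117996) (nat_lit 305) (nat_lit 1) (nat_lit 304) (nat_lit 1) (nat_lit 313) (nat_lit 1) (nat_lit 375) (nat_lit 410) (nat_lit 355)) (XT.lf (nat_lit 684) (nat_lit 3261021348) (nat_lit 0) (nat_lit 586263144) (nat_lit 608) (nat_lit 586263144) (nat_lit 305) (nat_lit 1) (nat_lit 296) (nat_lit 1) (nat_lit 304) (nat_lit 1) (nat_lit 376) (nat_lit 410) (nat_lit 354)))))) (XT.nd (nat_lit 624) (nat_lit 2736) (nat_lit 0) (XT.nd (nat_lit 312) (nat_lit 1216) (nat_lit 0) (XT.nd (nat_lit 156) (nat_lit 532) (nat_lit 0) (XT.nd (nat_lit 78) (nat_lit 608) (nat_lit 0) (XT.lf (nat_lit 76) (nat_lit 1244607372) (nat_lit 0) (nat_lit 1907945388) (nat_lit 684) (nat_lit 1244607372) (nat_lit 297) (nat_lit 1) (nat_lit 296) (nat_lit 1) (nat_lit 305) (nat_lit 1) (nat_lit 377) (nat_lit 410) (nat_lit 353)) (XT.lf (nat_lit 684) (nat_lit 1719989331) (nat_lit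 0) (nat_lit 1320625328) (nat_lit 608) (nat_lit 1320625328) (nat_lit 297) (nat_lit 1) (nat_lit 288) (nat_lit 1) (nat_lit 296) (nat_lit 1) (nat_lit 378) (nat_lit 410) (nat_lit 352))) (XT.nd (nat_lit 78) (nat_lit 532) (nat_lit 0) (XT.lf (nat_lit 76) (nat_lit 477228055) (nat_lit 0) (nat_lit 3371344700) (nat_lit 684) (nat_lit 477228055) (nat_lit 289) (nat_lit 1) (nat_lit 288) (nat_lit 1) (nat_lit 297) (nat_lit 1) (nat_lit 379) (nat_lit 410) (nat_lit 351)) (XT.lf (nat_lit 608) (nat_lit 181753447) (nat_lit 0) (nat_lit 2054434087) (nat_lit 532) (nat_lit 2054434087) (nat_lit 289) (nat_lit 1) (nat_lit 281) (nat_lit 1) (nat_lit 288) (nat_lit 1) (nat_lit 380) (nat_lit 410) (nat_lit 350)))) (XT.nd (nat_lit 156) (nat_lit 532) (nat_lit 0) (XT.nd (nat_lit 78) (nat_lit 0) (nat_lit 0) (XT.lf (nat_lit 684) (nat_lit 3682752481) (nat_lit 0) (nat_lit 286602892) (nat_lit 608) (nat_lit 286602892) (nat_lit 281) (nat_lit 1) (nat_lit 272)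 (nat_lit 1) (nat_lit 280) (nat_lit 1) (nat_lit 381) (nat_lit 410) (nat_lit 349)) (XT.lf (nat_lit 76) (nat_lit 1443268725) (nat_lit 0) (nat_lit 1334935776) (nat_lit 684) (nat_lit 1443268725) (nat_lit 273) (nat_lit 1) (nat_lit 272) (nat_lit 1) (nat_lit 281) (nat_lit 1) (nat_lit 382) (nat_lit 410) (nat_lit 348))) (XT.nd (nat_lit 78) (nat_lit 0) (nat_lit 0) (XT.lf (nat_lit 608) (nat_lit 2097152006) (nat_lit 0) (nat_lit 1045170076) (nat_lit 532) (nat_lit 1045170076) (nat_lit 273) (nat_lit 1) (nat_lit 265) (nat_lit 1) (nat_lit 272) (nat_lit 1) (nat_lit 383) (nat_lit 410) (nat_lit 347)) (XT.lf (nat_lit 76) (nat_lit 654678142) (nat_lit 0) (nat_lit 2844548780) (nat_lit 608) (nat_lit 654678142) (nat_lit 266) (nat_lit 1) (nat_lit 265) (nat_lit 1) (nat_lit 273) (nat_lit 1) (nat_lit 384) (nat_lit 410) (nat_lit 346))))) (XT.nd (nat_lit 312) (nat_lit 1064) (nat_lit 0) (XT.nd (nat_lit 156) (nat_lit 532) (nat_lit 0) (XT.nd (nat_lit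 78) (nat_lit 608) (nat_lit 0) (XT.lf (nat_lit 608) (nat_lit 518293401) (nat_lit 0) (nat_lit 1801158098) (nat_lit 532) (nat_lit 1801158098) (nat_lit 266) (nat_lit 1) (nat_lit 258) (nat_lit 1) (nat_lit 265) (nat_lit 1) (nat_lit 385) (nat_lit 410) (nat_lit 345)) (XT.lf (nat_lit 608) (nat_lit 3828855971) (nat_lit 0) (nat_lit 129487890) (nat_lit 532) (nat_lit 129487890) (nat_lit 258) (nat_lit 1) (nat_lit 250) (nat_lit 1) (nat_lit 257) (nat_lit 1) (nat_lit 386) (nat_lit 410) (nat_lit 344))) (XT.nd (nat_lit 78) (nat_lit 532) (nat_lit 0) (XT.lf (nat_lit 76) (nat_lit 1507966899) (nat_lit 0) (nat_lit 1039199635) (nat_lit 608) (nat_lit 1507966899) (nat_lit 251) (nat_lit 1) (nat_lit 250) (nat_lit 1) (nat_lit 258) (nat_lit 1) (nat_lit 387) (nat_lit 410) (nat_lit 343)) (XT.lf (nat_lit 608) (nat_lit 2212114438) (nat_lit 0) (nat_lit 905413884) (nat_lit 532) (nat_lit 905413884) (nat_lit 251) (nat_lit 1) (nat_lit 243) (nat_lit 1)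 (nat_lit 250) (nat_lit 1) (nat_lit 388) (nat_lit 410) (nat_lit 342)))) (XT.nd (nat_lit 156) (nat_lit 608) (nat_lit 0) (XT.nd (nat_lit 78) (nat_lit 456) (nat_lit 0) (XT.lf (nat_lit 76) (nat_lit 704703238) (nat_lit 0) (nat_lit 2581688451) (nat_lit 608) (nat_lit 704703238) (nat_lit 244) (nat_lit 1) (nat_lit 243) (nat_lit 1) (nat_lit 251) (nat_lit 1) (nat_lit 389) (nat_lit 410) (nat_lit 341)) (XT.lf (nat_lit 532) (nat_lit 605453094) (nat_lit 0) (nat_lit 1677042988) (nat_lit 456) (nat_lit 1677042988) (nat_lit 244) (nat_lit 1) (nat_lit 237) (nat_lit 1) (nat_lit 243) (nat_lit 1) (nat_lit 390) (nat_lit 410) (nat_lit 340))) (XT.nd (nat_lit 78) (nat_lit 0) (nat_lit 0) (XT.lf (nat_lit 608) (nat_lit 3742957148) (nat_lit 0) (nat_lit 92758763) (nat_lit 532) (nat_lit 92758763) (nat_lit 237) (nat_lit 1) (nat_lit 229) (nat_lit 1) (nat_lit 236) (nat_lit 1) (nat_lit 391) (nat_lit 410) (nat_lit 339)) (XT.lf (nat_lit 76) (nat_lit 1459980259)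 (nat_lit 0) (nat_lit 977495751) (nat_lit 608) (nat_lit 1459980259) (nat_lit 230) (nat_lit 1) (nat_lit 229) (nat_lit 1) (nat_lit 237) (nat_lit 1) (nat_lit 392) (nat_lit 410) (nat_lit 338))))))))
noncomputable def ec43 : XT := (XT.nd (nat_lit 54678) (nat_lit 0) (nat_lit 14592) (XT.nd (nat_lit 1170) (nat_lit 760) (nat_lit 0) (XT.nd (nat_lit 546) (nat_lit 2128) (nat_lit 0) (XT.nd (nat_lit 234) (nat_lit 988) (nat_lit 0) (XT.nd (nat_lit 78) (nat_lit 456) (nat_lit 0) (XT.lf (nat_lit 532) (nat_lit 2106670184) (nat_lit 0) (nat_lit 880124894) (nat_lit 456) (nat_lit 880124894) (nat_lit 230) (nat_lit 1) (nat_lit 223) (nat_lit 1) (nat_lit 229) (nat_lit 1) (nat_lit 393) (nat_lit 410) (nat_lit 337)) (XT.nd (nat_lit 78) (nat_lit 456) (nat_lit 0) (XT.lf (nat_lit 76) (nat_lit 647687630) (nat_lit 0) (nat_lit 2541333609) (nat_lit 532) (nat_lit 647687630) (nat_lit 224) (nat_lit 1) (nat_lit 223) (nat_lit 1) (nat_lit 230) (nat_lit 1)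 (nat_lit 394) (nat_lit 410) (nat_lit 336)) (XT.lf (nat_lit 532) (nat_lit 483268781) (nat_lit 0) (nat_lit 1661746765) (nat_lit 456) (nat_lit 1661746765) (nat_lit 224) (nat_lit 1) (nat_lit 217) (nat_lit 1) (nat_lit 223) (nat_lit 1) (nat_lit 395) (nat_lit 410) (nat_lit 335)))) (XT.nd (nat_lit 156) (nat_lit 456) (nat_lit 0) (XT.nd (nat_lit 78) (nat_lit 0) (nat_lit 0) (XT.lf (nat_lit 532) (nat_lit 3463223018) (nat_lit 0) (nat_lit 157017398) (nat_lit 456) (nat_lit 157017398) (nat_lit 217) (nat_lit 1) (nat_lit 210) (nat_lit 1) (nat_lit 216) (nat_lit 1) (nat_lit 396) (nat_lit 410) (nat_lit 334)) (XT.lf (nat_lit 76) (nat_lit 1317921984) (nat_lit 0) (nat_lit 1111976633) (nat_lit 532) (nat_lit 1317921984) (nat_lit 211) (nat_lit 1) (nat_lit 210) (nat_lit 1) (nat_lit 217) (nat_lit 1) (nat_lit 397) (nat_lit 410) (nat_lit 333))) (XT.nd (nat_lit 78) (nat_lit 0) (nat_lit 0) (XT.lf (nat_lit 532) (nat_lit 1817372404) (nat_lit 0)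 (nat_lit 950722371) (nat_lit 456) (nat_lit 950722371) (nat_lit 211) (nat_lit 1) (nat_lit 204) (nat_lit 1) (nat_lit 210) (nat_lit 1) (nat_lit 398) (nat_lit 410) (nat_lit 332)) (XT.lf (nat_lit 76) (nat_lit 501456860) (nat_lit 0) (nat_lit 2687232673) (nat_lit 532) (nat_lit 501456860) (nat_lit 205) (nat_lit 1) (nat_lit 204) (nat_lit 1) (nat_lit 211) (nat_lit 1) (nat_lit 399) (nat_lit 410) (nat_lit 331))))) (XT.nd (nat_lit 312) (nat_lit 836) (nat_lit 0) (XT.nd (nat_lit 156) (nat_lit 380) (nat_lit 0) (XT.nd (nat_lit 78) (nat_lit 532) (nat_lit 0) (XT.lf (nat_lit 456) (nat_lit 186745655) (nat_lit 0) (nat_lit 1737472754) (nat_lit 380) (nat_lit 1737472754) (nat_lit 205) (nat_lit 1) (nat_lit 199) (nat_lit 1) (nat_lit 204) (nat_lit 1) (nat_lit 400) (nat_lit 410) (nat_lit 330)) (XT.lf (nat_lit 532) (nat_lit 3022997409) (nat_lit 0) (nat_lit 305306026) (nat_lit 456) (nat_lit 305306026) (nat_lit 199) (nat_lit 1) (nat_lit 192)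 (nat_lit 1) (nat_lit 198) (nat_lit 1) (nat_lit 401) (nat_lit 410) (nat_lit 329))) (XT.nd (nat_lit 78) (nat_lit 380) (nat_lit 0) (XT.lf (nat_lit 76) (nat_lit 1098050320) (nat_lit 0) (nat_lit 1409561422) (nat_lit 532) (nat_lit 1098050320) (nat_lit 193) (nat_lit 1) (nat_lit 192) (nat_lit 1) (nat_lit 199) (nat_lit 1) (nat_lit 402) (nat_lit 410) (nat_lit 328)) (XT.lf (nat_lit 456) (nat_lit 1376144104) (nat_lit 0) (nat_lit 1100968358) (nat_lit 380) (nat_lit 1100968358) (nat_lit 193) (nat_lit 1) (nat_lit 187) (nat_lit 1) (nat_lit 192) (nat_lit 1) (nat_lit 403) (nat_lit 410) (nat_lit 327)))) (XT.nd (nat_lit 156) (nat_lit 380) (nat_lit 0) (XT.nd (nat_lit 78) (nat_lit 456) (nat_lit 0) (XT.lf (nat_lit 76) (nat_lit 281575805) (nat_lit 0) (nat_lit 2987710080) (nat_lit 456) (nat_lit 281575805) (nat_lit 188) (nat_lit 1) (nat_lit 187) (nat_lit 1) (nat_lit 193) (nat_lit 1) (nat_lit 404) (nat_lit 410) (nat_lit 326)) (XT.lf (nat_lit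 76) (nat_lit 1636763759) (nat_lit 0) (nat_lit 250230411) (nat_lit 456) (nat_lit 1636763759) (nat_lit 182) (nat_lit 1) (nat_lit 181) (nat_lit 1) (nat_lit 187) (nat_lit 1) (nat_lit 405) (nat_lit 410) (nat_lit 325))) (XT.nd (nat_lit 78) (nat_lit 0) (nat_lit 0) (XT.lf (nat_lit 456) (nat_lit 2451364030) (nat_lit 0) (nat_lit 522822720) (nat_lit 380) (nat_lit 522822720) (nat_lit 182) (nat_lit 1) (nat_lit 176) (nat_lit 1) (nat_lit 181) (nat_lit 1) (nat_lit 406) (nat_lit 410) (nat_lit 324)) (XT.lf (nat_lit 76) (nat_lit 814543597) (nat_lit 0) (nat_lit 1841379978) (nat_lit 456) (nat_lit 814543597) (nat_lit 177) (nat_lit 1) (nat_lit 176) (nat_lit 1) (nat_lit 182) (nat_lit 1) (nat_lit 407) (nat_lit 410) (nat_lit 323)))))) (XT.nd (nat_lit 52884) (nat_lit 0) (nat_lit 25384) (XT.nd (nat_lit 52572) (nat_lit 0) (nat_lit 25232) (XT.nd (nat_lit 156) (nat_lit 380) (nat_lit 0) (XT.nd (nat_lit 78) (nat_lit 0) (nat_lit 0) (XT.lf (nat_lit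 456) (nat_lit 810819092) (nat_lit 0) (nat_lit 1316694342) (nat_lit 380) (nat_lit 1316694342) (nat_lit 177) (nat_lit 1) (nat_lit 171) (nat_lit 1) (nat_lit 176) (nat_lit 1) (nat_lit 408) (nat_lit 410) (nat_lit 322)) (XT.lf (nat_lit 76) (nat_lit 1612900) (nat_lit 0) (nat_lit 3415132182) (nat_lit 456) (nat_lit 1612900) (nat_lit 172) (nat_lit 1) (nat_lit 171) (nat_lit 1) (nat_lit 177) (nat_lit 1) (nat_lit 409) (nat_lit 410) (nat_lit 321))) (XT.nd (nat_lit 52338) (nat_lit 0) (nat_lit 25232) (XT.lf (nat_lit 76) (nat_lit 1296052649) (nat_lit 0) (nat_lit 800363889) (nat_lit 380) (nat_lit 1296052649) (nat_lit 167) (nat_lit 1) (nat_lit 166) (nat_lit 1) (nat_lit 171) (nat_lit 1) (nat_lit 410) (nat_lit 410) (nat_lit 320)) (XT.lf (nat_lit 1900) (nat_lit 2419521920) (nat_lit 0) (nat_lit 2512508109) (nat_lit 1824) (nat_lit 2419521920) (nat_lit 523) (nat_lit 1) (nat_lit 498) (nat_lit 1) (nat_lit 522) (nat_lit 1) (nat_lit 320) (nat_lit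 411) (nat_lit 409)))) (XT.nd (nat_lit 156) (nat_lit 0) (nat_lit 76) (XT.nd (nat_lit 78) (nat_lit 0) (nat_lit 76) (XT.lf (nat_lit 1900) (nat_lit 4735600844) (nat_lit 76) (nat_lit 1272093825) (nat_lit 0) (nat_lit 1272093825) (nat_lit 523) (nat_lit 1) (nat_lit 499) (nat_lit 1) (nat_lit 498) (nat_lit 1) (nat_lit 321) (nat_lit 411) (nat_lit 408)) (XT.lf (nat_lit 1900) (nat_lit 2301412272) (nat_lit 0) (nat_lit 2605992688) (nat_lit 1824) (nat_lit 2301412272) (nat_lit 524) (nat_lit 1) (nat_lit 499) (nat_lit 1) (nat_lit 523) (nat_lit 1) (nat_lit 322) (nat_lit 411) (nat_lit 407))) (XT.nd (nat_lit 78) (nat_lit 0) (nat_lit 76) (XT.lf (nat_lit 1900) (nat_lit 4455507014) (nat_lit 76) (nat_lit 1341697190) (nat_lit 0) (nat_lit 1341697190) (nat_lit 524) (nat_lit 1) (nat_lit 500) (nat_lit 1) (nat_lit 499) (nat_lit 1) (nat_lit 323) (nat_lit 411) (nat_lit 406)) (XT.lf (nat_lit 1900) (nat_lit 2140785697) (nat_lit 0) (nat_lit 2788206499)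 (nat_lit 1824) (nat_lit 2140785697) (nat_lit 525) (nat_lit 1) (nat_lit 500) (nat_lit 1) (nat_lit 524) (nat_lit 1) (nat_lit 324) (nat_lit 411) (nat_lit 405))))) (XT.nd (nat_lit 312) (nat_lit 0) (nat_lit 152) (XT.nd (nat_lit 156) (nat_lit 0) (nat_lit 76) (XT.nd (nat_lit 78) (nat_lit 0) (nat_lit 76) (XT.lf (nat_lit 1900) (nat_lit 4092702812) (nat_lit 76) (nat_lit 1454473633) (nat_lit 0) (nat_lit 1454473633) (nat_lit 525) (nat_lit 1) (nat_lit 501) (nat_lit 1) (nat_lit 500) (nat_lit 1) (nat_lit 325) (nat_lit 411) (nat_lit 404)) (XT.lf (nat_lit 1900) (nat_lit 1940216772) (nat_lit 0) (nat_lit 3053893108) (nat_lit 1824) (nat_lit 1940216772) (nat_lit 526) (nat_lit 1) (nat_lit 501) (nat_lit 1) (nat_lit 525) (nat_lit 1) (nat_lit 326) (nat_lit 411) (nat_lit 403))) (XT.nd (nat_lit 78) (nat_lit 0) (nat_lit 76) (XT.lf (nat_lit 1900) (nat_lit 3652235015) (nat_lit 76) (nat_lit 1607847164) (nat_lit 0) (nat_lit 1607847164) (nat_lit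 526) (nat_lit 1) (nat_lit 502) (nat_lit 1) (nat_lit 501) (nat_lit 1) (nat_lit 327) (nat_lit 411) (nat_lit 402)) (XT.lf (nat_lit 1900) (nat_lit 1702161991) (nat_lit 0) (nat_lit 3398035707) (nat_lit 1824) (nat_lit 1702161991) (nat_lit 527) (nat_lit 1) (nat_lit 502) (nat_lit 1) (nat_lit 526) (nat_lit 1) (nat_lit 328) (nat_lit 411) (nat_lit 401)))) (XT.nd (nat_lit 156) (nat_lit 0) (nat_lit 76) (XT.nd (nat_lit 78) (nat_lit 0) (nat_lit 76) (XT.lf (nat_lit 1900) (nat_lit 3138918450) (nat_lit 76) (nat_lit 1799359460) (nat_lit 0) (nat_lit 1799359460) (nat_lit 527) (nat_lit 1) (nat_lit 503) (nat_lit 1) (nat_lit 502) (nat_lit 1) (nat_lit 329) (nat_lit 411) (nat_lit 400)) (XT.lf (nat_lit 1900) (nat_lit 1428964704) (nat_lit 0) (nat_lit 3815847108) (nat_lit 1824) (nat_lit 1428964704) (nat_lit 528) (nat_lit 1) (nat_lit 503) (nat_lit 1) (nat_lit 527) (nat_lit 1) (nat_lit 330) (nat_lit 411) (nat_lit 399))) (XT.nd (nat_lit 78) (nat_lit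 0) (nat_lit 76) (XT.lf (nat_lit 1900) (nat_lit 2557345700) (nat_lit 76) (nat_lit 2026664949) (nat_lit 0) (nat_lit 2026664949) (nat_lit 528) (nat_lit 1) (nat_lit 504) (nat_lit 1) (nat_lit 503) (nat_lit 1) (nat_lit 331) (nat_lit 411) (nat_lit 398)) (XT.lf (nat_lit 1900) (nat_lit 1122859862) (nat_lit 0) (nat_lit 4302760148) (nat_lit 1824) (nat_lit 1122859862) (nat_lit 529) (nat_lit 1) (nat_lit 504) (nat_lit 1) (nat_lit 528) (nat_lit 1) (nat_lit 332) (nat_lit 411) (nat_lit 397))))))) (XT.nd (nat_lit 1170) (nat_lit 7524) (nat_lit 0) (XT.nd (nat_lit 546) (nat_lit 1900) (nat_lit 0) (XT.nd (nat_lit 234) (nat_lit 1672) (nat_lit 0) (XT.nd (nat_lit 78) (nat_lit 0) (nat_lit 76) (XT.lf (nat_lit 1900) (nat_lit 1911896431) (nat_lit 76) (nat_lit 2287526094) (nat_lit 0) (nat_lit 2287526094) (nat_lit 529) (nat_lit 1) (nat_lit 505) (nat_lit 1) (nat_lit 504) (nat_lit 1) (nat_lit 333) (nat_lit 411) (nat_lit 396)) (XT.nd (nat_lit 78)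 (nat_lit 0) (nat_lit 0) (XT.lf (nat_lit 1900) (nat_lit 785978563) (nat_lit 0) (nat_lit 4854418470) (nat_lit 1824) (nat_lit 785978563) (nat_lit 530) (nat_lit 1) (nat_lit 505) (nat_lit 1) (nat_lit 529) (nat_lit 1) (nat_lit 334) (nat_lit 411) (nat_lit 395)) (XT.lf (nat_lit 1900) (nat_lit 1206746333) (nat_lit 76) (nat_lit 2579808865) (nat_lit 0) (nat_lit 2579808865) (nat_lit 530) (nat_lit 1) (nat_lit 506) (nat_lit 1) (nat_lit 505) (nat_lit 1) (nat_lit 335) (nat_lit 411) (nat_lit 394)))) (XT.nd (nat_lit 156) (nat_lit 1824) (nat_lit 0) (XT.nd (nat_lit 78) (nat_lit 0) (nat_lit 0) (XT.lf (nat_lit 1900) (nat_lit 420352419) (nat_lit 0) (nat_lit 5466667688) (nat_lit 1824) (nat_lit 420352419) (nat_lit 531) (nat_lit 1) (nat_lit 506) (nat_lit 1) (nat_lit 530) (nat_lit 1) (nat_lit 336) (nat_lit 411) (nat_lit 393)) (XT.lf (nat_lit 1900) (nat_lit 445875710) (nat_lit 76) (nat_lit 2901478391) (nat_lit 0) (nat_lit 2901478391) (nat_lit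 531) (nat_lit 1) (nat_lit 507) (nat_lit 1) (nat_lit 506) (nat_lit 1) (nat_lit 337) (nat_lit 411) (nat_lit 392))) (XT.nd (nat_lit 78) (nat_lit 1900) (nat_lit 0) (XT.lf (nat_lit 1900) (nat_lit 27917755) (nat_lit 0) (nat_lit 6135546895) (nat_lit 1824) (nat_lit 27917755) (nat_lit 532) (nat_lit 1) (nat_lit 507) (nat_lit 1) (nat_lit 531) (nat_lit 1) (nat_lit 338) (nat_lit 411) (nat_lit 391)) (XT.lf (nat_lit 1976) (nat_lit 2886054816) (nat_lit 0) (nat_lit 362110031) (nat_lit 1900) (nat_lit 2886054816) (nat_lit 508) (nat_lit 1) (nat_lit 482) (nat_lit 1) (nat_lit 507) (nat_lit 1) (nat_lit 339) (nat_lit 411) (nat_lit 390))))) (XT.nd (nat_lit 312) (nat_lit 1900) (nat_lit 0) (XT.nd (nat_lit 156) (nat_lit 0) (nat_lit 76) (XT.nd (nat_lit 78) (nat_lit 0) (nat_lit 76) (XT.lf (nat_lit 1976) (nat_lit 5304280768) (nat_lit 76) (nat_lit 386918008) (nat_lit 0) (nat_lit 386918008) (nat_lit 508) (nat_lit 1) (nat_lit 483) (nat_lit 1) (nat_lit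 482) (nat_lit 1) (nat_lit 340) (nat_lit 411) (nat_lit 389)) (XT.lf (nat_lit 1976) (nat_lit 2405248665) (nat_lit 0) (nat_lit 1211927853) (nat_lit 1900) (nat_lit 2405248665) (nat_lit 509) (nat_lit 1) (nat_lit 483) (nat_lit 1) (nat_lit 508) (nat_lit 1) (nat_lit 341) (nat_lit 411) (nat_lit 388))) (XT.nd (nat_lit 78) (nat_lit 0) (nat_lit 76) (XT.lf (nat_lit 1976) (nat_lit 4318422712) (nat_lit 76) (nat_lit 824623263) (nat_lit 0) (nat_lit 824623263) (nat_lit 509) (nat_lit 1) (nat_lit 484) (nat_lit 1) (nat_lit 483) (nat_lit 1) (nat_lit 342) (nat_lit 411) (nat_lit 387)) (XT.lf (nat_lit 76) (nat_lit 1903698894) (nat_lit 0) (nat_lit 2106028387) (nat_lit 1900) (nat_lit 1903698894) (nat_lit 485) (nat_lit 1) (nat_lit 484) (nat_lit 1) (nat_lit 509) (nat_lit 1) (nat_lit 343) (nat_lit 411) (nat_lit 386)))) (XT.nd (nat_lit 156) (nat_lit 912) (nat_lit 0) (XT.nd (nat_lit 78) (nat_lit 0) (nat_lit 0) (XT.lf (nat_lit 1216) (nat_lit 3292537513)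 (nat_lit 0) (nat_lit 1283718758) (nat_lit 1140) (nat_lit 1283718758) (nat_lit 485) (nat_lit 1) (nat_lit 469) (nat_lit 1) (nat_lit 484) (nat_lit 1) (nat_lit 344) (nat_lit 411) (nat_lit 385)) (XT.lf (nat_lit 76) (nat_lit 1382983826) (nat_lit 0) (nat_lit 3041176744) (nat_lit 1216) (nat_lit 1382983826) (nat_lit 470) (nat_lit 1) (nat_lit 469) (nat_lit 1) (nat_lit 485) (nat_lit 1) (nat_lit 345) (nat_lit 411) (nat_lit 384))) (XT.nd (nat_lit 78) (nat_lit 0) (nat_lit 0) (XT.lf (nat_lit 988) (nat_lit 2229714949) (nat_lit 0) (nat_lit 1762621200) (nat_lit 912) (nat_lit 1762621200) (nat_lit 470) (nat_lit 1) (nat_lit 457) (nat_lit 1) (nat_lit 469) (nat_lit 1) (nat_lit 346) (nat_lit 411) (nat_lit 383)) (XT.lf (nat_lit 76) (nat_lit 844605340) (nat_lit 0) (nat_lit 4014293363) (nat_lit 988) (nat_lit 844605340) (nat_lit 458) (nat_lit 1) (nat_lit 457) (nat_lit 1) (nat_lit 470) (nat_lit 1) (nat_lit 347) (nat_lit 411) (nat_lit 382))))))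 (XT.nd (nat_lit 624) (nat_lit 3116) (nat_lit 0) (XT.nd (nat_lit 312) (nat_lit 1672) (nat_lit 0) (XT.nd (nat_lit 156) (nat_lit 1824) (nat_lit 0) (XT.nd (nat_lit 78) (nat_lit 0) (nat_lit 0) (XT.lf (nat_lit 988) (nat_lit 1132894709) (nat_lit 0) (nat_lit 2259823537) (nat_lit 912) (nat_lit 2259823537) (nat_lit 458) (nat_lit 1) (nat_lit 445) (nat_lit 1) (nat_lit 457) (nat_lit 1) (nat_lit 348) (nat_lit 411) (nat_lit 381)) (XT.lf (nat_lit 76) (nat_lit 289992140) (nat_lit 0) (nat_lit 5022447395) (nat_lit 988) (nat_lit 289992140) (nat_lit 446) (nat_lit 1) (nat_lit 445) (nat_lit 1) (nat_lit 458) (nat_lit 1) (nat_lit 349) (nat_lit 411) (nat_lit 380))) (XT.nd (nat_lit 78) (nat_lit 988) (nat_lit 0) (XT.lf (nat_lit 912) (nat_lit 4872817) (nat_lit 0) (nat_lit 2773891706) (nat_lit 836) (nat_lit 2773891706) (nat_lit 446) (nat_lit 1) (nat_lit 434) (nat_lit 1) (nat_lit 445) (nat_lit 1) (nat_lit 350) (nat_lit 411) (nat_lit 379)) (XT.lf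 (nat_lit 988) (nat_lit 4948393848) (nat_lit 0) (nat_lit 277658314) (nat_lit 912) (nat_lit 277658314) (nat_lit 434) (nat_lit 1) (nat_lit 421) (nat_lit 1) (nat_lit 433) (nat_lit 1) (nat_lit 351) (nat_lit 411) (nat_lit 378)))) (XT.nd (nat_lit 156) (nat_lit 836) (nat_lit 0) (XT.nd (nat_lit 78) (nat_lit 836) (nat_lit 0) (XT.lf (nat_lit 76) (nat_lit 2159246846) (nat_lit 0) (nat_lit 1136587567) (nat_lit 988) (nat_lit 2159246846) (nat_lit 422) (nat_lit 1) (nat_lit 421) (nat_lit 1) (nat_lit 434) (nat_lit 1) (nat_lit 352) (nat_lit 411) (nat_lit 377)) (XT.lf (nat_lit 912) (nat_lit 3693466968) (nat_lit 0) (nat_lit 856895984) (nat_lit 836) (nat_lit 856895984) (nat_lit 422) (nat_lit 1) (nat_lit 410) (nat_lit 1) (nat_lit 421) (nat_lit 1) (nat_lit 353) (nat_lit 411) (nat_lit 376))) (XT.nd (nat_lit 78) (nat_lit 836) (nat_lit 0) (XT.lf (nat_lit 76) (nat_lit 1528117812) (nat_lit 0) (nat_lit 2303659073) (nat_lit 912) (nat_lit 1528117812)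 (nat_lit 411) (nat_lit 1) (nat_lit 410) (nat_lit 1) (nat_lit 422) (nat_lit 1) (nat_lit 354) (nat_lit 411) (nat_lit 375)) (XT.lf (nat_lit 912) (nat_lit 2416343362) (nat_lit 0) (nat_lit 1448409319) (nat_lit 836) (nat_lit 1448409319) (nat_lit 411) (nat_lit 1) (nat_lit 399) (nat_lit 1) (nat_lit 410) (nat_lit 1) (nat_lit 355) (nat_lit 411) (nat_lit 374))))) (XT.nd (nat_lit 312) (nat_lit 1520) (nat_lit 0) (XT.nd (nat_lit 156) (nat_lit 836) (nat_lit 0) (XT.nd (nat_lit 78) (nat_lit 760) (nat_lit 0) (XT.lf (nat_lit 76) (nat_lit 886497866) (nat_lit 0) (nat_lit 3494036128) (nat_lit 912) (nat_lit 886497866) (nat_lit 400) (nat_lit 1) (nat_lit 399) (nat_lit 1) (nat_lit 411) (nat_lit 1) (nat_lit 356) (nat_lit 411) (nat_lit 373)) (XT.lf (nat_lit 836) (nat_lit 1119275682) (nat_lit 0) (nat_lit 2051039911) (nat_lit 760) (nat_lit 2051039911) (nat_lit 400) (nat_lit 1) (nat_lit 389) (nat_lit 1) (nat_lit 399) (nat_lit 1) (nat_lit 357)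 (nat_lit 411) (nat_lit 372))) (XT.nd (nat_lit 78) (nat_lit 836) (nat_lit 0) (XT.lf (nat_lit 76) (nat_lit 235480625) (nat_lit 0) (nat_lit 4705468174) (nat_lit 836) (nat_lit 235480625) (nat_lit 390) (nat_lit 1) (nat_lit 389) (nat_lit 1) (nat_lit 400) (nat_lit 1) (nat_lit 358) (nat_lit 411) (nat_lit 371)) (XT.lf (nat_lit 76) (nat_lit 2469359496) (nat_lit 0) (nat_lit 193032855) (nat_lit 836) (nat_lit 2469359496) (nat_lit 379) (nat_lit 1) (nat_lit 378) (nat_lit 1) (nat_lit 389) (nat_lit 1) (nat_lit 359) (nat_lit 411) (nat_lit 370)))) (XT.nd (nat_lit 156) (nat_lit 760) (nat_lit 0) (XT.nd (nat_lit 78) (nat_lit 0) (nat_lit 0) (XT.lf (nat_lit 836) (nat_lit 4245590239) (nat_lit 0) (nat_lit 421107422) (nat_lit 760) (nat_lit 421107422) (nat_lit 379) (nat_lit 1) (nat_lit 368) (nat_lit 1) (nat_lit 378) (nat_lit 1) (nat_lit 360) (nat_lit 411) (nat_lit 369)) (XT.lf (nat_lit 76) (nat_lit 1768967877) (nat_lit 0) (nat_lit 1506232964)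 (nat_lit 836) (nat_lit 1768967877) (nat_lit 369) (nat_lit 1) (nat_lit 368) (nat_lit 1) (nat_lit 379) (nat_lit 1) (nat_lit 361) (nat_lit 411) (nat_lit 368))) (XT.nd (nat_lit 78) (nat_lit 0) (nat_lit 0) (XT.lf (nat_lit 836) (nat_lit 2834247419) (nat_lit 0) (nat_lit 1083473123) (nat_lit 760) (nat_lit 1083473123) (nat_lit 369) (nat_lit 1) (nat_lit 358) (nat_lit 1) (nat_lit 368) (nat_lit 1) (nat_lit 362) (nat_lit 411) (nat_lit 367)) (XT.lf (nat_lit 76) (nat_lit 1062793522) (nat_lit 0) (nat_lit 2833106179) (nat_lit 836) (nat_lit 1062793522) (nat_lit 359) (nat_lit 1) (nat_lit 358) (nat_lit 1) (nat_lit 369) (nat_lit 1) (nat_lit 363) (nat_lit 411) (nat_lit 366))))))))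
noncomputable def ec44 : XT := (XT.nd (nat_lit 2340) (nat_lit 4256) (nat_lit 0) (XT.nd (nat_lit 1170) (nat_lit 4864) (nat_lit 0) (XT.nd (nat_lit 546) (nat_lit 3040) (nat_lit 0) (XT.nd (nat_lit 234) (nat_lit 1368) (nat_lit 0) (XT.nd (nat_lit 78) (nat_lit 760) (nat_lit 0) (XT.lf (nat_lit 760) (nat_lit 1412183115) (nat_lit 0) (nat_lit 1752238770) (nat_lit 684) (nat_lit 1752238770) (nat_lit 359) (nat_lit 1) (nat_lit 349) (nat_lit 1) (nat_lit 358) (nat_lit 1) (nat_lit 364) (nat_lit 411) (nat_lit 365)) (XT.nd (nat_lit 78) (nat_lit 760) (nat_lit 0) (XT.lf (nat_lit 76) (nat_lit 351707646) (nat_lit 0) (nat_lit 4171853588) (nat_lit 760) (nat_lit 351707646) (nat_lit 350) (nat_lit 1) (nat_lit 349) (nat_lit 1) (nat_lit 359) (nat_lit 1) (nat_lit 365) (nat_lit 411) (nat_lit 364)) (XT.lf (nat_lit 76) (nat_lit 2407747229) (nat_lit 0) (nat_lit 18653631) (nat_lit 760) (nat_lit 2407747229) (nat_lit 340) (nat_lit 1) (nat_lit 339) (nat_lit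 1) (nat_lit 349) (nat_lit 1) (nat_lit 366) (nat_lit 411) (nat_lit 363)))) (XT.nd (nat_lit 156) (nat_lit 684) (nat_lit 0) (XT.nd (nat_lit 78) (nat_lit 0) (nat_lit 0) (XT.lf (nat_lit 760) (nat_lit 4071503818) (nat_lit 0) (nat_lit 361073831) (nat_lit 684) (nat_lit 361073831) (nat_lit 340) (nat_lit 1) (nat_lit 330) (nat_lit 1) (nat_lit 339) (nat_lit 1) (nat_lit 367) (nat_lit 411) (nat_lit 362)) (XT.lf (nat_lit 76) (nat_lit 1657568814) (nat_lit 0) (nat_lit 1438282597) (nat_lit 760) (nat_lit 1657568814) (nat_lit 331) (nat_lit 1) (nat_lit 330) (nat_lit 1) (nat_lit 340) (nat_lit 1) (nat_lit 368) (nat_lit 411) (nat_lit 361))) (XT.nd (nat_lit 78) (nat_lit 0) (nat_lit 0) (XT.lf (nat_lit 760) (nat_lit 2564139762) (nat_lit 0) (nat_lit 1074826259) (nat_lit 684) (nat_lit 1074826259) (nat_lit 331) (nat_lit 1) (nat_lit 321) (nat_lit 1) (nat_lit 330) (nat_lit 1) (nat_lit 369) (nat_lit 411) (nat_lit 360)) (XT.lf (nat_lit 76) (nat_lit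 905443143) (nat_lit 0) (nat_lit 2863722106) (nat_lit 760) (nat_lit 905443143) (nat_lit 322) (nat_lit 1) (nat_lit 321) (nat_lit 1) (nat_lit 331) (nat_lit 1) (nat_lit 370) (nat_lit 411) (nat_lit 359))))) (XT.nd (nat_lit 312) (nat_lit 1140) (nat_lit 0) (XT.nd (nat_lit 156) (nat_lit 1292) (nat_lit 0) (XT.nd (nat_lit 78) (nat_lit 0) (nat_lit 0) (XT.lf (nat_lit 684) (nat_lit 1053562210) (nat_lit 0) (nat_lit 1791130594) (nat_lit 608) (nat_lit 1791130594) (nat_lit 322) (nat_lit 1) (nat_lit 313) (nat_lit 1) (nat_lit 321) (nat_lit 1) (nat_lit 371) (nat_lit 411) (nat_lit 358)) (XT.lf (nat_lit 76) (nat_lit 152055196) (nat_lit 0) (nat_lit 4293551695) (nat_lit 684) (nat_lit 152055196) (nat_lit 314) (nat_lit 1) (nat_lit 313) (nat_lit 1) (nat_lit 322) (nat_lit 1) (nat_lit 372) (nat_lit 411) (nat_lit 357))) (XT.nd (nat_lit 78) (nat_lit 608) (nat_lit 0) (XT.lf (nat_lit 76) (nat_lit 2053380356) (nat_lit 0) (nat_lit 452874873) (nat_lit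 684) (nat_lit 2053380356) (nat_lit 305) (nat_lit 1) (nat_lit 304) (nat_lit 1) (nat_lit 313) (nat_lit 1) (nat_lit 373) (nat_lit 411) (nat_lit 356)) (XT.lf (nat_lit 684) (nat_lit 3326241775) (nat_lit 0) (nat_lit 597988407) (nat_lit 608) (nat_lit 597988407) (nat_lit 305) (nat_lit 1) (nat_lit 296) (nat_lit 1) (nat_lit 304) (nat_lit 1) (nat_lit 374) (nat_lit 411) (nat_lit 355)))) (XT.nd (nat_lit 156) (nat_lit 532) (nat_lit 0) (XT.nd (nat_lit 78) (nat_lit 608) (nat_lit 0) (XT.lf (nat_lit 76) (nat_lit 1269499519) (nat_lit 0) (nat_lit 1946104296) (nat_lit 684) (nat_lit 1269499519) (nat_lit 297) (nat_lit 1) (nat_lit 296) (nat_lit 1) (nat_lit 305) (nat_lit 1) (nat_lit 375) (nat_lit 411) (nat_lit 354)) (XT.lf (nat_lit 684) (nat_lit 1754389117) (nat_lit 0) (nat_lit 1347037834) (nat_lit 608) (nat_lit 1347037834) (nat_lit 297) (nat_lit 1) (nat_lit 288) (nat_lit 1) (nat_lit 296) (nat_lit 1) (nat_lit 376) (nat_lit 411) (nat_lit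 353))) (XT.nd (nat_lit 78) (nat_lit 532) (nat_lit 0) (XT.lf (nat_lit 76) (nat_lit 486772616) (nat_lit 0) (nat_lit 3438771594) (nat_lit 684) (nat_lit 486772616) (nat_lit 289) (nat_lit 1) (nat_lit 288) (nat_lit 1) (nat_lit 297) (nat_lit 1) (nat_lit 377) (nat_lit 411) (nat_lit 352)) (XT.lf (nat_lit 608) (nat_lit 185388516) (nat_lit 0) (nat_lit 2095522769) (nat_lit 532) (nat_lit 2095522769) (nat_lit 289) (nat_lit 1) (nat_lit 281) (nat_lit 1) (nat_lit 288) (nat_lit 1) (nat_lit 378) (nat_lit 411) (nat_lit 351)))))) (XT.nd (nat_lit 546) (nat_lit 2508) (nat_lit 0) (XT.nd (nat_lit 234) (nat_lit 1140) (nat_lit 0) (XT.nd (nat_lit 78) (nat_lit 532) (nat_lit 0) (XT.lf (nat_lit 684) (nat_lit 3756407531) (nat_lit 0) (nat_lit 292334949) (nat_lit 608) (nat_lit 292334949) (nat_lit 281) (nat_lit 1) (nat_lit 272) (nat_lit 1) (nat_lit 280) (nat_lit 1) (nat_lit 379) (nat_lit 411) (nat_lit 350)) (XT.nd (nat_lit 78) (nat_lit 532) (nat_lit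 0) (XT.lf (nat_lit 76) (nat_lit 1472134099) (nat_lit 0) (nat_lit 1361634491) (nat_lit 684) (nat_lit 1472134099) (nat_lit 273) (nat_lit 1) (nat_lit 272) (nat_lit 1) (nat_lit 281) (nat_lit 1) (nat_lit 380) (nat_lit 411) (nat_lit 349)) (XT.lf (nat_lit 608) (nat_lit 2139095047) (nat_lit 0) (nat_lit 1066073477) (nat_lit 532) (nat_lit 1066073477) (nat_lit 273) (nat_lit 1) (nat_lit 265) (nat_lit 1) (nat_lit 272) (nat_lit 1) (nat_lit 381) (nat_lit 411) (nat_lit 348)))) (XT.nd (nat_lit 156) (nat_lit 608) (nat_lit 0) (XT.nd (nat_lit 78) (nat_lit 532) (nat_lit 0) (XT.lf (nat_lit 76) (nat_lit 667771705) (nat_lit 0) (nat_lit 2901439756) (nat_lit 608) (nat_lit 667771705) (nat_lit 266) (nat_lit 1) (nat_lit 265) (nat_lit 1) (nat_lit 273) (nat_lit 1) (nat_lit 382) (nat_lit 411) (nat_lit 347)) (XT.lf (nat_lit 608) (nat_lit 528659269) (nat_lit 0) (nat_lit 1837181260) (nat_lit 532) (nat_lit 1837181260) (nat_lit 266) (nat_lit 1) (nat_lit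 258) (nat_lit 1) (nat_lit 265) (nat_lit 1) (nat_lit 383) (nat_lit 411) (nat_lit 346))) (XT.nd (nat_lit 78) (nat_lit 0) (nat_lit 0) (XT.lf (nat_lit 608) (nat_lit 3905433090) (nat_lit 0) (nat_lit 132077647) (nat_lit 532) (nat_lit 132077647) (nat_lit 258) (nat_lit 1) (nat_lit 250) (nat_lit 1) (nat_lit 257) (nat_lit 1) (nat_lit 384) (nat_lit 411) (nat_lit 345)) (XT.lf (nat_lit 76) (nat_lit 1538126237) (nat_lit 0) (nat_lit 1059983628) (nat_lit 608) (nat_lit 1538126237) (nat_lit 251) (nat_lit 1) (nat_lit 250) (nat_lit 1) (nat_lit 258) (nat_lit 1) (nat_lit 385) (nat_lit 411) (nat_lit 344))))) (XT.nd (nat_lit 312) (nat_lit 912) (nat_lit 0) (XT.nd (nat_lit 156) (nat_lit 1064) (nat_lit 0) (XT.nd (nat_lit 78) (nat_lit 0) (nat_lit 0) (XT.lf (nat_lit 608) (nat_lit 2256356727) (nat_lit 0) (nat_lit 923522161) (nat_lit 532) (nat_lit 923522161) (nat_lit 251) (nat_lit 1) (nat_lit 243) (nat_lit 1) (nat_lit 250) (nat_lit 1) (nat_lit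 386) (nat_lit 411) (nat_lit 343)) (XT.lf (nat_lit 76) (nat_lit 718797303) (nat_lit 0) (nat_lit 2633322220) (nat_lit 608) (nat_lit 718797303) (nat_lit 244) (nat_lit 1) (nat_lit 243) (nat_lit 1) (nat_lit 251) (nat_lit 1) (nat_lit 387) (nat_lit 411) (nat_lit 342))) (XT.nd (nat_lit 78) (nat_lit 608) (nat_lit 0) (XT.lf (nat_lit 532) (nat_lit 617562156) (nat_lit 0) (nat_lit 1710583848) (nat_lit 456) (nat_lit 1710583848) (nat_lit 244) (nat_lit 1) (nat_lit 237) (nat_lit 1) (nat_lit 243) (nat_lit 1) (nat_lit 388) (nat_lit 411) (nat_lit 341)) (XT.lf (nat_lit 608) (nat_lit 3817816291) (nat_lit 0) (nat_lit 94613938) (nat_lit 532) (nat_lit 94613938) (nat_lit 237) (nat_lit 1) (nat_lit 229) (nat_lit 1) (nat_lit 236) (nat_lit 1) (nat_lit 389) (nat_lit 411) (nat_lit 340)))) (XT.nd (nat_lit 156) (nat_lit 456) (nat_lit 0) (XT.nd (nat_lit 78) (nat_lit 456) (nat_lit 0) (XT.lf (nat_lit 76) (nat_lit 1489179864) (nat_lit 0) (nat_lit 997045666)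 (nat_lit 608) (nat_lit 1489179864) (nat_lit 230) (nat_lit 1) (nat_lit 229) (nat_lit 1) (nat_lit 237) (nat_lit 1) (nat_lit 390) (nat_lit 411) (nat_lit 339)) (XT.lf (nat_lit 532) (nat_lit 2148803588) (nat_lit 0) (nat_lit 897727392) (nat_lit 456) (nat_lit 897727392) (nat_lit 230) (nat_lit 1) (nat_lit 223) (nat_lit 1) (nat_lit 229) (nat_lit 1) (nat_lit 391) (nat_lit 411) (nat_lit 338))) (XT.nd (nat_lit 78) (nat_lit 456) (nat_lit 0) (XT.lf (nat_lit 76) (nat_lit 660641383) (nat_lit 0) (nat_lit 2592160281) (nat_lit 532) (nat_lit 660641383) (nat_lit 224) (nat_lit 1) (nat_lit 223) (nat_lit 1) (nat_lit 230) (nat_lit 1) (nat_lit 392) (nat_lit 411) (nat_lit 337)) (XT.lf (nat_lit 532) (nat_lit 492934156) (nat_lit 0) (nat_lit 1694981700) (nat_lit 456) (nat_lit 1694981700) (nat_lit 224) (nat_lit 1) (nat_lit 217) (nat_lit 1) (nat_lit 223) (nat_lit 1) (nat_lit 393) (nat_lit 411) (nat_lit 336))))))) (XT.nd (nat_lit 1170) (nat_lit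 380) (nat_lit 0) (XT.nd (nat_lit 546) (nat_lit 1976) (nat_lit 0) (XT.nd (nat_lit 234) (nat_lit 912) (nat_lit 0) (XT.nd (nat_lit 78) (nat_lit 456) (nat_lit 0) (XT.lf (nat_lit 532) (nat_lit 3532487478) (nat_lit 0) (nat_lit 160157746) (nat_lit 456) (nat_lit 160157746) (nat_lit 217) (nat_lit 1) (nat_lit 210) (nat_lit 1) (nat_lit 216) (nat_lit 1) (nat_lit 394) (nat_lit 411) (nat_lit 335)) (XT.nd (nat_lit 78) (nat_lit 456) (nat_lit 0) (XT.lf (nat_lit 76) (nat_lit 1344280424) (nat_lit 0) (nat_lit 1134216165) (nat_lit 532) (nat_lit 1344280424) (nat_lit 211) (nat_lit 1) (nat_lit 210) (nat_lit 1) (nat_lit 217) (nat_lit 1) (nat_lit 395) (nat_lit 411) (nat_lit 334)) (XT.lf (nat_lit 532) (nat_lit 1853719852) (nat_lit 0) (nat_lit 969736818) (nat_lit 456) (nat_lit 969736818) (nat_lit 211) (nat_lit 1) (nat_lit 204) (nat_lit 1) (nat_lit 210) (nat_lit 1) (nat_lit 396) (nat_lit 411) (nat_lit 333)))) (XT.nd (nat_lit 156) (nat_lit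 532) (nat_lit 0) (XT.nd (nat_lit 78) (nat_lit 380) (nat_lit 0) (XT.lf (nat_lit 76) (nat_lit 511485998) (nat_lit 0) (nat_lit 2740977326) (nat_lit 532) (nat_lit 511485998) (nat_lit 205) (nat_lit 1) (nat_lit 204) (nat_lit 1) (nat_lit 211) (nat_lit 1) (nat_lit 397) (nat_lit 411) (nat_lit 332)) (XT.lf (nat_lit 456) (nat_lit 190480568) (nat_lit 0) (nat_lit 1772222209) (nat_lit 380) (nat_lit 1772222209) (nat_lit 205) (nat_lit 1) (nat_lit 199) (nat_lit 1) (nat_lit 204) (nat_lit 1) (nat_lit 398) (nat_lit 411) (nat_lit 331))) (XT.nd (nat_lit 78) (nat_lit 0) (nat_lit 0) (XT.lf (nat_lit 532) (nat_lit 3083457357) (nat_lit 0) (nat_lit 311412147) (nat_lit 456) (nat_lit 311412147) (nat_lit 199) (nat_lit 1) (nat_lit 192) (nat_lit 1) (nat_lit 198) (nat_lit 1) (nat_lit 399) (nat_lit 411) (nat_lit 330)) (XT.lf (nat_lit 76) (nat_lit 1120011326) (nat_lit 0) (nat_lit 1437752651) (nat_lit 532) (nat_lit 1120011326) (nat_lit 193) (nat_lit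 1) (nat_lit 192) (nat_lit 1) (nat_lit 199) (nat_lit 1) (nat_lit 400) (nat_lit 411) (nat_lit 329))))) (XT.nd (nat_lit 312) (nat_lit 760) (nat_lit 0) (XT.nd (nat_lit 156) (nat_lit 836) (nat_lit 0) (XT.nd (nat_lit 78) (nat_lit 0) (nat_lit 0) (XT.lf (nat_lit 456) (nat_lit 1403666986) (nat_lit 0) (nat_lit 1122987725) (nat_lit 380) (nat_lit 1122987725) (nat_lit 193) (nat_lit 1) (nat_lit 187) (nat_lit 1) (nat_lit 192) (nat_lit 1) (nat_lit 401) (nat_lit 411) (nat_lit 328)) (XT.lf (nat_lit 76) (nat_lit 287207321) (nat_lit 0) (nat_lit 3047464281) (nat_lit 456) (nat_lit 287207321) (nat_lit 188) (nat_lit 1) (nat_lit 187) (nat_lit 1) (nat_lit 193) (nat_lit 1) (nat_lit 402) (nat_lit 411) (nat_lit 327))) (XT.nd (nat_lit 78) (nat_lit 380) (nat_lit 0) (XT.lf (nat_lit 76) (nat_lit 1669499034) (nat_lit 0) (nat_lit 255235020) (nat_lit 456) (nat_lit 1669499034) (nat_lit 182) (nat_lit 1) (nat_lit 181) (nat_lit 1) (nat_lit 187) (nat_lit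 1) (nat_lit 403) (nat_lit 411) (nat_lit 326)) (XT.lf (nat_lit 456) (nat_lit 2500391310) (nat_lit 0) (nat_lit 533279175) (nat_lit 380) (nat_lit 533279175) (nat_lit 182) (nat_lit 1) (nat_lit 176) (nat_lit 1) (nat_lit 181) (nat_lit 1) (nat_lit 404) (nat_lit 411) (nat_lit 325)))) (XT.nd (nat_lit 156) (nat_lit 380) (nat_lit 0) (XT.nd (nat_lit 78) (nat_lit 380) (nat_lit 0) (XT.lf (nat_lit 76) (nat_lit 830834469) (nat_lit 0) (nat_lit 1878207578) (nat_lit 456) (nat_lit 830834469) (nat_lit 177) (nat_lit 1) (nat_lit 176) (nat_lit 1) (nat_lit 182) (nat_lit 1) (nat_lit 405) (nat_lit 411) (nat_lit 324)) (XT.lf (nat_lit 456) (nat_lit 827035474) (nat_lit 0) (nat_lit 1343028228) (nat_lit 380) (nat_lit 1343028228) (nat_lit 177) (nat_lit 1) (nat_lit 171) (nat_lit 1) (nat_lit 176) (nat_lit 1) (nat_lit 406) (nat_lit 411) (nat_lit 323))) (XT.nd (nat_lit 78) (nat_lit 380) (nat_lit 0) (XT.lf (nat_lit 76) (nat_lit 1645158) (nat_lit 0)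 (nat_lit 3483434826) (nat_lit 456) (nat_lit 1645158) (nat_lit 172) (nat_lit 1) (nat_lit 171) (nat_lit 1) (nat_lit 177) (nat_lit 1) (nat_lit 407) (nat_lit 411) (nat_lit 322)) (XT.lf (nat_lit 76) (nat_lit 1321973702) (nat_lit 0) (nat_lit 816371167) (nat_lit 380) (nat_lit 1321973702) (nat_lit 167) (nat_lit 1) (nat_lit 166) (nat_lit 1) (nat_lit 171) (nat_lit 1) (nat_lit 408) (nat_lit 411) (nat_lit 321)))))) (XT.nd (nat_lit 52962) (nat_lit 0) (nat_lit 25916) (XT.nd (nat_lit 52650) (nat_lit 0) (nat_lit 25764) (XT.nd (nat_lit 52494) (nat_lit 0) (nat_lit 25688) (XT.nd (nat_lit 52416) (nat_lit 0) (nat_lit 25688) (XT.lf (nat_lit 456) (nat_lit 1809118438) (nat_lit 0) (nat_lit 812602593) (nat_lit 380) (nat_lit 812602593) (nat_lit 167) (nat_lit 1) (nat_lit 161) (nat_lit 1) (nat_lit 166) (nat_lit 1) (nat_lit 409) (nat_lit 411) (nat_lit 320)) (XT.lf (nat_lit 1900) (nat_lit 2347440518) (nat_lit 0) (nat_lit 2658112542) (nat_lit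 1824) (nat_lit 2347440518) (nat_lit 524) (nat_lit 1) (nat_lit 499) (nat_lit 1) (nat_lit 523) (nat_lit 1) (nat_lit 320) (nat_lit 412) (nat_lit 408))) (XT.nd (nat_lit 78) (nat_lit 0) (nat_lit 76) (XT.lf (nat_lit 1900) (nat_lit 4544617155) (nat_lit 76) (nat_lit 1368531134) (nat_lit 0) (nat_lit 1368531134) (nat_lit 524) (nat_lit 1) (nat_lit 500) (nat_lit 1) (nat_lit 499) (nat_lit 1) (nat_lit 321) (nat_lit 412) (nat_lit 407)) (XT.lf (nat_lit 1900) (nat_lit 2183601411) (nat_lit 0) (nat_lit 2843970629) (nat_lit 1824) (nat_lit 2183601411) (nat_lit 525) (nat_lit 1) (nat_lit 500) (nat_lit 1) (nat_lit 524) (nat_lit 1) (nat_lit 322) (nat_lit 412) (nat_lit 406)))) (XT.nd (nat_lit 156) (nat_lit 0) (nat_lit 76) (XT.nd (nat_lit 78) (nat_lit 0) (nat_lit 76) (XT.lf (nat_lit 1900) (nat_lit 4174556868) (nat_lit 76) (nat_lit 1483563105) (nat_lit 0) (nat_lit 1483563105) (nat_lit 525) (nat_lit 1) (nat_lit 501) (nat_lit 1) (nat_lit 500)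 (nat_lit 1) (nat_lit 323) (nat_lit 412) (nat_lit 405)) (XT.lf (nat_lit 1900) (nat_lit 1979021107) (nat_lit 0) (nat_lit 3114970970) (nat_lit 1824) (nat_lit 1979021107) (nat_lit 526) (nat_lit 1) (nat_lit 501) (nat_lit 1) (nat_lit 525) (nat_lit 1) (nat_lit 324) (nat_lit 412) (nat_lit 404))) (XT.nd (nat_lit 78) (nat_lit 0) (nat_lit 76) (XT.lf (nat_lit 1900) (nat_lit 3725279716) (nat_lit 76) (nat_lit 1640004107) (nat_lit 0) (nat_lit 1640004107) (nat_lit 526) (nat_lit 1) (nat_lit 502) (nat_lit 1) (nat_lit 501) (nat_lit 1) (nat_lit 325) (nat_lit 412) (nat_lit 403)) (XT.lf (nat_lit 1900) (nat_lit 1736205230) (nat_lit 0) (nat_lit 3465996421) (nat_lit 1824) (nat_lit 1736205230) (nat_lit 527) (nat_lit 1) (nat_lit 502) (nat_lit 1) (nat_lit 526) (nat_lit 1) (nat_lit 326) (nat_lit 412) (nat_lit 402))))) (XT.nd (nat_lit 312) (nat_lit 0) (nat_lit 152) (XT.nd (nat_lit 156) (nat_lit 0) (nat_lit 76) (XT.nd (nat_lit 78) (nat_lit 0)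 (nat_lit 76) (XT.lf (nat_lit 1900) (nat_lit 3201696819) (nat_lit 76) (nat_lit 1835346649) (nat_lit 0) (nat_lit 1835346649) (nat_lit 527) (nat_lit 1) (nat_lit 503) (nat_lit 1) (nat_lit 502) (nat_lit 1) (nat_lit 327) (nat_lit 412) (nat_lit 401)) (XT.lf (nat_lit 1900) (nat_lit 1457543999) (nat_lit 0) (nat_lit 3892164051) (nat_lit 1824) (nat_lit 1457543999) (nat_lit 528) (nat_lit 1) (nat_lit 503) (nat_lit 1) (nat_lit 527) (nat_lit 1) (nat_lit 328) (nat_lit 412) (nat_lit 400))) (XT.nd (nat_lit 78) (nat_lit 0) (nat_lit 76) (XT.lf (nat_lit 1900) (nat_lit 2608492614) (nat_lit 76) (nat_lit 2067198248) (nat_lit 0) (nat_lit 2067198248) (nat_lit 528) (nat_lit 1) (nat_lit 504) (nat_lit 1) (nat_lit 503) (nat_lit 1) (nat_lit 329) (nat_lit 412) (nat_lit 399)) (XT.lf (nat_lit 1900) (nat_lit 1145317060) (nat_lit 0) (nat_lit 4388815351) (nat_lit 1824) (nat_lit 1145317060) (nat_lit 529) (nat_lit 1) (nat_lit 504) (nat_lit 1) (nat_lit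 528) (nat_lit 1) (nat_lit 330) (nat_lit 412) (nat_lit 398)))) (XT.nd (nat_lit 156) (nat_lit 0) (nat_lit 76) (XT.nd (nat_lit 78) (nat_lit 0) (nat_lit 76) (XT.lf (nat_lit 1900) (nat_lit 1950134360) (nat_lit 76) (nat_lit 2333276616) (nat_lit 0) (nat_lit 2333276616) (nat_lit 529) (nat_lit 1) (nat_lit 505) (nat_lit 1) (nat_lit 504) (nat_lit 1) (nat_lit 331) (nat_lit 412) (nat_lit 397)) (XT.lf (nat_lit 1900) (nat_lit 801698134) (nat_lit 0) (nat_lit 4951506840) (nat_lit 1824) (nat_lit 801698134) (nat_lit 530) (nat_lit 1) (nat_lit 505) (nat_lit 1) (nat_lit 529) (nat_lit 1) (nat_lit 332) (nat_lit 412) (nat_lit 396))) (XT.nd (nat_lit 78) (nat_lit 0) (nat_lit 76) (XT.lf (nat_lit 1900) (nat_lit 1230881260) (nat_lit 76) (nat_lit 2631405042) (nat_lit 0) (nat_lit 2631405042) (nat_lit 530) (nat_lit 1) (nat_lit 506) (nat_lit 1) (nat_lit 505) (nat_lit 1) (nat_lit 333) (nat_lit 412) (nat_lit 395)) (XT.lf (nat_lit 1900) (nat_lit 428759468)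 (nat_lit 0) (nat_lit 5576001042) (nat_lit 1824) (nat_lit 428759468) (nat_lit 531) (nat_lit 1) (nat_lit 506) (nat_lit 1) (nat_lit 530) (nat_lit 1) (nat_lit 334) (nat_lit 412) (nat_lit 394))))))))
noncomputable def ec45 : XT := (XT.nd (nat_lit 2418) (nat_lit 9956) (nat_lit 0) (XT.nd (nat_lit 1170) (nat_lit 6916) (nat_lit 0) (XT.nd (nat_lit 546) (nat_lit 4636) (nat_lit 0) (XT.nd (nat_lit 234) (nat_lit 0) (nat_lit 0) (XT.nd (nat_lit 78) (nat_lit 1824) (nat_lit 0) (XT.lf (nat_lit 1900) (nat_lit 454793225) (nat_lit 76) (nat_lit 2959507959) (nat_lit 0) (nat_lit 2959507959) (nat_lit 531) (nat_lit 1) (nat_lit 507) (nat_lit 1) (nat_lit 506) (nat_lit 1) (nat_lit 335) (nat_lit 412) (nat_lit 393)) (XT.nd (nat_lit 78) (nat_lit 1900) (nat_lit 0) (XT.lf (nat_lit 1900) (nat_lit 28476110) (nat_lit 0) (nat_lit 6258257833) (nat_lit 1824) (nat_lit 28476110) (nat_lit 532) (nat_lit 1) (nat_lit 507) (nat_lit 1) (nat_lit 531) (nat_lit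 1) (nat_lit 336) (nat_lit 412) (nat_lit 392)) (XT.lf (nat_lit 1976) (nat_lit 2943775913) (nat_lit 0) (nat_lit 369352231) (nat_lit 1900) (nat_lit 2943775913) (nat_lit 508) (nat_lit 1) (nat_lit 482) (nat_lit 1) (nat_lit 507) (nat_lit 1) (nat_lit 337) (nat_lit 412) (nat_lit 391)))) (XT.nd (nat_lit 156) (nat_lit 0) (nat_lit 76) (XT.nd (nat_lit 78) (nat_lit 0) (nat_lit 76) (XT.lf (nat_lit 1976) (nat_lit 5410366383) (nat_lit 76) (nat_lit 394656368) (nat_lit 0) (nat_lit 394656368) (nat_lit 508) (nat_lit 1) (nat_lit 483) (nat_lit 1) (nat_lit 482) (nat_lit 1) (nat_lit 338) (nat_lit 412) (nat_lit 390)) (XT.lf (nat_lit 1976) (nat_lit 2453353638) (nat_lit 0) (nat_lit 1236166410) (nat_lit 1900) (nat_lit 2453353638) (nat_lit 509) (nat_lit 1) (nat_lit 483) (nat_lit 1) (nat_lit 508) (nat_lit 1) (nat_lit 339) (nat_lit 412) (nat_lit 389))) (XT.nd (nat_lit 78) (nat_lit 0) (nat_lit 76) (XT.lf (nat_lit 1976) (nat_lit 4404791166) (nat_lit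 76) (nat_lit 841115728) (nat_lit 0) (nat_lit 841115728) (nat_lit 509) (nat_lit 1) (nat_lit 484) (nat_lit 1) (nat_lit 483) (nat_lit 1) (nat_lit 340) (nat_lit 412) (nat_lit 388)) (XT.lf (nat_lit 76) (nat_lit 1941772872) (nat_lit 0) (nat_lit 2148148955) (nat_lit 1900) (nat_lit 1941772872) (nat_lit 485) (nat_lit 1) (nat_lit 484) (nat_lit 1) (nat_lit 509) (nat_lit 1) (nat_lit 341) (nat_lit 412) (nat_lit 387))))) (XT.nd (nat_lit 312) (nat_lit 2736) (nat_lit 0) (XT.nd (nat_lit 156) (nat_lit 912) (nat_lit 0) (XT.nd (nat_lit 78) (nat_lit 0) (nat_lit 0) (XT.lf (nat_lit 1216) (nat_lit 3358388263) (nat_lit 0) (nat_lit 1309393133) (nat_lit 1140) (nat_lit 1309393133) (nat_lit 485) (nat_lit 1) (nat_lit 469) (nat_lit 1) (nat_lit 484) (nat_lit 1) (nat_lit 342) (nat_lit 412) (nat_lit 386)) (XT.lf (nat_lit 76) (nat_lit 1410643502) (nat_lit 0) (nat_lit 3102000279) (nat_lit 1216) (nat_lit 1410643502) (nat_lit 470) (nat_lit 1) (nat_lit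 469) (nat_lit 1) (nat_lit 485) (nat_lit 1) (nat_lit 343) (nat_lit 412) (nat_lit 385))) (XT.nd (nat_lit 78) (nat_lit 0) (nat_lit 0) (XT.lf (nat_lit 988) (nat_lit 2274309248) (nat_lit 0) (nat_lit 1797873624) (nat_lit 912) (nat_lit 1797873624) (nat_lit 470) (nat_lit 1) (nat_lit 457) (nat_lit 1) (nat_lit 469) (nat_lit 1) (nat_lit 344) (nat_lit 412) (nat_lit 384)) (XT.lf (nat_lit 76) (nat_lit 861497447) (nat_lit 0) (nat_lit 4094579230) (nat_lit 988) (nat_lit 861497447) (nat_lit 458) (nat_lit 1) (nat_lit 457) (nat_lit 1) (nat_lit 470) (nat_lit 1) (nat_lit 345) (nat_lit 412) (nat_lit 383)))) (XT.nd (nat_lit 156) (nat_lit 1824) (nat_lit 0) (XT.nd (nat_lit 78) (nat_lit 0) (nat_lit 0) (XT.lf (nat_lit 988) (nat_lit 1155552604) (nat_lit 0) (nat_lit 2305020008) (nat_lit 912) (nat_lit 2305020008) (nat_lit 458) (nat_lit 1) (nat_lit 445) (nat_lit 1) (nat_lit 457) (nat_lit 1) (nat_lit 346) (nat_lit 412) (nat_lit 382)) (XT.lf (nat_lit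 76) (nat_lit 295791983) (nat_lit 0) (nat_lit 5122896343) (nat_lit 988) (nat_lit 295791983) (nat_lit 446) (nat_lit 1) (nat_lit 445) (nat_lit 1) (nat_lit 458) (nat_lit 1) (nat_lit 347) (nat_lit 412) (nat_lit 381))) (XT.nd (nat_lit 78) (nat_lit 988) (nat_lit 0) (XT.lf (nat_lit 912) (nat_lit 4970273) (nat_lit 0) (nat_lit 2829369540) (nat_lit 836) (nat_lit 2829369540) (nat_lit 446) (nat_lit 1) (nat_lit 434) (nat_lit 1) (nat_lit 445) (nat_lit 1) (nat_lit 348) (nat_lit 412) (nat_lit 380)) (XT.lf (nat_lit 988) (nat_lit 5047361725) (nat_lit 0) (nat_lit 283211480) (nat_lit 912) (nat_lit 283211480) (nat_lit 434) (nat_lit 1) (nat_lit 421) (nat_lit 1) (nat_lit 433) (nat_lit 1) (nat_lit 349) (nat_lit 412) (nat_lit 379)))))) (XT.nd (nat_lit 624) (nat_lit 3648) (nat_lit 0) (XT.nd (nat_lit 312) (nat_lit 1596) (nat_lit 0) (XT.nd (nat_lit 156) (nat_lit 836) (nat_lit 0) (XT.nd (nat_lit 78) (nat_lit 836) (nat_lit 0) (XT.lf (nat_lit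 76) (nat_lit 2202431782) (nat_lit 0) (nat_lit 1159319318) (nat_lit 988) (nat_lit 2202431782) (nat_lit 422) (nat_lit 1) (nat_lit 421) (nat_lit 1) (nat_lit 434) (nat_lit 1) (nat_lit 350) (nat_lit 412) (nat_lit 378)) (XT.lf (nat_lit 912) (nat_lit 3767336308) (nat_lit 0) (nat_lit 874033903) (nat_lit 836) (nat_lit 874033903) (nat_lit 422) (nat_lit 1) (nat_lit 410) (nat_lit 1) (nat_lit 421) (nat_lit 1) (nat_lit 351) (nat_lit 412) (nat_lit 377))) (XT.nd (nat_lit 78) (nat_lit 836) (nat_lit 0) (XT.lf (nat_lit 76) (nat_lit 1558680169) (nat_lit 0) (nat_lit 2349732254) (nat_lit 912) (nat_lit 1558680169) (nat_lit 411) (nat_lit 1) (nat_lit 410) (nat_lit 1) (nat_lit 422) (nat_lit 1) (nat_lit 352) (nat_lit 412) (nat_lit 376)) (XT.lf (nat_lit 912) (nat_lit 2464670229) (nat_lit 0) (nat_lit 1477377505) (nat_lit 836) (nat_lit 1477377505) (nat_lit 411) (nat_lit 1) (nat_lit 399) (nat_lit 1) (nat_lit 410) (nat_lit 1) (nat_lit 353) (nat_lit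 412) (nat_lit 375)))) (XT.nd (nat_lit 156) (nat_lit 836) (nat_lit 0) (XT.nd (nat_lit 78) (nat_lit 760) (nat_lit 0) (XT.lf (nat_lit 76) (nat_lit 904227823) (nat_lit 0) (nat_lit 3563916851) (nat_lit 912) (nat_lit 904227823) (nat_lit 400) (nat_lit 1) (nat_lit 399) (nat_lit 1) (nat_lit 411) (nat_lit 1) (nat_lit 354) (nat_lit 412) (nat_lit 374)) (XT.lf (nat_lit 836) (nat_lit 1141661196) (nat_lit 0) (nat_lit 2092060710) (nat_lit 760) (nat_lit 2092060710) (nat_lit 400) (nat_lit 1) (nat_lit 389) (nat_lit 1) (nat_lit 399) (nat_lit 1) (nat_lit 355) (nat_lit 412) (nat_lit 373))) (XT.nd (nat_lit 78) (nat_lit 836) (nat_lit 0) (XT.lf (nat_lit 76) (nat_lit 240190238) (nat_lit 0) (nat_lit 4799577537) (nat_lit 836) (nat_lit 240190238) (nat_lit 390) (nat_lit 1) (nat_lit 389) (nat_lit 1) (nat_lit 400) (nat_lit 1) (nat_lit 356) (nat_lit 412) (nat_lit 372)) (XT.lf (nat_lit 76) (nat_lit 2518746686) (nat_lit 0) (nat_lit 196893512) (nat_lit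 836) (nat_lit 2518746686) (nat_lit 379) (nat_lit 1) (nat_lit 378) (nat_lit 1) (nat_lit 389) (nat_lit 1) (nat_lit 357) (nat_lit 412) (nat_lit 371))))) (XT.nd (nat_lit 312) (nat_lit 2128) (nat_lit 0) (XT.nd (nat_lit 156) (nat_lit 760) (nat_lit 0) (XT.nd (nat_lit 78) (nat_lit 0) (nat_lit 0) (XT.lf (nat_lit 836) (nat_lit 4330502044) (nat_lit 0) (nat_lit 429529571) (nat_lit 760) (nat_lit 429529571) (nat_lit 379) (nat_lit 1) (nat_lit 368) (nat_lit 1) (nat_lit 378) (nat_lit 1) (nat_lit 358) (nat_lit 412) (nat_lit 370)) (XT.lf (nat_lit 76) (nat_lit 1804347234) (nat_lit 0) (nat_lit 1536357624) (nat_lit 836) (nat_lit 1804347234) (nat_lit 369) (nat_lit 1) (nat_lit 368) (nat_lit 1) (nat_lit 379) (nat_lit 1) (nat_lit 359) (nat_lit 412) (nat_lit 369))) (XT.nd (nat_lit 78) (nat_lit 0) (nat_lit 0) (XT.lf (nat_lit 836) (nat_lit 2890932367) (nat_lit 0) (nat_lit 1105142585) (nat_lit 760) (nat_lit 1105142585) (nat_lit 369) (nat_lit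 1) (nat_lit 358) (nat_lit 1) (nat_lit 368) (nat_lit 1) (nat_lit 360) (nat_lit 412) (nat_lit 368)) (XT.lf (nat_lit 76) (nat_lit 1084049392) (nat_lit 0) (nat_lit 2889768302) (nat_lit 836) (nat_lit 1084049392) (nat_lit 359) (nat_lit 1) (nat_lit 358) (nat_lit 1) (nat_lit 369) (nat_lit 1) (nat_lit 361) (nat_lit 412) (nat_lit 367)))) (XT.nd (nat_lit 156) (nat_lit 1444) (nat_lit 0) (XT.nd (nat_lit 78) (nat_lit 0) (nat_lit 0) (XT.lf (nat_lit 760) (nat_lit 1440426777) (nat_lit 0) (nat_lit 1787283546) (nat_lit 684) (nat_lit 1787283546) (nat_lit 359) (nat_lit 1) (nat_lit 349) (nat_lit 1) (nat_lit 358) (nat_lit 1) (nat_lit 362) (nat_lit 412) (nat_lit 366)) (XT.lf (nat_lit 76) (nat_lit 358741798) (nat_lit 0) (nat_lit 4255290660) (nat_lit 760) (nat_lit 358741798) (nat_lit 350) (nat_lit 1) (nat_lit 349) (nat_lit 1) (nat_lit 359) (nat_lit 1) (nat_lit 363) (nat_lit 412) (nat_lit 365))) (XT.nd (nat_lit 78) (nat_lit 684) (nat_lit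 0) (XT.lf (nat_lit 76) (nat_lit 2455902173) (nat_lit 0) (nat_lit 19026703) (nat_lit 760) (nat_lit 2455902173) (nat_lit 340) (nat_lit 1) (nat_lit 339) (nat_lit 1) (nat_lit 349) (nat_lit 1) (nat_lit 364) (nat_lit 412) (nat_lit 364)) (XT.lf (nat_lit 760) (nat_lit 4152933894) (nat_lit 0) (nat_lit 368295308) (nat_lit 684) (nat_lit 368295308) (nat_lit 340) (nat_lit 1) (nat_lit 330) (nat_lit 1) (nat_lit 339) (nat_lit 1) (nat_lit 365) (nat_lit 412) (nat_lit 363))))))) (XT.nd (nat_lit 1170) (nat_lit 5016) (nat_lit 0) (XT.nd (nat_lit 546) (nat_lit 2356) (nat_lit 0) (XT.nd (nat_lit 234) (nat_lit 1900) (nat_lit 0) (XT.nd (nat_lit 78) (nat_lit 684) (nat_lit 0) (XT.lf (nat_lit 76) (nat_lit 1690720190) (nat_lit 0) (nat_lit 1467048249) (nat_lit 760) (nat_lit 1690720190) (nat_lit 331) (nat_lit 1) (nat_lit 330) (nat_lit 1) (nat_lit 340) (nat_lit 1) (nat_lit 366) (nat_lit 412) (nat_lit 362)) (XT.nd (nat_lit 78) (nat_lit 0) (nat_lit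 0) (XT.lf (nat_lit 760) (nat_lit 2615422557) (nat_lit 0) (nat_lit 1096322784) (nat_lit 684) (nat_lit 1096322784) (nat_lit 331) (nat_lit 1) (nat_lit 321) (nat_lit 1) (nat_lit 330) (nat_lit 1) (nat_lit 367) (nat_lit 412) (nat_lit 361)) (XT.lf (nat_lit 76) (nat_lit 923552006) (nat_lit 0) (nat_lit 2920996548) (nat_lit 760) (nat_lit 923552006) (nat_lit 322) (nat_lit 1) (nat_lit 321) (nat_lit 1) (nat_lit 331) (nat_lit 1) (nat_lit 368) (nat_lit 412) (nat_lit 360)))) (XT.nd (nat_lit 156) (nat_lit 1292) (nat_lit 0) (XT.nd (nat_lit 78) (nat_lit 0) (nat_lit 0) (XT.lf (nat_lit 684) (nat_lit 1074633455) (nat_lit 0) (nat_lit 1826953206) (nat_lit 608) (nat_lit 1826953206) (nat_lit 322) (nat_lit 1) (nat_lit 313) (nat_lit 1) (nat_lit 321) (nat_lit 1) (nat_lit 369) (nat_lit 412) (nat_lit 359)) (XT.lf (nat_lit 76) (nat_lit 155096300) (nat_lit 0) (nat_lit 4379422729) (nat_lit 684) (nat_lit 155096300) (nat_lit 314) (nat_lit 1) (nat_lit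 313) (nat_lit 1) (nat_lit 322) (nat_lit 1) (nat_lit 370) (nat_lit 412) (nat_lit 358))) (XT.nd (nat_lit 78) (nat_lit 608) (nat_lit 0) (XT.lf (nat_lit 76) (nat_lit 2094447963) (nat_lit 0) (nat_lit 461932370) (nat_lit 684) (nat_lit 2094447963) (nat_lit 305) (nat_lit 1) (nat_lit 304) (nat_lit 1) (nat_lit 313) (nat_lit 1) (nat_lit 371) (nat_lit 412) (nat_lit 357)) (XT.lf (nat_lit 684) (nat_lit 3392766610) (nat_lit 0) (nat_lit 609948175) (nat_lit 608) (nat_lit 609948175) (nat_lit 305) (nat_lit 1) (nat_lit 296) (nat_lit 1) (nat_lit 304) (nat_lit 1) (nat_lit 372) (nat_lit 412) (nat_lit 356))))) (XT.nd (nat_lit 312) (nat_lit 1216) (nat_lit 0) (XT.nd (nat_lit 156) (nat_lit 532) (nat_lit 0) (XT.nd (nat_lit 78) (nat_lit 608) (nat_lit 0) (XT.lf (nat_lit 76) (nat_lit 1294889510) (nat_lit 0) (nat_lit 1985026382) (nat_lit 684) (nat_lit 1294889510) (nat_lit 297) (nat_lit 1) (nat_lit 296) (nat_lit 1) (nat_lit 305) (nat_lit 1) (nat_lit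 373) (nat_lit 412) (nat_lit 355)) (XT.lf (nat_lit 684) (nat_lit 1789476900) (nat_lit 0) (nat_lit 1373978591) (nat_lit 608) (nat_lit 1373978591) (nat_lit 297) (nat_lit 1) (nat_lit 288) (nat_lit 1) (nat_lit 296) (nat_lit 1) (nat_lit 374) (nat_lit 412) (nat_lit 354))) (XT.nd (nat_lit 78) (nat_lit 532) (nat_lit 0) (XT.lf (nat_lit 76) (nat_lit 496508069) (nat_lit 0) (nat_lit 3507547026) (nat_lit 684) (nat_lit 496508069) (nat_lit 289) (nat_lit 1) (nat_lit 288) (nat_lit 1) (nat_lit 297) (nat_lit 1) (nat_lit 375) (nat_lit 412) (nat_lit 353)) (XT.lf (nat_lit 608) (nat_lit 189096286) (nat_lit 0) (nat_lit 2137433224) (nat_lit 532) (nat_lit 2137433224) (nat_lit 289) (nat_lit 1) (nat_lit 281) (nat_lit 1) (nat_lit 288) (nat_lit 1) (nat_lit 376) (nat_lit 412) (nat_lit 352)))) (XT.nd (nat_lit 156) (nat_lit 532) (nat_lit 0) (XT.nd (nat_lit 78) (nat_lit 0) (nat_lit 0) (XT.lf (nat_lit 684) (nat_lit 3831535682) (nat_lit 0) (nat_lit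 298181648) (nat_lit 608) (nat_lit 298181648) (nat_lit 281) (nat_lit 1) (nat_lit 272) (nat_lit 1) (nat_lit 280) (nat_lit 1) (nat_lit 377) (nat_lit 412) (nat_lit 351)) (XT.lf (nat_lit 76) (nat_lit 1501576781) (nat_lit 0) (nat_lit 1388867181) (nat_lit 684) (nat_lit 1501576781) (nat_lit 273) (nat_lit 1) (nat_lit 272) (nat_lit 1) (nat_lit 281) (nat_lit 1) (nat_lit 378) (nat_lit 412) (nat_lit 350))) (XT.nd (nat_lit 78) (nat_lit 0) (nat_lit 0) (XT.lf (nat_lit 608) (nat_lit 2181876948) (nat_lit 0) (nat_lit 1087394947) (nat_lit 532) (nat_lit 1087394947) (nat_lit 273) (nat_lit 1) (nat_lit 265) (nat_lit 1) (nat_lit 272) (nat_lit 1) (nat_lit 379) (nat_lit 412) (nat_lit 349)) (XT.lf (nat_lit 76) (nat_lit 681127139) (nat_lit 0) (nat_lit 2959468551) (nat_lit 608) (nat_lit 681127139) (nat_lit 266) (nat_lit 1) (nat_lit 265) (nat_lit 1) (nat_lit 273) (nat_lit 1) (nat_lit 380) (nat_lit 412) (nat_lit 348)))))) (XT.nd (nat_lit 624)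 (nat_lit 2280) (nat_lit 0) (XT.nd (nat_lit 312) (nat_lit 1064) (nat_lit 0) (XT.nd (nat_lit 156) (nat_lit 532) (nat_lit 0) (XT.nd (nat_lit 78) (nat_lit 608) (nat_lit 0) (XT.lf (nat_lit 608) (nat_lit 539232455) (nat_lit 0) (nat_lit 1873924885) (nat_lit 532) (nat_lit 1873924885) (nat_lit 266) (nat_lit 1) (nat_lit 258) (nat_lit 1) (nat_lit 265) (nat_lit 1) (nat_lit 381) (nat_lit 412) (nat_lit 347)) (XT.lf (nat_lit 608) (nat_lit 3983541752) (nat_lit 0) (nat_lit 134719200) (nat_lit 532) (nat_lit 134719200) (nat_lit 258) (nat_lit 1) (nat_lit 250) (nat_lit 1) (nat_lit 257) (nat_lit 1) (nat_lit 382) (nat_lit 412) (nat_lit 346))) (XT.nd (nat_lit 78) (nat_lit 532) (nat_lit 0) (XT.lf (nat_lit 76) (nat_lit 1568888762) (nat_lit 0) (nat_lit 1081183300) (nat_lit 608) (nat_lit 1568888762) (nat_lit 251) (nat_lit 1) (nat_lit 250) (nat_lit 1) (nat_lit 258) (nat_lit 1) (nat_lit 383) (nat_lit 412) (nat_lit 345)) (XT.lf (nat_lit 608)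 (nat_lit 2301483861) (nat_lit 0) (nat_lit 941992605) (nat_lit 532) (nat_lit 941992605) (nat_lit 251) (nat_lit 1) (nat_lit 243) (nat_lit 1) (nat_lit 250) (nat_lit 1) (nat_lit 384) (nat_lit 412) (nat_lit 344)))) (XT.nd (nat_lit 156) (nat_lit 608) (nat_lit 0) (XT.nd (nat_lit 78) (nat_lit 456) (nat_lit 0) (XT.lf (nat_lit 76) (nat_lit 733173249) (nat_lit 0) (nat_lit 2685988665) (nat_lit 608) (nat_lit 733173249) (nat_lit 244) (nat_lit 1) (nat_lit 243) (nat_lit 1) (nat_lit 251) (nat_lit 1) (nat_lit 385) (nat_lit 412) (nat_lit 343)) (XT.lf (nat_lit 532) (nat_lit 629913399) (nat_lit 0) (nat_lit 1744795525) (nat_lit 456) (nat_lit 1744795525) (nat_lit 244) (nat_lit 1) (nat_lit 237) (nat_lit 1) (nat_lit 243) (nat_lit 1) (nat_lit 386) (nat_lit 412) (nat_lit 342))) (XT.nd (nat_lit 78) (nat_lit 0) (nat_lit 0) (XT.lf (nat_lit 608) (nat_lit 3894172617) (nat_lit 0) (nat_lit 96506217) (nat_lit 532) (nat_lit 96506217) (nat_lit 237)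 (nat_lit 1) (nat_lit 229) (nat_lit 1) (nat_lit 236) (nat_lit 1) (nat_lit 387) (nat_lit 412) (nat_lit 341)) (XT.lf (nat_lit 76) (nat_lit 1518963461) (nat_lit 0) (nat_lit 1016986580) (nat_lit 608) (nat_lit 1518963461) (nat_lit 230) (nat_lit 1) (nat_lit 229) (nat_lit 1) (nat_lit 237) (nat_lit 1) (nat_lit 388) (nat_lit 412) (nat_lit 340))))) (XT.nd (nat_lit 312) (nat_lit 836) (nat_lit 0) (XT.nd (nat_lit 156) (nat_lit 988) (nat_lit 0) (XT.nd (nat_lit 78) (nat_lit 0) (nat_lit 0) (XT.lf (nat_lit 532) (nat_lit 2191779659) (nat_lit 0) (nat_lit 915681940) (nat_lit 456) (nat_lit 915681940) (nat_lit 230) (nat_lit 1) (nat_lit 223) (nat_lit 1) (nat_lit 229) (nat_lit 1) (nat_lit 389) (nat_lit 412) (nat_lit 339)) (XT.lf (nat_lit 76) (nat_lit 673854210) (nat_lit 0) (nat_lit 2644003487) (nat_lit 532) (nat_lit 673854210) (nat_lit 224) (nat_lit 1) (nat_lit 223) (nat_lit 1) (nat_lit 230) (nat_lit 1) (nat_lit 390) (nat_lit 412) (nat_lit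 338))) (XT.nd (nat_lit 78) (nat_lit 532) (nat_lit 0) (XT.lf (nat_lit 532) (nat_lit 502792840) (nat_lit 0) (nat_lit 1728881334) (nat_lit 456) (nat_lit 1728881334) (nat_lit 224) (nat_lit 1) (nat_lit 217) (nat_lit 1) (nat_lit 223) (nat_lit 1) (nat_lit 391) (nat_lit 412) (nat_lit 337)) (XT.lf (nat_lit 532) (nat_lit 3603137228) (nat_lit 0) (nat_lit 163360901) (nat_lit 456) (nat_lit 163360901) (nat_lit 217) (nat_lit 1) (nat_lit 210) (nat_lit 1) (nat_lit 216) (nat_lit 1) (nat_lit 392) (nat_lit 412) (nat_lit 336)))) (XT.nd (nat_lit 156) (nat_lit 380) (nat_lit 0) (XT.nd (nat_lit 78) (nat_lit 456) (nat_lit 0) (XT.lf (nat_lit 76) (nat_lit 1371166033) (nat_lit 0) (nat_lit 1156900489) (nat_lit 532) (nat_lit 1371166033) (nat_lit 211) (nat_lit 1) (nat_lit 210) (nat_lit 1) (nat_lit 217) (nat_lit 1) (nat_lit 393) (nat_lit 412) (nat_lit 335)) (XT.lf (nat_lit 532) (nat_lit 1890794249) (nat_lit 0) (nat_lit 989131555) (nat_lit 456)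 (nat_lit 989131555) (nat_lit 211) (nat_lit 1) (nat_lit 204) (nat_lit 1) (nat_lit 210) (nat_lit 1) (nat_lit 394) (nat_lit 412) (nat_lit 334))) (XT.nd (nat_lit 78) (nat_lit 380) (nat_lit 0) (XT.lf (nat_lit 76) (nat_lit 521715718) (nat_lit 0) (nat_lit 2795796872) (nat_lit 532) (nat_lit 521715718) (nat_lit 205) (nat_lit 1) (nat_lit 204) (nat_lit 1) (nat_lit 211) (nat_lit 1) (nat_lit 395) (nat_lit 412) (nat_lit 333)) (XT.lf (nat_lit 456) (nat_lit 194290179) (nat_lit 0) (nat_lit 1807666653) (nat_lit 380) (nat_lit 1807666653) (nat_lit 205) (nat_lit 1) (nat_lit 199) (nat_lit 1) (nat_lit 204) (nat_lit 1) (nat_lit 396) (nat_lit 412) (nat_lit 332))))))))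
noncomputable def ec46 : XT := (XT.nd (nat_lit 54834) (nat_lit 0) (nat_lit 10868) (XT.nd (nat_lit 53586) (nat_lit 0) (nat_lit 24396) (XT.nd (nat_lit 546) (nat_lit 1140) (nat_lit 0) (XT.nd (nat_lit 234) (nat_lit 836) (nat_lit 0) (XT.nd (nat_lit 78) (nat_lit 380) (nat_lit 0) (XT.lf (nat_lit 532) (nat_lit 3145126504) (nat_lit 0) (nat_lit 317640390) (nat_lit 456) (nat_lit 317640390) (nat_lit 199) (nat_lit 1) (nat_lit 192) (nat_lit 1) (nat_lit 198) (nat_lit 1) (nat_lit 397) (nat_lit 412) (nat_lit 331)) (XT.nd (nat_lit 78) (nat_lit 380) (nat_lit 0) (XT.lf (nat_lit 76) (nat_lit 1142411553) (nat_lit 0) (nat_lit 1466507704) (nat_lit 532) (nat_lit 1142411553) (nat_lit 193) (nat_lit 1) (nat_lit 192) (nat_lit 1) (nat_lit 199) (nat_lit 1) (nat_lit 398) (nat_lit 412) (nat_lit 330)) (XT.lf (nat_lit 456) (nat_lit 1431740326) (nat_lit 0) (nat_lit 1145447479) (nat_lit 380) (nat_lit 1145447479) (nat_lit 193) (nat_lit 1) (nat_lit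 187) (nat_lit 1) (nat_lit 192) (nat_lit 1) (nat_lit 399) (nat_lit 412) (nat_lit 329)))) (XT.nd (nat_lit 156) (nat_lit 380) (nat_lit 0) (XT.nd (nat_lit 78) (nat_lit 456) (nat_lit 0) (XT.lf (nat_lit 76) (nat_lit 292951467) (nat_lit 0) (nat_lit 3108413567) (nat_lit 456) (nat_lit 292951467) (nat_lit 188) (nat_lit 1) (nat_lit 187) (nat_lit 1) (nat_lit 193) (nat_lit 1) (nat_lit 400) (nat_lit 412) (nat_lit 328)) (XT.lf (nat_lit 76) (nat_lit 1702889015) (nat_lit 0) (nat_lit 260339720) (nat_lit 456) (nat_lit 1702889015) (nat_lit 182) (nat_lit 1) (nat_lit 181) (nat_lit 1) (nat_lit 187) (nat_lit 1) (nat_lit 401) (nat_lit 412) (nat_lit 327))) (XT.nd (nat_lit 78) (nat_lit 0) (nat_lit 0) (XT.lf (nat_lit 456) (nat_lit 2550399136) (nat_lit 0) (nat_lit 543944758) (nat_lit 380) (nat_lit 543944758) (nat_lit 182) (nat_lit 1) (nat_lit 176) (nat_lit 1) (nat_lit 181) (nat_lit 1) (nat_lit 402) (nat_lit 412) (nat_lit 326)) (XT.lf (nat_lit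 76) (nat_lit 847451158) (nat_lit 0) (nat_lit 1915771729) (nat_lit 456) (nat_lit 847451158) (nat_lit 177) (nat_lit 1) (nat_lit 176) (nat_lit 1) (nat_lit 182) (nat_lit 1) (nat_lit 403) (nat_lit 412) (nat_lit 325))))) (XT.nd (nat_lit 312) (nat_lit 0) (nat_lit 0) (XT.nd (nat_lit 156) (nat_lit 760) (nat_lit 0) (XT.nd (nat_lit 78) (nat_lit 0) (nat_lit 0) (XT.lf (nat_lit 456) (nat_lit 843576184) (nat_lit 0) (nat_lit 1369888793) (nat_lit 380) (nat_lit 1369888793) (nat_lit 177) (nat_lit 1) (nat_lit 171) (nat_lit 1) (nat_lit 176) (nat_lit 1) (nat_lit 404) (nat_lit 412) (nat_lit 324)) (XT.lf (nat_lit 76) (nat_lit 1678061) (nat_lit 0) (nat_lit 3553103522) (nat_lit 456) (nat_lit 1678061) (nat_lit 172) (nat_lit 1) (nat_lit 171) (nat_lit 1) (nat_lit 177) (nat_lit 1) (nat_lit 405) (nat_lit 412) (nat_lit 323))) (XT.nd (nat_lit 78) (nat_lit 380) (nat_lit 0) (XT.lf (nat_lit 76) (nat_lit 1348413176) (nat_lit 0) (nat_lit 832698590)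 (nat_lit 380) (nat_lit 1348413176) (nat_lit 167) (nat_lit 1) (nat_lit 166) (nat_lit 1) (nat_lit 171) (nat_lit 1) (nat_lit 406) (nat_lit 412) (nat_lit 322)) (XT.lf (nat_lit 456) (nat_lit 1845300806) (nat_lit 0) (nat_lit 828854645) (nat_lit 380) (nat_lit 828854645) (nat_lit 167) (nat_lit 1) (nat_lit 161) (nat_lit 1) (nat_lit 166) (nat_lit 1) (nat_lit 407) (nat_lit 412) (nat_lit 321)))) (XT.nd (nat_lit 52572) (nat_lit 0) (nat_lit 25764) (XT.nd (nat_lit 52494) (nat_lit 0) (nat_lit 25764) (XT.lf (nat_lit 76) (nat_lit 499125652) (nat_lit 0) (nat_lit 2478524226) (nat_lit 456) (nat_lit 499125652) (nat_lit 162) (nat_lit 1) (nat_lit 161) (nat_lit 1) (nat_lit 167) (nat_lit 1) (nat_lit 408) (nat_lit 412) (nat_lit 320)) (XT.lf (nat_lit 1900) (nat_lit 2227273439) (nat_lit 0) (nat_lit 2900850041) (nat_lit 1824) (nat_lit 2227273439) (nat_lit 525) (nat_lit 1) (nat_lit 500) (nat_lit 1) (nat_lit 524) (nat_lit 1) (nat_lit 320) (nat_lit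 413) (nat_lit 407))) (XT.nd (nat_lit 78) (nat_lit 0) (nat_lit 76) (XT.lf (nat_lit 1900) (nat_lit 4258048006) (nat_lit 76) (nat_lit 1513234367) (nat_lit 0) (nat_lit 1513234367) (nat_lit 525) (nat_lit 1) (nat_lit 501) (nat_lit 1) (nat_lit 500) (nat_lit 1) (nat_lit 321) (nat_lit 413) (nat_lit 406)) (XT.lf (nat_lit 1900) (nat_lit 2018601529) (nat_lit 0) (nat_lit 3177270389) (nat_lit 1824) (nat_lit 2018601529) (nat_lit 526) (nat_lit 1) (nat_lit 501) (nat_lit 1) (nat_lit 525) (nat_lit 1) (nat_lit 322) (nat_lit 413) (nat_lit 405)))))) (XT.nd (nat_lit 624) (nat_lit 1444) (nat_lit 0) (XT.nd (nat_lit 312) (nat_lit 0) (nat_lit 152) (XT.nd (nat_lit 156) (nat_lit 0) (nat_lit 76) (XT.nd (nat_lit 78) (nat_lit 0) (nat_lit 76) (XT.lf (nat_lit 1900) (nat_lit 3799785310) (nat_lit 76) (nat_lit 1672804189) (nat_lit 0) (nat_lit 1672804189) (nat_lit 526) (nat_lit 1) (nat_lit 502) (nat_lit 1) (nat_lit 501) (nat_lit 1) (nat_lit 323) (nat_lit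 413) (nat_lit 404)) (XT.lf (nat_lit 1900) (nat_lit 1770929335) (nat_lit 0) (nat_lit 3535316349) (nat_lit 1824) (nat_lit 1770929335) (nat_lit 527) (nat_lit 1) (nat_lit 502) (nat_lit 1) (nat_lit 526) (nat_lit 1) (nat_lit 324) (nat_lit 413) (nat_lit 403))) (XT.nd (nat_lit 78) (nat_lit 0) (nat_lit 76) (XT.lf (nat_lit 1900) (nat_lit 3265730756) (nat_lit 76) (nat_lit 1872053582) (nat_lit 0) (nat_lit 1872053582) (nat_lit 527) (nat_lit 1) (nat_lit 503) (nat_lit 1) (nat_lit 502) (nat_lit 1) (nat_lit 325) (nat_lit 413) (nat_lit 402)) (XT.lf (nat_lit 1900) (nat_lit 1486694879) (nat_lit 0) (nat_lit 3970007332) (nat_lit 1824) (nat_lit 1486694879) (nat_lit 528) (nat_lit 1) (nat_lit 503) (nat_lit 1) (nat_lit 527) (nat_lit 1) (nat_lit 326) (nat_lit 413) (nat_lit 401)))) (XT.nd (nat_lit 156) (nat_lit 0) (nat_lit 76) (XT.nd (nat_lit 78) (nat_lit 0) (nat_lit 76) (XT.lf (nat_lit 1900) (nat_lit 2660662467) (nat_lit 76) (nat_lit 2108542213)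 (nat_lit 0) (nat_lit 2108542213) (nat_lit 528) (nat_lit 1) (nat_lit 504) (nat_lit 1) (nat_lit 503) (nat_lit 1) (nat_lit 327) (nat_lit 413) (nat_lit 400)) (XT.lf (nat_lit 1900) (nat_lit 1168223401) (nat_lit 0) (nat_lit 4476591658) (nat_lit 1824) (nat_lit 1168223401) (nat_lit 529) (nat_lit 1) (nat_lit 504) (nat_lit 1) (nat_lit 528) (nat_lit 1) (nat_lit 328) (nat_lit 413) (nat_lit 399))) (XT.nd (nat_lit 78) (nat_lit 0) (nat_lit 76) (XT.lf (nat_lit 1900) (nat_lit 1989137047) (nat_lit 76) (nat_lit 2379942148) (nat_lit 0) (nat_lit 2379942148) (nat_lit 529) (nat_lit 1) (nat_lit 505) (nat_lit 1) (nat_lit 504) (nat_lit 1) (nat_lit 329) (nat_lit 413) (nat_lit 398)) (XT.lf (nat_lit 1900) (nat_lit 817732097) (nat_lit 0) (nat_lit 5050536976) (nat_lit 1824) (nat_lit 817732097) (nat_lit 530) (nat_lit 1) (nat_lit 505) (nat_lit 1) (nat_lit 529) (nat_lit 1) (nat_lit 330) (nat_lit 413) (nat_lit 397))))) (XT.nd (nat_lit 312) (nat_lit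 1748) (nat_lit 0) (XT.nd (nat_lit 156) (nat_lit 0) (nat_lit 76) (XT.nd (nat_lit 78) (nat_lit 0) (nat_lit 76) (XT.lf (nat_lit 1900) (nat_lit 1255498885) (nat_lit 76) (nat_lit 2684033143) (nat_lit 0) (nat_lit 2684033143) (nat_lit 530) (nat_lit 1) (nat_lit 506) (nat_lit 1) (nat_lit 505) (nat_lit 1) (nat_lit 331) (nat_lit 413) (nat_lit 396)) (XT.lf (nat_lit 1900) (nat_lit 437334657) (nat_lit 0) (nat_lit 5687521063) (nat_lit 1824) (nat_lit 437334657) (nat_lit 531) (nat_lit 1) (nat_lit 506) (nat_lit 1) (nat_lit 530) (nat_lit 1) (nat_lit 332) (nat_lit 413) (nat_lit 395))) (XT.nd (nat_lit 78) (nat_lit 0) (nat_lit 76) (XT.lf (nat_lit 1900) (nat_lit 463889089) (nat_lit 76) (nat_lit 3018698118) (nat_lit 0) (nat_lit 3018698118) (nat_lit 531) (nat_lit 1) (nat_lit 507) (nat_lit 1) (nat_lit 506) (nat_lit 1) (nat_lit 333) (nat_lit 413) (nat_lit 394)) (XT.lf (nat_lit 1900) (nat_lit 29045632) (nat_lit 0) (nat_lit 6383422990) (nat_lit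 1824) (nat_lit 29045632) (nat_lit 532) (nat_lit 1) (nat_lit 507) (nat_lit 1) (nat_lit 531) (nat_lit 1) (nat_lit 334) (nat_lit 413) (nat_lit 393)))) (XT.nd (nat_lit 156) (nat_lit 0) (nat_lit 76) (XT.nd (nat_lit 78) (nat_lit 0) (nat_lit 0) (XT.lf (nat_lit 1976) (nat_lit 3002651431) (nat_lit 0) (nat_lit 376739276) (nat_lit 1900) (nat_lit 3002651431) (nat_lit 508) (nat_lit 1) (nat_lit 482) (nat_lit 1) (nat_lit 507) (nat_lit 1) (nat_lit 335) (nat_lit 413) (nat_lit 392)) (XT.lf (nat_lit 1976) (nat_lit 5518573711) (nat_lit 76) (nat_lit 402549496) (nat_lit 0) (nat_lit 402549496) (nat_lit 508) (nat_lit 1) (nat_lit 483) (nat_lit 1) (nat_lit 482) (nat_lit 1) (nat_lit 336) (nat_lit 413) (nat_lit 391))) (XT.nd (nat_lit 78) (nat_lit 0) (nat_lit 0) (XT.lf (nat_lit 1976) (nat_lit 2502420711) (nat_lit 0) (nat_lit 1260889739) (nat_lit 1900) (nat_lit 2502420711) (nat_lit 509) (nat_lit 1) (nat_lit 483) (nat_lit 1) (nat_lit 508) (nat_lit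 1) (nat_lit 337) (nat_lit 413) (nat_lit 390)) (XT.lf (nat_lit 1976) (nat_lit 4492886989) (nat_lit 76) (nat_lit 857938043) (nat_lit 0) (nat_lit 857938043) (nat_lit 509) (nat_lit 1) (nat_lit 484) (nat_lit 1) (nat_lit 483) (nat_lit 1) (nat_lit 338) (nat_lit 413) (nat_lit 389))))))) (XT.nd (nat_lit 1170) (nat_lit 6460) (nat_lit 0) (XT.nd (nat_lit 546) (nat_lit 4256) (nat_lit 0) (XT.nd (nat_lit 234) (nat_lit 1824) (nat_lit 0) (XT.nd (nat_lit 78) (nat_lit 1140) (nat_lit 0) (XT.lf (nat_lit 76) (nat_lit 1980608330) (nat_lit 0) (nat_lit 2191111934) (nat_lit 1900) (nat_lit 1980608330) (nat_lit 485) (nat_lit 1) (nat_lit 484) (nat_lit 1) (nat_lit 509) (nat_lit 1) (nat_lit 339) (nat_lit 413) (nat_lit 388)) (XT.nd (nat_lit 78) (nat_lit 0) (nat_lit 0) (XT.lf (nat_lit 1216) (nat_lit 3425556028) (nat_lit 0) (nat_lit 1335580996) (nat_lit 1140) (nat_lit 1335580996) (nat_lit 485) (nat_lit 1) (nat_lit 469) (nat_lit 1) (nat_lit 484)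 (nat_lit 1) (nat_lit 340) (nat_lit 413) (nat_lit 387)) (XT.lf (nat_lit 76) (nat_lit 1438856372) (nat_lit 0) (nat_lit 3164040285) (nat_lit 1216) (nat_lit 1438856372) (nat_lit 470) (nat_lit 1) (nat_lit 469) (nat_lit 1) (nat_lit 485) (nat_lit 1) (nat_lit 341) (nat_lit 413) (nat_lit 386)))) (XT.nd (nat_lit 156) (nat_lit 912) (nat_lit 0) (XT.nd (nat_lit 78) (nat_lit 0) (nat_lit 0) (XT.lf (nat_lit 988) (nat_lit 2319795433) (nat_lit 0) (nat_lit 1833831097) (nat_lit 912) (nat_lit 1833831097) (nat_lit 470) (nat_lit 1) (nat_lit 457) (nat_lit 1) (nat_lit 469) (nat_lit 1) (nat_lit 342) (nat_lit 413) (nat_lit 385)) (XT.lf (nat_lit 76) (nat_lit 878727395) (nat_lit 0) (nat_lit 4176470815) (nat_lit 988) (nat_lit 878727395) (nat_lit 458) (nat_lit 1) (nat_lit 457) (nat_lit 1) (nat_lit 470) (nat_lit 1) (nat_lit 343) (nat_lit 413) (nat_lit 384))) (XT.nd (nat_lit 78) (nat_lit 0) (nat_lit 0) (XT.lf (nat_lit 988) (nat_lit 1178663656)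 (nat_lit 0) (nat_lit 2351120408) (nat_lit 912) (nat_lit 2351120408) (nat_lit 458) (nat_lit 1) (nat_lit 445) (nat_lit 1) (nat_lit 457) (nat_lit 1) (nat_lit 344) (nat_lit 413) (nat_lit 383)) (XT.lf (nat_lit 76) (nat_lit 301707823) (nat_lit 0) (nat_lit 5225354270) (nat_lit 988) (nat_lit 301707823) (nat_lit 446) (nat_lit 1) (nat_lit 445) (nat_lit 1) (nat_lit 458) (nat_lit 1) (nat_lit 345) (nat_lit 413) (nat_lit 382))))) (XT.nd (nat_lit 312) (nat_lit 1596) (nat_lit 0) (XT.nd (nat_lit 156) (nat_lit 836) (nat_lit 0) (XT.nd (nat_lit 78) (nat_lit 988) (nat_lit 0) (XT.lf (nat_lit 912) (nat_lit 5069679) (nat_lit 0) (nat_lit 2885956931) (nat_lit 836) (nat_lit 2885956931) (nat_lit 446) (nat_lit 1) (nat_lit 434) (nat_lit 1) (nat_lit 445) (nat_lit 1) (nat_lit 346) (nat_lit 413) (nat_lit 381)) (XT.lf (nat_lit 988) (nat_lit 5148308960) (nat_lit 0) (nat_lit 288875709) (nat_lit 912) (nat_lit 288875709) (nat_lit 434) (nat_lit 1) (nat_lit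 421) (nat_lit 1) (nat_lit 433) (nat_lit 1) (nat_lit 347) (nat_lit 413) (nat_lit 380))) (XT.nd (nat_lit 78) (nat_lit 836) (nat_lit 0) (XT.lf (nat_lit 76) (nat_lit 2246480418) (nat_lit 0) (nat_lit 1182505705) (nat_lit 988) (nat_lit 2246480418) (nat_lit 422) (nat_lit 1) (nat_lit 421) (nat_lit 1) (nat_lit 434) (nat_lit 1) (nat_lit 348) (nat_lit 413) (nat_lit 379)) (XT.lf (nat_lit 912) (nat_lit 3842683034) (nat_lit 0) (nat_lit 891514581) (nat_lit 836) (nat_lit 891514581) (nat_lit 422) (nat_lit 1) (nat_lit 410) (nat_lit 1) (nat_lit 421) (nat_lit 1) (nat_lit 349) (nat_lit 413) (nat_lit 378)))) (XT.nd (nat_lit 156) (nat_lit 760) (nat_lit 0) (XT.nd (nat_lit 78) (nat_lit 836) (nat_lit 0) (XT.lf (nat_lit 76) (nat_lit 1589853772) (nat_lit 0) (nat_lit 2396726899) (nat_lit 912) (nat_lit 1589853772) (nat_lit 411) (nat_lit 1) (nat_lit 410) (nat_lit 1) (nat_lit 422) (nat_lit 1) (nat_lit 350) (nat_lit 413) (nat_lit 377)) (XT.lf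 (nat_lit 912) (nat_lit 2513963634) (nat_lit 0) (nat_lit 1506925055) (nat_lit 836) (nat_lit 1506925055) (nat_lit 411) (nat_lit 1) (nat_lit 399) (nat_lit 1) (nat_lit 410) (nat_lit 1) (nat_lit 351) (nat_lit 413) (nat_lit 376))) (XT.nd (nat_lit 78) (nat_lit 760) (nat_lit 0) (XT.lf (nat_lit 76) (nat_lit 922312380) (nat_lit 0) (nat_lit 3635195188) (nat_lit 912) (nat_lit 922312380) (nat_lit 400) (nat_lit 1) (nat_lit 399) (nat_lit 1) (nat_lit 411) (nat_lit 1) (nat_lit 352) (nat_lit 413) (nat_lit 375)) (XT.lf (nat_lit 836) (nat_lit 1164494420) (nat_lit 0) (nat_lit 2133901924) (nat_lit 760) (nat_lit 2133901924) (nat_lit 400) (nat_lit 1) (nat_lit 389) (nat_lit 1) (nat_lit 399) (nat_lit 1) (nat_lit 353) (nat_lit 413) (nat_lit 374)))))) (XT.nd (nat_lit 624) (nat_lit 3420) (nat_lit 0) (XT.nd (nat_lit 312) (nat_lit 1444) (nat_lit 0) (XT.nd (nat_lit 156) (nat_lit 760) (nat_lit 0) (XT.nd (nat_lit 78) (nat_lit 836) (nat_lit 0) (XT.lf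 (nat_lit 76) (nat_lit 244994042) (nat_lit 0) (nat_lit 4895569088) (nat_lit 836) (nat_lit 244994042) (nat_lit 390) (nat_lit 1) (nat_lit 389) (nat_lit 1) (nat_lit 400) (nat_lit 1) (nat_lit 354) (nat_lit 413) (nat_lit 373)) (XT.lf (nat_lit 76) (nat_lit 2569121620) (nat_lit 0) (nat_lit 200831382) (nat_lit 836) (nat_lit 2569121620) (nat_lit 379) (nat_lit 1) (nat_lit 378) (nat_lit 1) (nat_lit 389) (nat_lit 1) (nat_lit 355) (nat_lit 413) (nat_lit 372))) (XT.nd (nat_lit 78) (nat_lit 0) (nat_lit 0) (XT.lf (nat_lit 836) (nat_lit 4417112085) (nat_lit 0) (nat_lit 438120162) (nat_lit 760) (nat_lit 438120162) (nat_lit 379) (nat_lit 1) (nat_lit 368) (nat_lit 1) (nat_lit 378) (nat_lit 1) (nat_lit 356) (nat_lit 413) (nat_lit 371)) (XT.lf (nat_lit 76) (nat_lit 1840434179) (nat_lit 0) (nat_lit 1567084776) (nat_lit 836) (nat_lit 1840434179) (nat_lit 369) (nat_lit 1) (nat_lit 368) (nat_lit 1) (nat_lit 379) (nat_lit 1) (nat_lit 357)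 (nat_lit 413) (nat_lit 370)))) (XT.nd (nat_lit 156) (nat_lit 684) (nat_lit 0) (XT.nd (nat_lit 78) (nat_lit 0) (nat_lit 0) (XT.lf (nat_lit 836) (nat_lit 2948751015) (nat_lit 0) (nat_lit 1127245437) (nat_lit 760) (nat_lit 1127245437) (nat_lit 369) (nat_lit 1) (nat_lit 358) (nat_lit 1) (nat_lit 368) (nat_lit 1) (nat_lit 358) (nat_lit 413) (nat_lit 369)) (XT.lf (nat_lit 76) (nat_lit 1105730380) (nat_lit 0) (nat_lit 2947563668) (nat_lit 836) (nat_lit 1105730380) (nat_lit 359) (nat_lit 1) (nat_lit 358) (nat_lit 1) (nat_lit 369) (nat_lit 1) (nat_lit 359) (nat_lit 413) (nat_lit 368))) (XT.nd (nat_lit 78) (nat_lit 0) (nat_lit 0) (XT.lf (nat_lit 760) (nat_lit 1469235313) (nat_lit 0) (nat_lit 1823029217) (nat_lit 684) (nat_lit 1823029217) (nat_lit 359) (nat_lit 1) (nat_lit 349) (nat_lit 1) (nat_lit 358) (nat_lit 1) (nat_lit 360) (nat_lit 413) (nat_lit 367)) (XT.lf (nat_lit 76) (nat_lit 365916634) (nat_lit 0) (nat_lit 4340396473)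 (nat_lit 760) (nat_lit 365916634) (nat_lit 350) (nat_lit 1) (nat_lit 349) (nat_lit 1) (nat_lit 359) (nat_lit 1) (nat_lit 361) (nat_lit 413) (nat_lit 366))))) (XT.nd (nat_lit 312) (nat_lit 1292) (nat_lit 0) (XT.nd (nat_lit 156) (nat_lit 684) (nat_lit 0) (XT.nd (nat_lit 78) (nat_lit 684) (nat_lit 0) (XT.lf (nat_lit 76) (nat_lit 2505020217) (nat_lit 0) (nat_lit 19407237) (nat_lit 760) (nat_lit 2505020217) (nat_lit 340) (nat_lit 1) (nat_lit 339) (nat_lit 1) (nat_lit 349) (nat_lit 1) (nat_lit 362) (nat_lit 413) (nat_lit 365)) (XT.lf (nat_lit 760) (nat_lit 4235992572) (nat_lit 0) (nat_lit 375661214) (nat_lit 684) (nat_lit 375661214) (nat_lit 340) (nat_lit 1) (nat_lit 330) (nat_lit 1) (nat_lit 339) (nat_lit 1) (nat_lit 363) (nat_lit 413) (nat_lit 364))) (XT.nd (nat_lit 78) (nat_lit 684) (nat_lit 0) (XT.lf (nat_lit 76) (nat_lit 1724534594) (nat_lit 0) (nat_lit 1496389214) (nat_lit 760) (nat_lit 1724534594) (nat_lit 331)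 (nat_lit 1) (nat_lit 330) (nat_lit 1) (nat_lit 340) (nat_lit 1) (nat_lit 364) (nat_lit 413) (nat_lit 363)) (XT.lf (nat_lit 760) (nat_lit 2667731009) (nat_lit 0) (nat_lit 1118249240) (nat_lit 684) (nat_lit 1118249240) (nat_lit 331) (nat_lit 1) (nat_lit 321) (nat_lit 1) (nat_lit 330) (nat_lit 1) (nat_lit 365) (nat_lit 413) (nat_lit 362)))) (XT.nd (nat_lit 156) (nat_lit 684) (nat_lit 0) (XT.nd (nat_lit 78) (nat_lit 608) (nat_lit 0) (XT.lf (nat_lit 76) (nat_lit 942023046) (nat_lit 0) (nat_lit 2979416479) (nat_lit 760) (nat_lit 942023046) (nat_lit 322) (nat_lit 1) (nat_lit 321) (nat_lit 1) (nat_lit 331) (nat_lit 1) (nat_lit 366) (nat_lit 413) (nat_lit 361)) (XT.lf (nat_lit 684) (nat_lit 1096126124) (nat_lit 0) (nat_lit 1863492270) (nat_lit 608) (nat_lit 1863492270) (nat_lit 322) (nat_lit 1) (nat_lit 313) (nat_lit 1) (nat_lit 321) (nat_lit 1) (nat_lit 367) (nat_lit 413) (nat_lit 360))) (XT.nd (nat_lit 78) (nat_lit 684)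 (nat_lit 0) (XT.lf (nat_lit 76) (nat_lit 158198226) (nat_lit 0) (nat_lit 4467011184) (nat_lit 684) (nat_lit 158198226) (nat_lit 314) (nat_lit 1) (nat_lit 313) (nat_lit 1) (nat_lit 322) (nat_lit 1) (nat_lit 368) (nat_lit 413) (nat_lit 359)) (XT.lf (nat_lit 76) (nat_lit 2136336922) (nat_lit 0) (nat_lit 471171017) (nat_lit 684) (nat_lit 2136336922) (nat_lit 305) (nat_lit 1) (nat_lit 304) (nat_lit 1) (nat_lit 313) (nat_lit 1) (nat_lit 369) (nat_lit 413) (nat_lit 358))))))))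
noncomputable def ec47 : XT := (XT.nd (nat_lit 2418) (nat_lit 1444) (nat_lit 0) (XT.nd (nat_lit 1170) (nat_lit 4636) (nat_lit 0) (XT.nd (nat_lit 546) (nat_lit 2660) (nat_lit 0) (XT.nd (nat_lit 234) (nat_lit 1216) (nat_lit 0) (XT.nd (nat_lit 78) (nat_lit 608) (nat_lit 0) (XT.lf (nat_lit 684) (nat_lit 3460621942) (nat_lit 0) (nat_lit 622147138) (nat_lit 608) (nat_lit 622147138) (nat_lit 305) (nat_lit 1) (nat_lit 296) (nat_lit 1) (nat_lit 304) (nat_lit 1) (nat_lit 370) (nat_lit 413) (nat_lit 357)) (XT.nd (nat_lit 78) (nat_lit 608) (nat_lit 0) (XT.lf (nat_lit 76) (nat_lit 1320787300) (nat_lit 0) (nat_lit 2024726910) (nat_lit 684) (nat_lit 1320787300) (nat_lit 297) (nat_lit 1) (nat_lit 296) (nat_lit 1) (nat_lit 305) (nat_lit 1) (nat_lit 371) (nat_lit 413) (nat_lit 356)) (XT.lf (nat_lit 684) (nat_lit 1825266438) (nat_lit 0) (nat_lit 1401458163) (nat_lit 608) (nat_lit 1401458163) (nat_lit 297) (nat_lit 1) (nat_lit 288)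 (nat_lit 1) (nat_lit 296) (nat_lit 1) (nat_lit 372) (nat_lit 413) (nat_lit 355)))) (XT.nd (nat_lit 156) (nat_lit 684) (nat_lit 0) (XT.nd (nat_lit 78) (nat_lit 532) (nat_lit 0) (XT.lf (nat_lit 76) (nat_lit 506438230) (nat_lit 0) (nat_lit 3577697967) (nat_lit 684) (nat_lit 506438230) (nat_lit 289) (nat_lit 1) (nat_lit 288) (nat_lit 1) (nat_lit 297) (nat_lit 1) (nat_lit 373) (nat_lit 413) (nat_lit 354)) (XT.lf (nat_lit 608) (nat_lit 192878212) (nat_lit 0) (nat_lit 2180181889) (nat_lit 532) (nat_lit 2180181889) (nat_lit 289) (nat_lit 1) (nat_lit 281) (nat_lit 1) (nat_lit 288) (nat_lit 1) (nat_lit 374) (nat_lit 413) (nat_lit 353))) (XT.nd (nat_lit 78) (nat_lit 0) (nat_lit 0) (XT.lf (nat_lit 684) (nat_lit 3908166395) (nat_lit 0) (nat_lit 304145281) (nat_lit 608) (nat_lit 304145281) (nat_lit 281) (nat_lit 1) (nat_lit 272) (nat_lit 1) (nat_lit 280) (nat_lit 1) (nat_lit 375) (nat_lit 413) (nat_lit 352)) (XT.lf (nat_lit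 76) (nat_lit 1531608317) (nat_lit 0) (nat_lit 1416644524) (nat_lit 684) (nat_lit 1531608317) (nat_lit 273) (nat_lit 1) (nat_lit 272) (nat_lit 1) (nat_lit 281) (nat_lit 1) (nat_lit 376) (nat_lit 413) (nat_lit 351))))) (XT.nd (nat_lit 312) (nat_lit 988) (nat_lit 0) (XT.nd (nat_lit 156) (nat_lit 1140) (nat_lit 0) (XT.nd (nat_lit 78) (nat_lit 0) (nat_lit 0) (XT.lf (nat_lit 608) (nat_lit 2225514487) (nat_lit 0) (nat_lit 1109142846) (nat_lit 532) (nat_lit 1109142846) (nat_lit 273) (nat_lit 1) (nat_lit 265) (nat_lit 1) (nat_lit 272) (nat_lit 1) (nat_lit 377) (nat_lit 413) (nat_lit 350)) (XT.lf (nat_lit 76) (nat_lit 694749682) (nat_lit 0) (nat_lit 3018657922) (nat_lit 608) (nat_lit 694749682) (nat_lit 266) (nat_lit 1) (nat_lit 265) (nat_lit 1) (nat_lit 273) (nat_lit 1) (nat_lit 378) (nat_lit 413) (nat_lit 349))) (XT.nd (nat_lit 78) (nat_lit 608) (nat_lit 0) (XT.lf (nat_lit 608) (nat_lit 550017104) (nat_lit 0) (nat_lit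 1911403383) (nat_lit 532) (nat_lit 1911403383) (nat_lit 266) (nat_lit 1) (nat_lit 258) (nat_lit 1) (nat_lit 265) (nat_lit 1) (nat_lit 379) (nat_lit 413) (nat_lit 348)) (XT.lf (nat_lit 608) (nat_lit 4063212587) (nat_lit 0) (nat_lit 137413584) (nat_lit 532) (nat_lit 137413584) (nat_lit 258) (nat_lit 1) (nat_lit 250) (nat_lit 1) (nat_lit 257) (nat_lit 1) (nat_lit 380) (nat_lit 413) (nat_lit 347)))) (XT.nd (nat_lit 156) (nat_lit 456) (nat_lit 0) (XT.nd (nat_lit 78) (nat_lit 532) (nat_lit 0) (XT.lf (nat_lit 76) (nat_lit 1600266537) (nat_lit 0) (nat_lit 1102806966) (nat_lit 608) (nat_lit 1600266537) (nat_lit 251) (nat_lit 1) (nat_lit 250) (nat_lit 1) (nat_lit 258) (nat_lit 1) (nat_lit 381) (nat_lit 413) (nat_lit 346)) (XT.lf (nat_lit 608) (nat_lit 2347513539) (nat_lit 0) (nat_lit 960832457) (nat_lit 532) (nat_lit 960832457) (nat_lit 251) (nat_lit 1) (nat_lit 243) (nat_lit 1) (nat_lit 250) (nat_lit 1) (nat_lit 382) (nat_lit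 413) (nat_lit 345))) (XT.nd (nat_lit 78) (nat_lit 456) (nat_lit 0) (XT.lf (nat_lit 76) (nat_lit 747836714) (nat_lit 0) (nat_lit 2739708438) (nat_lit 608) (nat_lit 747836714) (nat_lit 244) (nat_lit 1) (nat_lit 243) (nat_lit 1) (nat_lit 251) (nat_lit 1) (nat_lit 383) (nat_lit 413) (nat_lit 344)) (XT.lf (nat_lit 532) (nat_lit 642511667) (nat_lit 0) (nat_lit 1779691435) (nat_lit 456) (nat_lit 1779691435) (nat_lit 244) (nat_lit 1) (nat_lit 237) (nat_lit 1) (nat_lit 243) (nat_lit 1) (nat_lit 384) (nat_lit 413) (nat_lit 343)))))) (XT.nd (nat_lit 624) (nat_lit 2128) (nat_lit 0) (XT.nd (nat_lit 312) (nat_lit 1444) (nat_lit 0) (XT.nd (nat_lit 156) (nat_lit 456) (nat_lit 0) (XT.nd (nat_lit 78) (nat_lit 0) (nat_lit 0) (XT.lf (nat_lit 608) (nat_lit 3972056070) (nat_lit 0) (nat_lit 98436341) (nat_lit 532) (nat_lit 98436341) (nat_lit 237) (nat_lit 1) (nat_lit 229) (nat_lit 1) (nat_lit 236) (nat_lit 1) (nat_lit 385) (nat_lit 413)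 (nat_lit 342)) (XT.lf (nat_lit 76) (nat_lit 1549342731) (nat_lit 0) (nat_lit 1037326311) (nat_lit 608) (nat_lit 1549342731) (nat_lit 230) (nat_lit 1) (nat_lit 229) (nat_lit 1) (nat_lit 237) (nat_lit 1) (nat_lit 386) (nat_lit 413) (nat_lit 341))) (XT.nd (nat_lit 78) (nat_lit 0) (nat_lit 0) (XT.lf (nat_lit 532) (nat_lit 2235615252) (nat_lit 0) (nat_lit 933995579) (nat_lit 456) (nat_lit 933995579) (nat_lit 230) (nat_lit 1) (nat_lit 223) (nat_lit 1) (nat_lit 229) (nat_lit 1) (nat_lit 387) (nat_lit 413) (nat_lit 340)) (XT.lf (nat_lit 76) (nat_lit 687331295) (nat_lit 0) (nat_lit 2696883557) (nat_lit 532) (nat_lit 687331295) (nat_lit 224) (nat_lit 1) (nat_lit 223) (nat_lit 1) (nat_lit 230) (nat_lit 1) (nat_lit 388) (nat_lit 413) (nat_lit 339)))) (XT.nd (nat_lit 156) (nat_lit 456) (nat_lit 0) (XT.nd (nat_lit 78) (nat_lit 532) (nat_lit 0) (XT.lf (nat_lit 532) (nat_lit 512848696) (nat_lit 0) (nat_lit 1763458961) (nat_lit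 456) (nat_lit 1763458961) (nat_lit 224) (nat_lit 1) (nat_lit 217) (nat_lit 1) (nat_lit 223) (nat_lit 1) (nat_lit 389) (nat_lit 413) (nat_lit 338)) (XT.lf (nat_lit 532) (nat_lit 3675199972) (nat_lit 0) (nat_lit 166628119) (nat_lit 456) (nat_lit 166628119) (nat_lit 217) (nat_lit 1) (nat_lit 210) (nat_lit 1) (nat_lit 216) (nat_lit 1) (nat_lit 390) (nat_lit 413) (nat_lit 337))) (XT.nd (nat_lit 78) (nat_lit 456) (nat_lit 0) (XT.lf (nat_lit 76) (nat_lit 1398589353) (nat_lit 0) (nat_lit 1180038498) (nat_lit 532) (nat_lit 1398589353) (nat_lit 211) (nat_lit 1) (nat_lit 210) (nat_lit 1) (nat_lit 217) (nat_lit 1) (nat_lit 391) (nat_lit 413) (nat_lit 336)) (XT.lf (nat_lit 532) (nat_lit 1928610134) (nat_lit 0) (nat_lit 1008914186) (nat_lit 456) (nat_lit 1008914186) (nat_lit 211) (nat_lit 1) (nat_lit 204) (nat_lit 1) (nat_lit 210) (nat_lit 1) (nat_lit 392) (nat_lit 413) (nat_lit 335))))) (XT.nd (nat_lit 312) (nat_lit 1216) (nat_lit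 0) (XT.nd (nat_lit 156) (nat_lit 532) (nat_lit 0) (XT.nd (nat_lit 78) (nat_lit 380) (nat_lit 0) (XT.lf (nat_lit 76) (nat_lit 532150032) (nat_lit 0) (nat_lit 2851712810) (nat_lit 532) (nat_lit 532150032) (nat_lit 205) (nat_lit 1) (nat_lit 204) (nat_lit 1) (nat_lit 211) (nat_lit 1) (nat_lit 393) (nat_lit 413) (nat_lit 334)) (XT.lf (nat_lit 456) (nat_lit 198175983) (nat_lit 0) (nat_lit 1843819986) (nat_lit 380) (nat_lit 1843819986) (nat_lit 205) (nat_lit 1) (nat_lit 199) (nat_lit 1) (nat_lit 204) (nat_lit 1) (nat_lit 394) (nat_lit 413) (nat_lit 333))) (XT.nd (nat_lit 78) (nat_lit 0) (nat_lit 0) (XT.lf (nat_lit 532) (nat_lit 3208029034) (nat_lit 0) (nat_lit 323993198) (nat_lit 456) (nat_lit 323993198) (nat_lit 199) (nat_lit 1) (nat_lit 192) (nat_lit 1) (nat_lit 198) (nat_lit 1) (nat_lit 395) (nat_lit 413) (nat_lit 332)) (XT.lf (nat_lit 76) (nat_lit 1165259784) (nat_lit 0) (nat_lit 1495837858) (nat_lit 532) (nat_lit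 1165259784) (nat_lit 193) (nat_lit 1) (nat_lit 192) (nat_lit 1) (nat_lit 199) (nat_lit 1) (nat_lit 396) (nat_lit 413) (nat_lit 331)))) (XT.nd (nat_lit 156) (nat_lit 836) (nat_lit 0) (XT.nd (nat_lit 78) (nat_lit 0) (nat_lit 0) (XT.lf (nat_lit 456) (nat_lit 1460375132) (nat_lit 0) (nat_lit 1168356429) (nat_lit 380) (nat_lit 1168356429) (nat_lit 193) (nat_lit 1) (nat_lit 187) (nat_lit 1) (nat_lit 192) (nat_lit 1) (nat_lit 397) (nat_lit 413) (nat_lit 330)) (XT.lf (nat_lit 76) (nat_lit 298810496) (nat_lit 0) (nat_lit 3170581838) (nat_lit 456) (nat_lit 298810496) (nat_lit 188) (nat_lit 1) (nat_lit 187) (nat_lit 1) (nat_lit 193) (nat_lit 1) (nat_lit 398) (nat_lit 413) (nat_lit 329))) (XT.nd (nat_lit 78) (nat_lit 380) (nat_lit 0) (XT.lf (nat_lit 76) (nat_lit 1736946795) (nat_lit 0) (nat_lit 265546514) (nat_lit 456) (nat_lit 1736946795) (nat_lit 182) (nat_lit 1) (nat_lit 181) (nat_lit 1) (nat_lit 187) (nat_lit 1) (nat_lit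 399) (nat_lit 413) (nat_lit 328)) (XT.lf (nat_lit 456) (nat_lit 2601407119) (nat_lit 0) (nat_lit 554823653) (nat_lit 380) (nat_lit 554823653) (nat_lit 182) (nat_lit 1) (nat_lit 176) (nat_lit 1) (nat_lit 181) (nat_lit 1) (nat_lit 400) (nat_lit 413) (nat_lit 327))))))) (XT.nd (nat_lit 53742) (nat_lit 0) (nat_lit 21052) (XT.nd (nat_lit 53118) (nat_lit 0) (nat_lit 26144) (XT.nd (nat_lit 234) (nat_lit 1064) (nat_lit 0) (XT.nd (nat_lit 78) (nat_lit 380) (nat_lit 0) (XT.lf (nat_lit 76) (nat_lit 864400181) (nat_lit 0) (nat_lit 1954087164) (nat_lit 456) (nat_lit 864400181) (nat_lit 177) (nat_lit 1) (nat_lit 176) (nat_lit 1) (nat_lit 182) (nat_lit 1) (nat_lit 401) (nat_lit 413) (nat_lit 326)) (XT.nd (nat_lit 78) (nat_lit 0) (nat_lit 0) (XT.lf (nat_lit 456) (nat_lit 860447707) (nat_lit 0) (nat_lit 1397286569) (nat_lit 380) (nat_lit 1397286569) (nat_lit 177) (nat_lit 1) (nat_lit 171) (nat_lit 1) (nat_lit 176) (nat_lit 1) (nat_lit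 402) (nat_lit 413) (nat_lit 325)) (XT.lf (nat_lit 76) (nat_lit 1711622) (nat_lit 0) (nat_lit 3624165592) (nat_lit 456) (nat_lit 1711622) (nat_lit 172) (nat_lit 1) (nat_lit 171) (nat_lit 1) (nat_lit 177) (nat_lit 1) (nat_lit 403) (nat_lit 413) (nat_lit 324)))) (XT.nd (nat_lit 156) (nat_lit 304) (nat_lit 0) (XT.nd (nat_lit 78) (nat_lit 380) (nat_lit 0) (XT.lf (nat_lit 76) (nat_lit 1375381439) (nat_lit 0) (nat_lit 849352562) (nat_lit 380) (nat_lit 1375381439) (nat_lit 167) (nat_lit 1) (nat_lit 166) (nat_lit 1) (nat_lit 171) (nat_lit 1) (nat_lit 404) (nat_lit 413) (nat_lit 323)) (XT.lf (nat_lit 456) (nat_lit 1882206823) (nat_lit 0) (nat_lit 845431738) (nat_lit 380) (nat_lit 845431738) (nat_lit 167) (nat_lit 1) (nat_lit 161) (nat_lit 1) (nat_lit 166) (nat_lit 1) (nat_lit 405) (nat_lit 413) (nat_lit 322))) (XT.nd (nat_lit 78) (nat_lit 304) (nat_lit 0) (XT.lf (nat_lit 76) (nat_lit 509108165) (nat_lit 0) (nat_lit 2528094711)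 (nat_lit 456) (nat_lit 509108165) (nat_lit 162) (nat_lit 1) (nat_lit 161) (nat_lit 1) (nat_lit 167) (nat_lit 1) (nat_lit 406) (nat_lit 413) (nat_lit 321)) (XT.lf (nat_lit 380) (nat_lit 154534628) (nat_lit 0) (nat_lit 1682607863) (nat_lit 304) (nat_lit 1682607863) (nat_lit 162) (nat_lit 1) (nat_lit 157) (nat_lit 1) (nat_lit 161) (nat_lit 1) (nat_lit 407) (nat_lit 413) (nat_lit 320))))) (XT.nd (nat_lit 312) (nat_lit 0) (nat_lit 152) (XT.nd (nat_lit 156) (nat_lit 0) (nat_lit 76) (XT.nd (nat_lit 78) (nat_lit 0) (nat_lit 76) (XT.lf (nat_lit 1900) (nat_lit 3875781016) (nat_lit 76) (nat_lit 1706260273) (nat_lit 0) (nat_lit 1706260273) (nat_lit 526) (nat_lit 1) (nat_lit 502) (nat_lit 1) (nat_lit 501) (nat_lit 1) (nat_lit 321) (nat_lit 414) (nat_lit 405)) (XT.lf (nat_lit 1900) (nat_lit 1806347922) (nat_lit 0) (nat_lit 3606022676) (nat_lit 1824) (nat_lit 1806347922) (nat_lit 527) (nat_lit 1) (nat_lit 502) (nat_lit 1) (nat_lit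 526) (nat_lit 1) (nat_lit 322) (nat_lit 414) (nat_lit 404))) (XT.nd (nat_lit 78) (nat_lit 0) (nat_lit 76) (XT.lf (nat_lit 1900) (nat_lit 3331045371) (nat_lit 76) (nat_lit 1909494654) (nat_lit 0) (nat_lit 1909494654) (nat_lit 527) (nat_lit 1) (nat_lit 503) (nat_lit 1) (nat_lit 502) (nat_lit 1) (nat_lit 323) (nat_lit 414) (nat_lit 403)) (XT.lf (nat_lit 1900) (nat_lit 1516428776) (nat_lit 0) (nat_lit 4049407478) (nat_lit 1824) (nat_lit 1516428776) (nat_lit 528) (nat_lit 1) (nat_lit 503) (nat_lit 1) (nat_lit 527) (nat_lit 1) (nat_lit 324) (nat_lit 414) (nat_lit 402)))) (XT.nd (nat_lit 156) (nat_lit 0) (nat_lit 76) (XT.nd (nat_lit 78) (nat_lit 0) (nat_lit 76) (XT.lf (nat_lit 1900) (nat_lit 2713875716) (nat_lit 76) (nat_lit 2150713057) (nat_lit 0) (nat_lit 2150713057) (nat_lit 528) (nat_lit 1) (nat_lit 504) (nat_lit 1) (nat_lit 503) (nat_lit 1) (nat_lit 325) (nat_lit 414) (nat_lit 401)) (XT.lf (nat_lit 1900) (nat_lit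 1191587869) (nat_lit 0) (nat_lit 4566123491) (nat_lit 1824) (nat_lit 1191587869) (nat_lit 529) (nat_lit 1) (nat_lit 504) (nat_lit 1) (nat_lit 528) (nat_lit 1) (nat_lit 326) (nat_lit 414) (nat_lit 400))) (XT.nd (nat_lit 78) (nat_lit 0) (nat_lit 76) (XT.lf (nat_lit 1900) (nat_lit 2028919788) (nat_lit 76) (nat_lit 2427540991) (nat_lit 0) (nat_lit 2427540991) (nat_lit 529) (nat_lit 1) (nat_lit 505) (nat_lit 1) (nat_lit 504) (nat_lit 1) (nat_lit 327) (nat_lit 414) (nat_lit 399)) (XT.lf (nat_lit 1900) (nat_lit 834086738) (nat_lit 0) (nat_lit 5151547716) (nat_lit 1824) (nat_lit 834086738) (nat_lit 530) (nat_lit 1) (nat_lit 505) (nat_lit 1) (nat_lit 529) (nat_lit 1) (nat_lit 328) (nat_lit 414) (nat_lit 398)))))) (XT.nd (nat_lit 624) (nat_lit 3648) (nat_lit 0) (XT.nd (nat_lit 312) (nat_lit 1748) (nat_lit 0) (XT.nd (nat_lit 156) (nat_lit 0) (nat_lit 76) (XT.nd (nat_lit 78) (nat_lit 0) (nat_lit 76) (XT.lf (nat_lit 1900) (nat_lit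 1280608863) (nat_lit 76) (nat_lit 2737713806) (nat_lit 0) (nat_lit 2737713806) (nat_lit 530) (nat_lit 1) (nat_lit 506) (nat_lit 1) (nat_lit 505) (nat_lit 1) (nat_lit 329) (nat_lit 414) (nat_lit 397)) (XT.lf (nat_lit 1900) (nat_lit 446081350) (nat_lit 0) (nat_lit 5801271484) (nat_lit 1824) (nat_lit 446081350) (nat_lit 531) (nat_lit 1) (nat_lit 506) (nat_lit 1) (nat_lit 530) (nat_lit 1) (nat_lit 330) (nat_lit 414) (nat_lit 396))) (XT.nd (nat_lit 78) (nat_lit 0) (nat_lit 76) (XT.lf (nat_lit 1900) (nat_lit 473166871) (nat_lit 76) (nat_lit 3079072081) (nat_lit 0) (nat_lit 3079072081) (nat_lit 531) (nat_lit 1) (nat_lit 507) (nat_lit 1) (nat_lit 506) (nat_lit 1) (nat_lit 331) (nat_lit 414) (nat_lit 395)) (XT.lf (nat_lit 1900) (nat_lit 29626545) (nat_lit 0) (nat_lit 6511091450) (nat_lit 1824) (nat_lit 29626545) (nat_lit 532) (nat_lit 1) (nat_lit 507) (nat_lit 1) (nat_lit 531) (nat_lit 1) (nat_lit 332) (nat_lit 414) (nat_lit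 394)))) (XT.nd (nat_lit 156) (nat_lit 0) (nat_lit 76) (XT.nd (nat_lit 78) (nat_lit 0) (nat_lit 0) (XT.lf (nat_lit 1976) (nat_lit 3062704460) (nat_lit 0) (nat_lit 384274062) (nat_lit 1900) (nat_lit 3062704460) (nat_lit 508) (nat_lit 1) (nat_lit 482) (nat_lit 1) (nat_lit 507) (nat_lit 1) (nat_lit 333) (nat_lit 414) (nat_lit 393)) (XT.lf (nat_lit 1976) (nat_lit 5628945185) (nat_lit 76) (nat_lit 410600486) (nat_lit 0) (nat_lit 410600486) (nat_lit 508) (nat_lit 1) (nat_lit 483) (nat_lit 1) (nat_lit 482) (nat_lit 1) (nat_lit 334) (nat_lit 414) (nat_lit 392))) (XT.nd (nat_lit 78) (nat_lit 0) (nat_lit 0) (XT.lf (nat_lit 1976) (nat_lit 2552469125) (nat_lit 0) (nat_lit 1286107533) (nat_lit 1900) (nat_lit 2552469125) (nat_lit 509) (nat_lit 1) (nat_lit 483) (nat_lit 1) (nat_lit 508) (nat_lit 1) (nat_lit 335) (nat_lit 414) (nat_lit 391)) (XT.lf (nat_lit 1976) (nat_lit 4582744729) (nat_lit 76) (nat_lit 875096803) (nat_lit 0)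 (nat_lit 875096803) (nat_lit 509) (nat_lit 1) (nat_lit 484) (nat_lit 1) (nat_lit 483) (nat_lit 1) (nat_lit 336) (nat_lit 414) (nat_lit 390))))) (XT.nd (nat_lit 312) (nat_lit 1748) (nat_lit 0) (XT.nd (nat_lit 156) (nat_lit 912) (nat_lit 0) (XT.nd (nat_lit 78) (nat_lit 1140) (nat_lit 0) (XT.lf (nat_lit 76) (nat_lit 2020220496) (nat_lit 0) (nat_lit 2234934173) (nat_lit 1900) (nat_lit 2020220496) (nat_lit 485) (nat_lit 1) (nat_lit 484) (nat_lit 1) (nat_lit 509) (nat_lit 1) (nat_lit 337) (nat_lit 414) (nat_lit 389)) (XT.lf (nat_lit 1216) (nat_lit 3494067149) (nat_lit 0) (nat_lit 1362292615) (nat_lit 1140) (nat_lit 1362292615) (nat_lit 485) (nat_lit 1) (nat_lit 469) (nat_lit 1) (nat_lit 484) (nat_lit 1) (nat_lit 338) (nat_lit 414) (nat_lit 388))) (XT.nd (nat_lit 78) (nat_lit 912) (nat_lit 0) (XT.lf (nat_lit 76) (nat_lit 1467633500) (nat_lit 0) (nat_lit 3227321090) (nat_lit 1216) (nat_lit 1467633500) (nat_lit 470) (nat_lit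 1) (nat_lit 469) (nat_lit 1) (nat_lit 485) (nat_lit 1) (nat_lit 339) (nat_lit 414) (nat_lit 387)) (XT.lf (nat_lit 988) (nat_lit 2366191341) (nat_lit 0) (nat_lit 1870507719) (nat_lit 912) (nat_lit 1870507719) (nat_lit 470) (nat_lit 1) (nat_lit 457) (nat_lit 1) (nat_lit 469) (nat_lit 1) (nat_lit 340) (nat_lit 414) (nat_lit 386)))) (XT.nd (nat_lit 156) (nat_lit 836) (nat_lit 0) (XT.nd (nat_lit 78) (nat_lit 912) (nat_lit 0) (XT.lf (nat_lit 76) (nat_lit 896301943) (nat_lit 0) (nat_lit 4260000231) (nat_lit 988) (nat_lit 896301943) (nat_lit 458) (nat_lit 1) (nat_lit 457) (nat_lit 1) (nat_lit 470) (nat_lit 1) (nat_lit 341) (nat_lit 414) (nat_lit 385)) (XT.lf (nat_lit 988) (nat_lit 1202236929) (nat_lit 0) (nat_lit 2398142816) (nat_lit 912) (nat_lit 2398142816) (nat_lit 458) (nat_lit 1) (nat_lit 445) (nat_lit 1) (nat_lit 457) (nat_lit 1) (nat_lit 342) (nat_lit 414) (nat_lit 384))) (XT.nd (nat_lit 78) (nat_lit 836) (nat_lit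 0) (XT.lf (nat_lit 76) (nat_lit 307741979) (nat_lit 0) (nat_lit 5329861355) (nat_lit 988) (nat_lit 307741979) (nat_lit 446) (nat_lit 1) (nat_lit 445) (nat_lit 1) (nat_lit 458) (nat_lit 1) (nat_lit 343) (nat_lit 414) (nat_lit 383)) (XT.lf (nat_lit 912) (nat_lit 5171072) (nat_lit 0) (nat_lit 2943676069) (nat_lit 836) (nat_lit 2943676069) (nat_lit 446) (nat_lit 1) (nat_lit 434) (nat_lit 1) (nat_lit 445) (nat_lit 1) (nat_lit 344) (nat_lit 414) (nat_lit 382))))))))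
noncomputable def ec48 : XT := (XT.nd (nat_lit 2340) (nat_lit 8740) (nat_lit 0) (XT.nd (nat_lit 1170) (nat_lit 5852) (nat_lit 0) (XT.nd (nat_lit 546) (nat_lit 3040) (nat_lit 0) (XT.nd (nat_lit 234) (nat_lit 1596) (nat_lit 0) (XT.nd (nat_lit 78) (nat_lit 836) (nat_lit 0) (XT.lf (nat_lit 988) (nat_lit 5251275139) (nat_lit 0) (nat_lit 294653224) (nat_lit 912) (nat_lit 294653224) (nat_lit 434) (nat_lit 1) (nat_lit 421) (nat_lit 1) (nat_lit 433) (nat_lit 1) (nat_lit 345) (nat_lit 414) (nat_lit 381)) (XT.nd (nat_lit 78) (nat_lit 836) (nat_lit 0) (XT.lf (nat_lit 76) (nat_lit 2291410026) (nat_lit 0) (nat_lit 1206155819) (nat_lit 988) (nat_lit 2291410026) (nat_lit 422) (nat_lit 1) (nat_lit 421) (nat_lit 1) (nat_lit 434) (nat_lit 1) (nat_lit 346) (nat_lit 414) (nat_lit 380)) (XT.lf (nat_lit 912) (nat_lit 3919536695) (nat_lit 0) (nat_lit 909344873) (nat_lit 836) (nat_lit 909344873) (nat_lit 422) (nat_lit 1) (nat_lit 410)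 (nat_lit 1) (nat_lit 421) (nat_lit 1) (nat_lit 347) (nat_lit 414) (nat_lit 379)))) (XT.nd (nat_lit 156) (nat_lit 760) (nat_lit 0) (XT.nd (nat_lit 78) (nat_lit 836) (nat_lit 0) (XT.lf (nat_lit 76) (nat_lit 1621650847) (nat_lit 0) (nat_lit 2444661437) (nat_lit 912) (nat_lit 1621650847) (nat_lit 411) (nat_lit 1) (nat_lit 410) (nat_lit 1) (nat_lit 422) (nat_lit 1) (nat_lit 348) (nat_lit 414) (nat_lit 378)) (XT.lf (nat_lit 912) (nat_lit 2564242907) (nat_lit 0) (nat_lit 1537063557) (nat_lit 836) (nat_lit 1537063557) (nat_lit 411) (nat_lit 1) (nat_lit 399) (nat_lit 1) (nat_lit 410) (nat_lit 1) (nat_lit 349) (nat_lit 414) (nat_lit 377))) (XT.nd (nat_lit 78) (nat_lit 760) (nat_lit 0) (XT.lf (nat_lit 76) (nat_lit 940758627) (nat_lit 0) (nat_lit 3707899091) (nat_lit 912) (nat_lit 940758627) (nat_lit 400) (nat_lit 1) (nat_lit 399) (nat_lit 1) (nat_lit 411) (nat_lit 1) (nat_lit 350) (nat_lit 414) (nat_lit 376)) (XT.lf (nat_lit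 836) (nat_lit 1187784308) (nat_lit 0) (nat_lit 2176579962) (nat_lit 760) (nat_lit 2176579962) (nat_lit 400) (nat_lit 1) (nat_lit 389) (nat_lit 1) (nat_lit 399) (nat_lit 1) (nat_lit 351) (nat_lit 414) (nat_lit 375))))) (XT.nd (nat_lit 312) (nat_lit 1444) (nat_lit 0) (XT.nd (nat_lit 156) (nat_lit 760) (nat_lit 0) (XT.nd (nat_lit 78) (nat_lit 836) (nat_lit 0) (XT.lf (nat_lit 76) (nat_lit 249893923) (nat_lit 0) (nat_lit 4993480470) (nat_lit 836) (nat_lit 249893923) (nat_lit 390) (nat_lit 1) (nat_lit 389) (nat_lit 1) (nat_lit 400) (nat_lit 1) (nat_lit 352) (nat_lit 414) (nat_lit 374)) (XT.lf (nat_lit 76) (nat_lit 2620504052) (nat_lit 0) (nat_lit 204848010) (nat_lit 836) (nat_lit 2620504052) (nat_lit 379) (nat_lit 1) (nat_lit 378) (nat_lit 1) (nat_lit 389) (nat_lit 1) (nat_lit 353) (nat_lit 414) (nat_lit 373))) (XT.nd (nat_lit 78) (nat_lit 0) (nat_lit 0) (XT.lf (nat_lit 836) (nat_lit 4505454326) (nat_lit 0) (nat_lit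 446882565) (nat_lit 760) (nat_lit 446882565) (nat_lit 379) (nat_lit 1) (nat_lit 368) (nat_lit 1) (nat_lit 378) (nat_lit 1) (nat_lit 354) (nat_lit 414) (nat_lit 372)) (XT.lf (nat_lit 76) (nat_lit 1877242862) (nat_lit 0) (nat_lit 1598426472) (nat_lit 836) (nat_lit 1877242862) (nat_lit 369) (nat_lit 1) (nat_lit 368) (nat_lit 1) (nat_lit 379) (nat_lit 1) (nat_lit 355) (nat_lit 414) (nat_lit 371)))) (XT.nd (nat_lit 156) (nat_lit 684) (nat_lit 0) (XT.nd (nat_lit 78) (nat_lit 0) (nat_lit 0) (XT.lf (nat_lit 836) (nat_lit 3007726035) (nat_lit 0) (nat_lit 1149790345) (nat_lit 760) (nat_lit 1149790345) (nat_lit 369) (nat_lit 1) (nat_lit 358) (nat_lit 1) (nat_lit 368) (nat_lit 1) (nat_lit 356) (nat_lit 414) (nat_lit 370)) (XT.lf (nat_lit 76) (nat_lit 1127844988) (nat_lit 0) (nat_lit 3006514942) (nat_lit 836) (nat_lit 1127844988) (nat_lit 359) (nat_lit 1) (nat_lit 358) (nat_lit 1) (nat_lit 369) (nat_lit 1) (nat_lit 357) (nat_lit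 414) (nat_lit 369))) (XT.nd (nat_lit 78) (nat_lit 0) (nat_lit 0) (XT.lf (nat_lit 760) (nat_lit 1498620019) (nat_lit 0) (nat_lit 1859489801) (nat_lit 684) (nat_lit 1859489801) (nat_lit 359) (nat_lit 1) (nat_lit 349) (nat_lit 1) (nat_lit 358) (nat_lit 1) (nat_lit 358) (nat_lit 414) (nat_lit 368)) (XT.lf (nat_lit 76) (nat_lit 373234967) (nat_lit 0) (nat_lit 4427204403) (nat_lit 760) (nat_lit 373234967) (nat_lit 350) (nat_lit 1) (nat_lit 349) (nat_lit 1) (nat_lit 359) (nat_lit 1) (nat_lit 359) (nat_lit 414) (nat_lit 367)))))) (XT.nd (nat_lit 546) (nat_lit 3116) (nat_lit 0) (XT.nd (nat_lit 234) (nat_lit 1292) (nat_lit 0) (XT.nd (nat_lit 78) (nat_lit 684) (nat_lit 0) (XT.lf (nat_lit 76) (nat_lit 2555120621) (nat_lit 0) (nat_lit 19795382) (nat_lit 760) (nat_lit 2555120621) (nat_lit 340) (nat_lit 1) (nat_lit 339) (nat_lit 1) (nat_lit 349) (nat_lit 1) (nat_lit 360) (nat_lit 414) (nat_lit 366)) (XT.nd (nat_lit 78) (nat_lit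 0) (nat_lit 0) (XT.lf (nat_lit 760) (nat_lit 4320712423) (nat_lit 0) (nat_lit 383174438) (nat_lit 684) (nat_lit 383174438) (nat_lit 340) (nat_lit 1) (nat_lit 330) (nat_lit 1) (nat_lit 339) (nat_lit 1) (nat_lit 361) (nat_lit 414) (nat_lit 365)) (XT.lf (nat_lit 76) (nat_lit 1759025286) (nat_lit 0) (nat_lit 1526316998) (nat_lit 760) (nat_lit 1759025286) (nat_lit 331) (nat_lit 1) (nat_lit 330) (nat_lit 1) (nat_lit 340) (nat_lit 1) (nat_lit 362) (nat_lit 414) (nat_lit 364)))) (XT.nd (nat_lit 156) (nat_lit 608) (nat_lit 0) (XT.nd (nat_lit 78) (nat_lit 0) (nat_lit 0) (XT.lf (nat_lit 760) (nat_lit 2721085629) (nat_lit 0) (nat_lit 1140614225) (nat_lit 684) (nat_lit 1140614225) (nat_lit 331) (nat_lit 1) (nat_lit 321) (nat_lit 1) (nat_lit 330) (nat_lit 1) (nat_lit 363) (nat_lit 414) (nat_lit 363)) (XT.lf (nat_lit 76) (nat_lit 960863507) (nat_lit 0) (nat_lit 3039004809) (nat_lit 760) (nat_lit 960863507) (nat_lit 322) (nat_lit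 1) (nat_lit 321) (nat_lit 1) (nat_lit 331) (nat_lit 1) (nat_lit 364) (nat_lit 414) (nat_lit 362))) (XT.nd (nat_lit 78) (nat_lit 0) (nat_lit 0) (XT.lf (nat_lit 684) (nat_lit 1118048646) (nat_lit 0) (nat_lit 1900762116) (nat_lit 608) (nat_lit 1900762116) (nat_lit 322) (nat_lit 1) (nat_lit 313) (nat_lit 1) (nat_lit 321) (nat_lit 1) (nat_lit 365) (nat_lit 414) (nat_lit 361)) (XT.lf (nat_lit 76) (nat_lit 161362191) (nat_lit 0) (nat_lit 4556351408) (nat_lit 684) (nat_lit 161362191) (nat_lit 314) (nat_lit 1) (nat_lit 313) (nat_lit 1) (nat_lit 322) (nat_lit 1) (nat_lit 366) (nat_lit 414) (nat_lit 360))))) (XT.nd (nat_lit 312) (nat_lit 1216) (nat_lit 0) (XT.nd (nat_lit 156) (nat_lit 608) (nat_lit 0) (XT.nd (nat_lit 78) (nat_lit 608) (nat_lit 0) (XT.lf (nat_lit 76) (nat_lit 2179063661) (nat_lit 0) (nat_lit 480594438) (nat_lit 684) (nat_lit 2179063661) (nat_lit 305) (nat_lit 1) (nat_lit 304) (nat_lit 1) (nat_lit 313) (nat_lit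 1) (nat_lit 367) (nat_lit 414) (nat_lit 359)) (XT.lf (nat_lit 684) (nat_lit 3529834381) (nat_lit 0) (nat_lit 634590081) (nat_lit 608) (nat_lit 634590081) (nat_lit 305) (nat_lit 1) (nat_lit 296) (nat_lit 1) (nat_lit 304) (nat_lit 1) (nat_lit 368) (nat_lit 414) (nat_lit 358))) (XT.nd (nat_lit 78) (nat_lit 608) (nat_lit 0) (XT.lf (nat_lit 76) (nat_lit 1347203046) (nat_lit 0) (nat_lit 2065221448) (nat_lit 684) (nat_lit 1347203046) (nat_lit 297) (nat_lit 1) (nat_lit 296) (nat_lit 1) (nat_lit 305) (nat_lit 1) (nat_lit 369) (nat_lit 414) (nat_lit 357)) (XT.lf (nat_lit 684) (nat_lit 1861771767) (nat_lit 0) (nat_lit 1429487326) (nat_lit 608) (nat_lit 1429487326) (nat_lit 297) (nat_lit 1) (nat_lit 288) (nat_lit 1) (nat_lit 296) (nat_lit 1) (nat_lit 370) (nat_lit 414) (nat_lit 356)))) (XT.nd (nat_lit 156) (nat_lit 684) (nat_lit 0) (XT.nd (nat_lit 78) (nat_lit 532) (nat_lit 0) (XT.lf (nat_lit 76) (nat_lit 516566995) (nat_lit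 0) (nat_lit 3649251926) (nat_lit 684) (nat_lit 516566995) (nat_lit 289) (nat_lit 1) (nat_lit 288) (nat_lit 1) (nat_lit 297) (nat_lit 1) (nat_lit 371) (nat_lit 414) (nat_lit 355)) (XT.lf (nat_lit 608) (nat_lit 196735776) (nat_lit 0) (nat_lit 2223785526) (nat_lit 532) (nat_lit 2223785526) (nat_lit 289) (nat_lit 1) (nat_lit 281) (nat_lit 1) (nat_lit 288) (nat_lit 1) (nat_lit 372) (nat_lit 414) (nat_lit 354))) (XT.nd (nat_lit 78) (nat_lit 0) (nat_lit 0) (XT.lf (nat_lit 684) (nat_lit 3986329723) (nat_lit 0) (nat_lit 310228187) (nat_lit 608) (nat_lit 310228187) (nat_lit 281) (nat_lit 1) (nat_lit 272) (nat_lit 1) (nat_lit 280) (nat_lit 1) (nat_lit 373) (nat_lit 414) (nat_lit 353)) (XT.lf (nat_lit 76) (nat_lit 1562240483) (nat_lit 0) (nat_lit 1444977415) (nat_lit 684) (nat_lit 1562240483) (nat_lit 273) (nat_lit 1) (nat_lit 272) (nat_lit 1) (nat_lit 281) (nat_lit 1) (nat_lit 374) (nat_lit 414) (nat_lit 352))))))) (XT.nd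 (nat_lit 1170) (nat_lit 4028) (nat_lit 0) (XT.nd (nat_lit 546) (nat_lit 2508) (nat_lit 0) (XT.nd (nat_lit 234) (nat_lit 1140) (nat_lit 0) (XT.nd (nat_lit 78) (nat_lit 532) (nat_lit 0) (XT.lf (nat_lit 608) (nat_lit 2270024776) (nat_lit 0) (nat_lit 1131325703) (nat_lit 532) (nat_lit 1131325703) (nat_lit 273) (nat_lit 1) (nat_lit 265) (nat_lit 1) (nat_lit 272) (nat_lit 1) (nat_lit 375) (nat_lit 414) (nat_lit 351)) (XT.nd (nat_lit 78) (nat_lit 532) (nat_lit 0) (XT.lf (nat_lit 76) (nat_lit 708644676) (nat_lit 0) (nat_lit 3079031080) (nat_lit 608) (nat_lit 708644676) (nat_lit 266) (nat_lit 1) (nat_lit 265) (nat_lit 1) (nat_lit 273) (nat_lit 1) (nat_lit 376) (nat_lit 414) (nat_lit 350)) (XT.lf (nat_lit 608) (nat_lit 561017446) (nat_lit 0) (nat_lit 1949631451) (nat_lit 532) (nat_lit 1949631451) (nat_lit 266) (nat_lit 1) (nat_lit 258) (nat_lit 1) (nat_lit 265) (nat_lit 1) (nat_lit 377) (nat_lit 414) (nat_lit 349)))) (XT.nd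 (nat_lit 156) (nat_lit 532) (nat_lit 0) (XT.nd (nat_lit 78) (nat_lit 0) (nat_lit 0) (XT.lf (nat_lit 608) (nat_lit 4144476839) (nat_lit 0) (nat_lit 140161856) (nat_lit 532) (nat_lit 140161856) (nat_lit 258) (nat_lit 1) (nat_lit 250) (nat_lit 1) (nat_lit 257) (nat_lit 1) (nat_lit 378) (nat_lit 414) (nat_lit 348)) (XT.lf (nat_lit 76) (nat_lit 1632271868) (nat_lit 0) (nat_lit 1124863106) (nat_lit 608) (nat_lit 1632271868) (nat_lit 251) (nat_lit 1) (nat_lit 250) (nat_lit 1) (nat_lit 258) (nat_lit 1) (nat_lit 379) (nat_lit 414) (nat_lit 347))) (XT.nd (nat_lit 78) (nat_lit 0) (nat_lit 0) (XT.lf (nat_lit 608) (nat_lit 2394463809) (nat_lit 0) (nat_lit 980049106) (nat_lit 532) (nat_lit 980049106) (nat_lit 251) (nat_lit 1) (nat_lit 243) (nat_lit 1) (nat_lit 250) (nat_lit 1) (nat_lit 380) (nat_lit 414) (nat_lit 346)) (XT.lf (nat_lit 76) (nat_lit 762793448) (nat_lit 0) (nat_lit 2794502607) (nat_lit 608) (nat_lit 762793448)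 (nat_lit 244) (nat_lit 1) (nat_lit 243) (nat_lit 1) (nat_lit 251) (nat_lit 1) (nat_lit 381) (nat_lit 414) (nat_lit 345))))) (XT.nd (nat_lit 312) (nat_lit 988) (nat_lit 0) (XT.nd (nat_lit 156) (nat_lit 456) (nat_lit 0) (XT.nd (nat_lit 78) (nat_lit 608) (nat_lit 0) (XT.lf (nat_lit 532) (nat_lit 655361900) (nat_lit 0) (nat_lit 1815285264) (nat_lit 456) (nat_lit 1815285264) (nat_lit 244) (nat_lit 1) (nat_lit 237) (nat_lit 1) (nat_lit 243) (nat_lit 1) (nat_lit 382) (nat_lit 414) (nat_lit 344)) (XT.lf (nat_lit 608) (nat_lit 4051497191) (nat_lit 0) (nat_lit 100405068) (nat_lit 532) (nat_lit 100405068) (nat_lit 237) (nat_lit 1) (nat_lit 229) (nat_lit 1) (nat_lit 236) (nat_lit 1) (nat_lit 383) (nat_lit 414) (nat_lit 343))) (XT.nd (nat_lit 78) (nat_lit 456) (nat_lit 0) (XT.lf (nat_lit 76) (nat_lit 1580329585) (nat_lit 0) (nat_lit 1058072838) (nat_lit 608) (nat_lit 1580329585) (nat_lit 230) (nat_lit 1) (nat_lit 229) (nat_lit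 1) (nat_lit 237) (nat_lit 1) (nat_lit 384) (nat_lit 414) (nat_lit 342)) (XT.lf (nat_lit 532) (nat_lit 2280327558) (nat_lit 0) (nat_lit 952675491) (nat_lit 456) (nat_lit 952675491) (nat_lit 230) (nat_lit 1) (nat_lit 223) (nat_lit 1) (nat_lit 229) (nat_lit 1) (nat_lit 385) (nat_lit 414) (nat_lit 341)))) (XT.nd (nat_lit 156) (nat_lit 532) (nat_lit 0) (XT.nd (nat_lit 78) (nat_lit 456) (nat_lit 0) (XT.lf (nat_lit 76) (nat_lit 701077920) (nat_lit 0) (nat_lit 2750821228) (nat_lit 532) (nat_lit 701077920) (nat_lit 224) (nat_lit 1) (nat_lit 223) (nat_lit 1) (nat_lit 230) (nat_lit 1) (nat_lit 386) (nat_lit 414) (nat_lit 340)) (XT.lf (nat_lit 532) (nat_lit 523105670) (nat_lit 0) (nat_lit 1798728140) (nat_lit 456) (nat_lit 1798728140) (nat_lit 224) (nat_lit 1) (nat_lit 217) (nat_lit 1) (nat_lit 223) (nat_lit 1) (nat_lit 387) (nat_lit 414) (nat_lit 339))) (XT.nd (nat_lit 78) (nat_lit 0) (nat_lit 0) (XT.lf (nat_lit 532) (nat_lit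 3748703972) (nat_lit 0) (nat_lit 169960681) (nat_lit 456) (nat_lit 169960681) (nat_lit 217) (nat_lit 1) (nat_lit 210) (nat_lit 1) (nat_lit 216) (nat_lit 1) (nat_lit 388) (nat_lit 414) (nat_lit 338)) (XT.lf (nat_lit 76) (nat_lit 1426561140) (nat_lit 0) (nat_lit 1203639268) (nat_lit 532) (nat_lit 1426561140) (nat_lit 211) (nat_lit 1) (nat_lit 210) (nat_lit 1) (nat_lit 217) (nat_lit 1) (nat_lit 389) (nat_lit 414) (nat_lit 337)))))) (XT.nd (nat_lit 624) (nat_lit 1824) (nat_lit 0) (XT.nd (nat_lit 312) (nat_lit 836) (nat_lit 0) (XT.nd (nat_lit 156) (nat_lit 912) (nat_lit 0) (XT.nd (nat_lit 78) (nat_lit 0) (nat_lit 0) (XT.lf (nat_lit 532) (nat_lit 1967182336) (nat_lit 0) (nat_lit 1029092470) (nat_lit 456) (nat_lit 1029092470) (nat_lit 211) (nat_lit 1) (nat_lit 204) (nat_lit 1) (nat_lit 210) (nat_lit 1) (nat_lit 390) (nat_lit 414) (nat_lit 336)) (XT.lf (nat_lit 76) (nat_lit 542793033) (nat_lit 0) (nat_lit 2908747066) (nat_lit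 532) (nat_lit 542793033) (nat_lit 205) (nat_lit 1) (nat_lit 204) (nat_lit 1) (nat_lit 211) (nat_lit 1) (nat_lit 391) (nat_lit 414) (nat_lit 335))) (XT.nd (nat_lit 78) (nat_lit 532) (nat_lit 0) (XT.lf (nat_lit 456) (nat_lit 202139502) (nat_lit 0) (nat_lit 1880696386) (nat_lit 380) (nat_lit 1880696386) (nat_lit 205) (nat_lit 1) (nat_lit 199) (nat_lit 1) (nat_lit 204) (nat_lit 1) (nat_lit 392) (nat_lit 414) (nat_lit 334)) (XT.lf (nat_lit 532) (nat_lit 3272189615) (nat_lit 0) (nat_lit 330473062) (nat_lit 456) (nat_lit 330473062) (nat_lit 199) (nat_lit 1) (nat_lit 192) (nat_lit 1) (nat_lit 198) (nat_lit 1) (nat_lit 393) (nat_lit 414) (nat_lit 333)))) (XT.nd (nat_lit 156) (nat_lit 456) (nat_lit 0) (XT.nd (nat_lit 78) (nat_lit 380) (nat_lit 0) (XT.lf (nat_lit 76) (nat_lit 1188564980) (nat_lit 0) (nat_lit 1525754615) (nat_lit 532) (nat_lit 1188564980) (nat_lit 193) (nat_lit 1) (nat_lit 192) (nat_lit 1) (nat_lit 199) (nat_lit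 1) (nat_lit 394) (nat_lit 414) (nat_lit 332)) (XT.lf (nat_lit 456) (nat_lit 1489582635) (nat_lit 0) (nat_lit 1191723558) (nat_lit 380) (nat_lit 1191723558) (nat_lit 193) (nat_lit 1) (nat_lit 187) (nat_lit 1) (nat_lit 192) (nat_lit 1) (nat_lit 395) (nat_lit 414) (nat_lit 331))) (XT.nd (nat_lit 78) (nat_lit 456) (nat_lit 0) (XT.lf (nat_lit 76) (nat_lit 304786706) (nat_lit 0) (nat_lit 3233993475) (nat_lit 456) (nat_lit 304786706) (nat_lit 188) (nat_lit 1) (nat_lit 187) (nat_lit 1) (nat_lit 193) (nat_lit 1) (nat_lit 396) (nat_lit 414) (nat_lit 330)) (XT.lf (nat_lit 76) (nat_lit 1771685731) (nat_lit 0) (nat_lit 270857445) (nat_lit 456) (nat_lit 1771685731) (nat_lit 182) (nat_lit 1) (nat_lit 181) (nat_lit 1) (nat_lit 187) (nat_lit 1) (nat_lit 397) (nat_lit 414) (nat_lit 329))))) (XT.nd (nat_lit 312) (nat_lit 1064) (nat_lit 0) (XT.nd (nat_lit 156) (nat_lit 380) (nat_lit 0) (XT.nd (nat_lit 78) (nat_lit 0) (nat_lit 0) (XT.lf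 (nat_lit 456) (nat_lit 2653435262) (nat_lit 0) (nat_lit 565920126) (nat_lit 380) (nat_lit 565920126) (nat_lit 182) (nat_lit 1) (nat_lit 176) (nat_lit 1) (nat_lit 181) (nat_lit 1) (nat_lit 398) (nat_lit 414) (nat_lit 328)) (XT.lf (nat_lit 76) (nat_lit 881688185) (nat_lit 0) (nat_lit 1993168907) (nat_lit 456) (nat_lit 881688185) (nat_lit 177) (nat_lit 1) (nat_lit 176) (nat_lit 1) (nat_lit 182) (nat_lit 1) (nat_lit 399) (nat_lit 414) (nat_lit 327))) (XT.nd (nat_lit 78) (nat_lit 0) (nat_lit 0) (XT.lf (nat_lit 456) (nat_lit 877656661) (nat_lit 0) (nat_lit 1425232300) (nat_lit 380) (nat_lit 1425232300) (nat_lit 177) (nat_lit 1) (nat_lit 171) (nat_lit 1) (nat_lit 176) (nat_lit 1) (nat_lit 400) (nat_lit 414) (nat_lit 326)) (XT.lf (nat_lit 76) (nat_lit 1745854) (nat_lit 0) (nat_lit 3696648904) (nat_lit 456) (nat_lit 1745854) (nat_lit 172) (nat_lit 1) (nat_lit 171) (nat_lit 1) (nat_lit 177) (nat_lit 1) (nat_lit 401) (nat_lit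 414) (nat_lit 325)))) (XT.nd (nat_lit 156) (nat_lit 304) (nat_lit 0) (XT.nd (nat_lit 78) (nat_lit 380) (nat_lit 0) (XT.lf (nat_lit 76) (nat_lit 1402889068) (nat_lit 0) (nat_lit 866339613) (nat_lit 380) (nat_lit 1402889068) (nat_lit 167) (nat_lit 1) (nat_lit 166) (nat_lit 1) (nat_lit 171) (nat_lit 1) (nat_lit 402) (nat_lit 414) (nat_lit 324)) (XT.lf (nat_lit 456) (nat_lit 1919850959) (nat_lit 0) (nat_lit 862340372) (nat_lit 380) (nat_lit 862340372) (nat_lit 167) (nat_lit 1) (nat_lit 161) (nat_lit 1) (nat_lit 166) (nat_lit 1) (nat_lit 403) (nat_lit 414) (nat_lit 323))) (XT.nd (nat_lit 78) (nat_lit 304) (nat_lit 0) (XT.lf (nat_lit 76) (nat_lit 519290329) (nat_lit 0) (nat_lit 2578656605) (nat_lit 456) (nat_lit 519290329) (nat_lit 162) (nat_lit 1) (nat_lit 161) (nat_lit 1) (nat_lit 167) (nat_lit 1) (nat_lit 404) (nat_lit 414) (nat_lit 322)) (XT.lf (nat_lit 380) (nat_lit 157625321) (nat_lit 0) (nat_lit 1716260021) (nat_lit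 304) (nat_lit 1716260021) (nat_lit 162) (nat_lit 1) (nat_lit 157) (nat_lit 1) (nat_lit 161) (nat_lit 1) (nat_lit 405) (nat_lit 414) (nat_lit 321))))))))
noncomputable def ec49 : XT := (XT.nd (nat_lit 2418) (nat_lit 11324) (nat_lit 0) (XT.nd (nat_lit 1170) (nat_lit 7904) (nat_lit 0) (XT.nd (nat_lit 546) (nat_lit 1520) (nat_lit 0) (XT.nd (nat_lit 234) (nat_lit 0) (nat_lit 152) (XT.nd (nat_lit 78) (nat_lit 0) (nat_lit 76) (XT.lf (nat_lit 1900) (nat_lit 3397666278) (nat_lit 76) (nat_lit 1947684547) (nat_lit 0) (nat_lit 1947684547) (nat_lit 527) (nat_lit 1) (nat_lit 503) (nat_lit 1) (nat_lit 502) (nat_lit 1) (nat_lit 321) (nat_lit 415) (nat_lit 404)) (XT.nd (nat_lit 78) (nat_lit 0) (nat_lit 0) (XT.lf (nat_lit 1900) (nat_lit 1546757352) (nat_lit 0) (nat_lit 4130395628) (nat_lit 1824) (nat_lit 1546757352) (nat_lit 528) (nat_lit 1) (nat_lit 503) (nat_lit 1) (nat_lit 527) (nat_lit 1) (nat_lit 322) (nat_lit 415) (nat_lit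 403)) (XT.lf (nat_lit 1900) (nat_lit 2768153230) (nat_lit 76) (nat_lit 2193727318) (nat_lit 0) (nat_lit 2193727318) (nat_lit 528) (nat_lit 1) (nat_lit 504) (nat_lit 1) (nat_lit 503) (nat_lit 1) (nat_lit 323) (nat_lit 415) (nat_lit 402)))) (XT.nd (nat_lit 156) (nat_lit 0) (nat_lit 76) (XT.nd (nat_lit 78) (nat_lit 0) (nat_lit 0) (XT.lf (nat_lit 1900) (nat_lit 1215419626) (nat_lit 0) (nat_lit 4657445961) (nat_lit 1824) (nat_lit 1215419626) (nat_lit 529) (nat_lit 1) (nat_lit 504) (nat_lit 1) (nat_lit 528) (nat_lit 1) (nat_lit 324) (nat_lit 415) (nat_lit 401)) (XT.lf (nat_lit 1900) (nat_lit 2069498184) (nat_lit 76) (nat_lit 2476091811) (nat_lit 0) (nat_lit 2476091811) (nat_lit 529) (nat_lit 1) (nat_lit 505) (nat_lit 1) (nat_lit 504) (nat_lit 1) (nat_lit 325) (nat_lit 415) (nat_lit 400))) (XT.nd (nat_lit 78) (nat_lit 0) (nat_lit 0) (XT.lf (nat_lit 1900) (nat_lit 850768473) (nat_lit 0) (nat_lit 5254578670) (nat_lit 1824)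 (nat_lit 850768473) (nat_lit 530) (nat_lit 1) (nat_lit 505) (nat_lit 1) (nat_lit 529) (nat_lit 1) (nat_lit 326) (nat_lit 415) (nat_lit 399)) (XT.lf (nat_lit 1900) (nat_lit 1306221040) (nat_lit 76) (nat_lit 2792468082) (nat_lit 0) (nat_lit 2792468082) (nat_lit 530) (nat_lit 1) (nat_lit 506) (nat_lit 1) (nat_lit 505) (nat_lit 1) (nat_lit 327) (nat_lit 415) (nat_lit 398))))) (XT.nd (nat_lit 312) (nat_lit 0) (nat_lit 0) (XT.nd (nat_lit 156) (nat_lit 1824) (nat_lit 0) (XT.nd (nat_lit 78) (nat_lit 0) (nat_lit 0) (XT.lf (nat_lit 1900) (nat_lit 455002977) (nat_lit 0) (nat_lit 5917296914) (nat_lit 1824) (nat_lit 455002977) (nat_lit 531) (nat_lit 1) (nat_lit 506) (nat_lit 1) (nat_lit 530) (nat_lit 1) (nat_lit 328) (nat_lit 415) (nat_lit 397)) (XT.lf (nat_lit 1900) (nat_lit 482630208) (nat_lit 76) (nat_lit 3140653522) (nat_lit 0) (nat_lit 3140653522) (nat_lit 531) (nat_lit 1) (nat_lit 507) (nat_lit 1) (nat_lit 506) (nat_lit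 1) (nat_lit 329) (nat_lit 415) (nat_lit 396))) (XT.nd (nat_lit 78) (nat_lit 1900) (nat_lit 0) (XT.lf (nat_lit 1900) (nat_lit 30219076) (nat_lit 0) (nat_lit 6641313279) (nat_lit 1824) (nat_lit 30219076) (nat_lit 532) (nat_lit 1) (nat_lit 507) (nat_lit 1) (nat_lit 531) (nat_lit 1) (nat_lit 330) (nat_lit 415) (nat_lit 395)) (XT.lf (nat_lit 1976) (nat_lit 3123958549) (nat_lit 0) (nat_lit 391959543) (nat_lit 1900) (nat_lit 3123958549) (nat_lit 508) (nat_lit 1) (nat_lit 482) (nat_lit 1) (nat_lit 507) (nat_lit 1) (nat_lit 331) (nat_lit 415) (nat_lit 394)))) (XT.nd (nat_lit 156) (nat_lit 0) (nat_lit 76) (XT.nd (nat_lit 78) (nat_lit 0) (nat_lit 76) (XT.lf (nat_lit 1976) (nat_lit 5741524089) (nat_lit 76) (nat_lit 418812495) (nat_lit 0) (nat_lit 418812495) (nat_lit 508) (nat_lit 1) (nat_lit 483) (nat_lit 1) (nat_lit 482) (nat_lit 1) (nat_lit 332) (nat_lit 415) (nat_lit 393)) (XT.lf (nat_lit 1976) (nat_lit 2603518508) (nat_lit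 0) (nat_lit 1311829684) (nat_lit 1900) (nat_lit 2603518508) (nat_lit 509) (nat_lit 1) (nat_lit 483) (nat_lit 1) (nat_lit 508) (nat_lit 1) (nat_lit 333) (nat_lit 415) (nat_lit 392))) (XT.nd (nat_lit 78) (nat_lit 0) (nat_lit 76) (XT.lf (nat_lit 1976) (nat_lit 4674399624) (nat_lit 76) (nat_lit 892598740) (nat_lit 0) (nat_lit 892598740) (nat_lit 509) (nat_lit 1) (nat_lit 484) (nat_lit 1) (nat_lit 483) (nat_lit 1) (nat_lit 334) (nat_lit 415) (nat_lit 391)) (XT.lf (nat_lit 76) (nat_lit 2060624906) (nat_lit 0) (nat_lit 2279632856) (nat_lit 1900) (nat_lit 2060624906) (nat_lit 485) (nat_lit 1) (nat_lit 484) (nat_lit 1) (nat_lit 509) (nat_lit 1) (nat_lit 335) (nat_lit 415) (nat_lit 390)))))) (XT.nd (nat_lit 624) (nat_lit 3268) (nat_lit 0) (XT.nd (nat_lit 312) (nat_lit 2736) (nat_lit 0) (XT.nd (nat_lit 156) (nat_lit 912) (nat_lit 0) (XT.nd (nat_lit 78) (nat_lit 0) (nat_lit 0) (XT.lf (nat_lit 1216) (nat_lit 3563948492) (nat_lit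 0) (nat_lit 1389538468) (nat_lit 1140) (nat_lit 1389538468) (nat_lit 485) (nat_lit 1) (nat_lit 469) (nat_lit 1) (nat_lit 484) (nat_lit 1) (nat_lit 336) (nat_lit 415) (nat_lit 389)) (XT.lf (nat_lit 76) (nat_lit 1496986170) (nat_lit 0) (nat_lit 3291867512) (nat_lit 1216) (nat_lit 1496986170) (nat_lit 470) (nat_lit 1) (nat_lit 469) (nat_lit 1) (nat_lit 485) (nat_lit 1) (nat_lit 337) (nat_lit 415) (nat_lit 388))) (XT.nd (nat_lit 78) (nat_lit 0) (nat_lit 0) (XT.lf (nat_lit 988) (nat_lit 2413515168) (nat_lit 0) (nat_lit 1907917873) (nat_lit 912) (nat_lit 1907917873) (nat_lit 470) (nat_lit 1) (nat_lit 457) (nat_lit 1) (nat_lit 469) (nat_lit 1) (nat_lit 338) (nat_lit 415) (nat_lit 387)) (XT.lf (nat_lit 76) (nat_lit 914227982) (nat_lit 0) (nat_lit 4345200236) (nat_lit 988) (nat_lit 914227982) (nat_lit 458) (nat_lit 1) (nat_lit 457) (nat_lit 1) (nat_lit 470) (nat_lit 1) (nat_lit 339) (nat_lit 415) (nat_lit 386)))) (XT.nd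 (nat_lit 156) (nat_lit 1824) (nat_lit 0) (XT.nd (nat_lit 78) (nat_lit 0) (nat_lit 0) (XT.lf (nat_lit 988) (nat_lit 1226281667) (nat_lit 0) (nat_lit 2446105673) (nat_lit 912) (nat_lit 2446105673) (nat_lit 458) (nat_lit 1) (nat_lit 445) (nat_lit 1) (nat_lit 457) (nat_lit 1) (nat_lit 340) (nat_lit 415) (nat_lit 385)) (XT.lf (nat_lit 76) (nat_lit 313896819) (nat_lit 0) (nat_lit 5436458582) (nat_lit 988) (nat_lit 313896819) (nat_lit 446) (nat_lit 1) (nat_lit 445) (nat_lit 1) (nat_lit 458) (nat_lit 1) (nat_lit 341) (nat_lit 415) (nat_lit 384))) (XT.nd (nat_lit 78) (nat_lit 988) (nat_lit 0) (XT.lf (nat_lit 912) (nat_lit 5274494) (nat_lit 0) (nat_lit 3002549591) (nat_lit 836) (nat_lit 3002549591) (nat_lit 446) (nat_lit 1) (nat_lit 434) (nat_lit 1) (nat_lit 445) (nat_lit 1) (nat_lit 342) (nat_lit 415) (nat_lit 383)) (XT.lf (nat_lit 988) (nat_lit 5356300642) (nat_lit 0) (nat_lit 300546288) (nat_lit 912) (nat_lit 300546288)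 (nat_lit 434) (nat_lit 1) (nat_lit 421) (nat_lit 1) (nat_lit 433) (nat_lit 1) (nat_lit 343) (nat_lit 415) (nat_lit 382))))) (XT.nd (nat_lit 312) (nat_lit 1596) (nat_lit 0) (XT.nd (nat_lit 156) (nat_lit 836) (nat_lit 0) (XT.nd (nat_lit 78) (nat_lit 836) (nat_lit 0) (XT.lf (nat_lit 76) (nat_lit 2337238227) (nat_lit 0) (nat_lit 1230278935) (nat_lit 988) (nat_lit 2337238227) (nat_lit 422) (nat_lit 1) (nat_lit 421) (nat_lit 1) (nat_lit 434) (nat_lit 1) (nat_lit 344) (nat_lit 415) (nat_lit 381)) (XT.lf (nat_lit 912) (nat_lit 3997927429) (nat_lit 0) (nat_lit 927531771) (nat_lit 836) (nat_lit 927531771) (nat_lit 422) (nat_lit 1) (nat_lit 410) (nat_lit 1) (nat_lit 421) (nat_lit 1) (nat_lit 345) (nat_lit 415) (nat_lit 380))) (XT.nd (nat_lit 78) (nat_lit 836) (nat_lit 0) (XT.lf (nat_lit 76) (nat_lit 1654083864) (nat_lit 0) (nat_lit 2493554666) (nat_lit 912) (nat_lit 1654083864) (nat_lit 411) (nat_lit 1) (nat_lit 410) (nat_lit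 1) (nat_lit 422) (nat_lit 1) (nat_lit 346) (nat_lit 415) (nat_lit 379)) (XT.lf (nat_lit 912) (nat_lit 2615527765) (nat_lit 0) (nat_lit 1567804828) (nat_lit 836) (nat_lit 1567804828) (nat_lit 411) (nat_lit 1) (nat_lit 399) (nat_lit 1) (nat_lit 410) (nat_lit 1) (nat_lit 347) (nat_lit 415) (nat_lit 378)))) (XT.nd (nat_lit 156) (nat_lit 836) (nat_lit 0) (XT.nd (nat_lit 78) (nat_lit 760) (nat_lit 0) (XT.lf (nat_lit 76) (nat_lit 959573800) (nat_lit 0) (nat_lit 3782057073) (nat_lit 912) (nat_lit 959573800) (nat_lit 400) (nat_lit 1) (nat_lit 399) (nat_lit 1) (nat_lit 411) (nat_lit 1) (nat_lit 348) (nat_lit 415) (nat_lit 377)) (XT.lf (nat_lit 836) (nat_lit 1211539995) (nat_lit 0) (nat_lit 2220111562) (nat_lit 760) (nat_lit 2220111562) (nat_lit 400) (nat_lit 1) (nat_lit 389) (nat_lit 1) (nat_lit 399) (nat_lit 1) (nat_lit 349) (nat_lit 415) (nat_lit 376))) (XT.nd (nat_lit 78) (nat_lit 836) (nat_lit 0) (XT.lf (nat_lit 76)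 (nat_lit 254891802) (nat_lit 0) (nat_lit 5093350079) (nat_lit 836) (nat_lit 254891802) (nat_lit 390) (nat_lit 1) (nat_lit 389) (nat_lit 1) (nat_lit 400) (nat_lit 1) (nat_lit 350) (nat_lit 415) (nat_lit 375)) (XT.lf (nat_lit 76) (nat_lit 2672914133) (nat_lit 0) (nat_lit 208944970) (nat_lit 836) (nat_lit 2672914133) (nat_lit 379) (nat_lit 1) (nat_lit 378) (nat_lit 1) (nat_lit 389) (nat_lit 1) (nat_lit 351) (nat_lit 415) (nat_lit 374))))))) (XT.nd (nat_lit 1170) (nat_lit 5092) (nat_lit 0) (XT.nd (nat_lit 546) (nat_lit 3268) (nat_lit 0) (XT.nd (nat_lit 234) (nat_lit 1444) (nat_lit 0) (XT.nd (nat_lit 78) (nat_lit 760) (nat_lit 0) (XT.lf (nat_lit 836) (nat_lit 4595563413) (nat_lit 0) (nat_lit 455820217) (nat_lit 760) (nat_lit 455820217) (nat_lit 379) (nat_lit 1) (nat_lit 368) (nat_lit 1) (nat_lit 378) (nat_lit 1) (nat_lit 352) (nat_lit 415) (nat_lit 373)) (XT.nd (nat_lit 78) (nat_lit 760) (nat_lit 0) (XT.lf (nat_lit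 76) (nat_lit 1914787720) (nat_lit 0) (nat_lit 1630395001) (nat_lit 836) (nat_lit 1914787720) (nat_lit 369) (nat_lit 1) (nat_lit 368) (nat_lit 1) (nat_lit 379) (nat_lit 1) (nat_lit 353) (nat_lit 415) (nat_lit 372)) (XT.lf (nat_lit 836) (nat_lit 3067880556) (nat_lit 0) (nat_lit 1172786152) (nat_lit 760) (nat_lit 1172786152) (nat_lit 369) (nat_lit 1) (nat_lit 358) (nat_lit 1) (nat_lit 368) (nat_lit 1) (nat_lit 354) (nat_lit 415) (nat_lit 371)))) (XT.nd (nat_lit 156) (nat_lit 760) (nat_lit 0) (XT.nd (nat_lit 78) (nat_lit 684) (nat_lit 0) (XT.lf (nat_lit 76) (nat_lit 1150401888) (nat_lit 0) (nat_lit 3066645241) (nat_lit 836) (nat_lit 1150401888) (nat_lit 359) (nat_lit 1) (nat_lit 358) (nat_lit 1) (nat_lit 369) (nat_lit 1) (nat_lit 355) (nat_lit 415) (nat_lit 370)) (XT.lf (nat_lit 760) (nat_lit 1528592419) (nat_lit 0) (nat_lit 1896679597) (nat_lit 684) (nat_lit 1896679597) (nat_lit 359) (nat_lit 1) (nat_lit 349) (nat_lit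 1) (nat_lit 358) (nat_lit 1) (nat_lit 356) (nat_lit 415) (nat_lit 369))) (XT.nd (nat_lit 78) (nat_lit 760) (nat_lit 0) (XT.lf (nat_lit 76) (nat_lit 380699666) (nat_lit 0) (nat_lit 4515748491) (nat_lit 760) (nat_lit 380699666) (nat_lit 350) (nat_lit 1) (nat_lit 349) (nat_lit 1) (nat_lit 359) (nat_lit 1) (nat_lit 357) (nat_lit 415) (nat_lit 368)) (XT.lf (nat_lit 76) (nat_lit 2606223033) (nat_lit 0) (nat_lit 20191290) (nat_lit 760) (nat_lit 2606223033) (nat_lit 340) (nat_lit 1) (nat_lit 339) (nat_lit 1) (nat_lit 349) (nat_lit 1) (nat_lit 358) (nat_lit 415) (nat_lit 367))))) (XT.nd (nat_lit 312) (nat_lit 1900) (nat_lit 0) (XT.nd (nat_lit 156) (nat_lit 684) (nat_lit 0) (XT.nd (nat_lit 78) (nat_lit 0) (nat_lit 0) (XT.lf (nat_lit 760) (nat_lit 4407126672) (nat_lit 0) (nat_lit 390837927) (nat_lit 684) (nat_lit 390837927) (nat_lit 340) (nat_lit 1) (nat_lit 330) (nat_lit 1) (nat_lit 339) (nat_lit 1) (nat_lit 359) (nat_lit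 415) (nat_lit 366)) (XT.lf (nat_lit 76) (nat_lit 1794205791) (nat_lit 0) (nat_lit 1556843338) (nat_lit 760) (nat_lit 1794205791) (nat_lit 331) (nat_lit 1) (nat_lit 330) (nat_lit 1) (nat_lit 340) (nat_lit 1) (nat_lit 360) (nat_lit 415) (nat_lit 365))) (XT.nd (nat_lit 78) (nat_lit 0) (nat_lit 0) (XT.lf (nat_lit 760) (nat_lit 2775507341) (nat_lit 0) (nat_lit 1163426509) (nat_lit 684) (nat_lit 1163426509) (nat_lit 331) (nat_lit 1) (nat_lit 321) (nat_lit 1) (nat_lit 330) (nat_lit 1) (nat_lit 361) (nat_lit 415) (nat_lit 364)) (XT.lf (nat_lit 76) (nat_lit 980080777) (nat_lit 0) (nat_lit 3099784905) (nat_lit 760) (nat_lit 980080777) (nat_lit 322) (nat_lit 1) (nat_lit 321) (nat_lit 1) (nat_lit 331) (nat_lit 1) (nat_lit 362) (nat_lit 415) (nat_lit 363)))) (XT.nd (nat_lit 156) (nat_lit 1292) (nat_lit 0) (XT.nd (nat_lit 78) (nat_lit 0) (nat_lit 0) (XT.lf (nat_lit 684) (nat_lit 1140409619) (nat_lit 0) (nat_lit 1938777358) (nat_lit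 608) (nat_lit 1938777358) (nat_lit 322) (nat_lit 1) (nat_lit 313) (nat_lit 1) (nat_lit 321) (nat_lit 1) (nat_lit 363) (nat_lit 415) (nat_lit 362)) (XT.lf (nat_lit 76) (nat_lit 164589434) (nat_lit 0) (nat_lit 4647478436) (nat_lit 684) (nat_lit 164589434) (nat_lit 314) (nat_lit 1) (nat_lit 313) (nat_lit 1) (nat_lit 322) (nat_lit 1) (nat_lit 364) (nat_lit 415) (nat_lit 361))) (XT.nd (nat_lit 78) (nat_lit 608) (nat_lit 0) (XT.lf (nat_lit 76) (nat_lit 2222644934) (nat_lit 0) (nat_lit 490206327) (nat_lit 684) (nat_lit 2222644934) (nat_lit 305) (nat_lit 1) (nat_lit 304) (nat_lit 1) (nat_lit 313) (nat_lit 1) (nat_lit 365) (nat_lit 415) (nat_lit 360)) (XT.lf (nat_lit 684) (nat_lit 3600431069) (nat_lit 0) (nat_lit 647281883) (nat_lit 608) (nat_lit 647281883) (nat_lit 305) (nat_lit 1) (nat_lit 296) (nat_lit 1) (nat_lit 304) (nat_lit 1) (nat_lit 366) (nat_lit 415) (nat_lit 359)))))) (XT.nd (nat_lit 624) (nat_lit 2736) (nat_lit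 0) (XT.nd (nat_lit 312) (nat_lit 1216) (nat_lit 0) (XT.nd (nat_lit 156) (nat_lit 532) (nat_lit 0) (XT.nd (nat_lit 78) (nat_lit 608) (nat_lit 0) (XT.lf (nat_lit 76) (nat_lit 1374147107) (nat_lit 0) (nat_lit 2106525877) (nat_lit 684) (nat_lit 1374147107) (nat_lit 297) (nat_lit 1) (nat_lit 296) (nat_lit 1) (nat_lit 305) (nat_lit 1) (nat_lit 367) (nat_lit 415) (nat_lit 358)) (XT.lf (nat_lit 684) (nat_lit 1899007202) (nat_lit 0) (nat_lit 1458077073) (nat_lit 608) (nat_lit 1458077073) (nat_lit 297) (nat_lit 1) (nat_lit 288) (nat_lit 1) (nat_lit 296) (nat_lit 1) (nat_lit 368) (nat_lit 415) (nat_lit 357))) (XT.nd (nat_lit 78) (nat_lit 532) (nat_lit 0) (XT.lf (nat_lit 76) (nat_lit 526898335) (nat_lit 0) (nat_lit 3722236965) (nat_lit 684) (nat_lit 526898335) (nat_lit 289) (nat_lit 1) (nat_lit 288) (nat_lit 1) (nat_lit 297) (nat_lit 1) (nat_lit 369) (nat_lit 415) (nat_lit 356)) (XT.lf (nat_lit 608) (nat_lit 200670492) (nat_lit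 0) (nat_lit 2268261237) (nat_lit 532) (nat_lit 2268261237) (nat_lit 289) (nat_lit 1) (nat_lit 281) (nat_lit 1) (nat_lit 288) (nat_lit 1) (nat_lit 370) (nat_lit 415) (nat_lit 355)))) (XT.nd (nat_lit 156) (nat_lit 532) (nat_lit 0) (XT.nd (nat_lit 78) (nat_lit 0) (nat_lit 0) (XT.lf (nat_lit 684) (nat_lit 4066056318) (nat_lit 0) (nat_lit 316432751) (nat_lit 608) (nat_lit 316432751) (nat_lit 281) (nat_lit 1) (nat_lit 272) (nat_lit 1) (nat_lit 280) (nat_lit 1) (nat_lit 371) (nat_lit 415) (nat_lit 354)) (XT.lf (nat_lit 76) (nat_lit 1593485293) (nat_lit 0) (nat_lit 1473876963) (nat_lit 684) (nat_lit 1593485293) (nat_lit 273) (nat_lit 1) (nat_lit 272) (nat_lit 1) (nat_lit 281) (nat_lit 1) (nat_lit 372) (nat_lit 415) (nat_lit 353))) (XT.nd (nat_lit 78) (nat_lit 0) (nat_lit 0) (XT.lf (nat_lit 608) (nat_lit 2315425272) (nat_lit 0) (nat_lit 1153952217) (nat_lit 532) (nat_lit 1153952217) (nat_lit 273) (nat_lit 1) (nat_lit 265)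 (nat_lit 1) (nat_lit 272) (nat_lit 1) (nat_lit 373) (nat_lit 415) (nat_lit 352)) (XT.lf (nat_lit 76) (nat_lit 722817569) (nat_lit 0) (nat_lit 3140611702) (nat_lit 608) (nat_lit 722817569) (nat_lit 266) (nat_lit 1) (nat_lit 265) (nat_lit 1) (nat_lit 273) (nat_lit 1) (nat_lit 374) (nat_lit 415) (nat_lit 351))))) (XT.nd (nat_lit 312) (nat_lit 1064) (nat_lit 0) (XT.nd (nat_lit 156) (nat_lit 532) (nat_lit 0) (XT.nd (nat_lit 78) (nat_lit 608) (nat_lit 0) (XT.lf (nat_lit 608) (nat_lit 572237795) (nat_lit 0) (nat_lit 1988624080) (nat_lit 532) (nat_lit 1988624080) (nat_lit 266) (nat_lit 1) (nat_lit 258) (nat_lit 1) (nat_lit 265) (nat_lit 1) (nat_lit 375) (nat_lit 415) (nat_lit 350)) (XT.lf (nat_lit 608) (nat_lit 4227366376) (nat_lit 0) (nat_lit 142965093) (nat_lit 532) (nat_lit 142965093) (nat_lit 258) (nat_lit 1) (nat_lit 250) (nat_lit 1) (nat_lit 257) (nat_lit 1) (nat_lit 376) (nat_lit 415) (nat_lit 349))) (XT.nd (nat_lit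 78) (nat_lit 532) (nat_lit 0) (XT.lf (nat_lit 76) (nat_lit 1664917305) (nat_lit 0) (nat_lit 1147360368) (nat_lit 608) (nat_lit 1664917305) (nat_lit 251) (nat_lit 1) (nat_lit 250) (nat_lit 1) (nat_lit 258) (nat_lit 1) (nat_lit 377) (nat_lit 415) (nat_lit 348)) (XT.lf (nat_lit 608) (nat_lit 2442353086) (nat_lit 0) (nat_lit 999650088) (nat_lit 532) (nat_lit 999650088) (nat_lit 251) (nat_lit 1) (nat_lit 243) (nat_lit 1) (nat_lit 250) (nat_lit 1) (nat_lit 378) (nat_lit 415) (nat_lit 347)))) (XT.nd (nat_lit 156) (nat_lit 608) (nat_lit 0) (XT.nd (nat_lit 78) (nat_lit 456) (nat_lit 0) (XT.lf (nat_lit 76) (nat_lit 778049317) (nat_lit 0) (nat_lit 2850392659) (nat_lit 608) (nat_lit 778049317) (nat_lit 244) (nat_lit 1) (nat_lit 243) (nat_lit 1) (nat_lit 251) (nat_lit 1) (nat_lit 379) (nat_lit 415) (nat_lit 346)) (XT.lf (nat_lit 532) (nat_lit 668469138) (nat_lit 0) (nat_lit 1851590969) (nat_lit 456) (nat_lit 1851590969) (nat_lit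 244) (nat_lit 1) (nat_lit 237) (nat_lit 1) (nat_lit 243) (nat_lit 1) (nat_lit 380) (nat_lit 415) (nat_lit 345))) (XT.nd (nat_lit 78) (nat_lit 0) (nat_lit 0) (XT.lf (nat_lit 608) (nat_lit 4132527135) (nat_lit 0) (nat_lit 102413169) (nat_lit 532) (nat_lit 102413169) (nat_lit 237) (nat_lit 1) (nat_lit 229) (nat_lit 1) (nat_lit 236) (nat_lit 1) (nat_lit 381) (nat_lit 415) (nat_lit 344)) (XT.lf (nat_lit 76) (nat_lit 1611936177) (nat_lit 0) (nat_lit 1079234294) (nat_lit 608) (nat_lit 1611936177) (nat_lit 230) (nat_lit 1) (nat_lit 229) (nat_lit 1) (nat_lit 237) (nat_lit 1) (nat_lit 382) (nat_lit 415) (nat_lit 343))))))))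
noncomputable def ec50 : XT := (XT.nd (nat_lit 55146) (nat_lit 0) (nat_lit 12920) (XT.nd (nat_lit 1170) (nat_lit 1900) (nat_lit 0) (XT.nd (nat_lit 546) (nat_lit 2128) (nat_lit 0) (XT.nd (nat_lit 234) (nat_lit 988) (nat_lit 0) (XT.nd (nat_lit 78) (nat_lit 456) (nat_lit 0) (XT.lf (nat_lit 532) (nat_lit 2325934109) (nat_lit 0) (nat_lit 971729000) (nat_lit 456) (nat_lit 971729000) (nat_lit 230) (nat_lit 1) (nat_lit 223) (nat_lit 1) (nat_lit 229) (nat_lit 1) (nat_lit 383) (nat_lit 415) (nat_lit 342)) (XT.nd (nat_lit 78) (nat_lit 456) (nat_lit 0) (XT.lf (nat_lit 76) (nat_lit 715099479) (nat_lit 0) (nat_lit 2805837653) (nat_lit 532) (nat_lit 715099479) (nat_lit 224) (nat_lit 1) (nat_lit 223) (nat_lit 1) (nat_lit 230) (nat_lit 1) (nat_lit 384) (nat_lit 415) (nat_lit 341)) (XT.lf (nat_lit 532) (nat_lit 533567784) (nat_lit 0) (nat_lit 1834702703) (nat_lit 456) (nat_lit 1834702703) (nat_lit 224) (nat_lit 1) (nat_lit 217)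 (nat_lit 1) (nat_lit 223) (nat_lit 1) (nat_lit 385) (nat_lit 415) (nat_lit 340)))) (XT.nd (nat_lit 156) (nat_lit 456) (nat_lit 0) (XT.nd (nat_lit 78) (nat_lit 0) (nat_lit 0) (XT.lf (nat_lit 532) (nat_lit 3823678051) (nat_lit 0) (nat_lit 173359895) (nat_lit 456) (nat_lit 173359895) (nat_lit 217) (nat_lit 1) (nat_lit 210) (nat_lit 1) (nat_lit 216) (nat_lit 1) (nat_lit 386) (nat_lit 415) (nat_lit 339)) (XT.lf (nat_lit 76) (nat_lit 1455092363) (nat_lit 0) (nat_lit 1227712054) (nat_lit 532) (nat_lit 1455092363) (nat_lit 211) (nat_lit 1) (nat_lit 210) (nat_lit 1) (nat_lit 217) (nat_lit 1) (nat_lit 387) (nat_lit 415) (nat_lit 338))) (XT.nd (nat_lit 78) (nat_lit 0) (nat_lit 0) (XT.lf (nat_lit 532) (nat_lit 2006525983) (nat_lit 0) (nat_lit 1049674319) (nat_lit 456) (nat_lit 1049674319) (nat_lit 211) (nat_lit 1) (nat_lit 204) (nat_lit 1) (nat_lit 210) (nat_lit 1) (nat_lit 388) (nat_lit 415) (nat_lit 337)) (XT.lf (nat_lit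 76) (nat_lit 553648893) (nat_lit 0) (nat_lit 2966922007) (nat_lit 532) (nat_lit 553648893) (nat_lit 205) (nat_lit 1) (nat_lit 204) (nat_lit 1) (nat_lit 211) (nat_lit 1) (nat_lit 389) (nat_lit 415) (nat_lit 336))))) (XT.nd (nat_lit 312) (nat_lit 836) (nat_lit 0) (XT.nd (nat_lit 156) (nat_lit 380) (nat_lit 0) (XT.nd (nat_lit 78) (nat_lit 532) (nat_lit 0) (XT.lf (nat_lit 456) (nat_lit 206182292) (nat_lit 0) (nat_lit 1918310314) (nat_lit 380) (nat_lit 1918310314) (nat_lit 205) (nat_lit 1) (nat_lit 199) (nat_lit 1) (nat_lit 204) (nat_lit 1) (nat_lit 390) (nat_lit 415) (nat_lit 335)) (XT.lf (nat_lit 532) (nat_lit 3337633407) (nat_lit 0) (nat_lit 337082523) (nat_lit 456) (nat_lit 337082523) (nat_lit 199) (nat_lit 1) (nat_lit 192) (nat_lit 1) (nat_lit 198) (nat_lit 1) (nat_lit 391) (nat_lit 415) (nat_lit 334))) (XT.nd (nat_lit 78) (nat_lit 380) (nat_lit 0) (XT.lf (nat_lit 76) (nat_lit 1212336279) (nat_lit 0) (nat_lit 1556269708)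 (nat_lit 532) (nat_lit 1212336279) (nat_lit 193) (nat_lit 1) (nat_lit 192) (nat_lit 1) (nat_lit 199) (nat_lit 1) (nat_lit 392) (nat_lit 415) (nat_lit 333)) (XT.lf (nat_lit 456) (nat_lit 1519374288) (nat_lit 0) (nat_lit 1215558029) (nat_lit 380) (nat_lit 1215558029) (nat_lit 193) (nat_lit 1) (nat_lit 187) (nat_lit 1) (nat_lit 192) (nat_lit 1) (nat_lit 393) (nat_lit 415) (nat_lit 332)))) (XT.nd (nat_lit 156) (nat_lit 380) (nat_lit 0) (XT.nd (nat_lit 78) (nat_lit 456) (nat_lit 0) (XT.lf (nat_lit 76) (nat_lit 310882441) (nat_lit 0) (nat_lit 3298673344) (nat_lit 456) (nat_lit 310882441) (nat_lit 188) (nat_lit 1) (nat_lit 187) (nat_lit 1) (nat_lit 193) (nat_lit 1) (nat_lit 394) (nat_lit 415) (nat_lit 331)) (XT.lf (nat_lit 76) (nat_lit 1807119446) (nat_lit 0) (nat_lit 276274594) (nat_lit 456) (nat_lit 1807119446) (nat_lit 182) (nat_lit 1) (nat_lit 181) (nat_lit 1) (nat_lit 187) (nat_lit 1) (nat_lit 395) (nat_lit 415)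 (nat_lit 330))) (XT.nd (nat_lit 78) (nat_lit 0) (nat_lit 0) (XT.lf (nat_lit 456) (nat_lit 2706503967) (nat_lit 0) (nat_lit 577238529) (nat_lit 380) (nat_lit 577238529) (nat_lit 182) (nat_lit 1) (nat_lit 176) (nat_lit 1) (nat_lit 181) (nat_lit 1) (nat_lit 396) (nat_lit 415) (nat_lit 329)) (XT.lf (nat_lit 76) (nat_lit 899321949) (nat_lit 0) (nat_lit 2033032285) (nat_lit 456) (nat_lit 899321949) (nat_lit 177) (nat_lit 1) (nat_lit 176) (nat_lit 1) (nat_lit 182) (nat_lit 1) (nat_lit 397) (nat_lit 415) (nat_lit 328)))))) (XT.nd (nat_lit 53352) (nat_lit 0) (nat_lit 26752) (XT.nd (nat_lit 234) (nat_lit 1140) (nat_lit 0) (XT.nd (nat_lit 78) (nat_lit 380) (nat_lit 0) (XT.lf (nat_lit 456) (nat_lit 895209795) (nat_lit 0) (nat_lit 1453736946) (nat_lit 380) (nat_lit 1453736946) (nat_lit 177) (nat_lit 1) (nat_lit 171) (nat_lit 1) (nat_lit 176) (nat_lit 1) (nat_lit 398) (nat_lit 415) (nat_lit 327)) (XT.nd (nat_lit 78) (nat_lit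 380) (nat_lit 0) (XT.lf (nat_lit 76) (nat_lit 1780772) (nat_lit 0) (nat_lit 3770581882) (nat_lit 456) (nat_lit 1780772) (nat_lit 172) (nat_lit 1) (nat_lit 171) (nat_lit 1) (nat_lit 177) (nat_lit 1) (nat_lit 399) (nat_lit 415) (nat_lit 326)) (XT.lf (nat_lit 76) (nat_lit 1430946849) (nat_lit 0) (nat_lit 883666406) (nat_lit 380) (nat_lit 1430946849) (nat_lit 167) (nat_lit 1) (nat_lit 166) (nat_lit 1) (nat_lit 171) (nat_lit 1) (nat_lit 400) (nat_lit 415) (nat_lit 325)))) (XT.nd (nat_lit 156) (nat_lit 760) (nat_lit 0) (XT.nd (nat_lit 78) (nat_lit 0) (nat_lit 0) (XT.lf (nat_lit 456) (nat_lit 1958247978) (nat_lit 0) (nat_lit 879587180) (nat_lit 380) (nat_lit 879587180) (nat_lit 167) (nat_lit 1) (nat_lit 161) (nat_lit 1) (nat_lit 166) (nat_lit 1) (nat_lit 401) (nat_lit 415) (nat_lit 324)) (XT.lf (nat_lit 76) (nat_lit 529676135) (nat_lit 0) (nat_lit 2630229737) (nat_lit 456) (nat_lit 529676135) (nat_lit 162) (nat_lit 1)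 (nat_lit 161) (nat_lit 1) (nat_lit 167) (nat_lit 1) (nat_lit 402) (nat_lit 415) (nat_lit 323))) (XT.nd (nat_lit 78) (nat_lit 456) (nat_lit 0) (XT.lf (nat_lit 380) (nat_lit 160777827) (nat_lit 0) (nat_lit 1750585221) (nat_lit 304) (nat_lit 1750585221) (nat_lit 162) (nat_lit 1) (nat_lit 157) (nat_lit 1) (nat_lit 161) (nat_lit 1) (nat_lit 403) (nat_lit 415) (nat_lit 322)) (XT.lf (nat_lit 456) (nat_lit 2918150305) (nat_lit 0) (nat_lit 358248624) (nat_lit 380) (nat_lit 358248624) (nat_lit 157) (nat_lit 1) (nat_lit 151) (nat_lit 1) (nat_lit 156) (nat_lit 1) (nat_lit 404) (nat_lit 415) (nat_lit 321))))) (XT.nd (nat_lit 312) (nat_lit 0) (nat_lit 152) (XT.nd (nat_lit 156) (nat_lit 0) (nat_lit 76) (XT.nd (nat_lit 78) (nat_lit 0) (nat_lit 76) (XT.lf (nat_lit 1900) (nat_lit 2823516295) (nat_lit 76) (nat_lit 2237601865) (nat_lit 0) (nat_lit 2237601865) (nat_lit 528) (nat_lit 1) (nat_lit 504) (nat_lit 1) (nat_lit 503) (nat_lit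 1) (nat_lit 321) (nat_lit 416) (nat_lit 403)) (XT.lf (nat_lit 1900) (nat_lit 1239728019) (nat_lit 0) (nat_lit 4750594880) (nat_lit 1824) (nat_lit 1239728019) (nat_lit 529) (nat_lit 1) (nat_lit 504) (nat_lit 1) (nat_lit 528) (nat_lit 1) (nat_lit 322) (nat_lit 416) (nat_lit 402))) (XT.nd (nat_lit 78) (nat_lit 0) (nat_lit 76) (XT.lf (nat_lit 1900) (nat_lit 2110888147) (nat_lit 76) (nat_lit 2525613648) (nat_lit 0) (nat_lit 2525613648) (nat_lit 529) (nat_lit 1) (nat_lit 505) (nat_lit 1) (nat_lit 504) (nat_lit 1) (nat_lit 323) (nat_lit 416) (nat_lit 401)) (XT.lf (nat_lit 1900) (nat_lit 867783843) (nat_lit 0) (nat_lit 5359670244) (nat_lit 1824) (nat_lit 867783843) (nat_lit 530) (nat_lit 1) (nat_lit 505) (nat_lit 1) (nat_lit 529) (nat_lit 1) (nat_lit 324) (nat_lit 416) (nat_lit 400)))) (XT.nd (nat_lit 156) (nat_lit 0) (nat_lit 76) (XT.nd (nat_lit 78) (nat_lit 0) (nat_lit 76) (XT.lf (nat_lit 1900) (nat_lit 1332345461) (nat_lit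 76) (nat_lit 2848317443) (nat_lit 0) (nat_lit 2848317443) (nat_lit 530) (nat_lit 1) (nat_lit 506) (nat_lit 1) (nat_lit 505) (nat_lit 1) (nat_lit 325) (nat_lit 416) (nat_lit 399)) (XT.lf (nat_lit 1900) (nat_lit 464103037) (nat_lit 0) (nat_lit 6035642852) (nat_lit 1824) (nat_lit 464103037) (nat_lit 531) (nat_lit 1) (nat_lit 506) (nat_lit 1) (nat_lit 530) (nat_lit 1) (nat_lit 326) (nat_lit 416) (nat_lit 398))) (XT.nd (nat_lit 78) (nat_lit 0) (nat_lit 76) (XT.lf (nat_lit 1900) (nat_lit 492282813) (nat_lit 76) (nat_lit 3203466593) (nat_lit 0) (nat_lit 3203466593) (nat_lit 531) (nat_lit 1) (nat_lit 507) (nat_lit 1) (nat_lit 506) (nat_lit 1) (nat_lit 327) (nat_lit 416) (nat_lit 397)) (XT.lf (nat_lit 1900) (nat_lit 30823457) (nat_lit 0) (nat_lit 6774139544) (nat_lit 1824) (nat_lit 30823457) (nat_lit 532) (nat_lit 1) (nat_lit 507) (nat_lit 1) (nat_lit 531) (nat_lit 1) (nat_lit 328) (nat_lit 416) (nat_lit 396))))))) (XT.nd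 (nat_lit 1170) (nat_lit 6764) (nat_lit 0) (XT.nd (nat_lit 546) (nat_lit 4484) (nat_lit 0) (XT.nd (nat_lit 234) (nat_lit 988) (nat_lit 0) (XT.nd (nat_lit 78) (nat_lit 0) (nat_lit 0) (XT.lf (nat_lit 1976) (nat_lit 3186437720) (nat_lit 0) (nat_lit 399798734) (nat_lit 1900) (nat_lit 3186437720) (nat_lit 508) (nat_lit 1) (nat_lit 482) (nat_lit 1) (nat_lit 507) (nat_lit 1) (nat_lit 329) (nat_lit 416) (nat_lit 395)) (XT.nd (nat_lit 78) (nat_lit 0) (nat_lit 76) (XT.lf (nat_lit 1976) (nat_lit 5856354571) (nat_lit 76) (nat_lit 427188745) (nat_lit 0) (nat_lit 427188745) (nat_lit 508) (nat_lit 1) (nat_lit 483) (nat_lit 1) (nat_lit 482) (nat_lit 1) (nat_lit 330) (nat_lit 416) (nat_lit 394)) (XT.lf (nat_lit 1976) (nat_lit 2655588878) (nat_lit 0) (nat_lit 1338066278) (nat_lit 1900) (nat_lit 2655588878) (nat_lit 509) (nat_lit 1) (nat_lit 483) (nat_lit 1) (nat_lit 508) (nat_lit 1) (nat_lit 331) (nat_lit 416) (nat_lit 393)))) (XT.nd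 (nat_lit 156) (nat_lit 1064) (nat_lit 0) (XT.nd (nat_lit 78) (nat_lit 0) (nat_lit 76) (XT.lf (nat_lit 1976) (nat_lit 4767887616) (nat_lit 76) (nat_lit 910450714) (nat_lit 0) (nat_lit 910450714) (nat_lit 509) (nat_lit 1) (nat_lit 484) (nat_lit 1) (nat_lit 483) (nat_lit 1) (nat_lit 332) (nat_lit 416) (nat_lit 392)) (XT.lf (nat_lit 76) (nat_lit 2101837404) (nat_lit 0) (nat_lit 2325225513) (nat_lit 1900) (nat_lit 2101837404) (nat_lit 485) (nat_lit 1) (nat_lit 484) (nat_lit 1) (nat_lit 509) (nat_lit 1) (nat_lit 333) (nat_lit 416) (nat_lit 391))) (XT.nd (nat_lit 78) (nat_lit 0) (nat_lit 0) (XT.lf (nat_lit 1216) (nat_lit 3635227462) (nat_lit 0) (nat_lit 1417329237) (nat_lit 1140) (nat_lit 1417329237) (nat_lit 485) (nat_lit 1) (nat_lit 469) (nat_lit 1) (nat_lit 484) (nat_lit 1) (nat_lit 334) (nat_lit 416) (nat_lit 390)) (XT.lf (nat_lit 76) (nat_lit 1526925893) (nat_lit 0) (nat_lit 3357704862) (nat_lit 1216) (nat_lit 1526925893)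 (nat_lit 470) (nat_lit 1) (nat_lit 469) (nat_lit 1) (nat_lit 485) (nat_lit 1) (nat_lit 335) (nat_lit 416) (nat_lit 389))))) (XT.nd (nat_lit 312) (nat_lit 2660) (nat_lit 0) (XT.nd (nat_lit 156) (nat_lit 912) (nat_lit 0) (XT.nd (nat_lit 78) (nat_lit 0) (nat_lit 0) (XT.lf (nat_lit 988) (nat_lit 2461785471) (nat_lit 0) (nat_lit 1946076231) (nat_lit 912) (nat_lit 1946076231) (nat_lit 470) (nat_lit 1) (nat_lit 457) (nat_lit 1) (nat_lit 469) (nat_lit 1) (nat_lit 336) (nat_lit 416) (nat_lit 388)) (XT.lf (nat_lit 76) (nat_lit 932512542) (nat_lit 0) (nat_lit 4432104240) (nat_lit 988) (nat_lit 932512542) (nat_lit 458) (nat_lit 1) (nat_lit 457) (nat_lit 1) (nat_lit 470) (nat_lit 1) (nat_lit 337) (nat_lit 416) (nat_lit 387))) (XT.nd (nat_lit 78) (nat_lit 0) (nat_lit 0) (XT.lf (nat_lit 988) (nat_lit 1250807301) (nat_lit 0) (nat_lit 2495027786) (nat_lit 912) (nat_lit 2495027786) (nat_lit 458) (nat_lit 1) (nat_lit 445) (nat_lit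 1) (nat_lit 457) (nat_lit 1) (nat_lit 338) (nat_lit 416) (nat_lit 386)) (XT.lf (nat_lit 76) (nat_lit 320174755) (nat_lit 0) (nat_lit 5545187754) (nat_lit 988) (nat_lit 320174755) (nat_lit 446) (nat_lit 1) (nat_lit 445) (nat_lit 1) (nat_lit 458) (nat_lit 1) (nat_lit 339) (nat_lit 416) (nat_lit 385)))) (XT.nd (nat_lit 156) (nat_lit 836) (nat_lit 0) (XT.nd (nat_lit 78) (nat_lit 988) (nat_lit 0) (XT.lf (nat_lit 912) (nat_lit 5379984) (nat_lit 0) (nat_lit 3062600582) (nat_lit 836) (nat_lit 3062600582) (nat_lit 446) (nat_lit 1) (nat_lit 434) (nat_lit 1) (nat_lit 445) (nat_lit 1) (nat_lit 340) (nat_lit 416) (nat_lit 384)) (XT.lf (nat_lit 988) (nat_lit 5463426655) (nat_lit 0) (nat_lit 306557214) (nat_lit 912) (nat_lit 306557214) (nat_lit 434) (nat_lit 1) (nat_lit 421) (nat_lit 1) (nat_lit 433) (nat_lit 1) (nat_lit 341) (nat_lit 416) (nat_lit 383))) (XT.nd (nat_lit 78) (nat_lit 836) (nat_lit 0) (XT.lf (nat_lit 76) (nat_lit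 2383982992) (nat_lit 0) (nat_lit 1254884514) (nat_lit 988) (nat_lit 2383982992) (nat_lit 422) (nat_lit 1) (nat_lit 421) (nat_lit 1) (nat_lit 434) (nat_lit 1) (nat_lit 342) (nat_lit 416) (nat_lit 382)) (XT.lf (nat_lit 912) (nat_lit 4077885977) (nat_lit 0) (nat_lit 946082406) (nat_lit 836) (nat_lit 946082406) (nat_lit 422) (nat_lit 1) (nat_lit 410) (nat_lit 1) (nat_lit 421) (nat_lit 1) (nat_lit 343) (nat_lit 416) (nat_lit 381)))))) (XT.nd (nat_lit 624) (nat_lit 3572) (nat_lit 0) (XT.nd (nat_lit 312) (nat_lit 1596) (nat_lit 0) (XT.nd (nat_lit 156) (nat_lit 760) (nat_lit 0) (XT.nd (nat_lit 78) (nat_lit 836) (nat_lit 0) (XT.lf (nat_lit 76) (nat_lit 1687165542) (nat_lit 0) (nat_lit 2543425759) (nat_lit 912) (nat_lit 1687165542) (nat_lit 411) (nat_lit 1) (nat_lit 410) (nat_lit 1) (nat_lit 422) (nat_lit 1) (nat_lit 344) (nat_lit 416) (nat_lit 380)) (XT.lf (nat_lit 912) (nat_lit 2667838320) (nat_lit 0) (nat_lit 1599160924)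 (nat_lit 836) (nat_lit 1599160924) (nat_lit 411) (nat_lit 1) (nat_lit 399) (nat_lit 1) (nat_lit 410) (nat_lit 1) (nat_lit 345) (nat_lit 416) (nat_lit 379))) (XT.nd (nat_lit 78) (nat_lit 760) (nat_lit 0) (XT.lf (nat_lit 76) (nat_lit 978765276) (nat_lit 0) (nat_lit 3857698215) (nat_lit 912) (nat_lit 978765276) (nat_lit 400) (nat_lit 1) (nat_lit 399) (nat_lit 1) (nat_lit 411) (nat_lit 1) (nat_lit 346) (nat_lit 416) (nat_lit 378)) (XT.lf (nat_lit 836) (nat_lit 1235770795) (nat_lit 0) (nat_lit 2264513793) (nat_lit 760) (nat_lit 2264513793) (nat_lit 400) (nat_lit 1) (nat_lit 389) (nat_lit 1) (nat_lit 399) (nat_lit 1) (nat_lit 347) (nat_lit 416) (nat_lit 377)))) (XT.nd (nat_lit 156) (nat_lit 760) (nat_lit 0) (XT.nd (nat_lit 78) (nat_lit 836) (nat_lit 0) (XT.lf (nat_lit 76) (nat_lit 259989638) (nat_lit 0) (nat_lit 5195217081) (nat_lit 836) (nat_lit 259989638) (nat_lit 390) (nat_lit 1) (nat_lit 389) (nat_lit 1) (nat_lit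 400) (nat_lit 1) (nat_lit 348) (nat_lit 416) (nat_lit 376)) (XT.lf (nat_lit 76) (nat_lit 2726372416) (nat_lit 0) (nat_lit 213123869) (nat_lit 836) (nat_lit 2726372416) (nat_lit 379) (nat_lit 1) (nat_lit 378) (nat_lit 1) (nat_lit 389) (nat_lit 1) (nat_lit 349) (nat_lit 416) (nat_lit 375))) (XT.nd (nat_lit 78) (nat_lit 0) (nat_lit 0) (XT.lf (nat_lit 836) (nat_lit 4687474681) (nat_lit 0) (nat_lit 464936621) (nat_lit 760) (nat_lit 464936621) (nat_lit 379) (nat_lit 1) (nat_lit 368) (nat_lit 1) (nat_lit 378) (nat_lit 1) (nat_lit 350) (nat_lit 416) (nat_lit 374)) (XT.lf (nat_lit 76) (nat_lit 1953083474) (nat_lit 0) (nat_lit 1663002901) (nat_lit 836) (nat_lit 1953083474) (nat_lit 369) (nat_lit 1) (nat_lit 368) (nat_lit 1) (nat_lit 379) (nat_lit 1) (nat_lit 351) (nat_lit 416) (nat_lit 373))))) (XT.nd (nat_lit 312) (nat_lit 2128) (nat_lit 0) (XT.nd (nat_lit 156) (nat_lit 684) (nat_lit 0) (XT.nd (nat_lit 78) (nat_lit 0) (nat_lit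 0) (XT.lf (nat_lit 836) (nat_lit 3129238167) (nat_lit 0) (nat_lit 1196241875) (nat_lit 760) (nat_lit 1196241875) (nat_lit 369) (nat_lit 1) (nat_lit 358) (nat_lit 1) (nat_lit 368) (nat_lit 1) (nat_lit 352) (nat_lit 416) (nat_lit 372)) (XT.lf (nat_lit 76) (nat_lit 1173409925) (nat_lit 0) (nat_lit 3127978145) (nat_lit 836) (nat_lit 1173409925) (nat_lit 359) (nat_lit 1) (nat_lit 358) (nat_lit 1) (nat_lit 369) (nat_lit 1) (nat_lit 353) (nat_lit 416) (nat_lit 371))) (XT.nd (nat_lit 78) (nat_lit 0) (nat_lit 0) (XT.lf (nat_lit 760) (nat_lit 1559164268) (nat_lit 0) (nat_lit 1934613189) (nat_lit 684) (nat_lit 1934613189) (nat_lit 359) (nat_lit 1) (nat_lit 349) (nat_lit 1) (nat_lit 358) (nat_lit 1) (nat_lit 354) (nat_lit 416) (nat_lit 370)) (XT.lf (nat_lit 76) (nat_lit 388313660) (nat_lit 0) (nat_lit 4606063461) (nat_lit 760) (nat_lit 388313660) (nat_lit 350) (nat_lit 1) (nat_lit 349) (nat_lit 1) (nat_lit 359) (nat_lit 1)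 (nat_lit 355) (nat_lit 416) (nat_lit 369)))) (XT.nd (nat_lit 156) (nat_lit 684) (nat_lit 0) (XT.nd (nat_lit 78) (nat_lit 684) (nat_lit 0) (XT.lf (nat_lit 76) (nat_lit 2658347494) (nat_lit 0) (nat_lit 20595116) (nat_lit 760) (nat_lit 2658347494) (nat_lit 340) (nat_lit 1) (nat_lit 339) (nat_lit 1) (nat_lit 349) (nat_lit 1) (nat_lit 356) (nat_lit 416) (nat_lit 368)) (XT.lf (nat_lit 760) (nat_lit 4495269205) (nat_lit 0) (nat_lit 398654685) (nat_lit 684) (nat_lit 398654685) (nat_lit 340) (nat_lit 1) (nat_lit 330) (nat_lit 1) (nat_lit 339) (nat_lit 1) (nat_lit 357) (nat_lit 416) (nat_lit 367))) (XT.nd (nat_lit 78) (nat_lit 684) (nat_lit 0) (XT.lf (nat_lit 76) (nat_lit 1830089907) (nat_lit 0) (nat_lit 1587980205) (nat_lit 760) (nat_lit 1830089907) (nat_lit 331) (nat_lit 1) (nat_lit 330) (nat_lit 1) (nat_lit 340) (nat_lit 1) (nat_lit 358) (nat_lit 416) (nat_lit 366)) (XT.lf (nat_lit 760) (nat_lit 2831017488) (nat_lit 0)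 (nat_lit 1186695039) (nat_lit 684) (nat_lit 1186695039) (nat_lit 331) (nat_lit 1) (nat_lit 321) (nat_lit 1) (nat_lit 330) (nat_lit 1) (nat_lit 359) (nat_lit 416) (nat_lit 365))))))))
noncomputable def ec51 : XT := (XT.nd (nat_lit 2418) (nat_lit 3116) (nat_lit 0) (XT.nd (nat_lit 1170) (nat_lit 4408) (nat_lit 0) (XT.nd (nat_lit 546) (nat_lit 2888) (nat_lit 0) (XT.nd (nat_lit 234) (nat_lit 1900) (nat_lit 0) (XT.nd (nat_lit 78) (nat_lit 608) (nat_lit 0) (XT.lf (nat_lit 76) (nat_lit 999682393) (nat_lit 0) (nat_lit 3161780603) (nat_lit 760) (nat_lit 999682393) (nat_lit 322) (nat_lit 1) (nat_lit 321) (nat_lit 1) (nat_lit 331) (nat_lit 1) (nat_lit 360) (nat_lit 416) (nat_lit 364)) (XT.nd (nat_lit 78) (nat_lit 0) (nat_lit 0) (XT.lf (nat_lit 684) (nat_lit 1163217812) (nat_lit 0) (nat_lit 1977552905) (nat_lit 608) (nat_lit 1977552905) (nat_lit 322) (nat_lit 1) (nat_lit 313) (nat_lit 1) (nat_lit 321) (nat_lit 1) (nat_lit 361)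 (nat_lit 416) (nat_lit 363)) (XT.lf (nat_lit 76) (nat_lit 167881223) (nat_lit 0) (nat_lit 4740428005) (nat_lit 684) (nat_lit 167881223) (nat_lit 314) (nat_lit 1) (nat_lit 313) (nat_lit 1) (nat_lit 322) (nat_lit 1) (nat_lit 362) (nat_lit 416) (nat_lit 362)))) (XT.nd (nat_lit 156) (nat_lit 608) (nat_lit 0) (XT.nd (nat_lit 78) (nat_lit 608) (nat_lit 0) (XT.lf (nat_lit 76) (nat_lit 2267097833) (nat_lit 0) (nat_lit 500010453) (nat_lit 684) (nat_lit 2267097833) (nat_lit 305) (nat_lit 1) (nat_lit 304) (nat_lit 1) (nat_lit 313) (nat_lit 1) (nat_lit 363) (nat_lit 416) (nat_lit 361)) (XT.lf (nat_lit 684) (nat_lit 3672439690) (nat_lit 0) (nat_lit 660227520) (nat_lit 608) (nat_lit 660227520) (nat_lit 305) (nat_lit 1) (nat_lit 296) (nat_lit 1) (nat_lit 304) (nat_lit 1) (nat_lit 364) (nat_lit 416) (nat_lit 360))) (XT.nd (nat_lit 78) (nat_lit 608) (nat_lit 0) (XT.lf (nat_lit 76) (nat_lit 1401630049) (nat_lit 0) (nat_lit 2148656394)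 (nat_lit 684) (nat_lit 1401630049) (nat_lit 297) (nat_lit 1) (nat_lit 296) (nat_lit 1) (nat_lit 305) (nat_lit 1) (nat_lit 365) (nat_lit 416) (nat_lit 359)) (XT.lf (nat_lit 684) (nat_lit 1936987346) (nat_lit 0) (nat_lit 1487238614) (nat_lit 608) (nat_lit 1487238614) (nat_lit 297) (nat_lit 1) (nat_lit 288) (nat_lit 1) (nat_lit 296) (nat_lit 1) (nat_lit 366) (nat_lit 416) (nat_lit 358))))) (XT.nd (nat_lit 312) (nat_lit 1672) (nat_lit 0) (XT.nd (nat_lit 156) (nat_lit 684) (nat_lit 0) (XT.nd (nat_lit 78) (nat_lit 532) (nat_lit 0) (XT.lf (nat_lit 76) (nat_lit 537436301) (nat_lit 0) (nat_lit 3796681704) (nat_lit 684) (nat_lit 537436301) (nat_lit 289) (nat_lit 1) (nat_lit 288) (nat_lit 1) (nat_lit 297) (nat_lit 1) (nat_lit 367) (nat_lit 416) (nat_lit 357)) (XT.lf (nat_lit 608) (nat_lit 204683902) (nat_lit 0) (nat_lit 2313626462) (nat_lit 532) (nat_lit 2313626462) (nat_lit 289) (nat_lit 1) (nat_lit 281) (nat_lit 1) (nat_lit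 288) (nat_lit 1) (nat_lit 368) (nat_lit 416) (nat_lit 356))) (XT.nd (nat_lit 78) (nat_lit 0) (nat_lit 0) (XT.lf (nat_lit 684) (nat_lit 4147377444) (nat_lit 0) (nat_lit 322761406) (nat_lit 608) (nat_lit 322761406) (nat_lit 281) (nat_lit 1) (nat_lit 272) (nat_lit 1) (nat_lit 280) (nat_lit 1) (nat_lit 369) (nat_lit 416) (nat_lit 355)) (XT.lf (nat_lit 76) (nat_lit 1625354999) (nat_lit 0) (nat_lit 1503354503) (nat_lit 684) (nat_lit 1625354999) (nat_lit 273) (nat_lit 1) (nat_lit 272) (nat_lit 1) (nat_lit 281) (nat_lit 1) (nat_lit 370) (nat_lit 416) (nat_lit 354)))) (XT.nd (nat_lit 156) (nat_lit 1140) (nat_lit 0) (XT.nd (nat_lit 78) (nat_lit 0) (nat_lit 0) (XT.lf (nat_lit 608) (nat_lit 2361733777) (nat_lit 0) (nat_lit 1177031261) (nat_lit 532) (nat_lit 1177031261) (nat_lit 273) (nat_lit 1) (nat_lit 265) (nat_lit 1) (nat_lit 272) (nat_lit 1) (nat_lit 371) (nat_lit 416) (nat_lit 353)) (XT.lf (nat_lit 76) (nat_lit 737273920)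 (nat_lit 0) (nat_lit 3203423936) (nat_lit 608) (nat_lit 737273920) (nat_lit 266) (nat_lit 1) (nat_lit 265) (nat_lit 1) (nat_lit 273) (nat_lit 1) (nat_lit 372) (nat_lit 416) (nat_lit 352))) (XT.nd (nat_lit 78) (nat_lit 608) (nat_lit 0) (XT.lf (nat_lit 608) (nat_lit 583682551) (nat_lit 0) (nat_lit 2028396561) (nat_lit 532) (nat_lit 2028396561) (nat_lit 266) (nat_lit 1) (nat_lit 258) (nat_lit 1) (nat_lit 265) (nat_lit 1) (nat_lit 373) (nat_lit 416) (nat_lit 351)) (XT.lf (nat_lit 608) (nat_lit 4311913703) (nat_lit 0) (nat_lit 145824395) (nat_lit 532) (nat_lit 145824395) (nat_lit 258) (nat_lit 1) (nat_lit 250) (nat_lit 1) (nat_lit 257) (nat_lit 1) (nat_lit 374) (nat_lit 416) (nat_lit 350)))))) (XT.nd (nat_lit 624) (nat_lit 2356) (nat_lit 0) (XT.nd (nat_lit 312) (nat_lit 1064) (nat_lit 0) (XT.nd (nat_lit 156) (nat_lit 456) (nat_lit 0) (XT.nd (nat_lit 78) (nat_lit 532) (nat_lit 0) (XT.lf (nat_lit 76) (nat_lit 1698215652)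 (nat_lit 0) (nat_lit 1170307575) (nat_lit 608) (nat_lit 1698215652) (nat_lit 251) (nat_lit 1) (nat_lit 250) (nat_lit 1) (nat_lit 258) (nat_lit 1) (nat_lit 375) (nat_lit 416) (nat_lit 349)) (XT.lf (nat_lit 608) (nat_lit 2491200147) (nat_lit 0) (nat_lit 1019643090) (nat_lit 532) (nat_lit 1019643090) (nat_lit 251) (nat_lit 1) (nat_lit 243) (nat_lit 1) (nat_lit 250) (nat_lit 1) (nat_lit 376) (nat_lit 416) (nat_lit 348))) (XT.nd (nat_lit 78) (nat_lit 456) (nat_lit 0) (XT.lf (nat_lit 76) (nat_lit 793610303) (nat_lit 0) (nat_lit 2907400512) (nat_lit 608) (nat_lit 793610303) (nat_lit 244) (nat_lit 1) (nat_lit 243) (nat_lit 1) (nat_lit 251) (nat_lit 1) (nat_lit 377) (nat_lit 416) (nat_lit 347)) (XT.lf (nat_lit 532) (nat_lit 681838521) (nat_lit 0) (nat_lit 1888622789) (nat_lit 456) (nat_lit 1888622789) (nat_lit 244) (nat_lit 1) (nat_lit 237) (nat_lit 1) (nat_lit 243) (nat_lit 1) (nat_lit 378) (nat_lit 416) (nat_lit 346))))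 (XT.nd (nat_lit 156) (nat_lit 456) (nat_lit 0) (XT.nd (nat_lit 78) (nat_lit 0) (nat_lit 0) (XT.lf (nat_lit 608) (nat_lit 4215177678) (nat_lit 0) (nat_lit 104461433) (nat_lit 532) (nat_lit 104461433) (nat_lit 237) (nat_lit 1) (nat_lit 229) (nat_lit 1) (nat_lit 236) (nat_lit 1) (nat_lit 379) (nat_lit 416) (nat_lit 345)) (XT.lf (nat_lit 76) (nat_lit 1644174900) (nat_lit 0) (nat_lit 1100818980) (nat_lit 608) (nat_lit 1644174900) (nat_lit 230) (nat_lit 1) (nat_lit 229) (nat_lit 1) (nat_lit 237) (nat_lit 1) (nat_lit 380) (nat_lit 416) (nat_lit 344))) (XT.nd (nat_lit 78) (nat_lit 0) (nat_lit 0) (XT.lf (nat_lit 532) (nat_lit 2372452791) (nat_lit 0) (nat_lit 991163580) (nat_lit 456) (nat_lit 991163580) (nat_lit 230) (nat_lit 1) (nat_lit 223) (nat_lit 1) (nat_lit 229) (nat_lit 1) (nat_lit 381) (nat_lit 416) (nat_lit 343)) (XT.lf (nat_lit 76) (nat_lit 729401468) (nat_lit 0) (nat_lit 2861954406) (nat_lit 532) (nat_lit 729401468)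 (nat_lit 224) (nat_lit 1) (nat_lit 223) (nat_lit 1) (nat_lit 230) (nat_lit 1) (nat_lit 382) (nat_lit 416) (nat_lit 342))))) (XT.nd (nat_lit 312) (nat_lit 912) (nat_lit 0) (XT.nd (nat_lit 156) (nat_lit 456) (nat_lit 0) (XT.nd (nat_lit 78) (nat_lit 532) (nat_lit 0) (XT.lf (nat_lit 532) (nat_lit 544239139) (nat_lit 0) (nat_lit 1871396757) (nat_lit 456) (nat_lit 1871396757) (nat_lit 224) (nat_lit 1) (nat_lit 217) (nat_lit 1) (nat_lit 223) (nat_lit 1) (nat_lit 383) (nat_lit 416) (nat_lit 341)) (XT.lf (nat_lit 532) (nat_lit 3900151612) (nat_lit 0) (nat_lit 176827093) (nat_lit 456) (nat_lit 176827093) (nat_lit 217) (nat_lit 1) (nat_lit 210) (nat_lit 1) (nat_lit 216) (nat_lit 1) (nat_lit 384) (nat_lit 416) (nat_lit 340))) (XT.nd (nat_lit 78) (nat_lit 456) (nat_lit 0) (XT.lf (nat_lit 76) (nat_lit 1484194210) (nat_lit 0) (nat_lit 1252266295) (nat_lit 532) (nat_lit 1484194210) (nat_lit 211) (nat_lit 1) (nat_lit 210) (nat_lit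 1) (nat_lit 217) (nat_lit 1) (nat_lit 385) (nat_lit 416) (nat_lit 339)) (XT.lf (nat_lit 532) (nat_lit 2046656503) (nat_lit 0) (nat_lit 1070667805) (nat_lit 456) (nat_lit 1070667805) (nat_lit 211) (nat_lit 1) (nat_lit 204) (nat_lit 1) (nat_lit 210) (nat_lit 1) (nat_lit 386) (nat_lit 416) (nat_lit 338)))) (XT.nd (nat_lit 156) (nat_lit 532) (nat_lit 0) (XT.nd (nat_lit 78) (nat_lit 380) (nat_lit 0) (XT.lf (nat_lit 76) (nat_lit 564721871) (nat_lit 0) (nat_lit 3026260448) (nat_lit 532) (nat_lit 564721871) (nat_lit 205) (nat_lit 1) (nat_lit 204) (nat_lit 1) (nat_lit 211) (nat_lit 1) (nat_lit 387) (nat_lit 416) (nat_lit 337)) (XT.lf (nat_lit 456) (nat_lit 210305938) (nat_lit 0) (nat_lit 1956676520) (nat_lit 380) (nat_lit 1956676520) (nat_lit 205) (nat_lit 1) (nat_lit 199) (nat_lit 1) (nat_lit 204) (nat_lit 1) (nat_lit 388) (nat_lit 416) (nat_lit 336))) (XT.nd (nat_lit 78) (nat_lit 0) (nat_lit 0) (XT.lf (nat_lit 532) (nat_lit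 3404386075) (nat_lit 0) (nat_lit 343824173) (nat_lit 456) (nat_lit 343824173) (nat_lit 199) (nat_lit 1) (nat_lit 192) (nat_lit 1) (nat_lit 198) (nat_lit 1) (nat_lit 389) (nat_lit 416) (nat_lit 335)) (XT.lf (nat_lit 76) (nat_lit 1236583005) (nat_lit 0) (nat_lit 1587395102) (nat_lit 532) (nat_lit 1236583005) (nat_lit 193) (nat_lit 1) (nat_lit 192) (nat_lit 1) (nat_lit 199) (nat_lit 1) (nat_lit 390) (nat_lit 416) (nat_lit 334))))))) (XT.nd (nat_lit 54132) (nat_lit 0) (nat_lit 20520) (XT.nd (nat_lit 546) (nat_lit 1520) (nat_lit 0) (XT.nd (nat_lit 234) (nat_lit 760) (nat_lit 0) (XT.nd (nat_lit 78) (nat_lit 456) (nat_lit 0) (XT.lf (nat_lit 456) (nat_lit 1549761774) (nat_lit 0) (nat_lit 1239869189) (nat_lit 380) (nat_lit 1239869189) (nat_lit 193) (nat_lit 1) (nat_lit 187) (nat_lit 1) (nat_lit 192) (nat_lit 1) (nat_lit 391) (nat_lit 416) (nat_lit 333)) (XT.nd (nat_lit 78) (nat_lit 456) (nat_lit 0) (XT.lf (nat_lit 76) (nat_lit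 317100089) (nat_lit 0) (nat_lit 3364646811) (nat_lit 456) (nat_lit 317100089) (nat_lit 188) (nat_lit 1) (nat_lit 187) (nat_lit 1) (nat_lit 193) (nat_lit 1) (nat_lit 392) (nat_lit 416) (nat_lit 332)) (XT.lf (nat_lit 76) (nat_lit 1843261835) (nat_lit 0) (nat_lit 281800086) (nat_lit 456) (nat_lit 1843261835) (nat_lit 182) (nat_lit 1) (nat_lit 181) (nat_lit 1) (nat_lit 187) (nat_lit 1) (nat_lit 393) (nat_lit 416) (nat_lit 331)))) (XT.nd (nat_lit 156) (nat_lit 380) (nat_lit 0) (XT.nd (nat_lit 78) (nat_lit 0) (nat_lit 0) (XT.lf (nat_lit 456) (nat_lit 2760634046) (nat_lit 0) (nat_lit 588783299) (nat_lit 380) (nat_lit 588783299) (nat_lit 182) (nat_lit 1) (nat_lit 176) (nat_lit 1) (nat_lit 181) (nat_lit 1) (nat_lit 394) (nat_lit 416) (nat_lit 330)) (XT.lf (nat_lit 76) (nat_lit 917308388) (nat_lit 0) (nat_lit 2073692931) (nat_lit 456) (nat_lit 917308388) (nat_lit 177) (nat_lit 1) (nat_lit 176) (nat_lit 1) (nat_lit 182) (nat_lit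 1) (nat_lit 395) (nat_lit 416) (nat_lit 329))) (XT.nd (nat_lit 78) (nat_lit 0) (nat_lit 0) (XT.lf (nat_lit 456) (nat_lit 913113990) (nat_lit 0) (nat_lit 1482811685) (nat_lit 380) (nat_lit 1482811685) (nat_lit 177) (nat_lit 1) (nat_lit 171) (nat_lit 1) (nat_lit 176) (nat_lit 1) (nat_lit 396) (nat_lit 416) (nat_lit 328)) (XT.lf (nat_lit 76) (nat_lit 1816387) (nat_lit 0) (nat_lit 3845993520) (nat_lit 456) (nat_lit 1816387) (nat_lit 172) (nat_lit 1) (nat_lit 171) (nat_lit 1) (nat_lit 177) (nat_lit 1) (nat_lit 397) (nat_lit 416) (nat_lit 327))))) (XT.nd (nat_lit 312) (nat_lit 456) (nat_lit 0) (XT.nd (nat_lit 156) (nat_lit 304) (nat_lit 0) (XT.nd (nat_lit 78) (nat_lit 380) (nat_lit 0) (XT.lf (nat_lit 76) (nat_lit 1459565786) (nat_lit 0) (nat_lit 901339734) (nat_lit 380) (nat_lit 1459565786) (nat_lit 167) (nat_lit 1) (nat_lit 166) (nat_lit 1) (nat_lit 171) (nat_lit 1) (nat_lit 398) (nat_lit 416) (nat_lit 326)) (XT.lf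 (nat_lit 456) (nat_lit 1997412938) (nat_lit 0) (nat_lit 897178923) (nat_lit 380) (nat_lit 897178923) (nat_lit 167) (nat_lit 1) (nat_lit 161) (nat_lit 1) (nat_lit 166) (nat_lit 1) (nat_lit 399) (nat_lit 416) (nat_lit 325))) (XT.nd (nat_lit 78) (nat_lit 304) (nat_lit 0) (XT.lf (nat_lit 76) (nat_lit 540269658) (nat_lit 0) (nat_lit 2682834332) (nat_lit 456) (nat_lit 540269658) (nat_lit 162) (nat_lit 1) (nat_lit 161) (nat_lit 1) (nat_lit 167) (nat_lit 1) (nat_lit 400) (nat_lit 416) (nat_lit 324)) (XT.lf (nat_lit 380) (nat_lit 163993384) (nat_lit 0) (nat_lit 1785596925) (nat_lit 304) (nat_lit 1785596925) (nat_lit 162) (nat_lit 1) (nat_lit 157) (nat_lit 1) (nat_lit 161) (nat_lit 1) (nat_lit 401) (nat_lit 416) (nat_lit 323)))) (XT.nd (nat_lit 53118) (nat_lit 0) (nat_lit 26904) (XT.nd (nat_lit 78) (nat_lit 0) (nat_lit 0) (XT.lf (nat_lit 456) (nat_lit 2976513311) (nat_lit 0) (nat_lit 365413596) (nat_lit 380) (nat_lit 365413596)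 (nat_lit 157) (nat_lit 1) (nat_lit 151) (nat_lit 1) (nat_lit 156) (nat_lit 1) (nat_lit 402) (nat_lit 416) (nat_lit 322)) (XT.lf (nat_lit 76) (nat_lit 1027156630) (nat_lit 0) (nat_lit 1625319137) (nat_lit 456) (nat_lit 1027156630) (nat_lit 152) (nat_lit 1) (nat_lit 151) (nat_lit 1) (nat_lit 157) (nat_lit 1) (nat_lit 403) (nat_lit 416) (nat_lit 321))) (XT.nd (nat_lit 78) (nat_lit 0) (nat_lit 0) (XT.lf (nat_lit 1900) (nat_lit 885139520) (nat_lit 0) (nat_lit 5466863649) (nat_lit 1824) (nat_lit 885139520) (nat_lit 530) (nat_lit 1) (nat_lit 505) (nat_lit 1) (nat_lit 529) (nat_lit 1) (nat_lit 322) (nat_lit 417) (nat_lit 401)) (XT.lf (nat_lit 1900) (nat_lit 1358992370) (nat_lit 76) (nat_lit 2905283792) (nat_lit 0) (nat_lit 2905283792) (nat_lit 530) (nat_lit 1) (nat_lit 506) (nat_lit 1) (nat_lit 505) (nat_lit 1) (nat_lit 323) (nat_lit 417) (nat_lit 400)))))) (XT.nd (nat_lit 624) (nat_lit 4636) (nat_lit 0) (XT.nd (nat_lit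 312) (nat_lit 0) (nat_lit 0) (XT.nd (nat_lit 156) (nat_lit 1824) (nat_lit 0) (XT.nd (nat_lit 78) (nat_lit 0) (nat_lit 0) (XT.lf (nat_lit 1900) (nat_lit 473385098) (nat_lit 0) (nat_lit 6156355709) (nat_lit 1824) (nat_lit 473385098) (nat_lit 531) (nat_lit 1) (nat_lit 506) (nat_lit 1) (nat_lit 530) (nat_lit 1) (nat_lit 324) (nat_lit 417) (nat_lit 399)) (XT.lf (nat_lit 1900) (nat_lit 502128469) (nat_lit 76) (nat_lit 3267535925) (nat_lit 0) (nat_lit 3267535925) (nat_lit 531) (nat_lit 1) (nat_lit 507) (nat_lit 1) (nat_lit 506) (nat_lit 1) (nat_lit 325) (nat_lit 417) (nat_lit 398))) (XT.nd (nat_lit 78) (nat_lit 1900) (nat_lit 0) (XT.lf (nat_lit 1900) (nat_lit 31439926) (nat_lit 0) (nat_lit 6909622335) (nat_lit 1824) (nat_lit 31439926) (nat_lit 532) (nat_lit 1) (nat_lit 507) (nat_lit 1) (nat_lit 531) (nat_lit 1) (nat_lit 326) (nat_lit 417) (nat_lit 397)) (XT.lf (nat_lit 1976) (nat_lit 3250166474) (nat_lit 0) (nat_lit 407794708)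 (nat_lit 1900) (nat_lit 3250166474) (nat_lit 508) (nat_lit 1) (nat_lit 482) (nat_lit 1) (nat_lit 507) (nat_lit 1) (nat_lit 327) (nat_lit 417) (nat_lit 396)))) (XT.nd (nat_lit 156) (nat_lit 0) (nat_lit 76) (XT.nd (nat_lit 78) (nat_lit 0) (nat_lit 76) (XT.lf (nat_lit 1976) (nat_lit 5973481662) (nat_lit 76) (nat_lit 435732520) (nat_lit 0) (nat_lit 435732520) (nat_lit 508) (nat_lit 1) (nat_lit 483) (nat_lit 1) (nat_lit 482) (nat_lit 1) (nat_lit 328) (nat_lit 417) (nat_lit 395)) (XT.lf (nat_lit 1976) (nat_lit 2708700656) (nat_lit 0) (nat_lit 1364827603) (nat_lit 1900) (nat_lit 2708700656) (nat_lit 509) (nat_lit 1) (nat_lit 483) (nat_lit 1) (nat_lit 508) (nat_lit 1) (nat_lit 329) (nat_lit 417) (nat_lit 394))) (XT.nd (nat_lit 78) (nat_lit 0) (nat_lit 76) (XT.lf (nat_lit 1976) (nat_lit 4863245368) (nat_lit 76) (nat_lit 928659729) (nat_lit 0) (nat_lit 928659729) (nat_lit 509) (nat_lit 1) (nat_lit 484) (nat_lit 1) (nat_lit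 483) (nat_lit 1) (nat_lit 330) (nat_lit 417) (nat_lit 393)) (XT.lf (nat_lit 76) (nat_lit 2143874152) (nat_lit 0) (nat_lit 2371730024) (nat_lit 1900) (nat_lit 2143874152) (nat_lit 485) (nat_lit 1) (nat_lit 484) (nat_lit 1) (nat_lit 509) (nat_lit 1) (nat_lit 331) (nat_lit 417) (nat_lit 392))))) (XT.nd (nat_lit 312) (nat_lit 2736) (nat_lit 0) (XT.nd (nat_lit 156) (nat_lit 912) (nat_lit 0) (XT.nd (nat_lit 78) (nat_lit 0) (nat_lit 0) (XT.lf (nat_lit 1216) (nat_lit 3707932011) (nat_lit 0) (nat_lit 1445675822) (nat_lit 1140) (nat_lit 1445675822) (nat_lit 485) (nat_lit 1) (nat_lit 469) (nat_lit 1) (nat_lit 484) (nat_lit 1) (nat_lit 332) (nat_lit 417) (nat_lit 391)) (XT.lf (nat_lit 76) (nat_lit 1557464411) (nat_lit 0) (nat_lit 3424858960) (nat_lit 1216) (nat_lit 1557464411) (nat_lit 470) (nat_lit 1) (nat_lit 469) (nat_lit 1) (nat_lit 485) (nat_lit 1) (nat_lit 333) (nat_lit 417) (nat_lit 390))) (XT.nd (nat_lit 78) (nat_lit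 0) (nat_lit 0) (XT.lf (nat_lit 988) (nat_lit 2511021181) (nat_lit 0) (nat_lit 1984997755) (nat_lit 912) (nat_lit 1984997755) (nat_lit 470) (nat_lit 1) (nat_lit 457) (nat_lit 1) (nat_lit 469) (nat_lit 1) (nat_lit 334) (nat_lit 417) (nat_lit 389)) (XT.lf (nat_lit 76) (nat_lit 951162793) (nat_lit 0) (nat_lit 4520746325) (nat_lit 988) (nat_lit 951162793) (nat_lit 458) (nat_lit 1) (nat_lit 457) (nat_lit 1) (nat_lit 470) (nat_lit 1) (nat_lit 335) (nat_lit 417) (nat_lit 388)))) (XT.nd (nat_lit 156) (nat_lit 1824) (nat_lit 0) (XT.nd (nat_lit 78) (nat_lit 0) (nat_lit 0) (XT.lf (nat_lit 988) (nat_lit 1275823447) (nat_lit 0) (nat_lit 2544928342) (nat_lit 912) (nat_lit 2544928342) (nat_lit 458) (nat_lit 1) (nat_lit 445) (nat_lit 1) (nat_lit 457) (nat_lit 1) (nat_lit 336) (nat_lit 417) (nat_lit 387)) (XT.lf (nat_lit 76) (nat_lit 326578250) (nat_lit 0) (nat_lit 5656091509) (nat_lit 988) (nat_lit 326578250) (nat_lit 446) (nat_lit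 1) (nat_lit 445) (nat_lit 1) (nat_lit 458) (nat_lit 1) (nat_lit 337) (nat_lit 417) (nat_lit 386))) (XT.nd (nat_lit 78) (nat_lit 988) (nat_lit 0) (XT.lf (nat_lit 912) (nat_lit 5487583) (nat_lit 0) (nat_lit 3123852594) (nat_lit 836) (nat_lit 3123852594) (nat_lit 446) (nat_lit 1) (nat_lit 434) (nat_lit 1) (nat_lit 445) (nat_lit 1) (nat_lit 338) (nat_lit 417) (nat_lit 385)) (XT.lf (nat_lit 988) (nat_lit 5572695188) (nat_lit 0) (nat_lit 312688358) (nat_lit 912) (nat_lit 312688358) (nat_lit 434) (nat_lit 1) (nat_lit 421) (nat_lit 1) (nat_lit 433) (nat_lit 1) (nat_lit 339) (nat_lit 417) (nat_lit 384))))))))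
noncomputable def ec52 : XT := (XT.nd (nat_lit 2340) (nat_lit 8664) (nat_lit 0) (XT.nd (nat_lit 1170) (nat_lit 5624) (nat_lit 0) (XT.nd (nat_lit 546) (nat_lit 3800) (nat_lit 0) (XT.nd (nat_lit 234) (nat_lit 1596) (nat_lit 0) (XT.nd (nat_lit 78) (nat_lit 836) (nat_lit 0) (XT.lf (nat_lit 76) (nat_lit 2431662651) (nat_lit 0) (nat_lit 1279982204) (nat_lit 988) (nat_lit 2431662651) (nat_lit 422) (nat_lit 1) (nat_lit 421) (nat_lit 1) (nat_lit 434) (nat_lit 1) (nat_lit 340) (nat_lit 417) (nat_lit 383)) (XT.nd (nat_lit 78) (nat_lit 0) (nat_lit 0) (XT.lf (nat_lit 912) (nat_lit 4159443697) (nat_lit 0) (nat_lit 965004054) (nat_lit 836) (nat_lit 965004054) (nat_lit 422) (nat_lit 1) (nat_lit 410) (nat_lit 1) (nat_lit 421) (nat_lit 1) (nat_lit 341) (nat_lit 417) (nat_lit 382)) (XT.lf (nat_lit 76) (nat_lit 1720908852) (nat_lit 0) (nat_lit 2594294275) (nat_lit 912) (nat_lit 1720908852) (nat_lit 411) (nat_lit 1) (nat_lit 410) (nat_lit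 1) (nat_lit 422) (nat_lit 1) (nat_lit 342) (nat_lit 417) (nat_lit 381)))) (XT.nd (nat_lit 156) (nat_lit 760) (nat_lit 0) (XT.nd (nat_lit 78) (nat_lit 0) (nat_lit 0) (XT.lf (nat_lit 912) (nat_lit 2721195087) (nat_lit 0) (nat_lit 1631144143) (nat_lit 836) (nat_lit 1631144143) (nat_lit 411) (nat_lit 1) (nat_lit 399) (nat_lit 1) (nat_lit 410) (nat_lit 1) (nat_lit 343) (nat_lit 417) (nat_lit 380)) (XT.lf (nat_lit 76) (nat_lit 998340582) (nat_lit 0) (nat_lit 3934852179) (nat_lit 912) (nat_lit 998340582) (nat_lit 400) (nat_lit 1) (nat_lit 399) (nat_lit 1) (nat_lit 411) (nat_lit 1) (nat_lit 344) (nat_lit 417) (nat_lit 379))) (XT.nd (nat_lit 78) (nat_lit 0) (nat_lit 0) (XT.lf (nat_lit 836) (nat_lit 1260486210) (nat_lit 0) (nat_lit 2309804069) (nat_lit 760) (nat_lit 2309804069) (nat_lit 400) (nat_lit 1) (nat_lit 389) (nat_lit 1) (nat_lit 399) (nat_lit 1) (nat_lit 345) (nat_lit 417) (nat_lit 378)) (XT.lf (nat_lit 76) (nat_lit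 265189431) (nat_lit 0) (nat_lit 5299121422) (nat_lit 836) (nat_lit 265189431) (nat_lit 390) (nat_lit 1) (nat_lit 389) (nat_lit 1) (nat_lit 400) (nat_lit 1) (nat_lit 346) (nat_lit 417) (nat_lit 377))))) (XT.nd (nat_lit 312) (nat_lit 1444) (nat_lit 0) (XT.nd (nat_lit 156) (nat_lit 760) (nat_lit 0) (XT.nd (nat_lit 78) (nat_lit 760) (nat_lit 0) (XT.lf (nat_lit 76) (nat_lit 2780899864) (nat_lit 0) (nat_lit 217386347) (nat_lit 836) (nat_lit 2780899864) (nat_lit 379) (nat_lit 1) (nat_lit 378) (nat_lit 1) (nat_lit 389) (nat_lit 1) (nat_lit 347) (nat_lit 417) (nat_lit 376)) (XT.lf (nat_lit 836) (nat_lit 4781224175) (nat_lit 0) (nat_lit 474235353) (nat_lit 760) (nat_lit 474235353) (nat_lit 379) (nat_lit 1) (nat_lit 368) (nat_lit 1) (nat_lit 378) (nat_lit 1) (nat_lit 348) (nat_lit 417) (nat_lit 375))) (XT.nd (nat_lit 78) (nat_lit 760) (nat_lit 0) (XT.lf (nat_lit 76) (nat_lit 1992145144) (nat_lit 0) (nat_lit 1696262959) (nat_lit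 836) (nat_lit 1992145144) (nat_lit 369) (nat_lit 1) (nat_lit 368) (nat_lit 1) (nat_lit 379) (nat_lit 1) (nat_lit 349) (nat_lit 417) (nat_lit 374)) (XT.lf (nat_lit 836) (nat_lit 3191822930) (nat_lit 0) (nat_lit 1220166713) (nat_lit 760) (nat_lit 1220166713) (nat_lit 369) (nat_lit 1) (nat_lit 358) (nat_lit 1) (nat_lit 368) (nat_lit 1) (nat_lit 350) (nat_lit 417) (nat_lit 373)))) (XT.nd (nat_lit 156) (nat_lit 760) (nat_lit 0) (XT.nd (nat_lit 78) (nat_lit 684) (nat_lit 0) (XT.lf (nat_lit 76) (nat_lit 1196878124) (nat_lit 0) (nat_lit 3190537708) (nat_lit 836) (nat_lit 1196878124) (nat_lit 359) (nat_lit 1) (nat_lit 358) (nat_lit 1) (nat_lit 369) (nat_lit 1) (nat_lit 351) (nat_lit 417) (nat_lit 372)) (XT.lf (nat_lit 760) (nat_lit 1590347553) (nat_lit 0) (nat_lit 1973305453) (nat_lit 684) (nat_lit 1973305453) (nat_lit 359) (nat_lit 1) (nat_lit 349) (nat_lit 1) (nat_lit 358) (nat_lit 1) (nat_lit 352) (nat_lit 417) (nat_lit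 371))) (XT.nd (nat_lit 78) (nat_lit 760) (nat_lit 0) (XT.lf (nat_lit 76) (nat_lit 396079933) (nat_lit 0) (nat_lit 4698184730) (nat_lit 760) (nat_lit 396079933) (nat_lit 350) (nat_lit 1) (nat_lit 349) (nat_lit 1) (nat_lit 359) (nat_lit 1) (nat_lit 353) (nat_lit 417) (nat_lit 370)) (XT.lf (nat_lit 76) (nat_lit 2711514444) (nat_lit 0) (nat_lit 21007018) (nat_lit 760) (nat_lit 2711514444) (nat_lit 340) (nat_lit 1) (nat_lit 339) (nat_lit 1) (nat_lit 349) (nat_lit 1) (nat_lit 354) (nat_lit 417) (nat_lit 369)))))) (XT.nd (nat_lit 546) (nat_lit 2964) (nat_lit 0) (XT.nd (nat_lit 234) (nat_lit 1292) (nat_lit 0) (XT.nd (nat_lit 78) (nat_lit 684) (nat_lit 0) (XT.lf (nat_lit 760) (nat_lit 4585174589) (nat_lit 0) (nat_lit 406627779) (nat_lit 684) (nat_lit 406627779) (nat_lit 340) (nat_lit 1) (nat_lit 330) (nat_lit 1) (nat_lit 339) (nat_lit 1) (nat_lit 355) (nat_lit 417) (nat_lit 368)) (XT.nd (nat_lit 78) (nat_lit 684) (nat_lit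 0) (XT.lf (nat_lit 76) (nat_lit 1866691705) (nat_lit 0) (nat_lit 1619739809) (nat_lit 760) (nat_lit 1866691705) (nat_lit 331) (nat_lit 1) (nat_lit 330) (nat_lit 1) (nat_lit 340) (nat_lit 1) (nat_lit 356) (nat_lit 417) (nat_lit 367)) (XT.lf (nat_lit 760) (nat_lit 2887637838) (nat_lit 0) (nat_lit 1210428940) (nat_lit 684) (nat_lit 1210428940) (nat_lit 331) (nat_lit 1) (nat_lit 321) (nat_lit 1) (nat_lit 330) (nat_lit 1) (nat_lit 357) (nat_lit 417) (nat_lit 366)))) (XT.nd (nat_lit 156) (nat_lit 684) (nat_lit 0) (XT.nd (nat_lit 78) (nat_lit 608) (nat_lit 0) (XT.lf (nat_lit 76) (nat_lit 1019676041) (nat_lit 0) (nat_lit 3225016215) (nat_lit 760) (nat_lit 1019676041) (nat_lit 322) (nat_lit 1) (nat_lit 321) (nat_lit 1) (nat_lit 331) (nat_lit 1) (nat_lit 358) (nat_lit 417) (nat_lit 365)) (XT.lf (nat_lit 684) (nat_lit 1186482168) (nat_lit 0) (nat_lit 2017103963) (nat_lit 608) (nat_lit 2017103963) (nat_lit 322) (nat_lit 1)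 (nat_lit 313) (nat_lit 1) (nat_lit 321) (nat_lit 1) (nat_lit 359) (nat_lit 417) (nat_lit 364))) (XT.nd (nat_lit 78) (nat_lit 684) (nat_lit 0) (XT.lf (nat_lit 76) (nat_lit 171238847) (nat_lit 0) (nat_lit 4835236565) (nat_lit 684) (nat_lit 171238847) (nat_lit 314) (nat_lit 1) (nat_lit 313) (nat_lit 1) (nat_lit 322) (nat_lit 1) (nat_lit 360) (nat_lit 417) (nat_lit 363)) (XT.lf (nat_lit 76) (nat_lit 2312439789) (nat_lit 0) (nat_lit 510010662) (nat_lit 684) (nat_lit 2312439789) (nat_lit 305) (nat_lit 1) (nat_lit 304) (nat_lit 1) (nat_lit 313) (nat_lit 1) (nat_lit 361) (nat_lit 417) (nat_lit 362))))) (XT.nd (nat_lit 312) (nat_lit 1748) (nat_lit 0) (XT.nd (nat_lit 156) (nat_lit 608) (nat_lit 0) (XT.nd (nat_lit 78) (nat_lit 0) (nat_lit 0) (XT.lf (nat_lit 684) (nat_lit 3745888484) (nat_lit 0) (nat_lit 673432071) (nat_lit 608) (nat_lit 673432071) (nat_lit 305) (nat_lit 1) (nat_lit 296) (nat_lit 1) (nat_lit 304) (nat_lit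 1) (nat_lit 362) (nat_lit 417) (nat_lit 361)) (XT.lf (nat_lit 76) (nat_lit 1429662650) (nat_lit 0) (nat_lit 2191629522) (nat_lit 684) (nat_lit 1429662650) (nat_lit 297) (nat_lit 1) (nat_lit 296) (nat_lit 1) (nat_lit 305) (nat_lit 1) (nat_lit 363) (nat_lit 417) (nat_lit 360))) (XT.nd (nat_lit 78) (nat_lit 0) (nat_lit 0) (XT.lf (nat_lit 684) (nat_lit 1975727093) (nat_lit 0) (nat_lit 1516983386) (nat_lit 608) (nat_lit 1516983386) (nat_lit 297) (nat_lit 1) (nat_lit 288) (nat_lit 1) (nat_lit 296) (nat_lit 1) (nat_lit 364) (nat_lit 417) (nat_lit 359)) (XT.lf (nat_lit 76) (nat_lit 548185027) (nat_lit 0) (nat_lit 3872615338) (nat_lit 684) (nat_lit 548185027) (nat_lit 289) (nat_lit 1) (nat_lit 288) (nat_lit 1) (nat_lit 297) (nat_lit 1) (nat_lit 365) (nat_lit 417) (nat_lit 358)))) (XT.nd (nat_lit 156) (nat_lit 532) (nat_lit 0) (XT.nd (nat_lit 78) (nat_lit 684) (nat_lit 0) (XT.lf (nat_lit 608) (nat_lit 208777580) (nat_lit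 0) (nat_lit 2359898991) (nat_lit 532) (nat_lit 2359898991) (nat_lit 289) (nat_lit 1) (nat_lit 281) (nat_lit 1) (nat_lit 288) (nat_lit 1) (nat_lit 366) (nat_lit 417) (nat_lit 357)) (XT.lf (nat_lit 684) (nat_lit 4230324993) (nat_lit 0) (nat_lit 329216634) (nat_lit 608) (nat_lit 329216634) (nat_lit 281) (nat_lit 1) (nat_lit 272) (nat_lit 1) (nat_lit 280) (nat_lit 1) (nat_lit 367) (nat_lit 417) (nat_lit 356))) (XT.nd (nat_lit 78) (nat_lit 532) (nat_lit 0) (XT.lf (nat_lit 76) (nat_lit 1657862099) (nat_lit 0) (nat_lit 1533421593) (nat_lit 684) (nat_lit 1657862099) (nat_lit 273) (nat_lit 1) (nat_lit 272) (nat_lit 1) (nat_lit 281) (nat_lit 1) (nat_lit 368) (nat_lit 417) (nat_lit 355)) (XT.lf (nat_lit 608) (nat_lit 2408968453) (nat_lit 0) (nat_lit 1200571886) (nat_lit 532) (nat_lit 1200571886) (nat_lit 273) (nat_lit 1) (nat_lit 265) (nat_lit 1) (nat_lit 272) (nat_lit 1) (nat_lit 369) (nat_lit 417) (nat_lit 354))))))) (XT.nd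 (nat_lit 1170) (nat_lit 4028) (nat_lit 0) (XT.nd (nat_lit 546) (nat_lit 2508) (nat_lit 0) (XT.nd (nat_lit 234) (nat_lit 988) (nat_lit 0) (XT.nd (nat_lit 78) (nat_lit 1140) (nat_lit 0) (XT.lf (nat_lit 76) (nat_lit 752019399) (nat_lit 0) (nat_lit 3267492415) (nat_lit 608) (nat_lit 752019399) (nat_lit 266) (nat_lit 1) (nat_lit 265) (nat_lit 1) (nat_lit 273) (nat_lit 1) (nat_lit 370) (nat_lit 417) (nat_lit 353)) (XT.nd (nat_lit 78) (nat_lit 608) (nat_lit 0) (XT.lf (nat_lit 608) (nat_lit 595356202) (nat_lit 0) (nat_lit 2068964492) (nat_lit 532) (nat_lit 2068964492) (nat_lit 266) (nat_lit 1) (nat_lit 258) (nat_lit 1) (nat_lit 265) (nat_lit 1) (nat_lit 371) (nat_lit 417) (nat_lit 352)) (XT.lf (nat_lit 608) (nat_lit 4398151977) (nat_lit 0) (nat_lit 148740883) (nat_lit 532) (nat_lit 148740883) (nat_lit 258) (nat_lit 1) (nat_lit 250) (nat_lit 1) (nat_lit 257) (nat_lit 1) (nat_lit 372) (nat_lit 417) (nat_lit 351)))) (XT.nd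 (nat_lit 156) (nat_lit 456) (nat_lit 0) (XT.nd (nat_lit 78) (nat_lit 532) (nat_lit 0) (XT.lf (nat_lit 76) (nat_lit 1732179965) (nat_lit 0) (nat_lit 1193713727) (nat_lit 608) (nat_lit 1732179965) (nat_lit 251) (nat_lit 1) (nat_lit 250) (nat_lit 1) (nat_lit 258) (nat_lit 1) (nat_lit 373) (nat_lit 417) (nat_lit 350)) (XT.lf (nat_lit 608) (nat_lit 2541024150) (nat_lit 0) (nat_lit 1040035952) (nat_lit 532) (nat_lit 1040035952) (nat_lit 251) (nat_lit 1) (nat_lit 243) (nat_lit 1) (nat_lit 250) (nat_lit 1) (nat_lit 374) (nat_lit 417) (nat_lit 349))) (XT.nd (nat_lit 78) (nat_lit 456) (nat_lit 0) (XT.lf (nat_lit 76) (nat_lit 809482509) (nat_lit 0) (nat_lit 2965548522) (nat_lit 608) (nat_lit 809482509) (nat_lit 244) (nat_lit 1) (nat_lit 243) (nat_lit 1) (nat_lit 251) (nat_lit 1) (nat_lit 375) (nat_lit 417) (nat_lit 348)) (XT.lf (nat_lit 532) (nat_lit 695475292) (nat_lit 0) (nat_lit 1926395245) (nat_lit 456) (nat_lit 1926395245)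 (nat_lit 244) (nat_lit 1) (nat_lit 237) (nat_lit 1) (nat_lit 243) (nat_lit 1) (nat_lit 376) (nat_lit 417) (nat_lit 347))))) (XT.nd (nat_lit 312) (nat_lit 1444) (nat_lit 0) (XT.nd (nat_lit 156) (nat_lit 456) (nat_lit 0) (XT.nd (nat_lit 78) (nat_lit 0) (nat_lit 0) (XT.lf (nat_lit 608) (nat_lit 4299481231) (nat_lit 0) (nat_lit 106550661) (nat_lit 532) (nat_lit 106550661) (nat_lit 237) (nat_lit 1) (nat_lit 229) (nat_lit 1) (nat_lit 236) (nat_lit 1) (nat_lit 377) (nat_lit 417) (nat_lit 346)) (XT.lf (nat_lit 76) (nat_lit 1677058399) (nat_lit 0) (nat_lit 1122835360) (nat_lit 608) (nat_lit 1677058399) (nat_lit 230) (nat_lit 1) (nat_lit 229) (nat_lit 1) (nat_lit 237) (nat_lit 1) (nat_lit 378) (nat_lit 417) (nat_lit 345))) (XT.nd (nat_lit 78) (nat_lit 0) (nat_lit 0) (XT.lf (nat_lit 532) (nat_lit 2419901847) (nat_lit 0) (nat_lit 1010986852) (nat_lit 456) (nat_lit 1010986852) (nat_lit 230) (nat_lit 1) (nat_lit 223) (nat_lit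 1) (nat_lit 229) (nat_lit 1) (nat_lit 379) (nat_lit 417) (nat_lit 344)) (XT.lf (nat_lit 76) (nat_lit 743989498) (nat_lit 0) (nat_lit 2919193494) (nat_lit 532) (nat_lit 743989498) (nat_lit 224) (nat_lit 1) (nat_lit 223) (nat_lit 1) (nat_lit 230) (nat_lit 1) (nat_lit 380) (nat_lit 417) (nat_lit 343)))) (XT.nd (nat_lit 156) (nat_lit 456) (nat_lit 0) (XT.nd (nat_lit 78) (nat_lit 532) (nat_lit 0) (XT.lf (nat_lit 532) (nat_lit 555123922) (nat_lit 0) (nat_lit 1908824692) (nat_lit 456) (nat_lit 1908824692) (nat_lit 224) (nat_lit 1) (nat_lit 217) (nat_lit 1) (nat_lit 223) (nat_lit 1) (nat_lit 381) (nat_lit 417) (nat_lit 342)) (XT.lf (nat_lit 532) (nat_lit 3978154644) (nat_lit 0) (nat_lit 180363635) (nat_lit 456) (nat_lit 180363635) (nat_lit 217) (nat_lit 1) (nat_lit 210) (nat_lit 1) (nat_lit 216) (nat_lit 1) (nat_lit 382) (nat_lit 417) (nat_lit 341))) (XT.nd (nat_lit 78) (nat_lit 456) (nat_lit 0) (XT.lf (nat_lit 76) (nat_lit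 1513878095) (nat_lit 0) (nat_lit 1277311621) (nat_lit 532) (nat_lit 1513878095) (nat_lit 211) (nat_lit 1) (nat_lit 210) (nat_lit 1) (nat_lit 217) (nat_lit 1) (nat_lit 383) (nat_lit 417) (nat_lit 340)) (XT.lf (nat_lit 532) (nat_lit 2087589633) (nat_lit 0) (nat_lit 1092081162) (nat_lit 456) (nat_lit 1092081162) (nat_lit 211) (nat_lit 1) (nat_lit 204) (nat_lit 1) (nat_lit 210) (nat_lit 1) (nat_lit 384) (nat_lit 417) (nat_lit 339)))))) (XT.nd (nat_lit 624) (nat_lit 1900) (nat_lit 0) (XT.nd (nat_lit 312) (nat_lit 1216) (nat_lit 0) (XT.nd (nat_lit 156) (nat_lit 532) (nat_lit 0) (XT.nd (nat_lit 78) (nat_lit 380) (nat_lit 0) (XT.lf (nat_lit 76) (nat_lit 576016308) (nat_lit 0) (nat_lit 3086785657) (nat_lit 532) (nat_lit 576016308) (nat_lit 205) (nat_lit 1) (nat_lit 204) (nat_lit 1) (nat_lit 211) (nat_lit 1) (nat_lit 385) (nat_lit 417) (nat_lit 338)) (XT.lf (nat_lit 456) (nat_lit 214512057) (nat_lit 0) (nat_lit 1995810050)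 (nat_lit 380) (nat_lit 1995810050) (nat_lit 205) (nat_lit 1) (nat_lit 199) (nat_lit 1) (nat_lit 204) (nat_lit 1) (nat_lit 386) (nat_lit 417) (nat_lit 337))) (XT.nd (nat_lit 78) (nat_lit 0) (nat_lit 0) (XT.lf (nat_lit 532) (nat_lit 3472473797) (nat_lit 0) (nat_lit 350700657) (nat_lit 456) (nat_lit 350700657) (nat_lit 199) (nat_lit 1) (nat_lit 192) (nat_lit 1) (nat_lit 198) (nat_lit 1) (nat_lit 387) (nat_lit 417) (nat_lit 336)) (XT.lf (nat_lit 76) (nat_lit 1261314665) (nat_lit 0) (nat_lit 1619143004) (nat_lit 532) (nat_lit 1261314665) (nat_lit 193) (nat_lit 1) (nat_lit 192) (nat_lit 1) (nat_lit 199) (nat_lit 1) (nat_lit 388) (nat_lit 417) (nat_lit 335)))) (XT.nd (nat_lit 156) (nat_lit 836) (nat_lit 0) (XT.nd (nat_lit 78) (nat_lit 0) (nat_lit 0) (XT.lf (nat_lit 456) (nat_lit 1580757009) (nat_lit 0) (nat_lit 1264666573) (nat_lit 380) (nat_lit 1264666573) (nat_lit 193) (nat_lit 1) (nat_lit 187) (nat_lit 1) (nat_lit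 192) (nat_lit 1) (nat_lit 389) (nat_lit 417) (nat_lit 334)) (XT.lf (nat_lit 76) (nat_lit 323442091) (nat_lit 0) (nat_lit 3431939748) (nat_lit 456) (nat_lit 323442091) (nat_lit 188) (nat_lit 1) (nat_lit 187) (nat_lit 1) (nat_lit 193) (nat_lit 1) (nat_lit 390) (nat_lit 417) (nat_lit 333))) (XT.nd (nat_lit 78) (nat_lit 380) (nat_lit 0) (XT.lf (nat_lit 76) (nat_lit 1880127072) (nat_lit 0) (nat_lit 287436087) (nat_lit 456) (nat_lit 1880127072) (nat_lit 182) (nat_lit 1) (nat_lit 181) (nat_lit 1) (nat_lit 187) (nat_lit 1) (nat_lit 391) (nat_lit 417) (nat_lit 332)) (XT.lf (nat_lit 456) (nat_lit 2815846727) (nat_lit 0) (nat_lit 600558965) (nat_lit 380) (nat_lit 600558965) (nat_lit 182) (nat_lit 1) (nat_lit 176) (nat_lit 1) (nat_lit 181) (nat_lit 1) (nat_lit 392) (nat_lit 417) (nat_lit 331))))) (XT.nd (nat_lit 312) (nat_lit 1140) (nat_lit 0) (XT.nd (nat_lit 156) (nat_lit 380) (nat_lit 0) (XT.nd (nat_lit 78) (nat_lit 380)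 (nat_lit 0) (XT.lf (nat_lit 76) (nat_lit 935654555) (nat_lit 0) (nat_lit 2115166790) (nat_lit 456) (nat_lit 935654555) (nat_lit 177) (nat_lit 1) (nat_lit 176) (nat_lit 1) (nat_lit 182) (nat_lit 1) (nat_lit 393) (nat_lit 417) (nat_lit 330)) (XT.lf (nat_lit 456) (nat_lit 931376270) (nat_lit 0) (nat_lit 1512467919) (nat_lit 380) (nat_lit 1512467919) (nat_lit 177) (nat_lit 1) (nat_lit 171) (nat_lit 1) (nat_lit 176) (nat_lit 1) (nat_lit 394) (nat_lit 417) (nat_lit 329))) (XT.nd (nat_lit 78) (nat_lit 380) (nat_lit 0) (XT.lf (nat_lit 76) (nat_lit 1852715) (nat_lit 0) (nat_lit 3922913391) (nat_lit 456) (nat_lit 1852715) (nat_lit 172) (nat_lit 1) (nat_lit 171) (nat_lit 1) (nat_lit 177) (nat_lit 1) (nat_lit 395) (nat_lit 417) (nat_lit 328)) (XT.lf (nat_lit 76) (nat_lit 1488757102) (nat_lit 0) (nat_lit 919366528) (nat_lit 380) (nat_lit 1488757102) (nat_lit 167) (nat_lit 1) (nat_lit 166) (nat_lit 1) (nat_lit 171) (nat_lit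 1) (nat_lit 396) (nat_lit 417) (nat_lit 327)))) (XT.nd (nat_lit 156) (nat_lit 760) (nat_lit 0) (XT.nd (nat_lit 78) (nat_lit 0) (nat_lit 0) (XT.lf (nat_lit 456) (nat_lit 2037361197) (nat_lit 0) (nat_lit 915122502) (nat_lit 380) (nat_lit 915122502) (nat_lit 167) (nat_lit 1) (nat_lit 161) (nat_lit 1) (nat_lit 166) (nat_lit 1) (nat_lit 397) (nat_lit 417) (nat_lit 326)) (XT.lf (nat_lit 76) (nat_lit 551075051) (nat_lit 0) (nat_lit 2736491018) (nat_lit 456) (nat_lit 551075051) (nat_lit 162) (nat_lit 1) (nat_lit 161) (nat_lit 1) (nat_lit 167) (nat_lit 1) (nat_lit 398) (nat_lit 417) (nat_lit 325))) (XT.nd (nat_lit 78) (nat_lit 456) (nat_lit 0) (XT.lf (nat_lit 380) (nat_lit 167273252) (nat_lit 0) (nat_lit 1821308864) (nat_lit 304) (nat_lit 1821308864) (nat_lit 162) (nat_lit 1) (nat_lit 157) (nat_lit 1) (nat_lit 161) (nat_lit 1) (nat_lit 399) (nat_lit 417) (nat_lit 324)) (XT.lf (nat_lit 456) (nat_lit 3036043577) (nat_lit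 0) (nat_lit 372721868) (nat_lit 380) (nat_lit 372721868) (nat_lit 157) (nat_lit 1) (nat_lit 151) (nat_lit 1) (nat_lit 156) (nat_lit 1) (nat_lit 400) (nat_lit 417) (nat_lit 323))))))))
noncomputable def ec53 : XT := (XT.nd (nat_lit 55614) (nat_lit 0) (nat_lit 4028) (XT.nd (nat_lit 54366) (nat_lit 0) (nat_lit 14288) (XT.nd (nat_lit 53742) (nat_lit 0) (nat_lit 21508) (XT.nd (nat_lit 53430) (nat_lit 0) (nat_lit 25156) (XT.nd (nat_lit 53274) (nat_lit 0) (nat_lit 26980) (XT.lf (nat_lit 76) (nat_lit 1047699763) (nat_lit 0) (nat_lit 1657825520) (nat_lit 456) (nat_lit 1047699763) (nat_lit 152) (nat_lit 1) (nat_lit 151) (nat_lit 1) (nat_lit 157) (nat_lit 1) (nat_lit 401) (nat_lit 417) (nat_lit 322)) (XT.nd (nat_lit 78) (nat_lit 0) (nat_lit 76) (XT.lf (nat_lit 1900) (nat_lit 512171038) (nat_lit 76) (nat_lit 3332886643) (nat_lit 0) (nat_lit 3332886643) (nat_lit 531) (nat_lit 1) (nat_lit 507) (nat_lit 1) (nat_lit 506) (nat_lit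 1) (nat_lit 323) (nat_lit 418) (nat_lit 399)) (XT.lf (nat_lit 1900) (nat_lit 32068725) (nat_lit 0) (nat_lit 7047814782) (nat_lit 1824) (nat_lit 32068725) (nat_lit 532) (nat_lit 1) (nat_lit 507) (nat_lit 1) (nat_lit 531) (nat_lit 1) (nat_lit 324) (nat_lit 418) (nat_lit 398)))) (XT.nd (nat_lit 156) (nat_lit 0) (nat_lit 76) (XT.nd (nat_lit 78) (nat_lit 0) (nat_lit 0) (XT.lf (nat_lit 1976) (nat_lit 3315169804) (nat_lit 0) (nat_lit 415950603) (nat_lit 1900) (nat_lit 3315169804) (nat_lit 508) (nat_lit 1) (nat_lit 482) (nat_lit 1) (nat_lit 507) (nat_lit 1) (nat_lit 325) (nat_lit 418) (nat_lit 397)) (XT.lf (nat_lit 1976) (nat_lit 6092951295) (nat_lit 76) (nat_lit 444447171) (nat_lit 0) (nat_lit 444447171) (nat_lit 508) (nat_lit 1) (nat_lit 483) (nat_lit 1) (nat_lit 482) (nat_lit 1) (nat_lit 326) (nat_lit 418) (nat_lit 396))) (XT.nd (nat_lit 78) (nat_lit 0) (nat_lit 0) (XT.lf (nat_lit 1976) (nat_lit 2762874669) (nat_lit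 0) (nat_lit 1392124155) (nat_lit 1900) (nat_lit 2762874669) (nat_lit 509) (nat_lit 1) (nat_lit 483) (nat_lit 1) (nat_lit 508) (nat_lit 1) (nat_lit 327) (nat_lit 418) (nat_lit 395)) (XT.lf (nat_lit 1976) (nat_lit 4960510276) (nat_lit 76) (nat_lit 947232923) (nat_lit 0) (nat_lit 947232923) (nat_lit 509) (nat_lit 1) (nat_lit 484) (nat_lit 1) (nat_lit 483) (nat_lit 1) (nat_lit 328) (nat_lit 418) (nat_lit 394))))) (XT.nd (nat_lit 312) (nat_lit 1748) (nat_lit 0) (XT.nd (nat_lit 156) (nat_lit 912) (nat_lit 0) (XT.nd (nat_lit 78) (nat_lit 1140) (nat_lit 0) (XT.lf (nat_lit 76) (nat_lit 2186751635) (nat_lit 0) (nat_lit 2419164624) (nat_lit 1900) (nat_lit 2186751635) (nat_lit 485) (nat_lit 1) (nat_lit 484) (nat_lit 1) (nat_lit 509) (nat_lit 1) (nat_lit 329) (nat_lit 418) (nat_lit 393)) (XT.lf (nat_lit 1216) (nat_lit 3782090651) (nat_lit 0) (nat_lit 1474589338) (nat_lit 1140) (nat_lit 1474589338) (nat_lit 485) (nat_lit 1)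 (nat_lit 469) (nat_lit 1) (nat_lit 484) (nat_lit 1) (nat_lit 330) (nat_lit 418) (nat_lit 392))) (XT.nd (nat_lit 78) (nat_lit 912) (nat_lit 0) (XT.lf (nat_lit 76) (nat_lit 1588613699) (nat_lit 0) (nat_lit 3493356139) (nat_lit 1216) (nat_lit 1588613699) (nat_lit 470) (nat_lit 1) (nat_lit 469) (nat_lit 1) (nat_lit 485) (nat_lit 1) (nat_lit 331) (nat_lit 418) (nat_lit 391)) (XT.lf (nat_lit 988) (nat_lit 2561241604) (nat_lit 0) (nat_lit 2024697710) (nat_lit 912) (nat_lit 2024697710) (nat_lit 470) (nat_lit 1) (nat_lit 457) (nat_lit 1) (nat_lit 469) (nat_lit 1) (nat_lit 332) (nat_lit 418) (nat_lit 390)))) (XT.nd (nat_lit 156) (nat_lit 836) (nat_lit 0) (XT.nd (nat_lit 78) (nat_lit 912) (nat_lit 0) (XT.lf (nat_lit 76) (nat_lit 970186049) (nat_lit 0) (nat_lit 4611161252) (nat_lit 988) (nat_lit 970186049) (nat_lit 458) (nat_lit 1) (nat_lit 457) (nat_lit 1) (nat_lit 470) (nat_lit 1) (nat_lit 333) (nat_lit 418) (nat_lit 389))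 (XT.lf (nat_lit 988) (nat_lit 1301339916) (nat_lit 0) (nat_lit 2595826909) (nat_lit 912) (nat_lit 2595826909) (nat_lit 458) (nat_lit 1) (nat_lit 445) (nat_lit 1) (nat_lit 457) (nat_lit 1) (nat_lit 334) (nat_lit 418) (nat_lit 388))) (XT.nd (nat_lit 78) (nat_lit 836) (nat_lit 0) (XT.lf (nat_lit 76) (nat_lit 333109815) (nat_lit 0) (nat_lit 5769213339) (nat_lit 988) (nat_lit 333109815) (nat_lit 446) (nat_lit 1) (nat_lit 445) (nat_lit 1) (nat_lit 458) (nat_lit 1) (nat_lit 335) (nat_lit 418) (nat_lit 387)) (XT.lf (nat_lit 912) (nat_lit 5597335) (nat_lit 0) (nat_lit 3186329646) (nat_lit 836) (nat_lit 3186329646) (nat_lit 446) (nat_lit 1) (nat_lit 434) (nat_lit 1) (nat_lit 445) (nat_lit 1) (nat_lit 336) (nat_lit 418) (nat_lit 386)))))) (XT.nd (nat_lit 624) (nat_lit 3800) (nat_lit 0) (XT.nd (nat_lit 312) (nat_lit 1596) (nat_lit 0) (XT.nd (nat_lit 156) (nat_lit 836) (nat_lit 0) (XT.nd (nat_lit 78) (nat_lit 0) (nat_lit 0)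 (XT.lf (nat_lit 988) (nat_lit 5684149092) (nat_lit 0) (nat_lit 318942125) (nat_lit 912) (nat_lit 318942125) (nat_lit 434) (nat_lit 1) (nat_lit 421) (nat_lit 1) (nat_lit 433) (nat_lit 1) (nat_lit 337) (nat_lit 418) (nat_lit 385)) (XT.lf (nat_lit 76) (nat_lit 2480295904) (nat_lit 0) (nat_lit 1305581848) (nat_lit 988) (nat_lit 2480295904) (nat_lit 422) (nat_lit 1) (nat_lit 421) (nat_lit 1) (nat_lit 434) (nat_lit 1) (nat_lit 338) (nat_lit 418) (nat_lit 384))) (XT.nd (nat_lit 78) (nat_lit 0) (nat_lit 0) (XT.lf (nat_lit 912) (nat_lit 4242632571) (nat_lit 0) (nat_lit 984304135) (nat_lit 836) (nat_lit 984304135) (nat_lit 422) (nat_lit 1) (nat_lit 410) (nat_lit 1) (nat_lit 421) (nat_lit 1) (nat_lit 339) (nat_lit 418) (nat_lit 383)) (XT.lf (nat_lit 76) (nat_lit 1755327030) (nat_lit 0) (nat_lit 2646180160) (nat_lit 912) (nat_lit 1755327030) (nat_lit 411) (nat_lit 1) (nat_lit 410) (nat_lit 1) (nat_lit 422) (nat_lit 1) (nat_lit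 340) (nat_lit 418) (nat_lit 382)))) (XT.nd (nat_lit 156) (nat_lit 760) (nat_lit 0) (XT.nd (nat_lit 78) (nat_lit 0) (nat_lit 0) (XT.lf (nat_lit 912) (nat_lit 2775618988) (nat_lit 0) (nat_lit 1663767026) (nat_lit 836) (nat_lit 1663767026) (nat_lit 411) (nat_lit 1) (nat_lit 399) (nat_lit 1) (nat_lit 410) (nat_lit 1) (nat_lit 341) (nat_lit 418) (nat_lit 381)) (XT.lf (nat_lit 76) (nat_lit 1018307393) (nat_lit 0) (nat_lit 4013549223) (nat_lit 912) (nat_lit 1018307393) (nat_lit 400) (nat_lit 1) (nat_lit 399) (nat_lit 1) (nat_lit 411) (nat_lit 1) (nat_lit 342) (nat_lit 418) (nat_lit 380))) (XT.nd (nat_lit 78) (nat_lit 0) (nat_lit 0) (XT.lf (nat_lit 836) (nat_lit 1285695935) (nat_lit 0) (nat_lit 2356000150) (nat_lit 760) (nat_lit 2356000150) (nat_lit 400) (nat_lit 1) (nat_lit 389) (nat_lit 1) (nat_lit 399) (nat_lit 1) (nat_lit 343) (nat_lit 418) (nat_lit 379)) (XT.lf (nat_lit 76) (nat_lit 270493219) (nat_lit 0) (nat_lit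 5405103851) (nat_lit 836) (nat_lit 270493219) (nat_lit 390) (nat_lit 1) (nat_lit 389) (nat_lit 1) (nat_lit 400) (nat_lit 1) (nat_lit 344) (nat_lit 418) (nat_lit 378))))) (XT.nd (nat_lit 312) (nat_lit 1444) (nat_lit 0) (XT.nd (nat_lit 156) (nat_lit 760) (nat_lit 0) (XT.nd (nat_lit 78) (nat_lit 760) (nat_lit 0) (XT.lf (nat_lit 76) (nat_lit 2836517861) (nat_lit 0) (nat_lit 221734073) (nat_lit 836) (nat_lit 2836517861) (nat_lit 379) (nat_lit 1) (nat_lit 378) (nat_lit 1) (nat_lit 389) (nat_lit 1) (nat_lit 345) (nat_lit 418) (nat_lit 377)) (XT.lf (nat_lit 836) (nat_lit 4876848658) (nat_lit 0) (nat_lit 483720060) (nat_lit 760) (nat_lit 483720060) (nat_lit 379) (nat_lit 1) (nat_lit 368) (nat_lit 1) (nat_lit 378) (nat_lit 1) (nat_lit 346) (nat_lit 418) (nat_lit 376))) (XT.nd (nat_lit 78) (nat_lit 760) (nat_lit 0) (XT.lf (nat_lit 76) (nat_lit 2031988046) (nat_lit 0) (nat_lit 1730188218) (nat_lit 836) (nat_lit 2031988046)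 (nat_lit 369) (nat_lit 1) (nat_lit 368) (nat_lit 1) (nat_lit 379) (nat_lit 1) (nat_lit 347) (nat_lit 418) (nat_lit 375)) (XT.lf (nat_lit 836) (nat_lit 3255659389) (nat_lit 0) (nat_lit 1244570047) (nat_lit 760) (nat_lit 1244570047) (nat_lit 369) (nat_lit 1) (nat_lit 358) (nat_lit 1) (nat_lit 368) (nat_lit 1) (nat_lit 348) (nat_lit 418) (nat_lit 374)))) (XT.nd (nat_lit 156) (nat_lit 760) (nat_lit 0) (XT.nd (nat_lit 78) (nat_lit 684) (nat_lit 0) (XT.lf (nat_lit 76) (nat_lit 1220815686) (nat_lit 0) (nat_lit 3254348463) (nat_lit 836) (nat_lit 1220815686) (nat_lit 359) (nat_lit 1) (nat_lit 358) (nat_lit 1) (nat_lit 369) (nat_lit 1) (nat_lit 349) (nat_lit 418) (nat_lit 373)) (XT.lf (nat_lit 760) (nat_lit 1622154504) (nat_lit 0) (nat_lit 2012771562) (nat_lit 684) (nat_lit 2012771562) (nat_lit 359) (nat_lit 1) (nat_lit 349) (nat_lit 1) (nat_lit 358) (nat_lit 1) (nat_lit 350) (nat_lit 418) (nat_lit 372))) (XT.nd (nat_lit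 78) (nat_lit 760) (nat_lit 0) (XT.lf (nat_lit 76) (nat_lit 404001532) (nat_lit 0) (nat_lit 4792148425) (nat_lit 760) (nat_lit 404001532) (nat_lit 350) (nat_lit 1) (nat_lit 349) (nat_lit 1) (nat_lit 359) (nat_lit 1) (nat_lit 351) (nat_lit 418) (nat_lit 371)) (XT.lf (nat_lit 76) (nat_lit 2765744733) (nat_lit 0) (nat_lit 21427158) (nat_lit 760) (nat_lit 2765744733) (nat_lit 340) (nat_lit 1) (nat_lit 339) (nat_lit 1) (nat_lit 349) (nat_lit 1) (nat_lit 352) (nat_lit 418) (nat_lit 370))))))) (XT.nd (nat_lit 1170) (nat_lit 4636) (nat_lit 0) (XT.nd (nat_lit 546) (nat_lit 2964) (nat_lit 0) (XT.nd (nat_lit 234) (nat_lit 1292) (nat_lit 0) (XT.nd (nat_lit 78) (nat_lit 684) (nat_lit 0) (XT.lf (nat_lit 760) (nat_lit 4676878081) (nat_lit 0) (nat_lit 414760335) (nat_lit 684) (nat_lit 414760335) (nat_lit 340) (nat_lit 1) (nat_lit 330) (nat_lit 1) (nat_lit 339) (nat_lit 1) (nat_lit 353) (nat_lit 418) (nat_lit 369)) (XT.nd (nat_lit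 78) (nat_lit 684) (nat_lit 0) (XT.lf (nat_lit 76) (nat_lit 1904025539) (nat_lit 0) (nat_lit 1652134605) (nat_lit 760) (nat_lit 1904025539) (nat_lit 331) (nat_lit 1) (nat_lit 330) (nat_lit 1) (nat_lit 340) (nat_lit 1) (nat_lit 354) (nat_lit 418) (nat_lit 368)) (XT.lf (nat_lit 760) (nat_lit 2945390595) (nat_lit 0) (nat_lit 1234637519) (nat_lit 684) (nat_lit 1234637519) (nat_lit 331) (nat_lit 1) (nat_lit 321) (nat_lit 1) (nat_lit 330) (nat_lit 1) (nat_lit 355) (nat_lit 418) (nat_lit 367)))) (XT.nd (nat_lit 156) (nat_lit 684) (nat_lit 0) (XT.nd (nat_lit 78) (nat_lit 608) (nat_lit 0) (XT.lf (nat_lit 76) (nat_lit 1040069562) (nat_lit 0) (nat_lit 3289516539) (nat_lit 760) (nat_lit 1040069562) (nat_lit 322) (nat_lit 1) (nat_lit 321) (nat_lit 1) (nat_lit 331) (nat_lit 1) (nat_lit 356) (nat_lit 418) (nat_lit 366)) (XT.lf (nat_lit 684) (nat_lit 1210211811) (nat_lit 0) (nat_lit 2057446043) (nat_lit 608) (nat_lit 2057446043)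 (nat_lit 322) (nat_lit 1) (nat_lit 313) (nat_lit 1) (nat_lit 321) (nat_lit 1) (nat_lit 357) (nat_lit 418) (nat_lit 365))) (XT.nd (nat_lit 78) (nat_lit 684) (nat_lit 0) (XT.lf (nat_lit 76) (nat_lit 174663624) (nat_lit 0) (nat_lit 4931941296) (nat_lit 684) (nat_lit 174663624) (nat_lit 314) (nat_lit 1) (nat_lit 313) (nat_lit 1) (nat_lit 322) (nat_lit 1) (nat_lit 358) (nat_lit 418) (nat_lit 364)) (XT.lf (nat_lit 76) (nat_lit 2358688585) (nat_lit 0) (nat_lit 520210875) (nat_lit 684) (nat_lit 2358688585) (nat_lit 305) (nat_lit 1) (nat_lit 304) (nat_lit 1) (nat_lit 313) (nat_lit 1) (nat_lit 359) (nat_lit 418) (nat_lit 363))))) (XT.nd (nat_lit 312) (nat_lit 1748) (nat_lit 0) (XT.nd (nat_lit 156) (nat_lit 608) (nat_lit 0) (XT.nd (nat_lit 78) (nat_lit 0) (nat_lit 0) (XT.lf (nat_lit 684) (nat_lit 3820806254) (nat_lit 0) (nat_lit 686900712) (nat_lit 608) (nat_lit 686900712) (nat_lit 305) (nat_lit 1) (nat_lit 296) (nat_lit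 1) (nat_lit 304) (nat_lit 1) (nat_lit 360) (nat_lit 418) (nat_lit 362)) (XT.lf (nat_lit 76) (nat_lit 1458255903) (nat_lit 0) (nat_lit 2235462113) (nat_lit 684) (nat_lit 1458255903) (nat_lit 297) (nat_lit 1) (nat_lit 296) (nat_lit 1) (nat_lit 305) (nat_lit 1) (nat_lit 361) (nat_lit 418) (nat_lit 361))) (XT.nd (nat_lit 78) (nat_lit 0) (nat_lit 0) (XT.lf (nat_lit 684) (nat_lit 2015241635) (nat_lit 0) (nat_lit 1547323054) (nat_lit 608) (nat_lit 1547323054) (nat_lit 297) (nat_lit 1) (nat_lit 288) (nat_lit 1) (nat_lit 296) (nat_lit 1) (nat_lit 362) (nat_lit 418) (nat_lit 360)) (XT.lf (nat_lit 76) (nat_lit 559148728) (nat_lit 0) (nat_lit 3950067645) (nat_lit 684) (nat_lit 559148728) (nat_lit 289) (nat_lit 1) (nat_lit 288) (nat_lit 1) (nat_lit 297) (nat_lit 1) (nat_lit 363) (nat_lit 418) (nat_lit 359)))) (XT.nd (nat_lit 156) (nat_lit 532) (nat_lit 0) (XT.nd (nat_lit 78) (nat_lit 684) (nat_lit 0) (XT.lf (nat_lit 608) (nat_lit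 212953131) (nat_lit 0) (nat_lit 2407096971) (nat_lit 532) (nat_lit 2407096971) (nat_lit 289) (nat_lit 1) (nat_lit 281) (nat_lit 1) (nat_lit 288) (nat_lit 1) (nat_lit 364) (nat_lit 418) (nat_lit 358)) (XT.lf (nat_lit 684) (nat_lit 4314931493) (nat_lit 0) (nat_lit 335800967) (nat_lit 608) (nat_lit 335800967) (nat_lit 281) (nat_lit 1) (nat_lit 272) (nat_lit 1) (nat_lit 280) (nat_lit 1) (nat_lit 365) (nat_lit 418) (nat_lit 357))) (XT.nd (nat_lit 78) (nat_lit 532) (nat_lit 0) (XT.lf (nat_lit 76) (nat_lit 1691019341) (nat_lit 0) (nat_lit 1564090024) (nat_lit 684) (nat_lit 1691019341) (nat_lit 273) (nat_lit 1) (nat_lit 272) (nat_lit 1) (nat_lit 281) (nat_lit 1) (nat_lit 366) (nat_lit 418) (nat_lit 356)) (XT.lf (nat_lit 608) (nat_lit 2457147822) (nat_lit 0) (nat_lit 1224583324) (nat_lit 532) (nat_lit 1224583324) (nat_lit 273) (nat_lit 1) (nat_lit 265) (nat_lit 1) (nat_lit 272) (nat_lit 1) (nat_lit 367) (nat_lit 418) (nat_lit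 355)))))) (XT.nd (nat_lit 624) (nat_lit 1900) (nat_lit 0) (XT.nd (nat_lit 312) (nat_lit 1596) (nat_lit 0) (XT.nd (nat_lit 156) (nat_lit 608) (nat_lit 0) (XT.nd (nat_lit 78) (nat_lit 532) (nat_lit 0) (XT.lf (nat_lit 76) (nat_lit 767059787) (nat_lit 0) (nat_lit 3332842263) (nat_lit 608) (nat_lit 767059787) (nat_lit 266) (nat_lit 1) (nat_lit 265) (nat_lit 1) (nat_lit 273) (nat_lit 1) (nat_lit 368) (nat_lit 418) (nat_lit 354)) (XT.lf (nat_lit 608) (nat_lit 607263326) (nat_lit 0) (nat_lit 2110343782) (nat_lit 532) (nat_lit 2110343782) (nat_lit 266) (nat_lit 1) (nat_lit 258) (nat_lit 1) (nat_lit 265) (nat_lit 1) (nat_lit 369) (nat_lit 418) (nat_lit 353))) (XT.nd (nat_lit 78) (nat_lit 0) (nat_lit 0) (XT.lf (nat_lit 608) (nat_lit 4486115017) (nat_lit 0) (nat_lit 151715701) (nat_lit 532) (nat_lit 151715701) (nat_lit 258) (nat_lit 1) (nat_lit 250) (nat_lit 1) (nat_lit 257) (nat_lit 1) (nat_lit 370) (nat_lit 418) (nat_lit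 352)) (XT.lf (nat_lit 76) (nat_lit 1766823564) (nat_lit 0) (nat_lit 1217588001) (nat_lit 608) (nat_lit 1766823564) (nat_lit 251) (nat_lit 1) (nat_lit 250) (nat_lit 1) (nat_lit 258) (nat_lit 1) (nat_lit 371) (nat_lit 418) (nat_lit 351)))) (XT.nd (nat_lit 156) (nat_lit 1064) (nat_lit 0) (XT.nd (nat_lit 78) (nat_lit 0) (nat_lit 0) (XT.lf (nat_lit 608) (nat_lit 2591844633) (nat_lit 0) (nat_lit 1060836671) (nat_lit 532) (nat_lit 1060836671) (nat_lit 251) (nat_lit 1) (nat_lit 243) (nat_lit 1) (nat_lit 250) (nat_lit 1) (nat_lit 372) (nat_lit 418) (nat_lit 350)) (XT.lf (nat_lit 76) (nat_lit 825672160) (nat_lit 0) (nat_lit 3024859493) (nat_lit 608) (nat_lit 825672160) (nat_lit 244) (nat_lit 1) (nat_lit 243) (nat_lit 1) (nat_lit 251) (nat_lit 1) (nat_lit 373) (nat_lit 418) (nat_lit 349))) (XT.nd (nat_lit 78) (nat_lit 608) (nat_lit 0) (XT.lf (nat_lit 532) (nat_lit 709384797) (nat_lit 0) (nat_lit 1964923149) (nat_lit 456)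 (nat_lit 1964923149) (nat_lit 244) (nat_lit 1) (nat_lit 237) (nat_lit 1) (nat_lit 243) (nat_lit 1) (nat_lit 374) (nat_lit 418) (nat_lit 348)) (XT.lf (nat_lit 608) (nat_lit 4385470856) (nat_lit 0) (nat_lit 108681674) (nat_lit 532) (nat_lit 108681674) (nat_lit 237) (nat_lit 1) (nat_lit 229) (nat_lit 1) (nat_lit 236) (nat_lit 1) (nat_lit 375) (nat_lit 418) (nat_lit 347))))) (XT.nd (nat_lit 312) (nat_lit 988) (nat_lit 0) (XT.nd (nat_lit 156) (nat_lit 456) (nat_lit 0) (XT.nd (nat_lit 78) (nat_lit 456) (nat_lit 0) (XT.lf (nat_lit 76) (nat_lit 1710599566) (nat_lit 0) (nat_lit 1145292067) (nat_lit 608) (nat_lit 1710599566) (nat_lit 230) (nat_lit 1) (nat_lit 229) (nat_lit 1) (nat_lit 237) (nat_lit 1) (nat_lit 376) (nat_lit 418) (nat_lit 346)) (XT.lf (nat_lit 532) (nat_lit 2468299884) (nat_lit 0) (nat_lit 1031206589) (nat_lit 456) (nat_lit 1031206589) (nat_lit 230) (nat_lit 1) (nat_lit 223) (nat_lit 1) (nat_lit 229) (nat_lit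 1) (nat_lit 377) (nat_lit 418) (nat_lit 345))) (XT.nd (nat_lit 78) (nat_lit 456) (nat_lit 0) (XT.lf (nat_lit 76) (nat_lit 758869288) (nat_lit 0) (nat_lit 2977577364) (nat_lit 532) (nat_lit 758869288) (nat_lit 224) (nat_lit 1) (nat_lit 223) (nat_lit 1) (nat_lit 230) (nat_lit 1) (nat_lit 378) (nat_lit 418) (nat_lit 344)) (XT.lf (nat_lit 532) (nat_lit 566226401) (nat_lit 0) (nat_lit 1947001186) (nat_lit 456) (nat_lit 1947001186) (nat_lit 224) (nat_lit 1) (nat_lit 217) (nat_lit 1) (nat_lit 223) (nat_lit 1) (nat_lit 379) (nat_lit 418) (nat_lit 343)))) (XT.nd (nat_lit 156) (nat_lit 456) (nat_lit 0) (XT.nd (nat_lit 78) (nat_lit 0) (nat_lit 0) (XT.lf (nat_lit 532) (nat_lit 4057717737) (nat_lit 0) (nat_lit 183970907) (nat_lit 456) (nat_lit 183970907) (nat_lit 217) (nat_lit 1) (nat_lit 210) (nat_lit 1) (nat_lit 216) (nat_lit 1) (nat_lit 380) (nat_lit 418) (nat_lit 342)) (XT.lf (nat_lit 76) (nat_lit 1544155656) (nat_lit 0)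 (nat_lit 1302857853) (nat_lit 532) (nat_lit 1544155656) (nat_lit 211) (nat_lit 1) (nat_lit 210) (nat_lit 1) (nat_lit 217) (nat_lit 1) (nat_lit 381) (nat_lit 418) (nat_lit 341))) (XT.nd (nat_lit 78) (nat_lit 0) (nat_lit 0) (XT.lf (nat_lit 532) (nat_lit 2129341426) (nat_lit 0) (nat_lit 1113922785) (nat_lit 456) (nat_lit 1113922785) (nat_lit 211) (nat_lit 1) (nat_lit 204) (nat_lit 1) (nat_lit 210) (nat_lit 1) (nat_lit 382) (nat_lit 418) (nat_lit 340)) (XT.lf (nat_lit 76) (nat_lit 587536635) (nat_lit 0) (nat_lit 3148521370) (nat_lit 532) (nat_lit 587536635) (nat_lit 205) (nat_lit 1) (nat_lit 204) (nat_lit 1) (nat_lit 211) (nat_lit 1) (nat_lit 383) (nat_lit 418) (nat_lit 339))))))))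
noncomputable def ec54 : XT := (XT.nd (nat_lit 55770) (nat_lit 0) (nat_lit 7524) (XT.nd (nat_lit 1170) (nat_lit 0) (nat_lit 0) (XT.nd (nat_lit 546) (nat_lit 1900) (nat_lit 0) (XT.nd (nat_lit 234) (nat_lit 1216) (nat_lit 0) (XT.nd (nat_lit 78) (nat_lit 532) (nat_lit 0) (XT.lf (nat_lit 456) (nat_lit 218802298) (nat_lit 0) (nat_lit 2035726251) (nat_lit 380) (nat_lit 2035726251) (nat_lit 205) (nat_lit 1) (nat_lit 199) (nat_lit 1) (nat_lit 204) (nat_lit 1) (nat_lit 384) (nat_lit 418) (nat_lit 338)) (XT.nd (nat_lit 78) (nat_lit 0) (nat_lit 0) (XT.lf (nat_lit 532) (nat_lit 3541923273) (nat_lit 0) (nat_lit 357714670) (nat_lit 456) (nat_lit 357714670) (nat_lit 199) (nat_lit 1) (nat_lit 192) (nat_lit 1) (nat_lit 198) (nat_lit 1) (nat_lit 385) (nat_lit 418) (nat_lit 337)) (XT.lf (nat_lit 76) (nat_lit 1286540958) (nat_lit 0) (nat_lit 1651525864) (nat_lit 532) (nat_lit 1286540958) (nat_lit 193) (nat_lit 1) (nat_lit 192) (nat_lit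 1) (nat_lit 199) (nat_lit 1) (nat_lit 386) (nat_lit 418) (nat_lit 336)))) (XT.nd (nat_lit 156) (nat_lit 836) (nat_lit 0) (XT.nd (nat_lit 78) (nat_lit 0) (nat_lit 0) (XT.lf (nat_lit 456) (nat_lit 1612372149) (nat_lit 0) (nat_lit 1289959905) (nat_lit 380) (nat_lit 1289959905) (nat_lit 193) (nat_lit 1) (nat_lit 187) (nat_lit 1) (nat_lit 192) (nat_lit 1) (nat_lit 387) (nat_lit 418) (nat_lit 335)) (XT.lf (nat_lit 76) (nat_lit 329910933) (nat_lit 0) (nat_lit 3500578543) (nat_lit 456) (nat_lit 329910933) (nat_lit 188) (nat_lit 1) (nat_lit 187) (nat_lit 1) (nat_lit 193) (nat_lit 1) (nat_lit 388) (nat_lit 418) (nat_lit 334))) (XT.nd (nat_lit 78) (nat_lit 380) (nat_lit 0) (XT.lf (nat_lit 76) (nat_lit 1917729613) (nat_lit 0) (nat_lit 293184809) (nat_lit 456) (nat_lit 1917729613) (nat_lit 182) (nat_lit 1) (nat_lit 181) (nat_lit 1) (nat_lit 187) (nat_lit 1) (nat_lit 389) (nat_lit 418) (nat_lit 333)) (XT.lf (nat_lit 456) (nat_lit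 2872163662) (nat_lit 0) (nat_lit 612570145) (nat_lit 380) (nat_lit 612570145) (nat_lit 182) (nat_lit 1) (nat_lit 176) (nat_lit 1) (nat_lit 181) (nat_lit 1) (nat_lit 390) (nat_lit 418) (nat_lit 332))))) (XT.nd (nat_lit 312) (nat_lit 1140) (nat_lit 0) (XT.nd (nat_lit 156) (nat_lit 380) (nat_lit 0) (XT.nd (nat_lit 78) (nat_lit 380) (nat_lit 0) (XT.lf (nat_lit 76) (nat_lit 954367647) (nat_lit 0) (nat_lit 2157470126) (nat_lit 456) (nat_lit 954367647) (nat_lit 177) (nat_lit 1) (nat_lit 176) (nat_lit 1) (nat_lit 182) (nat_lit 1) (nat_lit 391) (nat_lit 418) (nat_lit 331)) (XT.lf (nat_lit 456) (nat_lit 950003796) (nat_lit 0) (nat_lit 1542717277) (nat_lit 380) (nat_lit 1542717277) (nat_lit 177) (nat_lit 1) (nat_lit 171) (nat_lit 1) (nat_lit 176) (nat_lit 1) (nat_lit 392) (nat_lit 418) (nat_lit 330))) (XT.nd (nat_lit 78) (nat_lit 380) (nat_lit 0) (XT.lf (nat_lit 76) (nat_lit 1889769) (nat_lit 0) (nat_lit 4001371658) (nat_lit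 456) (nat_lit 1889769) (nat_lit 172) (nat_lit 1) (nat_lit 171) (nat_lit 1) (nat_lit 177) (nat_lit 1) (nat_lit 393) (nat_lit 418) (nat_lit 329)) (XT.lf (nat_lit 76) (nat_lit 1518532244) (nat_lit 0) (nat_lit 937753859) (nat_lit 380) (nat_lit 1518532244) (nat_lit 167) (nat_lit 1) (nat_lit 166) (nat_lit 1) (nat_lit 171) (nat_lit 1) (nat_lit 394) (nat_lit 418) (nat_lit 328)))) (XT.nd (nat_lit 156) (nat_lit 760) (nat_lit 0) (XT.nd (nat_lit 78) (nat_lit 0) (nat_lit 0) (XT.lf (nat_lit 456) (nat_lit 2078108420) (nat_lit 0) (nat_lit 933424952) (nat_lit 380) (nat_lit 933424952) (nat_lit 167) (nat_lit 1) (nat_lit 161) (nat_lit 1) (nat_lit 166) (nat_lit 1) (nat_lit 395) (nat_lit 418) (nat_lit 327)) (XT.lf (nat_lit 76) (nat_lit 562096552) (nat_lit 0) (nat_lit 2791220839) (nat_lit 456) (nat_lit 562096552) (nat_lit 162) (nat_lit 1) (nat_lit 161) (nat_lit 1) (nat_lit 167) (nat_lit 1) (nat_lit 396) (nat_lit 418) (nat_lit 326)))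 (XT.nd (nat_lit 78) (nat_lit 456) (nat_lit 0) (XT.lf (nat_lit 380) (nat_lit 170618717) (nat_lit 0) (nat_lit 1857735041) (nat_lit 304) (nat_lit 1857735041) (nat_lit 162) (nat_lit 1) (nat_lit 157) (nat_lit 1) (nat_lit 161) (nat_lit 1) (nat_lit 397) (nat_lit 418) (nat_lit 325)) (XT.lf (nat_lit 456) (nat_lit 3096764448) (nat_lit 0) (nat_lit 380176305) (nat_lit 380) (nat_lit 380176305) (nat_lit 157) (nat_lit 1) (nat_lit 151) (nat_lit 1) (nat_lit 156) (nat_lit 1) (nat_lit 398) (nat_lit 418) (nat_lit 324)))))) (XT.nd (nat_lit 53976) (nat_lit 0) (nat_lit 19684) (XT.nd (nat_lit 53664) (nat_lit 0) (nat_lit 24168) (XT.nd (nat_lit 53508) (nat_lit 0) (nat_lit 25156) (XT.nd (nat_lit 53430) (nat_lit 0) (nat_lit 25156) (XT.lf (nat_lit 76) (nat_lit 1068653758) (nat_lit 0) (nat_lit 1690982031) (nat_lit 456) (nat_lit 1068653758) (nat_lit 152) (nat_lit 1) (nat_lit 151) (nat_lit 1) (nat_lit 157) (nat_lit 1) (nat_lit 399) (nat_lit 418)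 (nat_lit 323)) (XT.lf (nat_lit 1976) (nat_lit 3381473200) (nat_lit 0) (nat_lit 424269615) (nat_lit 1900) (nat_lit 3381473200) (nat_lit 508) (nat_lit 1) (nat_lit 482) (nat_lit 1) (nat_lit 507) (nat_lit 1) (nat_lit 323) (nat_lit 419) (nat_lit 398))) (XT.nd (nat_lit 78) (nat_lit 0) (nat_lit 76) (XT.lf (nat_lit 1976) (nat_lit 6214810321) (nat_lit 76) (nat_lit 453336114) (nat_lit 0) (nat_lit 453336114) (nat_lit 508) (nat_lit 1) (nat_lit 483) (nat_lit 1) (nat_lit 482) (nat_lit 1) (nat_lit 324) (nat_lit 419) (nat_lit 397)) (XT.lf (nat_lit 1976) (nat_lit 2818132162) (nat_lit 0) (nat_lit 1419966639) (nat_lit 1900) (nat_lit 2818132162) (nat_lit 509) (nat_lit 1) (nat_lit 483) (nat_lit 1) (nat_lit 508) (nat_lit 1) (nat_lit 325) (nat_lit 419) (nat_lit 396)))) (XT.nd (nat_lit 156) (nat_lit 1064) (nat_lit 0) (XT.nd (nat_lit 78) (nat_lit 0) (nat_lit 76) (XT.lf (nat_lit 1976) (nat_lit 5059720481) (nat_lit 76) (nat_lit 966177582)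 (nat_lit 0) (nat_lit 966177582) (nat_lit 509) (nat_lit 1) (nat_lit 484) (nat_lit 1) (nat_lit 483) (nat_lit 1) (nat_lit 326) (nat_lit 419) (nat_lit 395)) (XT.lf (nat_lit 76) (nat_lit 2230486668) (nat_lit 0) (nat_lit 2467547917) (nat_lit 1900) (nat_lit 2230486668) (nat_lit 485) (nat_lit 1) (nat_lit 484) (nat_lit 1) (nat_lit 509) (nat_lit 1) (nat_lit 327) (nat_lit 419) (nat_lit 394))) (XT.nd (nat_lit 78) (nat_lit 0) (nat_lit 0) (XT.lf (nat_lit 1216) (nat_lit 3857732464) (nat_lit 0) (nat_lit 1504081125) (nat_lit 1140) (nat_lit 1504081125) (nat_lit 485) (nat_lit 1) (nat_lit 469) (nat_lit 1) (nat_lit 484) (nat_lit 1) (nat_lit 328) (nat_lit 419) (nat_lit 393)) (XT.lf (nat_lit 76) (nat_lit 1620385973) (nat_lit 0) (nat_lit 3563223262) (nat_lit 1216) (nat_lit 1620385973) (nat_lit 470) (nat_lit 1) (nat_lit 469) (nat_lit 1) (nat_lit 485) (nat_lit 1) (nat_lit 329) (nat_lit 419) (nat_lit 392))))) (XT.nd (nat_lit 312) (nat_lit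 2660) (nat_lit 0) (XT.nd (nat_lit 156) (nat_lit 912) (nat_lit 0) (XT.nd (nat_lit 78) (nat_lit 0) (nat_lit 0) (XT.lf (nat_lit 988) (nat_lit 2612466437) (nat_lit 0) (nat_lit 2065191665) (nat_lit 912) (nat_lit 2065191665) (nat_lit 470) (nat_lit 1) (nat_lit 457) (nat_lit 1) (nat_lit 469) (nat_lit 1) (nat_lit 330) (nat_lit 419) (nat_lit 391)) (XT.lf (nat_lit 76) (nat_lit 989589770) (nat_lit 0) (nat_lit 4703384477) (nat_lit 988) (nat_lit 989589770) (nat_lit 458) (nat_lit 1) (nat_lit 457) (nat_lit 1) (nat_lit 470) (nat_lit 1) (nat_lit 331) (nat_lit 419) (nat_lit 390))) (XT.nd (nat_lit 78) (nat_lit 0) (nat_lit 0) (XT.lf (nat_lit 988) (nat_lit 1327366714) (nat_lit 0) (nat_lit 2647743447) (nat_lit 912) (nat_lit 2647743447) (nat_lit 458) (nat_lit 1) (nat_lit 445) (nat_lit 1) (nat_lit 457) (nat_lit 1) (nat_lit 332) (nat_lit 419) (nat_lit 389)) (XT.lf (nat_lit 76) (nat_lit 339772012) (nat_lit 0) (nat_lit 5884597606) (nat_lit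 988) (nat_lit 339772012) (nat_lit 446) (nat_lit 1) (nat_lit 445) (nat_lit 1) (nat_lit 458) (nat_lit 1) (nat_lit 333) (nat_lit 419) (nat_lit 388)))) (XT.nd (nat_lit 156) (nat_lit 836) (nat_lit 0) (XT.nd (nat_lit 78) (nat_lit 988) (nat_lit 0) (XT.lf (nat_lit 912) (nat_lit 5709282) (nat_lit 0) (nat_lit 3250056239) (nat_lit 836) (nat_lit 3250056239) (nat_lit 446) (nat_lit 1) (nat_lit 434) (nat_lit 1) (nat_lit 445) (nat_lit 1) (nat_lit 334) (nat_lit 419) (nat_lit 387)) (XT.lf (nat_lit 988) (nat_lit 5797832073) (nat_lit 0) (nat_lit 325320968) (nat_lit 912) (nat_lit 325320968) (nat_lit 434) (nat_lit 1) (nat_lit 421) (nat_lit 1) (nat_lit 433) (nat_lit 1) (nat_lit 335) (nat_lit 419) (nat_lit 386))) (XT.nd (nat_lit 78) (nat_lit 836) (nat_lit 0) (XT.lf (nat_lit 76) (nat_lit 2529901823) (nat_lit 0) (nat_lit 1331693485) (nat_lit 988) (nat_lit 2529901823) (nat_lit 422) (nat_lit 1) (nat_lit 421) (nat_lit 1) (nat_lit 434) (nat_lit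 1) (nat_lit 336) (nat_lit 419) (nat_lit 385)) (XT.lf (nat_lit 912) (nat_lit 4327485222) (nat_lit 0) (nat_lit 1003990218) (nat_lit 836) (nat_lit 1003990218) (nat_lit 422) (nat_lit 1) (nat_lit 410) (nat_lit 1) (nat_lit 421) (nat_lit 1) (nat_lit 337) (nat_lit 419) (nat_lit 384))))))) (XT.nd (nat_lit 1170) (nat_lit 6080) (nat_lit 0) (XT.nd (nat_lit 546) (nat_lit 2888) (nat_lit 0) (XT.nd (nat_lit 234) (nat_lit 2356) (nat_lit 0) (XT.nd (nat_lit 78) (nat_lit 836) (nat_lit 0) (XT.lf (nat_lit 76) (nat_lit 1790433570) (nat_lit 0) (nat_lit 2699103763) (nat_lit 912) (nat_lit 1790433570) (nat_lit 411) (nat_lit 1) (nat_lit 410) (nat_lit 1) (nat_lit 422) (nat_lit 1) (nat_lit 338) (nat_lit 419) (nat_lit 383)) (XT.nd (nat_lit 78) (nat_lit 0) (nat_lit 0) (XT.lf (nat_lit 912) (nat_lit 2831131368) (nat_lit 0) (nat_lit 1697042366) (nat_lit 836) (nat_lit 1697042366) (nat_lit 411) (nat_lit 1) (nat_lit 399) (nat_lit 1) (nat_lit 410) (nat_lit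 1) (nat_lit 339) (nat_lit 419) (nat_lit 382)) (XT.lf (nat_lit 76) (nat_lit 1038673541) (nat_lit 0) (nat_lit 4093820207) (nat_lit 912) (nat_lit 1038673541) (nat_lit 400) (nat_lit 1) (nat_lit 399) (nat_lit 1) (nat_lit 411) (nat_lit 1) (nat_lit 340) (nat_lit 419) (nat_lit 381)))) (XT.nd (nat_lit 156) (nat_lit 1596) (nat_lit 0) (XT.nd (nat_lit 78) (nat_lit 0) (nat_lit 0) (XT.lf (nat_lit 836) (nat_lit 1311409853) (nat_lit 0) (nat_lit 2403120153) (nat_lit 760) (nat_lit 2403120153) (nat_lit 400) (nat_lit 1) (nat_lit 389) (nat_lit 1) (nat_lit 399) (nat_lit 1) (nat_lit 341) (nat_lit 419) (nat_lit 380)) (XT.lf (nat_lit 76) (nat_lit 275903084) (nat_lit 0) (nat_lit 5513205928) (nat_lit 836) (nat_lit 275903084) (nat_lit 390) (nat_lit 1) (nat_lit 389) (nat_lit 1) (nat_lit 400) (nat_lit 1) (nat_lit 342) (nat_lit 419) (nat_lit 379))) (XT.nd (nat_lit 78) (nat_lit 760) (nat_lit 0) (XT.lf (nat_lit 76) (nat_lit 2893248219) (nat_lit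 0) (nat_lit 226168755) (nat_lit 836) (nat_lit 2893248219) (nat_lit 379) (nat_lit 1) (nat_lit 378) (nat_lit 1) (nat_lit 389) (nat_lit 1) (nat_lit 343) (nat_lit 419) (nat_lit 378)) (XT.lf (nat_lit 836) (nat_lit 4974385632) (nat_lit 0) (nat_lit 493394462) (nat_lit 760) (nat_lit 493394462) (nat_lit 379) (nat_lit 1) (nat_lit 368) (nat_lit 1) (nat_lit 378) (nat_lit 1) (nat_lit 344) (nat_lit 419) (nat_lit 377))))) (XT.nd (nat_lit 312) (nat_lit 1444) (nat_lit 0) (XT.nd (nat_lit 156) (nat_lit 684) (nat_lit 0) (XT.nd (nat_lit 78) (nat_lit 760) (nat_lit 0) (XT.lf (nat_lit 76) (nat_lit 2072627807) (nat_lit 0) (nat_lit 1764791983) (nat_lit 836) (nat_lit 2072627807) (nat_lit 369) (nat_lit 1) (nat_lit 368) (nat_lit 1) (nat_lit 379) (nat_lit 1) (nat_lit 345) (nat_lit 419) (nat_lit 376)) (XT.lf (nat_lit 836) (nat_lit 3320772577) (nat_lit 0) (nat_lit 1269461448) (nat_lit 760) (nat_lit 1269461448) (nat_lit 369) (nat_lit 1) (nat_lit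 358) (nat_lit 1) (nat_lit 368) (nat_lit 1) (nat_lit 346) (nat_lit 419) (nat_lit 375))) (XT.nd (nat_lit 78) (nat_lit 684) (nat_lit 0) (XT.lf (nat_lit 76) (nat_lit 1245232000) (nat_lit 0) (nat_lit 3319435432) (nat_lit 836) (nat_lit 1245232000) (nat_lit 359) (nat_lit 1) (nat_lit 358) (nat_lit 1) (nat_lit 369) (nat_lit 1) (nat_lit 347) (nat_lit 419) (nat_lit 374)) (XT.lf (nat_lit 760) (nat_lit 1654597594) (nat_lit 0) (nat_lit 2053026993) (nat_lit 684) (nat_lit 2053026993) (nat_lit 359) (nat_lit 1) (nat_lit 349) (nat_lit 1) (nat_lit 358) (nat_lit 1) (nat_lit 348) (nat_lit 419) (nat_lit 373)))) (XT.nd (nat_lit 156) (nat_lit 684) (nat_lit 0) (XT.nd (nat_lit 78) (nat_lit 760) (nat_lit 0) (XT.lf (nat_lit 76) (nat_lit 412081562) (nat_lit 0) (nat_lit 4887991393) (nat_lit 760) (nat_lit 412081562) (nat_lit 350) (nat_lit 1) (nat_lit 349) (nat_lit 1) (nat_lit 359) (nat_lit 1) (nat_lit 349) (nat_lit 419) (nat_lit 372)) (XT.lf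 (nat_lit 76) (nat_lit 2821059628) (nat_lit 0) (nat_lit 21855701) (nat_lit 760) (nat_lit 2821059628) (nat_lit 340) (nat_lit 1) (nat_lit 339) (nat_lit 1) (nat_lit 349) (nat_lit 1) (nat_lit 350) (nat_lit 419) (nat_lit 371))) (XT.nd (nat_lit 78) (nat_lit 0) (nat_lit 0) (XT.lf (nat_lit 760) (nat_lit 4770415643) (nat_lit 0) (nat_lit 423055541) (nat_lit 684) (nat_lit 423055541) (nat_lit 340) (nat_lit 1) (nat_lit 330) (nat_lit 1) (nat_lit 339) (nat_lit 1) (nat_lit 351) (nat_lit 419) (nat_lit 370)) (XT.lf (nat_lit 76) (nat_lit 1942106050) (nat_lit 0) (nat_lit 1685177297) (nat_lit 760) (nat_lit 1942106050) (nat_lit 331) (nat_lit 1) (nat_lit 330) (nat_lit 1) (nat_lit 340) (nat_lit 1) (nat_lit 352) (nat_lit 419) (nat_lit 369)))))) (XT.nd (nat_lit 624) (nat_lit 2888) (nat_lit 0) (XT.nd (nat_lit 312) (nat_lit 1900) (nat_lit 0) (XT.nd (nat_lit 156) (nat_lit 608) (nat_lit 0) (XT.nd (nat_lit 78) (nat_lit 0) (nat_lit 0) (XT.lf (nat_lit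 760) (nat_lit 3004298407) (nat_lit 0) (nat_lit 1259330269) (nat_lit 684) (nat_lit 1259330269) (nat_lit 331) (nat_lit 1) (nat_lit 321) (nat_lit 1) (nat_lit 330) (nat_lit 1) (nat_lit 353) (nat_lit 419) (nat_lit 368)) (XT.lf (nat_lit 76) (nat_lit 1060870953) (nat_lit 0) (nat_lit 3355306870) (nat_lit 760) (nat_lit 1060870953) (nat_lit 322) (nat_lit 1) (nat_lit 321) (nat_lit 1) (nat_lit 331) (nat_lit 1) (nat_lit 354) (nat_lit 419) (nat_lit 367))) (XT.nd (nat_lit 78) (nat_lit 0) (nat_lit 0) (XT.lf (nat_lit 684) (nat_lit 1234416047) (nat_lit 0) (nat_lit 2098594964) (nat_lit 608) (nat_lit 2098594964) (nat_lit 322) (nat_lit 1) (nat_lit 313) (nat_lit 1) (nat_lit 321) (nat_lit 1) (nat_lit 355) (nat_lit 419) (nat_lit 366)) (XT.lf (nat_lit 76) (nat_lit 178156897) (nat_lit 0) (nat_lit 5030580122) (nat_lit 684) (nat_lit 178156897) (nat_lit 314) (nat_lit 1) (nat_lit 313) (nat_lit 1) (nat_lit 322) (nat_lit 1) (nat_lit 356) (nat_lit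 419) (nat_lit 365)))) (XT.nd (nat_lit 156) (nat_lit 608) (nat_lit 0) (XT.nd (nat_lit 78) (nat_lit 608) (nat_lit 0) (XT.lf (nat_lit 76) (nat_lit 2405862357) (nat_lit 0) (nat_lit 530615093) (nat_lit 684) (nat_lit 2405862357) (nat_lit 305) (nat_lit 1) (nat_lit 304) (nat_lit 1) (nat_lit 313) (nat_lit 1) (nat_lit 357) (nat_lit 419) (nat_lit 364)) (XT.lf (nat_lit 684) (nat_lit 3897222379) (nat_lit 0) (nat_lit 700638726) (nat_lit 608) (nat_lit 700638726) (nat_lit 305) (nat_lit 1) (nat_lit 296) (nat_lit 1) (nat_lit 304) (nat_lit 1) (nat_lit 358) (nat_lit 419) (nat_lit 363))) (XT.nd (nat_lit 78) (nat_lit 608) (nat_lit 0) (XT.lf (nat_lit 76) (nat_lit 1487421021) (nat_lit 0) (nat_lit 2280171355) (nat_lit 684) (nat_lit 1487421021) (nat_lit 297) (nat_lit 1) (nat_lit 296) (nat_lit 1) (nat_lit 305) (nat_lit 1) (nat_lit 359) (nat_lit 419) (nat_lit 362)) (XT.lf (nat_lit 684) (nat_lit 2055546467) (nat_lit 0) (nat_lit 1578269515)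 (nat_lit 608) (nat_lit 1578269515) (nat_lit 297) (nat_lit 1) (nat_lit 288) (nat_lit 1) (nat_lit 296) (nat_lit 1) (nat_lit 360) (nat_lit 419) (nat_lit 361))))) (XT.nd (nat_lit 312) (nat_lit 1672) (nat_lit 0) (XT.nd (nat_lit 156) (nat_lit 684) (nat_lit 0) (XT.nd (nat_lit 78) (nat_lit 532) (nat_lit 0) (XT.lf (nat_lit 76) (nat_lit 570331702) (nat_lit 0) (nat_lit 4029068998) (nat_lit 684) (nat_lit 570331702) (nat_lit 289) (nat_lit 1) (nat_lit 288) (nat_lit 1) (nat_lit 297) (nat_lit 1) (nat_lit 361) (nat_lit 419) (nat_lit 360)) (XT.lf (nat_lit 608) (nat_lit 217212194) (nat_lit 0) (nat_lit 2455238910) (nat_lit 532) (nat_lit 2455238910) (nat_lit 289) (nat_lit 1) (nat_lit 281) (nat_lit 1) (nat_lit 288) (nat_lit 1) (nat_lit 362) (nat_lit 419) (nat_lit 359))) (XT.nd (nat_lit 78) (nat_lit 0) (nat_lit 0) (XT.lf (nat_lit 684) (nat_lit 4401230123) (nat_lit 0) (nat_lit 342516986) (nat_lit 608) (nat_lit 342516986) (nat_lit 281)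 (nat_lit 1) (nat_lit 272) (nat_lit 1) (nat_lit 280) (nat_lit 1) (nat_lit 363) (nat_lit 419) (nat_lit 358)) (XT.lf (nat_lit 76) (nat_lit 1724839728) (nat_lit 0) (nat_lit 1595371825) (nat_lit 684) (nat_lit 1724839728) (nat_lit 273) (nat_lit 1) (nat_lit 272) (nat_lit 1) (nat_lit 281) (nat_lit 1) (nat_lit 364) (nat_lit 419) (nat_lit 357)))) (XT.nd (nat_lit 156) (nat_lit 1140) (nat_lit 0) (XT.nd (nat_lit 78) (nat_lit 0) (nat_lit 0) (XT.lf (nat_lit 608) (nat_lit 2506290778) (nat_lit 0) (nat_lit 1249074991) (nat_lit 532) (nat_lit 1249074991) (nat_lit 273) (nat_lit 1) (nat_lit 265) (nat_lit 1) (nat_lit 272) (nat_lit 1) (nat_lit 365) (nat_lit 419) (nat_lit 356)) (XT.lf (nat_lit 76) (nat_lit 782400983) (nat_lit 0) (nat_lit 3399499108) (nat_lit 608) (nat_lit 782400983) (nat_lit 266) (nat_lit 1) (nat_lit 265) (nat_lit 1) (nat_lit 273) (nat_lit 1) (nat_lit 366) (nat_lit 419) (nat_lit 355))) (XT.nd (nat_lit 78) (nat_lit 608)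 (nat_lit 0) (XT.lf (nat_lit 608) (nat_lit 619408592) (nat_lit 0) (nat_lit 2152550658) (nat_lit 532) (nat_lit 2152550658) (nat_lit 266) (nat_lit 1) (nat_lit 258) (nat_lit 1) (nat_lit 265) (nat_lit 1) (nat_lit 367) (nat_lit 419) (nat_lit 354)) (XT.lf (nat_lit 608) (nat_lit 4575837317) (nat_lit 0) (nat_lit 154750015) (nat_lit 532) (nat_lit 154750015) (nat_lit 258) (nat_lit 1) (nat_lit 250) (nat_lit 1) (nat_lit 257) (nat_lit 1) (nat_lit 368) (nat_lit 419) (nat_lit 353))))))))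
noncomputable def ec55 : XT := (XT.nd (nat_lit 55926) (nat_lit 0) (nat_lit 11932) (XT.nd (nat_lit 1170) (nat_lit 3420) (nat_lit 0) (XT.nd (nat_lit 546) (nat_lit 2356) (nat_lit 0) (XT.nd (nat_lit 234) (nat_lit 1520) (nat_lit 0) (XT.nd (nat_lit 78) (nat_lit 532) (nat_lit 0) (XT.lf (nat_lit 76) (nat_lit 1802160035) (nat_lit 0) (nat_lit 1241939761) (nat_lit 608) (nat_lit 1802160035) (nat_lit 251) (nat_lit 1) (nat_lit 250) (nat_lit 1) (nat_lit 258) (nat_lit 1) (nat_lit 369) (nat_lit 419) (nat_lit 352)) (XT.nd (nat_lit 78) (nat_lit 0) (nat_lit 0) (XT.lf (nat_lit 608) (nat_lit 2643681526) (nat_lit 0) (nat_lit 1082053404) (nat_lit 532) (nat_lit 1082053404) (nat_lit 251) (nat_lit 1) (nat_lit 243) (nat_lit 1) (nat_lit 250) (nat_lit 1) (nat_lit 370) (nat_lit 419) (nat_lit 351)) (XT.lf (nat_lit 76) (nat_lit 842185603) (nat_lit 0) (nat_lit 3085356683) (nat_lit 608) (nat_lit 842185603) (nat_lit 244) (nat_lit 1) (nat_lit 243)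 (nat_lit 1) (nat_lit 251) (nat_lit 1) (nat_lit 371) (nat_lit 419) (nat_lit 350)))) (XT.nd (nat_lit 156) (nat_lit 456) (nat_lit 0) (XT.nd (nat_lit 78) (nat_lit 608) (nat_lit 0) (XT.lf (nat_lit 532) (nat_lit 723572493) (nat_lit 0) (nat_lit 2004221612) (nat_lit 456) (nat_lit 2004221612) (nat_lit 244) (nat_lit 1) (nat_lit 237) (nat_lit 1) (nat_lit 243) (nat_lit 1) (nat_lit 372) (nat_lit 419) (nat_lit 349)) (XT.lf (nat_lit 608) (nat_lit 4473180273) (nat_lit 0) (nat_lit 110855308) (nat_lit 532) (nat_lit 110855308) (nat_lit 237) (nat_lit 1) (nat_lit 229) (nat_lit 1) (nat_lit 236) (nat_lit 1) (nat_lit 373) (nat_lit 419) (nat_lit 348))) (XT.nd (nat_lit 78) (nat_lit 456) (nat_lit 0) (XT.lf (nat_lit 76) (nat_lit 1744811558) (nat_lit 0) (nat_lit 1168197908) (nat_lit 608) (nat_lit 1744811558) (nat_lit 230) (nat_lit 1) (nat_lit 229) (nat_lit 1) (nat_lit 237) (nat_lit 1) (nat_lit 374) (nat_lit 419) (nat_lit 347)) (XT.lf (nat_lit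 532) (nat_lit 2517665881) (nat_lit 0) (nat_lit 1051830721) (nat_lit 456) (nat_lit 1051830721) (nat_lit 230) (nat_lit 1) (nat_lit 223) (nat_lit 1) (nat_lit 229) (nat_lit 1) (nat_lit 375) (nat_lit 419) (nat_lit 346))))) (XT.nd (nat_lit 312) (nat_lit 1368) (nat_lit 0) (XT.nd (nat_lit 156) (nat_lit 532) (nat_lit 0) (XT.nd (nat_lit 78) (nat_lit 456) (nat_lit 0) (XT.lf (nat_lit 76) (nat_lit 774046674) (nat_lit 0) (nat_lit 3037128911) (nat_lit 532) (nat_lit 774046674) (nat_lit 224) (nat_lit 1) (nat_lit 223) (nat_lit 1) (nat_lit 230) (nat_lit 1) (nat_lit 376) (nat_lit 419) (nat_lit 345)) (XT.lf (nat_lit 532) (nat_lit 577550929) (nat_lit 0) (nat_lit 1985941210) (nat_lit 456) (nat_lit 1985941210) (nat_lit 224) (nat_lit 1) (nat_lit 217) (nat_lit 1) (nat_lit 223) (nat_lit 1) (nat_lit 377) (nat_lit 419) (nat_lit 344))) (XT.nd (nat_lit 78) (nat_lit 0) (nat_lit 0) (XT.lf (nat_lit 532) (nat_lit 4138872092) (nat_lit 0) (nat_lit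 187650326) (nat_lit 456) (nat_lit 187650326) (nat_lit 217) (nat_lit 1) (nat_lit 210) (nat_lit 1) (nat_lit 216) (nat_lit 1) (nat_lit 378) (nat_lit 419) (nat_lit 343)) (XT.lf (nat_lit 76) (nat_lit 1575038770) (nat_lit 0) (nat_lit 1328915010) (nat_lit 532) (nat_lit 1575038770) (nat_lit 211) (nat_lit 1) (nat_lit 210) (nat_lit 1) (nat_lit 217) (nat_lit 1) (nat_lit 379) (nat_lit 419) (nat_lit 342)))) (XT.nd (nat_lit 156) (nat_lit 912) (nat_lit 0) (XT.nd (nat_lit 78) (nat_lit 0) (nat_lit 0) (XT.lf (nat_lit 532) (nat_lit 2171928254) (nat_lit 0) (nat_lit 1136201240) (nat_lit 456) (nat_lit 1136201240) (nat_lit 211) (nat_lit 1) (nat_lit 204) (nat_lit 1) (nat_lit 210) (nat_lit 1) (nat_lit 380) (nat_lit 419) (nat_lit 341)) (XT.lf (nat_lit 76) (nat_lit 599287367) (nat_lit 0) (nat_lit 3211491797) (nat_lit 532) (nat_lit 599287367) (nat_lit 205) (nat_lit 1) (nat_lit 204) (nat_lit 1) (nat_lit 211) (nat_lit 1) (nat_lit 381) (nat_lit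 419) (nat_lit 340))) (XT.nd (nat_lit 78) (nat_lit 532) (nat_lit 0) (XT.lf (nat_lit 456) (nat_lit 223178344) (nat_lit 0) (nat_lit 2076440776) (nat_lit 380) (nat_lit 2076440776) (nat_lit 205) (nat_lit 1) (nat_lit 199) (nat_lit 1) (nat_lit 204) (nat_lit 1) (nat_lit 382) (nat_lit 419) (nat_lit 339)) (XT.lf (nat_lit 532) (nat_lit 3612761738) (nat_lit 0) (nat_lit 364868963) (nat_lit 456) (nat_lit 364868963) (nat_lit 199) (nat_lit 1) (nat_lit 192) (nat_lit 1) (nat_lit 198) (nat_lit 1) (nat_lit 383) (nat_lit 419) (nat_lit 338)))))) (XT.nd (nat_lit 624) (nat_lit 1824) (nat_lit 0) (XT.nd (nat_lit 312) (nat_lit 760) (nat_lit 0) (XT.nd (nat_lit 156) (nat_lit 456) (nat_lit 0) (XT.nd (nat_lit 78) (nat_lit 380) (nat_lit 0) (XT.lf (nat_lit 76) (nat_lit 1312271778) (nat_lit 0) (nat_lit 1684556381) (nat_lit 532) (nat_lit 1312271778) (nat_lit 193) (nat_lit 1) (nat_lit 192) (nat_lit 1) (nat_lit 199) (nat_lit 1) (nat_lit 384) (nat_lit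 419) (nat_lit 337)) (XT.lf (nat_lit 456) (nat_lit 1644619592) (nat_lit 0) (nat_lit 1315759103) (nat_lit 380) (nat_lit 1315759103) (nat_lit 193) (nat_lit 1) (nat_lit 187) (nat_lit 1) (nat_lit 192) (nat_lit 1) (nat_lit 385) (nat_lit 419) (nat_lit 336))) (XT.nd (nat_lit 78) (nat_lit 456) (nat_lit 0) (XT.lf (nat_lit 76) (nat_lit 336509152) (nat_lit 0) (nat_lit 3570590113) (nat_lit 456) (nat_lit 336509152) (nat_lit 188) (nat_lit 1) (nat_lit 187) (nat_lit 1) (nat_lit 193) (nat_lit 1) (nat_lit 386) (nat_lit 419) (nat_lit 335)) (XT.lf (nat_lit 76) (nat_lit 1956084205) (nat_lit 0) (nat_lit 299048505) (nat_lit 456) (nat_lit 1956084205) (nat_lit 182) (nat_lit 1) (nat_lit 181) (nat_lit 1) (nat_lit 187) (nat_lit 1) (nat_lit 387) (nat_lit 419) (nat_lit 334)))) (XT.nd (nat_lit 156) (nat_lit 380) (nat_lit 0) (XT.nd (nat_lit 78) (nat_lit 0) (nat_lit 0) (XT.lf (nat_lit 456) (nat_lit 2929606935) (nat_lit 0) (nat_lit 624821548) (nat_lit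 380) (nat_lit 624821548) (nat_lit 182) (nat_lit 1) (nat_lit 176) (nat_lit 1) (nat_lit 181) (nat_lit 1) (nat_lit 388) (nat_lit 419) (nat_lit 333)) (XT.lf (nat_lit 76) (nat_lit 973455000) (nat_lit 0) (nat_lit 2200619528) (nat_lit 456) (nat_lit 973455000) (nat_lit 177) (nat_lit 1) (nat_lit 176) (nat_lit 1) (nat_lit 182) (nat_lit 1) (nat_lit 389) (nat_lit 419) (nat_lit 332))) (XT.nd (nat_lit 78) (nat_lit 0) (nat_lit 0) (XT.lf (nat_lit 456) (nat_lit 969003872) (nat_lit 0) (nat_lit 1573571623) (nat_lit 380) (nat_lit 1573571623) (nat_lit 177) (nat_lit 1) (nat_lit 171) (nat_lit 1) (nat_lit 176) (nat_lit 1) (nat_lit 390) (nat_lit 419) (nat_lit 331)) (XT.lf (nat_lit 76) (nat_lit 1927564) (nat_lit 0) (nat_lit 4081399092) (nat_lit 456) (nat_lit 1927564) (nat_lit 172) (nat_lit 1) (nat_lit 171) (nat_lit 1) (nat_lit 177) (nat_lit 1) (nat_lit 391) (nat_lit 419) (nat_lit 330))))) (XT.nd (nat_lit 312) (nat_lit 760) (nat_lit 0) (XT.nd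 (nat_lit 156) (nat_lit 304) (nat_lit 0) (XT.nd (nat_lit 78) (nat_lit 380) (nat_lit 0) (XT.lf (nat_lit 76) (nat_lit 1548902889) (nat_lit 0) (nat_lit 956508936) (nat_lit 380) (nat_lit 1548902889) (nat_lit 167) (nat_lit 1) (nat_lit 166) (nat_lit 1) (nat_lit 171) (nat_lit 1) (nat_lit 392) (nat_lit 419) (nat_lit 329)) (XT.lf (nat_lit 456) (nat_lit 2119670589) (nat_lit 0) (nat_lit 952093451) (nat_lit 380) (nat_lit 952093451) (nat_lit 167) (nat_lit 1) (nat_lit 161) (nat_lit 1) (nat_lit 166) (nat_lit 1) (nat_lit 393) (nat_lit 419) (nat_lit 328))) (XT.nd (nat_lit 78) (nat_lit 304) (nat_lit 0) (XT.lf (nat_lit 76) (nat_lit 573338483) (nat_lit 0) (nat_lit 2847045255) (nat_lit 456) (nat_lit 573338483) (nat_lit 162) (nat_lit 1) (nat_lit 161) (nat_lit 1) (nat_lit 167) (nat_lit 1) (nat_lit 394) (nat_lit 419) (nat_lit 327)) (XT.lf (nat_lit 380) (nat_lit 174031091) (nat_lit 0) (nat_lit 1894889742) (nat_lit 304) (nat_lit 1894889742)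 (nat_lit 162) (nat_lit 1) (nat_lit 157) (nat_lit 1) (nat_lit 161) (nat_lit 1) (nat_lit 395) (nat_lit 419) (nat_lit 326)))) (XT.nd (nat_lit 156) (nat_lit 304) (nat_lit 0) (XT.nd (nat_lit 78) (nat_lit 0) (nat_lit 0) (XT.lf (nat_lit 456) (nat_lit 3158699737) (nat_lit 0) (nat_lit 387779832) (nat_lit 380) (nat_lit 387779832) (nat_lit 157) (nat_lit 1) (nat_lit 151) (nat_lit 1) (nat_lit 156) (nat_lit 1) (nat_lit 396) (nat_lit 419) (nat_lit 325)) (XT.lf (nat_lit 76) (nat_lit 1090026833) (nat_lit 0) (nat_lit 1724801671) (nat_lit 456) (nat_lit 1090026833) (nat_lit 152) (nat_lit 1) (nat_lit 151) (nat_lit 1) (nat_lit 157) (nat_lit 1) (nat_lit 397) (nat_lit 419) (nat_lit 324))) (XT.nd (nat_lit 53586) (nat_lit 0) (nat_lit 25536) (XT.lf (nat_lit 380) (nat_lit 1209249356) (nat_lit 0) (nat_lit 1333277986) (nat_lit 304) (nat_lit 1333277986) (nat_lit 152) (nat_lit 1) (nat_lit 147) (nat_lit 1) (nat_lit 151) (nat_lit 1) (nat_lit 398)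 (nat_lit 419) (nat_lit 323)) (XT.lf (nat_lit 1976) (nat_lit 5160914891) (nat_lit 76) (nat_lit 985501133) (nat_lit 0) (nat_lit 985501133) (nat_lit 509) (nat_lit 1) (nat_lit 484) (nat_lit 1) (nat_lit 483) (nat_lit 1) (nat_lit 324) (nat_lit 420) (nat_lit 396))))))) (XT.nd (nat_lit 1170) (nat_lit 6460) (nat_lit 0) (XT.nd (nat_lit 546) (nat_lit 4256) (nat_lit 0) (XT.nd (nat_lit 234) (nat_lit 1824) (nat_lit 0) (XT.nd (nat_lit 78) (nat_lit 1140) (nat_lit 0) (XT.lf (nat_lit 76) (nat_lit 2275096401) (nat_lit 0) (nat_lit 2516898875) (nat_lit 1900) (nat_lit 2275096401) (nat_lit 485) (nat_lit 1) (nat_lit 484) (nat_lit 1) (nat_lit 509) (nat_lit 1) (nat_lit 325) (nat_lit 420) (nat_lit 395)) (XT.nd (nat_lit 78) (nat_lit 0) (nat_lit 0) (XT.lf (nat_lit 1216) (nat_lit 3934887113) (nat_lit 0) (nat_lit 1534162748) (nat_lit 1140) (nat_lit 1534162748) (nat_lit 485) (nat_lit 1) (nat_lit 469) (nat_lit 1) (nat_lit 484) (nat_lit 1) (nat_lit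 326) (nat_lit 420) (nat_lit 394)) (XT.lf (nat_lit 76) (nat_lit 1652793693) (nat_lit 0) (nat_lit 3634487727) (nat_lit 1216) (nat_lit 1652793693) (nat_lit 470) (nat_lit 1) (nat_lit 469) (nat_lit 1) (nat_lit 485) (nat_lit 1) (nat_lit 327) (nat_lit 420) (nat_lit 393)))) (XT.nd (nat_lit 156) (nat_lit 912) (nat_lit 0) (XT.nd (nat_lit 78) (nat_lit 0) (nat_lit 0) (XT.lf (nat_lit 988) (nat_lit 2664715765) (nat_lit 0) (nat_lit 2106495498) (nat_lit 912) (nat_lit 2106495498) (nat_lit 470) (nat_lit 1) (nat_lit 457) (nat_lit 1) (nat_lit 469) (nat_lit 1) (nat_lit 328) (nat_lit 420) (nat_lit 392)) (XT.lf (nat_lit 76) (nat_lit 1009381565) (nat_lit 0) (nat_lit 4797452166) (nat_lit 988) (nat_lit 1009381565) (nat_lit 458) (nat_lit 1) (nat_lit 457) (nat_lit 1) (nat_lit 470) (nat_lit 1) (nat_lit 329) (nat_lit 420) (nat_lit 391))) (XT.nd (nat_lit 78) (nat_lit 0) (nat_lit 0) (XT.lf (nat_lit 988) (nat_lit 1353914048) (nat_lit 0) (nat_lit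 2700698316) (nat_lit 912) (nat_lit 2700698316) (nat_lit 458) (nat_lit 1) (nat_lit 445) (nat_lit 1) (nat_lit 457) (nat_lit 1) (nat_lit 330) (nat_lit 420) (nat_lit 390)) (XT.lf (nat_lit 76) (nat_lit 346567452) (nat_lit 0) (nat_lit 6002289558) (nat_lit 988) (nat_lit 346567452) (nat_lit 446) (nat_lit 1) (nat_lit 445) (nat_lit 1) (nat_lit 458) (nat_lit 1) (nat_lit 331) (nat_lit 420) (nat_lit 389))))) (XT.nd (nat_lit 312) (nat_lit 1596) (nat_lit 0) (XT.nd (nat_lit 156) (nat_lit 836) (nat_lit 0) (XT.nd (nat_lit 78) (nat_lit 988) (nat_lit 0) (XT.lf (nat_lit 912) (nat_lit 5823467) (nat_lit 0) (nat_lit 3315057364) (nat_lit 836) (nat_lit 3315057364) (nat_lit 446) (nat_lit 1) (nat_lit 434) (nat_lit 1) (nat_lit 445) (nat_lit 1) (nat_lit 332) (nat_lit 420) (nat_lit 388)) (XT.lf (nat_lit 988) (nat_lit 5913788715) (nat_lit 0) (nat_lit 331827387) (nat_lit 912) (nat_lit 331827387) (nat_lit 434) (nat_lit 1) (nat_lit 421) (nat_lit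 1) (nat_lit 433) (nat_lit 1) (nat_lit 333) (nat_lit 420) (nat_lit 387))) (XT.nd (nat_lit 78) (nat_lit 836) (nat_lit 0) (XT.lf (nat_lit 76) (nat_lit 2580499859) (nat_lit 0) (nat_lit 1358327355) (nat_lit 988) (nat_lit 2580499859) (nat_lit 422) (nat_lit 1) (nat_lit 421) (nat_lit 1) (nat_lit 434) (nat_lit 1) (nat_lit 334) (nat_lit 420) (nat_lit 386)) (XT.lf (nat_lit 912) (nat_lit 4414034927) (nat_lit 0) (nat_lit 1024070022) (nat_lit 836) (nat_lit 1024070022) (nat_lit 422) (nat_lit 1) (nat_lit 410) (nat_lit 1) (nat_lit 421) (nat_lit 1) (nat_lit 335) (nat_lit 420) (nat_lit 385)))) (XT.nd (nat_lit 156) (nat_lit 760) (nat_lit 0) (XT.nd (nat_lit 78) (nat_lit 836) (nat_lit 0) (XT.lf (nat_lit 76) (nat_lit 1826242242) (nat_lit 0) (nat_lit 2753085839) (nat_lit 912) (nat_lit 1826242242) (nat_lit 411) (nat_lit 1) (nat_lit 410) (nat_lit 1) (nat_lit 422) (nat_lit 1) (nat_lit 336) (nat_lit 420) (nat_lit 384)) (XT.lf (nat_lit 912)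 (nat_lit 2887753996) (nat_lit 0) (nat_lit 1730983213) (nat_lit 836) (nat_lit 1730983213) (nat_lit 411) (nat_lit 1) (nat_lit 399) (nat_lit 1) (nat_lit 410) (nat_lit 1) (nat_lit 337) (nat_lit 420) (nat_lit 383))) (XT.nd (nat_lit 78) (nat_lit 760) (nat_lit 0) (XT.lf (nat_lit 76) (nat_lit 1059447012) (nat_lit 0) (nat_lit 4175696611) (nat_lit 912) (nat_lit 1059447012) (nat_lit 400) (nat_lit 1) (nat_lit 399) (nat_lit 1) (nat_lit 411) (nat_lit 1) (nat_lit 338) (nat_lit 420) (nat_lit 382)) (XT.lf (nat_lit 836) (nat_lit 1337638050) (nat_lit 0) (nat_lit 2451182556) (nat_lit 760) (nat_lit 2451182556) (nat_lit 400) (nat_lit 1) (nat_lit 389) (nat_lit 1) (nat_lit 399) (nat_lit 1) (nat_lit 339) (nat_lit 420) (nat_lit 381)))))) (XT.nd (nat_lit 624) (nat_lit 3420) (nat_lit 0) (XT.nd (nat_lit 312) (nat_lit 1444) (nat_lit 0) (XT.nd (nat_lit 156) (nat_lit 760) (nat_lit 0) (XT.nd (nat_lit 78) (nat_lit 836) (nat_lit 0) (XT.lf (nat_lit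 76) (nat_lit 281421145) (nat_lit 0) (nat_lit 5623470046) (nat_lit 836) (nat_lit 281421145) (nat_lit 390) (nat_lit 1) (nat_lit 389) (nat_lit 1) (nat_lit 400) (nat_lit 1) (nat_lit 340) (nat_lit 420) (nat_lit 380)) (XT.lf (nat_lit 76) (nat_lit 2951113183) (nat_lit 0) (nat_lit 230692130) (nat_lit 836) (nat_lit 2951113183) (nat_lit 379) (nat_lit 1) (nat_lit 378) (nat_lit 1) (nat_lit 389) (nat_lit 1) (nat_lit 341) (nat_lit 420) (nat_lit 379))) (XT.nd (nat_lit 78) (nat_lit 0) (nat_lit 0) (XT.lf (nat_lit 836) (nat_lit 5073873344) (nat_lit 0) (nat_lit 503262351) (nat_lit 760) (nat_lit 503262351) (nat_lit 379) (nat_lit 1) (nat_lit 368) (nat_lit 1) (nat_lit 378) (nat_lit 1) (nat_lit 342) (nat_lit 420) (nat_lit 378)) (XT.lf (nat_lit 76) (nat_lit 2114080364) (nat_lit 0) (nat_lit 1800087822) (nat_lit 836) (nat_lit 2114080364) (nat_lit 369) (nat_lit 1) (nat_lit 368) (nat_lit 1) (nat_lit 379) (nat_lit 1) (nat_lit 343) (nat_lit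 420) (nat_lit 377)))) (XT.nd (nat_lit 156) (nat_lit 684) (nat_lit 0) (XT.nd (nat_lit 78) (nat_lit 0) (nat_lit 0) (XT.lf (nat_lit 836) (nat_lit 3387188028) (nat_lit 0) (nat_lit 1294850677) (nat_lit 760) (nat_lit 1294850677) (nat_lit 369) (nat_lit 1) (nat_lit 358) (nat_lit 1) (nat_lit 368) (nat_lit 1) (nat_lit 344) (nat_lit 420) (nat_lit 376)) (XT.lf (nat_lit 76) (nat_lit 1270136640) (nat_lit 0) (nat_lit 3385824140) (nat_lit 836) (nat_lit 1270136640) (nat_lit 359) (nat_lit 1) (nat_lit 358) (nat_lit 1) (nat_lit 369) (nat_lit 1) (nat_lit 345) (nat_lit 420) (nat_lit 375))) (XT.nd (nat_lit 78) (nat_lit 0) (nat_lit 0) (XT.lf (nat_lit 760) (nat_lit 1687689546) (nat_lit 0) (nat_lit 2094087533) (nat_lit 684) (nat_lit 2094087533) (nat_lit 359) (nat_lit 1) (nat_lit 349) (nat_lit 1) (nat_lit 358) (nat_lit 1) (nat_lit 346) (nat_lit 420) (nat_lit 374)) (XT.lf (nat_lit 76) (nat_lit 420323194) (nat_lit 0) (nat_lit 4985751221) (nat_lit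 760) (nat_lit 420323194) (nat_lit 350) (nat_lit 1) (nat_lit 349) (nat_lit 1) (nat_lit 359) (nat_lit 1) (nat_lit 347) (nat_lit 420) (nat_lit 373))))) (XT.nd (nat_lit 312) (nat_lit 1292) (nat_lit 0) (XT.nd (nat_lit 156) (nat_lit 684) (nat_lit 0) (XT.nd (nat_lit 78) (nat_lit 684) (nat_lit 0) (XT.lf (nat_lit 76) (nat_lit 2877480820) (nat_lit 0) (nat_lit 22292815) (nat_lit 760) (nat_lit 2877480820) (nat_lit 340) (nat_lit 1) (nat_lit 339) (nat_lit 1) (nat_lit 349) (nat_lit 1) (nat_lit 348) (nat_lit 420) (nat_lit 372)) (XT.lf (nat_lit 760) (nat_lit 4865823956) (nat_lit 0) (nat_lit 431516652) (nat_lit 684) (nat_lit 431516652) (nat_lit 340) (nat_lit 1) (nat_lit 330) (nat_lit 1) (nat_lit 339) (nat_lit 1) (nat_lit 349) (nat_lit 420) (nat_lit 371))) (XT.nd (nat_lit 78) (nat_lit 684) (nat_lit 0) (XT.lf (nat_lit 76) (nat_lit 1980948171) (nat_lit 0) (nat_lit 1718880843) (nat_lit 760) (nat_lit 1980948171) (nat_lit 331) (nat_lit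 1) (nat_lit 330) (nat_lit 1) (nat_lit 340) (nat_lit 1) (nat_lit 350) (nat_lit 420) (nat_lit 370)) (XT.lf (nat_lit 760) (nat_lit 3064384375) (nat_lit 0) (nat_lit 1284516875) (nat_lit 684) (nat_lit 1284516875) (nat_lit 331) (nat_lit 1) (nat_lit 321) (nat_lit 1) (nat_lit 330) (nat_lit 1) (nat_lit 351) (nat_lit 420) (nat_lit 369)))) (XT.nd (nat_lit 156) (nat_lit 684) (nat_lit 0) (XT.nd (nat_lit 78) (nat_lit 608) (nat_lit 0) (XT.lf (nat_lit 76) (nat_lit 1082088372) (nat_lit 0) (nat_lit 3422413008) (nat_lit 760) (nat_lit 1082088372) (nat_lit 322) (nat_lit 1) (nat_lit 321) (nat_lit 1) (nat_lit 331) (nat_lit 1) (nat_lit 352) (nat_lit 420) (nat_lit 368)) (XT.lf (nat_lit 684) (nat_lit 1259104368) (nat_lit 0) (nat_lit 2140566863) (nat_lit 608) (nat_lit 2140566863) (nat_lit 322) (nat_lit 1) (nat_lit 313) (nat_lit 1) (nat_lit 321) (nat_lit 1) (nat_lit 353) (nat_lit 420) (nat_lit 367))) (XT.nd (nat_lit 78) (nat_lit 684) (nat_lit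 0) (XT.lf (nat_lit 76) (nat_lit 181720035) (nat_lit 0) (nat_lit 5131191724) (nat_lit 684) (nat_lit 181720035) (nat_lit 314) (nat_lit 1) (nat_lit 313) (nat_lit 1) (nat_lit 322) (nat_lit 1) (nat_lit 354) (nat_lit 420) (nat_lit 366)) (XT.lf (nat_lit 76) (nat_lit 2453979604) (nat_lit 0) (nat_lit 541227395) (nat_lit 684) (nat_lit 2453979604) (nat_lit 305) (nat_lit 1) (nat_lit 304) (nat_lit 1) (nat_lit 313) (nat_lit 1) (nat_lit 355) (nat_lit 420) (nat_lit 365))))))))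
noncomputable def ec56 : XT := (XT.nd (nat_lit 2340) (nat_lit 2584) (nat_lit 0) (XT.nd (nat_lit 1170) (nat_lit 4256) (nat_lit 0) (XT.nd (nat_lit 546) (nat_lit 2660) (nat_lit 0) (XT.nd (nat_lit 234) (nat_lit 1216) (nat_lit 0) (XT.nd (nat_lit 78) (nat_lit 608) (nat_lit 0) (XT.lf (nat_lit 684) (nat_lit 3975166827) (nat_lit 0) (nat_lit 714651501) (nat_lit 608) (nat_lit 714651501) (nat_lit 305) (nat_lit 1) (nat_lit 296) (nat_lit 1) (nat_lit 304) (nat_lit 1) (nat_lit 356) (nat_lit 420) (nat_lit 364)) (XT.nd (nat_lit 78) (nat_lit 608) (nat_lit 0) (XT.lf (nat_lit 76) (nat_lit 1517169441) (nat_lit 0) (nat_lit 2325774782) (nat_lit 684) (nat_lit 1517169441) (nat_lit 297) (nat_lit 1) (nat_lit 296) (nat_lit 1) (nat_lit 305) (nat_lit 1) (nat_lit 357) (nat_lit 420) (nat_lit 363)) (XT.lf (nat_lit 684) (nat_lit 2096657397) (nat_lit 0) (nat_lit 1609834905) (nat_lit 608) (nat_lit 1609834905) (nat_lit 297) (nat_lit 1) (nat_lit 288)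 (nat_lit 1) (nat_lit 296) (nat_lit 1) (nat_lit 358) (nat_lit 420) (nat_lit 362)))) (XT.nd (nat_lit 156) (nat_lit 684) (nat_lit 0) (XT.nd (nat_lit 78) (nat_lit 532) (nat_lit 0) (XT.lf (nat_lit 76) (nat_lit 581738337) (nat_lit 0) (nat_lit 4109650378) (nat_lit 684) (nat_lit 581738337) (nat_lit 289) (nat_lit 1) (nat_lit 288) (nat_lit 1) (nat_lit 297) (nat_lit 1) (nat_lit 359) (nat_lit 420) (nat_lit 361)) (XT.lf (nat_lit 608) (nat_lit 221556438) (nat_lit 0) (nat_lit 2504343688) (nat_lit 532) (nat_lit 2504343688) (nat_lit 289) (nat_lit 1) (nat_lit 281) (nat_lit 1) (nat_lit 288) (nat_lit 1) (nat_lit 360) (nat_lit 420) (nat_lit 360))) (XT.nd (nat_lit 78) (nat_lit 0) (nat_lit 0) (XT.lf (nat_lit 684) (nat_lit 4489254725) (nat_lit 0) (nat_lit 349367326) (nat_lit 608) (nat_lit 349367326) (nat_lit 281) (nat_lit 1) (nat_lit 272) (nat_lit 1) (nat_lit 280) (nat_lit 1) (nat_lit 361) (nat_lit 420) (nat_lit 359)) (XT.lf (nat_lit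 76) (nat_lit 1759336522) (nat_lit 0) (nat_lit 1627279262) (nat_lit 684) (nat_lit 1759336522) (nat_lit 273) (nat_lit 1) (nat_lit 272) (nat_lit 1) (nat_lit 281) (nat_lit 1) (nat_lit 362) (nat_lit 420) (nat_lit 358))))) (XT.nd (nat_lit 312) (nat_lit 988) (nat_lit 0) (XT.nd (nat_lit 156) (nat_lit 1140) (nat_lit 0) (XT.nd (nat_lit 78) (nat_lit 0) (nat_lit 0) (XT.lf (nat_lit 608) (nat_lit 2556416594) (nat_lit 0) (nat_lit 1274056490) (nat_lit 532) (nat_lit 1274056490) (nat_lit 273) (nat_lit 1) (nat_lit 265) (nat_lit 1) (nat_lit 272) (nat_lit 1) (nat_lit 363) (nat_lit 420) (nat_lit 357)) (XT.lf (nat_lit 76) (nat_lit 798049002) (nat_lit 0) (nat_lit 3467489090) (nat_lit 608) (nat_lit 798049002) (nat_lit 266) (nat_lit 1) (nat_lit 265) (nat_lit 1) (nat_lit 273) (nat_lit 1) (nat_lit 364) (nat_lit 420) (nat_lit 356))) (XT.nd (nat_lit 78) (nat_lit 608) (nat_lit 0) (XT.lf (nat_lit 608) (nat_lit 631796764) (nat_lit 0) (nat_lit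 2195601671) (nat_lit 532) (nat_lit 2195601671) (nat_lit 266) (nat_lit 1) (nat_lit 258) (nat_lit 1) (nat_lit 265) (nat_lit 1) (nat_lit 365) (nat_lit 420) (nat_lit 355)) (XT.lf (nat_lit 608) (nat_lit 4667354064) (nat_lit 0) (nat_lit 157845015) (nat_lit 532) (nat_lit 157845015) (nat_lit 258) (nat_lit 1) (nat_lit 250) (nat_lit 1) (nat_lit 257) (nat_lit 1) (nat_lit 366) (nat_lit 420) (nat_lit 354)))) (XT.nd (nat_lit 156) (nat_lit 456) (nat_lit 0) (XT.nd (nat_lit 78) (nat_lit 532) (nat_lit 0) (XT.lf (nat_lit 76) (nat_lit 1838203236) (nat_lit 0) (nat_lit 1266778557) (nat_lit 608) (nat_lit 1838203236) (nat_lit 251) (nat_lit 1) (nat_lit 250) (nat_lit 1) (nat_lit 258) (nat_lit 1) (nat_lit 367) (nat_lit 420) (nat_lit 353)) (XT.lf (nat_lit 608) (nat_lit 2696555156) (nat_lit 0) (nat_lit 1103694472) (nat_lit 532) (nat_lit 1103694472) (nat_lit 251) (nat_lit 1) (nat_lit 243) (nat_lit 1) (nat_lit 250) (nat_lit 1) (nat_lit 368)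 (nat_lit 420) (nat_lit 352))) (XT.nd (nat_lit 78) (nat_lit 456) (nat_lit 0) (XT.lf (nat_lit 76) (nat_lit 859029315) (nat_lit 0) (nat_lit 3147063816) (nat_lit 608) (nat_lit 859029315) (nat_lit 244) (nat_lit 1) (nat_lit 243) (nat_lit 1) (nat_lit 251) (nat_lit 1) (nat_lit 369) (nat_lit 420) (nat_lit 351)) (XT.lf (nat_lit 532) (nat_lit 738043943) (nat_lit 0) (nat_lit 2044306045) (nat_lit 456) (nat_lit 2044306045) (nat_lit 244) (nat_lit 1) (nat_lit 237) (nat_lit 1) (nat_lit 243) (nat_lit 1) (nat_lit 370) (nat_lit 420) (nat_lit 350)))))) (XT.nd (nat_lit 546) (nat_lit 2204) (nat_lit 0) (XT.nd (nat_lit 234) (nat_lit 988) (nat_lit 0) (XT.nd (nat_lit 78) (nat_lit 456) (nat_lit 0) (XT.lf (nat_lit 608) (nat_lit 4562643878) (nat_lit 0) (nat_lit 113072414) (nat_lit 532) (nat_lit 113072414) (nat_lit 237) (nat_lit 1) (nat_lit 229) (nat_lit 1) (nat_lit 236) (nat_lit 1) (nat_lit 371) (nat_lit 420) (nat_lit 349)) (XT.nd (nat_lit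 78) (nat_lit 456) (nat_lit 0) (XT.lf (nat_lit 76) (nat_lit 1779707789) (nat_lit 0) (nat_lit 1191561867) (nat_lit 608) (nat_lit 1779707789) (nat_lit 230) (nat_lit 1) (nat_lit 229) (nat_lit 1) (nat_lit 237) (nat_lit 1) (nat_lit 372) (nat_lit 420) (nat_lit 348)) (XT.lf (nat_lit 532) (nat_lit 2568019199) (nat_lit 0) (nat_lit 1072867335) (nat_lit 456) (nat_lit 1072867335) (nat_lit 230) (nat_lit 1) (nat_lit 223) (nat_lit 1) (nat_lit 229) (nat_lit 1) (nat_lit 373) (nat_lit 420) (nat_lit 347)))) (XT.nd (nat_lit 156) (nat_lit 532) (nat_lit 0) (XT.nd (nat_lit 78) (nat_lit 456) (nat_lit 0) (XT.lf (nat_lit 76) (nat_lit 789527607) (nat_lit 0) (nat_lit 3097871489) (nat_lit 532) (nat_lit 789527607) (nat_lit 224) (nat_lit 1) (nat_lit 223) (nat_lit 1) (nat_lit 230) (nat_lit 1) (nat_lit 374) (nat_lit 420) (nat_lit 346)) (XT.lf (nat_lit 532) (nat_lit 589101947) (nat_lit 0) (nat_lit 2025660034) (nat_lit 456) (nat_lit 2025660034) (nat_lit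 224) (nat_lit 1) (nat_lit 217) (nat_lit 1) (nat_lit 223) (nat_lit 1) (nat_lit 375) (nat_lit 420) (nat_lit 345))) (XT.nd (nat_lit 78) (nat_lit 0) (nat_lit 0) (XT.lf (nat_lit 532) (nat_lit 4221649534) (nat_lit 0) (nat_lit 191403332) (nat_lit 456) (nat_lit 191403332) (nat_lit 217) (nat_lit 1) (nat_lit 210) (nat_lit 1) (nat_lit 216) (nat_lit 1) (nat_lit 376) (nat_lit 420) (nat_lit 344)) (XT.lf (nat_lit 76) (nat_lit 1606539545) (nat_lit 0) (nat_lit 1355493311) (nat_lit 532) (nat_lit 1606539545) (nat_lit 211) (nat_lit 1) (nat_lit 210) (nat_lit 1) (nat_lit 217) (nat_lit 1) (nat_lit 377) (nat_lit 420) (nat_lit 343))))) (XT.nd (nat_lit 312) (nat_lit 836) (nat_lit 0) (XT.nd (nat_lit 156) (nat_lit 912) (nat_lit 0) (XT.nd (nat_lit 78) (nat_lit 0) (nat_lit 0) (XT.lf (nat_lit 532) (nat_lit 2215366819) (nat_lit 0) (nat_lit 1158925265) (nat_lit 456) (nat_lit 1158925265) (nat_lit 211) (nat_lit 1) (nat_lit 204) (nat_lit 1) (nat_lit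 210) (nat_lit 1) (nat_lit 378) (nat_lit 420) (nat_lit 342)) (XT.lf (nat_lit 76) (nat_lit 611273115) (nat_lit 0) (nat_lit 3275721633) (nat_lit 532) (nat_lit 611273115) (nat_lit 205) (nat_lit 1) (nat_lit 204) (nat_lit 1) (nat_lit 211) (nat_lit 1) (nat_lit 379) (nat_lit 420) (nat_lit 341))) (XT.nd (nat_lit 78) (nat_lit 532) (nat_lit 0) (XT.lf (nat_lit 456) (nat_lit 227641911) (nat_lit 0) (nat_lit 2117969592) (nat_lit 380) (nat_lit 2117969592) (nat_lit 205) (nat_lit 1) (nat_lit 199) (nat_lit 1) (nat_lit 204) (nat_lit 1) (nat_lit 380) (nat_lit 420) (nat_lit 340)) (XT.lf (nat_lit 532) (nat_lit 3685016973) (nat_lit 0) (nat_lit 372166343) (nat_lit 456) (nat_lit 372166343) (nat_lit 199) (nat_lit 1) (nat_lit 192) (nat_lit 1) (nat_lit 198) (nat_lit 1) (nat_lit 381) (nat_lit 420) (nat_lit 339)))) (XT.nd (nat_lit 156) (nat_lit 456) (nat_lit 0) (XT.nd (nat_lit 78) (nat_lit 380) (nat_lit 0) (XT.lf (nat_lit 76) (nat_lit 1338517213)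 (nat_lit 0) (nat_lit 1718247509) (nat_lit 532) (nat_lit 1338517213) (nat_lit 193) (nat_lit 1) (nat_lit 192) (nat_lit 1) (nat_lit 199) (nat_lit 1) (nat_lit 382) (nat_lit 420) (nat_lit 338)) (XT.lf (nat_lit 456) (nat_lit 1677511984) (nat_lit 0) (nat_lit 1342074285) (nat_lit 380) (nat_lit 1342074285) (nat_lit 193) (nat_lit 1) (nat_lit 187) (nat_lit 1) (nat_lit 192) (nat_lit 1) (nat_lit 383) (nat_lit 420) (nat_lit 337))) (XT.nd (nat_lit 78) (nat_lit 456) (nat_lit 0) (XT.lf (nat_lit 76) (nat_lit 343239335) (nat_lit 0) (nat_lit 3642001916) (nat_lit 456) (nat_lit 343239335) (nat_lit 188) (nat_lit 1) (nat_lit 187) (nat_lit 1) (nat_lit 193) (nat_lit 1) (nat_lit 384) (nat_lit 420) (nat_lit 336)) (XT.lf (nat_lit 76) (nat_lit 1995205889) (nat_lit 0) (nat_lit 305029475) (nat_lit 456) (nat_lit 1995205889) (nat_lit 182) (nat_lit 1) (nat_lit 181) (nat_lit 1) (nat_lit 187) (nat_lit 1) (nat_lit 385) (nat_lit 420) (nat_lit 335)))))))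 (XT.nd (nat_lit 54912) (nat_lit 0) (nat_lit 15352) (XT.nd (nat_lit 546) (nat_lit 1064) (nat_lit 0) (XT.nd (nat_lit 234) (nat_lit 760) (nat_lit 0) (XT.nd (nat_lit 78) (nat_lit 380) (nat_lit 0) (XT.lf (nat_lit 456) (nat_lit 2988199074) (nat_lit 0) (nat_lit 637317979) (nat_lit 380) (nat_lit 637317979) (nat_lit 182) (nat_lit 1) (nat_lit 176) (nat_lit 1) (nat_lit 181) (nat_lit 1) (nat_lit 386) (nat_lit 420) (nat_lit 334)) (XT.nd (nat_lit 78) (nat_lit 380) (nat_lit 0) (XT.lf (nat_lit 76) (nat_lit 992924100) (nat_lit 0) (nat_lit 2244631919) (nat_lit 456) (nat_lit 992924100) (nat_lit 177) (nat_lit 1) (nat_lit 176) (nat_lit 1) (nat_lit 182) (nat_lit 1) (nat_lit 387) (nat_lit 420) (nat_lit 333)) (XT.lf (nat_lit 456) (nat_lit 988383949) (nat_lit 0) (nat_lit 1605043055) (nat_lit 380) (nat_lit 1605043055) (nat_lit 177) (nat_lit 1) (nat_lit 171) (nat_lit 1) (nat_lit 176) (nat_lit 1) (nat_lit 388) (nat_lit 420) (nat_lit 332))))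 (XT.nd (nat_lit 156) (nat_lit 380) (nat_lit 0) (XT.nd (nat_lit 78) (nat_lit 380) (nat_lit 0) (XT.lf (nat_lit 76) (nat_lit 1966116) (nat_lit 0) (nat_lit 4163027073) (nat_lit 456) (nat_lit 1966116) (nat_lit 172) (nat_lit 1) (nat_lit 171) (nat_lit 1) (nat_lit 177) (nat_lit 1) (nat_lit 389) (nat_lit 420) (nat_lit 331)) (XT.lf (nat_lit 76) (nat_lit 1579880947) (nat_lit 0) (nat_lit 975639115) (nat_lit 380) (nat_lit 1579880947) (nat_lit 167) (nat_lit 1) (nat_lit 166) (nat_lit 1) (nat_lit 171) (nat_lit 1) (nat_lit 390) (nat_lit 420) (nat_lit 330))) (XT.nd (nat_lit 78) (nat_lit 0) (nat_lit 0) (XT.lf (nat_lit 456) (nat_lit 2162064001) (nat_lit 0) (nat_lit 971135320) (nat_lit 380) (nat_lit 971135320) (nat_lit 167) (nat_lit 1) (nat_lit 161) (nat_lit 1) (nat_lit 166) (nat_lit 1) (nat_lit 391) (nat_lit 420) (nat_lit 329)) (XT.lf (nat_lit 76) (nat_lit 584805253) (nat_lit 0) (nat_lit 2903986161) (nat_lit 456) (nat_lit 584805253)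 (nat_lit 162) (nat_lit 1) (nat_lit 161) (nat_lit 1) (nat_lit 167) (nat_lit 1) (nat_lit 392) (nat_lit 420) (nat_lit 328))))) (XT.nd (nat_lit 54054) (nat_lit 0) (nat_lit 22648) (XT.nd (nat_lit 156) (nat_lit 304) (nat_lit 0) (XT.nd (nat_lit 78) (nat_lit 456) (nat_lit 0) (XT.lf (nat_lit 380) (nat_lit 177511713) (nat_lit 0) (nat_lit 1932787537) (nat_lit 304) (nat_lit 1932787537) (nat_lit 162) (nat_lit 1) (nat_lit 157) (nat_lit 1) (nat_lit 161) (nat_lit 1) (nat_lit 393) (nat_lit 420) (nat_lit 327)) (XT.lf (nat_lit 456) (nat_lit 3221873732) (nat_lit 0) (nat_lit 395535428) (nat_lit 380) (nat_lit 395535428) (nat_lit 157) (nat_lit 1) (nat_lit 151) (nat_lit 1) (nat_lit 156) (nat_lit 1) (nat_lit 394) (nat_lit 420) (nat_lit 326))) (XT.nd (nat_lit 78) (nat_lit 304) (nat_lit 0) (XT.lf (nat_lit 76) (nat_lit 1111827370) (nat_lit 0) (nat_lit 1759297705) (nat_lit 456) (nat_lit 1111827370) (nat_lit 152) (nat_lit 1) (nat_lit 151) (nat_lit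 1) (nat_lit 157) (nat_lit 1) (nat_lit 395) (nat_lit 420) (nat_lit 325)) (XT.lf (nat_lit 380) (nat_lit 1233434343) (nat_lit 0) (nat_lit 1359943546) (nat_lit 304) (nat_lit 1359943546) (nat_lit 152) (nat_lit 1) (nat_lit 147) (nat_lit 1) (nat_lit 151) (nat_lit 1) (nat_lit 396) (nat_lit 420) (nat_lit 324)))) (XT.nd (nat_lit 156) (nat_lit 912) (nat_lit 0) (XT.nd (nat_lit 78) (nat_lit 912) (nat_lit 0) (XT.lf (nat_lit 76) (nat_lit 1685849567) (nat_lit 0) (nat_lit 3707177482) (nat_lit 1216) (nat_lit 1685849567) (nat_lit 470) (nat_lit 1) (nat_lit 469) (nat_lit 1) (nat_lit 485) (nat_lit 1) (nat_lit 325) (nat_lit 421) (nat_lit 394)) (XT.lf (nat_lit 988) (nat_lit 2718010081) (nat_lit 0) (nat_lit 2148625408) (nat_lit 912) (nat_lit 2148625408) (nat_lit 470) (nat_lit 1) (nat_lit 457) (nat_lit 1) (nat_lit 469) (nat_lit 1) (nat_lit 326) (nat_lit 421) (nat_lit 393))) (XT.nd (nat_lit 78) (nat_lit 912) (nat_lit 0) (XT.lf (nat_lit 76)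 (nat_lit 1029569196) (nat_lit 0) (nat_lit 4893401210) (nat_lit 988) (nat_lit 1029569196) (nat_lit 458) (nat_lit 1) (nat_lit 457) (nat_lit 1) (nat_lit 470) (nat_lit 1) (nat_lit 327) (nat_lit 421) (nat_lit 392)) (XT.lf (nat_lit 988) (nat_lit 1380992329) (nat_lit 0) (nat_lit 2754712282) (nat_lit 912) (nat_lit 2754712282) (nat_lit 458) (nat_lit 1) (nat_lit 445) (nat_lit 1) (nat_lit 457) (nat_lit 1) (nat_lit 328) (nat_lit 421) (nat_lit 391)))))) (XT.nd (nat_lit 624) (nat_lit 3800) (nat_lit 0) (XT.nd (nat_lit 312) (nat_lit 1672) (nat_lit 0) (XT.nd (nat_lit 156) (nat_lit 988) (nat_lit 0) (XT.nd (nat_lit 78) (nat_lit 836) (nat_lit 0) (XT.lf (nat_lit 76) (nat_lit 353498801) (nat_lit 0) (nat_lit 6122335349) (nat_lit 988) (nat_lit 353498801) (nat_lit 446) (nat_lit 1) (nat_lit 445) (nat_lit 1) (nat_lit 458) (nat_lit 1) (nat_lit 329) (nat_lit 421) (nat_lit 390)) (XT.lf (nat_lit 912) (nat_lit 5939937) (nat_lit 0) (nat_lit 3381358511)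 (nat_lit 836) (nat_lit 3381358511) (nat_lit 446) (nat_lit 1) (nat_lit 434) (nat_lit 1) (nat_lit 445) (nat_lit 1) (nat_lit 330) (nat_lit 421) (nat_lit 389))) (XT.nd (nat_lit 78) (nat_lit 0) (nat_lit 0) (XT.lf (nat_lit 988) (nat_lit 6032064489) (nat_lit 0) (nat_lit 338463935) (nat_lit 912) (nat_lit 338463935) (nat_lit 434) (nat_lit 1) (nat_lit 421) (nat_lit 1) (nat_lit 433) (nat_lit 1) (nat_lit 331) (nat_lit 421) (nat_lit 388)) (XT.lf (nat_lit 76) (nat_lit 2632109856) (nat_lit 0) (nat_lit 1385493902) (nat_lit 988) (nat_lit 2632109856) (nat_lit 422) (nat_lit 1) (nat_lit 421) (nat_lit 1) (nat_lit 434) (nat_lit 1) (nat_lit 332) (nat_lit 421) (nat_lit 387)))) (XT.nd (nat_lit 156) (nat_lit 836) (nat_lit 0) (XT.nd (nat_lit 78) (nat_lit 0) (nat_lit 0) (XT.lf (nat_lit 912) (nat_lit 4502315625) (nat_lit 0) (nat_lit 1044551423) (nat_lit 836) (nat_lit 1044551423) (nat_lit 422) (nat_lit 1) (nat_lit 410) (nat_lit 1) (nat_lit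 421) (nat_lit 1) (nat_lit 333) (nat_lit 421) (nat_lit 386)) (XT.lf (nat_lit 76) (nat_lit 1862767086) (nat_lit 0) (nat_lit 2808147555) (nat_lit 912) (nat_lit 1862767086) (nat_lit 411) (nat_lit 1) (nat_lit 410) (nat_lit 1) (nat_lit 422) (nat_lit 1) (nat_lit 334) (nat_lit 421) (nat_lit 385))) (XT.nd (nat_lit 78) (nat_lit 0) (nat_lit 0) (XT.lf (nat_lit 912) (nat_lit 2945509075) (nat_lit 0) (nat_lit 1765602878) (nat_lit 836) (nat_lit 1765602878) (nat_lit 411) (nat_lit 1) (nat_lit 399) (nat_lit 1) (nat_lit 410) (nat_lit 1) (nat_lit 335) (nat_lit 421) (nat_lit 384)) (XT.lf (nat_lit 76) (nat_lit 1080635952) (nat_lit 0) (nat_lit 4259210543) (nat_lit 912) (nat_lit 1080635952) (nat_lit 400) (nat_lit 1) (nat_lit 399) (nat_lit 1) (nat_lit 411) (nat_lit 1) (nat_lit 336) (nat_lit 421) (nat_lit 383))))) (XT.nd (nat_lit 312) (nat_lit 1444) (nat_lit 0) (XT.nd (nat_lit 156) (nat_lit 1596) (nat_lit 0) (XT.nd (nat_lit 78) (nat_lit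 0) (nat_lit 0) (XT.lf (nat_lit 836) (nat_lit 1364390811) (nat_lit 0) (nat_lit 2500206207) (nat_lit 760) (nat_lit 2500206207) (nat_lit 400) (nat_lit 1) (nat_lit 389) (nat_lit 1) (nat_lit 399) (nat_lit 1) (nat_lit 337) (nat_lit 421) (nat_lit 382)) (XT.lf (nat_lit 76) (nat_lit 287049568) (nat_lit 0) (nat_lit 5735939447) (nat_lit 836) (nat_lit 287049568) (nat_lit 390) (nat_lit 1) (nat_lit 389) (nat_lit 1) (nat_lit 400) (nat_lit 1) (nat_lit 338) (nat_lit 421) (nat_lit 381))) (XT.nd (nat_lit 78) (nat_lit 760) (nat_lit 0) (XT.lf (nat_lit 76) (nat_lit 3010135447) (nat_lit 0) (nat_lit 235305973) (nat_lit 836) (nat_lit 3010135447) (nat_lit 379) (nat_lit 1) (nat_lit 378) (nat_lit 1) (nat_lit 389) (nat_lit 1) (nat_lit 339) (nat_lit 421) (nat_lit 380)) (XT.lf (nat_lit 836) (nat_lit 5175350811) (nat_lit 0) (nat_lit 513327598) (nat_lit 760) (nat_lit 513327598) (nat_lit 379) (nat_lit 1) (nat_lit 368) (nat_lit 1) (nat_lit 378)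 (nat_lit 1) (nat_lit 340) (nat_lit 421) (nat_lit 379)))) (XT.nd (nat_lit 156) (nat_lit 684) (nat_lit 0) (XT.nd (nat_lit 78) (nat_lit 760) (nat_lit 0) (XT.lf (nat_lit 76) (nat_lit 2156361971) (nat_lit 0) (nat_lit 1836089579) (nat_lit 836) (nat_lit 2156361971) (nat_lit 369) (nat_lit 1) (nat_lit 368) (nat_lit 1) (nat_lit 379) (nat_lit 1) (nat_lit 341) (nat_lit 421) (nat_lit 378)) (XT.lf (nat_lit 836) (nat_lit 3454931789) (nat_lit 0) (nat_lit 1320747691) (nat_lit 760) (nat_lit 1320747691) (nat_lit 369) (nat_lit 1) (nat_lit 358) (nat_lit 1) (nat_lit 368) (nat_lit 1) (nat_lit 342) (nat_lit 421) (nat_lit 377))) (XT.nd (nat_lit 78) (nat_lit 684) (nat_lit 0) (XT.lf (nat_lit 76) (nat_lit 1295539373) (nat_lit 0) (nat_lit 3453540623) (nat_lit 836) (nat_lit 1295539373) (nat_lit 359) (nat_lit 1) (nat_lit 358) (nat_lit 1) (nat_lit 369) (nat_lit 1) (nat_lit 343) (nat_lit 421) (nat_lit 376)) (XT.lf (nat_lit 760) (nat_lit 1721443337)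 (nat_lit 0) (nat_lit 2135969284) (nat_lit 684) (nat_lit 2135969284) (nat_lit 359) (nat_lit 1) (nat_lit 349) (nat_lit 1) (nat_lit 358) (nat_lit 1) (nat_lit 344) (nat_lit 421) (nat_lit 375))))))))
noncomputable def ec57 : XT := (XT.nd (nat_lit 2418) (nat_lit 4788) (nat_lit 0) (XT.nd (nat_lit 1170) (nat_lit 4712) (nat_lit 0) (XT.nd (nat_lit 546) (nat_lit 3116) (nat_lit 0) (XT.nd (nat_lit 234) (nat_lit 1292) (nat_lit 0) (XT.nd (nat_lit 78) (nat_lit 1444) (nat_lit 0) (XT.lf (nat_lit 76) (nat_lit 428729657) (nat_lit 0) (nat_lit 5085466245) (nat_lit 760) (nat_lit 428729657) (nat_lit 350) (nat_lit 1) (nat_lit 349) (nat_lit 1) (nat_lit 359) (nat_lit 1) (nat_lit 345) (nat_lit 421) (nat_lit 374)) (XT.nd (nat_lit 78) (nat_lit 684) (nat_lit 0) (XT.lf (nat_lit 76) (nat_lit 2935030437) (nat_lit 0) (nat_lit 22738672) (nat_lit 760) (nat_lit 2935030437) (nat_lit 340) (nat_lit 1) (nat_lit 339) (nat_lit 1) (nat_lit 349) (nat_lit 1)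 (nat_lit 346) (nat_lit 421) (nat_lit 373)) (XT.lf (nat_lit 760) (nat_lit 4963140435) (nat_lit 0) (nat_lit 440146985) (nat_lit 684) (nat_lit 440146985) (nat_lit 340) (nat_lit 1) (nat_lit 330) (nat_lit 1) (nat_lit 339) (nat_lit 1) (nat_lit 347) (nat_lit 421) (nat_lit 372)))) (XT.nd (nat_lit 156) (nat_lit 608) (nat_lit 0) (XT.nd (nat_lit 78) (nat_lit 684) (nat_lit 0) (XT.lf (nat_lit 76) (nat_lit 2020567135) (nat_lit 0) (nat_lit 1753258460) (nat_lit 760) (nat_lit 2020567135) (nat_lit 331) (nat_lit 1) (nat_lit 330) (nat_lit 1) (nat_lit 340) (nat_lit 1) (nat_lit 348) (nat_lit 421) (nat_lit 371)) (XT.lf (nat_lit 760) (nat_lit 3125672062) (nat_lit 0) (nat_lit 1310207212) (nat_lit 684) (nat_lit 1310207212) (nat_lit 331) (nat_lit 1) (nat_lit 321) (nat_lit 1) (nat_lit 330) (nat_lit 1) (nat_lit 349) (nat_lit 421) (nat_lit 370))) (XT.nd (nat_lit 78) (nat_lit 608) (nat_lit 0) (XT.lf (nat_lit 76) (nat_lit 1103730139) (nat_lit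 0) (nat_lit 3490861268) (nat_lit 760) (nat_lit 1103730139) (nat_lit 322) (nat_lit 1) (nat_lit 321) (nat_lit 1) (nat_lit 331) (nat_lit 1) (nat_lit 350) (nat_lit 421) (nat_lit 369)) (XT.lf (nat_lit 684) (nat_lit 1284286456) (nat_lit 0) (nat_lit 2183378200) (nat_lit 608) (nat_lit 2183378200) (nat_lit 322) (nat_lit 1) (nat_lit 313) (nat_lit 1) (nat_lit 321) (nat_lit 1) (nat_lit 351) (nat_lit 421) (nat_lit 368))))) (XT.nd (nat_lit 312) (nat_lit 1824) (nat_lit 0) (XT.nd (nat_lit 156) (nat_lit 608) (nat_lit 0) (XT.nd (nat_lit 78) (nat_lit 684) (nat_lit 0) (XT.lf (nat_lit 76) (nat_lit 185354436) (nat_lit 0) (nat_lit 5233815559) (nat_lit 684) (nat_lit 185354436) (nat_lit 314) (nat_lit 1) (nat_lit 313) (nat_lit 1) (nat_lit 322) (nat_lit 1) (nat_lit 352) (nat_lit 421) (nat_lit 367)) (XT.lf (nat_lit 76) (nat_lit 2503059196) (nat_lit 0) (nat_lit 552051943) (nat_lit 684) (nat_lit 2503059196) (nat_lit 305) (nat_lit 1) (nat_lit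 304) (nat_lit 1) (nat_lit 313) (nat_lit 1) (nat_lit 353) (nat_lit 421) (nat_lit 366))) (XT.nd (nat_lit 78) (nat_lit 0) (nat_lit 0) (XT.lf (nat_lit 684) (nat_lit 4054670163) (nat_lit 0) (nat_lit 728944531) (nat_lit 608) (nat_lit 728944531) (nat_lit 305) (nat_lit 1) (nat_lit 296) (nat_lit 1) (nat_lit 304) (nat_lit 1) (nat_lit 354) (nat_lit 421) (nat_lit 365)) (XT.lf (nat_lit 76) (nat_lit 1547512830) (nat_lit 0) (nat_lit 2372290278) (nat_lit 684) (nat_lit 1547512830) (nat_lit 297) (nat_lit 1) (nat_lit 296) (nat_lit 1) (nat_lit 305) (nat_lit 1) (nat_lit 355) (nat_lit 421) (nat_lit 364)))) (XT.nd (nat_lit 156) (nat_lit 1216) (nat_lit 0) (XT.nd (nat_lit 78) (nat_lit 0) (nat_lit 0) (XT.lf (nat_lit 684) (nat_lit 2138590545) (nat_lit 0) (nat_lit 1642031604) (nat_lit 608) (nat_lit 1642031604) (nat_lit 297) (nat_lit 1) (nat_lit 288) (nat_lit 1) (nat_lit 296) (nat_lit 1) (nat_lit 356) (nat_lit 421) (nat_lit 363)) (XT.lf (nat_lit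 76) (nat_lit 593373103) (nat_lit 0) (nat_lit 4191843385) (nat_lit 684) (nat_lit 593373103) (nat_lit 289) (nat_lit 1) (nat_lit 288) (nat_lit 1) (nat_lit 297) (nat_lit 1) (nat_lit 357) (nat_lit 421) (nat_lit 362))) (XT.nd (nat_lit 78) (nat_lit 684) (nat_lit 0) (XT.lf (nat_lit 608) (nat_lit 225987567) (nat_lit 0) (nat_lit 2554430562) (nat_lit 532) (nat_lit 2554430562) (nat_lit 289) (nat_lit 1) (nat_lit 281) (nat_lit 1) (nat_lit 288) (nat_lit 1) (nat_lit 358) (nat_lit 421) (nat_lit 361)) (XT.lf (nat_lit 684) (nat_lit 4579039820) (nat_lit 0) (nat_lit 356354672) (nat_lit 608) (nat_lit 356354672) (nat_lit 281) (nat_lit 1) (nat_lit 272) (nat_lit 1) (nat_lit 280) (nat_lit 1) (nat_lit 359) (nat_lit 421) (nat_lit 360)))))) (XT.nd (nat_lit 624) (nat_lit 2508) (nat_lit 0) (XT.nd (nat_lit 312) (nat_lit 1140) (nat_lit 0) (XT.nd (nat_lit 156) (nat_lit 532) (nat_lit 0) (XT.nd (nat_lit 78) (nat_lit 532) (nat_lit 0) (XT.lf (nat_lit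 76) (nat_lit 1794523253) (nat_lit 0) (nat_lit 1659824847) (nat_lit 684) (nat_lit 1794523253) (nat_lit 273) (nat_lit 1) (nat_lit 272) (nat_lit 1) (nat_lit 281) (nat_lit 1) (nat_lit 360) (nat_lit 421) (nat_lit 359)) (XT.lf (nat_lit 608) (nat_lit 2607544926) (nat_lit 0) (nat_lit 1299537620) (nat_lit 532) (nat_lit 1299537620) (nat_lit 273) (nat_lit 1) (nat_lit 265) (nat_lit 1) (nat_lit 272) (nat_lit 1) (nat_lit 361) (nat_lit 421) (nat_lit 358))) (XT.nd (nat_lit 78) (nat_lit 532) (nat_lit 0) (XT.lf (nat_lit 76) (nat_lit 814009982) (nat_lit 0) (nat_lit 3536838872) (nat_lit 608) (nat_lit 814009982) (nat_lit 266) (nat_lit 1) (nat_lit 265) (nat_lit 1) (nat_lit 273) (nat_lit 1) (nat_lit 362) (nat_lit 421) (nat_lit 357)) (XT.lf (nat_lit 608) (nat_lit 644432699) (nat_lit 0) (nat_lit 2239513705) (nat_lit 532) (nat_lit 2239513705) (nat_lit 266) (nat_lit 1) (nat_lit 258) (nat_lit 1) (nat_lit 265) (nat_lit 1) (nat_lit 363) (nat_lit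 421) (nat_lit 356)))) (XT.nd (nat_lit 156) (nat_lit 532) (nat_lit 0) (XT.nd (nat_lit 78) (nat_lit 0) (nat_lit 0) (XT.lf (nat_lit 608) (nat_lit 4760701145) (nat_lit 0) (nat_lit 161001915) (nat_lit 532) (nat_lit 161001915) (nat_lit 258) (nat_lit 1) (nat_lit 250) (nat_lit 1) (nat_lit 257) (nat_lit 1) (nat_lit 364) (nat_lit 421) (nat_lit 355)) (XT.lf (nat_lit 76) (nat_lit 1874967301) (nat_lit 0) (nat_lit 1292114128) (nat_lit 608) (nat_lit 1874967301) (nat_lit 251) (nat_lit 1) (nat_lit 250) (nat_lit 1) (nat_lit 258) (nat_lit 1) (nat_lit 365) (nat_lit 421) (nat_lit 354))) (XT.nd (nat_lit 78) (nat_lit 0) (nat_lit 0) (XT.lf (nat_lit 608) (nat_lit 2750486260) (nat_lit 0) (nat_lit 1125768362) (nat_lit 532) (nat_lit 1125768362) (nat_lit 251) (nat_lit 1) (nat_lit 243) (nat_lit 1) (nat_lit 250) (nat_lit 1) (nat_lit 366) (nat_lit 421) (nat_lit 353)) (XT.lf (nat_lit 76) (nat_lit 876209901) (nat_lit 0) (nat_lit 3210005093) (nat_lit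 608) (nat_lit 876209901) (nat_lit 244) (nat_lit 1) (nat_lit 243) (nat_lit 1) (nat_lit 251) (nat_lit 1) (nat_lit 367) (nat_lit 421) (nat_lit 352))))) (XT.nd (nat_lit 312) (nat_lit 988) (nat_lit 0) (XT.nd (nat_lit 156) (nat_lit 456) (nat_lit 0) (XT.nd (nat_lit 78) (nat_lit 608) (nat_lit 0) (XT.lf (nat_lit 532) (nat_lit 752804822) (nat_lit 0) (nat_lit 2085192166) (nat_lit 456) (nat_lit 2085192166) (nat_lit 244) (nat_lit 1) (nat_lit 237) (nat_lit 1) (nat_lit 243) (nat_lit 1) (nat_lit 368) (nat_lit 421) (nat_lit 351)) (XT.lf (nat_lit 608) (nat_lit 4653896756) (nat_lit 0) (nat_lit 115333862) (nat_lit 532) (nat_lit 115333862) (nat_lit 237) (nat_lit 1) (nat_lit 229) (nat_lit 1) (nat_lit 236) (nat_lit 1) (nat_lit 369) (nat_lit 421) (nat_lit 350))) (XT.nd (nat_lit 78) (nat_lit 456) (nat_lit 0) (XT.lf (nat_lit 76) (nat_lit 1815301945) (nat_lit 0) (nat_lit 1215393104) (nat_lit 608) (nat_lit 1815301945) (nat_lit 230) (nat_lit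 1) (nat_lit 229) (nat_lit 1) (nat_lit 237) (nat_lit 1) (nat_lit 370) (nat_lit 421) (nat_lit 349)) (XT.lf (nat_lit 532) (nat_lit 2619379583) (nat_lit 0) (nat_lit 1094324682) (nat_lit 456) (nat_lit 1094324682) (nat_lit 230) (nat_lit 1) (nat_lit 223) (nat_lit 1) (nat_lit 229) (nat_lit 1) (nat_lit 371) (nat_lit 421) (nat_lit 348)))) (XT.nd (nat_lit 156) (nat_lit 532) (nat_lit 0) (XT.nd (nat_lit 78) (nat_lit 456) (nat_lit 0) (XT.lf (nat_lit 76) (nat_lit 805318159) (nat_lit 0) (nat_lit 3159828919) (nat_lit 532) (nat_lit 805318159) (nat_lit 224) (nat_lit 1) (nat_lit 223) (nat_lit 1) (nat_lit 230) (nat_lit 1) (nat_lit 372) (nat_lit 421) (nat_lit 347)) (XT.lf (nat_lit 532) (nat_lit 600883986) (nat_lit 0) (nat_lit 2066173235) (nat_lit 456) (nat_lit 2066173235) (nat_lit 224) (nat_lit 1) (nat_lit 217) (nat_lit 1) (nat_lit 223) (nat_lit 1) (nat_lit 373) (nat_lit 421) (nat_lit 346))) (XT.nd (nat_lit 78) (nat_lit 0) (nat_lit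 0) (XT.lf (nat_lit 532) (nat_lit 4306082525) (nat_lit 0) (nat_lit 195231399) (nat_lit 456) (nat_lit 195231399) (nat_lit 217) (nat_lit 1) (nat_lit 210) (nat_lit 1) (nat_lit 216) (nat_lit 1) (nat_lit 374) (nat_lit 421) (nat_lit 345)) (XT.lf (nat_lit 76) (nat_lit 1638670336) (nat_lit 0) (nat_lit 1382603177) (nat_lit 532) (nat_lit 1638670336) (nat_lit 211) (nat_lit 1) (nat_lit 210) (nat_lit 1) (nat_lit 217) (nat_lit 1) (nat_lit 375) (nat_lit 421) (nat_lit 344))))))) (XT.nd (nat_lit 1170) (nat_lit 1064) (nat_lit 0) (XT.nd (nat_lit 546) (nat_lit 1976) (nat_lit 0) (XT.nd (nat_lit 234) (nat_lit 912) (nat_lit 0) (XT.nd (nat_lit 78) (nat_lit 380) (nat_lit 0) (XT.lf (nat_lit 532) (nat_lit 2259674156) (nat_lit 0) (nat_lit 1182103771) (nat_lit 456) (nat_lit 1182103771) (nat_lit 211) (nat_lit 1) (nat_lit 204) (nat_lit 1) (nat_lit 210) (nat_lit 1) (nat_lit 376) (nat_lit 421) (nat_lit 343)) (XT.nd (nat_lit 78) (nat_lit 380) (nat_lit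 0) (XT.lf (nat_lit 76) (nat_lit 623498577) (nat_lit 0) (nat_lit 3341236066) (nat_lit 532) (nat_lit 623498577) (nat_lit 205) (nat_lit 1) (nat_lit 204) (nat_lit 1) (nat_lit 211) (nat_lit 1) (nat_lit 377) (nat_lit 421) (nat_lit 342)) (XT.lf (nat_lit 456) (nat_lit 232194749) (nat_lit 0) (nat_lit 2160328984) (nat_lit 380) (nat_lit 2160328984) (nat_lit 205) (nat_lit 1) (nat_lit 199) (nat_lit 1) (nat_lit 204) (nat_lit 1) (nat_lit 378) (nat_lit 421) (nat_lit 341)))) (XT.nd (nat_lit 156) (nat_lit 380) (nat_lit 0) (XT.nd (nat_lit 78) (nat_lit 0) (nat_lit 0) (XT.lf (nat_lit 532) (nat_lit 3758717313) (nat_lit 0) (nat_lit 379609670) (nat_lit 456) (nat_lit 379609670) (nat_lit 199) (nat_lit 1) (nat_lit 192) (nat_lit 1) (nat_lit 198) (nat_lit 1) (nat_lit 379) (nat_lit 421) (nat_lit 340)) (XT.lf (nat_lit 76) (nat_lit 1365287557) (nat_lit 0) (nat_lit 1752612459) (nat_lit 532) (nat_lit 1365287557) (nat_lit 193) (nat_lit 1) (nat_lit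 192) (nat_lit 1) (nat_lit 199) (nat_lit 1) (nat_lit 380) (nat_lit 421) (nat_lit 339))) (XT.nd (nat_lit 78) (nat_lit 0) (nat_lit 0) (XT.lf (nat_lit 456) (nat_lit 1711062224) (nat_lit 0) (nat_lit 1368915771) (nat_lit 380) (nat_lit 1368915771) (nat_lit 193) (nat_lit 1) (nat_lit 187) (nat_lit 1) (nat_lit 192) (nat_lit 1) (nat_lit 381) (nat_lit 421) (nat_lit 338)) (XT.lf (nat_lit 76) (nat_lit 350104121) (nat_lit 0) (nat_lit 3714841954) (nat_lit 456) (nat_lit 350104121) (nat_lit 188) (nat_lit 1) (nat_lit 187) (nat_lit 1) (nat_lit 193) (nat_lit 1) (nat_lit 382) (nat_lit 421) (nat_lit 337))))) (XT.nd (nat_lit 312) (nat_lit 760) (nat_lit 0) (XT.nd (nat_lit 156) (nat_lit 380) (nat_lit 0) (XT.nd (nat_lit 78) (nat_lit 380) (nat_lit 0) (XT.lf (nat_lit 76) (nat_lit 2035110007) (nat_lit 0) (nat_lit 311130065) (nat_lit 456) (nat_lit 2035110007) (nat_lit 182) (nat_lit 1) (nat_lit 181) (nat_lit 1) (nat_lit 187) (nat_lit 1) (nat_lit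 383) (nat_lit 421) (nat_lit 336)) (XT.lf (nat_lit 456) (nat_lit 3047963055) (nat_lit 0) (nat_lit 650064338) (nat_lit 380) (nat_lit 650064338) (nat_lit 182) (nat_lit 1) (nat_lit 176) (nat_lit 1) (nat_lit 181) (nat_lit 1) (nat_lit 384) (nat_lit 421) (nat_lit 335))) (XT.nd (nat_lit 78) (nat_lit 380) (nat_lit 0) (XT.lf (nat_lit 76) (nat_lit 1012782582) (nat_lit 0) (nat_lit 2289524557) (nat_lit 456) (nat_lit 1012782582) (nat_lit 177) (nat_lit 1) (nat_lit 176) (nat_lit 1) (nat_lit 182) (nat_lit 1) (nat_lit 385) (nat_lit 421) (nat_lit 334)) (XT.lf (nat_lit 456) (nat_lit 1008151628) (nat_lit 0) (nat_lit 1637143916) (nat_lit 380) (nat_lit 1637143916) (nat_lit 177) (nat_lit 1) (nat_lit 171) (nat_lit 1) (nat_lit 176) (nat_lit 1) (nat_lit 386) (nat_lit 421) (nat_lit 333)))) (XT.nd (nat_lit 156) (nat_lit 380) (nat_lit 0) (XT.nd (nat_lit 78) (nat_lit 380) (nat_lit 0) (XT.lf (nat_lit 76) (nat_lit 2005438) (nat_lit 0) (nat_lit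 4246287615) (nat_lit 456) (nat_lit 2005438) (nat_lit 172) (nat_lit 1) (nat_lit 171) (nat_lit 1) (nat_lit 177) (nat_lit 1) (nat_lit 387) (nat_lit 421) (nat_lit 332)) (XT.lf (nat_lit 76) (nat_lit 1611478566) (nat_lit 0) (nat_lit 995151897) (nat_lit 380) (nat_lit 1611478566) (nat_lit 167) (nat_lit 1) (nat_lit 166) (nat_lit 1) (nat_lit 171) (nat_lit 1) (nat_lit 388) (nat_lit 421) (nat_lit 331))) (XT.nd (nat_lit 78) (nat_lit 0) (nat_lit 0) (XT.lf (nat_lit 456) (nat_lit 2205305281) (nat_lit 0) (nat_lit 990558026) (nat_lit 380) (nat_lit 990558026) (nat_lit 167) (nat_lit 1) (nat_lit 161) (nat_lit 1) (nat_lit 166) (nat_lit 1) (nat_lit 389) (nat_lit 421) (nat_lit 330)) (XT.lf (nat_lit 76) (nat_lit 596501358) (nat_lit 0) (nat_lit 2962065884) (nat_lit 456) (nat_lit 596501358) (nat_lit 162) (nat_lit 1) (nat_lit 161) (nat_lit 1) (nat_lit 167) (nat_lit 1) (nat_lit 390) (nat_lit 421) (nat_lit 329)))))) (XT.nd (nat_lit 54600) (nat_lit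 0) (nat_lit 17556) (XT.nd (nat_lit 54288) (nat_lit 0) (nat_lit 20824) (XT.nd (nat_lit 156) (nat_lit 304) (nat_lit 0) (XT.nd (nat_lit 78) (nat_lit 456) (nat_lit 0) (XT.lf (nat_lit 380) (nat_lit 181061947) (nat_lit 0) (nat_lit 1971443288) (nat_lit 304) (nat_lit 1971443288) (nat_lit 162) (nat_lit 1) (nat_lit 157) (nat_lit 1) (nat_lit 161) (nat_lit 1) (nat_lit 391) (nat_lit 421) (nat_lit 328)) (XT.lf (nat_lit 456) (nat_lit 3286311207) (nat_lit 0) (nat_lit 403446137) (nat_lit 380) (nat_lit 403446137) (nat_lit 157) (nat_lit 1) (nat_lit 151) (nat_lit 1) (nat_lit 156) (nat_lit 1) (nat_lit 392) (nat_lit 421) (nat_lit 327))) (XT.nd (nat_lit 78) (nat_lit 304) (nat_lit 0) (XT.lf (nat_lit 76) (nat_lit 1134063917) (nat_lit 0) (nat_lit 1794483659) (nat_lit 456) (nat_lit 1134063917) (nat_lit 152) (nat_lit 1) (nat_lit 151) (nat_lit 1) (nat_lit 157) (nat_lit 1) (nat_lit 393) (nat_lit 421) (nat_lit 326)) (XT.lf (nat_lit 380) (nat_lit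 1258103030) (nat_lit 0) (nat_lit 1387142417) (nat_lit 304) (nat_lit 1387142417) (nat_lit 152) (nat_lit 1) (nat_lit 147) (nat_lit 1) (nat_lit 151) (nat_lit 1) (nat_lit 394) (nat_lit 421) (nat_lit 325)))) (XT.nd (nat_lit 156) (nat_lit 1824) (nat_lit 0) (XT.nd (nat_lit 78) (nat_lit 0) (nat_lit 0) (XT.lf (nat_lit 988) (nat_lit 1408612176) (nat_lit 0) (nat_lit 2809806528) (nat_lit 912) (nat_lit 2809806528) (nat_lit 458) (nat_lit 1) (nat_lit 445) (nat_lit 1) (nat_lit 457) (nat_lit 1) (nat_lit 326) (nat_lit 422) (nat_lit 392)) (XT.lf (nat_lit 76) (nat_lit 360568777) (nat_lit 0) (nat_lit 6244782056) (nat_lit 988) (nat_lit 360568777) (nat_lit 446) (nat_lit 1) (nat_lit 445) (nat_lit 1) (nat_lit 458) (nat_lit 1) (nat_lit 327) (nat_lit 422) (nat_lit 391))) (XT.nd (nat_lit 78) (nat_lit 988) (nat_lit 0) (XT.lf (nat_lit 912) (nat_lit 6058736) (nat_lit 0) (nat_lit 3448985681) (nat_lit 836) (nat_lit 3448985681) (nat_lit 446) (nat_lit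 1) (nat_lit 434) (nat_lit 1) (nat_lit 445) (nat_lit 1) (nat_lit 328) (nat_lit 422) (nat_lit 390)) (XT.lf (nat_lit 988) (nat_lit 6152705779) (nat_lit 0) (nat_lit 345233214) (nat_lit 912) (nat_lit 345233214) (nat_lit 434) (nat_lit 1) (nat_lit 421) (nat_lit 1) (nat_lit 433) (nat_lit 1) (nat_lit 329) (nat_lit 422) (nat_lit 389))))) (XT.nd (nat_lit 312) (nat_lit 1596) (nat_lit 0) (XT.nd (nat_lit 156) (nat_lit 836) (nat_lit 0) (XT.nd (nat_lit 78) (nat_lit 836) (nat_lit 0) (XT.lf (nat_lit 76) (nat_lit 2684752053) (nat_lit 0) (nat_lit 1413203780) (nat_lit 988) (nat_lit 2684752053) (nat_lit 422) (nat_lit 1) (nat_lit 421) (nat_lit 1) (nat_lit 434) (nat_lit 1) (nat_lit 330) (nat_lit 422) (nat_lit 388)) (XT.lf (nat_lit 912) (nat_lit 4592361938) (nat_lit 0) (nat_lit 1065442451) (nat_lit 836) (nat_lit 1065442451) (nat_lit 422) (nat_lit 1) (nat_lit 410) (nat_lit 1) (nat_lit 421) (nat_lit 1) (nat_lit 331) (nat_lit 422) (nat_lit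 387))) (XT.nd (nat_lit 78) (nat_lit 836) (nat_lit 0) (XT.lf (nat_lit 76) (nat_lit 1900022428) (nat_lit 0) (nat_lit 2864310507) (nat_lit 912) (nat_lit 1900022428) (nat_lit 411) (nat_lit 1) (nat_lit 410) (nat_lit 1) (nat_lit 422) (nat_lit 1) (nat_lit 332) (nat_lit 422) (nat_lit 386)) (XT.lf (nat_lit 912) (nat_lit 3004419257) (nat_lit 0) (nat_lit 1800914935) (nat_lit 836) (nat_lit 1800914935) (nat_lit 411) (nat_lit 1) (nat_lit 399) (nat_lit 1) (nat_lit 410) (nat_lit 1) (nat_lit 333) (nat_lit 422) (nat_lit 385)))) (XT.nd (nat_lit 156) (nat_lit 836) (nat_lit 0) (XT.nd (nat_lit 78) (nat_lit 760) (nat_lit 0) (XT.lf (nat_lit 76) (nat_lit 1102248671) (nat_lit 0) (nat_lit 4344394754) (nat_lit 912) (nat_lit 1102248671) (nat_lit 400) (nat_lit 1) (nat_lit 399) (nat_lit 1) (nat_lit 411) (nat_lit 1) (nat_lit 334) (nat_lit 422) (nat_lit 384)) (XT.lf (nat_lit 836) (nat_lit 1391678628) (nat_lit 0) (nat_lit 2550210332) (nat_lit 760)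 (nat_lit 2550210332) (nat_lit 400) (nat_lit 1) (nat_lit 389) (nat_lit 1) (nat_lit 399) (nat_lit 1) (nat_lit 335) (nat_lit 422) (nat_lit 383))) (XT.nd (nat_lit 78) (nat_lit 836) (nat_lit 0) (XT.lf (nat_lit 76) (nat_lit 292790560) (nat_lit 0) (nat_lit 5850658236) (nat_lit 836) (nat_lit 292790560) (nat_lit 390) (nat_lit 1) (nat_lit 389) (nat_lit 1) (nat_lit 400) (nat_lit 1) (nat_lit 336) (nat_lit 422) (nat_lit 382)) (XT.lf (nat_lit 76) (nat_lit 3070338156) (nat_lit 0) (nat_lit 240012092) (nat_lit 836) (nat_lit 3070338156) (nat_lit 379) (nat_lit 1) (nat_lit 378) (nat_lit 1) (nat_lit 389) (nat_lit 1) (nat_lit 337) (nat_lit 422) (nat_lit 381))))))))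
noncomputable def ec58 : XT := (XT.nd (nat_lit 2340) (nat_lit 6232) (nat_lit 0) (XT.nd (nat_lit 1170) (nat_lit 5092) (nat_lit 0) (XT.nd (nat_lit 546) (nat_lit 3268) (nat_lit 0) (XT.nd (nat_lit 234) (nat_lit 1444) (nat_lit 0) (XT.nd (nat_lit 78) (nat_lit 760) (nat_lit 0) (XT.lf (nat_lit 836) (nat_lit 5278857827) (nat_lit 0) (nat_lit 523594150) (nat_lit 760) (nat_lit 523594150) (nat_lit 379) (nat_lit 1) (nat_lit 368) (nat_lit 1) (nat_lit 378) (nat_lit 1) (nat_lit 338) (nat_lit 422) (nat_lit 380)) (XT.nd (nat_lit 78) (nat_lit 760) (nat_lit 0) (XT.lf (nat_lit 76) (nat_lit 2199489210) (nat_lit 0) (nat_lit 1872811370) (nat_lit 836) (nat_lit 2199489210) (nat_lit 369) (nat_lit 1) (nat_lit 368) (nat_lit 1) (nat_lit 379) (nat_lit 1) (nat_lit 339) (nat_lit 422) (nat_lit 379)) (XT.lf (nat_lit 836) (nat_lit 3524030425) (nat_lit 0) (nat_lit 1347162645) (nat_lit 760) (nat_lit 1347162645) (nat_lit 369) (nat_lit 1) (nat_lit 358)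 (nat_lit 1) (nat_lit 368) (nat_lit 1) (nat_lit 340) (nat_lit 422) (nat_lit 378)))) (XT.nd (nat_lit 156) (nat_lit 760) (nat_lit 0) (XT.nd (nat_lit 78) (nat_lit 684) (nat_lit 0) (XT.lf (nat_lit 76) (nat_lit 1321450160) (nat_lit 0) (nat_lit 3522611436) (nat_lit 836) (nat_lit 1321450160) (nat_lit 359) (nat_lit 1) (nat_lit 358) (nat_lit 1) (nat_lit 369) (nat_lit 1) (nat_lit 341) (nat_lit 422) (nat_lit 377)) (XT.lf (nat_lit 760) (nat_lit 1755872204) (nat_lit 0) (nat_lit 2178688669) (nat_lit 684) (nat_lit 2178688669) (nat_lit 359) (nat_lit 1) (nat_lit 349) (nat_lit 1) (nat_lit 358) (nat_lit 1) (nat_lit 342) (nat_lit 422) (nat_lit 376))) (XT.nd (nat_lit 78) (nat_lit 760) (nat_lit 0) (XT.lf (nat_lit 76) (nat_lit 437304251) (nat_lit 0) (nat_lit 5187175570) (nat_lit 760) (nat_lit 437304251) (nat_lit 350) (nat_lit 1) (nat_lit 349) (nat_lit 1) (nat_lit 359) (nat_lit 1) (nat_lit 343) (nat_lit 422) (nat_lit 375)) (XT.lf (nat_lit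 76) (nat_lit 2993731045) (nat_lit 0) (nat_lit 23193445) (nat_lit 760) (nat_lit 2993731045) (nat_lit 340) (nat_lit 1) (nat_lit 339) (nat_lit 1) (nat_lit 349) (nat_lit 1) (nat_lit 344) (nat_lit 422) (nat_lit 374))))) (XT.nd (nat_lit 312) (nat_lit 1900) (nat_lit 0) (XT.nd (nat_lit 156) (nat_lit 684) (nat_lit 0) (XT.nd (nat_lit 78) (nat_lit 0) (nat_lit 0) (XT.lf (nat_lit 760) (nat_lit 5062403244) (nat_lit 0) (nat_lit 448949925) (nat_lit 684) (nat_lit 448949925) (nat_lit 340) (nat_lit 1) (nat_lit 330) (nat_lit 1) (nat_lit 339) (nat_lit 1) (nat_lit 345) (nat_lit 422) (nat_lit 373)) (XT.lf (nat_lit 76) (nat_lit 2060978477) (nat_lit 0) (nat_lit 1788323629) (nat_lit 760) (nat_lit 2060978477) (nat_lit 331) (nat_lit 1) (nat_lit 330) (nat_lit 1) (nat_lit 340) (nat_lit 1) (nat_lit 346) (nat_lit 422) (nat_lit 372))) (XT.nd (nat_lit 78) (nat_lit 0) (nat_lit 0) (XT.lf (nat_lit 760) (nat_lit 3188185504) (nat_lit 0) (nat_lit 1336411356)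 (nat_lit 684) (nat_lit 1336411356) (nat_lit 331) (nat_lit 1) (nat_lit 321) (nat_lit 1) (nat_lit 330) (nat_lit 1) (nat_lit 347) (nat_lit 422) (nat_lit 371)) (XT.lf (nat_lit 76) (nat_lit 1125804742) (nat_lit 0) (nat_lit 3560678493) (nat_lit 760) (nat_lit 1125804742) (nat_lit 322) (nat_lit 1) (nat_lit 321) (nat_lit 1) (nat_lit 331) (nat_lit 1) (nat_lit 348) (nat_lit 422) (nat_lit 370)))) (XT.nd (nat_lit 156) (nat_lit 1292) (nat_lit 0) (XT.nd (nat_lit 78) (nat_lit 0) (nat_lit 0) (XT.lf (nat_lit 684) (nat_lit 1309972185) (nat_lit 0) (nat_lit 2227045764) (nat_lit 608) (nat_lit 2227045764) (nat_lit 322) (nat_lit 1) (nat_lit 313) (nat_lit 1) (nat_lit 321) (nat_lit 1) (nat_lit 349) (nat_lit 422) (nat_lit 369)) (XT.lf (nat_lit 76) (nat_lit 189061524) (nat_lit 0) (nat_lit 5338491870) (nat_lit 684) (nat_lit 189061524) (nat_lit 314) (nat_lit 1) (nat_lit 313) (nat_lit 1) (nat_lit 322) (nat_lit 1) (nat_lit 350) (nat_lit 422)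 (nat_lit 368))) (XT.nd (nat_lit 78) (nat_lit 608) (nat_lit 0) (XT.lf (nat_lit 76) (nat_lit 2553120380) (nat_lit 0) (nat_lit 563092982) (nat_lit 684) (nat_lit 2553120380) (nat_lit 305) (nat_lit 1) (nat_lit 304) (nat_lit 1) (nat_lit 313) (nat_lit 1) (nat_lit 351) (nat_lit 422) (nat_lit 367)) (XT.lf (nat_lit 684) (nat_lit 4135763566) (nat_lit 0) (nat_lit 743523421) (nat_lit 608) (nat_lit 743523421) (nat_lit 305) (nat_lit 1) (nat_lit 296) (nat_lit 1) (nat_lit 304) (nat_lit 1) (nat_lit 352) (nat_lit 422) (nat_lit 366)))))) (XT.nd (nat_lit 546) (nat_lit 2736) (nat_lit 0) (XT.nd (nat_lit 234) (nat_lit 1748) (nat_lit 0) (XT.nd (nat_lit 78) (nat_lit 608) (nat_lit 0) (XT.lf (nat_lit 76) (nat_lit 1578463087) (nat_lit 0) (nat_lit 2419736083) (nat_lit 684) (nat_lit 1578463087) (nat_lit 297) (nat_lit 1) (nat_lit 296) (nat_lit 1) (nat_lit 305) (nat_lit 1) (nat_lit 353) (nat_lit 422) (nat_lit 365)) (XT.nd (nat_lit 78) (nat_lit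 0) (nat_lit 0) (XT.lf (nat_lit 684) (nat_lit 2181362356) (nat_lit 0) (nat_lit 1674872236) (nat_lit 608) (nat_lit 1674872236) (nat_lit 297) (nat_lit 1) (nat_lit 288) (nat_lit 1) (nat_lit 296) (nat_lit 1) (nat_lit 354) (nat_lit 422) (nat_lit 364)) (XT.lf (nat_lit 76) (nat_lit 605240565) (nat_lit 0) (nat_lit 4275680253) (nat_lit 684) (nat_lit 605240565) (nat_lit 289) (nat_lit 1) (nat_lit 288) (nat_lit 1) (nat_lit 297) (nat_lit 1) (nat_lit 355) (nat_lit 422) (nat_lit 363)))) (XT.nd (nat_lit 156) (nat_lit 532) (nat_lit 0) (XT.nd (nat_lit 78) (nat_lit 684) (nat_lit 0) (XT.lf (nat_lit 608) (nat_lit 230507318) (nat_lit 0) (nat_lit 2605519173) (nat_lit 532) (nat_lit 2605519173) (nat_lit 289) (nat_lit 1) (nat_lit 281) (nat_lit 1) (nat_lit 288) (nat_lit 1) (nat_lit 356) (nat_lit 422) (nat_lit 362)) (XT.lf (nat_lit 684) (nat_lit 4670620616) (nat_lit 0) (nat_lit 363481766) (nat_lit 608) (nat_lit 363481766) (nat_lit 281) (nat_lit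 1) (nat_lit 272) (nat_lit 1) (nat_lit 280) (nat_lit 1) (nat_lit 357) (nat_lit 422) (nat_lit 361))) (XT.nd (nat_lit 78) (nat_lit 532) (nat_lit 0) (XT.lf (nat_lit 76) (nat_lit 1830413718) (nat_lit 0) (nat_lit 1693021344) (nat_lit 684) (nat_lit 1830413718) (nat_lit 273) (nat_lit 1) (nat_lit 272) (nat_lit 1) (nat_lit 281) (nat_lit 1) (nat_lit 358) (nat_lit 422) (nat_lit 360)) (XT.lf (nat_lit 608) (nat_lit 2659695824) (nat_lit 0) (nat_lit 1325528373) (nat_lit 532) (nat_lit 1325528373) (nat_lit 273) (nat_lit 1) (nat_lit 265) (nat_lit 1) (nat_lit 272) (nat_lit 1) (nat_lit 359) (nat_lit 422) (nat_lit 359))))) (XT.nd (nat_lit 312) (nat_lit 1596) (nat_lit 0) (XT.nd (nat_lit 156) (nat_lit 608) (nat_lit 0) (XT.nd (nat_lit 78) (nat_lit 532) (nat_lit 0) (XT.lf (nat_lit 76) (nat_lit 830290182) (nat_lit 0) (nat_lit 3607575650) (nat_lit 608) (nat_lit 830290182) (nat_lit 266) (nat_lit 1) (nat_lit 265) (nat_lit 1) (nat_lit 273) (nat_lit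 1) (nat_lit 360) (nat_lit 422) (nat_lit 358)) (XT.lf (nat_lit 608) (nat_lit 657321353) (nat_lit 0) (nat_lit 2284303979) (nat_lit 532) (nat_lit 2284303979) (nat_lit 266) (nat_lit 1) (nat_lit 258) (nat_lit 1) (nat_lit 265) (nat_lit 1) (nat_lit 361) (nat_lit 422) (nat_lit 357))) (XT.nd (nat_lit 78) (nat_lit 0) (nat_lit 0) (XT.lf (nat_lit 608) (nat_lit 4855915168) (nat_lit 0) (nat_lit 164221954) (nat_lit 532) (nat_lit 164221954) (nat_lit 258) (nat_lit 1) (nat_lit 250) (nat_lit 1) (nat_lit 257) (nat_lit 1) (nat_lit 362) (nat_lit 422) (nat_lit 356)) (XT.lf (nat_lit 76) (nat_lit 1912466647) (nat_lit 0) (nat_lit 1317956410) (nat_lit 608) (nat_lit 1912466647) (nat_lit 251) (nat_lit 1) (nat_lit 250) (nat_lit 1) (nat_lit 258) (nat_lit 1) (nat_lit 363) (nat_lit 422) (nat_lit 355)))) (XT.nd (nat_lit 156) (nat_lit 1064) (nat_lit 0) (XT.nd (nat_lit 78) (nat_lit 0) (nat_lit 0) (XT.lf (nat_lit 608) (nat_lit 2805495985) (nat_lit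 0) (nat_lit 1148283729) (nat_lit 532) (nat_lit 1148283729) (nat_lit 251) (nat_lit 1) (nat_lit 243) (nat_lit 1) (nat_lit 250) (nat_lit 1) (nat_lit 364) (nat_lit 422) (nat_lit 354)) (XT.lf (nat_lit 76) (nat_lit 893734099) (nat_lit 0) (nat_lit 3274205195) (nat_lit 608) (nat_lit 893734099) (nat_lit 244) (nat_lit 1) (nat_lit 243) (nat_lit 1) (nat_lit 251) (nat_lit 1) (nat_lit 365) (nat_lit 422) (nat_lit 353))) (XT.nd (nat_lit 78) (nat_lit 608) (nat_lit 0) (XT.lf (nat_lit 532) (nat_lit 767860919) (nat_lit 0) (nat_lit 2126896009) (nat_lit 456) (nat_lit 2126896009) (nat_lit 244) (nat_lit 1) (nat_lit 237) (nat_lit 1) (nat_lit 243) (nat_lit 1) (nat_lit 366) (nat_lit 422) (nat_lit 352)) (XT.lf (nat_lit 608) (nat_lit 4746974691) (nat_lit 0) (nat_lit 117640540) (nat_lit 532) (nat_lit 117640540) (nat_lit 237) (nat_lit 1) (nat_lit 229) (nat_lit 1) (nat_lit 236) (nat_lit 1) (nat_lit 367) (nat_lit 422) (nat_lit 351))))))) (XT.nd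 (nat_lit 1170) (nat_lit 2204) (nat_lit 0) (XT.nd (nat_lit 546) (nat_lit 2128) (nat_lit 0) (XT.nd (nat_lit 234) (nat_lit 1444) (nat_lit 0) (XT.nd (nat_lit 78) (nat_lit 456) (nat_lit 0) (XT.lf (nat_lit 76) (nat_lit 1851607984) (nat_lit 0) (nat_lit 1239700966) (nat_lit 608) (nat_lit 1851607984) (nat_lit 230) (nat_lit 1) (nat_lit 229) (nat_lit 1) (nat_lit 237) (nat_lit 1) (nat_lit 368) (nat_lit 422) (nat_lit 350)) (XT.nd (nat_lit 78) (nat_lit 0) (nat_lit 0) (XT.lf (nat_lit 532) (nat_lit 2671767175) (nat_lit 0) (nat_lit 1116211176) (nat_lit 456) (nat_lit 1116211176) (nat_lit 230) (nat_lit 1) (nat_lit 223) (nat_lit 1) (nat_lit 229) (nat_lit 1) (nat_lit 369) (nat_lit 422) (nat_lit 349)) (XT.lf (nat_lit 76) (nat_lit 821424522) (nat_lit 0) (nat_lit 3223025497) (nat_lit 532) (nat_lit 821424522) (nat_lit 224) (nat_lit 1) (nat_lit 223) (nat_lit 1) (nat_lit 230) (nat_lit 1) (nat_lit 370) (nat_lit 422) (nat_lit 348)))) (XT.nd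 (nat_lit 156) (nat_lit 456) (nat_lit 0) (XT.nd (nat_lit 78) (nat_lit 532) (nat_lit 0) (XT.lf (nat_lit 532) (nat_lit 612901666) (nat_lit 0) (nat_lit 2107496700) (nat_lit 456) (nat_lit 2107496700) (nat_lit 224) (nat_lit 1) (nat_lit 217) (nat_lit 1) (nat_lit 223) (nat_lit 1) (nat_lit 371) (nat_lit 422) (nat_lit 347)) (XT.lf (nat_lit 532) (nat_lit 4392204175) (nat_lit 0) (nat_lit 199136027) (nat_lit 456) (nat_lit 199136027) (nat_lit 217) (nat_lit 1) (nat_lit 210) (nat_lit 1) (nat_lit 216) (nat_lit 1) (nat_lit 372) (nat_lit 422) (nat_lit 346))) (XT.nd (nat_lit 78) (nat_lit 456) (nat_lit 0) (XT.lf (nat_lit 76) (nat_lit 1671443743) (nat_lit 0) (nat_lit 1410255240) (nat_lit 532) (nat_lit 1671443743) (nat_lit 211) (nat_lit 1) (nat_lit 210) (nat_lit 1) (nat_lit 217) (nat_lit 1) (nat_lit 373) (nat_lit 422) (nat_lit 345)) (XT.lf (nat_lit 532) (nat_lit 2304867639) (nat_lit 0) (nat_lit 1205745846) (nat_lit 456) (nat_lit 1205745846)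 (nat_lit 211) (nat_lit 1) (nat_lit 204) (nat_lit 1) (nat_lit 210) (nat_lit 1) (nat_lit 374) (nat_lit 422) (nat_lit 344))))) (XT.nd (nat_lit 312) (nat_lit 1216) (nat_lit 0) (XT.nd (nat_lit 156) (nat_lit 532) (nat_lit 0) (XT.nd (nat_lit 78) (nat_lit 380) (nat_lit 0) (XT.lf (nat_lit 76) (nat_lit 635968549) (nat_lit 0) (nat_lit 3408060787) (nat_lit 532) (nat_lit 635968549) (nat_lit 205) (nat_lit 1) (nat_lit 204) (nat_lit 1) (nat_lit 211) (nat_lit 1) (nat_lit 375) (nat_lit 422) (nat_lit 343)) (XT.lf (nat_lit 456) (nat_lit 236838644) (nat_lit 0) (nat_lit 2203535563) (nat_lit 380) (nat_lit 2203535563) (nat_lit 205) (nat_lit 1) (nat_lit 199) (nat_lit 1) (nat_lit 204) (nat_lit 1) (nat_lit 376) (nat_lit 422) (nat_lit 342))) (XT.nd (nat_lit 78) (nat_lit 0) (nat_lit 0) (XT.lf (nat_lit 532) (nat_lit 3833891659) (nat_lit 0) (nat_lit 387201863) (nat_lit 456) (nat_lit 387201863) (nat_lit 199) (nat_lit 1) (nat_lit 192) (nat_lit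 1) (nat_lit 198) (nat_lit 1) (nat_lit 377) (nat_lit 422) (nat_lit 341)) (XT.lf (nat_lit 76) (nat_lit 1392593309) (nat_lit 0) (nat_lit 1787664708) (nat_lit 532) (nat_lit 1392593309) (nat_lit 193) (nat_lit 1) (nat_lit 192) (nat_lit 1) (nat_lit 199) (nat_lit 1) (nat_lit 378) (nat_lit 422) (nat_lit 340)))) (XT.nd (nat_lit 156) (nat_lit 836) (nat_lit 0) (XT.nd (nat_lit 78) (nat_lit 0) (nat_lit 0) (XT.lf (nat_lit 456) (nat_lit 1745283468) (nat_lit 0) (nat_lit 1396294086) (nat_lit 380) (nat_lit 1396294086) (nat_lit 193) (nat_lit 1) (nat_lit 187) (nat_lit 1) (nat_lit 192) (nat_lit 1) (nat_lit 379) (nat_lit 422) (nat_lit 339)) (XT.lf (nat_lit 76) (nat_lit 357106204) (nat_lit 0) (nat_lit 3789138793) (nat_lit 456) (nat_lit 357106204) (nat_lit 188) (nat_lit 1) (nat_lit 187) (nat_lit 1) (nat_lit 193) (nat_lit 1) (nat_lit 380) (nat_lit 422) (nat_lit 338))) (XT.nd (nat_lit 78) (nat_lit 380) (nat_lit 0) (XT.lf (nat_lit 76) (nat_lit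 2075812207) (nat_lit 0) (nat_lit 317352666) (nat_lit 456) (nat_lit 2075812207) (nat_lit 182) (nat_lit 1) (nat_lit 181) (nat_lit 1) (nat_lit 187) (nat_lit 1) (nat_lit 381) (nat_lit 422) (nat_lit 337)) (XT.lf (nat_lit 456) (nat_lit 3108922316) (nat_lit 0) (nat_lit 663065625) (nat_lit 380) (nat_lit 663065625) (nat_lit 182) (nat_lit 1) (nat_lit 176) (nat_lit 1) (nat_lit 181) (nat_lit 1) (nat_lit 382) (nat_lit 422) (nat_lit 336)))))) (XT.nd (nat_lit 624) (nat_lit 304) (nat_lit 0) (XT.nd (nat_lit 312) (nat_lit 1140) (nat_lit 0) (XT.nd (nat_lit 156) (nat_lit 380) (nat_lit 0) (XT.nd (nat_lit 78) (nat_lit 380) (nat_lit 0) (XT.lf (nat_lit 76) (nat_lit 1033038233) (nat_lit 0) (nat_lit 2335315048) (nat_lit 456) (nat_lit 1033038233) (nat_lit 177) (nat_lit 1) (nat_lit 176) (nat_lit 1) (nat_lit 182) (nat_lit 1) (nat_lit 383) (nat_lit 422) (nat_lit 335)) (XT.lf (nat_lit 456) (nat_lit 1028314661) (nat_lit 0) (nat_lit 1669886795)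 (nat_lit 380) (nat_lit 1669886795) (nat_lit 177) (nat_lit 1) (nat_lit 171) (nat_lit 1) (nat_lit 176) (nat_lit 1) (nat_lit 384) (nat_lit 422) (nat_lit 334))) (XT.nd (nat_lit 78) (nat_lit 380) (nat_lit 0) (XT.lf (nat_lit 76) (nat_lit 2045547) (nat_lit 0) (nat_lit 4331213367) (nat_lit 456) (nat_lit 2045547) (nat_lit 172) (nat_lit 1) (nat_lit 171) (nat_lit 1) (nat_lit 177) (nat_lit 1) (nat_lit 385) (nat_lit 422) (nat_lit 333)) (XT.lf (nat_lit 76) (nat_lit 1643708137) (nat_lit 0) (nat_lit 1015054935) (nat_lit 380) (nat_lit 1643708137) (nat_lit 167) (nat_lit 1) (nat_lit 166) (nat_lit 1) (nat_lit 171) (nat_lit 1) (nat_lit 386) (nat_lit 422) (nat_lit 332)))) (XT.nd (nat_lit 156) (nat_lit 760) (nat_lit 0) (XT.nd (nat_lit 78) (nat_lit 0) (nat_lit 0) (XT.lf (nat_lit 456) (nat_lit 2249411386) (nat_lit 0) (nat_lit 1010369187) (nat_lit 380) (nat_lit 1010369187) (nat_lit 167) (nat_lit 1) (nat_lit 161) (nat_lit 1) (nat_lit 166)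 (nat_lit 1) (nat_lit 387) (nat_lit 422) (nat_lit 331)) (XT.lf (nat_lit 76) (nat_lit 608431385) (nat_lit 0) (nat_lit 3021307202) (nat_lit 456) (nat_lit 608431385) (nat_lit 162) (nat_lit 1) (nat_lit 161) (nat_lit 1) (nat_lit 167) (nat_lit 1) (nat_lit 388) (nat_lit 422) (nat_lit 330))) (XT.nd (nat_lit 78) (nat_lit 456) (nat_lit 0) (XT.lf (nat_lit 380) (nat_lit 184683186) (nat_lit 0) (nat_lit 2010872153) (nat_lit 304) (nat_lit 2010872153) (nat_lit 162) (nat_lit 1) (nat_lit 157) (nat_lit 1) (nat_lit 161) (nat_lit 1) (nat_lit 389) (nat_lit 422) (nat_lit 329)) (XT.lf (nat_lit 456) (nat_lit 3352037431) (nat_lit 0) (nat_lit 411515060) (nat_lit 380) (nat_lit 411515060) (nat_lit 157) (nat_lit 1) (nat_lit 151) (nat_lit 1) (nat_lit 156) (nat_lit 1) (nat_lit 390) (nat_lit 422) (nat_lit 328))))) (XT.nd (nat_lit 54600) (nat_lit 0) (nat_lit 18392) (XT.nd (nat_lit 54444) (nat_lit 0) (nat_lit 19988) (XT.nd (nat_lit 78) (nat_lit 304)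 (nat_lit 0) (XT.lf (nat_lit 76) (nat_lit 1156745196) (nat_lit 0) (nat_lit 1830373332) (nat_lit 456) (nat_lit 1156745196) (nat_lit 152) (nat_lit 1) (nat_lit 151) (nat_lit 1) (nat_lit 157) (nat_lit 1) (nat_lit 391) (nat_lit 422) (nat_lit 327)) (XT.lf (nat_lit 380) (nat_lit 1283265090) (nat_lit 0) (nat_lit 1414885265) (nat_lit 304) (nat_lit 1414885265) (nat_lit 152) (nat_lit 1) (nat_lit 147) (nat_lit 1) (nat_lit 151) (nat_lit 1) (nat_lit 392) (nat_lit 422) (nat_lit 326))) (XT.nd (nat_lit 78) (nat_lit 836) (nat_lit 0) (XT.lf (nat_lit 76) (nat_lit 2738447094) (nat_lit 0) (nat_lit 1441467856) (nat_lit 988) (nat_lit 2738447094) (nat_lit 422) (nat_lit 1) (nat_lit 421) (nat_lit 1) (nat_lit 434) (nat_lit 1) (nat_lit 328) (nat_lit 423) (nat_lit 389)) (XT.lf (nat_lit 912) (nat_lit 4684209176) (nat_lit 0) (nat_lit 1086751300) (nat_lit 836) (nat_lit 1086751300) (nat_lit 422) (nat_lit 1) (nat_lit 410) (nat_lit 1) (nat_lit 421)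 (nat_lit 1) (nat_lit 329) (nat_lit 423) (nat_lit 388)))) (XT.nd (nat_lit 156) (nat_lit 760) (nat_lit 0) (XT.nd (nat_lit 78) (nat_lit 836) (nat_lit 0) (XT.lf (nat_lit 76) (nat_lit 1938022877) (nat_lit 0) (nat_lit 2921596717) (nat_lit 912) (nat_lit 1938022877) (nat_lit 411) (nat_lit 1) (nat_lit 410) (nat_lit 1) (nat_lit 422) (nat_lit 1) (nat_lit 330) (nat_lit 423) (nat_lit 387)) (XT.lf (nat_lit 912) (nat_lit 3064507642) (nat_lit 0) (nat_lit 1836933234) (nat_lit 836) (nat_lit 1836933234) (nat_lit 411) (nat_lit 1) (nat_lit 399) (nat_lit 1) (nat_lit 410) (nat_lit 1) (nat_lit 331) (nat_lit 423) (nat_lit 386))) (XT.nd (nat_lit 78) (nat_lit 760) (nat_lit 0) (XT.lf (nat_lit 76) (nat_lit 1124293645) (nat_lit 0) (nat_lit 4431282649) (nat_lit 912) (nat_lit 1124293645) (nat_lit 400) (nat_lit 1) (nat_lit 399) (nat_lit 1) (nat_lit 411) (nat_lit 1) (nat_lit 332) (nat_lit 423) (nat_lit 385)) (XT.lf (nat_lit 836) (nat_lit 1419512200)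 (nat_lit 0) (nat_lit 2601214538) (nat_lit 760) (nat_lit 2601214538) (nat_lit 400) (nat_lit 1) (nat_lit 389) (nat_lit 1) (nat_lit 399) (nat_lit 1) (nat_lit 333) (nat_lit 423) (nat_lit 384))))))))
noncomputable def ec59 : XT := (XT.nd (nat_lit 2418) (nat_lit 6536) (nat_lit 0) (XT.nd (nat_lit 1170) (nat_lit 5776) (nat_lit 0) (XT.nd (nat_lit 546) (nat_lit 2736) (nat_lit 0) (XT.nd (nat_lit 234) (nat_lit 1444) (nat_lit 0) (XT.nd (nat_lit 78) (nat_lit 1596) (nat_lit 0) (XT.lf (nat_lit 76) (nat_lit 298646371) (nat_lit 0) (nat_lit 5967671401) (nat_lit 836) (nat_lit 298646371) (nat_lit 390) (nat_lit 1) (nat_lit 389) (nat_lit 1) (nat_lit 400) (nat_lit 1) (nat_lit 334) (nat_lit 423) (nat_lit 383)) (XT.nd (nat_lit 78) (nat_lit 760) (nat_lit 0) (XT.lf (nat_lit 76) (nat_lit 3131744919) (nat_lit 0) (nat_lit 244812334) (nat_lit 836) (nat_lit 3131744919) (nat_lit 379) (nat_lit 1) (nat_lit 378) (nat_lit 1) (nat_lit 389) (nat_lit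 1) (nat_lit 335) (nat_lit 423) (nat_lit 382)) (XT.lf (nat_lit 836) (nat_lit 5384434984) (nat_lit 0) (nat_lit 534066033) (nat_lit 760) (nat_lit 534066033) (nat_lit 379) (nat_lit 1) (nat_lit 368) (nat_lit 1) (nat_lit 378) (nat_lit 1) (nat_lit 336) (nat_lit 423) (nat_lit 381)))) (XT.nd (nat_lit 156) (nat_lit 684) (nat_lit 0) (XT.nd (nat_lit 78) (nat_lit 760) (nat_lit 0) (XT.lf (nat_lit 76) (nat_lit 2243478994) (nat_lit 0) (nat_lit 1910267598) (nat_lit 836) (nat_lit 2243478994) (nat_lit 369) (nat_lit 1) (nat_lit 368) (nat_lit 1) (nat_lit 379) (nat_lit 1) (nat_lit 337) (nat_lit 423) (nat_lit 380)) (XT.lf (nat_lit 836) (nat_lit 3594511033) (nat_lit 0) (nat_lit 1374105897) (nat_lit 760) (nat_lit 1374105897) (nat_lit 369) (nat_lit 1) (nat_lit 358) (nat_lit 1) (nat_lit 368) (nat_lit 1) (nat_lit 338) (nat_lit 423) (nat_lit 379))) (XT.nd (nat_lit 78) (nat_lit 684) (nat_lit 0) (XT.lf (nat_lit 76) (nat_lit 1347879164) (nat_lit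 0) (nat_lit 3593063664) (nat_lit 836) (nat_lit 1347879164) (nat_lit 359) (nat_lit 1) (nat_lit 358) (nat_lit 1) (nat_lit 369) (nat_lit 1) (nat_lit 339) (nat_lit 423) (nat_lit 378)) (XT.lf (nat_lit 760) (nat_lit 1790989648) (nat_lit 0) (nat_lit 2222262443) (nat_lit 684) (nat_lit 2222262443) (nat_lit 359) (nat_lit 1) (nat_lit 349) (nat_lit 1) (nat_lit 358) (nat_lit 1) (nat_lit 340) (nat_lit 423) (nat_lit 377))))) (XT.nd (nat_lit 312) (nat_lit 1292) (nat_lit 0) (XT.nd (nat_lit 156) (nat_lit 684) (nat_lit 0) (XT.nd (nat_lit 78) (nat_lit 760) (nat_lit 0) (XT.lf (nat_lit 76) (nat_lit 446050336) (nat_lit 0) (nat_lit 5290919082) (nat_lit 760) (nat_lit 446050336) (nat_lit 350) (nat_lit 1) (nat_lit 349) (nat_lit 1) (nat_lit 359) (nat_lit 1) (nat_lit 341) (nat_lit 423) (nat_lit 376)) (XT.lf (nat_lit 76) (nat_lit 3053605666) (nat_lit 0) (nat_lit 23657314) (nat_lit 760) (nat_lit 3053605666) (nat_lit 340) (nat_lit 1) (nat_lit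 339) (nat_lit 1) (nat_lit 349) (nat_lit 1) (nat_lit 342) (nat_lit 423) (nat_lit 375))) (XT.nd (nat_lit 78) (nat_lit 0) (nat_lit 0) (XT.lf (nat_lit 760) (nat_lit 5163651308) (nat_lit 0) (nat_lit 457928923) (nat_lit 684) (nat_lit 457928923) (nat_lit 340) (nat_lit 1) (nat_lit 330) (nat_lit 1) (nat_lit 339) (nat_lit 1) (nat_lit 343) (nat_lit 423) (nat_lit 374)) (XT.lf (nat_lit 76) (nat_lit 2102198047) (nat_lit 0) (nat_lit 1824090102) (nat_lit 760) (nat_lit 2102198047) (nat_lit 331) (nat_lit 1) (nat_lit 330) (nat_lit 1) (nat_lit 340) (nat_lit 1) (nat_lit 344) (nat_lit 423) (nat_lit 373)))) (XT.nd (nat_lit 156) (nat_lit 608) (nat_lit 0) (XT.nd (nat_lit 78) (nat_lit 0) (nat_lit 0) (XT.lf (nat_lit 760) (nat_lit 3251949214) (nat_lit 0) (nat_lit 1363139584) (nat_lit 684) (nat_lit 1363139584) (nat_lit 331) (nat_lit 1) (nat_lit 321) (nat_lit 1) (nat_lit 330) (nat_lit 1) (nat_lit 345) (nat_lit 423) (nat_lit 372)) (XT.lf (nat_lit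 76) (nat_lit 1148320837) (nat_lit 0) (nat_lit 3631892063) (nat_lit 760) (nat_lit 1148320837) (nat_lit 322) (nat_lit 1) (nat_lit 321) (nat_lit 1) (nat_lit 331) (nat_lit 1) (nat_lit 346) (nat_lit 423) (nat_lit 371))) (XT.nd (nat_lit 78) (nat_lit 0) (nat_lit 0) (XT.lf (nat_lit 684) (nat_lit 1336171629) (nat_lit 0) (nat_lit 2271586679) (nat_lit 608) (nat_lit 2271586679) (nat_lit 322) (nat_lit 1) (nat_lit 313) (nat_lit 1) (nat_lit 321) (nat_lit 1) (nat_lit 347) (nat_lit 423) (nat_lit 370)) (XT.lf (nat_lit 76) (nat_lit 192842755) (nat_lit 0) (nat_lit 5445261707) (nat_lit 684) (nat_lit 192842755) (nat_lit 314) (nat_lit 1) (nat_lit 313) (nat_lit 1) (nat_lit 322) (nat_lit 1) (nat_lit 348) (nat_lit 423) (nat_lit 369)))))) (XT.nd (nat_lit 624) (nat_lit 2660) (nat_lit 0) (XT.nd (nat_lit 312) (nat_lit 1216) (nat_lit 0) (XT.nd (nat_lit 156) (nat_lit 608) (nat_lit 0) (XT.nd (nat_lit 78) (nat_lit 608) (nat_lit 0) (XT.lf (nat_lit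 76) (nat_lit 2604182788) (nat_lit 0) (nat_lit 574354841) (nat_lit 684) (nat_lit 2604182788) (nat_lit 305) (nat_lit 1) (nat_lit 304) (nat_lit 1) (nat_lit 313) (nat_lit 1) (nat_lit 349) (nat_lit 423) (nat_lit 368)) (XT.lf (nat_lit 684) (nat_lit 4218478838) (nat_lit 0) (nat_lit 758393890) (nat_lit 608) (nat_lit 758393890) (nat_lit 305) (nat_lit 1) (nat_lit 296) (nat_lit 1) (nat_lit 304) (nat_lit 1) (nat_lit 350) (nat_lit 423) (nat_lit 367))) (XT.nd (nat_lit 78) (nat_lit 608) (nat_lit 0) (XT.lf (nat_lit 76) (nat_lit 1610032349) (nat_lit 0) (nat_lit 2468130805) (nat_lit 684) (nat_lit 1610032349) (nat_lit 297) (nat_lit 1) (nat_lit 296) (nat_lit 1) (nat_lit 305) (nat_lit 1) (nat_lit 351) (nat_lit 423) (nat_lit 366)) (XT.lf (nat_lit 684) (nat_lit 2224989603) (nat_lit 0) (nat_lit 1708369680) (nat_lit 608) (nat_lit 1708369680) (nat_lit 297) (nat_lit 1) (nat_lit 288) (nat_lit 1) (nat_lit 296) (nat_lit 1) (nat_lit 352) (nat_lit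 423) (nat_lit 365)))) (XT.nd (nat_lit 156) (nat_lit 684) (nat_lit 0) (XT.nd (nat_lit 78) (nat_lit 532) (nat_lit 0) (XT.lf (nat_lit 76) (nat_lit 617345377) (nat_lit 0) (nat_lit 4361193858) (nat_lit 684) (nat_lit 617345377) (nat_lit 289) (nat_lit 1) (nat_lit 288) (nat_lit 1) (nat_lit 297) (nat_lit 1) (nat_lit 353) (nat_lit 423) (nat_lit 364)) (XT.lf (nat_lit 608) (nat_lit 235117464) (nat_lit 0) (nat_lit 2657629557) (nat_lit 532) (nat_lit 2657629557) (nat_lit 289) (nat_lit 1) (nat_lit 281) (nat_lit 1) (nat_lit 288) (nat_lit 1) (nat_lit 354) (nat_lit 423) (nat_lit 363))) (XT.nd (nat_lit 78) (nat_lit 0) (nat_lit 0) (XT.lf (nat_lit 684) (nat_lit 4764033028) (nat_lit 0) (nat_lit 370751401) (nat_lit 608) (nat_lit 370751401) (nat_lit 281) (nat_lit 1) (nat_lit 272) (nat_lit 1) (nat_lit 280) (nat_lit 1) (nat_lit 355) (nat_lit 423) (nat_lit 362)) (XT.lf (nat_lit 76) (nat_lit 1867021992) (nat_lit 0) (nat_lit 1726881771) (nat_lit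 684) (nat_lit 1867021992) (nat_lit 273) (nat_lit 1) (nat_lit 272) (nat_lit 1) (nat_lit 281) (nat_lit 1) (nat_lit 356) (nat_lit 423) (nat_lit 361))))) (XT.nd (nat_lit 312) (nat_lit 988) (nat_lit 0) (XT.nd (nat_lit 156) (nat_lit 1140) (nat_lit 0) (XT.nd (nat_lit 78) (nat_lit 0) (nat_lit 0) (XT.lf (nat_lit 608) (nat_lit 2712889741) (nat_lit 0) (nat_lit 1352038940) (nat_lit 532) (nat_lit 1352038940) (nat_lit 273) (nat_lit 1) (nat_lit 265) (nat_lit 1) (nat_lit 272) (nat_lit 1) (nat_lit 357) (nat_lit 423) (nat_lit 360)) (XT.lf (nat_lit 76) (nat_lit 846895986) (nat_lit 0) (nat_lit 3679727163) (nat_lit 608) (nat_lit 846895986) (nat_lit 266) (nat_lit 1) (nat_lit 265) (nat_lit 1) (nat_lit 273) (nat_lit 1) (nat_lit 358) (nat_lit 423) (nat_lit 359))) (XT.nd (nat_lit 78) (nat_lit 608) (nat_lit 0) (XT.lf (nat_lit 608) (nat_lit 670467781) (nat_lit 0) (nat_lit 2329990058) (nat_lit 532) (nat_lit 2329990058) (nat_lit 266) (nat_lit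 1) (nat_lit 258) (nat_lit 1) (nat_lit 265) (nat_lit 1) (nat_lit 359) (nat_lit 423) (nat_lit 358)) (XT.lf (nat_lit 608) (nat_lit 4953033471) (nat_lit 0) (nat_lit 167506393) (nat_lit 532) (nat_lit 167506393) (nat_lit 258) (nat_lit 1) (nat_lit 250) (nat_lit 1) (nat_lit 257) (nat_lit 1) (nat_lit 360) (nat_lit 423) (nat_lit 357)))) (XT.nd (nat_lit 156) (nat_lit 456) (nat_lit 0) (XT.nd (nat_lit 78) (nat_lit 532) (nat_lit 0) (XT.lf (nat_lit 76) (nat_lit 1950715980) (nat_lit 0) (nat_lit 1344315539) (nat_lit 608) (nat_lit 1950715980) (nat_lit 251) (nat_lit 1) (nat_lit 250) (nat_lit 1) (nat_lit 258) (nat_lit 1) (nat_lit 361) (nat_lit 423) (nat_lit 356)) (XT.lf (nat_lit 608) (nat_lit 2861605904) (nat_lit 0) (nat_lit 1171249403) (nat_lit 532) (nat_lit 1171249403) (nat_lit 251) (nat_lit 1) (nat_lit 243) (nat_lit 1) (nat_lit 250) (nat_lit 1) (nat_lit 362) (nat_lit 423) (nat_lit 355))) (XT.nd (nat_lit 78) (nat_lit 456) (nat_lit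 0) (XT.lf (nat_lit 76) (nat_lit 911608781) (nat_lit 0) (nat_lit 3339689298) (nat_lit 608) (nat_lit 911608781) (nat_lit 244) (nat_lit 1) (nat_lit 243) (nat_lit 1) (nat_lit 251) (nat_lit 1) (nat_lit 363) (nat_lit 423) (nat_lit 354)) (XT.lf (nat_lit 532) (nat_lit 783218137) (nat_lit 0) (nat_lit 2169433929) (nat_lit 456) (nat_lit 2169433929) (nat_lit 244) (nat_lit 1) (nat_lit 237) (nat_lit 1) (nat_lit 243) (nat_lit 1) (nat_lit 364) (nat_lit 423) (nat_lit 353))))))) (XT.nd (nat_lit 1170) (nat_lit 2280) (nat_lit 0) (XT.nd (nat_lit 546) (nat_lit 2204) (nat_lit 0) (XT.nd (nat_lit 234) (nat_lit 988) (nat_lit 0) (XT.nd (nat_lit 78) (nat_lit 456) (nat_lit 0) (XT.lf (nat_lit 608) (nat_lit 4841914185) (nat_lit 0) (nat_lit 119993350) (nat_lit 532) (nat_lit 119993350) (nat_lit 237) (nat_lit 1) (nat_lit 229) (nat_lit 1) (nat_lit 236) (nat_lit 1) (nat_lit 365) (nat_lit 423) (nat_lit 352)) (XT.nd (nat_lit 78) (nat_lit 456) (nat_lit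 0) (XT.lf (nat_lit 76) (nat_lit 1888640143) (nat_lit 0) (nat_lit 1264494985) (nat_lit 608) (nat_lit 1888640143) (nat_lit 230) (nat_lit 1) (nat_lit 229) (nat_lit 1) (nat_lit 237) (nat_lit 1) (nat_lit 366) (nat_lit 423) (nat_lit 351)) (XT.lf (nat_lit 532) (nat_lit 2725202518) (nat_lit 0) (nat_lit 1138535399) (nat_lit 456) (nat_lit 1138535399) (nat_lit 230) (nat_lit 1) (nat_lit 223) (nat_lit 1) (nat_lit 229) (nat_lit 1) (nat_lit 367) (nat_lit 423) (nat_lit 350)))) (XT.nd (nat_lit 156) (nat_lit 532) (nat_lit 0) (XT.nd (nat_lit 78) (nat_lit 456) (nat_lit 0) (XT.lf (nat_lit 76) (nat_lit 837853013) (nat_lit 0) (nat_lit 3287486007) (nat_lit 532) (nat_lit 837853013) (nat_lit 224) (nat_lit 1) (nat_lit 223) (nat_lit 1) (nat_lit 230) (nat_lit 1) (nat_lit 368) (nat_lit 423) (nat_lit 349)) (XT.lf (nat_lit 532) (nat_lit 625159699) (nat_lit 0) (nat_lit 2149646634) (nat_lit 456) (nat_lit 2149646634) (nat_lit 224) (nat_lit 1) (nat_lit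 217) (nat_lit 1) (nat_lit 223) (nat_lit 1) (nat_lit 369) (nat_lit 423) (nat_lit 348))) (XT.nd (nat_lit 78) (nat_lit 0) (nat_lit 0) (XT.lf (nat_lit 532) (nat_lit 4480048259) (nat_lit 0) (nat_lit 203118747) (nat_lit 456) (nat_lit 203118747) (nat_lit 217) (nat_lit 1) (nat_lit 210) (nat_lit 1) (nat_lit 216) (nat_lit 1) (nat_lit 370) (nat_lit 423) (nat_lit 347)) (XT.lf (nat_lit 76) (nat_lit 1704872618) (nat_lit 0) (nat_lit 1438460345) (nat_lit 532) (nat_lit 1704872618) (nat_lit 211) (nat_lit 1) (nat_lit 210) (nat_lit 1) (nat_lit 217) (nat_lit 1) (nat_lit 371) (nat_lit 423) (nat_lit 346))))) (XT.nd (nat_lit 312) (nat_lit 836) (nat_lit 0) (XT.nd (nat_lit 156) (nat_lit 912) (nat_lit 0) (XT.nd (nat_lit 78) (nat_lit 0) (nat_lit 0) (XT.lf (nat_lit 532) (nat_lit 2350964991) (nat_lit 0) (nat_lit 1229860763) (nat_lit 456) (nat_lit 1229860763) (nat_lit 211) (nat_lit 1) (nat_lit 204) (nat_lit 1) (nat_lit 210) (nat_lit 1) (nat_lit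 372) (nat_lit 423) (nat_lit 345)) (XT.lf (nat_lit 76) (nat_lit 648687920) (nat_lit 0) (nat_lit 3476222003) (nat_lit 532) (nat_lit 648687920) (nat_lit 205) (nat_lit 1) (nat_lit 204) (nat_lit 1) (nat_lit 211) (nat_lit 1) (nat_lit 373) (nat_lit 423) (nat_lit 344))) (XT.nd (nat_lit 78) (nat_lit 532) (nat_lit 0) (XT.lf (nat_lit 456) (nat_lit 241575417) (nat_lit 0) (nat_lit 2247606275) (nat_lit 380) (nat_lit 2247606275) (nat_lit 205) (nat_lit 1) (nat_lit 199) (nat_lit 1) (nat_lit 204) (nat_lit 1) (nat_lit 374) (nat_lit 423) (nat_lit 343)) (XT.lf (nat_lit 532) (nat_lit 3910569492) (nat_lit 0) (nat_lit 394945900) (nat_lit 456) (nat_lit 394945900) (nat_lit 199) (nat_lit 1) (nat_lit 192) (nat_lit 1) (nat_lit 198) (nat_lit 1) (nat_lit 375) (nat_lit 423) (nat_lit 342)))) (XT.nd (nat_lit 156) (nat_lit 456) (nat_lit 0) (XT.nd (nat_lit 78) (nat_lit 380) (nat_lit 0) (XT.lf (nat_lit 76) (nat_lit 1420445175) (nat_lit 0) (nat_lit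 1823418002) (nat_lit 532) (nat_lit 1420445175) (nat_lit 193) (nat_lit 1) (nat_lit 192) (nat_lit 1) (nat_lit 199) (nat_lit 1) (nat_lit 376) (nat_lit 423) (nat_lit 341)) (XT.lf (nat_lit 456) (nat_lit 1780189138) (nat_lit 0) (nat_lit 1424219968) (nat_lit 380) (nat_lit 1424219968) (nat_lit 193) (nat_lit 1) (nat_lit 187) (nat_lit 1) (nat_lit 192) (nat_lit 1) (nat_lit 377) (nat_lit 423) (nat_lit 340))) (XT.nd (nat_lit 78) (nat_lit 456) (nat_lit 0) (XT.lf (nat_lit 76) (nat_lit 364248328) (nat_lit 0) (nat_lit 3864921569) (nat_lit 456) (nat_lit 364248328) (nat_lit 188) (nat_lit 1) (nat_lit 187) (nat_lit 1) (nat_lit 193) (nat_lit 1) (nat_lit 378) (nat_lit 423) (nat_lit 339)) (XT.lf (nat_lit 76) (nat_lit 2117328451) (nat_lit 0) (nat_lit 323699719) (nat_lit 456) (nat_lit 2117328451) (nat_lit 182) (nat_lit 1) (nat_lit 181) (nat_lit 1) (nat_lit 187) (nat_lit 1) (nat_lit 379) (nat_lit 423) (nat_lit 338)))))) (XT.nd (nat_lit 624)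 (nat_lit 456) (nat_lit 0) (XT.nd (nat_lit 312) (nat_lit 1064) (nat_lit 0) (XT.nd (nat_lit 156) (nat_lit 380) (nat_lit 0) (XT.nd (nat_lit 78) (nat_lit 0) (nat_lit 0) (XT.lf (nat_lit 456) (nat_lit 3171100763) (nat_lit 0) (nat_lit 676326937) (nat_lit 380) (nat_lit 676326937) (nat_lit 182) (nat_lit 1) (nat_lit 176) (nat_lit 1) (nat_lit 181) (nat_lit 1) (nat_lit 380) (nat_lit 423) (nat_lit 337)) (XT.lf (nat_lit 76) (nat_lit 1053698998) (nat_lit 0) (nat_lit 2382021349) (nat_lit 456) (nat_lit 1053698998) (nat_lit 177) (nat_lit 1) (nat_lit 176) (nat_lit 1) (nat_lit 182) (nat_lit 1) (nat_lit 381) (nat_lit 423) (nat_lit 336))) (XT.nd (nat_lit 78) (nat_lit 0) (nat_lit 0) (XT.lf (nat_lit 456) (nat_lit 1048880954) (nat_lit 0) (nat_lit 1703284531) (nat_lit 380) (nat_lit 1703284531) (nat_lit 177) (nat_lit 1) (nat_lit 171) (nat_lit 1) (nat_lit 176) (nat_lit 1) (nat_lit 382) (nat_lit 423) (nat_lit 335)) (XT.lf (nat_lit 76) (nat_lit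 2086458) (nat_lit 0) (nat_lit 4417837634) (nat_lit 456) (nat_lit 2086458) (nat_lit 172) (nat_lit 1) (nat_lit 171) (nat_lit 1) (nat_lit 177) (nat_lit 1) (nat_lit 383) (nat_lit 423) (nat_lit 334)))) (XT.nd (nat_lit 156) (nat_lit 304) (nat_lit 0) (XT.nd (nat_lit 78) (nat_lit 380) (nat_lit 0) (XT.lf (nat_lit 76) (nat_lit 1676582300) (nat_lit 0) (nat_lit 1035356034) (nat_lit 380) (nat_lit 1676582300) (nat_lit 167) (nat_lit 1) (nat_lit 166) (nat_lit 1) (nat_lit 171) (nat_lit 1) (nat_lit 384) (nat_lit 423) (nat_lit 333)) (XT.lf (nat_lit 456) (nat_lit 2294399614) (nat_lit 0) (nat_lit 1030576571) (nat_lit 380) (nat_lit 1030576571) (nat_lit 167) (nat_lit 1) (nat_lit 161) (nat_lit 1) (nat_lit 166) (nat_lit 1) (nat_lit 385) (nat_lit 423) (nat_lit 332))) (XT.nd (nat_lit 78) (nat_lit 304) (nat_lit 0) (XT.lf (nat_lit 76) (nat_lit 620600013) (nat_lit 0) (nat_lit 3081733346) (nat_lit 456) (nat_lit 620600013) (nat_lit 162) (nat_lit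 1) (nat_lit 161) (nat_lit 1) (nat_lit 167) (nat_lit 1) (nat_lit 386) (nat_lit 423) (nat_lit 331)) (XT.lf (nat_lit 380) (nat_lit 188376850) (nat_lit 0) (nat_lit 2051089597) (nat_lit 304) (nat_lit 2051089597) (nat_lit 162) (nat_lit 1) (nat_lit 157) (nat_lit 1) (nat_lit 161) (nat_lit 1) (nat_lit 387) (nat_lit 423) (nat_lit 330))))) (XT.nd (nat_lit 54912) (nat_lit 0) (nat_lit 16492) (XT.nd (nat_lit 54756) (nat_lit 0) (nat_lit 18848) (XT.nd (nat_lit 78) (nat_lit 0) (nat_lit 0) (XT.lf (nat_lit 456) (nat_lit 3419078180) (nat_lit 0) (nat_lit 419745361) (nat_lit 380) (nat_lit 419745361) (nat_lit 157) (nat_lit 1) (nat_lit 151) (nat_lit 1) (nat_lit 156) (nat_lit 1) (nat_lit 388) (nat_lit 423) (nat_lit 329)) (XT.lf (nat_lit 76) (nat_lit 1179880100) (nat_lit 0) (nat_lit 1866980799) (nat_lit 456) (nat_lit 1179880100) (nat_lit 152) (nat_lit 1) (nat_lit 151) (nat_lit 1) (nat_lit 157) (nat_lit 1) (nat_lit 389) (nat_lit 423) (nat_lit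 328))) (XT.nd (nat_lit 78) (nat_lit 0) (nat_lit 0) (XT.lf (nat_lit 912) (nat_lit 3125797795) (nat_lit 0) (nat_lit 1873671899) (nat_lit 836) (nat_lit 1873671899) (nat_lit 411) (nat_lit 1) (nat_lit 399) (nat_lit 1) (nat_lit 410) (nat_lit 1) (nat_lit 329) (nat_lit 424) (nat_lit 387)) (XT.lf (nat_lit 76) (nat_lit 1146779518) (nat_lit 0) (nat_lit 4519908302) (nat_lit 912) (nat_lit 1146779518) (nat_lit 400) (nat_lit 1) (nat_lit 399) (nat_lit 1) (nat_lit 411) (nat_lit 1) (nat_lit 330) (nat_lit 424) (nat_lit 386)))) (XT.nd (nat_lit 156) (nat_lit 1596) (nat_lit 0) (XT.nd (nat_lit 78) (nat_lit 0) (nat_lit 0) (XT.lf (nat_lit 836) (nat_lit 1447902444) (nat_lit 0) (nat_lit 2653238829) (nat_lit 760) (nat_lit 2653238829) (nat_lit 400) (nat_lit 1) (nat_lit 389) (nat_lit 1) (nat_lit 399) (nat_lit 1) (nat_lit 331) (nat_lit 424) (nat_lit 385)) (XT.lf (nat_lit 76) (nat_lit 304619298) (nat_lit 0) (nat_lit 6087024829) (nat_lit 836)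 (nat_lit 304619298) (nat_lit 390) (nat_lit 1) (nat_lit 389) (nat_lit 1) (nat_lit 400) (nat_lit 1) (nat_lit 332) (nat_lit 424) (nat_lit 384))) (XT.nd (nat_lit 78) (nat_lit 760) (nat_lit 0) (XT.lf (nat_lit 76) (nat_lit 3194379817) (nat_lit 0) (nat_lit 249708581) (nat_lit 836) (nat_lit 3194379817) (nat_lit 379) (nat_lit 1) (nat_lit 378) (nat_lit 1) (nat_lit 389) (nat_lit 1) (nat_lit 333) (nat_lit 424) (nat_lit 383)) (XT.lf (nat_lit 836) (nat_lit 5492123684) (nat_lit 0) (nat_lit 544747354) (nat_lit 760) (nat_lit 544747354) (nat_lit 379) (nat_lit 1) (nat_lit 368) (nat_lit 1) (nat_lit 378) (nat_lit 1) (nat_lit 334) (nat_lit 424) (nat_lit 382))))))))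
noncomputable def ec60 : XT := (XT.nd (nat_lit 2340) (nat_lit 5928) (nat_lit 0) (XT.nd (nat_lit 1170) (nat_lit 5092) (nat_lit 0) (XT.nd (nat_lit 546) (nat_lit 2584) (nat_lit 0) (XT.nd (nat_lit 234) (nat_lit 2128) (nat_lit 0) (XT.nd (nat_lit 78) (nat_lit 760) (nat_lit 0) (XT.lf (nat_lit 76) (nat_lit 2288348574) (nat_lit 0) (nat_lit 1948472950) (nat_lit 836) (nat_lit 2288348574) (nat_lit 369) (nat_lit 1) (nat_lit 368) (nat_lit 1) (nat_lit 379) (nat_lit 1) (nat_lit 335) (nat_lit 424) (nat_lit 381)) (XT.nd (nat_lit 78) (nat_lit 0) (nat_lit 0) (XT.lf (nat_lit 836) (nat_lit 3666401254) (nat_lit 0) (nat_lit 1401588015) (nat_lit 760) (nat_lit 1401588015) (nat_lit 369) (nat_lit 1) (nat_lit 358) (nat_lit 1) (nat_lit 368) (nat_lit 1) (nat_lit 336) (nat_lit 424) (nat_lit 380)) (XT.lf (nat_lit 76) (nat_lit 1374836747) (nat_lit 0) (nat_lit 3664924938) (nat_lit 836) (nat_lit 1374836747) (nat_lit 359) (nat_lit 1) (nat_lit 358)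 (nat_lit 1) (nat_lit 369) (nat_lit 1) (nat_lit 337) (nat_lit 424) (nat_lit 379)))) (XT.nd (nat_lit 156) (nat_lit 1444) (nat_lit 0) (XT.nd (nat_lit 78) (nat_lit 0) (nat_lit 0) (XT.lf (nat_lit 760) (nat_lit 1826809441) (nat_lit 0) (nat_lit 2266707692) (nat_lit 684) (nat_lit 2266707692) (nat_lit 359) (nat_lit 1) (nat_lit 349) (nat_lit 1) (nat_lit 358) (nat_lit 1) (nat_lit 338) (nat_lit 424) (nat_lit 378)) (XT.lf (nat_lit 76) (nat_lit 454971342) (nat_lit 0) (nat_lit 5396737463) (nat_lit 760) (nat_lit 454971342) (nat_lit 350) (nat_lit 1) (nat_lit 349) (nat_lit 1) (nat_lit 359) (nat_lit 1) (nat_lit 339) (nat_lit 424) (nat_lit 377))) (XT.nd (nat_lit 78) (nat_lit 684) (nat_lit 0) (XT.lf (nat_lit 76) (nat_lit 3114677780) (nat_lit 0) (nat_lit 24130460) (nat_lit 760) (nat_lit 3114677780) (nat_lit 340) (nat_lit 1) (nat_lit 339) (nat_lit 1) (nat_lit 349) (nat_lit 1) (nat_lit 340) (nat_lit 424) (nat_lit 376)) (XT.lf (nat_lit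 760) (nat_lit 5266924335) (nat_lit 0) (nat_lit 467087502) (nat_lit 684) (nat_lit 467087502) (nat_lit 340) (nat_lit 1) (nat_lit 330) (nat_lit 1) (nat_lit 339) (nat_lit 1) (nat_lit 341) (nat_lit 424) (nat_lit 375))))) (XT.nd (nat_lit 312) (nat_lit 1292) (nat_lit 0) (XT.nd (nat_lit 156) (nat_lit 608) (nat_lit 0) (XT.nd (nat_lit 78) (nat_lit 684) (nat_lit 0) (XT.lf (nat_lit 76) (nat_lit 2144242008) (nat_lit 0) (nat_lit 1860571904) (nat_lit 760) (nat_lit 2144242008) (nat_lit 331) (nat_lit 1) (nat_lit 330) (nat_lit 1) (nat_lit 340) (nat_lit 1) (nat_lit 342) (nat_lit 424) (nat_lit 374)) (XT.lf (nat_lit 760) (nat_lit 3316988198) (nat_lit 0) (nat_lit 1390402375) (nat_lit 684) (nat_lit 1390402375) (nat_lit 331) (nat_lit 1) (nat_lit 321) (nat_lit 1) (nat_lit 330) (nat_lit 1) (nat_lit 343) (nat_lit 424) (nat_lit 373))) (XT.nd (nat_lit 78) (nat_lit 608) (nat_lit 0) (XT.lf (nat_lit 76) (nat_lit 1171287254) (nat_lit 0) (nat_lit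 3704529904) (nat_lit 760) (nat_lit 1171287254) (nat_lit 322) (nat_lit 1) (nat_lit 321) (nat_lit 1) (nat_lit 331) (nat_lit 1) (nat_lit 344) (nat_lit 424) (nat_lit 372)) (XT.lf (nat_lit 684) (nat_lit 1362895061) (nat_lit 0) (nat_lit 2317018413) (nat_lit 608) (nat_lit 2317018413) (nat_lit 322) (nat_lit 1) (nat_lit 313) (nat_lit 1) (nat_lit 321) (nat_lit 1) (nat_lit 345) (nat_lit 424) (nat_lit 371)))) (XT.nd (nat_lit 156) (nat_lit 608) (nat_lit 0) (XT.nd (nat_lit 78) (nat_lit 684) (nat_lit 0) (XT.lf (nat_lit 76) (nat_lit 196699610) (nat_lit 0) (nat_lit 5554166942) (nat_lit 684) (nat_lit 196699610) (nat_lit 314) (nat_lit 1) (nat_lit 313) (nat_lit 1) (nat_lit 322) (nat_lit 1) (nat_lit 346) (nat_lit 424) (nat_lit 370)) (XT.lf (nat_lit 76) (nat_lit 2656266443) (nat_lit 0) (nat_lit 585841938) (nat_lit 684) (nat_lit 2656266443) (nat_lit 305) (nat_lit 1) (nat_lit 304) (nat_lit 1) (nat_lit 313) (nat_lit 1) (nat_lit 347) (nat_lit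 424) (nat_lit 369))) (XT.nd (nat_lit 78) (nat_lit 0) (nat_lit 0) (XT.lf (nat_lit 684) (nat_lit 4302848414) (nat_lit 0) (nat_lit 773561768) (nat_lit 608) (nat_lit 773561768) (nat_lit 305) (nat_lit 1) (nat_lit 296) (nat_lit 1) (nat_lit 304) (nat_lit 1) (nat_lit 348) (nat_lit 424) (nat_lit 368)) (XT.lf (nat_lit 76) (nat_lit 1642232996) (nat_lit 0) (nat_lit 2517493421) (nat_lit 684) (nat_lit 1642232996) (nat_lit 297) (nat_lit 1) (nat_lit 296) (nat_lit 1) (nat_lit 305) (nat_lit 1) (nat_lit 349) (nat_lit 424) (nat_lit 367)))))) (XT.nd (nat_lit 546) (nat_lit 2736) (nat_lit 0) (XT.nd (nat_lit 234) (nat_lit 1216) (nat_lit 0) (XT.nd (nat_lit 78) (nat_lit 532) (nat_lit 0) (XT.lf (nat_lit 684) (nat_lit 2269489395) (nat_lit 0) (nat_lit 1742537074) (nat_lit 608) (nat_lit 1742537074) (nat_lit 297) (nat_lit 1) (nat_lit 288) (nat_lit 1) (nat_lit 296) (nat_lit 1) (nat_lit 350) (nat_lit 424) (nat_lit 366)) (XT.nd (nat_lit 78) (nat_lit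 532) (nat_lit 0) (XT.lf (nat_lit 76) (nat_lit 629692284) (nat_lit 0) (nat_lit 4448417735) (nat_lit 684) (nat_lit 629692284) (nat_lit 289) (nat_lit 1) (nat_lit 288) (nat_lit 1) (nat_lit 297) (nat_lit 1) (nat_lit 351) (nat_lit 424) (nat_lit 365)) (XT.lf (nat_lit 608) (nat_lit 239819814) (nat_lit 0) (nat_lit 2710782148) (nat_lit 532) (nat_lit 2710782148) (nat_lit 289) (nat_lit 1) (nat_lit 281) (nat_lit 1) (nat_lit 288) (nat_lit 1) (nat_lit 352) (nat_lit 424) (nat_lit 364)))) (XT.nd (nat_lit 156) (nat_lit 532) (nat_lit 0) (XT.nd (nat_lit 78) (nat_lit 0) (nat_lit 0) (XT.lf (nat_lit 684) (nat_lit 4859313689) (nat_lit 0) (nat_lit 378166429) (nat_lit 608) (nat_lit 378166429) (nat_lit 281) (nat_lit 1) (nat_lit 272) (nat_lit 1) (nat_lit 280) (nat_lit 1) (nat_lit 353) (nat_lit 424) (nat_lit 363)) (XT.lf (nat_lit 76) (nat_lit 1904362432) (nat_lit 0) (nat_lit 1761419406) (nat_lit 684) (nat_lit 1904362432) (nat_lit 273) (nat_lit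 1) (nat_lit 272) (nat_lit 1) (nat_lit 281) (nat_lit 1) (nat_lit 354) (nat_lit 424) (nat_lit 362))) (XT.nd (nat_lit 78) (nat_lit 0) (nat_lit 0) (XT.lf (nat_lit 608) (nat_lit 2767147536) (nat_lit 0) (nat_lit 1379079719) (nat_lit 532) (nat_lit 1379079719) (nat_lit 273) (nat_lit 1) (nat_lit 265) (nat_lit 1) (nat_lit 272) (nat_lit 1) (nat_lit 355) (nat_lit 424) (nat_lit 361)) (XT.lf (nat_lit 76) (nat_lit 863833905) (nat_lit 0) (nat_lit 3753321706) (nat_lit 608) (nat_lit 863833905) (nat_lit 266) (nat_lit 1) (nat_lit 265) (nat_lit 1) (nat_lit 273) (nat_lit 1) (nat_lit 356) (nat_lit 424) (nat_lit 360))))) (XT.nd (nat_lit 312) (nat_lit 1064) (nat_lit 0) (XT.nd (nat_lit 156) (nat_lit 532) (nat_lit 0) (XT.nd (nat_lit 78) (nat_lit 608) (nat_lit 0) (XT.lf (nat_lit 608) (nat_lit 683877136) (nat_lit 0) (nat_lit 2376589859) (nat_lit 532) (nat_lit 2376589859) (nat_lit 266) (nat_lit 1) (nat_lit 258) (nat_lit 1) (nat_lit 265) (nat_lit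 1) (nat_lit 357) (nat_lit 424) (nat_lit 359)) (XT.lf (nat_lit 608) (nat_lit 5052094141) (nat_lit 0) (nat_lit 170856520) (nat_lit 532) (nat_lit 170856520) (nat_lit 258) (nat_lit 1) (nat_lit 250) (nat_lit 1) (nat_lit 257) (nat_lit 1) (nat_lit 358) (nat_lit 424) (nat_lit 358))) (XT.nd (nat_lit 78) (nat_lit 532) (nat_lit 0) (XT.lf (nat_lit 76) (nat_lit 1989730299) (nat_lit 0) (nat_lit 1371201849) (nat_lit 608) (nat_lit 1989730299) (nat_lit 251) (nat_lit 1) (nat_lit 250) (nat_lit 1) (nat_lit 258) (nat_lit 1) (nat_lit 359) (nat_lit 424) (nat_lit 357)) (XT.lf (nat_lit 608) (nat_lit 2918838023) (nat_lit 0) (nat_lit 1194674391) (nat_lit 532) (nat_lit 1194674391) (nat_lit 251) (nat_lit 1) (nat_lit 243) (nat_lit 1) (nat_lit 250) (nat_lit 1) (nat_lit 360) (nat_lit 424) (nat_lit 356)))) (XT.nd (nat_lit 156) (nat_lit 608) (nat_lit 0) (XT.nd (nat_lit 78) (nat_lit 456) (nat_lit 0) (XT.lf (nat_lit 76) (nat_lit 929840957) (nat_lit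 0) (nat_lit 3406483084) (nat_lit 608) (nat_lit 929840957) (nat_lit 244) (nat_lit 1) (nat_lit 243) (nat_lit 1) (nat_lit 251) (nat_lit 1) (nat_lit 361) (nat_lit 424) (nat_lit 355)) (XT.lf (nat_lit 532) (nat_lit 798882500) (nat_lit 0) (nat_lit 2212822608) (nat_lit 456) (nat_lit 2212822608) (nat_lit 244) (nat_lit 1) (nat_lit 237) (nat_lit 1) (nat_lit 243) (nat_lit 1) (nat_lit 362) (nat_lit 424) (nat_lit 354))) (XT.nd (nat_lit 78) (nat_lit 0) (nat_lit 0) (XT.lf (nat_lit 608) (nat_lit 4938752469) (nat_lit 0) (nat_lit 122393218) (nat_lit 532) (nat_lit 122393218) (nat_lit 237) (nat_lit 1) (nat_lit 229) (nat_lit 1) (nat_lit 236) (nat_lit 1) (nat_lit 363) (nat_lit 424) (nat_lit 353)) (XT.lf (nat_lit 76) (nat_lit 1926412946) (nat_lit 0) (nat_lit 1289784885) (nat_lit 608) (nat_lit 1926412946) (nat_lit 230) (nat_lit 1) (nat_lit 229) (nat_lit 1) (nat_lit 237) (nat_lit 1) (nat_lit 364) (nat_lit 424) (nat_lit 352))))))) (XT.nd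 (nat_lit 1170) (nat_lit 1900) (nat_lit 0) (XT.nd (nat_lit 546) (nat_lit 2128) (nat_lit 0) (XT.nd (nat_lit 234) (nat_lit 988) (nat_lit 0) (XT.nd (nat_lit 78) (nat_lit 456) (nat_lit 0) (XT.lf (nat_lit 532) (nat_lit 2779706569) (nat_lit 0) (nat_lit 1161306107) (nat_lit 456) (nat_lit 1161306107) (nat_lit 230) (nat_lit 1) (nat_lit 223) (nat_lit 1) (nat_lit 229) (nat_lit 1) (nat_lit 365) (nat_lit 424) (nat_lit 351)) (XT.nd (nat_lit 78) (nat_lit 456) (nat_lit 0) (XT.lf (nat_lit 76) (nat_lit 854610073) (nat_lit 0) (nat_lit 3353235727) (nat_lit 532) (nat_lit 854610073) (nat_lit 224) (nat_lit 1) (nat_lit 223) (nat_lit 1) (nat_lit 230) (nat_lit 1) (nat_lit 366) (nat_lit 424) (nat_lit 350)) (XT.lf (nat_lit 532) (nat_lit 637662893) (nat_lit 0) (nat_lit 2192639566) (nat_lit 456) (nat_lit 2192639566) (nat_lit 224) (nat_lit 1) (nat_lit 217) (nat_lit 1) (nat_lit 223) (nat_lit 1) (nat_lit 367) (nat_lit 424) (nat_lit 349)))) (XT.nd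 (nat_lit 156) (nat_lit 456) (nat_lit 0) (XT.nd (nat_lit 78) (nat_lit 0) (nat_lit 0) (XT.lf (nat_lit 532) (nat_lit 4569649224) (nat_lit 0) (nat_lit 207181122) (nat_lit 456) (nat_lit 207181122) (nat_lit 217) (nat_lit 1) (nat_lit 210) (nat_lit 1) (nat_lit 216) (nat_lit 1) (nat_lit 368) (nat_lit 424) (nat_lit 348)) (XT.lf (nat_lit 76) (nat_lit 1738970070) (nat_lit 0) (nat_lit 1467229552) (nat_lit 532) (nat_lit 1738970070) (nat_lit 211) (nat_lit 1) (nat_lit 210) (nat_lit 1) (nat_lit 217) (nat_lit 1) (nat_lit 369) (nat_lit 424) (nat_lit 347))) (XT.nd (nat_lit 78) (nat_lit 0) (nat_lit 0) (XT.lf (nat_lit 532) (nat_lit 2397984291) (nat_lit 0) (nat_lit 1254457978) (nat_lit 456) (nat_lit 1254457978) (nat_lit 211) (nat_lit 1) (nat_lit 204) (nat_lit 1) (nat_lit 210) (nat_lit 1) (nat_lit 370) (nat_lit 424) (nat_lit 346)) (XT.lf (nat_lit 76) (nat_lit 661661678) (nat_lit 0) (nat_lit 3545746443) (nat_lit 532) (nat_lit 661661678)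 (nat_lit 205) (nat_lit 1) (nat_lit 204) (nat_lit 1) (nat_lit 211) (nat_lit 1) (nat_lit 371) (nat_lit 424) (nat_lit 345))))) (XT.nd (nat_lit 312) (nat_lit 836) (nat_lit 0) (XT.nd (nat_lit 156) (nat_lit 380) (nat_lit 0) (XT.nd (nat_lit 78) (nat_lit 532) (nat_lit 0) (XT.lf (nat_lit 456) (nat_lit 246406925) (nat_lit 0) (nat_lit 2292558400) (nat_lit 380) (nat_lit 2292558400) (nat_lit 205) (nat_lit 1) (nat_lit 199) (nat_lit 1) (nat_lit 204) (nat_lit 1) (nat_lit 372) (nat_lit 424) (nat_lit 344)) (XT.lf (nat_lit 532) (nat_lit 3988780882) (nat_lit 0) (nat_lit 402844818) (nat_lit 456) (nat_lit 402844818) (nat_lit 199) (nat_lit 1) (nat_lit 192) (nat_lit 1) (nat_lit 198) (nat_lit 1) (nat_lit 373) (nat_lit 424) (nat_lit 343))) (XT.nd (nat_lit 78) (nat_lit 380) (nat_lit 0) (XT.lf (nat_lit 76) (nat_lit 1448854078) (nat_lit 0) (nat_lit 1859886362) (nat_lit 532) (nat_lit 1448854078) (nat_lit 193) (nat_lit 1) (nat_lit 192) (nat_lit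 1) (nat_lit 199) (nat_lit 1) (nat_lit 374) (nat_lit 424) (nat_lit 342)) (XT.lf (nat_lit 456) (nat_lit 1815792920) (nat_lit 0) (nat_lit 1452704367) (nat_lit 380) (nat_lit 1452704367) (nat_lit 193) (nat_lit 1) (nat_lit 187) (nat_lit 1) (nat_lit 192) (nat_lit 1) (nat_lit 375) (nat_lit 424) (nat_lit 341)))) (XT.nd (nat_lit 156) (nat_lit 380) (nat_lit 0) (XT.nd (nat_lit 78) (nat_lit 456) (nat_lit 0) (XT.lf (nat_lit 76) (nat_lit 371533295) (nat_lit 0) (nat_lit 3942220000) (nat_lit 456) (nat_lit 371533295) (nat_lit 188) (nat_lit 1) (nat_lit 187) (nat_lit 1) (nat_lit 193) (nat_lit 1) (nat_lit 376) (nat_lit 424) (nat_lit 340)) (XT.lf (nat_lit 76) (nat_lit 2159675021) (nat_lit 0) (nat_lit 330173714) (nat_lit 456) (nat_lit 2159675021) (nat_lit 182) (nat_lit 1) (nat_lit 181) (nat_lit 1) (nat_lit 187) (nat_lit 1) (nat_lit 377) (nat_lit 424) (nat_lit 339))) (XT.nd (nat_lit 78) (nat_lit 0) (nat_lit 0) (XT.lf (nat_lit 456) (nat_lit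 3234522778) (nat_lit 0) (nat_lit 689853476) (nat_lit 380) (nat_lit 689853476) (nat_lit 182) (nat_lit 1) (nat_lit 176) (nat_lit 1) (nat_lit 181) (nat_lit 1) (nat_lit 378) (nat_lit 424) (nat_lit 338)) (XT.lf (nat_lit 76) (nat_lit 1074772978) (nat_lit 0) (nat_lit 2429661776) (nat_lit 456) (nat_lit 1074772978) (nat_lit 177) (nat_lit 1) (nat_lit 176) (nat_lit 1) (nat_lit 182) (nat_lit 1) (nat_lit 379) (nat_lit 424) (nat_lit 337)))))) (XT.nd (nat_lit 55536) (nat_lit 0) (nat_lit 14288) (XT.nd (nat_lit 312) (nat_lit 760) (nat_lit 0) (XT.nd (nat_lit 156) (nat_lit 760) (nat_lit 0) (XT.nd (nat_lit 78) (nat_lit 0) (nat_lit 0) (XT.lf (nat_lit 456) (nat_lit 1069858573) (nat_lit 0) (nat_lit 1737350221) (nat_lit 380) (nat_lit 1737350221) (nat_lit 177) (nat_lit 1) (nat_lit 171) (nat_lit 1) (nat_lit 176) (nat_lit 1) (nat_lit 380) (nat_lit 424) (nat_lit 336)) (XT.lf (nat_lit 76) (nat_lit 2128187) (nat_lit 0) (nat_lit 4506194387)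 (nat_lit 456) (nat_lit 2128187) (nat_lit 172) (nat_lit 1) (nat_lit 171) (nat_lit 1) (nat_lit 177) (nat_lit 1) (nat_lit 381) (nat_lit 424) (nat_lit 335))) (XT.nd (nat_lit 78) (nat_lit 380) (nat_lit 0) (XT.lf (nat_lit 76) (nat_lit 1710113946) (nat_lit 0) (nat_lit 1056063154) (nat_lit 380) (nat_lit 1710113946) (nat_lit 167) (nat_lit 1) (nat_lit 166) (nat_lit 1) (nat_lit 171) (nat_lit 1) (nat_lit 382) (nat_lit 424) (nat_lit 334)) (XT.lf (nat_lit 456) (nat_lit 2340287606) (nat_lit 0) (nat_lit 1051188102) (nat_lit 380) (nat_lit 1051188102) (nat_lit 167) (nat_lit 1) (nat_lit 161) (nat_lit 1) (nat_lit 166) (nat_lit 1) (nat_lit 383) (nat_lit 424) (nat_lit 333)))) (XT.nd (nat_lit 156) (nat_lit 456) (nat_lit 0) (XT.nd (nat_lit 78) (nat_lit 304) (nat_lit 0) (XT.lf (nat_lit 76) (nat_lit 633012013) (nat_lit 0) (nat_lit 3143368012) (nat_lit 456) (nat_lit 633012013) (nat_lit 162) (nat_lit 1) (nat_lit 161) (nat_lit 1) (nat_lit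 167) (nat_lit 1) (nat_lit 384) (nat_lit 424) (nat_lit 332)) (XT.lf (nat_lit 380) (nat_lit 192144387) (nat_lit 0) (nat_lit 2092111389) (nat_lit 304) (nat_lit 2092111389) (nat_lit 162) (nat_lit 1) (nat_lit 157) (nat_lit 1) (nat_lit 161) (nat_lit 1) (nat_lit 385) (nat_lit 424) (nat_lit 331))) (XT.nd (nat_lit 78) (nat_lit 0) (nat_lit 0) (XT.lf (nat_lit 456) (nat_lit 3487459743) (nat_lit 0) (nat_lit 428140268) (nat_lit 380) (nat_lit 428140268) (nat_lit 157) (nat_lit 1) (nat_lit 151) (nat_lit 1) (nat_lit 156) (nat_lit 1) (nat_lit 386) (nat_lit 424) (nat_lit 330)) (XT.lf (nat_lit 76) (nat_lit 1203477702) (nat_lit 0) (nat_lit 1904320415) (nat_lit 456) (nat_lit 1203477702) (nat_lit 152) (nat_lit 1) (nat_lit 151) (nat_lit 1) (nat_lit 157) (nat_lit 1) (nat_lit 387) (nat_lit 424) (nat_lit 329))))) (XT.nd (nat_lit 312) (nat_lit 1444) (nat_lit 0) (XT.nd (nat_lit 156) (nat_lit 760) (nat_lit 0) (XT.nd (nat_lit 78) (nat_lit 760)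 (nat_lit 0) (XT.lf (nat_lit 76) (nat_lit 3258267414) (nat_lit 0) (nat_lit 254702752) (nat_lit 836) (nat_lit 3258267414) (nat_lit 379) (nat_lit 1) (nat_lit 378) (nat_lit 1) (nat_lit 389) (nat_lit 1) (nat_lit 331) (nat_lit 425) (nat_lit 384)) (XT.lf (nat_lit 836) (nat_lit 5601966157) (nat_lit 0) (nat_lit 555642301) (nat_lit 760) (nat_lit 555642301) (nat_lit 379) (nat_lit 1) (nat_lit 368) (nat_lit 1) (nat_lit 378) (nat_lit 1) (nat_lit 332) (nat_lit 425) (nat_lit 383))) (XT.nd (nat_lit 78) (nat_lit 760) (nat_lit 0) (XT.lf (nat_lit 76) (nat_lit 2334115546) (nat_lit 0) (nat_lit 1987442409) (nat_lit 836) (nat_lit 2334115546) (nat_lit 369) (nat_lit 1) (nat_lit 368) (nat_lit 1) (nat_lit 379) (nat_lit 1) (nat_lit 333) (nat_lit 425) (nat_lit 382)) (XT.lf (nat_lit 836) (nat_lit 3739729279) (nat_lit 0) (nat_lit 1429619776) (nat_lit 760) (nat_lit 1429619776) (nat_lit 369) (nat_lit 1) (nat_lit 358) (nat_lit 1) (nat_lit 368) (nat_lit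 1) (nat_lit 334) (nat_lit 425) (nat_lit 381)))) (XT.nd (nat_lit 156) (nat_lit 760) (nat_lit 0) (XT.nd (nat_lit 78) (nat_lit 684) (nat_lit 0) (XT.lf (nat_lit 76) (nat_lit 1402333482) (nat_lit 0) (nat_lit 3738223437) (nat_lit 836) (nat_lit 1402333482) (nat_lit 359) (nat_lit 1) (nat_lit 358) (nat_lit 1) (nat_lit 369) (nat_lit 1) (nat_lit 335) (nat_lit 425) (nat_lit 380)) (XT.lf (nat_lit 760) (nat_lit 1863345630) (nat_lit 0) (nat_lit 2312041845) (nat_lit 684) (nat_lit 2312041845) (nat_lit 359) (nat_lit 1) (nat_lit 349) (nat_lit 1) (nat_lit 358) (nat_lit 1) (nat_lit 336) (nat_lit 425) (nat_lit 379))) (XT.nd (nat_lit 78) (nat_lit 760) (nat_lit 0) (XT.lf (nat_lit 76) (nat_lit 464070769) (nat_lit 0) (nat_lit 5504672213) (nat_lit 760) (nat_lit 464070769) (nat_lit 350) (nat_lit 1) (nat_lit 349) (nat_lit 1) (nat_lit 359) (nat_lit 1) (nat_lit 337) (nat_lit 425) (nat_lit 378)) (XT.lf (nat_lit 76) (nat_lit 3176971335) (nat_lit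 0) (nat_lit 24613070) (nat_lit 760) (nat_lit 3176971335) (nat_lit 340) (nat_lit 1) (nat_lit 339) (nat_lit 1) (nat_lit 349) (nat_lit 1) (nat_lit 338) (nat_lit 425) (nat_lit 377))))))))
noncomputable def ec61 : XT := (XT.nd (nat_lit 2418) (nat_lit 4028) (nat_lit 0) (XT.nd (nat_lit 1170) (nat_lit 4636) (nat_lit 0) (XT.nd (nat_lit 546) (nat_lit 2964) (nat_lit 0) (XT.nd (nat_lit 234) (nat_lit 1292) (nat_lit 0) (XT.nd (nat_lit 78) (nat_lit 684) (nat_lit 0) (XT.lf (nat_lit 760) (nat_lit 5372262821) (nat_lit 0) (nat_lit 476429252) (nat_lit 684) (nat_lit 476429252) (nat_lit 340) (nat_lit 1) (nat_lit 330) (nat_lit 1) (nat_lit 339) (nat_lit 1) (nat_lit 339) (nat_lit 425) (nat_lit 376)) (XT.nd (nat_lit 78) (nat_lit 684) (nat_lit 0) (XT.lf (nat_lit 76) (nat_lit 2187126848) (nat_lit 0) (nat_lit 1897783342) (nat_lit 760) (nat_lit 2187126848) (nat_lit 331) (nat_lit 1) (nat_lit 330) (nat_lit 1) (nat_lit 340) (nat_lit 1) (nat_lit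 340) (nat_lit 425) (nat_lit 375)) (XT.lf (nat_lit 760) (nat_lit 3383327962) (nat_lit 0) (nat_lit 1418210423) (nat_lit 684) (nat_lit 1418210423) (nat_lit 331) (nat_lit 1) (nat_lit 321) (nat_lit 1) (nat_lit 330) (nat_lit 1) (nat_lit 341) (nat_lit 425) (nat_lit 374)))) (XT.nd (nat_lit 156) (nat_lit 684) (nat_lit 0) (XT.nd (nat_lit 78) (nat_lit 608) (nat_lit 0) (XT.lf (nat_lit 76) (nat_lit 1194712999) (nat_lit 0) (nat_lit 3778620502) (nat_lit 760) (nat_lit 1194712999) (nat_lit 322) (nat_lit 1) (nat_lit 321) (nat_lit 1) (nat_lit 331) (nat_lit 1) (nat_lit 342) (nat_lit 425) (nat_lit 373)) (XT.lf (nat_lit 684) (nat_lit 1390152962) (nat_lit 0) (nat_lit 2363358781) (nat_lit 608) (nat_lit 2363358781) (nat_lit 322) (nat_lit 1) (nat_lit 313) (nat_lit 1) (nat_lit 321) (nat_lit 1) (nat_lit 343) (nat_lit 425) (nat_lit 372))) (XT.nd (nat_lit 78) (nat_lit 684) (nat_lit 0) (XT.lf (nat_lit 76) (nat_lit 200633602) (nat_lit 0) (nat_lit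 5665250280) (nat_lit 684) (nat_lit 200633602) (nat_lit 314) (nat_lit 1) (nat_lit 313) (nat_lit 1) (nat_lit 322) (nat_lit 1) (nat_lit 344) (nat_lit 425) (nat_lit 371)) (XT.lf (nat_lit 76) (nat_lit 2709391772) (nat_lit 0) (nat_lit 597558777) (nat_lit 684) (nat_lit 2709391772) (nat_lit 305) (nat_lit 1) (nat_lit 304) (nat_lit 1) (nat_lit 313) (nat_lit 1) (nat_lit 345) (nat_lit 425) (nat_lit 370))))) (XT.nd (nat_lit 312) (nat_lit 1748) (nat_lit 0) (XT.nd (nat_lit 156) (nat_lit 608) (nat_lit 0) (XT.nd (nat_lit 78) (nat_lit 0) (nat_lit 0) (XT.lf (nat_lit 684) (nat_lit 4388905383) (nat_lit 0) (nat_lit 789033003) (nat_lit 608) (nat_lit 789033003) (nat_lit 305) (nat_lit 1) (nat_lit 296) (nat_lit 1) (nat_lit 304) (nat_lit 1) (nat_lit 346) (nat_lit 425) (nat_lit 369)) (XT.lf (nat_lit 76) (nat_lit 1675077655) (nat_lit 0) (nat_lit 2567843290) (nat_lit 684) (nat_lit 1675077655) (nat_lit 297) (nat_lit 1) (nat_lit 296) (nat_lit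 1) (nat_lit 305) (nat_lit 1) (nat_lit 347) (nat_lit 425) (nat_lit 368))) (XT.nd (nat_lit 78) (nat_lit 0) (nat_lit 0) (XT.lf (nat_lit 684) (nat_lit 2314879183) (nat_lit 0) (nat_lit 1777387815) (nat_lit 608) (nat_lit 1777387815) (nat_lit 297) (nat_lit 1) (nat_lit 288) (nat_lit 1) (nat_lit 296) (nat_lit 1) (nat_lit 348) (nat_lit 425) (nat_lit 367)) (XT.lf (nat_lit 76) (nat_lit 642286130) (nat_lit 0) (nat_lit 4537386090) (nat_lit 684) (nat_lit 642286130) (nat_lit 289) (nat_lit 1) (nat_lit 288) (nat_lit 1) (nat_lit 297) (nat_lit 1) (nat_lit 349) (nat_lit 425) (nat_lit 366)))) (XT.nd (nat_lit 156) (nat_lit 532) (nat_lit 0) (XT.nd (nat_lit 78) (nat_lit 684) (nat_lit 0) (XT.lf (nat_lit 608) (nat_lit 244616210) (nat_lit 0) (nat_lit 2764997791) (nat_lit 532) (nat_lit 2764997791) (nat_lit 289) (nat_lit 1) (nat_lit 281) (nat_lit 1) (nat_lit 288) (nat_lit 1) (nat_lit 350) (nat_lit 425) (nat_lit 365)) (XT.lf (nat_lit 684) (nat_lit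 4956499963) (nat_lit 0) (nat_lit 385729758) (nat_lit 608) (nat_lit 385729758) (nat_lit 281) (nat_lit 1) (nat_lit 272) (nat_lit 1) (nat_lit 280) (nat_lit 1) (nat_lit 351) (nat_lit 425) (nat_lit 364))) (XT.nd (nat_lit 78) (nat_lit 532) (nat_lit 0) (XT.lf (nat_lit 76) (nat_lit 1942449681) (nat_lit 0) (nat_lit 1796647794) (nat_lit 684) (nat_lit 1942449681) (nat_lit 273) (nat_lit 1) (nat_lit 272) (nat_lit 1) (nat_lit 281) (nat_lit 1) (nat_lit 352) (nat_lit 425) (nat_lit 363)) (XT.lf (nat_lit 608) (nat_lit 2822490486) (nat_lit 0) (nat_lit 1406661313) (nat_lit 532) (nat_lit 1406661313) (nat_lit 273) (nat_lit 1) (nat_lit 265) (nat_lit 1) (nat_lit 272) (nat_lit 1) (nat_lit 353) (nat_lit 425) (nat_lit 362)))))) (XT.nd (nat_lit 624) (nat_lit 1900) (nat_lit 0) (XT.nd (nat_lit 312) (nat_lit 1596) (nat_lit 0) (XT.nd (nat_lit 156) (nat_lit 608) (nat_lit 0) (XT.nd (nat_lit 78) (nat_lit 532) (nat_lit 0) (XT.lf (nat_lit 76) (nat_lit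 881110583) (nat_lit 0) (nat_lit 3828388140) (nat_lit 608) (nat_lit 881110583) (nat_lit 266) (nat_lit 1) (nat_lit 265) (nat_lit 1) (nat_lit 273) (nat_lit 1) (nat_lit 354) (nat_lit 425) (nat_lit 361)) (XT.lf (nat_lit 608) (nat_lit 697554679) (nat_lit 0) (nat_lit 2424121657) (nat_lit 532) (nat_lit 2424121657) (nat_lit 266) (nat_lit 1) (nat_lit 258) (nat_lit 1) (nat_lit 265) (nat_lit 1) (nat_lit 355) (nat_lit 425) (nat_lit 360))) (XT.nd (nat_lit 78) (nat_lit 0) (nat_lit 0) (XT.lf (nat_lit 608) (nat_lit 5153136023) (nat_lit 0) (nat_lit 174273651) (nat_lit 532) (nat_lit 174273651) (nat_lit 258) (nat_lit 1) (nat_lit 250) (nat_lit 1) (nat_lit 257) (nat_lit 1) (nat_lit 356) (nat_lit 425) (nat_lit 359)) (XT.lf (nat_lit 76) (nat_lit 2029524905) (nat_lit 0) (nat_lit 1398625886) (nat_lit 608) (nat_lit 2029524905) (nat_lit 251) (nat_lit 1) (nat_lit 250) (nat_lit 1) (nat_lit 258) (nat_lit 1) (nat_lit 357) (nat_lit 425) (nat_lit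 358)))) (XT.nd (nat_lit 156) (nat_lit 1064) (nat_lit 0) (XT.nd (nat_lit 78) (nat_lit 0) (nat_lit 0) (XT.lf (nat_lit 608) (nat_lit 2977214783) (nat_lit 0) (nat_lit 1218567879) (nat_lit 532) (nat_lit 1218567879) (nat_lit 251) (nat_lit 1) (nat_lit 243) (nat_lit 1) (nat_lit 250) (nat_lit 1) (nat_lit 358) (nat_lit 425) (nat_lit 357)) (XT.lf (nat_lit 76) (nat_lit 948437776) (nat_lit 0) (nat_lit 3474612746) (nat_lit 608) (nat_lit 948437776) (nat_lit 244) (nat_lit 1) (nat_lit 243) (nat_lit 1) (nat_lit 251) (nat_lit 1) (nat_lit 359) (nat_lit 425) (nat_lit 356))) (XT.nd (nat_lit 78) (nat_lit 608) (nat_lit 0) (XT.lf (nat_lit 532) (nat_lit 814860150) (nat_lit 0) (nat_lit 2257079060) (nat_lit 456) (nat_lit 2257079060) (nat_lit 244) (nat_lit 1) (nat_lit 237) (nat_lit 1) (nat_lit 243) (nat_lit 1) (nat_lit 360) (nat_lit 425) (nat_lit 355)) (XT.lf (nat_lit 608) (nat_lit 5037527518) (nat_lit 0) (nat_lit 124841082) (nat_lit 532)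 (nat_lit 124841082) (nat_lit 237) (nat_lit 1) (nat_lit 229) (nat_lit 1) (nat_lit 236) (nat_lit 1) (nat_lit 361) (nat_lit 425) (nat_lit 354))))) (XT.nd (nat_lit 312) (nat_lit 988) (nat_lit 0) (XT.nd (nat_lit 156) (nat_lit 456) (nat_lit 0) (XT.nd (nat_lit 78) (nat_lit 456) (nat_lit 0) (XT.lf (nat_lit 76) (nat_lit 1964941205) (nat_lit 0) (nat_lit 1315580583) (nat_lit 608) (nat_lit 1964941205) (nat_lit 230) (nat_lit 1) (nat_lit 229) (nat_lit 1) (nat_lit 237) (nat_lit 1) (nat_lit 362) (nat_lit 425) (nat_lit 353)) (XT.lf (nat_lit 532) (nat_lit 2835300700) (nat_lit 0) (nat_lit 1184532229) (nat_lit 456) (nat_lit 1184532229) (nat_lit 230) (nat_lit 1) (nat_lit 223) (nat_lit 1) (nat_lit 229) (nat_lit 1) (nat_lit 363) (nat_lit 425) (nat_lit 352))) (XT.nd (nat_lit 78) (nat_lit 456) (nat_lit 0) (XT.lf (nat_lit 76) (nat_lit 871702275) (nat_lit 0) (nat_lit 3420300442) (nat_lit 532) (nat_lit 871702275) (nat_lit 224) (nat_lit 1)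 (nat_lit 223) (nat_lit 1) (nat_lit 230) (nat_lit 1) (nat_lit 364) (nat_lit 425) (nat_lit 351)) (XT.lf (nat_lit 532) (nat_lit 650416151) (nat_lit 0) (nat_lit 2236492358) (nat_lit 456) (nat_lit 2236492358) (nat_lit 224) (nat_lit 1) (nat_lit 217) (nat_lit 1) (nat_lit 223) (nat_lit 1) (nat_lit 365) (nat_lit 425) (nat_lit 350)))) (XT.nd (nat_lit 156) (nat_lit 456) (nat_lit 0) (XT.nd (nat_lit 78) (nat_lit 0) (nat_lit 0) (XT.lf (nat_lit 532) (nat_lit 4661042208) (nat_lit 0) (nat_lit 211324745) (nat_lit 456) (nat_lit 211324745) (nat_lit 217) (nat_lit 1) (nat_lit 210) (nat_lit 1) (nat_lit 216) (nat_lit 1) (nat_lit 366) (nat_lit 425) (nat_lit 349)) (XT.lf (nat_lit 76) (nat_lit 1773749471) (nat_lit 0) (nat_lit 1496574143) (nat_lit 532) (nat_lit 1773749471) (nat_lit 211) (nat_lit 1) (nat_lit 210) (nat_lit 1) (nat_lit 217) (nat_lit 1) (nat_lit 367) (nat_lit 425) (nat_lit 348))) (XT.nd (nat_lit 78) (nat_lit 0) (nat_lit 0) (XT.lf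 (nat_lit 532) (nat_lit 2445943977) (nat_lit 0) (nat_lit 1279547138) (nat_lit 456) (nat_lit 1279547138) (nat_lit 211) (nat_lit 1) (nat_lit 204) (nat_lit 1) (nat_lit 210) (nat_lit 1) (nat_lit 368) (nat_lit 425) (nat_lit 347)) (XT.lf (nat_lit 76) (nat_lit 674894912) (nat_lit 0) (nat_lit 3616661372) (nat_lit 532) (nat_lit 674894912) (nat_lit 205) (nat_lit 1) (nat_lit 204) (nat_lit 1) (nat_lit 211) (nat_lit 1) (nat_lit 369) (nat_lit 425) (nat_lit 346))))))) (XT.nd (nat_lit 56550) (nat_lit 0) (nat_lit 9196) (XT.nd (nat_lit 546) (nat_lit 1900) (nat_lit 0) (XT.nd (nat_lit 234) (nat_lit 1216) (nat_lit 0) (XT.nd (nat_lit 78) (nat_lit 532) (nat_lit 0) (XT.lf (nat_lit 456) (nat_lit 251335064) (nat_lit 0) (nat_lit 2338409568) (nat_lit 380) (nat_lit 2338409568) (nat_lit 205) (nat_lit 1) (nat_lit 199) (nat_lit 1) (nat_lit 204) (nat_lit 1) (nat_lit 370) (nat_lit 425) (nat_lit 345)) (XT.nd (nat_lit 78) (nat_lit 0) (nat_lit 0) (XT.lf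 (nat_lit 532) (nat_lit 4068556500) (nat_lit 0) (nat_lit 410901715) (nat_lit 456) (nat_lit 410901715) (nat_lit 199) (nat_lit 1) (nat_lit 192) (nat_lit 1) (nat_lit 198) (nat_lit 1) (nat_lit 371) (nat_lit 425) (nat_lit 344)) (XT.lf (nat_lit 76) (nat_lit 1477831160) (nat_lit 0) (nat_lit 1897084090) (nat_lit 532) (nat_lit 1477831160) (nat_lit 193) (nat_lit 1) (nat_lit 192) (nat_lit 1) (nat_lit 199) (nat_lit 1) (nat_lit 372) (nat_lit 425) (nat_lit 343)))) (XT.nd (nat_lit 156) (nat_lit 836) (nat_lit 0) (XT.nd (nat_lit 78) (nat_lit 0) (nat_lit 0) (XT.lf (nat_lit 456) (nat_lit 1852108779) (nat_lit 0) (nat_lit 1481758454) (nat_lit 380) (nat_lit 1481758454) (nat_lit 193) (nat_lit 1) (nat_lit 187) (nat_lit 1) (nat_lit 192) (nat_lit 1) (nat_lit 373) (nat_lit 425) (nat_lit 342)) (XT.lf (nat_lit 76) (nat_lit 378963960) (nat_lit 0) (nat_lit 4021064400) (nat_lit 456) (nat_lit 378963960) (nat_lit 188) (nat_lit 1) (nat_lit 187) (nat_lit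 1) (nat_lit 193) (nat_lit 1) (nat_lit 374) (nat_lit 425) (nat_lit 341))) (XT.nd (nat_lit 78) (nat_lit 380) (nat_lit 0) (XT.lf (nat_lit 76) (nat_lit 2202868521) (nat_lit 0) (nat_lit 336777188) (nat_lit 456) (nat_lit 2202868521) (nat_lit 182) (nat_lit 1) (nat_lit 181) (nat_lit 1) (nat_lit 187) (nat_lit 1) (nat_lit 375) (nat_lit 425) (nat_lit 340)) (XT.lf (nat_lit 456) (nat_lit 3299213233) (nat_lit 0) (nat_lit 703650546) (nat_lit 380) (nat_lit 703650546) (nat_lit 182) (nat_lit 1) (nat_lit 176) (nat_lit 1) (nat_lit 181) (nat_lit 1) (nat_lit 376) (nat_lit 425) (nat_lit 339))))) (XT.nd (nat_lit 312) (nat_lit 1140) (nat_lit 0) (XT.nd (nat_lit 156) (nat_lit 380) (nat_lit 0) (XT.nd (nat_lit 78) (nat_lit 380) (nat_lit 0) (XT.lf (nat_lit 76) (nat_lit 1096268437) (nat_lit 0) (nat_lit 2478255012) (nat_lit 456) (nat_lit 1096268437) (nat_lit 177) (nat_lit 1) (nat_lit 176) (nat_lit 1) (nat_lit 182) (nat_lit 1) (nat_lit 377) (nat_lit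 425) (nat_lit 338)) (XT.lf (nat_lit 456) (nat_lit 1091255744) (nat_lit 0) (nat_lit 1772097226) (nat_lit 380) (nat_lit 1772097226) (nat_lit 177) (nat_lit 1) (nat_lit 171) (nat_lit 1) (nat_lit 176) (nat_lit 1) (nat_lit 378) (nat_lit 425) (nat_lit 337))) (XT.nd (nat_lit 78) (nat_lit 380) (nat_lit 0) (XT.lf (nat_lit 76) (nat_lit 2170751) (nat_lit 0) (nat_lit 4596318275) (nat_lit 456) (nat_lit 2170751) (nat_lit 172) (nat_lit 1) (nat_lit 171) (nat_lit 1) (nat_lit 177) (nat_lit 1) (nat_lit 379) (nat_lit 425) (nat_lit 336)) (XT.lf (nat_lit 76) (nat_lit 1744316225) (nat_lit 0) (nat_lit 1077184418) (nat_lit 380) (nat_lit 1744316225) (nat_lit 167) (nat_lit 1) (nat_lit 166) (nat_lit 1) (nat_lit 171) (nat_lit 1) (nat_lit 380) (nat_lit 425) (nat_lit 335)))) (XT.nd (nat_lit 156) (nat_lit 760) (nat_lit 0) (XT.nd (nat_lit 78) (nat_lit 0) (nat_lit 0) (XT.lf (nat_lit 456) (nat_lit 2387093359) (nat_lit 0) (nat_lit 1072211864) (nat_lit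 380) (nat_lit 1072211864) (nat_lit 167) (nat_lit 1) (nat_lit 161) (nat_lit 1) (nat_lit 166) (nat_lit 1) (nat_lit 381) (nat_lit 425) (nat_lit 334)) (XT.lf (nat_lit 76) (nat_lit 645672254) (nat_lit 0) (nat_lit 3206235373) (nat_lit 456) (nat_lit 645672254) (nat_lit 162) (nat_lit 1) (nat_lit 161) (nat_lit 1) (nat_lit 167) (nat_lit 1) (nat_lit 382) (nat_lit 425) (nat_lit 333))) (XT.nd (nat_lit 78) (nat_lit 456) (nat_lit 0) (XT.lf (nat_lit 380) (nat_lit 195987274) (nat_lit 0) (nat_lit 2133953616) (nat_lit 304) (nat_lit 2133953616) (nat_lit 162) (nat_lit 1) (nat_lit 157) (nat_lit 1) (nat_lit 161) (nat_lit 1) (nat_lit 383) (nat_lit 425) (nat_lit 332)) (XT.lf (nat_lit 456) (nat_lit 3557208938) (nat_lit 0) (nat_lit 436703073) (nat_lit 380) (nat_lit 436703073) (nat_lit 157) (nat_lit 1) (nat_lit 151) (nat_lit 1) (nat_lit 156) (nat_lit 1) (nat_lit 384) (nat_lit 425) (nat_lit 331)))))) (XT.nd (nat_lit 624) (nat_lit 3116) (nat_lit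 0) (XT.nd (nat_lit 312) (nat_lit 1292) (nat_lit 0) (XT.nd (nat_lit 156) (nat_lit 1444) (nat_lit 0) (XT.nd (nat_lit 78) (nat_lit 0) (nat_lit 0) (XT.lf (nat_lit 760) (nat_lit 1900612542) (nat_lit 0) (nat_lit 2358282682) (nat_lit 684) (nat_lit 2358282682) (nat_lit 359) (nat_lit 1) (nat_lit 349) (nat_lit 1) (nat_lit 358) (nat_lit 1) (nat_lit 334) (nat_lit 426) (nat_lit 380)) (XT.lf (nat_lit 76) (nat_lit 473352185) (nat_lit 0) (nat_lit 5614765657) (nat_lit 760) (nat_lit 473352185) (nat_lit 350) (nat_lit 1) (nat_lit 349) (nat_lit 1) (nat_lit 359) (nat_lit 1) (nat_lit 335) (nat_lit 426) (nat_lit 379))) (XT.nd (nat_lit 78) (nat_lit 684) (nat_lit 0) (XT.lf (nat_lit 76) (nat_lit 3240510762) (nat_lit 0) (nat_lit 25105331) (nat_lit 760) (nat_lit 3240510762) (nat_lit 340) (nat_lit 1) (nat_lit 339) (nat_lit 1) (nat_lit 349) (nat_lit 1) (nat_lit 336) (nat_lit 426) (nat_lit 378)) (XT.lf (nat_lit 760) (nat_lit 5479708078) (nat_lit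 0) (nat_lit 485957837) (nat_lit 684) (nat_lit 485957837) (nat_lit 340) (nat_lit 1) (nat_lit 330) (nat_lit 1) (nat_lit 339) (nat_lit 1) (nat_lit 337) (nat_lit 426) (nat_lit 377)))) (XT.nd (nat_lit 156) (nat_lit 608) (nat_lit 0) (XT.nd (nat_lit 78) (nat_lit 684) (nat_lit 0) (XT.lf (nat_lit 76) (nat_lit 2230869385) (nat_lit 0) (nat_lit 1935739009) (nat_lit 760) (nat_lit 2230869385) (nat_lit 331) (nat_lit 1) (nat_lit 330) (nat_lit 1) (nat_lit 340) (nat_lit 1) (nat_lit 338) (nat_lit 426) (nat_lit 376)) (XT.lf (nat_lit 760) (nat_lit 3450994521) (nat_lit 0) (nat_lit 1446574631) (nat_lit 684) (nat_lit 1446574631) (nat_lit 331) (nat_lit 1) (nat_lit 321) (nat_lit 1) (nat_lit 330) (nat_lit 1) (nat_lit 339) (nat_lit 426) (nat_lit 375))) (XT.nd (nat_lit 78) (nat_lit 608) (nat_lit 0) (XT.lf (nat_lit 76) (nat_lit 1218607259) (nat_lit 0) (nat_lit 3854192912) (nat_lit 760) (nat_lit 1218607259) (nat_lit 322) (nat_lit 1) (nat_lit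 321) (nat_lit 1) (nat_lit 331) (nat_lit 1) (nat_lit 340) (nat_lit 426) (nat_lit 374)) (XT.lf (nat_lit 684) (nat_lit 1417956022) (nat_lit 0) (nat_lit 2410625957) (nat_lit 608) (nat_lit 2410625957) (nat_lit 322) (nat_lit 1) (nat_lit 313) (nat_lit 1) (nat_lit 321) (nat_lit 1) (nat_lit 341) (nat_lit 426) (nat_lit 373))))) (XT.nd (nat_lit 312) (nat_lit 1824) (nat_lit 0) (XT.nd (nat_lit 156) (nat_lit 608) (nat_lit 0) (XT.nd (nat_lit 78) (nat_lit 684) (nat_lit 0) (XT.lf (nat_lit 76) (nat_lit 204646274) (nat_lit 0) (nat_lit 5778555286) (nat_lit 684) (nat_lit 204646274) (nat_lit 314) (nat_lit 1) (nat_lit 313) (nat_lit 1) (nat_lit 322) (nat_lit 1) (nat_lit 342) (nat_lit 426) (nat_lit 372)) (XT.lf (nat_lit 76) (nat_lit 2763579608) (nat_lit 0) (nat_lit 609509952) (nat_lit 684) (nat_lit 2763579608) (nat_lit 305) (nat_lit 1) (nat_lit 304) (nat_lit 1) (nat_lit 313) (nat_lit 1) (nat_lit 343) (nat_lit 426) (nat_lit 371))) (XT.nd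 (nat_lit 78) (nat_lit 0) (nat_lit 0) (XT.lf (nat_lit 684) (nat_lit 4476683490) (nat_lit 0) (nat_lit 804813663) (nat_lit 608) (nat_lit 804813663) (nat_lit 305) (nat_lit 1) (nat_lit 296) (nat_lit 1) (nat_lit 304) (nat_lit 1) (nat_lit 344) (nat_lit 426) (nat_lit 370)) (XT.lf (nat_lit 76) (nat_lit 1708579209) (nat_lit 0) (nat_lit 2619200155) (nat_lit 684) (nat_lit 1708579209) (nat_lit 297) (nat_lit 1) (nat_lit 296) (nat_lit 1) (nat_lit 305) (nat_lit 1) (nat_lit 345) (nat_lit 426) (nat_lit 369)))) (XT.nd (nat_lit 156) (nat_lit 1216) (nat_lit 0) (XT.nd (nat_lit 78) (nat_lit 0) (nat_lit 0) (XT.lf (nat_lit 684) (nat_lit 2361176766) (nat_lit 0) (nat_lit 1812935572) (nat_lit 608) (nat_lit 1812935572) (nat_lit 297) (nat_lit 1) (nat_lit 288) (nat_lit 1) (nat_lit 296) (nat_lit 1) (nat_lit 346) (nat_lit 426) (nat_lit 368)) (XT.lf (nat_lit 76) (nat_lit 655131852) (nat_lit 0) (nat_lit 4628133812) (nat_lit 684) (nat_lit 655131852)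 (nat_lit 289) (nat_lit 1) (nat_lit 288) (nat_lit 1) (nat_lit 297) (nat_lit 1) (nat_lit 347) (nat_lit 426) (nat_lit 367))) (XT.nd (nat_lit 78) (nat_lit 684) (nat_lit 0) (XT.lf (nat_lit 608) (nat_lit 249508534) (nat_lit 0) (nat_lit 2820297747) (nat_lit 532) (nat_lit 2820297747) (nat_lit 289) (nat_lit 1) (nat_lit 281) (nat_lit 1) (nat_lit 288) (nat_lit 1) (nat_lit 348) (nat_lit 426) (nat_lit 366)) (XT.lf (nat_lit 684) (nat_lit 5055629962) (nat_lit 0) (nat_lit 393444353) (nat_lit 608) (nat_lit 393444353) (nat_lit 281) (nat_lit 1) (nat_lit 272) (nat_lit 1) (nat_lit 280) (nat_lit 1) (nat_lit 349) (nat_lit 426) (nat_lit 365))))))))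
noncomputable def ec62 : XT := (XT.nd (nat_lit 58344) (nat_lit 0) (nat_lit 2356) (XT.nd (nat_lit 1170) (nat_lit 3724) (nat_lit 0) (XT.nd (nat_lit 546) (nat_lit 2508) (nat_lit 0) (XT.nd (nat_lit 234) (nat_lit 1672) (nat_lit 0) (XT.nd (nat_lit 78) (nat_lit 532) (nat_lit 0) (XT.lf (nat_lit 76) (nat_lit 1981298674) (nat_lit 0) (nat_lit 1832580750) (nat_lit 684) (nat_lit 1981298674) (nat_lit 273) (nat_lit 1) (nat_lit 272) (nat_lit 1) (nat_lit 281) (nat_lit 1) (nat_lit 350) (nat_lit 426) (nat_lit 364)) (XT.nd (nat_lit 78) (nat_lit 0) (nat_lit 0) (XT.lf (nat_lit 608) (nat_lit 2878940296) (nat_lit 0) (nat_lit 1434794540) (nat_lit 532) (nat_lit 1434794540) (nat_lit 273) (nat_lit 1) (nat_lit 265) (nat_lit 1) (nat_lit 272) (nat_lit 1) (nat_lit 351) (nat_lit 426) (nat_lit 363)) (XT.lf (nat_lit 76) (nat_lit 898732795) (nat_lit 0) (nat_lit 3904955903) (nat_lit 608) (nat_lit 898732795) (nat_lit 266) (nat_lit 1) (nat_lit 265)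 (nat_lit 1) (nat_lit 273) (nat_lit 1) (nat_lit 352) (nat_lit 426) (nat_lit 362)))) (XT.nd (nat_lit 156) (nat_lit 532) (nat_lit 0) (XT.nd (nat_lit 78) (nat_lit 608) (nat_lit 0) (XT.lf (nat_lit 608) (nat_lit 711505772) (nat_lit 0) (nat_lit 2472604090) (nat_lit 532) (nat_lit 2472604090) (nat_lit 266) (nat_lit 1) (nat_lit 258) (nat_lit 1) (nat_lit 265) (nat_lit 1) (nat_lit 353) (nat_lit 426) (nat_lit 361)) (XT.lf (nat_lit 608) (nat_lit 5256198744) (nat_lit 0) (nat_lit 177759124) (nat_lit 532) (nat_lit 177759124) (nat_lit 258) (nat_lit 1) (nat_lit 250) (nat_lit 1) (nat_lit 257) (nat_lit 1) (nat_lit 354) (nat_lit 426) (nat_lit 360))) (XT.nd (nat_lit 78) (nat_lit 532) (nat_lit 0) (XT.lf (nat_lit 76) (nat_lit 2070115403) (nat_lit 0) (nat_lit 1426598404) (nat_lit 608) (nat_lit 2070115403) (nat_lit 251) (nat_lit 1) (nat_lit 250) (nat_lit 1) (nat_lit 258) (nat_lit 1) (nat_lit 355) (nat_lit 426) (nat_lit 359)) (XT.lf (nat_lit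 608) (nat_lit 3036759079) (nat_lit 0) (nat_lit 1242939237) (nat_lit 532) (nat_lit 1242939237) (nat_lit 251) (nat_lit 1) (nat_lit 243) (nat_lit 1) (nat_lit 250) (nat_lit 1) (nat_lit 356) (nat_lit 426) (nat_lit 358))))) (XT.nd (nat_lit 312) (nat_lit 1444) (nat_lit 0) (XT.nd (nat_lit 156) (nat_lit 608) (nat_lit 0) (XT.nd (nat_lit 78) (nat_lit 456) (nat_lit 0) (XT.lf (nat_lit 76) (nat_lit 967406532) (nat_lit 0) (nat_lit 3544105001) (nat_lit 608) (nat_lit 967406532) (nat_lit 244) (nat_lit 1) (nat_lit 243) (nat_lit 1) (nat_lit 251) (nat_lit 1) (nat_lit 357) (nat_lit 426) (nat_lit 357)) (XT.lf (nat_lit 532) (nat_lit 831157353) (nat_lit 0) (nat_lit 2302220641) (nat_lit 456) (nat_lit 2302220641) (nat_lit 244) (nat_lit 1) (nat_lit 237) (nat_lit 1) (nat_lit 243) (nat_lit 1) (nat_lit 358) (nat_lit 426) (nat_lit 356))) (XT.nd (nat_lit 78) (nat_lit 0) (nat_lit 0) (XT.lf (nat_lit 608) (nat_lit 5138278068) (nat_lit 0) (nat_lit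 127337904) (nat_lit 532) (nat_lit 127337904) (nat_lit 237) (nat_lit 1) (nat_lit 229) (nat_lit 1) (nat_lit 236) (nat_lit 1) (nat_lit 359) (nat_lit 426) (nat_lit 355)) (XT.lf (nat_lit 76) (nat_lit 2004240029) (nat_lit 0) (nat_lit 1341892194) (nat_lit 608) (nat_lit 2004240029) (nat_lit 230) (nat_lit 1) (nat_lit 229) (nat_lit 1) (nat_lit 237) (nat_lit 1) (nat_lit 360) (nat_lit 426) (nat_lit 354)))) (XT.nd (nat_lit 156) (nat_lit 988) (nat_lit 0) (XT.nd (nat_lit 78) (nat_lit 0) (nat_lit 0) (XT.lf (nat_lit 532) (nat_lit 2892006714) (nat_lit 0) (nat_lit 1208222874) (nat_lit 456) (nat_lit 1208222874) (nat_lit 230) (nat_lit 1) (nat_lit 223) (nat_lit 1) (nat_lit 229) (nat_lit 1) (nat_lit 361) (nat_lit 426) (nat_lit 353)) (XT.lf (nat_lit 76) (nat_lit 889136320) (nat_lit 0) (nat_lit 3488706451) (nat_lit 532) (nat_lit 889136320) (nat_lit 224) (nat_lit 1) (nat_lit 223) (nat_lit 1) (nat_lit 230) (nat_lit 1) (nat_lit 362) (nat_lit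 426) (nat_lit 352))) (XT.nd (nat_lit 78) (nat_lit 532) (nat_lit 0) (XT.lf (nat_lit 532) (nat_lit 663424474) (nat_lit 0) (nat_lit 2281222205) (nat_lit 456) (nat_lit 2281222205) (nat_lit 224) (nat_lit 1) (nat_lit 217) (nat_lit 1) (nat_lit 223) (nat_lit 1) (nat_lit 363) (nat_lit 426) (nat_lit 351)) (XT.lf (nat_lit 532) (nat_lit 4754263052) (nat_lit 0) (nat_lit 215551240) (nat_lit 456) (nat_lit 215551240) (nat_lit 217) (nat_lit 1) (nat_lit 210) (nat_lit 1) (nat_lit 216) (nat_lit 1) (nat_lit 364) (nat_lit 426) (nat_lit 350)))))) (XT.nd (nat_lit 624) (nat_lit 1976) (nat_lit 0) (XT.nd (nat_lit 312) (nat_lit 912) (nat_lit 0) (XT.nd (nat_lit 156) (nat_lit 380) (nat_lit 0) (XT.nd (nat_lit 78) (nat_lit 456) (nat_lit 0) (XT.lf (nat_lit 76) (nat_lit 1809224461) (nat_lit 0) (nat_lit 1526505626) (nat_lit 532) (nat_lit 1809224461) (nat_lit 211) (nat_lit 1) (nat_lit 210) (nat_lit 1) (nat_lit 217) (nat_lit 1) (nat_lit 365) (nat_lit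 426) (nat_lit 349)) (XT.lf (nat_lit 532) (nat_lit 2494862857) (nat_lit 0) (nat_lit 1305138081) (nat_lit 456) (nat_lit 1305138081) (nat_lit 211) (nat_lit 1) (nat_lit 204) (nat_lit 1) (nat_lit 210) (nat_lit 1) (nat_lit 366) (nat_lit 426) (nat_lit 348))) (XT.nd (nat_lit 78) (nat_lit 380) (nat_lit 0) (XT.lf (nat_lit 76) (nat_lit 688392810) (nat_lit 0) (nat_lit 3688994599) (nat_lit 532) (nat_lit 688392810) (nat_lit 205) (nat_lit 1) (nat_lit 204) (nat_lit 1) (nat_lit 211) (nat_lit 1) (nat_lit 367) (nat_lit 426) (nat_lit 347)) (XT.lf (nat_lit 456) (nat_lit 256361765) (nat_lit 0) (nat_lit 2385177760) (nat_lit 380) (nat_lit 2385177760) (nat_lit 205) (nat_lit 1) (nat_lit 199) (nat_lit 1) (nat_lit 204) (nat_lit 1) (nat_lit 368) (nat_lit 426) (nat_lit 346)))) (XT.nd (nat_lit 156) (nat_lit 380) (nat_lit 0) (XT.nd (nat_lit 78) (nat_lit 0) (nat_lit 0) (XT.lf (nat_lit 532) (nat_lit 4149927630) (nat_lit 0) (nat_lit 419119749) (nat_lit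 456) (nat_lit 419119749) (nat_lit 199) (nat_lit 1) (nat_lit 192) (nat_lit 1) (nat_lit 198) (nat_lit 1) (nat_lit 369) (nat_lit 426) (nat_lit 345)) (XT.lf (nat_lit 76) (nat_lit 1507387783) (nat_lit 0) (nat_lit 1935025771) (nat_lit 532) (nat_lit 1507387783) (nat_lit 193) (nat_lit 1) (nat_lit 192) (nat_lit 1) (nat_lit 199) (nat_lit 1) (nat_lit 370) (nat_lit 426) (nat_lit 344))) (XT.nd (nat_lit 78) (nat_lit 0) (nat_lit 0) (XT.lf (nat_lit 456) (nat_lit 1889150954) (nat_lit 0) (nat_lit 1511393624) (nat_lit 380) (nat_lit 1511393624) (nat_lit 193) (nat_lit 1) (nat_lit 187) (nat_lit 1) (nat_lit 192) (nat_lit 1) (nat_lit 371) (nat_lit 426) (nat_lit 343)) (XT.lf (nat_lit 76) (nat_lit 386543240) (nat_lit 0) (nat_lit 4101485688) (nat_lit 456) (nat_lit 386543240) (nat_lit 188) (nat_lit 1) (nat_lit 187) (nat_lit 1) (nat_lit 193) (nat_lit 1) (nat_lit 372) (nat_lit 426) (nat_lit 342))))) (XT.nd (nat_lit 312) (nat_lit 760) (nat_lit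 0) (XT.nd (nat_lit 156) (nat_lit 380) (nat_lit 0) (XT.nd (nat_lit 78) (nat_lit 380) (nat_lit 0) (XT.lf (nat_lit 76) (nat_lit 2246925891) (nat_lit 0) (nat_lit 343512732) (nat_lit 456) (nat_lit 2246925891) (nat_lit 182) (nat_lit 1) (nat_lit 181) (nat_lit 1) (nat_lit 187) (nat_lit 1) (nat_lit 373) (nat_lit 426) (nat_lit 341)) (XT.lf (nat_lit 456) (nat_lit 3365197498) (nat_lit 0) (nat_lit 717723557) (nat_lit 380) (nat_lit 717723557) (nat_lit 182) (nat_lit 1) (nat_lit 176) (nat_lit 1) (nat_lit 181) (nat_lit 1) (nat_lit 374) (nat_lit 426) (nat_lit 340))) (XT.nd (nat_lit 78) (nat_lit 380) (nat_lit 0) (XT.lf (nat_lit 76) (nat_lit 1118193806) (nat_lit 0) (nat_lit 2527820112) (nat_lit 456) (nat_lit 1118193806) (nat_lit 177) (nat_lit 1) (nat_lit 176) (nat_lit 1) (nat_lit 182) (nat_lit 1) (nat_lit 375) (nat_lit 426) (nat_lit 339)) (XT.lf (nat_lit 456) (nat_lit 1113080859) (nat_lit 0) (nat_lit 1807539170) (nat_lit 380) (nat_lit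 1807539170) (nat_lit 177) (nat_lit 1) (nat_lit 171) (nat_lit 1) (nat_lit 176) (nat_lit 1) (nat_lit 376) (nat_lit 426) (nat_lit 338)))) (XT.nd (nat_lit 156) (nat_lit 380) (nat_lit 0) (XT.nd (nat_lit 78) (nat_lit 380) (nat_lit 0) (XT.lf (nat_lit 76) (nat_lit 2214166) (nat_lit 0) (nat_lit 4688244640) (nat_lit 456) (nat_lit 2214166) (nat_lit 172) (nat_lit 1) (nat_lit 171) (nat_lit 1) (nat_lit 177) (nat_lit 1) (nat_lit 377) (nat_lit 426) (nat_lit 337)) (XT.lf (nat_lit 76) (nat_lit 1779202549) (nat_lit 0) (nat_lit 1098728106) (nat_lit 380) (nat_lit 1779202549) (nat_lit 167) (nat_lit 1) (nat_lit 166) (nat_lit 1) (nat_lit 171) (nat_lit 1) (nat_lit 378) (nat_lit 426) (nat_lit 336))) (XT.nd (nat_lit 78) (nat_lit 0) (nat_lit 0) (XT.lf (nat_lit 456) (nat_lit 2434835226) (nat_lit 0) (nat_lit 1093656102) (nat_lit 380) (nat_lit 1093656102) (nat_lit 167) (nat_lit 1) (nat_lit 161) (nat_lit 1) (nat_lit 166) (nat_lit 1) (nat_lit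 379) (nat_lit 426) (nat_lit 335)) (XT.lf (nat_lit 76) (nat_lit 658585699) (nat_lit 0) (nat_lit 3270360080) (nat_lit 456) (nat_lit 658585699) (nat_lit 162) (nat_lit 1) (nat_lit 161) (nat_lit 1) (nat_lit 167) (nat_lit 1) (nat_lit 380) (nat_lit 426) (nat_lit 334))))))) (XT.nd (nat_lit 1170) (nat_lit 5016) (nat_lit 0) (XT.nd (nat_lit 546) (nat_lit 2888) (nat_lit 0) (XT.nd (nat_lit 234) (nat_lit 1292) (nat_lit 0) (XT.nd (nat_lit 78) (nat_lit 608) (nat_lit 0) (XT.lf (nat_lit 760) (nat_lit 3520014412) (nat_lit 0) (nat_lit 1475506124) (nat_lit 684) (nat_lit 1475506124) (nat_lit 331) (nat_lit 1) (nat_lit 321) (nat_lit 1) (nat_lit 330) (nat_lit 1) (nat_lit 337) (nat_lit 427) (nat_lit 376)) (XT.nd (nat_lit 78) (nat_lit 608) (nat_lit 0) (XT.lf (nat_lit 76) (nat_lit 1242979404) (nat_lit 0) (nat_lit 3931276771) (nat_lit 760) (nat_lit 1242979404) (nat_lit 322) (nat_lit 1) (nat_lit 321) (nat_lit 1) (nat_lit 331) (nat_lit 1) (nat_lit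 338) (nat_lit 427) (nat_lit 375)) (XT.lf (nat_lit 684) (nat_lit 1446315142) (nat_lit 0) (nat_lit 2458838476) (nat_lit 608) (nat_lit 2458838476) (nat_lit 322) (nat_lit 1) (nat_lit 313) (nat_lit 1) (nat_lit 321) (nat_lit 1) (nat_lit 339) (nat_lit 427) (nat_lit 374)))) (XT.nd (nat_lit 156) (nat_lit 608) (nat_lit 0) (XT.nd (nat_lit 78) (nat_lit 684) (nat_lit 0) (XT.lf (nat_lit 76) (nat_lit 208739200) (nat_lit 0) (nat_lit 5894126392) (nat_lit 684) (nat_lit 208739200) (nat_lit 314) (nat_lit 1) (nat_lit 313) (nat_lit 1) (nat_lit 322) (nat_lit 1) (nat_lit 340) (nat_lit 427) (nat_lit 373)) (XT.lf (nat_lit 76) (nat_lit 2818851200) (nat_lit 0) (nat_lit 621700151) (nat_lit 684) (nat_lit 2818851200) (nat_lit 305) (nat_lit 1) (nat_lit 304) (nat_lit 1) (nat_lit 313) (nat_lit 1) (nat_lit 341) (nat_lit 427) (nat_lit 372))) (XT.nd (nat_lit 78) (nat_lit 0) (nat_lit 0) (XT.lf (nat_lit 684) (nat_lit 4566217160) (nat_lit 0) (nat_lit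 820909936) (nat_lit 608) (nat_lit 820909936) (nat_lit 305) (nat_lit 1) (nat_lit 296) (nat_lit 1) (nat_lit 304) (nat_lit 1) (nat_lit 342) (nat_lit 427) (nat_lit 371)) (XT.lf (nat_lit 76) (nat_lit 1742750793) (nat_lit 0) (nat_lit 2671584158) (nat_lit 684) (nat_lit 1742750793) (nat_lit 297) (nat_lit 1) (nat_lit 296) (nat_lit 1) (nat_lit 305) (nat_lit 1) (nat_lit 343) (nat_lit 427) (nat_lit 370))))) (XT.nd (nat_lit 312) (nat_lit 1064) (nat_lit 0) (XT.nd (nat_lit 156) (nat_lit 1216) (nat_lit 0) (XT.nd (nat_lit 78) (nat_lit 0) (nat_lit 0) (XT.lf (nat_lit 684) (nat_lit 2408400302) (nat_lit 0) (nat_lit 1849194283) (nat_lit 608) (nat_lit 1849194283) (nat_lit 297) (nat_lit 1) (nat_lit 288) (nat_lit 1) (nat_lit 296) (nat_lit 1) (nat_lit 344) (nat_lit 427) (nat_lit 369)) (XT.lf (nat_lit 76) (nat_lit 668234490) (nat_lit 0) (nat_lit 4720696488) (nat_lit 684) (nat_lit 668234490) (nat_lit 289) (nat_lit 1) (nat_lit 288) (nat_lit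 1) (nat_lit 297) (nat_lit 1) (nat_lit 345) (nat_lit 427) (nat_lit 368))) (XT.nd (nat_lit 78) (nat_lit 684) (nat_lit 0) (XT.lf (nat_lit 608) (nat_lit 254498705) (nat_lit 0) (nat_lit 2876703702) (nat_lit 532) (nat_lit 2876703702) (nat_lit 289) (nat_lit 1) (nat_lit 281) (nat_lit 1) (nat_lit 288) (nat_lit 1) (nat_lit 346) (nat_lit 427) (nat_lit 367)) (XT.lf (nat_lit 684) (nat_lit 5156742561) (nat_lit 0) (nat_lit 401313240) (nat_lit 608) (nat_lit 401313240) (nat_lit 281) (nat_lit 1) (nat_lit 272) (nat_lit 1) (nat_lit 280) (nat_lit 1) (nat_lit 347) (nat_lit 427) (nat_lit 366)))) (XT.nd (nat_lit 156) (nat_lit 532) (nat_lit 0) (XT.nd (nat_lit 78) (nat_lit 532) (nat_lit 0) (XT.lf (nat_lit 76) (nat_lit 2020924648) (nat_lit 0) (nat_lit 1869232365) (nat_lit 684) (nat_lit 2020924648) (nat_lit 273) (nat_lit 1) (nat_lit 272) (nat_lit 1) (nat_lit 281) (nat_lit 1) (nat_lit 348) (nat_lit 427) (nat_lit 365)) (XT.lf (nat_lit 608)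 (nat_lit 2936519102) (nat_lit 0) (nat_lit 1463490430) (nat_lit 532) (nat_lit 1463490430) (nat_lit 273) (nat_lit 1) (nat_lit 265) (nat_lit 1) (nat_lit 272) (nat_lit 1) (nat_lit 349) (nat_lit 427) (nat_lit 364))) (XT.nd (nat_lit 78) (nat_lit 532) (nat_lit 0) (XT.lf (nat_lit 76) (nat_lit 916707451) (nat_lit 0) (nat_lit 3983055021) (nat_lit 608) (nat_lit 916707451) (nat_lit 266) (nat_lit 1) (nat_lit 265) (nat_lit 1) (nat_lit 273) (nat_lit 1) (nat_lit 350) (nat_lit 427) (nat_lit 363)) (XT.lf (nat_lit 608) (nat_lit 725735888) (nat_lit 0) (nat_lit 2522056172) (nat_lit 532) (nat_lit 2522056172) (nat_lit 266) (nat_lit 1) (nat_lit 258) (nat_lit 1) (nat_lit 265) (nat_lit 1) (nat_lit 351) (nat_lit 427) (nat_lit 362)))))) (XT.nd (nat_lit 624) (nat_lit 2356) (nat_lit 0) (XT.nd (nat_lit 312) (nat_lit 1520) (nat_lit 0) (XT.nd (nat_lit 156) (nat_lit 532) (nat_lit 0) (XT.nd (nat_lit 78) (nat_lit 0) (nat_lit 0) (XT.lf (nat_lit 608)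 (nat_lit 5361322719) (nat_lit 0) (nat_lit 181314306) (nat_lit 532) (nat_lit 181314306) (nat_lit 258) (nat_lit 1) (nat_lit 250) (nat_lit 1) (nat_lit 257) (nat_lit 1) (nat_lit 352) (nat_lit 427) (nat_lit 361)) (XT.lf (nat_lit 76) (nat_lit 2111517711) (nat_lit 0) (nat_lit 1455130372) (nat_lit 608) (nat_lit 2111517711) (nat_lit 251) (nat_lit 1) (nat_lit 250) (nat_lit 1) (nat_lit 258) (nat_lit 1) (nat_lit 353) (nat_lit 427) (nat_lit 360))) (XT.nd (nat_lit 78) (nat_lit 0) (nat_lit 0) (XT.lf (nat_lit 608) (nat_lit 3097494260) (nat_lit 0) (nat_lit 1267798022) (nat_lit 532) (nat_lit 1267798022) (nat_lit 251) (nat_lit 1) (nat_lit 243) (nat_lit 1) (nat_lit 250) (nat_lit 1) (nat_lit 354) (nat_lit 427) (nat_lit 359)) (XT.lf (nat_lit 76) (nat_lit 986754662) (nat_lit 0) (nat_lit 3614987101) (nat_lit 608) (nat_lit 986754662) (nat_lit 244) (nat_lit 1) (nat_lit 243) (nat_lit 1) (nat_lit 251) (nat_lit 1) (nat_lit 355) (nat_lit 427)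 (nat_lit 358)))) (XT.nd (nat_lit 156) (nat_lit 456) (nat_lit 0) (XT.nd (nat_lit 78) (nat_lit 608) (nat_lit 0) (XT.lf (nat_lit 532) (nat_lit 847780500) (nat_lit 0) (nat_lit 2348265054) (nat_lit 456) (nat_lit 2348265054) (nat_lit 244) (nat_lit 1) (nat_lit 237) (nat_lit 1) (nat_lit 243) (nat_lit 1) (nat_lit 356) (nat_lit 427) (nat_lit 357)) (XT.lf (nat_lit 608) (nat_lit 5241043630) (nat_lit 0) (nat_lit 129884662) (nat_lit 532) (nat_lit 129884662) (nat_lit 237) (nat_lit 1) (nat_lit 229) (nat_lit 1) (nat_lit 236) (nat_lit 1) (nat_lit 357) (nat_lit 427) (nat_lit 356))) (XT.nd (nat_lit 78) (nat_lit 456) (nat_lit 0) (XT.lf (nat_lit 76) (nat_lit 2044324830) (nat_lit 0) (nat_lit 1368730038) (nat_lit 608) (nat_lit 2044324830) (nat_lit 230) (nat_lit 1) (nat_lit 229) (nat_lit 1) (nat_lit 237) (nat_lit 1) (nat_lit 358) (nat_lit 427) (nat_lit 355)) (XT.lf (nat_lit 532) (nat_lit 2949846848) (nat_lit 0) (nat_lit 1232387332) (nat_lit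 456) (nat_lit 1232387332) (nat_lit 230) (nat_lit 1) (nat_lit 223) (nat_lit 1) (nat_lit 229) (nat_lit 1) (nat_lit 359) (nat_lit 427) (nat_lit 354))))) (XT.nd (nat_lit 312) (nat_lit 1368) (nat_lit 0) (XT.nd (nat_lit 156) (nat_lit 532) (nat_lit 0) (XT.nd (nat_lit 78) (nat_lit 456) (nat_lit 0) (XT.lf (nat_lit 76) (nat_lit 906919046) (nat_lit 0) (nat_lit 3558480580) (nat_lit 532) (nat_lit 906919046) (nat_lit 224) (nat_lit 1) (nat_lit 223) (nat_lit 1) (nat_lit 230) (nat_lit 1) (nat_lit 360) (nat_lit 427) (nat_lit 353)) (XT.lf (nat_lit 532) (nat_lit 676692964) (nat_lit 0) (nat_lit 2326846649) (nat_lit 456) (nat_lit 2326846649) (nat_lit 224) (nat_lit 1) (nat_lit 217) (nat_lit 1) (nat_lit 223) (nat_lit 1) (nat_lit 361) (nat_lit 427) (nat_lit 352))) (XT.nd (nat_lit 78) (nat_lit 0) (nat_lit 0) (XT.lf (nat_lit 532) (nat_lit 4849348313) (nat_lit 0) (nat_lit 219862264) (nat_lit 456) (nat_lit 219862264) (nat_lit 217) (nat_lit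 1) (nat_lit 210) (nat_lit 1) (nat_lit 216) (nat_lit 1) (nat_lit 362) (nat_lit 427) (nat_lit 351)) (XT.lf (nat_lit 76) (nat_lit 1845408950) (nat_lit 0) (nat_lit 1557035738) (nat_lit 532) (nat_lit 1845408950) (nat_lit 211) (nat_lit 1) (nat_lit 210) (nat_lit 1) (nat_lit 217) (nat_lit 1) (nat_lit 363) (nat_lit 427) (nat_lit 350)))) (XT.nd (nat_lit 156) (nat_lit 912) (nat_lit 0) (XT.nd (nat_lit 78) (nat_lit 0) (nat_lit 0) (XT.lf (nat_lit 532) (nat_lit 2544760114) (nat_lit 0) (nat_lit 1331240842) (nat_lit 456) (nat_lit 1331240842) (nat_lit 211) (nat_lit 1) (nat_lit 204) (nat_lit 1) (nat_lit 210) (nat_lit 1) (nat_lit 364) (nat_lit 427) (nat_lit 349)) (XT.lf (nat_lit 76) (nat_lit 702160666) (nat_lit 0) (nat_lit 3762774491) (nat_lit 532) (nat_lit 702160666) (nat_lit 205) (nat_lit 1) (nat_lit 204) (nat_lit 1) (nat_lit 211) (nat_lit 1) (nat_lit 365) (nat_lit 427) (nat_lit 348))) (XT.nd (nat_lit 78) (nat_lit 532) (nat_lit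 0) (XT.lf (nat_lit 456) (nat_lit 261489001) (nat_lit 0) (nat_lit 2432881315) (nat_lit 380) (nat_lit 2432881315) (nat_lit 205) (nat_lit 1) (nat_lit 199) (nat_lit 1) (nat_lit 204) (nat_lit 1) (nat_lit 366) (nat_lit 427) (nat_lit 347)) (XT.lf (nat_lit 532) (nat_lit 4232926182) (nat_lit 0) (nat_lit 427502144) (nat_lit 456) (nat_lit 427502144) (nat_lit 199) (nat_lit 1) (nat_lit 192) (nat_lit 1) (nat_lit 198) (nat_lit 1) (nat_lit 367) (nat_lit 427) (nat_lit 346))))))))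
noncomputable def ec63 : XT := (XT.nd (nat_lit 58890) (nat_lit 0) (nat_lit 380) (XT.nd (nat_lit 57642) (nat_lit 0) (nat_lit 3344) (XT.nd (nat_lit 546) (nat_lit 380) (nat_lit 0) (XT.nd (nat_lit 234) (nat_lit 1216) (nat_lit 0) (XT.nd (nat_lit 78) (nat_lit 380) (nat_lit 0) (XT.lf (nat_lit 76) (nat_lit 1537535539) (nat_lit 0) (nat_lit 1973726287) (nat_lit 532) (nat_lit 1537535539) (nat_lit 193) (nat_lit 1) (nat_lit 192) (nat_lit 1) (nat_lit 199) (nat_lit 1) (nat_lit 368) (nat_lit 427) (nat_lit 345)) (XT.nd (nat_lit 78) (nat_lit 0) (nat_lit 0) (XT.lf (nat_lit 456) (nat_lit 1926933974) (nat_lit 0) (nat_lit 1541621496) (nat_lit 380) (nat_lit 1541621496) (nat_lit 193) (nat_lit 1) (nat_lit 187) (nat_lit 1) (nat_lit 192) (nat_lit 1) (nat_lit 369) (nat_lit 427) (nat_lit 344)) (XT.lf (nat_lit 76) (nat_lit 394274104) (nat_lit 0) (nat_lit 4183515402) (nat_lit 456) (nat_lit 394274104) (nat_lit 188) (nat_lit 1) (nat_lit 187) (nat_lit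 1) (nat_lit 193) (nat_lit 1) (nat_lit 370) (nat_lit 427) (nat_lit 343)))) (XT.nd (nat_lit 156) (nat_lit 380) (nat_lit 0) (XT.nd (nat_lit 78) (nat_lit 380) (nat_lit 0) (XT.lf (nat_lit 76) (nat_lit 2291864409) (nat_lit 0) (nat_lit 350382987) (nat_lit 456) (nat_lit 2291864409) (nat_lit 182) (nat_lit 1) (nat_lit 181) (nat_lit 1) (nat_lit 187) (nat_lit 1) (nat_lit 371) (nat_lit 427) (nat_lit 342)) (XT.lf (nat_lit 456) (nat_lit 3432501448) (nat_lit 0) (nat_lit 732078028) (nat_lit 380) (nat_lit 732078028) (nat_lit 182) (nat_lit 1) (nat_lit 176) (nat_lit 1) (nat_lit 181) (nat_lit 1) (nat_lit 372) (nat_lit 427) (nat_lit 341))) (XT.nd (nat_lit 78) (nat_lit 380) (nat_lit 0) (XT.lf (nat_lit 76) (nat_lit 1140557682) (nat_lit 0) (nat_lit 2578376514) (nat_lit 456) (nat_lit 1140557682) (nat_lit 177) (nat_lit 1) (nat_lit 176) (nat_lit 1) (nat_lit 182) (nat_lit 1) (nat_lit 373) (nat_lit 427) (nat_lit 340)) (XT.lf (nat_lit 456) (nat_lit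 1135342477) (nat_lit 0) (nat_lit 1843689954) (nat_lit 380) (nat_lit 1843689954) (nat_lit 177) (nat_lit 1) (nat_lit 171) (nat_lit 1) (nat_lit 176) (nat_lit 1) (nat_lit 374) (nat_lit 427) (nat_lit 339))))) (XT.nd (nat_lit 56784) (nat_lit 0) (nat_lit 8056) (XT.nd (nat_lit 56628) (nat_lit 0) (nat_lit 9880) (XT.nd (nat_lit 78) (nat_lit 380) (nat_lit 0) (XT.lf (nat_lit 76) (nat_lit 2258449) (nat_lit 0) (nat_lit 4782009533) (nat_lit 456) (nat_lit 2258449) (nat_lit 172) (nat_lit 1) (nat_lit 171) (nat_lit 1) (nat_lit 177) (nat_lit 1) (nat_lit 375) (nat_lit 427) (nat_lit 338)) (XT.lf (nat_lit 76) (nat_lit 1814786600) (nat_lit 0) (nat_lit 1120702668) (nat_lit 380) (nat_lit 1814786600) (nat_lit 167) (nat_lit 1) (nat_lit 166) (nat_lit 1) (nat_lit 171) (nat_lit 1) (nat_lit 376) (nat_lit 427) (nat_lit 337))) (XT.nd (nat_lit 78) (nat_lit 0) (nat_lit 0) (XT.lf (nat_lit 684) (nat_lit 4657541503) (nat_lit 0) (nat_lit 837328135) (nat_lit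 608) (nat_lit 837328135) (nat_lit 305) (nat_lit 1) (nat_lit 296) (nat_lit 1) (nat_lit 304) (nat_lit 1) (nat_lit 340) (nat_lit 428) (nat_lit 372)) (XT.lf (nat_lit 76) (nat_lit 1777605809) (nat_lit 0) (nat_lit 2725015842) (nat_lit 684) (nat_lit 1777605809) (nat_lit 297) (nat_lit 1) (nat_lit 296) (nat_lit 1) (nat_lit 305) (nat_lit 1) (nat_lit 341) (nat_lit 428) (nat_lit 371)))) (XT.nd (nat_lit 156) (nat_lit 1216) (nat_lit 0) (XT.nd (nat_lit 78) (nat_lit 0) (nat_lit 0) (XT.lf (nat_lit 684) (nat_lit 2456568308) (nat_lit 0) (nat_lit 1886178169) (nat_lit 608) (nat_lit 1886178169) (nat_lit 297) (nat_lit 1) (nat_lit 288) (nat_lit 1) (nat_lit 296) (nat_lit 1) (nat_lit 342) (nat_lit 428) (nat_lit 370)) (XT.lf (nat_lit 76) (nat_lit 681599179) (nat_lit 0) (nat_lit 4815110418) (nat_lit 684) (nat_lit 681599179) (nat_lit 289) (nat_lit 1) (nat_lit 288) (nat_lit 1) (nat_lit 297) (nat_lit 1) (nat_lit 343) (nat_lit 428) (nat_lit 369)))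 (XT.nd (nat_lit 78) (nat_lit 684) (nat_lit 0) (XT.lf (nat_lit 608) (nat_lit 259588679) (nat_lit 0) (nat_lit 2934237776) (nat_lit 532) (nat_lit 2934237776) (nat_lit 289) (nat_lit 1) (nat_lit 281) (nat_lit 1) (nat_lit 288) (nat_lit 1) (nat_lit 344) (nat_lit 428) (nat_lit 368)) (XT.lf (nat_lit 684) (nat_lit 5259877412) (nat_lit 0) (nat_lit 409339505) (nat_lit 608) (nat_lit 409339505) (nat_lit 281) (nat_lit 1) (nat_lit 272) (nat_lit 1) (nat_lit 280) (nat_lit 1) (nat_lit 345) (nat_lit 428) (nat_lit 367)))))) (XT.nd (nat_lit 624) (nat_lit 2508) (nat_lit 0) (XT.nd (nat_lit 312) (nat_lit 1140) (nat_lit 0) (XT.nd (nat_lit 156) (nat_lit 532) (nat_lit 0) (XT.nd (nat_lit 78) (nat_lit 532) (nat_lit 0) (XT.lf (nat_lit 76) (nat_lit 2061343141) (nat_lit 0) (nat_lit 1906617012) (nat_lit 684) (nat_lit 2061343141) (nat_lit 273) (nat_lit 1) (nat_lit 272) (nat_lit 1) (nat_lit 281) (nat_lit 1) (nat_lit 346) (nat_lit 428) (nat_lit 366))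 (XT.lf (nat_lit 608) (nat_lit 2995249484) (nat_lit 0) (nat_lit 1492760239) (nat_lit 532) (nat_lit 1492760239) (nat_lit 273) (nat_lit 1) (nat_lit 265) (nat_lit 1) (nat_lit 272) (nat_lit 1) (nat_lit 347) (nat_lit 428) (nat_lit 365))) (XT.nd (nat_lit 78) (nat_lit 532) (nat_lit 0) (XT.lf (nat_lit 76) (nat_lit 935041600) (nat_lit 0) (nat_lit 4062716121) (nat_lit 608) (nat_lit 935041600) (nat_lit 266) (nat_lit 1) (nat_lit 265) (nat_lit 1) (nat_lit 273) (nat_lit 1) (nat_lit 348) (nat_lit 428) (nat_lit 364)) (XT.lf (nat_lit 608) (nat_lit 740250606) (nat_lit 0) (nat_lit 2572497295) (nat_lit 532) (nat_lit 2572497295) (nat_lit 266) (nat_lit 1) (nat_lit 258) (nat_lit 1) (nat_lit 265) (nat_lit 1) (nat_lit 349) (nat_lit 428) (nat_lit 363)))) (XT.nd (nat_lit 156) (nat_lit 532) (nat_lit 0) (XT.nd (nat_lit 78) (nat_lit 0) (nat_lit 0) (XT.lf (nat_lit 608) (nat_lit 5468549173) (nat_lit 0) (nat_lit 184940593) (nat_lit 532) (nat_lit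 184940593) (nat_lit 258) (nat_lit 1) (nat_lit 250) (nat_lit 1) (nat_lit 257) (nat_lit 1) (nat_lit 350) (nat_lit 428) (nat_lit 362)) (XT.lf (nat_lit 76) (nat_lit 2153748066) (nat_lit 0) (nat_lit 1484232980) (nat_lit 608) (nat_lit 2153748066) (nat_lit 251) (nat_lit 1) (nat_lit 250) (nat_lit 1) (nat_lit 258) (nat_lit 1) (nat_lit 351) (nat_lit 428) (nat_lit 361))) (XT.nd (nat_lit 78) (nat_lit 0) (nat_lit 0) (XT.lf (nat_lit 608) (nat_lit 3159444145) (nat_lit 0) (nat_lit 1293153982) (nat_lit 532) (nat_lit 1293153982) (nat_lit 251) (nat_lit 1) (nat_lit 243) (nat_lit 1) (nat_lit 250) (nat_lit 1) (nat_lit 352) (nat_lit 428) (nat_lit 360)) (XT.lf (nat_lit 76) (nat_lit 1006489755) (nat_lit 0) (nat_lit 3687286843) (nat_lit 608) (nat_lit 1006489755) (nat_lit 244) (nat_lit 1) (nat_lit 243) (nat_lit 1) (nat_lit 251) (nat_lit 1) (nat_lit 353) (nat_lit 428) (nat_lit 359))))) (XT.nd (nat_lit 312) (nat_lit 988) (nat_lit 0) (XT.nd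 (nat_lit 156) (nat_lit 456) (nat_lit 0) (XT.nd (nat_lit 78) (nat_lit 608) (nat_lit 0) (XT.lf (nat_lit 532) (nat_lit 864736110) (nat_lit 0) (nat_lit 2395230355) (nat_lit 456) (nat_lit 2395230355) (nat_lit 244) (nat_lit 1) (nat_lit 237) (nat_lit 1) (nat_lit 243) (nat_lit 1) (nat_lit 354) (nat_lit 428) (nat_lit 358)) (XT.lf (nat_lit 608) (nat_lit 5345864502) (nat_lit 0) (nat_lit 132482355) (nat_lit 532) (nat_lit 132482355) (nat_lit 237) (nat_lit 1) (nat_lit 229) (nat_lit 1) (nat_lit 236) (nat_lit 1) (nat_lit 355) (nat_lit 428) (nat_lit 357))) (XT.nd (nat_lit 78) (nat_lit 456) (nat_lit 0) (XT.lf (nat_lit 76) (nat_lit 2085211327) (nat_lit 0) (nat_lit 1396104639) (nat_lit 608) (nat_lit 2085211327) (nat_lit 230) (nat_lit 1) (nat_lit 229) (nat_lit 1) (nat_lit 237) (nat_lit 1) (nat_lit 356) (nat_lit 428) (nat_lit 356)) (XT.lf (nat_lit 532) (nat_lit 3008843785) (nat_lit 0) (nat_lit 1257035078) (nat_lit 456) (nat_lit 1257035078)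 (nat_lit 230) (nat_lit 1) (nat_lit 223) (nat_lit 1) (nat_lit 229) (nat_lit 1) (nat_lit 357) (nat_lit 428) (nat_lit 355)))) (XT.nd (nat_lit 156) (nat_lit 532) (nat_lit 0) (XT.nd (nat_lit 78) (nat_lit 456) (nat_lit 0) (XT.lf (nat_lit 76) (nat_lit 925057427) (nat_lit 0) (nat_lit 3629650191) (nat_lit 532) (nat_lit 925057427) (nat_lit 224) (nat_lit 1) (nat_lit 223) (nat_lit 1) (nat_lit 230) (nat_lit 1) (nat_lit 358) (nat_lit 428) (nat_lit 354)) (XT.lf (nat_lit 532) (nat_lit 690226823) (nat_lit 0) (nat_lit 2373383582) (nat_lit 456) (nat_lit 2373383582) (nat_lit 224) (nat_lit 1) (nat_lit 217) (nat_lit 1) (nat_lit 223) (nat_lit 1) (nat_lit 359) (nat_lit 428) (nat_lit 353))) (XT.nd (nat_lit 78) (nat_lit 0) (nat_lit 0) (XT.lf (nat_lit 532) (nat_lit 4946335280) (nat_lit 0) (nat_lit 224259510) (nat_lit 456) (nat_lit 224259510) (nat_lit 217) (nat_lit 1) (nat_lit 210) (nat_lit 1) (nat_lit 216) (nat_lit 1) (nat_lit 360) (nat_lit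 428) (nat_lit 352)) (XT.lf (nat_lit 76) (nat_lit 1882317129) (nat_lit 0) (nat_lit 1588176453) (nat_lit 532) (nat_lit 1882317129) (nat_lit 211) (nat_lit 1) (nat_lit 210) (nat_lit 1) (nat_lit 217) (nat_lit 1) (nat_lit 361) (nat_lit 428) (nat_lit 351))))))) (XT.nd (nat_lit 58422) (nat_lit 0) (nat_lit 1216) (XT.nd (nat_lit 546) (nat_lit 1216) (nat_lit 0) (XT.nd (nat_lit 234) (nat_lit 912) (nat_lit 0) (XT.nd (nat_lit 78) (nat_lit 380) (nat_lit 0) (XT.lf (nat_lit 532) (nat_lit 2595655316) (nat_lit 0) (nat_lit 1357865659) (nat_lit 456) (nat_lit 1357865659) (nat_lit 211) (nat_lit 1) (nat_lit 204) (nat_lit 1) (nat_lit 210) (nat_lit 1) (nat_lit 362) (nat_lit 428) (nat_lit 350)) (XT.nd (nat_lit 78) (nat_lit 380) (nat_lit 0) (XT.lf (nat_lit 76) (nat_lit 716203879) (nat_lit 0) (nat_lit 3838029981) (nat_lit 532) (nat_lit 716203879) (nat_lit 205) (nat_lit 1) (nat_lit 204) (nat_lit 1) (nat_lit 211) (nat_lit 1) (nat_lit 363) (nat_lit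 428) (nat_lit 349)) (XT.lf (nat_lit 456) (nat_lit 266718781) (nat_lit 0) (nat_lit 2481538941) (nat_lit 380) (nat_lit 2481538941) (nat_lit 205) (nat_lit 1) (nat_lit 199) (nat_lit 1) (nat_lit 204) (nat_lit 1) (nat_lit 364) (nat_lit 428) (nat_lit 348)))) (XT.nd (nat_lit 156) (nat_lit 380) (nat_lit 0) (XT.nd (nat_lit 78) (nat_lit 0) (nat_lit 0) (XT.lf (nat_lit 532) (nat_lit 4317584706) (nat_lit 0) (nat_lit 436052187) (nat_lit 456) (nat_lit 436052187) (nat_lit 199) (nat_lit 1) (nat_lit 192) (nat_lit 1) (nat_lit 198) (nat_lit 1) (nat_lit 365) (nat_lit 428) (nat_lit 347)) (XT.lf (nat_lit 76) (nat_lit 1568286249) (nat_lit 0) (nat_lit 2013200813) (nat_lit 532) (nat_lit 1568286249) (nat_lit 193) (nat_lit 1) (nat_lit 192) (nat_lit 1) (nat_lit 199) (nat_lit 1) (nat_lit 366) (nat_lit 428) (nat_lit 346))) (XT.nd (nat_lit 78) (nat_lit 0) (nat_lit 0) (XT.lf (nat_lit 456) (nat_lit 1965472653) (nat_lit 0) (nat_lit 1572453926) (nat_lit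 380) (nat_lit 1572453926) (nat_lit 193) (nat_lit 1) (nat_lit 187) (nat_lit 1) (nat_lit 192) (nat_lit 1) (nat_lit 367) (nat_lit 428) (nat_lit 345)) (XT.lf (nat_lit 76) (nat_lit 402159587) (nat_lit 0) (nat_lit 4267185710) (nat_lit 456) (nat_lit 402159587) (nat_lit 188) (nat_lit 1) (nat_lit 187) (nat_lit 1) (nat_lit 193) (nat_lit 1) (nat_lit 368) (nat_lit 428) (nat_lit 344))))) (XT.nd (nat_lit 57564) (nat_lit 0) (nat_lit 6004) (XT.nd (nat_lit 156) (nat_lit 380) (nat_lit 0) (XT.nd (nat_lit 78) (nat_lit 380) (nat_lit 0) (XT.lf (nat_lit 76) (nat_lit 2337701697) (nat_lit 0) (nat_lit 357390646) (nat_lit 456) (nat_lit 2337701697) (nat_lit 182) (nat_lit 1) (nat_lit 181) (nat_lit 1) (nat_lit 187) (nat_lit 1) (nat_lit 369) (nat_lit 428) (nat_lit 343)) (XT.lf (nat_lit 456) (nat_lit 3501151477) (nat_lit 0) (nat_lit 746719588) (nat_lit 380) (nat_lit 746719588) (nat_lit 182) (nat_lit 1) (nat_lit 176) (nat_lit 1) (nat_lit 181)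 (nat_lit 1) (nat_lit 370) (nat_lit 428) (nat_lit 342))) (XT.nd (nat_lit 78) (nat_lit 380) (nat_lit 0) (XT.lf (nat_lit 76) (nat_lit 1163368836) (nat_lit 0) (nat_lit 2629944045) (nat_lit 456) (nat_lit 1163368836) (nat_lit 177) (nat_lit 1) (nat_lit 176) (nat_lit 1) (nat_lit 182) (nat_lit 1) (nat_lit 371) (nat_lit 428) (nat_lit 341)) (XT.lf (nat_lit 456) (nat_lit 1158049326) (nat_lit 0) (nat_lit 1880563753) (nat_lit 380) (nat_lit 1880563753) (nat_lit 177) (nat_lit 1) (nat_lit 171) (nat_lit 1) (nat_lit 176) (nat_lit 1) (nat_lit 372) (nat_lit 428) (nat_lit 340)))) (XT.nd (nat_lit 156) (nat_lit 608) (nat_lit 0) (XT.nd (nat_lit 78) (nat_lit 532) (nat_lit 0) (XT.lf (nat_lit 76) (nat_lit 953742432) (nat_lit 0) (nat_lit 4143970444) (nat_lit 608) (nat_lit 953742432) (nat_lit 266) (nat_lit 1) (nat_lit 265) (nat_lit 1) (nat_lit 273) (nat_lit 1) (nat_lit 346) (nat_lit 429) (nat_lit 365)) (XT.lf (nat_lit 608) (nat_lit 755055618)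 (nat_lit 0) (nat_lit 2623947241) (nat_lit 532) (nat_lit 2623947241) (nat_lit 266) (nat_lit 1) (nat_lit 258) (nat_lit 1) (nat_lit 265) (nat_lit 1) (nat_lit 347) (nat_lit 429) (nat_lit 364))) (XT.nd (nat_lit 78) (nat_lit 0) (nat_lit 0) (XT.lf (nat_lit 608) (nat_lit 5577920157) (nat_lit 0) (nat_lit 188639404) (nat_lit 532) (nat_lit 188639404) (nat_lit 258) (nat_lit 1) (nat_lit 250) (nat_lit 1) (nat_lit 257) (nat_lit 1) (nat_lit 348) (nat_lit 429) (nat_lit 363)) (XT.lf (nat_lit 76) (nat_lit 2196823027) (nat_lit 0) (nat_lit 1513917639) (nat_lit 608) (nat_lit 2196823027) (nat_lit 251) (nat_lit 1) (nat_lit 250) (nat_lit 1) (nat_lit 258) (nat_lit 1) (nat_lit 349) (nat_lit 429) (nat_lit 362)))))) (XT.nd (nat_lit 624) (nat_lit 2280) (nat_lit 0) (XT.nd (nat_lit 312) (nat_lit 912) (nat_lit 0) (XT.nd (nat_lit 156) (nat_lit 1064) (nat_lit 0) (XT.nd (nat_lit 78) (nat_lit 0) (nat_lit 0) (XT.lf (nat_lit 608) (nat_lit 3222633028)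 (nat_lit 0) (nat_lit 1319017062) (nat_lit 532) (nat_lit 1319017062) (nat_lit 251) (nat_lit 1) (nat_lit 243) (nat_lit 1) (nat_lit 250) (nat_lit 1) (nat_lit 350) (nat_lit 429) (nat_lit 361)) (XT.lf (nat_lit 76) (nat_lit 1026619551) (nat_lit 0) (nat_lit 3761032580) (nat_lit 608) (nat_lit 1026619551) (nat_lit 244) (nat_lit 1) (nat_lit 243) (nat_lit 1) (nat_lit 251) (nat_lit 1) (nat_lit 351) (nat_lit 429) (nat_lit 360))) (XT.nd (nat_lit 78) (nat_lit 608) (nat_lit 0) (XT.lf (nat_lit 532) (nat_lit 882030832) (nat_lit 0) (nat_lit 2443134962) (nat_lit 456) (nat_lit 2443134962) (nat_lit 244) (nat_lit 1) (nat_lit 237) (nat_lit 1) (nat_lit 243) (nat_lit 1) (nat_lit 352) (nat_lit 429) (nat_lit 359)) (XT.lf (nat_lit 608) (nat_lit 5452781792) (nat_lit 0) (nat_lit 135132002) (nat_lit 532) (nat_lit 135132002) (nat_lit 237) (nat_lit 1) (nat_lit 229) (nat_lit 1) (nat_lit 236) (nat_lit 1) (nat_lit 353) (nat_lit 429) (nat_lit 358))))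 (XT.nd (nat_lit 156) (nat_lit 456) (nat_lit 0) (XT.nd (nat_lit 78) (nat_lit 456) (nat_lit 0) (XT.lf (nat_lit 76) (nat_lit 2126915553) (nat_lit 0) (nat_lit 1424026732) (nat_lit 608) (nat_lit 2126915553) (nat_lit 230) (nat_lit 1) (nat_lit 229) (nat_lit 1) (nat_lit 237) (nat_lit 1) (nat_lit 354) (nat_lit 429) (nat_lit 357)) (XT.lf (nat_lit 532) (nat_lit 3069020661) (nat_lit 0) (nat_lit 1282175780) (nat_lit 456) (nat_lit 1282175780) (nat_lit 230) (nat_lit 1) (nat_lit 223) (nat_lit 1) (nat_lit 229) (nat_lit 1) (nat_lit 355) (nat_lit 429) (nat_lit 356))) (XT.nd (nat_lit 78) (nat_lit 456) (nat_lit 0) (XT.lf (nat_lit 76) (nat_lit 943558576) (nat_lit 0) (nat_lit 3702243195) (nat_lit 532) (nat_lit 943558576) (nat_lit 224) (nat_lit 1) (nat_lit 223) (nat_lit 1) (nat_lit 230) (nat_lit 1) (nat_lit 356) (nat_lit 429) (nat_lit 355)) (XT.lf (nat_lit 532) (nat_lit 704031359) (nat_lit 0) (nat_lit 2420851254) (nat_lit 456) (nat_lit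 2420851254) (nat_lit 224) (nat_lit 1) (nat_lit 217) (nat_lit 1) (nat_lit 223) (nat_lit 1) (nat_lit 357) (nat_lit 429) (nat_lit 354))))) (XT.nd (nat_lit 312) (nat_lit 1292) (nat_lit 0) (XT.nd (nat_lit 156) (nat_lit 456) (nat_lit 0) (XT.nd (nat_lit 78) (nat_lit 0) (nat_lit 0) (XT.lf (nat_lit 532) (nat_lit 5045261985) (nat_lit 0) (nat_lit 228744700) (nat_lit 456) (nat_lit 228744700) (nat_lit 217) (nat_lit 1) (nat_lit 210) (nat_lit 1) (nat_lit 216) (nat_lit 1) (nat_lit 358) (nat_lit 429) (nat_lit 353)) (XT.lf (nat_lit 76) (nat_lit 1919963472) (nat_lit 0) (nat_lit 1619939982) (nat_lit 532) (nat_lit 1919963472) (nat_lit 211) (nat_lit 1) (nat_lit 210) (nat_lit 1) (nat_lit 217) (nat_lit 1) (nat_lit 359) (nat_lit 429) (nat_lit 352))) (XT.nd (nat_lit 78) (nat_lit 0) (nat_lit 0) (XT.lf (nat_lit 532) (nat_lit 2647568422) (nat_lit 0) (nat_lit 1385022972) (nat_lit 456) (nat_lit 1385022972) (nat_lit 211) (nat_lit 1) (nat_lit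 204) (nat_lit 1) (nat_lit 210) (nat_lit 1) (nat_lit 360) (nat_lit 429) (nat_lit 351)) (XT.lf (nat_lit 76) (nat_lit 730527957) (nat_lit 0) (nat_lit 3914790581) (nat_lit 532) (nat_lit 730527957) (nat_lit 205) (nat_lit 1) (nat_lit 204) (nat_lit 1) (nat_lit 211) (nat_lit 1) (nat_lit 361) (nat_lit 429) (nat_lit 350)))) (XT.nd (nat_lit 156) (nat_lit 380) (nat_lit 0) (XT.nd (nat_lit 78) (nat_lit 532) (nat_lit 0) (XT.lf (nat_lit 456) (nat_lit 272053156) (nat_lit 0) (nat_lit 2531169720) (nat_lit 380) (nat_lit 2531169720) (nat_lit 205) (nat_lit 1) (nat_lit 199) (nat_lit 1) (nat_lit 204) (nat_lit 1) (nat_lit 362) (nat_lit 429) (nat_lit 349)) (XT.lf (nat_lit 532) (nat_lit 4403936400) (nat_lit 0) (nat_lit 444773231) (nat_lit 456) (nat_lit 444773231) (nat_lit 199) (nat_lit 1) (nat_lit 192) (nat_lit 1) (nat_lit 198) (nat_lit 1) (nat_lit 363) (nat_lit 429) (nat_lit 348))) (XT.nd (nat_lit 78) (nat_lit 380) (nat_lit 0) (XT.lf (nat_lit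 76) (nat_lit 1599651974) (nat_lit 0) (nat_lit 2053464829) (nat_lit 532) (nat_lit 1599651974) (nat_lit 193) (nat_lit 1) (nat_lit 192) (nat_lit 1) (nat_lit 199) (nat_lit 1) (nat_lit 364) (nat_lit 429) (nat_lit 347)) (XT.lf (nat_lit 456) (nat_lit 2004782106) (nat_lit 0) (nat_lit 1603903004) (nat_lit 380) (nat_lit 1603903004) (nat_lit 193) (nat_lit 1) (nat_lit 187) (nat_lit 1) (nat_lit 192) (nat_lit 1) (nat_lit 365) (nat_lit 429) (nat_lit 346))))))))

set_option maxRecDepth 10000000 in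
noncomputable def Tp : PT := (PT.nd (nat_lit 11647740) (PT.nd (nat_lit 10403874) (PT.nd (nat_lit 9394866) (PT.nd (nat_lit 8623758) (PT.nd (nat_lit 8148816) (PT.nd (nat_lit 7793370) pc0 pc1) (PT.nd (nat_lit 237666) pc2 pc3)) (PT.nd (nat_lit 415272) (PT.nd (nat_lit 236808) pc4 pc5) (PT.nd (nat_lit 178074) pc6 pc7))) (PT.nd (nat_lit 592176) (PT.nd (nat_lit 296712) (PT.nd (nat_lit 177216) pc8 pc9) (PT.nd (nat_lit 119262) pc10 pc11)) (PT.nd (nat_lit 237354) (PT.nd (nat_lit 118794) pc12 pc13) (PT.nd (nat_lit 118170) pc14 pc15)))) (PT.nd (nat_lit 710814) (PT.nd (nat_lit 412932) (PT.nd (nat_lit 235092) (PT.nd (nat_lit 117702) pc16 pc17) (PT.nd (nat_lit 60840) pc18 pc19)) (PT.nd (nat_lit 121212) (PT.nd (nat_lit 60606) pc20 pc21) (PT.nd (nat_lit 116298) pc22 pc23))) (PT.nd (nat_lit 295230) (PT.nd (nat_lit 120198) (PT.nd (nat_lit 60138) pc24 pc25) (PT.nd (nat_lit 59904) pc26 pc27)) (PT.nd (nat_lit 119106) (PT.nd (nat_lit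 59592) pc28 pc29) (PT.nd (nat_lit 59358) pc30 pc31))))) (PT.nd (nat_lit 772044) (PT.nd (nat_lit 415896) (PT.nd (nat_lit 235794) (PT.nd (nat_lit 118092) (PT.nd (nat_lit 59124) pc32 pc33) (PT.nd (nat_lit 58890) pc34 pc35)) (PT.nd (nat_lit 63180) (PT.nd (nat_lit 4524) pc36 pc37) (PT.nd (nat_lit 58500) pc38 pc39))) (PT.nd (nat_lit 178776) (PT.nd (nat_lit 116298) (PT.nd (nat_lit 58188) pc40 pc41) (PT.nd (nat_lit 4524) pc42 pc43)) (PT.nd (nat_lit 115362) (PT.nd (nat_lit 57720) pc44 pc45) (PT.nd (nat_lit 4524) pc46 pc47)))) (PT.nd (nat_lit 298662) (PT.nd (nat_lit 175890) (PT.nd (nat_lit 61776) (PT.nd (nat_lit 57252) pc48 pc49) (PT.nd (nat_lit 57096) pc50 pc51)) (PT.nd (nat_lit 61464) (PT.nd (nat_lit 4524) pc52 pc53) (PT.nd (nat_lit 56706) pc54 pc55))) (PT.nd (nat_lit 232830) (PT.nd (nat_lit 114660) (PT.nd (nat_lit 56550) pc56 pc57) (PT.nd (nat_lit 58734) pc58 pc59)) (PT.nd (nat_lit 124566) (PT.nd (nat_lit 63960) pc60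 pc61) (PT.nd (nat_lit 118560) pc62 pc63))))))

set_option maxRecDepth 10000000 in
noncomputable def Tx : XT := (XT.nd (nat_lit 20099274) (nat_lit 0) (nat_lit 12160) XT.nil (XT.nd (nat_lit 5636670) (nat_lit 0) (nat_lit 0) (XT.nd (nat_lit 2725554) (nat_lit 0) (nat_lit 6992) (XT.nd (nat_lit 1895556) (nat_lit 0) (nat_lit 3496) (XT.nd (nat_lit 1304550) (nat_lit 0) (nat_lit 1824) (XT.nd (nat_lit 890136) (nat_lit 0) (nat_lit 988) (XT.nd (nat_lit 651456) (nat_lit 0) (nat_lit 684) (XT.nd (nat_lit 415272) (nat_lit 0) (nat_lit 304) xc0 xc1) (XT.nd (nat_lit 119652) (nat_lit 0) (nat_lit 0) xc2 xc3)) (XT.nd (nat_lit 236184) (nat_lit 0) (nat_lit 0) (XT.nd (nat_lit 118404) (nat_lit 0) (nat_lit 0) xc4 xc5) (XT.nd (nat_lit 117234) (nat_lit 0) (nat_lit 836) xc6 (XT.nd (nat_lit 2496) (nat_lit 1748) (nat_lit 0) xc7 xc8)))) (XT.nd (nat_lit 297258) (nat_lit 0) (nat_lit 380) (XT.nd (nat_lit 176826) (nat_lit 0) (nat_lit 380) (XT.nd (nat_lit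 116376) (nat_lit 0) (nat_lit 0) xc9 xc10) (XT.nd (nat_lit 60294) (nat_lit 0) (nat_lit 0) xc11 xc12)) (XT.nd (nat_lit 174642) (nat_lit 0) (nat_lit 912) (XT.nd (nat_lit 59982) (nat_lit 0) (nat_lit 456) xc13 xc14) (XT.nd (nat_lit 59592) (nat_lit 0) (nat_lit 0) xc15 (XT.nd (nat_lit 2496) (nat_lit 7524) (nat_lit 0) xc16 xc17))))) (XT.nd (nat_lit 417144) (nat_lit 0) (nat_lit 1444) (XT.nd (nat_lit 236340) (nat_lit 0) (nat_lit 988) (XT.nd (nat_lit 118404) (nat_lit 0) (nat_lit 456) (XT.nd (nat_lit 59280) (nat_lit 0) (nat_lit 0) xc18 xc19) (XT.nd (nat_lit 59046) (nat_lit 0) (nat_lit 0) xc20 xc21)) (XT.nd (nat_lit 63726) (nat_lit 0) (nat_lit 0) (XT.nd (nat_lit 58734) (nat_lit 0) (nat_lit 1976) xc22 xc23) (XT.nd (nat_lit 58578) (nat_lit 0) (nat_lit 0) xc24 (XT.nd (nat_lit 55926) (nat_lit 0) (nat_lit 11704) xc25 xc26)))) (XT.nd (nat_lit 179634) (nat_lit 0) (nat_lit 988) (XT.nd (nat_lit 116532) (nat_lit 0) (nat_lit 456) (XT.nd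 (nat_lit 58344) (nat_lit 0) (nat_lit 456) xc27 xc28) (XT.nd (nat_lit 58032) (nat_lit 0) (nat_lit 2204) xc29 (XT.nd (nat_lit 2496) (nat_lit 17556) (nat_lit 0) xc30 xc31))) (XT.nd (nat_lit 116376) (nat_lit 0) (nat_lit 532) (XT.nd (nat_lit 58110) (nat_lit 0) (nat_lit 532) xc32 xc33) (XT.nd (nat_lit 58344) (nat_lit 0) (nat_lit 532) xc34 (XT.nd (nat_lit 2496) (nat_lit 6156) (nat_lit 0) xc35 xc36)))))) (XT.nd (nat_lit 893568) (nat_lit 0) (nat_lit 6080) (XT.nd (nat_lit 416832) (nat_lit 0) (nat_lit 2280) (XT.nd (nat_lit 180882) (nat_lit 0) (nat_lit 1140) (XT.nd (nat_lit 63492) (nat_lit 0) (nat_lit 532) (XT.nd (nat_lit 58500) (nat_lit 0) (nat_lit 2356) xc37 xc38) (XT.nd (nat_lit 58656) (nat_lit 0) (nat_lit 76) xc39 xc40)) (XT.nd (nat_lit 117702) (nat_lit 0) (nat_lit 532) (XT.nd (nat_lit 58812) (nat_lit 0) (nat_lit 0) xc41 xc42) (XT.nd (nat_lit 59046) (nat_lit 0) (nat_lit 608) xc43 (XT.nd (nat_lit 2496) (nat_lit 1824) (nat_lit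 0) xc44 xc45)))) (XT.nd (nat_lit 237510) (nat_lit 0) (nat_lit 1824) (XT.nd (nat_lit 118560) (nat_lit 0) (nat_lit 1216) (XT.nd (nat_lit 59202) (nat_lit 0) (nat_lit 608) xc46 xc47) (XT.nd (nat_lit 59436) (nat_lit 0) (nat_lit 0) xc48 xc49)) (XT.nd (nat_lit 119340) (nat_lit 0) (nat_lit 608) (XT.nd (nat_lit 59592) (nat_lit 0) (nat_lit 608) xc50 xc51) (XT.nd (nat_lit 59826) (nat_lit 0) (nat_lit 684) xc52 (XT.nd (nat_lit 57486) (nat_lit 0) (nat_lit 5928) xc53 xc54))))) (XT.nd (nat_lit 651690) (nat_lit 0) (nat_lit 5168) (XT.nd (nat_lit 296322) (nat_lit 0) (nat_lit 2128) (XT.nd (nat_lit 175500) (nat_lit 0) (nat_lit 1368) (XT.nd (nat_lit 60060) (nat_lit 0) (nat_lit 0) xc55 xc56) (XT.nd (nat_lit 60372) (nat_lit 0) (nat_lit 0) xc57 xc58)) (XT.nd (nat_lit 177138) (nat_lit 0) (nat_lit 1520) (XT.nd (nat_lit 116298) (nat_lit 0) (nat_lit 1520) xc59 xc60) (XT.nd (nat_lit 60918) (nat_lit 0) (nat_lit 760) xc61 (XT.nd (nat_lit 58578)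 (nat_lit 0) (nat_lit 760) xc62 xc63)))) (XT.nd (nat_lit 416364) (nat_lit 0) (nat_lit 5320) (XT.nd (nat_lit 179088) (nat_lit 0) (nat_lit 2660) (XT.nd (nat_lit 117624) (nat_lit 0) (nat_lit 1748) xc64 xc65) (XT.nd (nat_lit 118326) (nat_lit 0) (nat_lit 1748) xc66 (XT.nd (nat_lit 59358) (nat_lit 0) (nat_lit 912) xc67 xc68))) (XT.nd (nat_lit 296790) (nat_lit 0) (nat_lit 4104) (XT.nd (nat_lit 176670) (nat_lit 0) (nat_lit 4560) xc69 xc70) (XT.nd (nat_lit 236730) (nat_lit 304) (nat_lit 0) xc71 (XT.nd (nat_lit 119184) (nat_lit 228) (nat_lit 0) xc72 xc73))))))) XT.nil))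

set_option maxRecDepth 10000000 in
noncomputable def Te : XT := (XT.nd (nat_lit 21224034) (nat_lit 0) (nat_lit 11172) XT.nil (XT.nd (nat_lit 4269096) (nat_lit 0) (nat_lit 0) (XT.nd (nat_lit 2723370) (nat_lit 3952) (nat_lit 0) (XT.nd (nat_lit 1839552) (nat_lit 7980) (nat_lit 0) (XT.nd (nat_lit 1303146) (nat_lit 6460) (nat_lit 0) (XT.nd (nat_lit 889044) (nat_lit 5168) (nat_lit 0) (XT.nd (nat_lit 593190) (nat_lit 3040) (nat_lit 0) (XT.nd (nat_lit 414804) (nat_lit 0) (nat_lit 0) ec0 ec1) (XT.nd (nat_lit 176982) (nat_lit 1900) (nat_lit 0) ec2 ec3)) (XT.nd (nat_lit 236106) (nat_lit 1596) (nat_lit 0) (XT.nd (nat_lit 118326) (nat_lit 2660) (nat_lit 0) ec4 ec5) (XT.nd (nat_lit 60996) (nat_lit 760) (nat_lit 0) ec6 ec7))) (XT.nd (nat_lit 297102) (nat_lit 1976) (nat_lit 0) (XT.nd (nat_lit 121134) (nat_lit 2128) (nat_lit 0) (XT.nd (nat_lit 60606) (nat_lit 760) (nat_lit 0) ec8 ec9) (XT.nd (nat_lit 115830) (nat_lit 1444) (nat_lit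 0) ec10 ec11)) (XT.nd (nat_lit 119886) (nat_lit 1292) (nat_lit 0) (XT.nd (nat_lit 59982) (nat_lit 684) (nat_lit 0) ec12 ec13) (XT.nd (nat_lit 59748) (nat_lit 684) (nat_lit 0) ec14 ec15)))) (XT.nd (nat_lit 472368) (nat_lit 3344) (nat_lit 0) (XT.nd (nat_lit 237120) (nat_lit 2204) (nat_lit 0) (XT.nd (nat_lit 118794) (nat_lit 1216) (nat_lit 0) (XT.nd (nat_lit 59436) (nat_lit 608) (nat_lit 0) ec16 ec17) (XT.nd (nat_lit 59202) (nat_lit 684) (nat_lit 0) ec18 ec19)) (XT.nd (nat_lit 117858) (nat_lit 1140) (nat_lit 0) (XT.nd (nat_lit 58968) (nat_lit 532) (nat_lit 0) ec20 ec21) (XT.nd (nat_lit 58734) (nat_lit 532) (nat_lit 0) ec22 ec23))) (XT.nd (nat_lit 180024) (nat_lit 2280) (nat_lit 0) (XT.nd (nat_lit 116922) (nat_lit 0) (nat_lit 0) (XT.nd (nat_lit 58500) (nat_lit 1064) (nat_lit 0) ec24 ec25) (XT.nd (nat_lit 58266) (nat_lit 0) (nat_lit 1064) ec26 ec27)) (XT.nd (nat_lit 115908) (nat_lit 836) (nat_lit 0) (XT.nd (nat_lit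 57954) (nat_lit 0) (nat_lit 0) ec28 ec29) (XT.nd (nat_lit 57798) (nat_lit 380) (nat_lit 0) ec30 ec31))))) (XT.nd (nat_lit 653718) (nat_lit 760) (nat_lit 0) (XT.nd (nat_lit 301158) (nat_lit 1444) (nat_lit 0) (XT.nd (nat_lit 124566) (nat_lit 836) (nat_lit 0) (XT.nd (nat_lit 62322) (nat_lit 380) (nat_lit 0) (XT.nd (nat_lit 4758) (nat_lit 6080) (nat_lit 0) ec32 ec33) (XT.nd (nat_lit 57408) (nat_lit 0) (nat_lit 1292) ec34 ec35)) (XT.nd (nat_lit 114660) (nat_lit 380) (nat_lit 0) (XT.nd (nat_lit 57330) (nat_lit 456) (nat_lit 0) ec36 ec37) (XT.nd (nat_lit 57096) (nat_lit 0) (nat_lit 5624) ec38 ec39))) (XT.nd (nat_lit 175968) (nat_lit 684) (nat_lit 0) (XT.nd (nat_lit 114114) (nat_lit 380) (nat_lit 0) (XT.nd (nat_lit 57096) (nat_lit 0) (nat_lit 0) ec40 ec41) (XT.nd (nat_lit 4758) (nat_lit 4788) (nat_lit 0) ec42 ec43)) (XT.nd (nat_lit 61932) (nat_lit 304) (nat_lit 0) (XT.nd (nat_lit 57096) (nat_lit 0) (nat_lit 2888) ec44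 ec45) (XT.nd (nat_lit 57252) (nat_lit 304) (nat_lit 0) ec46 ec47)))) (XT.nd (nat_lit 357006) (nat_lit 0) (nat_lit 0) (XT.nd (nat_lit 177684) (nat_lit 304) (nat_lit 0) (XT.nd (nat_lit 62322) (nat_lit 456) (nat_lit 0) (XT.nd (nat_lit 57486) (nat_lit 0) (nat_lit 5472) ec48 ec49) (XT.nd (nat_lit 57564) (nat_lit 0) (nat_lit 0) ec50 ec51)) (XT.nd (nat_lit 62790) (nat_lit 304) (nat_lit 0) (XT.nd (nat_lit 4758) (nat_lit 0) (nat_lit 0) ec52 ec53) (XT.nd (nat_lit 58188) (nat_lit 304) (nat_lit 0) ec54 ec55))) (XT.nd (nat_lit 235794) (nat_lit 0) (nat_lit 304) (XT.nd (nat_lit 117312) (nat_lit 0) (nat_lit 0) (XT.nd (nat_lit 58500) (nat_lit 0) (nat_lit 0) ec56 ec57) (XT.nd (nat_lit 59046) (nat_lit 0) (nat_lit 304) ec58 ec59)) (XT.nd (nat_lit 119886) (nat_lit 0) (nat_lit 760) (XT.nd (nat_lit 59670) (nat_lit 0) (nat_lit 0) ec60 ec61) (XT.nd (nat_lit 60762) (nat_lit 0) (nat_lit 380) ec62 ec63)))))) XT.nil))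

set_option maxRecDepth 10000000 in
noncomputable def Tz : ZL := (ZL.cons (nat_lit 11172) (nat_lit 6) (nat_lit 153380175193327868614) (ZL.cons (nat_lit 11476) (nat_lit 6) (nat_lit 152265613039291499160) (ZL.cons (nat_lit 11552) (nat_lit 6) (nat_lit 152070783949205477348) (ZL.cons (nat_lit 11932) (nat_lit 6) (nat_lit 150960137394101638298) (ZL.cons (nat_lit 12160) (nat_lit 6) (nat_lit 150629570339498226620) (ZL.cons (nat_lit 12236) (nat_lit 6) (nat_lit 149879177732274919272) (ZL.cons (nat_lit 12312) (nat_lit 6) (nat_lit 149688168820425878282) (ZL.cons (nat_lit 12464) (nat_lit 6) (nat_lit 149469979874438787840) (ZL.cons (nat_lit 12540) (nat_lit 3) (nat_lit 74721357138004097215) (ZL.cons (nat_lit 12616) (nat_lit 6) (nat_lit 148827481057975584306) (ZL.cons (nat_lit 12692) (nat_lit 6) (nat_lit 148611282947728563890) (ZL.cons (nat_lit 12844) (nat_lit 6) (nat_lit 148341194177362276642) (ZL.cons (nat_lit 12920) (nat_lit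 6) (nat_lit 148287197600078160284) (ZL.cons (nat_lit 12996) (nat_lit 6) (nat_lit 147563741538341221648) (ZL.cons (nat_lit 13148) (nat_lit 6) (nat_lit 147242770587211015962) (ZL.cons (nat_lit 13224) (nat_lit 6) (nat_lit 147162567167913641810) (ZL.cons (nat_lit 13300) (nat_lit 3) (nat_lit 73567918094530059431) (ZL.cons (nat_lit 13376) (nat_lit 6) (nat_lit 146545133791711150636) (ZL.cons (nat_lit 13452) (nat_lit 6) (nat_lit 146333174860096424738) (ZL.cons (nat_lit 13604) (nat_lit 6) (nat_lit 146068381947972613710) (ZL.cons (nat_lit 13680) (nat_lit 6) (nat_lit 146015444127105832968) (ZL.cons (nat_lit 13756) (nat_lit 6) (nat_lit 145555060253820064554) (ZL.cons (nat_lit 13832) (nat_lit 6) (nat_lit 145318890251080790956) (ZL.cons (nat_lit 13984) (nat_lit 6) (nat_lit 145004212848011961852) (ZL.cons (nat_lit 14060) (nat_lit 6) (nat_lit 144925582044779242098) (ZL.cons (nat_lit 14136) (nat_lit 3) (nat_lit 72449687601382992152)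 (ZL.cons (nat_lit 14212) (nat_lit 6) (nat_lit 144333226313556430850) (ZL.cons (nat_lit 14288) (nat_lit 6) (nat_lit 144125423439424346636) (ZL.cons (nat_lit 14364) (nat_lit 6) (nat_lit 143969642546816015396) (ZL.cons (nat_lit 14440) (nat_lit 6) (nat_lit 143865822545185316216) (ZL.cons (nat_lit 14516) (nat_lit 6) (nat_lit 143813922720806119410) (ZL.cons (nat_lit 14592) (nat_lit 6) (nat_lit 143375796512645883884) (ZL.cons (nat_lit 14668) (nat_lit 6) (nat_lit 143144257294274047028) (ZL.cons (nat_lit 14820) (nat_lit 6) (nat_lit 142835750036363430258) (ZL.cons (nat_lit 14896) (nat_lit 6) (nat_lit 142758661013586254026) (ZL.cons (nat_lit 14972) (nat_lit 3) (nat_lit 71366484015610157507) (ZL.cons (nat_lit 15048) (nat_lit 6) (nat_lit 142446225385682126312) (ZL.cons (nat_lit 15124) (nat_lit 6) (nat_lit 142191415241585041764) (ZL.cons (nat_lit 15276) (nat_lit 6) (nat_lit 141834960568310124652) (ZL.cons (nat_lit 15352) (nat_lit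 6) (nat_lit 141733176252985909770) (ZL.cons (nat_lit 15428) (nat_lit 6) (nat_lit 141682294072221991332) (ZL.cons (nat_lit 15504) (nat_lit 6) (nat_lit 141266523617807256734) (ZL.cons (nat_lit 15580) (nat_lit 6) (nat_lit 141039524384109377460) (ZL.cons (nat_lit 15656) (nat_lit 6) (nat_lit 140863061674567339288) (ZL.cons (nat_lit 15732) (nat_lit 6) (nat_lit 140737066288118576706) (ZL.cons (nat_lit 15808) (nat_lit 6) (nat_lit 140661488814807619618) (ZL.cons (nat_lit 15884) (nat_lit 3) (nat_lit 70318149808204820096) (ZL.cons (nat_lit 15960) (nat_lit 6) (nat_lit 140369219720343132018) (ZL.cons (nat_lit 16036) (nat_lit 6) (nat_lit 140119405853581284420) (ZL.cons (nat_lit 16112) (nat_lit 6) (nat_lit 139919672218313998556) (ZL.cons (nat_lit 16188) (nat_lit 6) (nat_lit 139769940487625483332) (ZL.cons (nat_lit 16264) (nat_lit 6) (nat_lit 139670151943189978544) (ZL.cons (nat_lit 16340) (nat_lit 6) (nat_lit 139620267452244960468)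 (ZL.cons (nat_lit 16416) (nat_lit 6) (nat_lit 139499151665311309134) (ZL.cons (nat_lit 16492) (nat_lit 6) (nat_lit 139226970511231845532) (ZL.cons (nat_lit 16644) (nat_lit 6) (nat_lit 138831419586486828428) (ZL.cons (nat_lit 16720) (nat_lit 6) (nat_lit 138707894697811570998) (ZL.cons (nat_lit 16796) (nat_lit 6) (nat_lit 138633799135742005222) (ZL.cons (nat_lit 16872) (nat_lit 3) (nat_lit 69304551921597483286) (ZL.cons (nat_lit 16948) (nat_lit 6) (nat_lit 138361868382417002196) (ZL.cons (nat_lit 17024) (nat_lit 6) (nat_lit 138116952826768132004) (ZL.cons (nat_lit 17100) (nat_lit 6) (nat_lit 137921135537290400764) (ZL.cons (nat_lit 17176) (nat_lit 6) (nat_lit 137774339722889895642) (ZL.cons (nat_lit 17252) (nat_lit 6) (nat_lit 137676507816580577224) (ZL.cons (nat_lit 17328) (nat_lit 6) (nat_lit 137627601452908990874) (ZL.cons (nat_lit 17404) (nat_lit 6) (nat_lit 137523760211399964278) (ZL.cons (nat_lit 17480) (nat_lit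 6) (nat_lit 137256915942694607806) (ZL.cons (nat_lit 17556) (nat_lit 6) (nat_lit 137038731365899260562) (ZL.cons (nat_lit 17632) (nat_lit 6) (nat_lit 136869120918434787116) (ZL.cons (nat_lit 17708) (nat_lit 6) (nat_lit 136748018086400221006) (ZL.cons (nat_lit 17784) (nat_lit 6) (nat_lit 136675375378488882014) (ZL.cons (nat_lit 17860) (nat_lit 3) (nat_lit 68325582153682167157) (ZL.cons (nat_lit 17936) (nat_lit 6) (nat_lit 136712317328309744702) (ZL.cons (nat_lit 18012) (nat_lit 6) (nat_lit 136423974321313715408) (ZL.cons (nat_lit 18088) (nat_lit 6) (nat_lit 136183861031461881884) (ZL.cons (nat_lit 18164) (nat_lit 6) (nat_lit 135991883296679792434) (ZL.cons (nat_lit 18240) (nat_lit 6) (nat_lit 135847965831581258000) (ZL.cons (nat_lit 18316) (nat_lit 6) (nat_lit 135752052197944671316) (ZL.cons (nat_lit 18392) (nat_lit 6) (nat_lit 135704104782580370974) (ZL.cons (nat_lit 18468) (nat_lit 6) (nat_lit 135617801318852364262)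 (ZL.cons (nat_lit 18544) (nat_lit 6) (nat_lit 135356189290709857916) (ZL.cons (nat_lit 18620) (nat_lit 6) (nat_lit 135142282842871282186) (ZL.cons (nat_lit 18696) (nat_lit 6) (nat_lit 134975998090455131748) (ZL.cons (nat_lit 18772) (nat_lit 6) (nat_lit 134857269823754576740) (ZL.cons (nat_lit 18848) (nat_lit 6) (nat_lit 134786051482665028706) (ZL.cons (nat_lit 18924) (nat_lit 3) (nat_lit 67381157569212638032) (ZL.cons (nat_lit 19000) (nat_lit 6) (nat_lit 134838080789035079328) (ZL.cons (nat_lit 19076) (nat_lit 6) (nat_lit 134555391566489952570) (ZL.cons (nat_lit 19152) (nat_lit 6) (nat_lit 134319986380360704018) (ZL.cons (nat_lit 19228) (nat_lit 6) (nat_lit 134131772914888067300) (ZL.cons (nat_lit 19304) (nat_lit 6) (nat_lit 133990677360869896288) (ZL.cons (nat_lit 19380) (nat_lit 6) (nat_lit 133896644386716379930) (ZL.cons (nat_lit 19456) (nat_lit 6) (nat_lit 133849637116751379596) (ZL.cons (nat_lit 19532) (nat_lit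 6) (nat_lit 134084506959105069518) (ZL.cons (nat_lit 19608) (nat_lit 6) (nat_lit 133781153820478942352) (ZL.cons (nat_lit 19684) (nat_lit 6) (nat_lit 133524671439947073388) (ZL.cons (nat_lit 19760) (nat_lit 6) (nat_lit 133314959236183763848) (ZL.cons (nat_lit 19836) (nat_lit 6) (nat_lit 133151934969109106556) (ZL.cons (nat_lit 19912) (nat_lit 6) (nat_lit 133035534707637974194) (ZL.cons (nat_lit 19988) (nat_lit 6) (nat_lit 132965712804609005536) (ZL.cons (nat_lit 20064) (nat_lit 3) (nat_lit 66471220939441878922) (ZL.cons (nat_lit 20140) (nat_lit 6) (nat_lit 133033172430031332750) (ZL.cons (nat_lit 20216) (nat_lit 6) (nat_lit 132756026133418463378) (ZL.cons (nat_lit 20292) (nat_lit 6) (nat_lit 132525236735252533426) (ZL.cons (nat_lit 20368) (nat_lit 6) (nat_lit 132340713729887203312) (ZL.cons (nat_lit 20444) (nat_lit 6) (nat_lit 132202384755359584670) (ZL.cons (nat_lit 20520) (nat_lit 6) (nat_lit 132110195565013000008)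 (ZL.cons (nat_lit 20596) (nat_lit 6) (nat_lit 132064110006223783992) (ZL.cons (nat_lit 20672) (nat_lit 6) (nat_lit 132311154069111654112) (ZL.cons (nat_lit 20748) (nat_lit 6) (nat_lit 132013749031242901990) (ZL.cons (nat_lit 20824) (nat_lit 6) (nat_lit 131762295716995971630) (ZL.cons (nat_lit 20900) (nat_lit 6) (nat_lit 131556695517228021104) (ZL.cons (nat_lit 20976) (nat_lit 6) (nat_lit 131396867804409729640) (ZL.cons (nat_lit 21052) (nat_lit 6) (nat_lit 131282749901006658698) (ZL.cons (nat_lit 21128) (nat_lit 6) (nat_lit 131214297054899826678) (ZL.cons (nat_lit 21204) (nat_lit 3) (nat_lit 65595741210917929177) (ZL.cons (nat_lit 21280) (nat_lit 6) (nat_lit 131614815593264643822) (ZL.cons (nat_lit 21356) (nat_lit 6) (nat_lit 131297549044360712532) (ZL.cons (nat_lit 21432) (nat_lit 6) (nat_lit 131025836988857899422) (ZL.cons (nat_lit 21508) (nat_lit 6) (nat_lit 130799572873008948488) (ZL.cons (nat_lit 21584) (nat_lit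 6) (nat_lit 130618667965788036612) (ZL.cons (nat_lit 21660) (nat_lit 6) (nat_lit 130483051324094292848) (ZL.cons (nat_lit 21736) (nat_lit 6) (nat_lit 130392669764930974548) (ZL.cons (nat_lit 21812) (nat_lit 6) (nat_lit 130347487844549390220) (ZL.cons (nat_lit 21888) (nat_lit 6) (nat_lit 130607145310031941202) (ZL.cons (nat_lit 21964) (nat_lit 6) (nat_lit 130315571743493948924) (ZL.cons (nat_lit 22040) (nat_lit 6) (nat_lit 130069048886389115240) (ZL.cons (nat_lit 22116) (nat_lit 6) (nat_lit 129867480063087202956) (ZL.cons (nat_lit 22192) (nat_lit 6) (nat_lit 129710786226990838780) (ZL.cons (nat_lit 22268) (nat_lit 6) (nat_lit 129598905929536847658) (ZL.cons (nat_lit 22344) (nat_lit 6) (nat_lit 129531795296098777050) (ZL.cons (nat_lit 22420) (nat_lit 3) (nat_lit 64754714004390580523) (ZL.cons (nat_lit 22496) (nat_lit 6) (nat_lit 129942267081694106128) (ZL.cons (nat_lit 22572) (nat_lit 6) (nat_lit 129631221445513781334)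 (ZL.cons (nat_lit 22648) (nat_lit 6) (nat_lit 129364837077373768482) (ZL.cons (nat_lit 22724) (nat_lit 6) (nat_lit 129143009512815973448) (ZL.cons (nat_lit 22800) (nat_lit 6) (nat_lit 128965651760638608864) (ZL.cons (nat_lit 22876) (nat_lit 6) (nat_lit 128832694268781997330) (ZL.cons (nat_lit 22952) (nat_lit 6) (nat_lit 128744084897053253900) (ZL.cons (nat_lit 23028) (nat_lit 6) (nat_lit 128699788896679151616) (ZL.cons (nat_lit 23104) (nat_lit 6) (nat_lit 129302653622787074830) (ZL.cons (nat_lit 23180) (nat_lit 6) (nat_lit 128972517722251522078) (ZL.cons (nat_lit 23256) (nat_lit 6) (nat_lit 128686661284469176710) (ZL.cons (nat_lit 23332) (nat_lit 6) (nat_lit 128444972208876202508) (ZL.cons (nat_lit 23408) (nat_lit 6) (nat_lit 128247355715442955174) (ZL.cons (nat_lit 23484) (nat_lit 6) (nat_lit 128093734307505343232) (ZL.cons (nat_lit 23560) (nat_lit 6) (nat_lit 127984047741373979390) (ZL.cons (nat_lit 23636) (nat_lit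 6) (nat_lit 127918253002709204284) (ZL.cons (nat_lit 23712) (nat_lit 3) (nat_lit 63948162144826359002) (ZL.cons (nat_lit 23788) (nat_lit 6) (nat_lit 128339202258521578110) (ZL.cons (nat_lit 23864) (nat_lit 6) (nat_lit 128034255556384004784) (ZL.cons (nat_lit 23940) (nat_lit 6) (nat_lit 127773094411148698066) (ZL.cons (nat_lit 24016) (nat_lit 6) (nat_lit 127555616406680271564) (ZL.cons (nat_lit 24092) (nat_lit 6) (nat_lit 127381736257486776872) (ZL.cons (nat_lit 24168) (nat_lit 6) (nat_lit 127251385775274412622) (ZL.cons (nat_lit 24244) (nat_lit 6) (nat_lit 127164513842207017104) (ZL.cons (nat_lit 24320) (nat_lit 6) (nat_lit 127121086390859858002) (ZL.cons (nat_lit 24396) (nat_lit 6) (nat_lit 127731026695318565142) (ZL.cons (nat_lit 24472) (nat_lit 6) (nat_lit 127407364047734689896) (ZL.cons (nat_lit 24548) (nat_lit 6) (nat_lit 127127112638144155220) (ZL.cons (nat_lit 24624) (nat_lit 6) (nat_lit 126890162564033396202)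 (ZL.cons (nat_lit 24700) (nat_lit 6) (nat_lit 126696420903804722342) (ZL.cons (nat_lit 24776) (nat_lit 6) (nat_lit 126545811680336475342) (ZL.cons (nat_lit 24852) (nat_lit 6) (nat_lit 126438275831188079416) (ZL.cons (nat_lit 24928) (nat_lit 6) (nat_lit 126373771185438299902) (ZL.cons (nat_lit 25004) (nat_lit 3) (nat_lit 63176136223573813540) (ZL.cons (nat_lit 25080) (nat_lit 6) (nat_lit 127147752532421619246) (ZL.cons (nat_lit 25156) (nat_lit 6) (nat_lit 126805740918713918588) (ZL.cons (nat_lit 25232) (nat_lit 6) (nat_lit 126506773563677081992) (ZL.cons (nat_lit 25308) (nat_lit 6) (nat_lit 126250733225211095016) (ZL.cons (nat_lit 25384) (nat_lit 6) (nat_lit 126037519495340088640) (ZL.cons (nat_lit 25460) (nat_lit 6) (nat_lit 125867048760836662472) (ZL.cons (nat_lit 25536) (nat_lit 6) (nat_lit 125739254170432383796) (ZL.cons (nat_lit 25612) (nat_lit 6) (nat_lit 125654085608601603874) (ZL.cons (nat_lit 25688) (nat_lit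 6) (nat_lit 125611509675908310640) (ZL.cons (nat_lit 25764) (nat_lit 6) (nat_lit 126589151034864898482) (ZL.cons (nat_lit 25840) (nat_lit 6) (nat_lit 126229150238682859186) (ZL.cons (nat_lit 25916) (nat_lit 6) (nat_lit 125911833917522197178) (ZL.cons (nat_lit 25992) (nat_lit 6) (nat_lit 125637077633609908282) (ZL.cons (nat_lit 26068) (nat_lit 6) (nat_lit 125404773639383673948) (ZL.cons (nat_lit 26144) (nat_lit 6) (nat_lit 125214830835237915264) (ZL.cons (nat_lit 26220) (nat_lit 6) (nat_lit 125067174733798457420) (ZL.cons (nat_lit 26296) (nat_lit 6) (nat_lit 124961747430711794748) (ZL.cons (nat_lit 26372) (nat_lit 6) (nat_lit 124898507581937501106) (ZL.cons (nat_lit 26448) (nat_lit 3) (nat_lit 62438715193767440347) (ZL.cons (nat_lit 26524) (nat_lit 6) (nat_lit 125677365893649342644) (ZL.cons (nat_lit 26600) (nat_lit 6) (nat_lit 125342060390014341998) (ZL.cons (nat_lit 26676) (nat_lit 6) (nat_lit 125048955139978227690)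 (ZL.cons (nat_lit 26752) (nat_lit 6) (nat_lit 124797935200305691436) (ZL.cons (nat_lit 26828) (nat_lit 6) (nat_lit 124588902131804704794) (ZL.cons (nat_lit 26904) (nat_lit 6) (nat_lit 124421773960722914434) (ZL.cons (nat_lit 26980) (nat_lit 6) (nat_lit 124296485146601072594) (ZL.cons (nat_lit 27056) (nat_lit 6) (nat_lit 124212986556570896202) (ZL.cons (nat_lit 27132) (nat_lit 6) (nat_lit 124171245446087275382) (ZL.cons (nat_lit 27208) (nat_lit 6) (nat_lit 125150171497595708762) (ZL.cons (nat_lit 27284) (nat_lit 6) (nat_lit 124797229540554493764) (ZL.cons (nat_lit 27360) (nat_lit 6) (nat_lit 124486135108044040818) (ZL.cons (nat_lit 27436) (nat_lit 6) (nat_lit 124216766202247679152) (ZL.cons (nat_lit 27512) (nat_lit 6) (nat_lit 123989017188300390590) (ZL.cons (nat_lit 27588) (nat_lit 6) (nat_lit 123802798752863372272) (ZL.cons (nat_lit 27664) (nat_lit 6) (nat_lit 123658037869099197916) (ZL.cons (nat_lit 27740) (nat_lit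 6) (nat_lit 123554677768033842356) (ZL.cons (nat_lit 27816) (nat_lit 6) (nat_lit 123492677916294338786) (ZL.cons (nat_lit 27892) (nat_lit 3) (nat_lit 61736007000106669189) (ZL.cons (nat_lit 27968) (nat_lit 6) (nat_lit 124647360307621544350) (ZL.cons (nat_lit 28044) (nat_lit 6) (nat_lit 124277127709986001556) (ZL.cons (nat_lit 28120) (nat_lit 6) (nat_lit 123948396824069334258) (ZL.cons (nat_lit 28196) (nat_lit 6) (nat_lit 123661038735798633954) (ZL.cons (nat_lit 28272) (nat_lit 6) (nat_lit 123414940755727519980) (ZL.cons (nat_lit 28348) (nat_lit 6) (nat_lit 123210006374844199742) (ZL.cons (nat_lit 28424) (nat_lit 6) (nat_lit 123046155226724797428) (ZL.cons (nat_lit 28500) (nat_lit 6) (nat_lit 122923323056017109352) (ZL.cons (nat_lit 28576) (nat_lit 6) (nat_lit 122841461693242426614) (ZL.cons (nat_lit 28652) (nat_lit 6) (nat_lit 122800539035905543456) (ZL.cons (nat_lit 28728) (nat_lit 6) (nat_lit 124168735142868036010)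 (ZL.cons (nat_lit 28804) (nat_lit 6) (nat_lit 123781550936806681652) (ZL.cons (nat_lit 28880) (nat_lit 6) (nat_lit 123435529410295686558) (ZL.cons (nat_lit 28956) (nat_lit 6) (nat_lit 123130534868618771902) (ZL.cons (nat_lit 29032) (nat_lit 6) (nat_lit 122866447706073319290) (ZL.cons (nat_lit 29108) (nat_lit 6) (nat_lit 122643164359066173640) (ZL.cons (nat_lit 29184) (nat_lit 6) (nat_lit 122460597265500469406) (ZL.cons (nat_lit 29260) (nat_lit 6) (nat_lit 122318674830437553372) (ZL.cons (nat_lit 29336) (nat_lit 6) (nat_lit 122217341398020538118) (ZL.cons (nat_lit 29412) (nat_lit 6) (nat_lit 122156557229648475792) (ZL.cons (nat_lit 29488) (nat_lit 3) (nat_lit 61068149244196296521) (ZL.cons (nat_lit 29564) (nat_lit 6) (nat_lit 123310304877183914710) (ZL.cons (nat_lit 29640) (nat_lit 6) (nat_lit 122947331742247108052) (ZL.cons (nat_lit 29716) (nat_lit 6) (nat_lit 122625046559975865600) (ZL.cons (nat_lit 29792) (nat_lit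 6) (nat_lit 122343322944024198636) (ZL.cons (nat_lit 29868) (nat_lit 6) (nat_lit 122102050414542714348) (ZL.cons (nat_lit 29944) (nat_lit 6) (nat_lit 121901134354853184702) (ZL.cons (nat_lit 30020) (nat_lit 6) (nat_lit 121740495974343966748) (ZL.cons (nat_lit 30096) (nat_lit 6) (nat_lit 121620072277571723536) (ZL.cons (nat_lit 30172) (nat_lit 6) (nat_lit 121539816039557328694) (ZL.cons (nat_lit 30248) (nat_lit 6) (nat_lit 121499695787266266776) (ZL.cons (nat_lit 30324) (nat_lit 6) (nat_lit 122863204728741378074) (ZL.cons (nat_lit 30400) (nat_lit 6) (nat_lit 122483612369857697334) (ZL.cons (nat_lit 30476) (nat_lit 6) (nat_lit 122144375579160643318) (ZL.cons (nat_lit 30552) (nat_lit 6) (nat_lit 121845361322614648558) (ZL.cons (nat_lit 30628) (nat_lit 6) (nat_lit 121586452339726949918) (ZL.cons (nat_lit 30704) (nat_lit 6) (nat_lit 121367547097563081634) (ZL.cons (nat_lit 30780) (nat_lit 6) (nat_lit 121188559750930038268)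 (ZL.cons (nat_lit 30856) (nat_lit 6) (nat_lit 121049420108711493136) (ZL.cons (nat_lit 30932) (nat_lit 6) (nat_lit 120950073606341870336) (ZL.cons (nat_lit 31008) (nat_lit 6) (nat_lit 120890481284408475902) (ZL.cons (nat_lit 31084) (nat_lit 3) (nat_lit 60435309886686648367) (ZL.cons (nat_lit 31160) (nat_lit 6) (nat_lit 122440075158087525654) (ZL.cons (nat_lit 31236) (nat_lit 6) (nat_lit 122044189442393184048) (ZL.cons (nat_lit 31312) (nat_lit 6) (nat_lit 121688333427749255950) (ZL.cons (nat_lit 31388) (nat_lit 6) (nat_lit 121372367562777449626) (ZL.cons (nat_lit 31464) (nat_lit 6) (nat_lit 121096167939295423190) (ZL.cons (nat_lit 31540) (nat_lit 6) (nat_lit 120859626243725340554) (ZL.cons (nat_lit 31616) (nat_lit 6) (nat_lit 120662649714617958550) (ZL.cons (nat_lit 31692) (nat_lit 6) (nat_lit 120505161106275588006) (ZL.cons (nat_lit 31768) (nat_lit 6) (nat_lit 120387098658459663286) (ZL.cons (nat_lit 31844) (nat_lit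 6) (nat_lit 120308416072171040894) (ZL.cons (nat_lit 31920) (nat_lit 6) (nat_lit 120269082491493529210) (ZL.cons (nat_lit 31996) (nat_lit 6) (nat_lit 122040750232057395156) (ZL.cons (nat_lit 32072) (nat_lit 6) (nat_lit 121628890637136915446) (ZL.cons (nat_lit 32148) (nat_lit 6) (nat_lit 121256741265682326482) (ZL.cons (nat_lit 32224) (nat_lit 6) (nat_lit 120924156176763646076) (ZL.cons (nat_lit 32300) (nat_lit 6) (nat_lit 120631004944855808076) (ZL.cons (nat_lit 32376) (nat_lit 6) (nat_lit 120377172608691397644) (ZL.cons (nat_lit 32452) (nat_lit 6) (nat_lit 120162559626177801288) (ZL.cons (nat_lit 32528) (nat_lit 6) (nat_lit 119987081835361092106) (ZL.cons (nat_lit 32604) (nat_lit 6) (nat_lit 119850670421421341974) (ZL.cons (nat_lit 32680) (nat_lit 6) (nat_lit 119753271889686417662) (ZL.cons (nat_lit 32756) (nat_lit 6) (nat_lit 119694848044653678020) (ZL.cons (nat_lit 32832) (nat_lit 3) (nat_lit 59837687987505672752)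 (ZL.cons (nat_lit 32908) (nat_lit 6) (nat_lit 121665073352640778684) (ZL.cons (nat_lit 32984) (nat_lit 6) (nat_lit 121237553091812320442) (ZL.cons (nat_lit 33060) (nat_lit 6) (nat_lit 120849429841131593374) (ZL.cons (nat_lit 33136) (nat_lit 6) (nat_lit 120500551395402252102) (ZL.cons (nat_lit 33212) (nat_lit 6) (nat_lit 120190780939547540020) (ZL.cons (nat_lit 33288) (nat_lit 6) (nat_lit 119919996994957318024) (ZL.cons (nat_lit 33364) (nat_lit 6) (nat_lit 119688093371849393872) (ZL.cons (nat_lit 33440) (nat_lit 6) (nat_lit 119494979127626470338) (ZL.cons (nat_lit 33516) (nat_lit 6) (nat_lit 119340578531212381568) (ZL.cons (nat_lit 33592) (nat_lit 6) (nat_lit 119224831033353631844) (ZL.cons (nat_lit 33668) (nat_lit 6) (nat_lit 119147691242874590282) (ZL.cons (nat_lit 33744) (nat_lit 6) (nat_lit 119109128908877029808) (ZL.cons (nat_lit 33820) (nat_lit 6) (nat_lit 120870023340715350172) (ZL.cons (nat_lit 33896) (nat_lit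 6) (nat_lit 120466239424126644572) (ZL.cons (nat_lit 33972) (nat_lit 6) (nat_lit 120101387099171165196) (ZL.cons (nat_lit 34048) (nat_lit 6) (nat_lit 119775323286505792248) (ZL.cons (nat_lit 34124) (nat_lit 6) (nat_lit 119487920117968696170) (ZL.cons (nat_lit 34200) (nat_lit 6) (nat_lit 119239064886434960454) (ZL.cons (nat_lit 34276) (nat_lit 6) (nat_lit 119028660001617709124) (ZL.cons (nat_lit 34352) (nat_lit 6) (nat_lit 118856622951797406002) (ZL.cons (nat_lit 34428) (nat_lit 6) (nat_lit 118722886271464317640) (ZL.cons (nat_lit 34504) (nat_lit 6) (nat_lit 118627397514861450666) (ZL.cons (nat_lit 34580) (nat_lit 6) (nat_lit 118570119235417588272) (ZL.cons (nat_lit 34656) (nat_lit 3) (nat_lit 59275514485531180157) (ZL.cons (nat_lit 34732) (nat_lit 6) (nat_lit 120526157254531848964) (ZL.cons (nat_lit 34808) (nat_lit 6) (nat_lit 120107019743915713430) (ZL.cons (nat_lit 34884) (nat_lit 6) (nat_lit 119726506753052255522)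 (ZL.cons (nat_lit 34960) (nat_lit 6) (nat_lit 119384469061160744470) (ZL.cons (nat_lit 35036) (nat_lit 6) (nat_lit 119080772535812987526) (ZL.cons (nat_lit 35112) (nat_lit 6) (nat_lit 118815298080332377728) (ZL.cons (nat_lit 35188) (nat_lit 6) (nat_lit 118587941587089314834) (ZL.cons (nat_lit 35264) (nat_lit 6) (nat_lit 118398613896674683916) (ZL.cons (nat_lit 35340) (nat_lit 6) (nat_lit 118247240762935381202) (ZL.cons (nat_lit 35416) (nat_lit 6) (nat_lit 118133762823858175590) (ZL.cons (nat_lit 35492) (nat_lit 6) (nat_lit 118058135578290487784) (ZL.cons (nat_lit 35568) (nat_lit 6) (nat_lit 118020329368488957906) (ZL.cons (nat_lit 35644) (nat_lit 6) (nat_lit 120205819983816254658) (ZL.cons (nat_lit 35720) (nat_lit 6) (nat_lit 119771629930035972130) (ZL.cons (nat_lit 35796) (nat_lit 6) (nat_lit 119375763345145084288) (ZL.cons (nat_lit 35872) (nat_lit 6) (nat_lit 119018064987345594704) (ZL.cons (nat_lit 35948) (nat_lit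 6) (nat_lit 118698394582771699656) (ZL.cons (nat_lit 36024) (nat_lit 6) (nat_lit 118416626770480428992) (ZL.cons (nat_lit 36100) (nat_lit 6) (nat_lit 118172651053290492016) (ZL.cons (nat_lit 36176) (nat_lit 6) (nat_lit 117966371754450049534) (ZL.cons (nat_lit 36252) (nat_lit 6) (nat_lit 117797707980116419024) (ZL.cons (nat_lit 36328) (nat_lit 6) (nat_lit 117666593587632999060) (ZL.cons (nat_lit 36404) (nat_lit 6) (nat_lit 117572977159590972616) (ZL.cons (nat_lit 36480) (nat_lit 6) (nat_lit 117516821983665617326) (ZL.cons (nat_lit 36556) (nat_lit 3) (nat_lit 58749053019109657703) (ZL.cons (nat_lit 36632) (nat_lit 6) (nat_lit 119384770682835011880) (ZL.cons (nat_lit 36708) (nat_lit 6) (nat_lit 119635238576675118692) (ZL.cons (nat_lit 36784) (nat_lit 6) (nat_lit 119908885906109463104) (ZL.cons (nat_lit 36860) (nat_lit 6) (nat_lit 119459938457070212934) (ZL.cons (nat_lit 36936) (nat_lit 6) (nat_lit 119049019329015178098)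 (ZL.cons (nat_lit 37012) (nat_lit 6) (nat_lit 118675967377188258580) (ZL.cons (nat_lit 37088) (nat_lit 6) (nat_lit 118340636306706385000) (ZL.cons (nat_lit 37164) (nat_lit 6) (nat_lit 118042894615188976232) (ZL.cons (nat_lit 37240) (nat_lit 6) (nat_lit 117782625541188378390) (ZL.cons (nat_lit 37316) (nat_lit 6) (nat_lit 117559727018401061826) (ZL.cons (nat_lit 37392) (nat_lit 6) (nat_lit 117374111635641619752) (ZL.cons (nat_lit 37468) (nat_lit 6) (nat_lit 117225706602563871992) (ZL.cons (nat_lit 37544) (nat_lit 6) (nat_lit 117114453721115631196) (ZL.cons (nat_lit 37620) (nat_lit 6) (nat_lit 117040309362715937268) (ZL.cons (nat_lit 37696) (nat_lit 6) (nat_lit 117003244451145809936) (ZL.cons (nat_lit 37772) (nat_lit 3) (nat_lit 58760693927333494616) (ZL.cons (nat_lit 37848) (nat_lit 6) (nat_lit 117532795801187633424) (ZL.cons (nat_lit 37924) (nat_lit 6) (nat_lit 117567024114454083896) (ZL.cons (nat_lit 38000) (nat_lit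 6) (nat_lit 117624086217334288282) (ZL.cons (nat_lit 38076) (nat_lit 6) (nat_lit 117704004487123493718) (ZL.cons (nat_lit 38152) (nat_lit 6) (nat_lit 117806810264319656754) (ZL.cons (nat_lit 38228) (nat_lit 6) (nat_lit 117932543864913834708) (ZL.cons (nat_lit 38304) (nat_lit 6) (nat_lit 118081254596200378242) (ZL.cons (nat_lit 38380) (nat_lit 6) (nat_lit 118253000776113125214) (ZL.cons (nat_lit 38456) (nat_lit 6) (nat_lit 118447849756095178660) (ZL.cons (nat_lit 38532) (nat_lit 6) (nat_lit 118665877947511237428) (ZL.cons (nat_lit 38608) (nat_lit 6) (nat_lit 118907170851612837224) (ZL.cons (nat_lit 38684) (nat_lit 6) (nat_lit 119171823093068253190) (ZL.cons (nat_lit 38760) (nat_lit 6) (nat_lit 118746146569754250712) (ZL.cons (nat_lit 38836) (nat_lit 6) (nat_lit 118358042074763184200) (ZL.cons (nat_lit 38912) (nat_lit 6) (nat_lit 118007357410253880686) (ZL.cons (nat_lit 38988) (nat_lit 6) (nat_lit 117693955052828493386)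 (ZL.cons (nat_lit 39064) (nat_lit 6) (nat_lit 117417712099601757440) (ZL.cons (nat_lit 39140) (nat_lit 6) (nat_lit 117178520220003780010) (ZL.cons (nat_lit 39216) (nat_lit 6) (nat_lit 116976285613297463854) (ZL.cons (nat_lit 39292) (nat_lit 6) (nat_lit 116810928971793904530) (ZL.cons (nat_lit 39368) (nat_lit 6) (nat_lit 116682385449751335938) (ZL.cons (nat_lit 39444) (nat_lit 6) (nat_lit 116590604637945427658) (ZL.cons (nat_lit 39520) (nat_lit 6) (nat_lit 116535550543900961688) (ZL.cons (nat_lit 39596) (nat_lit 3) (nat_lit 58258600788888568138) (ZL.cons (nat_lit 39672) (nat_lit 6) (nat_lit 116939646840957458466) (ZL.cons (nat_lit 39748) (nat_lit 6) (nat_lit 116962690892929159732) (ZL.cons (nat_lit 39824) (nat_lit 6) (nat_lit 117008788033755688422) (ZL.cons (nat_lit 39900) (nat_lit 6) (nat_lit 117077956340747172590) (ZL.cons (nat_lit 39976) (nat_lit 6) (nat_lit 117170222938729883404) (ZL.cons (nat_lit 40052) (nat_lit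 6) (nat_lit 117285624010683421922) (ZL.cons (nat_lit 40128) (nat_lit 6) (nat_lit 117424204811930122872) (ZL.cons (nat_lit 40204) (nat_lit 6) (nat_lit 117586019687882239860) (ZL.cons (nat_lit 40280) (nat_lit 6) (nat_lit 117771132095353871754) (ZL.cons (nat_lit 40356) (nat_lit 6) (nat_lit 117979614627445987822) (ZL.cons (nat_lit 40432) (nat_lit 6) (nat_lit 118211549042014310464) (ZL.cons (nat_lit 40508) (nat_lit 6) (nat_lit 118467026293731219414) (ZL.cons (nat_lit 40584) (nat_lit 6) (nat_lit 118064164403481185260) (ZL.cons (nat_lit 40660) (nat_lit 6) (nat_lit 117698427195807734752) (ZL.cons (nat_lit 40736) (nat_lit 6) (nat_lit 117369671244354917518) (ZL.cons (nat_lit 40812) (nat_lit 6) (nat_lit 117077767625220203040) (ZL.cons (nat_lit 40888) (nat_lit 6) (nat_lit 116822601866396087506) (ZL.cons (nat_lit 40964) (nat_lit 6) (nat_lit 116604073902879110484) (ZL.cons (nat_lit 41040) (nat_lit 6) (nat_lit 116422098037428677078)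 (ZL.cons (nat_lit 41116) (nat_lit 6) (nat_lit 116276602906960296922) (ZL.cons (nat_lit 41192) (nat_lit 6) (nat_lit 116167531454560060846) (ZL.cons (nat_lit 41268) (nat_lit 6) (nat_lit 116094840907109380524) (ZL.cons (nat_lit 41344) (nat_lit 6) (nat_lit 116058502758511216474) (ZL.cons (nat_lit 41420) (nat_lit 3) (nat_lit 58190360230155948012) (ZL.cons (nat_lit 41496) (nat_lit 6) (nat_lit 116392356565762953098) (ZL.cons (nat_lit 41572) (nat_lit 6) (nat_lit 116427269445294732582) (ZL.cons (nat_lit 41648) (nat_lit 6) (nat_lit 116485472790232541054) (ZL.cons (nat_lit 41724) (nat_lit 6) (nat_lit 116566989425417530600) (ZL.cons (nat_lit 41800) (nat_lit 6) (nat_lit 116671851318157616896) (ZL.cons (nat_lit 41876) (nat_lit 6) (nat_lit 116800099590763678410) (ZL.cons (nat_lit 41952) (nat_lit 6) (nat_lit 116951784536675952814) (ZL.cons (nat_lit 42028) (nat_lit 6) (nat_lit 117126965640186954724) (ZL.cons (nat_lit 42104) (nat_lit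 6) (nat_lit 117325711599768649240) (ZL.cons (nat_lit 42180) (nat_lit 6) (nat_lit 117548100355013029182) (ZL.cons (nat_lit 42256) (nat_lit 6) (nat_lit 117794219117196660978) (ZL.cons (nat_lit 42332) (nat_lit 6) (nat_lit 117413724514264242828) (ZL.cons (nat_lit 42408) (nat_lit 6) (nat_lit 117069916019647278600) (ZL.cons (nat_lit 42484) (nat_lit 6) (nat_lit 116762658806485134188) (ZL.cons (nat_lit 42560) (nat_lit 6) (nat_lit 116491832381753040122) (ZL.cons (nat_lit 42636) (nat_lit 6) (nat_lit 116257330539009924996) (ZL.cons (nat_lit 42712) (nat_lit 6) (nat_lit 116059061316748830724) (ZL.cons (nat_lit 42788) (nat_lit 6) (nat_lit 115896946962333576486) (ZL.cons (nat_lit 42864) (nat_lit 6) (nat_lit 115770923901507528846) (ZL.cons (nat_lit 42940) (nat_lit 6) (nat_lit 115680942713462520728) (ZL.cons (nat_lit 43016) (nat_lit 6) (nat_lit 115626968111458142326) (ZL.cons (nat_lit 43092) (nat_lit 3) (nat_lit 57804489464491901844)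 (ZL.cons (nat_lit 43168) (nat_lit 6) (nat_lit 115855797472435006660) (ZL.cons (nat_lit 43244) (nat_lit 6) (nat_lit 115879302405446141952) (ZL.cons (nat_lit 43320) (nat_lit 6) (nat_lit 115926321489089201218) (ZL.cons (nat_lit 43396) (nat_lit 6) (nat_lit 115996873162220515068) (ZL.cons (nat_lit 43472) (nat_lit 6) (nat_lit 116090985092162880096) (ZL.cons (nat_lit 43548) (nat_lit 6) (nat_lit 116208694185555489388) (ZL.cons (nat_lit 43624) (nat_lit 6) (nat_lit 116350046602827124356) (ZL.cons (nat_lit 43700) (nat_lit 6) (nat_lit 116515097776298283682) (ZL.cons (nat_lit 43776) (nat_lit 6) (nat_lit 116703912431919348214) (ZL.cons (nat_lit 43852) (nat_lit 6) (nat_lit 116916564614653306604) (ZL.cons (nat_lit 43928) (nat_lit 6) (nat_lit 117153137717512995700) (ZL.cons (nat_lit 44004) (nat_lit 6) (nat_lit 116794571827637063830) (ZL.cons (nat_lit 44080) (nat_lit 6) (nat_lit 116472262071310772424) (ZL.cons (nat_lit 44156) (nat_lit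 6) (nat_lit 116186082052551248424) (ZL.cons (nat_lit 44232) (nat_lit 6) (nat_lit 115935919543900154766) (ZL.cons (nat_lit 44308) (nat_lit 6) (nat_lit 115721676442412922390) (ZL.cons (nat_lit 44384) (nat_lit 6) (nat_lit 115543268731187007286) (ZL.cons (nat_lit 44460) (nat_lit 6) (nat_lit 115400626446414085564) (ZL.cons (nat_lit 44536) (nat_lit 6) (nat_lit 115293693649943265882) (ZL.cons (nat_lit 44612) (nat_lit 6) (nat_lit 115222428407344559684) (ZL.cons (nat_lit 44688) (nat_lit 6) (nat_lit 115186802771464006694) (ZL.cons (nat_lit 44764) (nat_lit 3) (nat_lit 57676401598807301788) (ZL.cons (nat_lit 44840) (nat_lit 6) (nat_lit 115364672025174681794) (ZL.cons (nat_lit 44916) (nat_lit 6) (nat_lit 115400283162297096868) (ZL.cons (nat_lit 44992) (nat_lit 6) (nat_lit 115459650574133661512) (ZL.cons (nat_lit 45068) (nat_lit 6) (nat_lit 115542797542022350844) (ZL.cons (nat_lit 45144) (nat_lit 6) (nat_lit 115649756672617238868)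 (ZL.cons (nat_lit 45220) (nat_lit 6) (nat_lit 115780569910675421614) (ZL.cons (nat_lit 45296) (nat_lit 6) (nat_lit 115935288555505941504) (ZL.cons (nat_lit 45372) (nat_lit 6) (nat_lit 116113973281087163452) (ZL.cons (nat_lit 45448) (nat_lit 6) (nat_lit 116316694159860491858) (ZL.cons (nat_lit 45524) (nat_lit 6) (nat_lit 116543530690209759402) (ZL.cons (nat_lit 45600) (nat_lit 6) (nat_lit 116206463538624500354) (ZL.cons (nat_lit 45676) (nat_lit 6) (nat_lit 115905230976700829360) (ZL.cons (nat_lit 45752) (nat_lit 6) (nat_lit 115639714874022305768) (ZL.cons (nat_lit 45828) (nat_lit 6) (nat_lit 115409811106627094860) (ZL.cons (nat_lit 45904) (nat_lit 6) (nat_lit 115215429516175041652) (ZL.cons (nat_lit 45980) (nat_lit 6) (nat_lit 115056493874591459064) (ZL.cons (nat_lit 46056) (nat_lit 6) (nat_lit 114932941854173765300) (ZL.cons (nat_lit 46132) (nat_lit 6) (nat_lit 114844725003149247538) (ZL.cons (nat_lit 46208) (nat_lit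 6) (nat_lit 114791808726674366752) (ZL.cons (nat_lit 46284) (nat_lit 3) (nat_lit 57387086136634076200) (ZL.cons (nat_lit 46360) (nat_lit 6) (nat_lit 114883176488644951532) (ZL.cons (nat_lit 46436) (nat_lit 6) (nat_lit 114907151520316309532) (ZL.cons (nat_lit 46512) (nat_lit 6) (nat_lit 114955110985632229984) (ZL.cons (nat_lit 46588) (nat_lit 6) (nat_lit 115027073692226170110) (ZL.cons (nat_lit 46664) (nat_lit 6) (nat_lit 115123067860767382438) (ZL.cons (nat_lit 46740) (nat_lit 6) (nat_lit 115243131136027843916) (ZL.cons (nat_lit 46816) (nat_lit 6) (nat_lit 115387310601644911584) (ZL.cons (nat_lit 46892) (nat_lit 6) (nat_lit 115555662798585494096) (ZL.cons (nat_lit 46968) (nat_lit 6) (nat_lit 115748253747318979918) (ZL.cons (nat_lit 47044) (nat_lit 6) (nat_lit 115965158973707617478) (ZL.cons (nat_lit 47120) (nat_lit 6) (nat_lit 115649169016524978842) (ZL.cons (nat_lit 47196) (nat_lit 6) (nat_lit 115368600370682308256)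 (ZL.cons (nat_lit 47272) (nat_lit 6) (nat_lit 115123343009259667414) (ZL.cons (nat_lit 47348) (nat_lit 6) (nat_lit 114913300752899635674) (ZL.cons (nat_lit 47424) (nat_lit 6) (nat_lit 114738391232089914982) (ZL.cons (nat_lit 47500) (nat_lit 6) (nat_lit 114598545854861560352) (ZL.cons (nat_lit 47576) (nat_lit 6) (nat_lit 114493709779890168508) (ZL.cons (nat_lit 47652) (nat_lit 6) (nat_lit 114423841894989476158) (ZL.cons (nat_lit 47728) (nat_lit 6) (nat_lit 114388914800988934010) (ZL.cons (nat_lit 47804) (nat_lit 3) (nat_lit 57217313487038959950) (ZL.cons (nat_lit 47880) (nat_lit 6) (nat_lit 114446733178189199682) (ZL.cons (nat_lit 47956) (nat_lit 6) (nat_lit 114483056538054063060) (ZL.cons (nat_lit 48032) (nat_lit 6) (nat_lit 114543611298127358994) (ZL.cons (nat_lit 48108) (nat_lit 6) (nat_lit 114628421205373822116) (ZL.cons (nat_lit 48184) (nat_lit 6) (nat_lit 114737519518580607898) (ZL.cons (nat_lit 48260) (nat_lit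 6) (nat_lit 114870949021399954298) (ZL.cons (nat_lit 48336) (nat_lit 6) (nat_lit 115028762039127084588) (ZL.cons (nat_lit 48412) (nat_lit 6) (nat_lit 115211020459219930974) (ZL.cons (nat_lit 48488) (nat_lit 6) (nat_lit 115417795755568725950) (ZL.cons (nat_lit 48564) (nat_lit 6) (nat_lit 115122469714467087722) (ZL.cons (nat_lit 48640) (nat_lit 6) (nat_lit 114862159809880299886) (ZL.cons (nat_lit 48716) (nat_lit 6) (nat_lit 114636763959492838212) (ZL.cons (nat_lit 48792) (nat_lit 6) (nat_lit 114446193772775138988) (ZL.cons (nat_lit 48868) (nat_lit 6) (nat_lit 114290374516320646254) (ZL.cons (nat_lit 48944) (nat_lit 6) (nat_lit 114169245084538593544) (ZL.cons (nat_lit 49020) (nat_lit 6) (nat_lit 114082757975691027112) (ZL.cons (nat_lit 49096) (nat_lit 6) (nat_lit 114030879273264673400) (ZL.cons (nat_lit 49172) (nat_lit 3) (nat_lit 57006794316335172802) (ZL.cons (nat_lit 49248) (nat_lit 6) (nat_lit 114018847579703168458)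 (ZL.cons (nat_lit 49324) (nat_lit 6) (nat_lit 114043302112007953618) (ZL.cons (nat_lit 49400) (nat_lit 6) (nat_lit 114092220766630192478) (ZL.cons (nat_lit 49476) (nat_lit 6) (nat_lit 114165622727356011408) (ZL.cons (nat_lit 49552) (nat_lit 6) (nat_lit 114263536779268047984) (ZL.cons (nat_lit 49628) (nat_lit 6) (nat_lit 114386001320033718688) (ZL.cons (nat_lit 49704) (nat_lit 6) (nat_lit 114533064374963127710) (ZL.cons (nat_lit 49780) (nat_lit 6) (nat_lit 114704783615842521874) (ZL.cons (nat_lit 49856) (nat_lit 6) (nat_lit 114901226383550677414) (ZL.cons (nat_lit 49932) (nat_lit 6) (nat_lit 114626159083704921936) (ZL.cons (nat_lit 50008) (nat_lit 6) (nat_lit 114385710690153313268) (ZL.cons (nat_lit 50084) (nat_lit 6) (nat_lit 114179786909408184110) (ZL.cons (nat_lit 50160) (nat_lit 6) (nat_lit 114008306987045712844) (ZL.cons (nat_lit 50236) (nat_lit 6) (nat_lit 113871203676037522030) (ZL.cons (nat_lit 50312) (nat_lit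 6) (nat_lit 113768423210379294732) (ZL.cons (nat_lit 50388) (nat_lit 6) (nat_lit 113699925284006066938) (ZL.cons (nat_lit 50464) (nat_lit 6) (nat_lit 113665683034985927578) (ZL.cons (nat_lit 50540) (nat_lit 3) (nat_lit 56811663463292149883) (ZL.cons (nat_lit 50616) (nat_lit 6) (nat_lit 113635675254777805144) (ZL.cons (nat_lit 50692) (nat_lit 6) (nat_lit 113672725081839965786) (ZL.cons (nat_lit 50768) (nat_lit 6) (nat_lit 113734490937114727642) (ZL.cons (nat_lit 50844) (nat_lit 6) (nat_lit 113820997042506120026) (ZL.cons (nat_lit 50920) (nat_lit 6) (nat_lit 113932277321977041524) (ZL.cons (nat_lit 50996) (nat_lit 6) (nat_lit 114068375414852774850) (ZL.cons (nat_lit 51072) (nat_lit 6) (nat_lit 114229344692934447746) (ZL.cons (nat_lit 51148) (nat_lit 6) (nat_lit 114415248281429151064) (ZL.cons (nat_lit 51224) (nat_lit 6) (nat_lit 114160042492618574754) (ZL.cons (nat_lit 51300) (nat_lit 6) (nat_lit 113939066168709298602)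 (ZL.cons (nat_lit 51376) (nat_lit 6) (nat_lit 113752232652319397402) (ZL.cons (nat_lit 51452) (nat_lit 6) (nat_lit 113599468675403228056) (ZL.cons (nat_lit 51528) (nat_lit 6) (nat_lit 113480714330518862654) (ZL.cons (nat_lit 51604) (nat_lit 6) (nat_lit 113395923047334973994) (ZL.cons (nat_lit 51680) (nat_lit 6) (nat_lit 113345061574367960552) (ZL.cons (nat_lit 51756) (nat_lit 3) (nat_lit 56664054982971074494) (ZL.cons (nat_lit 51832) (nat_lit 6) (nat_lit 113260016112694115620) (ZL.cons (nat_lit 51908) (nat_lit 6) (nat_lit 113284959735644996480) (ZL.cons (nat_lit 51984) (nat_lit 6) (nat_lit 113334856763359680118) (ZL.cons (nat_lit 52060) (nat_lit 6) (nat_lit 113409726763300015428) (ZL.cons (nat_lit 52136) (nat_lit 6) (nat_lit 113509599096250292734) (ZL.cons (nat_lit 52212) (nat_lit 6) (nat_lit 113634512927831276854) (ZL.cons (nat_lit 52288) (nat_lit 6) (nat_lit 113784517243859274054) (ZL.cons (nat_lit 52364) (nat_lit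 6) (nat_lit 113959670869556256104) (ZL.cons (nat_lit 52440) (nat_lit 6) (nat_lit 113723937150388012310) (ZL.cons (nat_lit 52516) (nat_lit 6) (nat_lit 113522051090833964116) (ZL.cons (nat_lit 52592) (nat_lit 6) (nat_lit 113353933519890364836) (ZL.cons (nat_lit 52668) (nat_lit 6) (nat_lit 113219518509098020902) (ZL.cons (nat_lit 52744) (nat_lit 6) (nat_lit 113118753346687994138) (ZL.cons (nat_lit 52820) (nat_lit 6) (nat_lit 113051598516910319830) (ZL.cons (nat_lit 52896) (nat_lit 6) (nat_lit 113018027684537634184) (ZL.cons (nat_lit 52972) (nat_lit 3) (nat_lit 56458088684223131995) (ZL.cons (nat_lit 53048) (nat_lit 6) (nat_lit 112928772663203639472) (ZL.cons (nat_lit 53124) (nat_lit 6) (nat_lit 112966563486807043328) (ZL.cons (nat_lit 53200) (nat_lit 6) (nat_lit 113029564659187300420) (ZL.cons (nat_lit 53276) (nat_lit 6) (nat_lit 113117800886686520652) (ZL.cons (nat_lit 53352) (nat_lit 6) (nat_lit 113231306771746860580)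 (ZL.cons (nat_lit 53428) (nat_lit 6) (nat_lit 113370126826480108574) (ZL.cons (nat_lit 53504) (nat_lit 6) (nat_lit 113534315490123414928) (ZL.cons (nat_lit 53580) (nat_lit 6) (nat_lit 113317672035310399092) (ZL.cons (nat_lit 53656) (nat_lit 6) (nat_lit 113134501921202652818) (ZL.cons (nat_lit 53732) (nat_lit 6) (nat_lit 112984733316382878950) (ZL.cons (nat_lit 53808) (nat_lit 6) (nat_lit 112868307488064873654) (ZL.cons (nat_lit 53884) (nat_lit 6) (nat_lit 112785178779061061242) (ZL.cons (nat_lit 53960) (nat_lit 6) (nat_lit 112735314589877714730) (ZL.cons (nat_lit 54036) (nat_lit 3) (nat_lit 56359347682965420324) (ZL.cons (nat_lit 54112) (nat_lit 6) (nat_lit 112604024183311015800) (ZL.cons (nat_lit 54188) (nat_lit 6) (nat_lit 112629466678720914278) (ZL.cons (nat_lit 54264) (nat_lit 6) (nat_lit 112680361646989891588) (ZL.cons (nat_lit 54340) (nat_lit 6) (nat_lit 112756729046929033602) (ZL.cons (nat_lit 54416) (nat_lit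 6) (nat_lit 112858598826538316456) (ZL.cons (nat_lit 54492) (nat_lit 6) (nat_lit 112986010934750920258) (ZL.cons (nat_lit 54568) (nat_lit 6) (nat_lit 113139015337099477406) (ZL.cons (nat_lit 54644) (nat_lit 6) (nat_lit 112941087827732763490) (ZL.cons (nat_lit 54720) (nat_lit 6) (nat_lit 112776266679748842628) (ZL.cons (nat_lit 54796) (nat_lit 6) (nat_lit 112644487257403407398) (ZL.cons (nat_lit 54872) (nat_lit 6) (nat_lit 112545697882491616454) (ZL.cons (nat_lit 54948) (nat_lit 6) (nat_lit 112479859814082131838) (ZL.cons (nat_lit 55024) (nat_lit 6) (nat_lit 112446947233324596890) (ZL.cons (nat_lit 55100) (nat_lit 3) (nat_lit 56155293471811034765) (ZL.cons (nat_lit 55176) (nat_lit 6) (nat_lit 112323434144274592526) (ZL.cons (nat_lit 55252) (nat_lit 6) (nat_lit 112361980784350064458) (ZL.cons (nat_lit 55328) (nat_lit 6) (nat_lit 112426241980177926690) (ZL.cons (nat_lit 55404) (nat_lit 6) (nat_lit 112516242932227131326)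 (ZL.cons (nat_lit 55480) (nat_lit 6) (nat_lit 112632018934988678054) (ZL.cons (nat_lit 55556) (nat_lit 6) (nat_lit 112773615390816591010) (ZL.cons (nat_lit 55632) (nat_lit 6) (nat_lit 112594036847573702506) (ZL.cons (nat_lit 55708) (nat_lit 6) (nat_lit 112447204882064120282) (ZL.cons (nat_lit 55784) (nat_lit 6) (nat_lit 112333061913124899404) (ZL.cons (nat_lit 55860) (nat_lit 6) (nat_lit 112251563178807436256) (ZL.cons (nat_lit 55936) (nat_lit 6) (nat_lit 112202676718823763204) (ZL.cons (nat_lit 56012) (nat_lit 3) (nat_lit 56093191681006551169) (ZL.cons (nat_lit 56088) (nat_lit 6) (nat_lit 112048345870709471668) (ZL.cons (nat_lit 56164) (nat_lit 6) (nat_lit 112074297216027568118) (ZL.cons (nat_lit 56240) (nat_lit 6) (nat_lit 112126210083661924972) (ZL.cons (nat_lit 56316) (nat_lit 6) (nat_lit 112204104831599849826) (ZL.cons (nat_lit 56392) (nat_lit 6) (nat_lit 112308012006801318336) (ZL.cons (nat_lit 56468) (nat_lit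 6) (nat_lit 112437972357178174218) (ZL.cons (nat_lit 56544) (nat_lit 6) (nat_lit 112276382996409624352) (ZL.cons (nat_lit 56620) (nat_lit 6) (nat_lit 112147187484306256480) (ZL.cons (nat_lit 56696) (nat_lit 6) (nat_lit 112050335155961363398) (ZL.cons (nat_lit 56772) (nat_lit 6) (nat_lit 111985788030069711814) (ZL.cons (nat_lit 56848) (nat_lit 6) (nat_lit 111953520794032912844) (ZL.cons (nat_lit 56924) (nat_lit 3) (nat_lit 55902046990135606222) (ZL.cons (nat_lit 57000) (nat_lit 6) (nat_lit 111817198124936785898) (ZL.cons (nat_lit 57076) (nat_lit 6) (nat_lit 111856515697813767270) (ZL.cons (nat_lit 57152) (nat_lit 6) (nat_lit 111922062117558186746) (ZL.cons (nat_lit 57228) (nat_lit 6) (nat_lit 112013863088648375474) (ZL.cons (nat_lit 57304) (nat_lit 6) (nat_lit 112131954611465153138) (ZL.cons (nat_lit 57380) (nat_lit 6) (nat_lit 111988001704102817624) (ZL.cons (nat_lit 57456) (nat_lit 6) (nat_lit 111876096832593777548)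 (ZL.cons (nat_lit 57532) (nat_lit 6) (nat_lit 111796196112674696030) (ZL.cons (nat_lit 57608) (nat_lit 6) (nat_lit 111748268210729918528) (ZL.cons (nat_lit 57684) (nat_lit 3) (nat_lit 55866147165751890212) (ZL.cons (nat_lit 57760) (nat_lit 6) (nat_lit 111590582687904741026) (ZL.cons (nat_lit 57836) (nat_lit 6) (nat_lit 111617053060129199402) (ZL.cons (nat_lit 57912) (nat_lit 6) (nat_lit 111670004185116243396) (ZL.cons (nat_lit 57988) (nat_lit 6) (nat_lit 111749456828012926746) (ZL.cons (nat_lit 58064) (nat_lit 6) (nat_lit 111855442146718424628) (ZL.cons (nat_lit 58140) (nat_lit 6) (nat_lit 111728779879950416910) (ZL.cons (nat_lit 58216) (nat_lit 6) (nat_lit 111633826616867188398) (ZL.cons (nat_lit 58292) (nat_lit 6) (nat_lit 111570545120894980962) (ZL.cons (nat_lit 58368) (nat_lit 6) (nat_lit 111538910575760864326) (ZL.cons (nat_lit 58444) (nat_lit 3) (nat_lit 55697181018066298702) (ZL.cons (nat_lit 58520) (nat_lit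 6) (nat_lit 111407728263691482326) (ZL.cons (nat_lit 58596) (nat_lit 6) (nat_lit 111447832188026003324) (ZL.cons (nat_lit 58672) (nat_lit 6) (nat_lit 111514689536165311192) (ZL.cons (nat_lit 58748) (nat_lit 6) (nat_lit 111608326526677303696) (ZL.cons (nat_lit 58824) (nat_lit 6) (nat_lit 111498615868335107542) (ZL.cons (nat_lit 58900) (nat_lit 6) (nat_lit 111420281829198753112) (ZL.cons (nat_lit 58976) (nat_lit 6) (nat_lit 111373293690037206542) (ZL.cons (nat_lit 59052) (nat_lit 3) (nat_lit 55678816512064614005) (ZL.cons (nat_lit 59128) (nat_lit 6) (nat_lit 111228459220345150268) (ZL.cons (nat_lit 59204) (nat_lit 6) (nat_lit 111255459000014097812) (ZL.cons (nat_lit 59280) (nat_lit 6) (nat_lit 111309469147500882684) (ZL.cons (nat_lit 59356) (nat_lit 6) (nat_lit 111390510843255499706) (ZL.cons (nat_lit 59432) (nat_lit 6) (nat_lit 111297419408860177634) (ZL.cons (nat_lit 59508) (nat_lit 6) (nat_lit 111235378726534484070)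 (ZL.cons (nat_lit 59584) (nat_lit 6) (nat_lit 111204364466599075604) (ZL.cons (nat_lit 59660) (nat_lit 3) (nat_lit 55539587814252288607) (ZL.cons (nat_lit 59736) (nat_lit 6) (nat_lit 111092809180614639836) (ZL.cons (nat_lit 59812) (nat_lit 6) (nat_lit 111133715183435851254) (ZL.cons (nat_lit 59888) (nat_lit 6) (nat_lit 111201909678537945280) (ZL.cons (nat_lit 59964) (nat_lit 6) (nat_lit 111125111600953284074) (ZL.cons (nat_lit 60040) (nat_lit 6) (nat_lit 111079044797853728614) (ZL.cons (nat_lit 60116) (nat_lit 3) (nat_lit 55531845601913149340) (ZL.cons (nat_lit 60192) (nat_lit 6) (nat_lit 110959818945584727648) (ZL.cons (nat_lit 60268) (nat_lit 6) (nat_lit 110987358720847054144) (ZL.cons (nat_lit 60344) (nat_lit 6) (nat_lit 111042449071283574716) (ZL.cons (nat_lit 60420) (nat_lit 6) (nat_lit 110981624872925051614) (ZL.cons (nat_lit 60496) (nat_lit 6) (nat_lit 110951218735733474686) (ZL.cons (nat_lit 60572) (nat_lit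 3) (nat_lit 55428218070945508093) (ZL.cons (nat_lit 60648) (nat_lit 6) (nat_lit 110870342365043280060) (ZL.cons (nat_lit 60724) (nat_lit 6) (nat_lit 110912066487920915710) (ZL.cons (nat_lit 60800) (nat_lit 6) (nat_lit 110866902955470371140) (ZL.cons (nat_lit 60876) (nat_lit 3) (nat_lit 55425925206153112073) (ZL.cons (nat_lit 60952) (nat_lit 6) (nat_lit 110782620227257547130) (ZL.cons (nat_lit 61028) (nat_lit 6) (nat_lit 110810710798025120158) (ZL.cons (nat_lit 61104) (nat_lit 6) (nat_lit 110780900859602005522) (ZL.cons (nat_lit 61180) (nat_lit 3) (nat_lit 55362078953325754004) (ZL.cons (nat_lit 61256) (nat_lit 6) (nat_lit 110738342254266817162) (ZL.cons (nat_lit 61332) (nat_lit 3) (nat_lit 55361792429503924760) (ZL.cons (nat_lit 61408) (nat_lit 6) (nat_lit 110694932476824925034) (ZL.cons (nat_lit 61484) (nat_lit 1) (nat_lit 18446744073709551617) ZL.nil)))))))))))))))))))))))))))))))))))))))))))))))))))))))))))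)))))))))))))))))))))))))))))))))))))))))))))))))))))))))))))))))))))))))))))))))))))))))))))))))))))))))))))))))))))))))))))))))))))))))))))))))))))))))))))))))))))))))))))))))))))))))))))))))))))))))))))))))))))))))))))))))))))))))))))))))))))))))))))))))))))))))))))))))))))))))))))))))))))))))))))))))))))))))))))))))))))))))))))))))))))))))))))))))))))))))))))))))))))))))))))))))))))))))))))))))))))))))))))))))))))))))))))))))))))))))))))))))))))))))))))))))))))))))))))))))))))))))))))))))))))))))))))))))))))))))))))))))))))))))))))))))))))))))))))))))))))))))))))))))))))))))))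

noncomputable def vl : XL := ⟨(nat_lit 0), (nat_lit 0), (nat_lit 536870912), (nat_lit 0), (nat_lit 0), (nat_lit 0), (nat_lit 0), (nat_lit 0), (nat_lit 0), (nat_lit 1), (nat_lit 0), (nat_lit 1), (nat_lit 0), (nat_lit 0), (nat_lit 0), (nat_lit 0)⟩

noncomputable def cp0 : Nat := (nat_lit 28312661040770486345458149535460319180311000687443201264883821431523946692278098821467370560302689266578551638400859981607903077903976357218373321758834795355325506696914997484640092555781402233662627253826765988389880079422471505256318064568298595748778535277765614319444258752580751078671912682362519098661025015175468200667101319040781798337482455312820247366000037255874700230555510067997663254260025816486301134880553964518453618969543849038877692287055274031495182641244757813344204565681364358092275991516307609299799115890636641581436893352214865148927982127141082440147482263184194113742172231163859088382442954772378100032232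701588201086763451716571329727410284713341128913487340471971985891632287103407616969386245471730318650321376539557329536340324346044444971576503350344844941646866310996692248462566464352217899828025898321134889605841053023369092041502448648197339532547228463006373392105872434172896702742679289933000103936454466462929071008130408518287100673600469052459390443563823731524301104166326350389278617753924947987355449751414450959153333521918770101484301916677850336302210402014115169062603940836999703239257260117635203658450312652268002744702987180491959025687933227521569745634128843941478740775157244995307222802195571121765344608207142181427577101627217202066537569527809791089331661680537418531154041948840642427847630971719665895711568686684907522485491418155733883967951170978750155025794569781769197987635096928254843889416367784235304086675680426405593361289790840056415240416898159486041638628301847306118262866987458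658601897320212590334922715208733641643824894591514708747793191208789576022687279568750637917163840106127192622440590499549137714046157963615764058943052665183987584303426536793600288214048462035448006798418780114324579409012111344805544312260538062904094578522722508662273783409075266672451999590333878067523584655936973227709333344506729172515189925016981336622827509029683164706988289753341541142328882677637713675017276612209203352761419171171972874898442980082321336665328411791898997302243296576770501957829839979546124761575699792793025058019908825128714853513412887277130447435588116713905116577648057483483652969231609461025545229581126592066387777109156535787616054906778368508983166479836027965030718177881851286403799647554400365956298094236374226892419511659879199631887676827284039352082027571055079386523350874496869503556561731710913411912497068053626090511610448999973331841783444232466031102687787260292673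798544516528298481657215638087782342370092111949954223704964532411901575843790499552230597420360931370293565697066641068998410092286611998408955661160152323195876250736224554700637923103961039757821734028835690802970000064294487018322756386118359864433568408596351660890380249613400956445607247720903336975470321809186848441012848670214050388173083858501134145545003188173344332209798894625249707214917159297311386995654572786597729218685290872650102795120152023422197555163622170471228852387100330821894879240258207016339876999629943518282322515514612440210114605877660846919295091742523094072468321290710167128024252864071165714248937356988524349110178410315263748959536624628329776507033246987291426657434951143451662614078905301911949859065578164612169528548687625310508229662104352063126329873672895429349874546851145625585225263088297299225713837036275145052904753737342538597839933832894982926680806031952267228910934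010501725308439332985287283281356066508350181273893177629445940936232097389770547928401148973458311404199080773901414309960166027157267115867845649179610622885843540990395167036931258448157664699419827650380407682319681921711264748020953527670626498174524180908983541820160506815406801489624339215754638600999689898544765261044756320870398608063619023702932619213048576826196323954531256392764289212412784285190871412311158816415640396085332949015917332804517519380374015620770191002390712364792915233431000704056485070045352289371895029142853128799569022415755732893355435409931634748531707420342632658797948934742979636096765627463131954586889923259023965105578925528411975918745421229904734856285900122064215221016270769670460442916601947612095437096311963958679889449571414175951721062110674550329716592284483159840998460794558179237351749610106162628048398586029791290781428050925862831819395883816451316386268138440122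351874870216543587554620468952515233538024268812319626333850540408090659969822188568862096016540382771461725033799764822880264784415235270962923931284347475968750588261953438654228476294869435552667454584039883336067349697875236091324583202008503081521181038729556511420800106007968714050992641956507339347778752274890059598327854116009091307995052672695440067259021799487141778418435832227185399102293449913257804743713842099651920108401242111185280524551468899722559518747930632287187114746416664152448381460880199287306430788377298075009209860002045054666598396044599471126146111697405015913903919229620781660749071830132544505190783405349140524116666121729882666510984636083133104480883443107919889023937411874907550883635422845237676488348856663941238296791297479918492017906064595879496374679227119280592424567376306973328020997203032031876599736914018854608492681313014372444268532532654173674015158950465277101716969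101538892673343681529943471107564191605168265468894374069661079052402906340428485190951278645612300884232576312871425662758837778925140664675451174611588098828627652430154781319203863495620264882807321148310904128731443237120818010647573852858007441809329233782832886159323874329840933739315513820312052589319193351984163470153400818548092105411839254114457241353957033830961989508961972020382619851217682063940367501410742711202185436735539364668662776733998701019950061127118073639169160614996070247655890000385179353566369055143864112890025085805467645686289169291731613003855933805253479953615101569366133431898973701207224455508195068707797879080543033797773079875704637387821411719354833749391407721801039761002648113897930841727683389955964801856801044081024789075344838241191225837884986611468804841333986612126755855158615928639619096508710507348237026932135802213403236214374239285535651073696938952567019742192915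784253231714811308801872196638623545560445150329905426443291923841631692950409028778906656888318729407413947849873926191136222896690936966079058852904761277754421406782798147900103722815732268212491612845907147818555900011578888284916213345490635288272698129217800603124548588182490635318202969332387265291921965898173684208637332578634197374605893441932385473419766301541356759504887068372357589110700849430313810650470032488989355856412251571043652696138881963719813273534027012627737849488478525436274786430957671782117332616021428461947100505834010111969051969379011741036350078463741571063403538751868001801735286347968672050455924287352712338238567488016764372244287849290455809761048921611666847305865706887946670574427564549204562736872448447143650075311696683603441765363591515302258586424345033026291199896777276716010324864796241405766405748806196300065336750426131857582386687198669976349197621227210178435170602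866762707692053014673633147231355044784000469694352464954777274313199078827237271313494690501948366265258801693608329128753477055995080231943023141384648809800553015834998753631624803595031387804013492658122714080089285199012285677789383692827929671495834941907882439219090498035674738125704134250619698769973676404878356671636064261378732809032281834463075913640081652516826352240967394232506393093504640860330670748690806951758762921207332223907924129592897388196285165681286757649399658313498906143923620953760851524882491772135858549877502032511094726796433251241430491241607166944250688885967381218442563289029669467872398279665472275662652280787928005308582822844756849582447008691903110089185154208575848144958195721713442193891961538785352865520457406121859147710556345990809947382537703374785054243342685098237576311229086803716423265714278940938228035524434800501671350851492320057506868261822979757787823637493011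636370918052613752460356343559637310186650299112824721853374611868568864463591687767685976547767309971649090120723012467191087152429857531785095624273783361126339857460782286651339043338721718220081800183674491149964804272626019779755162613803460718780979755363544722374217471433152455592306775806816975066589611090971400715756411493162444290793472541414781268655051849939368433552300376938960558111933708397588097133445742594600698838030930393104765089018261449125462568561150999853160512707076274457127775094222544481965351690159636042823728329504831315988616621665401810359330398077857071336223992506036614401434794370549143073503077709158468894400428403367011613614613409189730882870580010963075830608179943082317601181373794166759310232693349488380147586610603697026291912642999292775446001546103566197131282966341135626495256415016438151976075796207960656309960287841504124062419601937090005671833053396061885110730471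680614444866547494567915741852050614648309633307514861899657760086331908778298415836780847112599148238194069169496800758683714473117063499876625423631929024724190904532950080566661623984144244870858405751590795921740660456601781297612000647082828912871221866657105098113720684499504941646103553006908091841916321106056776882225963258536132785720728569858784287307413402844745582381982885887427161691402567105900112138713570013467274330598736603944007935977546379056445081405889726068765820946041451839795060087177755740958330014026804659295275947691528493025454354793052762433127618455356115428827059988480548030016533726991281099128486634961253425002180660388740599555665957479923989583223201918025265871933154256676179584227965453991417399900767283468361656292624847463145227154274208758338824160169927337917422177576547514418977190943373430186311639252260723674829598256109356449875706078995425431033732656244642597633860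131402081740805516901302555428078420816782720719577218958351902440295978497221567094308237713058729843417027677260960974568044964017955478658687613765009904666126430301039863754392466687479402525639363893691030489820042524183263881501568777759623798364235037244647622367985710645304484224104752491981403277264295427247536489637393886822430206365007506241032029877094541077126652816192349326629066345601731831572814824895077913058278541479692224842381040809970985498960609818428158070472084321882882973210586296031077312936751180429726907879275449685716289379318401832565391202442876828488011364030257346370339246925181504591669864411264086660989385836313814423308709307117465931586667833404462976868601885612675930678145089076690535475327549343067328630987143124170235356070930811038028183817179436148225786982295416395590691274652119104318442671670292829156355649697595759081410281190993993663456658929727607570971535904981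172050875510086032439692405834441760660168632537972329725426925466166918805066426261172266057584176960016972575859068324319999146955655901989360571444166664712961951196011084191773779667856659879899203529565743836839446749291471338907091647118180315855949353217506687375302776450592367478452848593386746944527437753222190446715241065969998442578638429045924382528604060058857266351171821512143797795654354909967058384010244819559477467016147089175187272822213898763866812347840917955564179755498353739553992977492048228415452317531057428705490146141768020850850308102729829434807381753412613254057056462026046403687545919126180057849994020738324966139674198860289476809391220281417448239718482076079371067846924413165350532107716756074517029044035267620136992632740550441649424171065956676370100056476926045591593266792592703951142307910825976359350576082214396844222733556201834532441405469261681007048441036522727854062718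693337097390493410823333624292625999840581933484099607086006776755562018148831824677048406110742179776126817758010348277618760204602781425680264369180437537337899180951987032876297968690330732715362243552912917716754649867825813152812893362769054963397305779150419582014490524263630126610963311824444854184217312453138162840686940145101857003493734327816662130738235619450746015008284558679115086719366619343531535494541735903761548369224209237843367413437180674793963346819648436897142370209875846798550853367371554823901653295915459750795320917957645316684474798974693587908384741531361586328374455289743494389240532179947452695904522047373921840260608330365072612745095277699151582376103721288238552236288021855559695625143114380931712319088009725696800008297823347267506046102775962676327778840880471574174130802650182701330864905162572778355390371892591743377022201752593687298927809295361713379687158968678297088440506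930047746322063862970135850066040437136591327058585687048102350935537782344571011449448703412325423540880316667896378506279884346923950276811366015619643024125186409526461995128287635486060206242265454546345128729721158163864484339937949174384971788426270468614824353657521398322055113735056435678253755809245105475933577858051810694443035740860813347237013158299254401273420591954800847145484186871443054720523617408678009514405263129301310196899009679054602617600636988077368863823990452764945788296977239846235992889991433431018137021010601283129363940251226790559502721661633744117956505995047459820239469825208649075064195029509420951285498688759520844486530855793952652549096957646092574326773066777088137799201896340618957578887239606100378361955695478717218161020720320676544076455983897884504148861544490142153994632533698766945755106105324949193633612454601244045626217564235813936622000098300444480411187391867535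381445608143606540200018880439670285993485246062746736475950923005277279685579083415209074174586424437706647664308537524100078717903247564305417215304057066153375672966587404366530977764153951557242172796183619397432747226431080830932198119566739661157750880886282308207081184209747726653453736422153377935402040126174469548898959893094716787765431235611959314287652802474008606658070578643022775535862130031682097098211787407051888925448304614807517198272961019967050360280631723415814194154046460646598775632995934372783452438162914725277883623314392062417636525339710525791683942045094445821667257853449302815784303888463059603169481930658681067673009343874379004445819335638461314370616529116435074247579131846030084820179965432135889904717027552824936610850886138292068236221536992364179465722057628824174207405784676065882063690071666006665958414231364677787999305942455441504405860337707358246492624407536969725647910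947722143985523453871745749829654570063018792274519819620293790290533106494564797217585509415209357523986543663732871152836547585173625643447295786448550949801621882921073130779984212002935472964245934648845199646866264165023758871758487570451153610936716407970163559378838063181246670387738937997705241866521061813804397916017965784295092318218960220868266534667972244054684968104462070178758754738641986111883565337512521728604173669336798024717245310721499288125247272341380006619563940949559696272657502224139363795609278542731640487159645164767807378680437988563707536059013406056636700206721282634230897211989941895064379323526966095142012450645781790573871359555332023796877945885646255546692415580378233552366351245024741968432745043690436535146578696285844398959038186405826617231667334754687821727647648327674996855670892427024551524120055040275694168981683490199681504933084278025975039099891620698470028467592404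332595307749783088601680179770436331701392248027448387630464405465683967072686584424943654759975889720033230687445864145443870662474840479849434732887120631999837811242719696344740825380093936106810149067327772259690302054800812968083435149188123032066750475709124906751054215900608980526077824253104261094226803478340232222265111059103411156001991255302916629027210957916225619336291950897907417657622999924959977377724077205766432620604890918819175232003698161265424509350369874168406579565341863670173325874899286021500760224786936026919629177816910891756275014115480126182853192962312127053237922761290462633181690635896470421657216133826647445173400011091476315373555058862296238316602948425569330850740744009110277475086539109888443063155825150348876892002019465226135040774052925982832195035533469048821389268448573053004564690485290327676443367616576287855668569725562717038768694816352787345723229662994063872643216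395220751733094956605528142179659042241660305250373473937690416180129688870500658873179360518157552720131868244534295520766410779292675152217091598497533646230178009741070139892929162336967097892863936591801971356148317197206781748911224842130866998959925292001622412028839395171444154941152644055415178413886169594089748084877479226432861613108043818767070845574249776808184453101724765600659362584316398281434498400479083431672891925556181128897549186719908626175887338930755057437831006227196505404531960051609706259959687985121395082533553297973053115028361953783454525450841784253162391116164926077481475339517489096047621461456908309899864328248932290253180721995025554017748339085791025675501691613335153811670236653501195665994129448126325319441875302209554228500801709249972326047166655280133734590080138640363727003721673504809551318930954331927224104300388796162621440924218673945861667903967243991070101303156928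4017537026230756460334654186888720446023758291027938689540949971680378638414223541206133399886265737122551767952407865093272457195930771979346586953039231454103590957508746040782377602460871959401577077915957546415066456809185365113155725757529504600102265710013998373548377177939798893724824942649592422213843610725041908069629838651996345690963292443890076385951181971272018925333355959683044667021320358115082190612217879512654290066498362372802912630858925070057021287124086554635764214159106811029850499227545072613630972797650323441929273179917443088713182703209659625190194807863390441686316460588472910106997065326576967188459645904943868446109956547712305941579593333087262042010705513377245703557052869113237869014376435520161765492584086865870740087787901080823021590979055356829024835541417881214062186952899155110309946579203470464815802971175905179296009279750830924016830509871821800883763061485500483679759746130014822423259661296810395447372688788528704664202560131942933360868194180839799304070692040567048979078718422091638577385915896482003155522744553825901380559575810912568349854320337050062870142471665831421252073769202817314258056202118933473432674691782071008126566126323215621016168073373966028619975090626968392166849080071643201536)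

noncomputable def cp1 : Nat := (nat_lit 285151883295965871879666444098457652579867141760836415189820506607597161624441624343996355167090460916380696095733250973417320167158198453583005068310011454859937609706776939762678624823737032223781620267848233787279876490663405230213428752962464878174702896699876412658488693895454333909469864857108734423896349920587438969467035554672977065765476436246309845640658975119868030133469875713191390345389355095870816552635585555662988167457392917611203974990481512060824481064441997016703583108746118650875416500217827643950540172117254027705673021849609918703813579896378512162066392424566572039481310146935224985030186266404588725322079198651285648398556068357954435105146185734408169353563161309525996561708483124429395202846902750612634870663578546362071143741235176321491757799709009383118030014103545151363072139798683580816987034903230338191065050669995719770355376655781465621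193226893159340183154217228539609242462878077761079556373010079829085446790347860287586979046960017628701069038352164419220734364660000066786528371229181157670282116282809186796790222831173939329603782699426708692820464744746881476669783970292325088118287182413658355027719395833797915638307949261486590102065408016670500067488665845318304245103783137363862471119488760837814369624400524520641422864002011373680705746687382479237484881921314211716201920270875838876986972178142482187639595287637976669308703071365413734510644676616236820119007896324253490873838368072019789617206801048867336900411107425376503534552187127576089185227006869561223284063276058170897995273982477776177329120499050412054261916683227900861090846123581528585429399680212196377429675785283000463267103505579470685838825691295165774841760845237051775146605910857499852906630876238509611148392293759269843325117518236030299716447321548384844614060360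929241016910521254337378625508831976674042037440624236405455160713228596846239408517848662360739995860136513021640884436460456960013487374297357576055046246857897182151244351146217106541057061864094469238829308384110329080856298693188688496176539484457460202084141523517717204836043652749638524751133842735764737878180775918682996186909463640224142857633512110893463488466394905332077622758967286909198430010593084975423484611890140213528333052256100066813124544804922239048970339077167023042355420432099428915711673804331782707756573438285617929573757452341423211354377359267377243867558265246035657630262731166442625196787907119204876241056353656603865689116349041431803865278488628180831998985073619414454585305243438046641112983202784142491685904553047078904695212034841255819576548538402710900850277218546160790711679168097557093407228111819528305127638683103219134711761840853801548382680300823726151100093879998651780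919899800566689948150050601332670509219177904158839917667648201309392386231965495228822326038352251723544418863479014571054718581925020158911830778960772556126101570265994082080005148665113323116602601668475700612408563451993221456486180671697744880626554499129171740388707668712005105179827503306918234428334349572128912156032837694832613673382208258214703249140429502381910473442815354580696052549603917868737928280280537741312080799320929780689810883620241000741746620904874454698842265840070330511143951467730488228388055935725255271032476278369532715024940267719678647791099928858676807958955865954256028854924483544128387928745264665686377810844252450518229719064709508844390395710136600084019752696556210140335974275374163044750151027739747479708429725994104696695237863228925282152739087178290179378606842488570034228322284355150548502387707557601642375707089512556482166348211057197089752510458220959192683883636213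415740465268966003518121544465722683727956178412491885349581108446834246766886472402887915075879299420817373790555357156770782589895570417212377261652934315533351984160208030499785319617400790044576626725575054520917789222564969015340647223865687729186075584787124714673526048670346985052457033236616765176228963051446888488653856728588614604602468202409040153889069935734156949423742144061495115441338674135139594938471394140556596748816216208978882551918106667630071629072224553306283931573714406679420192570805742657934100667425186065039606691553908668263643792730334432524471250161395947654291252072237719132879504228009409017257786281013827606805267084272414034668210562046046693395089868563397240510818538918080256642183021969325606047403250146494199545510909985510234369628187196684044507479989839542574853144169063156402921049894167089554067862104791218792853783285064783637209491075028310941703095412232938799848877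987858378040058479447263841970743912271201143667258850117900084745547264383154059219013711926478022837439881146359497560684234973921257749582696035314771577903102504196166439959630841378363589903248243424052150492570778922166123870963916908018706242387342939485172812578474081574927766354808902649896555819769468611502993988826870139581995044512987586433103551562968277501662183892903891669344939418153225916136864218808486012431593644591872205992854252710438140454187619483927360910725536217683053969818144404437993534035355440138600874989791109186980200138924399898596481908223398196113392840623673406089637591822823081291235606456042269915615882971307919301979401323226819874831110016300150478493580516752679333531685766644011857416037467746134195146038392691462410699012399632277471424709542901404089867018789000731911078940721270779214747920898444089518635567395891905838854808316403672359568675563534617284610087352791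565225231638620448581889261088498834765098192192896196358477166689678144928136454533555087169136253354631590815390832542165479848335465423713393704706990672286112907097542284208650902181017579598677922845991454632197583468006684358501317710371929221592285258869022309609555956679052060363911693567131773726101149063824022727133064889199350564042640601371017680919569809825718468150940017378030191944756914454419422029657522326632261331245975497929039715602624137413166597269590086465429503726497995515392969741054038756664436370652514253583411976231159364420949139784092470235779294736664967176166765077292643174530722458918327039848250060408259144571279000036936832452881469168795690346465598816480133607295223402613371560862069754776121221704497292806782830553025512282761248411001621662123497416064620458481972303677570879263192348674824890110771053559386103310786993933241536461606699818319457689589819250320310337514539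195767740213598760908716831094836857015478239569938875048164637045549021777540777287299605560460551239576774943873609917761945769177323965703100933839320575904563776220444172126239826836457241734012704865507837271951227886631214038356530572045929439570186519586522382032573559652954365172071166526852467699576003135489541825537853110018017804966240893281548526315052852806824322377266799812341469797118492177628792228145428613014662899308974739047627899307024384580283334430822759760824180206917330849907751140716910423867466340651791645970859153232213037839068869373358399457634941965760232766189189837523912979959766031810240454313246553276644101010653469056591026744162223554947199421402440732098378975286284027930854881005457662975616695167030186075224437721795922563283091979664267732450507569013314302721181495241180786858950722972947428506242365590981898467908260248623100685337720221827186316615526286764737072196658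509337694974118962959213847589115650362059522081147790815020528819573878993841899792532357154114318936443311188847826491169655632359930864136118872181420728695973793114860858186418973891754638133913386159143126718025046505762739079937626164357413582521520012538820716300920052226295573243649497332671453738572437435721426545027572669328378193558633321407444059590267034453694873533885116704833419294540981572974582824955993238759791802968788178850429360812964835094988431564883618729143402853586154430523956911412211672146160363906577494839994155104600467064120303533041648503212032956830388628659039394400000268999890347396306309715384522606288366784555978504564258636235399888737450364323540135039227897017486153824574688988390060546286103146348603228859705568960577988259095164774829755816356444539641466971005244189810817174623753870122722157863466416848064347727715712522242715937179337897416683728910515676579924725698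349616598637806024812793729494288654029888309566996598402357529538698090860866820924089388116591665974173299203143473826658234816890296029828279387239310268976031834628991073969782276756771624938523898384318082590541416840510409542093684008411547401174794426027870672732399831427166833357251558666037965661259711729935428420684089671165702501208073812142501772139054322416093630335409762191591793999904761381442268755136530197236812143027190499726239892620269583304625244806095200080180204715431460160799484617834678744572366292503481460497530084307662510155476607142259796314913684339154176305510085381470005722531194610127174584658644565607106075070540889198578527308059834634781683827877899396212720657965083751130273179147445635026688428420931482994364272321780980898433377908456182124418481661412241881327602997631226827204536990729901158524314657310358908052976755077054235100370498313787867952219516097451634182512196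687483414704089592215432315513125166946523809886112913371580929416268569443150062636140179454257105220710903100115319170163736471448818505586683277803815433851304552708572526995480789605013390382148378456028195750490746633814814511919770913357949345888116119380827705046550109108597887338982367101097651741064575145213256150661656517481525677740087980521758843563604974795505705658576660459716649172576130639326005074012669926726938529795710129579885514928682540590869211782457562954264821717727701701030179950781942782111486612979228341347587210227627101840943811341615424602831614997037663937586815387507820585792391963863852899186622687991178270544488088027814357099790186721522578532597403886883761487465404197331126892323932293014270773699415188789281106102118456112630489376095990236331816874301973157591469330234234261234017304089009356029779679371745290965939490154591903648646225310424510796231056648429512871971143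837571338350061492015505015037551700906371640142688366176273210142698635050233485635330978036575443037323342803946447985061175850480111983584987676353136362075420113947103244358126904882455697328660504904820831711148358386501543208562554227749158129871689461043411175583387980103157280099382548184054619732624459825363139867063561546482783728705733038823297100054852108763790992820347069159835301837365286950914066322121092235426463534757814822955358448189719702022204728267093848122049370566338782003442574654896190540598757845781715394610538663339552373936023726051063807804269835590072073484152608457801927300188386148317493040691541491588454364792748299987981700190747181265848811268617818632500915455708475726072289940146022680707330579340987140655647190673311980000489071317803338319489005259269881095862353804867133598612638502483137046739552402210370551429706873534513831263896376186135547392943462105029872912755643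841544711205856417173733975482136275865217111155347742526053425782561144335085962826483753816541701356337309780347677447482172043375898601981679268167454612861902994494997198724460706735488653684182873124095423031274049210465974818298878013987230272445088297661434029721964774471913084242173518537262492709313878230726302956872605790444180452307318682353095823914671495179768258889156229576155556852888933377443935082691522846322847228431178966986633063172396382426963176062771967488699430556404048963982234948216115945570060399350450153552616450818516252692433226406414471480240673702115869611225175555705440976714327645820613846689996776101243242407200579179176435686298252678851156351092880104903429485291541213504223657080844384125884343121262389181999397525486197184447985889542303681252544024380585987889507592663072182199692169820622232312690734029502222988037585611351080506602710182048829196309283588935900953726197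394934495119142334752833247486822596055120172851290168631582570976062524715088935915203293707905546072417683316141417019410970544102869239569366982469283592282172152419778044194602856245915355679303411005942183741794755688684906846811951594792089130636955531143426287316711665457353066704068594450610237844510560476361543310231772702074566469036938475052202667187519252056881211023937949012496247336886944892532267238338580894506357593766185881269146964146678765222145134441563203891618408808079635273806925689018461648328306660921434975363389448393384692194601217524675109627051577583380860214560678420332261528815645092173135481050569933982716786949809661509940117281067183185679649698858131275116534154469008884959509794400603411344452807049151474171209178244107964770081209915561354254603702694876269020984417114432800416455674444271594733121521617147345668914260728476206953198216307672779565743375968214250469838935775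180091752265097569092770764792916897921841786254779809956006449499127519992712132733963537860253387015873531795126311721043234366350013376780425036675781466669447256417251763642862129270593342466083072971096231905174084497377840805690623071957918876785200337020883659273475172087942911338046608759145017784637872416283406984188184555407597011647336969455323334809302737721877863459620943784471246338387903762741261307074403699681965148823467905449207964800010284214303726424677443735378623205084854712491796129446532590274720248155810856682663077020241274901166868034525222627803299680046304530390917621587006150411884803746405570200489790640653540470782069082066996731538774732437496633660727748425471173542976112514189591819441815947010964595830049742475588410770048509113725677503656258403574907547084218127962059830283661428804461434137083487466900211217818168667310322893897266818696044370035678902571329207732159355219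595103953420325255854449599297166173994397364072836308906899570743484412851998171630941875888352182063151666662798376210450318050190829480472105040417855698313914817773106557693093898955654225320230181862516415263772780306497671228820617478338574685533930399912751689512991335663703673890128330955163151896925020759305593030276804421404937881844873491646456714899540714986850426317015200990702473712250963157914847003435639039599659075683597247771517780797777686089471857109815222012395638237904765455428400774308115653626113853341316231797462045759478127800434276864534232431754079244130507037602371896471173324464035745101154433678149761170420890962243186888077479226256124073413385022339424306643593737262094707542307241786425833837368173534720046477207137005720289325782016518978046672100312261040607557689926850844771564953257752250575625897315871527011576698221572517807331899767408511600680644618188994936383163354721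194894884965469678164216811026127493093036447054560224221094976101715888493202886907357515803748915468640557803785719144433448097282993156411295979366765029818463561385362570866895914008966482147014253833856398747951453570795469347200026524525800133314106235673406126512026109035837225292933673181066955103146498335956799145007835712032375350426479732051717976199341560162414676107095173681121540111088535136389279603942940763862114659867956856866445228569021678250515845526074171585295964642320468172927524861127159265205983209532638732760499318736662354194666300357179043022134853470942908094648927700727602495549905134956248655957980157262692121061269459809766746487830614677138055176128770595167556445355125220503822540452710497483019794549884053818011821997783321762728438225563727185699097868556202789542140284799371043464750035496476102619033114309979100960918042458403344913145979665193610127035819633749879785458109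486183124823316320743067340426098086247614353335341351865839795368431764490956294934051350454701113406263497026400489384253152450046687059933532894886978929611030012745381361096116967250841239067059404170235578542584024376513947735002991712784353931510126847275420244215905019387623491807474866869550607940131578819974581424661753149589510985899404651164616429935015969114321153689341047312768076092815845482726422140749029718862560502528270100407514311208598939399962780885700099164725227807802687343835230150431958204232846766579428872733115531617015295536331987928456681154345682409135482162231582288223436482657169834474915646365812429061702332531720616013373881431942694635579698886189382273463997288345875502089142614107669348550768664401623189176054789339591130989717927911524827073416759999955740196593083601619978270767594674258963252033241337832114772679660380415327690431452788788681972774080060981404214706561238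501446452450759796802904332331963584611428770824245248586935883312945149468965159561096404553867596351675579613645346658516631535511669919883325135610536611774337439697904372154803364264269053574049302188899239197469451792126861916363528120728280865420965395860323767772753631755836991029678658153366432832545741710560409193769629433050342443837362313205962414536438768000775569046862094679634416762215642224290049250334913522625306931907755401824842288102199391391482899391069037303981689872662515569431208307736233511513262096114287275712122266387726761441672895802909250508088151807823880827288109880070603762608993431117983247813631141943123397498085576460256652581003910987112728094377370350191414273651799910574550683424747907904504018288526945850767203016274467183368244149871500823988222285340873640291642994940322209601268687836815536918503804043476278536738962793732943931928771155408781488728617281957965508698155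701034600018323460398567258322261337640750272390135093326472669522487834655902874051962292644034380558818021830856935621105000616773243453294518676135606309527609751493559637285834340892148840785774721940665170231061310703660382392516971853003285386308345333051162692365986714301240346358251193164580555149878690232683668519916605016716881695115429897944897532765031057462344747682517520180925283505940630970376786071894201072148526546793873296214929225853992588621990007499380572016662361015767817493313344730295741619319849647795678058222354576453697704525257712443064976993199749009416037467568087321600715827497184985462561612044670387449044308448240222086722236813291124469608729481899592657168830993874632583029244234523611347343598585282284985558774499281440351674085086737242737980834923764406150810443238355988402835916592846084784289904988411154001476821471604244266363496944879000755680687303644973060161918193527767902237669197977117213178637401633641754698120153500261128062093350317100769817856573440)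

noncomputable def rc0 : Nat := (nat_lit 283488119276444221344894918929721442468368078679534570975661479262262603530498684257460230208762329204959913800908656120480418867904877070128419344332614800310452551273953790471780093097856664360744423513324839942462319626669706012440841890524993773751176490318031624696823706067333353296856443965912597872097061750831580396038154976293075708236146407325405692290177239441764234962115883312980632115475362867681714110177556059291005676518265038147163289546662617915398917714511995579692855506590801860682275901554680169211027646578945646782589398565194208748683806828499505960209263546220119434045603594394427344601337991090697656551922248478269714424182195058685344613064837512602751123796186592264095019164438992685776884278466282555686511295053590690936654694557470391204489212132337191226900778837582205417540368406469655830059710333833817157824256754550951093790170082908204946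315857907411437402156188960722606799592957051784253791752942045550806157693113985488320828520009857420805839408734968197687826410239586886888684663529115371024124252255895153882654677474452729480335439667949568761417765738779393488719235756157109087753309099066445871464942781473530527105272993088660515239332940359523852199627274267320035641706442487719957493912703707170960023375165497653661871084681276061161467666688876256718556664538370813799439955279558182707527262440009351066946106616106375124860269915353559592794287394465361739601091141558134328327678370729559700998730333540201329797837608040304867553389824780856427054944042662737287066056680924834006529211792811626766625657478482515025545061113885987216011790052365632984601210480986225265026010068148880244598562403128288499114395389523479821012855760912016154682405661881113295572092668054613414669898132349386731862997713364177970458451736235322143819277619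617655022016375821288503278843926250532054416147912575069827001463535795714248979459247346483889074788569080785639065991897115239850645862010029320444725412721183816366499035608865466139120045600802638160872225305424890411678643950786314643249587200590721061164760089290716788547887501102945592168826718512874739218362667647780063298837233391010467361688801975553696951934228829603063084405322606198328152630296033874399120815311035352831199077315418307943627179253897397006296739696433455091977846440180711974539314746477240341535440272178491996333748456355005921775005282097802677852066447394234119378911264895758336792104668671794972094155359466257699304135329761445102531294785566518030404909821061085590706293664552021252875098209108279673851946554495024151780849258082020663103398410098657700674087191172435494411972223056650714892228335192429941249905311097934380921415877351901088202694586274101538213890342479408408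137604880903583973357647687614978480981771616838806817292366390391631149315347633573828055364978819910861423754494494320027883740521836852200655040343826596219769872536577152062976625348824781223198090251401902147256104973015691865680844811229990974839121728545536345598877886589298193046833715050215481375008705070512616517871131013099477003648292520293179097151036659357590905772041756376092280226830993773189874096051672228953599737785688911045162564646815938338257290553751290179795576680627661481621891147759088477346469095829723044059136487178631623962713601083705464241491608636811912128868985049111478064986109712539965873187665602202963116879938161085494943575625489390738173614162801265524222251179315593587031283632915008798231505072492131348209326520676824786275295244828867408146910920433594876091005920211923434378319043077403294778162187687165514645509357024122188758580317417182899904657750463212363859555374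812942651834814410012756916915767222110340163755949460377908621085492195264323470761668502756565079948317513144570807774757671600175193570781805744442467134955229482362265474271263742963757976865887837434764095593356206171736529006805838022994634548852837903500880786137473409876437794715625119672237917226890462834036171817669909895974251680444530038802374819190731095297034383153861901289829322131204872655323852991196980639164804721593982135293544415995466485107460801028598943034226625228712155571483256931485005148466141569808930941114723046913005997072049760739574052266140735093023551053265773479108289719320638948268438272883917456595084773820558598196388629144558253960689263308304239549727538757160004666993604911884196553467410862603095927992225132570797706602282391893313794761892597612731453479542871240660451552915992758338421428487342056488731653199195935437719303153546037550931832554174821895525059464875132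823078054862011356555099801047134957713192177853590951820240661192204848037248134435943461645720348485927161831110014498122362341095442958697805175380089840509921072003445944610702394682114143049743587362986030495377162976490553438273080728808134648159175519300867918555111658182986852059391033309422285779577439142135852940820461165364380398491595721177958666727685571221402862534296985494447556764732770654485397913383405896992595597695272646316140903602649909620333379754645334377010566736237479396343962030325038876324479268626906956980299145237539608025896350199447961112883783303320152381860100064418990257060365180168742640992111733251743042055615960357015574544829748123484635111926218042133876411287832069784240357436498955714839277835611253943654541742819813647485781801680242196317740840628580237211615172020323318548015299703809868145492110070029237817440291056917330189413543210545506913468706515103528555983647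404025008795582504804201807386387542438211465970907682065153673488879347109102594872701219765435759815841210192787354514728596991373455145941516750943696054357669518417721706016210749187527050155976931900265663632026742953957733125100032804088201177309607095002144092164615654973302698365126288906568339205167546359260376779861687626365837775801326418756490387009802981625690457504331109381714831059646360247256443131309261674730295161569944954530714925318390616360298004022410189633426692676196907809858046586236648961239758761441600420532936746168284599697702702021121141190291170296704589505722111851852901320032580814080751414851057361907306115007215017445404853575841289971152094510592978695788100226098203658587532843865648172710753768625094141059497480044427454225716109925635344005042444358731425148680362445661309087388931785519112293523481990640360370736491646003189317619139629009114064868340481761678357827611494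478291309996461265070546005502105683401961131350202416151294560357530614451661311233411791940296010272879270547630848577947550882868105423137900246034645688082853359210958891240402046413820930102056528483155464317268697950384893355163567442516361141986794788621335679813451262393818474752846669715651253268131031307273984166262854714437039772762752882791663720316040881378695871061746316155521013236797596237006516098377246168444120791225515061599256803467381288824360577577958491332983958824826727679313159086311997741724937365522910231498365593340778510116318302558057617648684851102580618560511059896996752672557944095569660536347697741654898637366018440201610773019209063604659868338254456528012094231830149441613937615108242269478740114031783486329523053691568511179270153487396567185802854440146930263153750696977262991225305610448104524494093379373176088197446435575254149756130265595577606717419735377552239160063185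487851488564812090866887508936196863526706463077344169637627095345923754198918457102103515003672161195682003772726127926183105231896257614596618459595662856872201551412794870934339468967024294205526614748733283454836123788861409855824905197816935774926192473653950707829725201710188520487299767398564078697538014919011942851321239610108052770812997788508650058234982107345081053906045826467334895830360950668157690441832001082156820801224467439352998180065220459936705550288112272075562179009412655774314538451861494875177792374622169887579163499315615552505808537059987563822688317846399895477861717495864016425251671564528218209424905505154008190980932929521832502114492604826477914699683493447173934991591198497785687588019353723323080436483190292814865597476356158295318294272541823524644954704427648165325332239452351399217923875494070824879795108786787420881029514148123015814105394394617466736670955157983125877834541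691826826541987779166538018054736947993049821463939040501320385178833635760803387422468215183698346823273059800188361771612311322494282952526194003852815633759313329809606174461625564490182630304485673005123561517436626047111558107562035650192235256164180140180539956343778179406660946528902336554769055828439247563801139663914944677523481429793183537193674676090985064212344704522216939099404420711946819845446243634675108709961173793050930116189213540284556014959284242019836602584903651225140803231577339000348490744726832906909750120473655402322813523165144969290227713618204505875091405957235469319587644354727663409834394206327253826896102841778126733632807709102694484932039087541704959956749994320606522389565427588293474780622661152022950326320192107931424660790094414846218854737352445670459889712669112154853711597885129968706393860708394801590669680574287829310458811600736672123237162177059918241629856613911333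618968923333500710843361529098740204406361979453249371544427598328498221449969734944439144031162231363633922583109788175482284546852343755993691947838848678398122907190481675540475417084664052270158257142783963150778456711534010727992291129276077859987480121336030490871936102945629122681397598940163085414866678251739087828643575532044245203841094072102699511927435046527188083694381571303887157525442584640482728274857236313234764561770554175679680018784689123105481236640557042594689724837884907797418110699689183306851352327784298194659395295830811788978365763339095965696040191349958156807833201615910135612091885919867105771412937431267607967640036351351349934315682532038627488198161335810217063128499289271356947297481479018626696860976584855674563904142871063554037776934208582299686701285701527696812159065832234087272919791397314099505318942233101967208767888611996908889457886638512961068306734200706034795110952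690442914051074648298598185277326304623506645957954049382448002951231424373935587441283997448289070173437210864800567109271273306162956901076897527180782618285078148497312574794296805083676668235766656358188209718564595939570314606140196293759262971780345434816992664023628193254752341265607580275505814660015020240714545095904710821982411236446787965045180181671748065961618537865534785859741368346351280658453567370839487494927996924625691616280598062918864543092718661997699316630162809266162150727415481348165115462818390806250521435904808421233436857163841083302946256837045185072061270252513439174013166019312697719450683407610068764987808993336142138757659493804787983781712223722666330272843334898250543036156249847524559983388025274556608396203040277871929483000236336172832562096503023935823227195955398245914657473589172052533819105178936997591528205438043961764182898193018964926169353950420042163195795079015356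961232058169575922228310281908776710209473149628056858270142735123992972450067236767324827021710263639267757639417754122740747248816599785192316689085128350541199220939045557897550632216098898064133941623996821214140879710756903868137702631475879766903456441052261074551264678965954219721021896118251141108177871571922833704667863630937625413433806383564449107729190346427036335837015949381854439463629123559564470067828109125314740260870621420745350122665579849149487041507602288508202062684963523119679163707040438146871571935784897659788782926622059406700319042868626078346561336448793075203964773969337568388151999151144000967230209928239858285747745596323459867158700553579543612060653503024176785957673641393428375028916035561298055442985820342593947083544933728522575466474746262858809935765371566064638364710791556279134085771334910138770847051329927670248467697611980293725976074689961371370465754091296664089318444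215519285512883138177003324746499452924920871073837688313664205713881867754394269413950641328912169548627721517965018932417824168325041221269995371097672385236210405467970867583918637642456535069227366555578602836892549998994757068089087506552371073484774007327737692088628001825262460175669939197072941787757732267748119379641858159702462050046639054491292075953322001409828621485588524616449330679347873478540686372419483527458999186276428524728755059416953998293357235594134925597727040383854191090966063432375326277748352981579231512484079295157523724663008738467655816774841645809796358898367925846982912817119304741479334584003713220804970528734320289324592964745887371883130345500511452680175925236139018961157152142287804817608451109429605334429653311282511268067463254162060455222311515979542997228636895282883910616687397191325481983036414965148888857760185055937733707062173421792486225645453729230086378816787896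002727025269998942339477101729405337774665537514511167219812985946098678234104553658285826482169869692094424927433004079216308084016295151951327463520676264847069154407437594953348444332284798470966704487094169191609088984535037624004211852465192771294600849468986354799193447256641434480720893284883382199045211852461613875385135862628385042367857075443186990285490300704512302934977001432558139692571358196681452814410666930568037448152762933822754829606043885939936484767241306930163787909957560257628219546609618833449824451479037732024990456804755297955078494746841513923577910043813703312443719896973931253016933291455803396266827805191856589516498260881391203662647283192550642320606426123212863956275331093472333545857332791240748734645935561783647681146599465809436411510951743744230078520740251575773651619163636386222875123519501483348616781922018015322015129017573762442601408693497980420952869375335628894098478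358125521639235326343814160895209169106885828582365578989376752447589857212547983014910193860986130763476821062486909046723703037424804494006056461137467667776225185145556092413853997738492000980275636835639359994488589475468836501282860013036691269807145467987660747473202304229317830785873883742116343294929224544486100356141145203106728192142651050745264433103955100844038164766307709625287133953721202728422440098918250298272559180547550851413113942383915202974777341802799074418594683173451776694131284682508730457806532762330079629912367371338762678972598430700877853026300006570233030382715626268046959935711460831534666727982105131710086174951398205509015273269627334389099681280572685430859878261849320165060005542370237143380931501405499673283316553830768456499838063410673445489046921583797879274906268992555089329474879314586717196265717697372429234694668650211054321549875918508132997335003297631666879973571943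749838541003403218339888247572660286961426664485947448341334014997040424394436598525373661116952528343155031200920621607539144098041767569097013597442502394261973630646278731448430592763710909728412657513566128750185022059885178332274630671965771541869247348726575623354985295635641369466894137615555091218187782181082663477657835326687417454863476230730112173869082426072811432006230961002633382397834876084140423530957997730695108254155132013927203125497439318793648223209595437194402291817630791333402083499211233438580601178092643668514589892253550762716884813716876488056639349661105586147579112611820444359303175591588265208249515333524406268336306405619618562175813691840784285997208255139015390614520338251968676879150840425235989669884222950178038781779254906146547555245368794567331947298685061468690243984471417579258425016661490981385108909629098086992123843671861913665324945050325005908041347361637054268946481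119390720910475861094731394876863238802436091125906703932983949622387269926162603379605686369949598845458280589157604369930086194280738889772367938049181489468431016854443787950053355350639726045973149353811734036522075696805298594877601326161463168737699742276587148689499068342874271369959890955964227935399268880780246600150209058309405931092861998082879360911933302905387376160689177236870801745440474718207821503716933390201510899749676560208748741374417606661287617273269361667192068607221770829926399335728390330679235762193867072922220086286945187830987925424542386442452213424668356040928077324636655572741545637380800088376839819648843717525157136123149084400053098358435377424199776530164892067443342265949102281712069598660046991285492201151133710204771063147796083046160821049485728704242134329393190871643693821052352554339773155584934593026078056105927615781160500822247107652410010216313023449709146656459788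712451466907918522485531961850045766390218751714019631508542836255467101206858986287114965324372114491014804440650877105438807613717498544422233633690148536697742401645135564091997391398954343033211783327826298594745419511928194277884873908429805529884750808495698075144897984384668598527171338885865313885793629589513639159512838479665141365902904652706083627965903793041041763147324732170891207837990734487159013098178730474978451080834028450886031634227697331671853204868085106646789324213053876449239148887424407354505847287954809265209430984336729855473291012063228960547833637829446866762738127370018664896499808016986197140104576821994866223382200133733179684652715981986213696280942067940261987841443507075834886430413158015143405015436949193603343594205607659733032875002346650134731321721087778434751203991662285680605397368050337015514984465467187412363818905552961705965173700013254330942345864402224019980116950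540898478185799002846613343430509579725664425703015014751495515002409734836989253463632268279036877761199209215003170511025669966385617632345256255141840712518083783721716619219946150887961767308261828183683532661350461652432889865259079794925178640231686291212187809988833925433082898221547553817318643160435727645120852435566879241989245318529306839684837758583217246930204896816824661340130328848167132464501860436698626838175635768374325131775217186876747746727891632825634126131804600833156978939400960853233270708741631583933530289014831866463663020362247082149425401708423980049437232678975405488878077162065846015246265455874706743164425535518100348578564537126387812111812335231296827854461695346025117661568411821585241972814926947983540452625740639266637709050155378441818245257368966760220954484879407319465820719256101561104270716814185871796189352429724274917625546500878244749751409023050573223409469385194285607428119338577183706393576188297468381134035739479252661004870179931581089427572284981248)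

noncomputable def rc1 : Nat := (nat_lit 283840083403685336560457214380371020678722482620523847865467275391852647345441814023383307977961946257059565936759446666451475415075489038598884655697782342479144309770011216532653992055404604495572098558928904445056339547709427733395892286811033700220388644423584853371789074515059848843827968923896623925084147527982175533404770191135719108522899665411746274409558028078066299479645095075213425546588104303744498444475226057315417434253532277984083346446099350522435353576591484008431340398111430701134456543504224382027835572913385530898594714466232813083179827250581890307549834939879994882961086521953318556358415218783680672994982287723862248318750402249193374031846410442314826848271000276865478479525119540535019415283744409254081798420080696518747945581618774143406090955584831361922705386537124709500906494526163256000479967443508389028910155372139318757027527476433774069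492325266223356741311438183357147133190199374450095478498290775640040592202567767792828723932171015973484307248678526898828608616095934413471440738694916421936379577877332034235534572067218320075534511951236028592009434976412846955822947722789988324246062385409184537853179504987700326486169040087707208932510499735925900637106005947851155505330249880822281389876167448755155335451131690989482432001323180601230939850211707035054414507116945027243320407190708888491889148012635931976551116781583020300013040290772254544268862655460801234462323044006176184794378262725292359313967569261496429471720422213124822280742387743131823839029632578375626701053291251393636617841842654750269144407717340503996630349429504454625538485646860427896137533676575842612597721930773687948711761077691484174464688794752835626284670695578015701013615964255665569072720916224470055003279756843991808108409898217975202676677534012875478831930520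432423349845147949613200812486936220532638688510696742222497686633090625215268522505925729585177482789532900520138930470574377304429254587313846453076757364181623646958391466471007290835926961943266963523730032192300503998182660083359463762179960062685610994407512830924150317992730037379450503046892971789903780091070690553767296621172879436955161887281399396822260879069219110309365397854932607979102947799084799210592003850984499969422244890640646967899928943527257428819534071800234223541626115915517463392104358067367443924950532006056827458649213928749205434226535764916325609349359626078794364856123289262314644670859297854581345389595297930899875198747529804511894235287864697421242147020040648225213292531922908271839980550802238953829976403715619834216652595825617676838083309836807855756623882870698353410576257553115101889142456765641762227559575904503298335838201330396523920589204709716481770980551637885626229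246236620738825709012977214754139113197800592440983353435069008694476590124892190699376723835387407899442970126412738206396329183888438114615432196278942676556049657273241677275112498386590904243663794942346087111327958468505035435956549456007432040254820435062843403416720874091082774589029153934605921747320017814068260418026487412249504317758103599374917143433593970951579167166573388723222698308144336433033290637952640271432515634038582271545708546207907891379191497505503633614411828870595064293333043119065606275539660506430413192050714082029739560463488689196153226769869283121596699260182722433779749649619734490899734980817308290262662768135289255651679539535186763015514966832003356046910842136272542013656450067819682582876384976373536178445202538399325076606796174244748975374872812241132781394333614799056939712929865854770618723835260576999618946489478084637135708718484526995938080993373203982271765989155338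949237927391129841659136593444663006664239835276960709967878016815726588036874196316524079253678137625107737587063338760425017409530530703172731608852929230827623368954611400605724002371599492381661725602635901343070760111585741410387447739115252398398969075458628088985598048396342771143950486049098012060359644720785513915782408570243679720110806466319708250663803938398977970564829056127152352807093695562988883663152537135988682739322067545613298337926372412805385144217002210087057990232224385981969595190393443553699253795706563037650754674604645702009649099871644166843409084530774790534066440085108566451331397434105234517884436349781055078756231506521224371988810897509888828004980020569545344768566843511295469229505524805470053975964033185089470084480652395172808241993743949140063767755086360991149604759451156817581250317550128670178691355006020454733533743569555203301083678120774667892494939124774715237105821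934144359512460913017287405626540664623060075788501334898982408687605476650436724040314180469756327226241825812533924295783065975283443093217011659876604672347926127606986390298860711935726072381409179395155165306113460840571969444500420816136628695228898907644828589370045313100432539982141305371506997261767705485986741024212001371544355742354461143363972822050800410514718764588068430692819036369572231270863528080067604686459571691176631816879124032455602742569624034348090994411480745182983243721680645161107195830399449863180240148981990332566188229047119806379395341070288225069076284417020811046693290951949164430509307541794968661307129482138175890461599243363691605437595535800368014183007677197383815403775691806115751013028052455088680521463383872998917896720641694534815162116046185001445427328445749039420940464662902480386768575889925201391031692695248998860853294121397031144939635236471009921889201207941820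740308906197181262569560599384222623375062394990687270306615254825700016345346993837401237010333357972566929088235424320362114396751115190226895094437657418552868307488333704843675597343218521723345583692463736179010200319714280868451137288717836566115777885509591928735695440007369346436184645740815746376431619886185149106364526120887372857547314688101845856620069247080310713232969391458099870737767650058293299158031031980972997188146260368733509006591753708222544408447124993844798184571543297099210032778067590824731632197042246669537399456393021790905413680667087771349731778886632104273983963254040849450131553247488912382697300818274191840235584896691991738700954839073635170863445111250312365328779375401528670898613959282885608371480730873610648031995629724978669292714781725329304454491664467761882328031331252498467682793782188033171441354046724516759456265617193343180084284446549194288387876035034477680352646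587433727591372664869334114736104434374244262653102392618156657560386954810366632788697042457801134853036003589047100130636204576266820985672324975928715197976461250776910926882734332706083687622150544846741440968278231161951273256930423639624134194993913435876204738122929928400400282774332104724838073892877595543478644772377034135556787646840813974845659266886249625394685510882267556012341388734609714633992417964298458369598031850407677325690611607225273355758096323976175000466342613071884428851458733920956015882067780081784280177824387755595974467881597966854482323137247411962855716047935176193033278502359632956967050062064944645406115984549421765182505271848687402313795718821522582517338485285333567914300168883888500375249610043197969996235392998477689004747465497106957214060966963137254328156683445746483030200483880953906240674465080292293179303430112646663649164156787973038411864761943682404924513384081758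341487904788797305837933374629882066640112673113548301138534876318524672431482661634962417503820898275715806711207023601017888150117540432310601423545389705799548681789221001505166537905770428373550661848860632389185012829403755442844080533147974925734002140313800548845088927784374575081423723899350343474040403338644371960817460161894033396874942242011440786898349815567795993901647462307902235458817769548417457315198671319054196552050404428896991378292125366174686347875285594499218216772818277910385549357308503593501906882269726188422118773749592561490226048851383825231311509308811800515601771426009628988962936436450915892855047223740219009012843940870992256142272415108516394626930647793197885268896649780957387844996303692406563269400573405940982690357056477688560604550862474516809299699346389614648273956450253614789899554127350645516916895564343764878554398138125988104280084679619633826351018467818824840206617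951399120225428313336172621595861619130755279358717800917077131196780056487553655180683045415695508614555923547236893809320039499124603368539710599686821106607954731290679453048687748775263363416774490746181576381132964773219359304004982431520777630754675236575012743361262785347420947965845074714773371357573004655971085119436600958964878232730246207429341027732404012674043825389823999004254940077809979916936301778406084487209390292699152351035748310132184053061302088413287609576990562141262709218054354134038633836713315086322076018417151401578417360586577437034203012003510082933439502756982787553824606186870710731966859045897442891713469513453445940755482220607361658650359288522823391266820718442826353567523635662194275922067217262424744832219115825187499928224994591834977554637795910472545607400246487071092966960399451286895163069010175990490695991688910613712358454048906711042471134970231231768484578764893735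525801036245672117751485413351644530054435922168341449820610926476013083816535142230640175479154389476640134531658807846666707387299836743793289531808306746345920733575581550357201453163942192079472189701052035061285562376033777027744243863034280330259515212200916141431406564249394016784946843912245807047313642319301819188031150706498964611972604032753365555102188438963592174809626029791914297842755125979112073210212089857990124491828279597228413562146151143349046088599490113685886301563061813557218767124537789045742444930359358730620317984704993228280579009644199595138964187006680873401846442030841189130872496979813623774470888616947886977410026972330676670807174530787601390042956248888235998848432189745310044425691991733872020461359020485155706140929929471186576631816077812289538657803835909528603282333852904810530676567405024288231620495650911754226459058491210999421686083984340589518531911225608042481497155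819830983175099133946683287522629022440901886352645439160014085932961700343741800116839838978216937007559888395733807964472803463130448008828747050602822363799530038293592774033451806212850367393370069243090053344988906413492169853745150818885372391801071276060867678814506650746299747957972047866440140251344005408793601373923129700242453139404341989544418124545074187412134493919444642561138342994349880865084493806947874337630305224925051615763164401299447164116541864868685824249205858904766983584532304473365629462288128345907422603644780627012292885418087299736698611455407762534317015889248417853320514708100080247440718799610763911409169363637554940131057184856350102101946132725211008488433215000803108823321924521132675373979661943567164339241734409920927964163568675640276075590161692696287297088804311517795700333288975983631900826007847104566865058340202908530761483146492116326520113880079309944090856879954748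885002202538203412195177645854492867986985088224062536067902364438510481506163953674906389805085169170334228027730442402207405361834526103192756770528359784440007388269623120839626368189013990440851619503087962827336218910556160142251210618742001038830279751286983407333985465173453403329729412258940466037040009571196052156525260792211928741130252972682026220223329404056144810212848213907405117974784254413485862552580404813578616670737350686724051083326772119563214761771974159111916057090468496515488926446185179122872954402561119884936885885219947032629723131131594077882241885180252880390454917317703354235989853666486336858947897129258153693412513406603215585752450269735831812840910395782339931209420165942904593765661863194264084212369055095298424962854721480403432316914189290482114407399281811110607556923480738756788983232305441419596640931548871877396889441187517219571893897691137952279378838148835555763563351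960107548281754114463817941953929828304904249734333286179239099873870358767357623633719532403881592161363992229886292948891591922531749038369049096669970993595136862816369023875286421498137942962097672515811594516339411932410402539479393872494401877577789202207758714915665052374110848896693833073215910076180215996264459770659627765984379590871069415041292035426579425750008929868282075750133889897651714284069139416475484690905351593502127940676500984896794852586193190071367302296868815385183679849815343895544548261996066671155218814379961206395109366652173374194863719961586863687140397541566449747265917006193733781132518735211256960802310030938569822723900386132024197478273476027406201569171294709825522169619051129090177481845273273933369928756319818182715997261507601470839469814579197433617543986195784836361689952000984245343328861424135930455471224652989128655087344008010813075809673993028081703171557646759303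806161181666028479501303853939305263957549729461971692823510335233359286933422424623560501847833075610272368762838844315260548055777165108006585128551475111922292291734948015307622503033316457905308010779829386381431132824435873843539678294379434583279185040634737575834266395528876142098402621273146292059957341947309724874151020050487676979001107238524273550463709152018630620037959384589912449297428071997932342304834536953544748149687380604917084412531941944648127748990465126123419164973162426021195617556138859100704020725841145025286594215752157403210484211738775489926616961608212964309824479766603522367382032051477002561076698206106632546098992742856899691136782912323815692005131567210394885963042472769803686708293790651386716836127477843977513352553944303131635117745775500415849521543660553475495001089037724911758972644572752535403031002284096194547325604512508970959213412793198690272892339962450233813395033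562242535683346780648012882887588554329510749792276088575056410556728773240840270061662694462266636192931488116140799352758248459658228656931992252535080641660455235936886847884527654327430321877921888943074238370097646365058102855779214479856427316563055130664853777162803055507516050592274942830615647808584097335024368955517983383814724832622452913565493824052540340442335543743611044866056891610428103862042610819689127582512680878857275132964719969768876348504916767878124741329764764250926882742305124026089092232186050516305654346324926176280055206444087790614500524100221667180245854181083715798923039395976504804365340764444358144221014308441248905954085112816093917612375269635236575671336094489525977508635335509006993118330005932845667137625965846506648371611313682276424515388303287966846380869533642823402284676201011171612936295599462591836547038224555059376791121350788840384226060921398009060897497805538989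214851430604431516008416833987768837804138659470472261796476638639246083984802202461613714732447337051934891123183766131313128835619951340190611843065684731811552441568984525812979757808293128510987089307970209529441885784469689447127196139778085086799017246116978669206774567511458820824118774208120935707749053301085752027613319054718735982466082441524579570073324447146969781387160053772361087736248232544485518081150635847675433566174724575314879467636282570732331218350374406499400494880459859599997520718088882972474587437726761384854184087659701825261609273536074732000517202021291148803941194047577155387699151737189429101054991771172808547874196484646009429587883114292126598939302757554521719414894728758693378163698185544754859151861199533365166327106021116487793913364315465774583881940301109476115543058407962571350194841571986441834530880679187109582803145665395579346726585689723944517400027922558720736869910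280258483216805819379936470182517771455341671377793725578141743003972228846603572715160155199782527775507346744471063325378188320642463058488583842050806152528961078726386545768382106216481772133419517947643848178773247931819136105691777049859710922093499662063741477942830607451246813369318695326778215336817554632809637434768555746030892727220438956393991803720699252296044500654739653821882509880199237325159207226796210149704181778064743218429579503700089636396176557527115975899584771802041398276941371894948230103689537959258734492595917996543200055536873858594665475825654704845552978636950841078959893434317047993537723571481951770736062512026424536983243528041492195496189942293763844813890212309985344233519983844766430729602613602364017798210617992345539729751786599813306468119402901314140749501690593105312032160649688406300749809332999782302178581659151056165316859527927125039180603304736232207167180376058701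825373227659383808104730967101998948850317486058239640193351847209326005869753974588155393439067475262202529065184511027211035109477369191213989965225539719590406727765030364627726035432057827190396789916320491169927032178457832302808006554031341616769059439266532877377502277237783612156299858973258734344344095280810872475753049729615178700898714250221559315257836061261948625594904416474254962627108651846341997875009472392291223776616641757422779490018312513509841247183123049704293930478203142665066872945049505478671877544993649525640135301978149761906535542965242779682390906192574566597851159996032519550477144438590161843269828163950610633585086472680344623505323858298899711314275126368752671549334931149379654442983589926870788816603468424437119042774522304070103624965744691820644391137477500134828823024143861754010858328570014196504130370687474638732533892227930700889095875936284546030621127695732574946770995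070774381105762107148887350941915530428829649368723950090790379459840113823715829050570722847501964803552322053916897359375079852703987080372108966031458300589584261285877977350480121514222694578252145122320761124169764219805193276826668086084828893591436162235617364518513679915594464980009269638778123648197334939125671201425689561271069245424572155845721297325451617931196898780023262800276772053495942865934943118116761024354164980889346125462758411672103404299024963272647500035759853618926850213365094982796699967587475844773726783073470549960631994711809525313972985710220705200358732472945381265466011391183682496601578311330166490494436236565830047975460258950524668466975960308192338183018028602590763929969897204447056694720342651024649935487276187981865899382284571555815837151882262017672536510207368812302929741156569144567825279447975638258121226436285710083461618134004644826511098385851073822522813491517736200970295311823156306356365467704363671159211519705061216618491740372703733725810474876928)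

noncomputable def rc2 : Nat := (nat_lit 284181544325168909590180284123223300998483790581842652064363128087662091511944152887831736163645587924962410786200067666265389252066549841392488150894589382550954493424097477607186606331015709273848010098928403888140291789908049504756548567801093909221502214159703063349843578025943806928021611775755523041176709678247928433461636786479697867368692842604832208128736370733278938521756040738945890735825048707022660230418079479455294301219025198002060730565030552438749868675917377653958261392596801441119480636321902565188754612039559197538359733669536638862696657182977269713943448241281022995790854258536385014275369702025559521956222658022105842425994214817319918297576892254446172813801952612992713435322843717775231624450643768197313533622081179643087585799515666561757285569204971196860826944876563562668963473795045932448014420161973148175659035713412948893419812436430798248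239848089633613852909368232158781224745067597011042829049201360253986010636095178767154742140701996413494633827950287309871698985259313703077524278754798092406958779617494772751858287300976129751548052898459768142215611348950226144676883097595057819539908204811361073140420893098217769224519853669124109152360269164147247683719884167296332061944998544038003400448294052296718012034301042617790232169760886287277884935123054193710547694730208696642035446240514498591244864021945752610496220392474672881270629639168728098693942620874675938242483512090666582511280170775990205181953002421406411540508265819271953234139915494123228942842822641313492727268778423190030001700987127848773978488772273620442932978817304189424690214724469937743465735511368043871007484058332783878169132871954512360624725721538463209724662049606988464826441606023732973861447295594751301105465929171292709891154188454145887684878164732642462947707518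814403731935624718436982718173758201732524636051092693695638998529512758708704948828956260488463968488866398913605918266023982628224758798668389910092265540474990614310788140020793682872962173761123646192996158947209309618425564798447595648143943035766801608900911394618168475559326326191013220312754140752475934910289382350060862572963882589301203270701158017384378968857353692022368723137000450520924614563518131433388482362242029509632607675256612496854361382902852673157696609189973437044802155485970420767726451291169065226531588062015177972793658477769736469682058736197500544667739149994494634456915609716704657302104921824709094297887625698652775178501413071609187975237438905314606300411140265856731320665911723685122863048247276807719163794219593605447563933259380074562030673578646173954184214824058295614701060482962261587487632321926010632811740414343275185580073146402058879664311108381094098952775649980139545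616005703470031442272792416555596566018767653363333561937010398643422241196096529094773387813397359009151988911324526294619703991973633337077746555941571785284632100586388213428880710381026243238658105284477088569053778935632036500883261377897571401429545691708694105795019354148427678368530171371017798927529436811996474588150522056398866893095110821331823650182337596029986123001782592472307876156941041940081180022469594708443795315380274928799184621505145581939980216759010494194744925179563509714307944084506020776677544660448310132963193194853485540851479970389154276291820624213464582904957371129968901020469930740699962053011122818014756157744667072031925744738712295307633005029805596631766735515913400943134407517500589247242102059292443292294186167103547482582761767652343544608110504193549716586653317395935677390756424761351347753118705781487098391135511229841295164072776403168098188843180737343530616567415033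957949800521096274788754497845137752770302055454108620242842350317653320314963733927146796607757474129271274556888392077306144452591356364063650828875574633576375942129510823418392597315557437470903612527157436670861310601150812311834767124732641736043260497000316497621399650147306868099523350858470958071037906653852994435330727416739955162524567865350735190740273170813608773659912743418878372718009661893507775384030121471790877619015583385737279909862175669206573824394522825673814941003835384066713017870371705689009008756821252810519223379626450766865010447307025703372197976742786009355978458522236302079189864710715452011695642447795070568480575486020142627547166949380771142540824731249708255110193835418250228283159956240939346631450317775483599733832935039992228694844044990220406169801254914054406251839205049518939636268239320555982741158690161778867320573298412150775929305703342855186220792452375118795053385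470170561543176660133119406195881721575408403736770941038156164093834160768345890848420637115294101250791066793864270826567933412911726848985928486918561689017784543264184060855125404478463826507544119215842396400450848916060343744614817022146108094118769097918603261620160136415224238927092599221444352718952284849264381035906039023317297374121436233276493106659043756228885513621971582483600218269213288431512050165067863653538154425493850788412446636346964112847783884880686826612743152659456404006018587503358345544483797635166632801469134581067103151887612525434092323222725680311621037426788463750921526441796062030765043142597094995759180230159173140978593364707912098349992279791586668652762724248289531277996830666263717727993502345266019917266894427329841588004985366938106975323175483688716571231824969760712293035987350000916548427901271101737790096254333070231229950347261643206499553992691639910248964022944097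386314177913476203766166289835126812904352039428178519194094408093400117268285131002763155475786183430820711866706288295537136970691498609765479840089056135889840031884778009185857504480462822659726131287664695717550919524620096573059392624896899228496821302761736545783762264660662524100918267519264397940226566185362737621133578550459932310427220389416642145222990174460983579245832259684865217008334731006905711510926743042191521929270649375424139543335405961242117682999015485265513817574116799165668233798369660816961682626070564999818481228560973176395235413902472813883698492907447628458254013727548352450662981533003438242973018798164679072698538137220893542795212144863461429083398784148917652767248325151436378038192818051136882864692290807116167328206752432051729481920083378047724575720766733546130296347954663642780676893208718504445788042015233865874761151641314189614559014060671442699905517025026227280012709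432669253834703804448002086039533277576768522631118996353879279407140347302353184977444492272789505033298705447537533203384210415633093603494863171799361250825102845874876696964581339088187841599812375240933948157868829996144058423418446258226469588819136019125373490263760684631685756557417502527507253294103779523042740925123652370084380200010605065745735373953754381189356584776008137544274596480761914777499283694753553521281855712603809412234763865033543632457529205302641419596504344480328697658445109792507246552939806276230864891065136318132617921099668569470785283356682208919863654505325552061780194189426446984518773106301087306224156931248275904675180850108361577899637580524523844511281978072860453067894459701828263003478678566706560269574523391078976591704632353168498320548640409619467311254282705592361939387454166845219465373487316599956741433368919732734949040882332210930102551202298857816742060514226645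647913440324983430085242799202756982197344491197805037387454607252291316135358764439546429433926422308765531646468856927540795434543474039495491464161568669946457075180041193344083663124817222490574848033267655445559841670621766740256352902479052484511559103605335404805115818516442865891173749949286763932755725796584548369194258421239157179773408116333329896174439462207354939438817042967114928710067942006092482229231291110950458350531015638576776210182020822045885555682129580743655299022014180165109633386018230727370463397491820490636102755689467627320494286477195405901274115954407535389712476313657324877517008863345645805681689454829799946501098183966349594083943397586125209812608688693370421289097495415486808558546036124246136487756371997505237123230639477479765456273944604540645412688417510441115421655537839265888573497161773450467993805418056665399910672060272961467139151607022674815434221183597660300479740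095492223714168953100486183254193233802933172548695140828413554049436278836665358878037176854966598739207750610684037201612593229626566606904678432665435775115440731479754631364855793301713813799859436221650216485875412297900922191412286247070417197168818127249389275346160347295538728472284543657292530633635586445668580379930400530693200572977191142739298386135765902349932725794688784781169528910690337375628127078125122161825287195382655248033582239199333244411850818834501129145166955342444304888378960748155701646606917474511621976465718904652770443682530161238179259358358249374767989392147683450110863485579007574621516177500403904479062598835373146678328540016886486644780526083063319140271372911318376419692619321390486603785130537015704240792049117576149315218421280500300587640011475090850015740276457675265084166660621968309425900759216575157299636016514170006605499950672740668744807285049139218618832435645990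791911225910040720221507882012010996438994094618146698959673346775934601556809563126218164185515142133231327965049062118833941396798870351965653200725707030497421835761723716438826118532178697210889948693626668173379331545906200484855023378587826076982037261850281208603085310921831203881318894524987235363678237977321851179767359526192243959650308715518765181260859350681893346079310027588806140171807664963769632070608703483705810794584312833053334985003860176283919715062115938713818800421098774180360908906826952486790734196100054920741285660492848789810583116445957699526326850799835056213366257064694215984635407600636843898728953546431288965091406873606412029143877087168565949221906646634084730706108051008540373972645463975062308505690631163312897059668943165335094337527795523468913683089735570831022374087897075793211236520805654215204485506610068824627091316133613490308514129857058699334120569150551278669005934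137214594983789998700851963739924291959193641593724413580544603666166935615298947939294636935946323683028833439529013980584793220371612576739844906976536744380852194264623090534046241247625319834244942146352683979323283928623138083959598720163055814561033573121867135663091019465611331212189700669815444149386206410005308012074517794956689821748057844978368095292943174365204873412475077870719878369254294215166385727330476004787199722355592992137740799760614062975136557678064700327209805522435488687771739118689112427481746017506133201486220061981776385374535222017193188297573669120728754385942289717666517502868299658520580759343692947127494497105085871817191667436809307967635548748292101445337648059057014106264115308639313048017567432072999859716543277499174748838155912763354507003011106424038038323174482398950172462416815001669724159380636450561194033878075100194562146605099630640202212119546770325761455450198331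113957023352904475510136342988983402787914750346466011367262093369577376866619977201435424966965717511405000383209895885201190646208684623843065510747131013120273379349492552629932905855994861258758541300895013918172003923248254094567995645960518857031957717983335800447478548223348027427990034463896938444369915925189417657561555900016804895401221729809628842600182621276757474648464559407966060313427213409786213107995559527317694452047980746179938579864455749043302778446611929535551336700387148362621898565374064714199917886926759117050221262472361123908240481333930857506959776639564661716513779049823389892832077237079137690013032904365033639525088867514077312464370932134180569000323677349614333839838106604563777874314397954947777358846556647476724202002875356796427832206517557132389620947502327740281056614710064154408483643579030527032303784941524261756344643253185085932152137332065778890800376770802819262819918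066268085046897323051620397357758092967915286986990711948793067721746869183237841431152219533125987835640678972656155045969339732316224682947373890453622093036103922226961945118634724861909794778092448935553670659030867260775323435710424714427663570587668142462074307479118912136943830910484258881249705390207079869315642770666646535297180884075869598944696378315950680627640107409829265649709902579069592862618877502846753146854441238972374118391722833138963855891616592168487224766582699139562765250550410827437061769244732010081348479745378757044810204632273538882614639460835229105492604627767599178276354638265123018967535440692667344492753280803773204432544099125025458255163132615772808045293652868345614505493163428811954614901939862311962000988610851932741228189940363601016692406418664239302303708615662185598429597229096268772307709158859085816582510048575174807861667847665771352685958409927224929423996154911370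557736133976240254061710328234701896379463626910040475453083634718203829412368920121087427766330088742918850232524537555257118379555406020040700444670001906719413997532734015133650962771849427946897481901054778469313398619754574146936860766949400542380131956534247980381529098329026376200620346818371973456796242314667818470084421462006883125658713202441601254628781596201659531111146552189556375990063237156974681681755509083460445822000432339916232780464099558783220932472709058264952485093088322842912757243741709192944344244996013886932590364560911400572688502989247639397523161232606771863656878322778600569236500934947003786495781086371973770043828748200412849753687322873707316794959341041560495968577598442630428339350796701647768351541500658503564818222251015627895033981906463529251973522798607138795926584369064133515108686375936229041952377679125368632694556008637450891712515894955118488925500137912880146643957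411740863663669985513976336179483417765220666776463132339174821665465908748810206441222719799208393081707221543513172312507948730254578827996903150658923882963523296867103864598925828017476656228136694160579005392229331214415077680331753636411086217345363270165434211920831803864263449222139240694697847485004174023643514627061070454622876819108873576741496249266962302664340176870425307289305941531613222706092727876547700210392355767280715287695022532775708533492945354356987276176923873757382799794972240680343828211380948593051739689083704237124802131942393907933694571329656937610180417800749966262451322036795369812000613919885475899117031824574318920354087047839331796785342170593716834363611760738737985048016227892977980771530656326127710982697996319960477140679904823908910732944323209810779959644909751138102611662254267891245282200261083287667000583818438403820526033218452040443504401212468383207867831528385386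873878072049087022831052189049851086348601552974251926059591327140583271599297056941270836435494144167541659311976048718816800270160554027223734818669395629330655788612721884737449583568114683517791300576916516947487309334300032085071244058428739532464908777230101766070197367811590968342538582461972460458336734820576382709641901328013955963338954981984522874665780191274340811570556435814251151499376223554823579995788815487338985067228056558099361001551564288505522637678011004262252802860888086028401845102040950823943041384375945420693874978760769027797849425547929544801547215547019206155123845552288350273839169515763596689966310498162513085213763331106197190663280203918467212465381112737173875807471133979556759544927539276860650352088113930658821754637976289488620261639229817042588450527869079677890454985097784255743463264725882315258032742441701684567535157767973485847152248824122100032372661741951689587367217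288408502596877763753701719095359244793560791191704052718413803646255907154404156418970924589278906892616954735479283431057779105100710174521097102212354157184737078462695815325507734710663367695484260245902875050655004221562173703745785661783695129753391128712970849251058104448598115610132498211430005218841631374274400121493374164212992445605264964667409800441288634553040656134466885596427805953124806181271091438011601302259461496281071263867099291967638709336185923135251955296689341660479032151777158654740735715521863012217704131506919501476081862351142784821048327787745952580581126856271070321339527290117342030295982314903889727554520992775617731412300933639294326681377591666250438349257885912315091263250316335744987912313520311246779639574495400874323062868710421051381000118668454518078218678392542115756342306234675005364308618156769482256650739618975519980127172044632033084216668992643560682535168275589106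798316930258070625295603267346067422513301105170317350586742134984783202855346959021842455616905913482482746132439913928998552778650585198444101388317566469330113141502353602153869238368832544212401574523533196010568135401873063419019871147644884352021793595121788020766655494638656374117728436493385850586808315728765916398741203761986653957864105938638160857172744980132119860140662501351012170128990527502907169651547568329987462220533971429289009854697815596544792686334381953966680355269025340038442874511397220664481216972627011031261326435167846012290848106295802744632116878042254056123976336680546888775344662969580200032708514929578826086363568920999804046077134177558942252171591688465929505265084824123717586600175736992989991246004240911774555059044761214060498857976200838875719922537921708937219489757907351042517075764442735159529400159103306148561711521063497792023624857654403092218554248737949361644527528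896529853181360526005789827298472405744997679816256531471721334020704454611078377232305486401659464278344632251556295249840808948702129823879792241269521221720025256465738771589305214005628651795623502571454351398409697865519393491957269378587863534486899660910295453278904822270899918736173989500710186113125743573234366644845686696874299720827914719487115356433273276681333959366556150649631792525332658625533332953368322565625925110304606172235659671752063056397056383486893537880571362737881516353604430109637961708888614442368799334551237289160029868724303075999081020334808245371548950102068480312454605700052530646594366992002371647708496388380371760689715296453226192777982444981466607068577705647278344384058345780068886757066895125939510337506638710198867587826026127905674807219676766221798761739969386428398014845528317650831724693032142011902217980526661308722309023321724255235878059445525087263545021006993907852341153994147463195508064032607447770991605567748704545375223985294362269632348760834048)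

noncomputable def rc3 : Nat := (nat_lit 284513487391169910030802222945029141894932444329946392980363290152999608107848252869644825575282650655445968211811129029635280827701668098269012568186370289742747901446262473787866729823761776057344060135356505785881753836476449586368800800531964498652122891960925933779075571678088932363566353161737063010567719531007189366222238209176692340748966643198989604052282367047922984903904637424582781484462551415467713132000371794392514654595011089274170995166659819007510286396486162732493595812334064253394597023032988861281915994131660994961617945258536628912458061066273371225542477285762967824992360404790986750443996811120961673257052769843676303684158760486453094973658814665791625143902377591777846415137314100948505845834389345123957537871932722054259009367992470904214637754554160763060562390251085043161738546823937269030570337672350424635444253851466556379999719630327536738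942624937141939899715486060604867557800054715913410591052583949720433501686601360786036373352297889709324874499643349784095503851311367512012410699817996297982333500398544236346249206374584061199876159226111838321912231183813790867338225841806929640942806449212968072466729079735412566871706537398800948151973055862111095072401022160737714677423358203592578732797038128545510601806630885617457447891474987909862356015124253747974644023417431688097848373778085808925649473691890210295886095603965238678511626387364389052491414152484753511426884908274602863745107116336994224641258017138993245873659403996149543225436727673366846385573568856540989859581962733130107379989911118163620945942671720068469140996564913625340100813848750643090647881505051790591820266013523016038946948390876379282977990450944858927690838056714750045908661546629792925586574078046063484136102091005727138449607149987135020155921323223627397856620693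158190932156226255054632707685772540584082099124692275923859521120369128412061511812387199246042879377157897631676464712279505091665892125816693131084413956343219846764043688147508469528087149934927137116937309017727669467609556748032613416202568354179786425458873846679740647431077887553397509805269403135752217633254504406043051604806290876421524375282137624553181588635885681018396148249809354490124035586165438565198256016258021089980174663256617282464155524181810823384237785751880016944661664682861519187388467062674991158060740619209547781719519338044115293262760396155393437302723393512634926586324585645022159529197559716457538856501514439600349295867909506375492827401510390850324386599671225767666668376037868621407485665416057529483769362527737480864587947992782033532509093122261650787069498724567856828621778459392404974472220616619475964800423164882471167779249155249241964697653470961585642728502485743625765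831557201911485821754537229484984715490260723844328743814539351294409487289564739296073626559526235984547556015135674599777960238949717160590208322279753146633468471347208865811682072922558706286934709977087725192237367075003229775056165426083750783315347334369057452060521637828357815362974534798419023971043723294915783919273246818851797627789834124185714900563546160752071002802144090915853041611787390167375213766810395881663647730293041757627762203595808247779259820761340701017467429621751808690136012149752062648535694483245794635518947761699451752600036946850543765154121678823524721302414697207730733487212638399747488819650519671865272096844407391385137573841708874980060152680229783855405752904293088699080059073578468453056909075972385471153903487375088573292728117749405657953495784556189525297444125018219853137842758038231218817131299300855248712608709570766728654724247070726454226979901434874367582012788522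769853213022160615751219043740487272642560740427182167745734161258391572932336160995906477614510424448131379250323434262068688759559087822950629985851839544686609447055667100924225253808615723698574553463318245205304580796530926296219717614202120637176353086557055532025789513849303208957259789076395300516068069225357105195687551888085095349091733165430156399420543563435482651189161839330260173650567722731368448165158017145212455858751859699614484545090764750116011354172000871287792152317997928030019767698286653806189728137920214495437950375717264093555878532739639672593017392348775536752467551383762627631058687808524926158623296490805400349709954527121669725628915694124462259123755416504056482430692134066456911438494926489012942400995933355170345338620951175507718211518847948119841349640137341487402837903595018121312617634310763732690057474057670833319862038452838738305928105992187431114963071450866442291125563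139760997173217697354029748862425059429900525429023261964695476564737876724671395988765688844863677158383678572327335255536911150710655265976923656419806356275215691920111731915421515957681687847807655786443462642726115949660992208832705702290489477977622048170284915253793091437507626773019706066408635490511285512350391878222162547380267236029520232022413372740017204955938108010575869397398015656694659587399034888243838021120769273280855976660184219117836159479098912304972387987211948908123548585236746522512008209410300332745312208407240921547876634432246690386935829377348782508000633714271446682011825832371724421480826822681605118090130089750686628233107469011890264399787966885974146982550335988604143665551633919745047462589916160670644441731487196728773849026903746706174963342853361104591236097762324270898675239368984308860805187918553590531115460399641585243594859252023010480900332466361778686590756698239339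480937135300155057927907188775816675011472188453586395399362971668834417191730918365776825343858395396405297512199997259054543846724589915963535182996271400616387294394228943102315148945616406716860654919764726590039984976123602845022979007549136263045097747311596173052916782541568129959543504927489867728785468041886195331358453667819995876982308951701979247394366907802556555771649174684501795325631301487643625576829675686160746346058968504947353279132303832458849886985577403940371281798075890482381752118161888763021108105975555387259465369248493541828530696060697162138728901519032783575093324647358778611107951485067704129110223326739779753620319079310634705757701550859998866051076574906782066092426559172557975538861068127542759975318285664337504652139573573811889629165467559097505167936936168638728300443950725483223831987756058541858308587484794648324461814110634670841243731261116265219695829961679845561443972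541543686137932609691140769987495761440357091651447977348046613593963678799588559364838008538750474118355629017901772886965427684070905181100690948349743154300916083553973455350241180385744028534066827361543819478860649603952728255347988777439338580431806536020370191732583733127195402703031441141137930119549174513024609960270569685317932278871295020560394954016220867161242284401372251353350780225112080416176968405822097366688380954909758841011060668618093735936763526682283740820697171589802672275410127247636897176691504169937949761400518220883159133846133970370357586690559557838826268616474532024437766459279410799922093721469734886672216733292228182660257234393284396726388103194530852801492444115252288117353173405975913228451215396468082618235130673995047772986426760631110358394989539551143927934353611954379345886993872203436164818559754537911590828856579394819354417630249560342284320427048538409659282966682177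921877493119364661904228631940986323037003491426656782057504216474053347286861620429121730143082730098810142885323765654017958384123290259474177081987465398010184692694626444883784849381517226830080659853233027192576674763083848024738790411688155858946650829160406270847341282120456454876427305631160134397946658123175115365094482425646925646432924767783080914945217177524711366216722375779404451643993345989735116522610177776526368057642426441176545385964327774699270107020998300781608672417095714569343405173184771454411915704539372746289113072489910048226293496723165891731030300569664618827605322204797221008143522446895014552915695367983210110349262750303725365858857560201567352265512314363001652109292486800555256876607974097175909306602848433922154167912723604561312609876502248991558220439243608936072568798547095537358839554539316348794967182976717406202197117194036571249624317993878062990770059548508167837223394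283351920060984914600876532076493822202242676418775469335530859766794447440561392765562161085042359342681801264821784927399022458102813063094745105419290441424657939370763960083278317709353809308851481874308119794618402013515012055096378480114450981894114474131311168272238874229622274537710551458365645278937168377432388031312395163541847353343195919585914569395708876534700120620507687477469347502558456839021050267674153365382467939223083162600867792683148306066147461032800199906348301904445465997953009528303516366957004961888164825293307838263387090629825266608666433222525043248665211589470518382232318740792210916640043386069490538375669667319406395462388692128313735662522338045102646825498254983511134833924352882626067483305559090356375801108775406378942825298321924061009338965179577383385432161824250256692215624909123596696639535974161449073550378771013717071338215582354202742832877358469801270833389457606746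679848943331734811826153838274345177553498692366353298945038292860693412914893845676393893152132520245293273526926526067064303675316989761532236782461073747462767411434539316041942148677191218102518054527090549742932337323189347417505964245171783871996703428657769681088053021952546250007984482202021599563070971922669029294369806243404988635437048599060303126450670430825093971286829538544347377702615388212493958236478832890664221399785379155949549981020540350067371491157640584785382227568616513855861362560522038256286654829128026272243230673412150078334216401477038927393312231156343071931556112111282236042833921399750535056766377373106878247006649431808083269075649606028857413365699030049898883010558933440091257658456132439614571216710931132216849550942262919679777991194355631750518389508861885086463683146254444202702598393447698230173713810069156913722316989777135771730339736185493559192831559075945096967315943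279160664230900693269761621445612883956216736321656023866806517919588130942559115161876326862072163838870183480425641379144030033582703685758671784418662534542175130561250707842226192521173707308523870824509395209625845528658336788477803557509838910120389548425872825029303850303956401851901824945520331530961913694868608024187399323631724619277115106124956190249501594900213675864206261311972860397879511752048592502143293905427670547502366452769096815206222785790643756694513545532851304464905354667515067072799542179816517766995952701243488867808137546715368350312070140419128417411782870834684086648585615984990212956132341938991076939161471270955514906265525045696360150195302288790784763158857826941157169803134206309537610200360322808483883304576739694537671120714195137841847785139671907609186584794707210822051976860693814125962524364385321478262620518518052115871001813783132415628259532773263746770336029133715805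251714427733417608734779353307830620529306035468053182775979773877306028867024772861803876895514016398749580969698029332540390610667339780684617295069719650685027069716519456156467363247904439224762021939340274024187104462489700966688688442713392449846536929889958371695471201800778804713217695784899669195746986379724517599789279635913783470608885208845784568311870718066014071724588098404085157714538320868601819459256733216240410758180918821600370222523349766419662363873063063613674781283815101920316390214615530033405057013041750093096001880236471238303847787858504951688491642203617960128040308002780194906038743718108614746246533450041000478810941681232637882271042490148410448777485642380184354597256630700438173162547278537897555347154729527959520945073720543139639097172393719151795121141235327467490821472493481875457114159654509031441364593607279420659941224057570819052556722554995388433442160219210459454962658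202597597213605336403545244185490973682508960095676126417105897718850518759330214222703604983125077838024985811968205244464777618239021130999553297683624443061308221985225776660997316049361448800711408353891671923961149585835033270141436039745051781117586724518918970297221713423787041284506735914651863802945880501370035165945402480850617548490444755179356300944536546961957597586963662293989804333524205359425259683883404285838719592720190172066159841384397353921537831290116731968895309481047101369843835775197200944164441047281419624170591272055978996347493669680942063658998267729369003901111509537446702950670373566547327706714192911650074595886985409523199615832632943950003445811628231170593816824596544073086213005694303232898201256886093985306955680904958440501794434620982622468454061093225180543693456705554277385704784239056576025480469159844517927053902618563119158409553954909443947866849364219903334609201426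682815434324550826741624984300425335881061781110356127740228664426716842596665283328213910922332851933825143318115302672711193235043857385036290454560348983762378332367081750614175195122921464096221719670350630287593265147735335218287843194630330657318269092237958864791756208347802976419941694915350643616624161336355801747948353417011004125772972769682635959600811915455110480951816738431078437203475803094971499362063918630809955161131239403013009431995066786968819390742237887919603687281001567985327369017467861049671405269829389787005189303202658033459925501727326567100629968344456214717825000789359506878465183175425997540271780084174397672388828981703790114759140860917710928983214596551888125227833894649498442700826510326008500367729046658403079379442890744765395251576465475887351711368408008310320235533621984168438378577507882545225451796108860950536890903271149878994727954471399913286142362009376292783365376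260503205240832642081144282664520813240443450169959820089885259812751271444408552432105534940920023676186757437441691054699836275513025237553548205640246342857255886988726380432409738622954846736129582296096240671121963503325284578719598847771275075823605845464641540895267115645386257032148900697998569999594017331924567640936599295043902668785069543429656229274170031878077479608348631930583167382915096478370592341961565974917181288244293403433662911641692433121400347828071760464185731365665196979316916846922435129939923501187775597192070430319801655788590079288017293947417039713525922433343816847893216018069266395931286541960992501530806821230416143519070461799275454382863241080430575166848436884749102342935739243609203574736713618549149040456642584795131318574834375814662668569142894318804627498048811205055744157753417904000903853897979261143807618670571377290839215387334166500277803790201362362803655852171690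053690285796904757639876205972697605189787237754882297044768840315364544260474484824812082894170977653039006507218761174782463624032820187584263750303094297205773716280642751135346926403815892813111250537526308942140660242543144093064140166410363388400405019951429831877284744244790917035409269186028113639210981191482933499767522270944865679481617785512908064921659124434901784599248475101292948514447882501702731051584827158727886073866203212381638060383199999486887201465336298177890043605969696313623027081268532925876724714881370267835745146010182267775326631244796979821636472816002393719890702008991993816550827563856496122022108410209199998178746959208386849136810491962208539253415349353567402102975119931099463129957536026189140443313964503920418600784799497259690656625625493438826601879232335423081603977403132433162732753242633382310554623373198341228204185884297809715762117246627407488282854598124690518936227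203718532169928737653073267442309190588751428015617516988022836036235488683549234940362830483385274857844131714042226923348522808586221226075113814138300088738356473168333842416359413282478307102447926286961551287967331127180755477638961533075084110198618659629691592583233991977259382611373112546008587239520335549599253794102009101301082785733607035213542841207269037649761520306999933391877598589656830025175106374251402418217287853360404310099430587112344403706101887654876382237026701648595990344089131827622020706683388950626253665700425630334720928376691394672242330801898661331386317461883172474638935118561331610836187058840165075309707784333855264569089556148487601838198258545992844389938981216170636391940872458772703655910865019657938706029008669171408658221321596036444609178275080604377564077402205308567414099828749200653552809692234150145909813761999382009994543250293872066000273060054694087391469302895179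046500842901643419015421458136107268398472901113835141666404305453533750692529231945793236315324180137266345072366502100239199806033864523232490743916142412998924045857889908364095673400801364086744797009870540552036568267733957660202259221609309249739023202435336019223955984881799439614075699432232388367466625783551539410786095209003990352809790594413451986877782409050444334176088606860235985272861418573426581622620554129437140357435537984676860835896571133823133910789920891201097509525806194614751141932147203168663372752507898055952279946188656445623360315958416029768228798206242451017228008376074693034705522240586617519620943179861577553605033273818143841050138901214467611315463183470299360964434744565843127430026979325715580780142888405422768044726753424855245502247962571311847204277061417071134315785658456638743890188502116806062646758812080023109639090106490787864252796262057970853043499122984652853443078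684334796495677846355967316829191509582115322624244043122478045360413505310479368188807182712226367642672723145407922326311933452253057079669813076283588567579227518096313010090696170408568463411132133567089886373903013962914860620156866198593905398083384744646301450383524226321505275720782732498382007226800845014704355064628917369183890961017251767542906450286778005070040263828897760766872639557715041058500023960865301645784814093126745897849658927082501969293908887217265014953499312602519065759846959683701319617706718680817249907802329431650243471958765807829463809145333714503203432345945847502329012767291759560414578162787312483413071810688286914196305147110358644188654349291042577507054566146839371641788628877611917877116152612159166754485273904315372952300552409207057250424624072104840338877674935450610601611030572235358305905440139881685144534793956938325960390124150163750361176828754656844052466153617837409549901568585086830707878771372683564545441828857874557038586122814318191920271216082944)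

noncomputable def rc4 : Nat := (nat_lit 284836820818838388742322273638852268655956660322381313455215453866157182929204282001746756217136107087175058724722199673668583494766029558952559064416557163620225585732407902721202815577845858577939428855173809816615157085761781074401106921746063112305537608679421469247126942770450298997804148875815540473377808885481504972303533530197283560600124651471300228198419593753900044348934414745606582849991870691492399744836565263209070931781684368931780628057267991108935328796296208003589448615637381933686847423715945629541943226230056780894355598767835512409773800789232963700156562510212430219611480249616316059855433727325977368577820136216262152450564074031077868197642854968859334892166593817059245590621166988209541400781298275710869226362040406049183243027086055339662287159736859195644263713114545457022352464706517114777452158515025860093916516591143501901041440991710744403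404852330281570065422030643393745872506265160321164717141733606787661509585826739444805256690704728837706071617747015102788310328928719158012336037226878975200760300337643520273335954182336498070504978201614068010974004180678561257521964687167801519005360901681604271346441089789983819130555520755757843132456840481606132583341008386314803044136564875473288225340801975148481284620762858732222587872303274307074508245207509027756734858221345804998169889913623209101575109756775683774481832346267806219042354452153369551354946713190698659905186044749205542892811732498258079826778484136996804142252665766334504380022436435079636402150612002531108421382259416174394031660509322518985594951761543981149051101586168192919370674162954820850567366446953135435733682354212542109950103526666791991524792302618210669756397680995109064455263272108488935175334818381684934396504826653471697458727580521493485012045813259165374710567864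205597440589132694914114092564342986141917559590685282247380756164585406957705909139445803694873394181827820532510072487067281500472193963116930173959188773235654926754952440952928084120436488745630266031778035028189618166903253031906431895344594260987901263406583421466209326772402916446074830528787909412707511892054147271970626399770223372229589445160604232058720202294145247930597622559263960668018658128915036355469487415858781652134975180875408341456222078339018283614259945545358488795998731653334401352715910477354663530326515717025749929769918235306065816177261095860201456127237940936889755536411242247167355760246798106727598494390241301534620378671332263141791952962544727252334469346621423740048992256480604896513162310833851042283193564064126283602395028655632092100382173870991984901233569305620104803476840996066621301403647378450084113227180961928606558115648200903543787888758880299579511537127273742118833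619221996724482212129921067570560891067888497995373523882091211345097325370320499119411964861521211454949949452676281362589173005893032498829942683068812043283859379890527326067094480783791272871907541958940162584198065338348138660311605110118628225341749053710277561066681700484698659400721557379332400718814473019001367597857900751887139096147940868604788470419378623716166610927608087834570273274572190259657376102985058426271452859975067149498932869590086843004603594569228730236693971870563886443029373921891536820162226121458915580058715997247523427773507981399023724985156414008572979084139247685570649935375422074963733372726259596938777812863941413219689041077722561095245807905419322155303640138029119980436122796716377321659061094129880394341186081222624008158679916600442325400231967386261265644526268210126156816578102210883681439717159613253006268566456154365428468127155971957877121468508970008810873547536484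593348673420777929094991752840512005119130428319310410453961154021592091983102971837770179842956842526858548806526310859406046912884227671975019845870549713547931067672427132950035433755236600205543306949027602700597733842683387184902480259386410998153013952662317835746104737843222159890504943309156059044667030024698971458853645573084769858791336918599156414946448390498377264768610323962429933813937419926743538747672887509952604698091019652003116675298029758258490160818771735924463259398656625026260974970497064586842998249466496034392647288902529323599090594489386352227993972225532516089360615920277547042362528799485189096571925475568245998769734177077737741761276123790957824520674313204254096800284728558305207048545417792165616268176639358553690597650388589080932253606870168327639336637021587246520189767117656547561099117217883731696743513700757331947715801847632824252825445394819121822622447004813787604223134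065487828383450145849177745183559346961085395830004555946284770349189396679350371805548458677618826721865274238813030905800501179451707087958577040610261938586065191718709621227592573478770727344675252674381149213617190966274353570392575473463189917217045590259800607005343712878401560216268906317893443558360055308128576279088828646430448838474292500166328091223976138694714078222825658629989493538623245438618221777363343123641066639326944390748495802973197306992920866633387282558793239562543767955282825806688061218168362981999083484296128588824274974456751755235488860949600832500752283749375604257680972590572524331987105544985778885215607977307854315420125549394109357120756152215639359338083963908053243655250825373862757057306803733439493497922174320133989443497579417897793727331935234556326476444317621315469761099943011203411374545755425874543319815957323751206727085032958003616564442937503080780888099383164051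157275769820318409563137800179571805869830919995712913466447812803593083714801743014979766203121414699352371842570193219166822789880206044379814054096694400278201976189142531200785514420479732987313432387096361638516144254136147061147409214939982588531850157825475845787858727704709539321113098720459643807356872429316485196628041962886491931261855531701921289269846868116434764892735322967175690700952754472903481820803105009929630040395886214656981960860421379647849371123465039147515509127203947464089825185431122096678216147283682068699631503818382269837368016680234277054678804399928343700705651217228140368049218445231538057238370485363129949807268158885538783299748462245637204064341635355718861727426347199964205072109275156210586682360797193140499730693423622034167450137083616167647190012906665985273665173996462014864802345181498727557159359876272882000570122165841511870565568906451283539205485186237518247433197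293655209376824191502437026728640682291476325382259311823594264150084386013183486792468832792151754393167303121626850189516996069747166958588364267457933661759688253203358107970283566559611249828883169863785976172242587887883579238171442528161507803558091094281377377220481844504278161954251696385911184938613465524337758670362567296497622295853009636425271502361371332311847443726382212067879455177716942999394815518366864028793306794923079058205616754785673840158748724358513463621743326128241179959085133193938888196536710541100191783106780434120772808185813107480743128618917859716452099014808419049928223768880137645506536323422007914426612008322005952807880928431295199204815071290584962408335548843438178069965794604217849285830104447413297306991748896371222532411004333575253159856668905818497220264858864019460258080990177221197023572917330532173591985791331470641813097303217833802947872480663589145898313766087323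113948293722269251712578346220705182633683229852895865605468809012577021032416197122098100733527203833813743071760382717718279502151304227082633150489969360251293407814184852722210997894301267319045288248693214579054910571550381802086227444752180102988987518680911612696840261670446890734637160993072240161937250191754091943483206377843665182777299826469691994783160717557818055168714741240700883440938236538498440451847683155763662518693204688085534273865410316868264037374870103234327903954535502308433558838460507393713795751939280147190968628670066097533753481054915206918798025786210679773968889458483225141514712573485689413376022797237432615791254832682993647146134094513604036627045331645132092677316909958447108461701566103657574903961702353254804237965036071975927399554637065924207548294851052250261783343676113628955298195924781122107579993389036528179838498408079582728252122184524692148057636440619467699824145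584642028220693315967192811440510919508115231164251121838168129440855860393760783004140831665304075950853358658114369032237051633299039386245069160821191576579709035041511334554137676396992652238483994064632059767105952916426449479722487727390120643640505620504831469153039403707996006393085127639508570795329545051863868936099313716135793584310685743755393932219967685591646689078840031862038453678453359967874484149119682160257341148964912173235002514013924799812480068067405284096202535642366068311692686981440817385993161243841384898249322117983746848593349881148375243697256179568439747757504034219161417603555857801988117096003822873191572215363408530039763491171206168350118832942211175736836949114416583827129904994163946402948202477124292786520627629511510806314980503724268915722927055539335047815073435174815814426196027063843922909930637059143352062692538864009141163540677886834312013716359118611588184991200180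689415816248201523489242786063602895603042965920187928959896117287542040552733270729652450523806421296258733646457790182311804644346508318030731343743759755901035943913570426539172720651698337622660797007828563159328340169914553987648017851219903567193023541951351675656272841444057223369202917477603028279649108530887487584199947658059427408495340108509630050706443020896099335587403857814840193845465210902148703627956572637043259275604226146887212559636080120719556935042811243447990660300844400256784373636066681697502796475014075011307613781117452640056348914091047591178557543474098926556533060401731670656035538305901634341966471173712779751671360194557668145011682303336083359723649317501667711793715263364537252969670949184504747287677845495656217029557681722692629470789733829884817990719080651991170149801827615167881819228037406397434644789412065535718638983759778460010013803862574324888456142682093182316100985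323728688855910382886092727322820601812323037366222471487725998550579566269157455637517236416520804106713401286303059283240488563628451066624283450486832616291069996430595574587706015693320335558709998447946670705070855307507443494422162017523085035180577986645765656798840795619281631033663421963133517285532408871522427733010691728263616650320046866296288404234352682861150432857874440622842178195893516512420092345702988879086796974844803434598678356292949340121692490336752207256843667924665487693716853505563046213730652138812969664886949986323753619320750919574169818802247650681113356702454331819761102663305375095006032377140431361903848682241567123799417537742163894492961317525352690159922286228459918833208439597261986062600151920652437549488921705200494932849999951674097465099622388681082880252924065863476303484735670708322859719134478322820954100623663581887447499569149524839213054890540490554517394208392963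286870842325313775581966143363607145386092403437876870899308689348478566112276341403555885912314189743115482929819147886592168577002171385910579820304167509104606605387360972293258180642986071642551034555902945357234024196552999351372020280527809490078483660622630196259440864911811070669457229463102137605952497447722731324320622351608007869345945655887962296264130498354490133522051739420522690932734240928301613502962868706897997156666361107761000574924936922376394713844819763682844541278739619193521531530706763367263978211360549264871515650068051940988216365794022621574102536736289248266531888830147146604685845135002063267406606325875401677397415713716280001565874229407575691346991332551900235833905519824860185266907622163587212782306928668407065695109337398798286933878344009495085743757291250134420836683445463164390061032152983623944134442858938125252988523147566129440850602789321649772730197187187284370729331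844171296013510112402273286152196502120831936348638179432945599546413084977638658920264798352021765939488595038099817924606449746818020332414262413416377321320371723036152784785350513006525089566649675716791736500471216944539912684212983912987967569800708141529850065609807826584066688435834956898639754452207967291304637398911107267114266363621341377308331631240727469181099856732476159957663045862362419303542957924258184697499189554841364137461595043314319328891874347378256371769006782289604614500506818988018385328342203164530443989625017875440359057051691785836048567269218044126537860660673531733141232001104384456570169595720310597627484483188038354541183778230704067604163083850888971646252145270117139657977537652300339075318507364247875256245267553266777525096484094716541588651082443479419578811283644113580095665970396698376108345062909226461142137201800783615393216216200383899544603086483908302062756464999084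313905061206523809708277084784702165910286601508799041875213662410866380122970780967575415523277596280834283202960669569172165489565373083849027004298734154243173579448862370924821767905422888477824560671183629949122308308734100136171889066822765300205286257783573529954947698410329694865672280638951693461876313071278193883811878685957613916300839768886648849555798628047883951301565881861573507281945761394118573600316428265287975721035629117259157690782420421108753342789596886819040680625858496583898046113353213345971322816044388919156574941263963048292650698280513658862639749286338027584851384906158051663976694049920417826337409572763582570872903999973381742171747919038670498454681690954632765828754890234152907158467876300925869856651963037354898600565074124161823379624208109641655846543165121799039776995718907389607630617101299353371161235823541893877987580817712268152956107735576037950345330810939901922306906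532208343128071437002062571731997552388565254098038891823229314650215886485119729054261429777800924180359682687123076223514417364897339850793557130397910974881669802508014909841049834202463297323703226381385248761306214205958973109417620117073536120306231602790880696660005074911250975542730521800720037170984707672675122909801947695156143309909834459201442673103745814768392433596894529208810380525017700147748506774836590085154678121773080471843743998915754362397301180722610371677534532842394563277053135842112614548874821744519354814248177251665227259140062242729239966671664598225285325586714897936742364982756991589225774425423926384255045323958890254976141108150060100846750961530440582817134424697727699730410298516698333830765045897638952583968672133075694032221880807609684957412004144765217048009589471284860976737217151938211050072215272506256384106283932342012176372472198823777911235859716836238520137314302128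483378332742916482109247493487074618525340879080925744920604213937654490577365669567349559191145550528740930567200549734271184313156836899177024520091010773089718456656245416508414238867485691456727377848064729284652575149000193205659655658016929611039752368310545805545695495446881953152425536842551086916408274996246982478425272310809783117778437770538662007982273218618593388260979616917515158714953630196475815387999935385760798472658943115492470994432382471109735085417608029635966385924134094320950846344108656261459939789277802705449884990827715304182077653644489073622010838386523551320125984805438098358240430338389376083706619927222477246983453047544239512398607362415205854868063608980501760942397959675357056602529752712119412723418254094441802067837874545524019529853288306491601553182498909756073204682464250016700306323995700467268838154973970083211401256941597181390116950945749142726998474805569581293734376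843647807367008099027544903882787605658672165406417982162702491967225126891454890123957257722056139950301632530283461787180682249553342790150403609713072696482582749997757724069841529188482204199122802565307341824749784985672906374275706928485420270909477618923390859609306440396466474955671272240727515701526368921496370285469350622470368011183165669270490025328838770343475434999482648608517797681043463841434610386366111234008705942949041224942832547593633929271820063459126072119613449203232121078944543227938038125874787697540459103459358278669418483974233177559588054365373741743345978577920908344993231280447111758387172139808576219266550570949124089419007551302207080157051229722399749156223622974347040354860558609034472263644074799033916538560177594593481071347549746236565082815446292507637134050444498588564254610422923523511188574910077715774033096975378695997496938243308254978782936555862255906849191257244846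339519217766682898134265018340176632343309681062903973206205591256566196748042522925082705470444867179719365442502013724797570793384934264786675595034074327523448112979343386157073642038583415640782021680337908767193735550384087307838074632924320125830281510603832399982021251256958928070722047871169739643092091892454191803830659813913517625616027720730970209071648435273750236180233018202907862161372685951122025322281180575883460678475719595082770318442749905105713891002404306145863268379903973553605517310025154730879688953998543404448308230294511819183041068600024455249271101690535655032428863937817848899787876902560986870641811788811826250608692222392618717869108892033157222003144832080309270592624084501305189379797756391407998423446481941603899701219645003036780111594879607468279598479685895931383403432525177244753266423633540282422975766806465332605185780384311156969737799431811309194554091159639217519834934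419489371504065360531578671368272328325334194436464432971872462362666565851493057645098535505445629385834000294763964151399058326662716902052606455670673322092138992081808797571001721958835581663543853403714582818151742207489358452309766755436273900820660650783792421127650427121734353789423387292716615937997482313089760257884818213927496106414339939943175897539564112411073550856926317731106983144513614505390461653463875958160149223819854264812156115104593986325185973428298854710127232137586487452053694610041574252341707311934261347637298002265518336525547081774358581960570840839396435122270854815530081449203096831658086640912417949416259459710682826901006378661069417940992061517278710731480600350703842636076362236483453407164628328632997924438140994446204642176153125598046284754306088325881394006816003172289528396592783797715246299140465494738678329534297503521171030105259386763855811228172655205333644524578649372106746766943825858262624608931665338809460672785348048004338285905602960937194711154688)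

noncomputable def rc5 : Nat := (nat_lit 285151883295965871879666444098457652579867141760836415189820506607597161624441624343996355167090460916380696095733250973417320167158198453583005068310011454859937609706776939762678624823737032223781620267848233787279876490663405230213428752962464878174702896699876412658488693895454333909469864857108734423896349920587438969467035554672977065765476436246309845640658975119868030133469875713191390345389355095870816552635585555662988167457392917611203974990481512060824481064441997016703583108746118650875416500217827643950540172117254027705673021849609918703813579896378512162066392424566572039481310146935224985030186266404588725322079198651285648398556068357954435105146185734408169353563161309525996561708483124429395202846902750612634870663578546362071143741235176321491757799709009383118030014103545151363072139798683580816987034903230338191065050669995719770355376655781465621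193226893159340183154217228539609242462878077761079556373010079829085446790347860287586979046960017628701069038352164419220734364660000066786528371229181157670282116282809186796790222831173939329603782699426708692820464744746881476669783970292325088118287182413658355027719395833797915638307949261486590102065408016670500067488665845318304245103783137363862471119488760837814369624400524520641422864002011373680705746687382479237484881921314211716201920270875838876986972178142482187639595287637976669308703071365413734510644676616236820119007896324253490873838368072019789617206801048867336900411107425376503534552187127576089185227006869561223284063276058170897995273982477776177329120499050412054261916683227900861090846123581528585429399680212196377429675785283000463267103505579470685838825691295165774841760845237051775146605910857499852906630876238509611148392293759269843325117518236030299716447321548384844614060360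929241016910521254337378625508831976674042037440624236405455160713228596846239408517848662360739995860136513021640884436460456960013487374297357576055046246857897182151244351146217106541057061864094469238829308384110329080856298693188688496176539484457460202084141523517717204836043652749638524751133842735764737878180775918682996186909463640224142857633512110893463488466394905332077622758967286909198430010593084975423484611890140213528333052256100066813124544804922239048970339077167023042355420432099428915711673804331782707756573438285617929573757452341423211354377359267377243867558265246035657630262731166442625196787907119204876241056353656603865689116349041431803865278488628180831998985073619414454585305243438046641112983202784142491685904553047078904695212034841255819576548538402710900850277218546160790711679168097557093407228111819528305127638683103219134711761840853801548382680300823726151100093879998651780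919899800566689948150050601332670509219177904158839917667648201309392386231965495228822326038352251723544418863479014571054718581925020158911830778960772556126101570265994082080005148665113323116602601668475700612408563451993221456486180671697744880626554499129171740388707668712005105179827503306918234428334349572128912156032837694832613673382208258214703249140429502381910473442815354580696052549603917868737928280280537741312080799320929780689810883620241000741746620904874454698842265840070330511143951467730488228388055935725255271032476278369532715024940267719678647791099928858676807958955865954256028854924483544128387928745264665686377810844252450518229719064709508844390395710136600084019752696556210140335974275374163044750151027739747479708429725994104696695237863228925282152739087178290179378606842488570034228322284355150548502387707557601642375707089512556482166348211057197089752510458220959192683883636213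415740465268966003518121544465722683727956178412491885349581108446834246766886472402887915075879299420817373790555357156770782589895570417212377261652934315533351984160208030499785319617400790044576626725575054520917789222564969015340647223865687729186075584787124714673526048670346985052457033236616765176228963051446888488653856728588614604602468202409040153889069935734156949423742144061495115441338674135139594938471394140556596748816216208978882551918106667630071629072224553306283931573714406679420192570805742657934100667425186065039606691553908668263643792730334432524471250161395947654291252072237719132879504228009409017257786281013827606805267084272414034668210562046046693395089868563397240510818538918080256642183021969325606047403250146494199545510909985510234369628187196684044507479989839542574853144169063156402921049894167089554067862104791218792853783285064783637209491075028310941703095412232938799848877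987858378040058479447263841970743912271201143667258850117900084745547264383154059219013711926478022837439881146359497560684234973921257749582696035314771577903102504196166439959630841378363589903248243424052150492570778922166123870963916908018706242387342939485172812578474081574927766354808902649896555819769468611502993988826870139581995044512987586433103551562968277501662183892903891669344939418153225916136864218808486012431593644591872205992854252710438140454187619483927360910725536217683053969818144404437993534035355440138600874989791109186980200138924399898596481908223398196113392840623673406089637591822823081291235606456042269915615882971307919301979401323226819874831110016300150478493580516752679333531685766644011857416037467746134195146038392691462410699012399632277471424709542901404089867018789000731911078940721270779214747920898444089518635567395891905838854808316403672359568675563534617284610087352791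565225231638620448581889261088498834765098192192896196358477166689678144928136454533555087169136253354631590815390832542165479848335465423713393704706990672286112907097542284208650902181017579598677922845991454632197583468006684358501317710371929221592285258869022309609555956679052060363911693567131773726101149063824022727133064889199350564042640601371017680919569809825718468150940017378030191944756914454419422029657522326632261331245975497929039715602624137413166597269590086465429503726497995515392969741054038756664436370652514253583411976231159364420949139784092470235779294736664967176166765077292643174530722458918327039848250060408259144571279000036936832452881469168795690346465598816480133607295223402613371560862069754776121221704497292806782830553025512282761248411001621662123497416064620458481972303677570879263192348674824890110771053559386103310786993933241536461606699818319457689589819250320310337514539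195767740213598760908716831094836857015478239569938875048164637045549021777540777287299605560460551239576774943873609917761945769177323965703100933839320575904563776220444172126239826836457241734012704865507837271951227886631214038356530572045929439570186519586522382032573559652954365172071166526852467699576003135489541825537853110018017804966240893281548526315052852806824322377266799812341469797118492177628792228145428613014662899308974739047627899307024384580283334430822759760824180206917330849907751140716910423867466340651791645970859153232213037839068869373358399457634941965760232766189189837523912979959766031810240454313246553276644101010653469056591026744162223554947199421402440732098378975286284027930854881005457662975616695167030186075224437721795922563283091979664267732450507569013314302721181495241180786858950722972947428506242365590981898467908260248623100685337720221827186316615526286764737072196658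509337694974118962959213847589115650362059522081147790815020528819573878993841899792532357154114318936443311188847826491169655632359930864136118872181420728695973793114860858186418973891754638133913386159143126718025046505762739079937626164357413582521520012538820716300920052226295573243649497332671453738572437435721426545027572669328378193558633321407444059590267034453694873533885116704833419294540981572974582824955993238759791802968788178850429360812964835094988431564883618729143402853586154430523956911412211672146160363906577494839994155104600467064120303533041648503212032956830388628659039394400000268999890347396306309715384522606288366784555978504564258636235399888737450364323540135039227897017486153824574688988390060546286103146348603228859705568960577988259095164774829755816356444539641466971005244189810817174623753870122722157863466416848064347727715712522242715937179337897416683728910515676579924725698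349616598637806024812793729494288654029888309566996598402357529538698090860866820924089388116591665974173299203143473826658234816890296029828279387239310268976031834628991073969782276756771624938523898384318082590541416840510409542093684008411547401174794426027870672732399831427166833357251558666037965661259711729935428420684089671165702501208073812142501772139054322416093630335409762191591793999904761381442268755136530197236812143027190499726239892620269583304625244806095200080180204715431460160799484617834678744572366292503481460497530084307662510155476607142259796314913684339154176305510085381470005722531194610127174584658644565607106075070540889198578527308059834634781683827877899396212720657965083751130273179147445635026688428420931482994364272321780980898433377908456182124418481661412241881327602997631226827204536990729901158524314657310358908052976755077054235100370498313787867952219516097451634182512196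687483414704089592215432315513125166946523809886112913371580929416268569443150062636140179454257105220710903100115319170163736471448818505586683277803815433851304552708572526995480789605013390382148378456028195750490746633814814511919770913357949345888116119380827705046550109108597887338982367101097651741064575145213256150661656517481525677740087980521758843563604974795505705658576660459716649172576130639326005074012669926726938529795710129579885514928682540590869211782457562954264821717727701701030179950781942782111486612979228341347587210227627101840943811341615424602831614997037663937586815387507820585792391963863852899186622687991178270544488088027814357099790186721522578532597403886883761487465404197331126892323932293014270773699415188789281106102118456112630489376095990236331816874301973157591469330234234261234017304089009356029779679371745290965939490154591903648646225310424510796231056648429512871971143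837571338350061492015505015037551700906371640142688366176273210142698635050233485635330978036575443037323342803946447985061175850480111983584987676353136362075420113947103244358126904882455697328660504904820831711148358386501543208562554227749158129871689461043411175583387980103157280099382548184054619732624459825363139867063561546482783728705733038823297100054852108763790992820347069159835301837365286950914066322121092235426463534757814822955358448189719702022204728267093848122049370566338782003442574654896190540598757845781715394610538663339552373936023726051063807804269835590072073484152608457801927300188386148317493040691541491588454364792748299987981700190747181265848811268617818632500915455708475726072289940146022680707330579340987140655647190673311980000489071317803338319489005259269881095862353804867133598612638502483137046739552402210370551429706873534513831263896376186135547392943462105029872912755643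841544711205856417173733975482136275865217111155347742526053425782561144335085962826483753816541701356337309780347677447482172043375898601981679268167454612861902994494997198724460706735488653684182873124095423031274049210465974818298878013987230272445088297661434029721964774471913084242173518537262492709313878230726302956872605790444180452307318682353095823914671495179768258889156229576155556852888933377443935082691522846322847228431178966986633063172396382426963176062771967488699430556404048963982234948216115945570060399350450153552616450818516252692433226406414471480240673702115869611225175555705440976714327645820613846689996776101243242407200579179176435686298252678851156351092880104903429485291541213504223657080844384125884343121262389181999397525486197184447985889542303681252544024380585987889507592663072182199692169820622232312690734029502222988037585611351080506602710182048829196309283588935900953726197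394934495119142334752833247486822596055120172851290168631582570976062524715088935915203293707905546072417683316141417019410970544102869239569366982469283592282172152419778044194602856245915355679303411005942183741794755688684906846811951594792089130636955531143426287316711665457353066704068594450610237844510560476361543310231772702074566469036938475052202667187519252056881211023937949012496247336886944892532267238338580894506357593766185881269146964146678765222145134441563203891618408808079635273806925689018461648328306660921434975363389448393384692194601217524675109627051577583380860214560678420332261528815645092173135481050569933982716786949809661509940117281067183185679649698858131275116534154469008884959509794400603411344452807049151474171209178244107964770081209915561354254603702694876269020984417114432800416455674444271594733121521617147345668914260728476206953198216307672779565743375968214250469838935775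180091752265097569092770764792916897921841786254779809956006449499127519992712132733963537860253387015873531795126311721043234366350013376780425036675781466669447256417251763642862129270593342466083072971096231905174084497377840805690623071957918876785200337020883659273475172087942911338046608759145017784637872416283406984188184555407597011647336969455323334809302737721877863459620943784471246338387903762741261307074403699681965148823467905449207964800010284214303726424677443735378623205084854712491796129446532590274720248155810856682663077020241274901166868034525222627803299680046304530390917621587006150411884803746405570200489790640653540470782069082066996731538774732437496633660727748425471173542976112514189591819441815947010964595830049742475588410770048509113725677503656258403574907547084218127962059830283661428804461434137083487466900211217818168667310322893897266818696044370035678902571329207732159355219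595103953420325255854449599297166173994397364072836308906899570743484412851998171630941875888352182063151666662798376210450318050190829480472105040417855698313914817773106557693093898955654225320230181862516415263772780306497671228820617478338574685533930399912751689512991335663703673890128330955163151896925020759305593030276804421404937881844873491646456714899540714986850426317015200990702473712250963157914847003435639039599659075683597247771517780797777686089471857109815222012395638237904765455428400774308115653626113853341316231797462045759478127800434276864534232431754079244130507037602371896471173324464035745101154433678149761170420890962243186888077479226256124073413385022339424306643593737262094707542307241786425833837368173534720046477207137005720289325782016518978046672100312261040607557689926850844771564953257752250575625897315871527011576698221572517807331899767408511600680644618188994936383163354721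194894884965469678164216811026127493093036447054560224221094976101715888493202886907357515803748915468640557803785719144433448097282993156411295979366765029818463561385362570866895914008966482147014253833856398747951453570795469347200026524525800133314106235673406126512026109035837225292933673181066955103146498335956799145007835712032375350426479732051717976199341560162414676107095173681121540111088535136389279603942940763862114659867956856866445228569021678250515845526074171585295964642320468172927524861127159265205983209532638732760499318736662354194666300357179043022134853470942908094648927700727602495549905134956248655957980157262692121061269459809766746487830614677138055176128770595167556445355125220503822540452710497483019794549884053818011821997783321762728438225563727185699097868556202789542140284799371043464750035496476102619033114309979100960918042458403344913145979665193610127035819633749879785458109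486183124823316320743067340426098086247614353335341351865839795368431764490956294934051350454701113406263497026400489384253152450046687059933532894886978929611030012745381361096116967250841239067059404170235578542584024376513947735002991712784353931510126847275420244215905019387623491807474866869550607940131578819974581424661753149589510985899404651164616429935015969114321153689341047312768076092815845482726422140749029718862560502528270100407514311208598939399962780885700099164725227807802687343835230150431958204232846766579428872733115531617015295536331987928456681154345682409135482162231582288223436482657169834474915646365812429061702332531720616013373881431942694635579698886189382273463997288345875502089142614107669348550768664401623189176054789339591130989717927911524827073416759999955740196593083601619978270767594674258963252033241337832114772679660380415327690431452788788681972774080060981404214706561238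501446452450759796802904332331963584611428770824245248586935883312945149468965159561096404553867596351675579613645346658516631535511669919883325135610536611774337439697904372154803364264269053574049302188899239197469451792126861916363528120728280865420965395860323767772753631755836991029678658153366432832545741710560409193769629433050342443837362313205962414536438768000775569046862094679634416762215642224290049250334913522625306931907755401824842288102199391391482899391069037303981689872662515569431208307736233511513262096114287275712122266387726761441672895802909250508088151807823880827288109880070603762608993431117983247813631141943123397498085576460256652581003910987112728094377370350191414273651799910574550683424747907904504018288526945850767203016274467183368244149871500823988222285340873640291642994940322209601268687836815536918503804043476278536738962793732943931928771155408781488728617281957965508698155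701034600018323460398567258322261337640750272390135093326472669522487834655902874051962292644034380558818021830856935621105000616773243453294518676135606309527609751493559637285834340892148840785774721940665170231061310703660382392516971853003285386308345333051162692365986714301240346358251193164580555149878690232683668519916605016716881695115429897944897532765031057462344747682517520180925283505940630970376786071894201072148526546793873296214929225853992588621990007499380572016662361015767817493313344730295741619319849647795678058222354576453697704525257712443064976993199749009416037467568087321600715827497184985462561612044670387449044308448240222086722236813291124469608729481899592657168830993874632583029244234523611347343598585282284985558774499281440351674085086737242737980834923764406150810443238355988402835916592846084784289904988411154001476821471604244266363496944879000755680687303644973060161918193527767902237669197977117213178637401633641754698120153500261128062093350317100769817856573440)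

end Vale.Agent.Lib.P154.PChain.BA.S12
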